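import Vale.Agent.Lib.P154.PChain.BJ.L

set_option linter.all false

namespace Vale.Agent.Lib.P154.PChain.BJ.S0

open Vale.Agent.Lib.P154.Chain

noncomputable def pc0 : PT := (PT.nd (nat_lit 4927728) (PT.nd (nat_lit 4765254) (PT.nd (nat_lit 4684056) (PT.nd (nat_lit 4643418) (PT.nd (nat_lit 4602936) (PT.nd (nat_lit 4602858) PT.nil (PT.lf (nat_lit 76) (nat_lit 6) (nat_lit 1) (nat_lit 3) (nat_lit 138) (nat_lit 113) (nat_lit 139))) (PT.lf (nat_lit 76) (nat_lit 6) (nat_lit 1) (nat_lit 1) (nat_lit 139) (nat_lit 113) (nat_lit 138))) (PT.nd (nat_lit 78) (PT.lf (nat_lit 152) (nat_lit 6) (nat_lit 2) (nat_lit 3) (nat_lit 137) (nat_lit 114) (nat_lit 139)) (PT.nd (nat_lit 78) (PT.lf (nat_lit 228) (nat_lit 3) (nat_lit 3) (nat_lit 1) (nat_lit 138) (nat_lit 114) (nat_lit 138)) (PT.lf (nat_lit 152) (nat_lit 6) (nat_lit 2) (nat_lit 1) (nat_lit 139) (nat_lit 114) (nat_lit 137))))) (PT.nd (nat_lit 40560)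 (PT.nd (nat_lit 78) (PT.lf (nat_lit 304) (nat_lit 6) (nat_lit 4) (nat_lit 3) (nat_lit 137) (nat_lit 115) (nat_lit 138)) (PT.lf (nat_lit 304) (nat_lit 6) (nat_lit 4) (nat_lit 1) (nat_lit 138) (nat_lit 115) (nat_lit 137))) (PT.nd (nat_lit 78) (PT.lf (nat_lit 380) (nat_lit 6) (nat_lit 5) (nat_lit 3) (nat_lit 136) (nat_lit 116) (nat_lit 138)) (PT.nd (nat_lit 78) (PT.lf (nat_lit 456) (nat_lit 3) (nat_lit 6) (nat_lit 1) (nat_lit 137) (nat_lit 116) (nat_lit 137)) (PT.lf (nat_lit 380) (nat_lit 6) (nat_lit 5) (nat_lit 1) (nat_lit 138) (nat_lit 116) (nat_lit 136)))))) (PT.nd (nat_lit 81198) (PT.nd (nat_lit 40560) (PT.nd (nat_lit 78) (PT.lf (nat_lit 532) (nat_lit 6) (nat_lit 7) (nat_lit 3) (nat_lit 136) (nat_lit 117) (nat_lit 137)) (PT.lf (nat_lit 532) (nat_lit 6) (nat_lit 7) (nat_lit 1) (nat_lit 137) (nat_lit 117) (nat_lit 136))) (PT.nd (nat_lit 78) (PT.lf (nat_lit 608) (nat_lit 6) (nat_lit 8)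 (nat_lit 3) (nat_lit 135) (nat_lit 118) (nat_lit 137)) (PT.nd (nat_lit 78) (PT.lf (nat_lit 684) (nat_lit 3) (nat_lit 9) (nat_lit 1) (nat_lit 136) (nat_lit 118) (nat_lit 136)) (PT.lf (nat_lit 608) (nat_lit 6) (nat_lit 8) (nat_lit 1) (nat_lit 137) (nat_lit 118) (nat_lit 135))))) (PT.nd (nat_lit 40638) (PT.nd (nat_lit 78) (PT.lf (nat_lit 760) (nat_lit 6) (nat_lit 10) (nat_lit 3) (nat_lit 135) (nat_lit 119) (nat_lit 136)) (PT.nd (nat_lit 40482) (PT.lf (nat_lit 760) (nat_lit 6) (nat_lit 10) (nat_lit 1) (nat_lit 136) (nat_lit 119) (nat_lit 135)) (PT.lf (nat_lit 836) (nat_lit 6) (nat_lit 11) (nat_lit 3) (nat_lit 134) (nat_lit 120) (nat_lit 136)))) (PT.nd (nat_lit 78) (PT.lf (nat_lit 912) (nat_lit 3) (nat_lit 12) (nat_lit 1) (nat_lit 135) (nat_lit 120) (nat_lit 135)) (PT.nd (nat_lit 40482) (PT.lf (nat_lit 836) (nat_lit 6) (nat_lit 11) (nat_lit 1) (nat_lit 136) (nat_lit 120) (nat_lit 134)) (PT.lf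 (nat_lit 988) (nat_lit 6) (nat_lit 13) (nat_lit 3) (nat_lit 134) (nat_lit 121) (nat_lit 135))))))) (PT.nd (nat_lit 121836) (PT.nd (nat_lit 81120) (PT.nd (nat_lit 40560) (PT.nd (nat_lit 40482) (PT.lf (nat_lit 988) (nat_lit 6) (nat_lit 13) (nat_lit 1) (nat_lit 135) (nat_lit 121) (nat_lit 134)) (PT.lf (nat_lit 1064) (nat_lit 6) (nat_lit 14) (nat_lit 3) (nat_lit 133) (nat_lit 122) (nat_lit 135))) (PT.nd (nat_lit 78) (PT.lf (nat_lit 1140) (nat_lit 3) (nat_lit 15) (nat_lit 1) (nat_lit 134) (nat_lit 122) (nat_lit 134)) (PT.nd (nat_lit 40404) (PT.lf (nat_lit 1064) (nat_lit 6) (nat_lit 14) (nat_lit 1) (nat_lit 135) (nat_lit 122) (nat_lit 133)) (PT.lf (nat_lit 1216) (nat_lit 6) (nat_lit 16) (nat_lit 3) (nat_lit 132) (nat_lit 123) (nat_lit 135))))) (PT.nd (nat_lit 156) (PT.nd (nat_lit 78) (PT.lf (nat_lit 1292) (nat_lit 6) (nat_lit 17) (nat_lit 3) (nat_lit 133) (nat_lit 123) (nat_lit 134)) (PT.lf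 (nat_lit 1292) (nat_lit 6) (nat_lit 17) (nat_lit 1) (nat_lit 134) (nat_lit 123) (nat_lit 133))) (PT.nd (nat_lit 40404) (PT.lf (nat_lit 1216) (nat_lit 6) (nat_lit 16) (nat_lit 1) (nat_lit 135) (nat_lit 123) (nat_lit 132)) (PT.nd (nat_lit 78) (PT.lf (nat_lit 1368) (nat_lit 6) (nat_lit 18) (nat_lit 3) (nat_lit 132) (nat_lit 124) (nat_lit 134)) (PT.lf (nat_lit 1444) (nat_lit 3) (nat_lit 19) (nat_lit 1) (nat_lit 133) (nat_lit 124) (nat_lit 133)))))) (PT.nd (nat_lit 80964) (PT.nd (nat_lit 40482) (PT.nd (nat_lit 40404) (PT.lf (nat_lit 1368) (nat_lit 6) (nat_lit 18) (nat_lit 1) (nat_lit 134) (nat_lit 124) (nat_lit 132)) (PT.lf (nat_lit 1520) (nat_lit 6) (nat_lit 20) (nat_lit 3) (nat_lit 131) (nat_lit 125) (nat_lit 134))) (PT.nd (nat_lit 78) (PT.lf (nat_lit 1596) (nat_lit 6) (nat_lit 21) (nat_lit 3) (nat_lit 132) (nat_lit 125) (nat_lit 133)) (PT.nd (nat_lit 78) (PT.lf (nat_lit 1596) (nat_lit 6)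 (nat_lit 21) (nat_lit 1) (nat_lit 133) (nat_lit 125) (nat_lit 132)) (PT.lf (nat_lit 1520) (nat_lit 6) (nat_lit 20) (nat_lit 1) (nat_lit 134) (nat_lit 125) (nat_lit 131))))) (PT.nd (nat_lit 234) (PT.nd (nat_lit 78) (PT.lf (nat_lit 1824) (nat_lit 6) (nat_lit 24) (nat_lit 3) (nat_lit 130) (nat_lit 126) (nat_lit 134)) (PT.nd (nat_lit 78) (PT.lf (nat_lit 1900) (nat_lit 6) (nat_lit 25) (nat_lit 3) (nat_lit 131) (nat_lit 126) (nat_lit 133)) (PT.lf (nat_lit 1976) (nat_lit 3) (nat_lit 26) (nat_lit 1) (nat_lit 132) (nat_lit 126) (nat_lit 132)))) (PT.nd (nat_lit 78) (PT.lf (nat_lit 1900) (nat_lit 6) (nat_lit 25) (nat_lit 1) (nat_lit 133) (nat_lit 126) (nat_lit 131)) (PT.nd (nat_lit 40248) (PT.lf (nat_lit 1824) (nat_lit 6) (nat_lit 24) (nat_lit 1) (nat_lit 134) (nat_lit 126) (nat_lit 130)) (PT.lf (nat_lit 1748) (nat_lit 6) (nat_lit 23) (nat_lit 3) (nat_lit 129) (nat_lit 127) (nat_lit 134))))))))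
noncomputable def pc1 : PT := (PT.nd (nat_lit 121680) (PT.nd (nat_lit 40872) (PT.nd (nat_lit 40482) (PT.nd (nat_lit 156) (PT.nd (nat_lit 78) (PT.lf (nat_lit 2128) (nat_lit 6) (nat_lit 28) (nat_lit 3) (nat_lit 130) (nat_lit 127) (nat_lit 133)) (PT.lf (nat_lit 2204) (nat_lit 6) (nat_lit 29) (nat_lit 3) (nat_lit 131) (nat_lit 127) (nat_lit 132))) (PT.nd (nat_lit 78) (PT.lf (nat_lit 2204) (nat_lit 6) (nat_lit 29) (nat_lit 1) (nat_lit 132) (nat_lit 127) (nat_lit 131)) (PT.nd (nat_lit 78) (PT.lf (nat_lit 2128) (nat_lit 6) (nat_lit 28) (nat_lit 1) (nat_lit 133) (nat_lit 127) (nat_lit 130)) (PT.lf (nat_lit 1748) (nat_lit 6) (nat_lit 23) (nat_lit 1) (nat_lit 134) (nat_lit 127) (nat_lit 129))))) (PT.nd (nat_lit 156) (PT.nd (nat_lit 78) (PT.lf (nat_lit 1672) (nat_lit 3) (nat_lit 22) (nat_lit 3) (nat_lit 128) (nat_lit 128) (nat_lit 134)) (PT.lf (nat_lit 2052) (nat_lit 6) (nat_lit 27) (nat_lit 3)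 (nat_lit 129) (nat_lit 128) (nat_lit 133))) (PT.nd (nat_lit 78) (PT.lf (nat_lit 2356) (nat_lit 6) (nat_lit 31) (nat_lit 3) (nat_lit 130) (nat_lit 128) (nat_lit 132)) (PT.nd (nat_lit 78) (PT.lf (nat_lit 2432) (nat_lit 3) (nat_lit 32) (nat_lit 1) (nat_lit 131) (nat_lit 128) (nat_lit 131)) (PT.lf (nat_lit 2356) (nat_lit 6) (nat_lit 31) (nat_lit 1) (nat_lit 132) (nat_lit 128) (nat_lit 130)))))) (PT.nd (nat_lit 40404) (PT.nd (nat_lit 40170) (PT.nd (nat_lit 78) (PT.lf (nat_lit 2052) (nat_lit 6) (nat_lit 27) (nat_lit 1) (nat_lit 133) (nat_lit 128) (nat_lit 129)) (PT.lf (nat_lit 1672) (nat_lit 3) (nat_lit 22) (nat_lit 0) (nat_lit 134) (nat_lit 128) (nat_lit 128))) (PT.nd (nat_lit 78) (PT.lf (nat_lit 1748) (nat_lit 6) (nat_lit 23) (nat_lit 5) (nat_lit 127) (nat_lit 129) (nat_lit 134)) (PT.nd (nat_lit 78) (PT.lf (nat_lit 2052) (nat_lit 6) (nat_lit 27) (nat_lit 5) (nat_lit 128) (nat_lit 129) (nat_lit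 133)) (PT.lf (nat_lit 2280) (nat_lit 3) (nat_lit 30) (nat_lit 3) (nat_lit 129) (nat_lit 129) (nat_lit 132))))) (PT.nd (nat_lit 234) (PT.nd (nat_lit 78) (PT.lf (nat_lit 2508) (nat_lit 6) (nat_lit 33) (nat_lit 3) (nat_lit 130) (nat_lit 129) (nat_lit 131)) (PT.nd (nat_lit 78) (PT.lf (nat_lit 2508) (nat_lit 6) (nat_lit 33) (nat_lit 1) (nat_lit 131) (nat_lit 129) (nat_lit 130)) (PT.lf (nat_lit 2280) (nat_lit 3) (nat_lit 30) (nat_lit 0) (nat_lit 132) (nat_lit 129) (nat_lit 129)))) (PT.nd (nat_lit 78) (PT.lf (nat_lit 2052) (nat_lit 6) (nat_lit 27) (nat_lit 0) (nat_lit 133) (nat_lit 129) (nat_lit 128)) (PT.nd (nat_lit 40014) (PT.lf (nat_lit 1748) (nat_lit 6) (nat_lit 23) (nat_lit 0) (nat_lit 134) (nat_lit 129) (nat_lit 127)) (PT.lf (nat_lit 1824) (nat_lit 6) (nat_lit 24) (nat_lit 5) (nat_lit 126) (nat_lit 130) (nat_lit 134))))))) (PT.nd (nat_lit 40638) (PT.nd (nat_lit 390) (PT.nd (nat_lit 156)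 (PT.nd (nat_lit 78) (PT.lf (nat_lit 2128) (nat_lit 6) (nat_lit 28) (nat_lit 5) (nat_lit 127) (nat_lit 130) (nat_lit 133)) (PT.lf (nat_lit 2356) (nat_lit 6) (nat_lit 31) (nat_lit 5) (nat_lit 128) (nat_lit 130) (nat_lit 132))) (PT.nd (nat_lit 78) (PT.lf (nat_lit 2508) (nat_lit 6) (nat_lit 33) (nat_lit 5) (nat_lit 129) (nat_lit 130) (nat_lit 131)) (PT.nd (nat_lit 78) (PT.lf (nat_lit 2584) (nat_lit 1) (nat_lit 34) (nat_lit 0) (nat_lit 130) (nat_lit 130) (nat_lit 130)) (PT.lf (nat_lit 2508) (nat_lit 6) (nat_lit 33) (nat_lit 0) (nat_lit 131) (nat_lit 130) (nat_lit 129))))) (PT.nd (nat_lit 156) (PT.nd (nat_lit 78) (PT.lf (nat_lit 2356) (nat_lit 6) (nat_lit 31) (nat_lit 0) (nat_lit 132) (nat_lit 130) (nat_lit 128)) (PT.lf (nat_lit 2128) (nat_lit 6) (nat_lit 28) (nat_lit 0) (nat_lit 133) (nat_lit 130) (nat_lit 127))) (PT.nd (nat_lit 39936) (PT.lf (nat_lit 1824) (nat_lit 6) (nat_lit 24) (nat_lit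 0) (nat_lit 134) (nat_lit 130) (nat_lit 126)) (PT.nd (nat_lit 78) (PT.lf (nat_lit 1520) (nat_lit 6) (nat_lit 20) (nat_lit 5) (nat_lit 125) (nat_lit 131) (nat_lit 134)) (PT.lf (nat_lit 1900) (nat_lit 6) (nat_lit 25) (nat_lit 5) (nat_lit 126) (nat_lit 131) (nat_lit 133)))))) (PT.nd (nat_lit 390) (PT.nd (nat_lit 156) (PT.nd (nat_lit 78) (PT.lf (nat_lit 2204) (nat_lit 6) (nat_lit 29) (nat_lit 5) (nat_lit 127) (nat_lit 131) (nat_lit 132)) (PT.lf (nat_lit 2432) (nat_lit 3) (nat_lit 32) (nat_lit 4) (nat_lit 128) (nat_lit 131) (nat_lit 131))) (PT.nd (nat_lit 78) (PT.lf (nat_lit 2508) (nat_lit 6) (nat_lit 33) (nat_lit 4) (nat_lit 129) (nat_lit 131) (nat_lit 130)) (PT.nd (nat_lit 78) (PT.lf (nat_lit 2508) (nat_lit 6) (nat_lit 33) (nat_lit 2) (nat_lit 130) (nat_lit 131) (nat_lit 129)) (PT.lf (nat_lit 2432) (nat_lit 3) (nat_lit 32) (nat_lit 0) (nat_lit 131) (nat_lit 131) (nat_lit 128))))) (PT.nd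 (nat_lit 39936) (PT.nd (nat_lit 78) (PT.lf (nat_lit 2204) (nat_lit 6) (nat_lit 29) (nat_lit 0) (nat_lit 132) (nat_lit 131) (nat_lit 127)) (PT.nd (nat_lit 78) (PT.lf (nat_lit 1900) (nat_lit 6) (nat_lit 25) (nat_lit 0) (nat_lit 133) (nat_lit 131) (nat_lit 126)) (PT.lf (nat_lit 1520) (nat_lit 6) (nat_lit 20) (nat_lit 0) (nat_lit 134) (nat_lit 131) (nat_lit 125)))) (PT.nd (nat_lit 78) (PT.lf (nat_lit 1216) (nat_lit 6) (nat_lit 16) (nat_lit 5) (nat_lit 123) (nat_lit 132) (nat_lit 135)) (PT.nd (nat_lit 78) (PT.lf (nat_lit 1368) (nat_lit 6) (nat_lit 18) (nat_lit 5) (nat_lit 124) (nat_lit 132) (nat_lit 134)) (PT.lf (nat_lit 1596) (nat_lit 6) (nat_lit 21) (nat_lit 5) (nat_lit 125) (nat_lit 132) (nat_lit 133))))))))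
noncomputable def pc2 : PT := (PT.nd (nat_lit 41184) (PT.nd (nat_lit 40326) (PT.nd (nat_lit 390) (PT.nd (nat_lit 156) (PT.nd (nat_lit 78) (PT.lf (nat_lit 1976) (nat_lit 3) (nat_lit 26) (nat_lit 4) (nat_lit 126) (nat_lit 132) (nat_lit 132)) (PT.lf (nat_lit 2204) (nat_lit 6) (nat_lit 29) (nat_lit 4) (nat_lit 127) (nat_lit 132) (nat_lit 131))) (PT.nd (nat_lit 78) (PT.lf (nat_lit 2356) (nat_lit 6) (nat_lit 31) (nat_lit 4) (nat_lit 128) (nat_lit 132) (nat_lit 130)) (PT.nd (nat_lit 78) (PT.lf (nat_lit 2280) (nat_lit 3) (nat_lit 30) (nat_lit 2) (nat_lit 129) (nat_lit 132) (nat_lit 129)) (PT.lf (nat_lit 2356) (nat_lit 6) (nat_lit 31) (nat_lit 2) (nat_lit 130) (nat_lit 132) (nat_lit 128))))) (PT.nd (nat_lit 156) (PT.nd (nat_lit 78) (PT.lf (nat_lit 2204) (nat_lit 6) (nat_lit 29) (nat_lit 2) (nat_lit 131) (nat_lit 132) (nat_lit 127)) (PT.lf (nat_lit 1976) (nat_lit 3) (nat_lit 26) (nat_lit 0) (nat_lit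 132) (nat_lit 132) (nat_lit 126))) (PT.nd (nat_lit 78) (PT.lf (nat_lit 1596) (nat_lit 6) (nat_lit 21) (nat_lit 0) (nat_lit 133) (nat_lit 132) (nat_lit 125)) (PT.nd (nat_lit 78) (PT.lf (nat_lit 1368) (nat_lit 6) (nat_lit 18) (nat_lit 0) (nat_lit 134) (nat_lit 132) (nat_lit 124)) (PT.lf (nat_lit 1216) (nat_lit 6) (nat_lit 16) (nat_lit 0) (nat_lit 135) (nat_lit 132) (nat_lit 123)))))) (PT.nd (nat_lit 390) (PT.nd (nat_lit 156) (PT.nd (nat_lit 78) (PT.lf (nat_lit 1064) (nat_lit 6) (nat_lit 14) (nat_lit 5) (nat_lit 122) (nat_lit 133) (nat_lit 135)) (PT.lf (nat_lit 1292) (nat_lit 6) (nat_lit 17) (nat_lit 5) (nat_lit 123) (nat_lit 133) (nat_lit 134))) (PT.nd (nat_lit 78) (PT.lf (nat_lit 1444) (nat_lit 3) (nat_lit 19) (nat_lit 4) (nat_lit 124) (nat_lit 133) (nat_lit 133)) (PT.nd (nat_lit 78) (PT.lf (nat_lit 1596) (nat_lit 6) (nat_lit 21) (nat_lit 4) (nat_lit 125) (nat_lit 133) (nat_lit 132)) (PT.lf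 (nat_lit 1900) (nat_lit 6) (nat_lit 25) (nat_lit 4) (nat_lit 126) (nat_lit 133) (nat_lit 131))))) (PT.nd (nat_lit 234) (PT.nd (nat_lit 78) (PT.lf (nat_lit 2128) (nat_lit 6) (nat_lit 28) (nat_lit 4) (nat_lit 127) (nat_lit 133) (nat_lit 130)) (PT.nd (nat_lit 78) (PT.lf (nat_lit 2052) (nat_lit 6) (nat_lit 27) (nat_lit 4) (nat_lit 128) (nat_lit 133) (nat_lit 129)) (PT.lf (nat_lit 2052) (nat_lit 6) (nat_lit 27) (nat_lit 2) (nat_lit 129) (nat_lit 133) (nat_lit 128)))) (PT.nd (nat_lit 78) (PT.lf (nat_lit 2128) (nat_lit 6) (nat_lit 28) (nat_lit 2) (nat_lit 130) (nat_lit 133) (nat_lit 127)) (PT.nd (nat_lit 78) (PT.lf (nat_lit 1900) (nat_lit 6) (nat_lit 25) (nat_lit 2) (nat_lit 131) (nat_lit 133) (nat_lit 126)) (PT.lf (nat_lit 1596) (nat_lit 6) (nat_lit 21) (nat_lit 2) (nat_lit 132) (nat_lit 133) (nat_lit 125))))))) (PT.nd (nat_lit 40170) (PT.nd (nat_lit 39780) (PT.nd (nat_lit 156) (PT.nd (nat_lit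 78) (PT.lf (nat_lit 1444) (nat_lit 3) (nat_lit 19) (nat_lit 0) (nat_lit 133) (nat_lit 133) (nat_lit 124)) (PT.lf (nat_lit 1292) (nat_lit 6) (nat_lit 17) (nat_lit 0) (nat_lit 134) (nat_lit 133) (nat_lit 123))) (PT.nd (nat_lit 39468) (PT.lf (nat_lit 1064) (nat_lit 6) (nat_lit 14) (nat_lit 0) (nat_lit 135) (nat_lit 133) (nat_lit 122)) (PT.nd (nat_lit 78) (PT.lf (nat_lit 836) (nat_lit 6) (nat_lit 11) (nat_lit 5) (nat_lit 120) (nat_lit 134) (nat_lit 136)) (PT.lf (nat_lit 988) (nat_lit 6) (nat_lit 13) (nat_lit 5) (nat_lit 121) (nat_lit 134) (nat_lit 135))))) (PT.nd (nat_lit 156) (PT.nd (nat_lit 78) (PT.lf (nat_lit 1140) (nat_lit 3) (nat_lit 15) (nat_lit 4) (nat_lit 122) (nat_lit 134) (nat_lit 134)) (PT.lf (nat_lit 1292) (nat_lit 6) (nat_lit 17) (nat_lit 4) (nat_lit 123) (nat_lit 134) (nat_lit 133))) (PT.nd (nat_lit 78) (PT.lf (nat_lit 1368) (nat_lit 6) (nat_lit 18) (nat_lit 4) (nat_lit 124)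 (nat_lit 134) (nat_lit 132)) (PT.nd (nat_lit 78) (PT.lf (nat_lit 1520) (nat_lit 6) (nat_lit 20) (nat_lit 4) (nat_lit 125) (nat_lit 134) (nat_lit 131)) (PT.lf (nat_lit 1824) (nat_lit 6) (nat_lit 24) (nat_lit 4) (nat_lit 126) (nat_lit 134) (nat_lit 130)))))) (PT.nd (nat_lit 390) (PT.nd (nat_lit 156) (PT.nd (nat_lit 78) (PT.lf (nat_lit 1748) (nat_lit 6) (nat_lit 23) (nat_lit 4) (nat_lit 127) (nat_lit 134) (nat_lit 129)) (PT.lf (nat_lit 1672) (nat_lit 3) (nat_lit 22) (nat_lit 2) (nat_lit 128) (nat_lit 134) (nat_lit 128))) (PT.nd (nat_lit 78) (PT.lf (nat_lit 1748) (nat_lit 6) (nat_lit 23) (nat_lit 2) (nat_lit 129) (nat_lit 134) (nat_lit 127)) (PT.nd (nat_lit 78) (PT.lf (nat_lit 1824) (nat_lit 6) (nat_lit 24) (nat_lit 2) (nat_lit 130) (nat_lit 134) (nat_lit 126)) (PT.lf (nat_lit 1520) (nat_lit 6) (nat_lit 20) (nat_lit 2) (nat_lit 131) (nat_lit 134) (nat_lit 125))))) (PT.nd (nat_lit 234) (PT.nd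 (nat_lit 78) (PT.lf (nat_lit 1368) (nat_lit 6) (nat_lit 18) (nat_lit 2) (nat_lit 132) (nat_lit 134) (nat_lit 124)) (PT.nd (nat_lit 78) (PT.lf (nat_lit 1292) (nat_lit 6) (nat_lit 17) (nat_lit 2) (nat_lit 133) (nat_lit 134) (nat_lit 123)) (PT.lf (nat_lit 1140) (nat_lit 3) (nat_lit 15) (nat_lit 0) (nat_lit 134) (nat_lit 134) (nat_lit 122)))) (PT.nd (nat_lit 78) (PT.lf (nat_lit 988) (nat_lit 6) (nat_lit 13) (nat_lit 0) (nat_lit 135) (nat_lit 134) (nat_lit 121)) (PT.nd (nat_lit 39234) (PT.lf (nat_lit 836) (nat_lit 6) (nat_lit 11) (nat_lit 0) (nat_lit 136) (nat_lit 134) (nat_lit 120)) (PT.lf (nat_lit 608) (nat_lit 6) (nat_lit 8) (nat_lit 5) (nat_lit 118) (nat_lit 135) (nat_lit 137))))))))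
noncomputable def pc3 : PT := (PT.nd (nat_lit 80886) (PT.nd (nat_lit 1404) (PT.nd (nat_lit 1014) (PT.nd (nat_lit 156) (PT.nd (nat_lit 78) (PT.lf (nat_lit 760) (nat_lit 6) (nat_lit 10) (nat_lit 5) (nat_lit 119) (nat_lit 135) (nat_lit 136)) (PT.lf (nat_lit 912) (nat_lit 3) (nat_lit 12) (nat_lit 4) (nat_lit 120) (nat_lit 135) (nat_lit 135))) (PT.nd (nat_lit 78) (PT.lf (nat_lit 988) (nat_lit 6) (nat_lit 13) (nat_lit 4) (nat_lit 121) (nat_lit 135) (nat_lit 134)) (PT.nd (nat_lit 78) (PT.lf (nat_lit 1064) (nat_lit 6) (nat_lit 14) (nat_lit 4) (nat_lit 122) (nat_lit 135) (nat_lit 133)) (PT.lf (nat_lit 1216) (nat_lit 6) (nat_lit 16) (nat_lit 4) (nat_lit 123) (nat_lit 135) (nat_lit 132))))) (PT.nd (nat_lit 156) (PT.nd (nat_lit 78) (PT.lf (nat_lit 1216) (nat_lit 6) (nat_lit 16) (nat_lit 2) (nat_lit 132) (nat_lit 135) (nat_lit 123)) (PT.lf (nat_lit 1064) (nat_lit 6) (nat_lit 14) (nat_lit 2) (nat_lit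 133) (nat_lit 135) (nat_lit 122))) (PT.nd (nat_lit 78) (PT.lf (nat_lit 988) (nat_lit 6) (nat_lit 13) (nat_lit 2) (nat_lit 134) (nat_lit 135) (nat_lit 121)) (PT.nd (nat_lit 78) (PT.lf (nat_lit 912) (nat_lit 3) (nat_lit 12) (nat_lit 0) (nat_lit 135) (nat_lit 135) (nat_lit 120)) (PT.lf (nat_lit 760) (nat_lit 6) (nat_lit 10) (nat_lit 0) (nat_lit 136) (nat_lit 135) (nat_lit 119)))))) (PT.nd (nat_lit 39312) (PT.nd (nat_lit 39078) (PT.nd (nat_lit 39000) (PT.lf (nat_lit 608) (nat_lit 6) (nat_lit 8) (nat_lit 0) (nat_lit 137) (nat_lit 135) (nat_lit 118)) (PT.lf (nat_lit 380) (nat_lit 6) (nat_lit 5) (nat_lit 5) (nat_lit 116) (nat_lit 136) (nat_lit 138))) (PT.nd (nat_lit 78) (PT.lf (nat_lit 532) (nat_lit 6) (nat_lit 7) (nat_lit 5) (nat_lit 117) (nat_lit 136) (nat_lit 137)) (PT.nd (nat_lit 78) (PT.lf (nat_lit 684) (nat_lit 3) (nat_lit 9) (nat_lit 4) (nat_lit 118) (nat_lit 136) (nat_lit 136)) (PT.lf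 (nat_lit 760) (nat_lit 6) (nat_lit 10) (nat_lit 4) (nat_lit 119) (nat_lit 136) (nat_lit 135))))) (PT.nd (nat_lit 1248) (PT.nd (nat_lit 1092) (PT.lf (nat_lit 836) (nat_lit 6) (nat_lit 11) (nat_lit 4) (nat_lit 120) (nat_lit 136) (nat_lit 134)) (PT.nd (nat_lit 78) (PT.lf (nat_lit 836) (nat_lit 6) (nat_lit 11) (nat_lit 2) (nat_lit 134) (nat_lit 136) (nat_lit 120)) (PT.lf (nat_lit 760) (nat_lit 6) (nat_lit 10) (nat_lit 2) (nat_lit 135) (nat_lit 136) (nat_lit 119)))) (PT.nd (nat_lit 78) (PT.lf (nat_lit 684) (nat_lit 3) (nat_lit 9) (nat_lit 0) (nat_lit 136) (nat_lit 136) (nat_lit 118)) (PT.nd (nat_lit 78) (PT.lf (nat_lit 532) (nat_lit 6) (nat_lit 7) (nat_lit 0) (nat_lit 137) (nat_lit 136) (nat_lit 117)) (PT.lf (nat_lit 380) (nat_lit 6) (nat_lit 5) (nat_lit 0) (nat_lit 138) (nat_lit 136) (nat_lit 116))))))) (PT.nd (nat_lit 40638) (PT.nd (nat_lit 1638) (PT.nd (nat_lit 156) (PT.nd (nat_lit 78)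 (PT.lf (nat_lit 152) (nat_lit 6) (nat_lit 2) (nat_lit 5) (nat_lit 114) (nat_lit 137) (nat_lit 139)) (PT.lf (nat_lit 304) (nat_lit 6) (nat_lit 4) (nat_lit 5) (nat_lit 115) (nat_lit 137) (nat_lit 138))) (PT.nd (nat_lit 78) (PT.lf (nat_lit 456) (nat_lit 3) (nat_lit 6) (nat_lit 4) (nat_lit 116) (nat_lit 137) (nat_lit 137)) (PT.nd (nat_lit 78) (PT.lf (nat_lit 532) (nat_lit 6) (nat_lit 7) (nat_lit 4) (nat_lit 117) (nat_lit 137) (nat_lit 136)) (PT.lf (nat_lit 608) (nat_lit 6) (nat_lit 8) (nat_lit 4) (nat_lit 118) (nat_lit 137) (nat_lit 135))))) (PT.nd (nat_lit 234) (PT.nd (nat_lit 78) (PT.lf (nat_lit 608) (nat_lit 6) (nat_lit 8) (nat_lit 2) (nat_lit 135) (nat_lit 137) (nat_lit 118)) (PT.nd (nat_lit 78) (PT.lf (nat_lit 532) (nat_lit 6) (nat_lit 7) (nat_lit 2) (nat_lit 136) (nat_lit 137) (nat_lit 117)) (PT.lf (nat_lit 456) (nat_lit 3) (nat_lit 6) (nat_lit 0) (nat_lit 137) (nat_lit 137) (nat_lit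 116)))) (PT.nd (nat_lit 78) (PT.lf (nat_lit 304) (nat_lit 6) (nat_lit 4) (nat_lit 0) (nat_lit 138) (nat_lit 137) (nat_lit 115)) (PT.nd (nat_lit 38610) (PT.lf (nat_lit 152) (nat_lit 6) (nat_lit 2) (nat_lit 0) (nat_lit 139) (nat_lit 137) (nat_lit 114)) (PT.lf (nat_lit 76) (nat_lit 6) (nat_lit 1) (nat_lit 5) (nat_lit 113) (nat_lit 138) (nat_lit 139)))))) (PT.nd (nat_lit 1872) (PT.nd (nat_lit 156) (PT.nd (nat_lit 78) (PT.lf (nat_lit 228) (nat_lit 3) (nat_lit 3) (nat_lit 4) (nat_lit 114) (nat_lit 138) (nat_lit 138)) (PT.lf (nat_lit 304) (nat_lit 6) (nat_lit 4) (nat_lit 4) (nat_lit 115) (nat_lit 138) (nat_lit 137))) (PT.nd (nat_lit 1560) (PT.lf (nat_lit 380) (nat_lit 6) (nat_lit 5) (nat_lit 4) (nat_lit 116) (nat_lit 138) (nat_lit 136)) (PT.nd (nat_lit 78) (PT.lf (nat_lit 380) (nat_lit 6) (nat_lit 5) (nat_lit 2) (nat_lit 136) (nat_lit 138) (nat_lit 116)) (PT.lf (nat_lit 304) (nat_lit 6) (nat_lit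 4) (nat_lit 2) (nat_lit 137) (nat_lit 138) (nat_lit 115))))) (PT.nd (nat_lit 38766) (PT.nd (nat_lit 78) (PT.lf (nat_lit 228) (nat_lit 3) (nat_lit 3) (nat_lit 0) (nat_lit 138) (nat_lit 138) (nat_lit 114)) (PT.nd (nat_lit 38610) (PT.lf (nat_lit 76) (nat_lit 6) (nat_lit 1) (nat_lit 0) (nat_lit 139) (nat_lit 138) (nat_lit 113)) (PT.lf (nat_lit 76) (nat_lit 6) (nat_lit 1) (nat_lit 4) (nat_lit 113) (nat_lit 139) (nat_lit 138)))) (PT.nd (nat_lit 1794) (PT.lf (nat_lit 152) (nat_lit 6) (nat_lit 2) (nat_lit 4) (nat_lit 114) (nat_lit 139) (nat_lit 137)) (PT.nd (nat_lit 78) (PT.lf (nat_lit 152) (nat_lit 6) (nat_lit 2) (nat_lit 2) (nat_lit 137) (nat_lit 139) (nat_lit 114)) (PT.lf (nat_lit 76) (nat_lit 6) (nat_lit 1) (nat_lit 2) (nat_lit 138) (nat_lit 139) (nat_lit 113))))))))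
noncomputable def xc0 : XT := (XT.nd (nat_lit 364650) (nat_lit 0) (nat_lit 0) (XT.nd (nat_lit 121758) (nat_lit 0) (nat_lit 0) (XT.nd (nat_lit 40638) (nat_lit 0) (nat_lit 0) (XT.nd (nat_lit 40482) (nat_lit 0) (nat_lit 0) (XT.nd (nat_lit 78) (nat_lit 0) (nat_lit 0) (XT.lf (nat_lit 0) (nat_lit 131539160887108) (nat_lit 152) (nat_lit 325794568249230) (nat_lit 0) (nat_lit 131539160887108) (nat_lit 1) (nat_lit 5) (nat_lit 3) (nat_lit 4) (nat_lit 1) (nat_lit 4) (nat_lit 360) (nat_lit 210) (nat_lit 210)) (XT.lf (nat_lit 0) (nat_lit 302540098610036) (nat_lit 152) (nat_lit 749327446201661) (nat_lit 0) (nat_lit 302540097804766) (nat_lit 1) (nat_lit 5) (nat_lit 3) (nat_lit 4) (nat_lit 1) (nat_lit 4) (nat_lit 361) (nat_lit 210) (nat_lit 209))) (XT.nd (nat_lit 78) (nat_lit 0) (nat_lit 0) (XT.lf (nat_lit 0) (nat_lit 99462477732912) (nat_lit 152) (nat_lit 246347555228533) (nat_lit 0) (nat_lit 99462477732912)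 (nat_lit 1) (nat_lit 5) (nat_lit 3) (nat_lit 4) (nat_lit 1) (nat_lit 4) (nat_lit 358) (nat_lit 211) (nat_lit 211)) (XT.lf (nat_lit 0) (nat_lit 228763731640836) (nat_lit 152) (nat_lit 566599307138321) (nat_lit 0) (nat_lit 228763730714776) (nat_lit 1) (nat_lit 5) (nat_lit 3) (nat_lit 4) (nat_lit 1) (nat_lit 4) (nat_lit 359) (nat_lit 211) (nat_lit 210)))) (XT.nd (nat_lit 40482) (nat_lit 0) (nat_lit 0) (XT.nd (nat_lit 40404) (nat_lit 0) (nat_lit 0) (XT.lf (nat_lit 0) (nat_lit 263078321359562) (nat_lit 152) (nat_lit 651589139260805) (nat_lit 0) (nat_lit 263078319628231) (nat_lit 1) (nat_lit 5) (nat_lit 3) (nat_lit 4) (nat_lit 1) (nat_lit 4) (nat_lit 360) (nat_lit 211) (nat_lit 209)) (XT.lf (nat_lit 0) (nat_lit 172978191756940) (nat_lit 152) (nat_lit 428430597542840) (nat_lit 0) (nat_lit 172978190691971) (nat_lit 1) (nat_lit 5) (nat_lit 3) (nat_lit 4) (nat_lit 1) (nat_lit 4) (nat_lit 357) (nat_lit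 212) (nat_lit 211))) (XT.nd (nat_lit 78) (nat_lit 0) (nat_lit 0) (XT.lf (nat_lit 0) (nat_lit 198924954988971) (nat_lit 152) (nat_lit 492695113633762) (nat_lit 0) (nat_lit 198924952997941) (nat_lit 1) (nat_lit 5) (nat_lit 3) (nat_lit 4) (nat_lit 1) (nat_lit 4) (nat_lit 358) (nat_lit 212) (nat_lit 210)) (XT.nd (nat_lit 40482) (nat_lit 0) (nat_lit 0) (XT.lf (nat_lit 0) (nat_lit 228763729823267) (nat_lit 152) (nat_lit 566599313077361) (nat_lit 0) (nat_lit 228763727026968) (nat_lit 1) (nat_lit 5) (nat_lit 3) (nat_lit 4) (nat_lit 1) (nat_lit 4) (nat_lit 359) (nat_lit 212) (nat_lit 209)) (XT.lf (nat_lit 0) (nat_lit 172978189666735) (nat_lit 152) (nat_lit 428430604372736) (nat_lit 0) (nat_lit 172978186450991) (nat_lit 1) (nat_lit 5) (nat_lit 3) (nat_lit 4) (nat_lit 1) (nat_lit 4) (nat_lit 357) (nat_lit 213) (nat_lit 210)))))) (XT.nd (nat_lit 202254) (nat_lit 0) (nat_lit 0) (XT.nd (nat_lit 161694)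 (nat_lit 0) (nat_lit 0) (XT.nd (nat_lit 161616) (nat_lit 0) (nat_lit 0) (XT.lf (nat_lit 0) (nat_lit 198924951558050) (nat_lit 152) (nat_lit 492695123226002) (nat_lit 0) (nat_lit 198924947537036) (nat_lit 1) (nat_lit 5) (nat_lit 3) (nat_lit 4) (nat_lit 1) (nat_lit 4) (nat_lit 358) (nat_lit 213) (nat_lit 209)) (XT.lf (nat_lit 0) (nat_lit 18590088261162) (nat_lit 152) (nat_lit 46044464714969) (nat_lit 0) (nat_lit 18590088261162) (nat_lit 1) (nat_lit 5) (nat_lit 3) (nat_lit 4) (nat_lit 1) (nat_lit 4) (nat_lit 346) (nat_lit 217) (nat_lit 217))) (XT.nd (nat_lit 40404) (nat_lit 0) (nat_lit 0) (XT.lf (nat_lit 0) (nat_lit 42757278996606) (nat_lit 152) (nat_lit 105902107190848) (nat_lit 0) (nat_lit 42757276854572) (nat_lit 1) (nat_lit 5) (nat_lit 3) (nat_lit 4) (nat_lit 1) (nat_lit 4) (nat_lit 347) (nat_lit 217) (nat_lit 216)) (XT.nd (nat_lit 78) (nat_lit 0) (nat_lit 0) (XT.lf (nat_lit 0) (nat_lit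 14056708955388) (nat_lit 152) (nat_lit 34816378324517) (nat_lit 0) (nat_lit 14056708955388) (nat_lit 1) (nat_lit 5) (nat_lit 3) (nat_lit 4) (nat_lit 1) (nat_lit 4) (nat_lit 344) (nat_lit 218) (nat_lit 218)) (XT.lf (nat_lit 0) (nat_lit 32330517992715) (nat_lit 152) (nat_lit 80077484244770) (nat_lit 0) (nat_lit 32330515529376) (nat_lit 1) (nat_lit 5) (nat_lit 3) (nat_lit 4) (nat_lit 1) (nat_lit 4) (nat_lit 345) (nat_lit 218) (nat_lit 217))))) (XT.nd (nat_lit 40404) (nat_lit 0) (nat_lit 0) (XT.nd (nat_lit 40326) (nat_lit 0) (nat_lit 0) (XT.lf (nat_lit 0) (nat_lit 37180175419333) (nat_lit 152) (nat_lit 92088936777829) (nat_lit 0) (nat_lit 37180170813961) (nat_lit 1) (nat_lit 5) (nat_lit 3) (nat_lit 4) (nat_lit 1) (nat_lit 4) (nat_lit 346) (nat_lit 218) (nat_lit 216)) (XT.lf (nat_lit 0) (nat_lit 10628812618206) (nat_lit 152) (nat_lit 26326354091949) (nat_lit 0) (nat_lit 10628812618206) (nat_lit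 1) (nat_lit 5) (nat_lit 3) (nat_lit 4) (nat_lit 1) (nat_lit 4) (nat_lit 342) (nat_lit 219) (nat_lit 219))) (XT.nd (nat_lit 78) (nat_lit 0) (nat_lit 0) (XT.lf (nat_lit 0) (nat_lit 24446369526494) (nat_lit 152) (nat_lit 60550400624620) (nat_lit 0) (nat_lit 24446366693654) (nat_lit 1) (nat_lit 5) (nat_lit 3) (nat_lit 4) (nat_lit 1) (nat_lit 4) (nat_lit 343) (nat_lit 219) (nat_lit 218)) (XT.nd (nat_lit 78) (nat_lit 0) (nat_lit 0) (XT.lf (nat_lit 0) (nat_lit 28113416642336) (nat_lit 152) (nat_lit 69632765099108) (nat_lit 0) (nat_lit 28113411346157) (nat_lit 1) (nat_lit 5) (nat_lit 3) (nat_lit 4) (nat_lit 1) (nat_lit 4) (nat_lit 344) (nat_lit 219) (nat_lit 217)) (XT.lf (nat_lit 0) (nat_lit 32330513157944) (nat_lit 152) (nat_lit 80077500042734) (nat_lit 0) (nat_lit 32330505719731) (nat_lit 1) (nat_lit 5) (nat_lit 3) (nat_lit 4) (nat_lit 1) (nat_lit 4) (nat_lit 345) (nat_lit 219) (nat_lit 216)))))))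 (XT.nd (nat_lit 80886) (nat_lit 0) (nat_lit 0) (XT.nd (nat_lit 40482) (nat_lit 0) (nat_lit 0) (XT.nd (nat_lit 40248) (nat_lit 0) (nat_lit 0) (XT.nd (nat_lit 40170) (nat_lit 0) (nat_lit 0) (XT.lf (nat_lit 0) (nat_lit 37180167483406) (nat_lit 152) (nat_lit 92088958965263) (nat_lit 0) (nat_lit 37180158182555) (nat_lit 1) (nat_lit 5) (nat_lit 3) (nat_lit 4) (nat_lit 1) (nat_lit 4) (nat_lit 346) (nat_lit 219) (nat_lit 215)) (XT.lf (nat_lit 0) (nat_lit 8036818684479) (nat_lit 152) (nat_lit 19906701548844) (nat_lit 0) (nat_lit 8036818684479) (nat_lit 1) (nat_lit 5) (nat_lit 3) (nat_lit 4) (nat_lit 1) (nat_lit 4) (nat_lit 340) (nat_lit 220) (nat_lit 220))) (XT.nd (nat_lit 78) (nat_lit 0) (nat_lit 0) (XT.lf (nat_lit 0) (nat_lit 18484798554615) (nat_lit 152) (nat_lit 45785167707450) (nat_lit 0) (nat_lit 18484795296849) (nat_lit 1) (nat_lit 5) (nat_lit 3) (nat_lit 4) (nat_lit 1) (nat_lit 4) (nat_lit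 341) (nat_lit 220) (nat_lit 219)) (XT.nd (nat_lit 78) (nat_lit 0) (nat_lit 0) (XT.lf (nat_lit 0) (nat_lit 21257623777705) (nat_lit 152) (nat_lit 52652717901483) (nat_lit 0) (nat_lit 21257617687100) (nat_lit 1) (nat_lit 5) (nat_lit 3) (nat_lit 4) (nat_lit 1) (nat_lit 4) (nat_lit 342) (nat_lit 220) (nat_lit 218)) (XT.lf (nat_lit 0) (nat_lit 24446363966507) (nat_lit 152) (nat_lit 60550418792278) (nat_lit 0) (nat_lit 24446355412563) (nat_lit 1) (nat_lit 5) (nat_lit 3) (nat_lit 4) (nat_lit 1) (nat_lit 4) (nat_lit 343) (nat_lit 220) (nat_lit 217))))) (XT.nd (nat_lit 40170) (nat_lit 0) (nat_lit 0) (XT.nd (nat_lit 78) (nat_lit 0) (nat_lit 0) (XT.lf (nat_lit 0) (nat_lit 28113407516019) (nat_lit 152) (nat_lit 69632790614657) (nat_lit 0) (nat_lit 28113396820041) (nat_lit 1) (nat_lit 5) (nat_lit 3) (nat_lit 4) (nat_lit 1) (nat_lit 4) (nat_lit 344) (nat_lit 220) (nat_lit 216)) (XT.lf (nat_lit 0) (nat_lit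 32330500930470) (nat_lit 152) (nat_lit 80077531947752) (nat_lit 0) (nat_lit 32330488371854) (nat_lit 1) (nat_lit 5) (nat_lit 3) (nat_lit 4) (nat_lit 1) (nat_lit 4) (nat_lit 345) (nat_lit 220) (nat_lit 215))) (XT.nd (nat_lit 78) (nat_lit 0) (nat_lit 0) (XT.lf (nat_lit 0) (nat_lit 6076885285670) (nat_lit 152) (nat_lit 15052551275011) (nat_lit 0) (nat_lit 6076885285670) (nat_lit 1) (nat_lit 5) (nat_lit 3) (nat_lit 4) (nat_lit 1) (nat_lit 4) (nat_lit 338) (nat_lit 221) (nat_lit 221)) (XT.nd (nat_lit 78) (nat_lit 0) (nat_lit 0) (XT.lf (nat_lit 0) (nat_lit 13976969074402) (nat_lit 152) (nat_lit 34620585199400) (nat_lit 0) (nat_lit 13976965327971) (nat_lit 1) (nat_lit 5) (nat_lit 3) (nat_lit 4) (nat_lit 1) (nat_lit 4) (nat_lit 339) (nat_lit 221) (nat_lit 220)) (XT.lf (nat_lit 0) (nat_lit 16073635691445) (nat_lit 152) (nat_lit 39813414272911) (nat_lit 0) (nat_lit 16073628687249) (nat_lit 1) (nat_lit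 5) (nat_lit 3) (nat_lit 4) (nat_lit 1) (nat_lit 4) (nat_lit 340) (nat_lit 221) (nat_lit 219)))))) (XT.nd (nat_lit 40326) (nat_lit 0) (nat_lit 0) (XT.nd (nat_lit 156) (nat_lit 0) (nat_lit 0) (XT.nd (nat_lit 78) (nat_lit 0) (nat_lit 0) (XT.lf (nat_lit 0) (nat_lit 18484792160630) (nat_lit 152) (nat_lit 45785188600257) (nat_lit 0) (nat_lit 18484782323594) (nat_lit 1) (nat_lit 5) (nat_lit 3) (nat_lit 4) (nat_lit 1) (nat_lit 4) (nat_lit 341) (nat_lit 221) (nat_lit 218)) (XT.lf (nat_lit 0) (nat_lit 21257613282441) (nat_lit 152) (nat_lit 52652747244363) (nat_lit 0) (nat_lit 21257600982066) (nat_lit 1) (nat_lit 5) (nat_lit 3) (nat_lit 4) (nat_lit 1) (nat_lit 4) (nat_lit 342) (nat_lit 221) (nat_lit 217))) (XT.nd (nat_lit 78) (nat_lit 0) (nat_lit 0) (XT.lf (nat_lit 0) (nat_lit 24446349904912) (nat_lit 152) (nat_lit 60550455483049) (nat_lit 0) (nat_lit 24446335462503) (nat_lit 1) (nat_lit 5) (nat_lit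 3) (nat_lit 4) (nat_lit 1) (nat_lit 4) (nat_lit 343) (nat_lit 221) (nat_lit 216)) (XT.nd (nat_lit 40014) (nat_lit 0) (nat_lit 0) (XT.lf (nat_lit 0) (nat_lit 28113390353267) (nat_lit 152) (nat_lit 69632833694897) (nat_lit 0) (nat_lit 28113374048220) (nat_lit 1) (nat_lit 5) (nat_lit 3) (nat_lit 4) (nat_lit 1) (nat_lit 4) (nat_lit 344) (nat_lit 221) (nat_lit 215)) (XT.lf (nat_lit 0) (nat_lit 4594878417666) (nat_lit 152) (nat_lit 11382150029658) (nat_lit 0) (nat_lit 4594878417666) (nat_lit 1) (nat_lit 5) (nat_lit 3) (nat_lit 4) (nat_lit 1) (nat_lit 4) (nat_lit 336) (nat_lit 222) (nat_lit 222))))) (XT.nd (nat_lit 156) (nat_lit 0) (nat_lit 0) (XT.nd (nat_lit 78) (nat_lit 0) (nat_lit 0) (XT.lf (nat_lit 0) (nat_lit 10568373215596) (nat_lit 152) (nat_lit 26178619925118) (nat_lit 0) (nat_lit 10568368907201) (nat_lit 1) (nat_lit 5) (nat_lit 3) (nat_lit 4) (nat_lit 1) (nat_lit 4) (nat_lit 337) (nat_lit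 222) (nat_lit 221)) (XT.lf (nat_lit 0) (nat_lit 12153768642201) (nat_lit 152) (nat_lit 30105115401528) (nat_lit 0) (nat_lit 12153760587376) (nat_lit 1) (nat_lit 5) (nat_lit 3) (nat_lit 4) (nat_lit 1) (nat_lit 4) (nat_lit 338) (nat_lit 222) (nat_lit 220))) (XT.nd (nat_lit 78) (nat_lit 0) (nat_lit 0) (XT.lf (nat_lit 0) (nat_lit 13976961721320) (nat_lit 152) (nat_lit 34620609226128) (nat_lit 0) (nat_lit 13976950408728) (nat_lit 1) (nat_lit 5) (nat_lit 3) (nat_lit 4) (nat_lit 1) (nat_lit 4) (nat_lit 339) (nat_lit 222) (nat_lit 219)) (XT.nd (nat_lit 78) (nat_lit 0) (nat_lit 0) (XT.lf (nat_lit 0) (nat_lit 16073623621891) (nat_lit 152) (nat_lit 39813448017224) (nat_lit 0) (nat_lit 16073609476460) (nat_lit 1) (nat_lit 5) (nat_lit 3) (nat_lit 4) (nat_lit 1) (nat_lit 4) (nat_lit 340) (nat_lit 222) (nat_lit 218)) (XT.lf (nat_lit 0) (nat_lit 18484775989796) (nat_lit 152) (nat_lit 45785230794644)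 (nat_lit 0) (nat_lit 18484759381026) (nat_lit 1) (nat_lit 5) (nat_lit 3) (nat_lit 4) (nat_lit 1) (nat_lit 4) (nat_lit 341) (nat_lit 222) (nat_lit 217))))))))
noncomputable def xc1 : XT := (XT.nd (nat_lit 81042) (nat_lit 0) (nat_lit 0) (XT.nd (nat_lit 40560) (nat_lit 0) (nat_lit 0) (XT.nd (nat_lit 40170) (nat_lit 0) (nat_lit 0) (XT.nd (nat_lit 40014) (nat_lit 0) (nat_lit 0) (XT.nd (nat_lit 78) (nat_lit 0) (nat_lit 0) (XT.lf (nat_lit 0) (nat_lit 21257593545276) (nat_lit 152) (nat_lit 52652796786640) (nat_lit 0) (nat_lit 21257574794472) (nat_lit 1) (nat_lit 5) (nat_lit 3) (nat_lit 4) (nat_lit 1) (nat_lit 4) (nat_lit 342) (nat_lit 222) (nat_lit 216)) (XT.lf (nat_lit 0) (nat_lit 24446327066590) (nat_lit 152) (nat_lit 60550511414795) (nat_lit 0) (nat_lit 24446306453148) (nat_lit 1) (nat_lit 5) (nat_lit 3) (nat_lit 4) (nat_lit 1) (nat_lit 4) (nat_lit 343) (nat_lit 222) (nat_lit 215))) (XT.nd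 (nat_lit 78) (nat_lit 0) (nat_lit 0) (XT.lf (nat_lit 0) (nat_lit 3474250323337) (nat_lit 152) (nat_lit 8606838177505) (nat_lit 0) (nat_lit 3474250323337) (nat_lit 1) (nat_lit 5) (nat_lit 3) (nat_lit 4) (nat_lit 1) (nat_lit 4) (nat_lit 334) (nat_lit 223) (nat_lit 223)) (XT.lf (nat_lit 0) (nat_lit 7990951526884) (nat_lit 152) (nat_lit 19795353893703) (nat_lit 0) (nat_lit 7990946572230) (nat_lit 1) (nat_lit 5) (nat_lit 3) (nat_lit 4) (nat_lit 1) (nat_lit 4) (nat_lit 335) (nat_lit 223) (nat_lit 222)))) (XT.nd (nat_lit 156) (nat_lit 0) (nat_lit 0) (XT.nd (nat_lit 78) (nat_lit 0) (nat_lit 0) (XT.lf (nat_lit 0) (nat_lit 9189754616822) (nat_lit 152) (nat_lit 22764314838547) (nat_lit 0) (nat_lit 9189745353772) (nat_lit 1) (nat_lit 5) (nat_lit 3) (nat_lit 4) (nat_lit 1) (nat_lit 4) (nat_lit 336) (nat_lit 223) (nat_lit 221)) (XT.lf (nat_lit 0) (nat_lit 10568364759552) (nat_lit 152) (nat_lit 26178647555855)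 (nat_lit 0) (nat_lit 10568351750072) (nat_lit 1) (nat_lit 5) (nat_lit 3) (nat_lit 4) (nat_lit 1) (nat_lit 4) (nat_lit 337) (nat_lit 223) (nat_lit 220))) (XT.nd (nat_lit 78) (nat_lit 0) (nat_lit 0) (XT.lf (nat_lit 0) (nat_lit 12153754762214) (nat_lit 152) (nat_lit 30105154207488) (nat_lit 0) (nat_lit 12153738494968) (nat_lit 1) (nat_lit 5) (nat_lit 3) (nat_lit 4) (nat_lit 1) (nat_lit 4) (nat_lit 338) (nat_lit 223) (nat_lit 219)) (XT.nd (nat_lit 78) (nat_lit 0) (nat_lit 0) (XT.lf (nat_lit 0) (nat_lit 13976943124860) (nat_lit 152) (nat_lit 34620657749672) (nat_lit 0) (nat_lit 13976924024775) (nat_lit 1) (nat_lit 5) (nat_lit 3) (nat_lit 4) (nat_lit 1) (nat_lit 4) (nat_lit 339) (nat_lit 223) (nat_lit 218)) (XT.lf (nat_lit 0) (nat_lit 16073600924152) (nat_lit 152) (nat_lit 39813504990842) (nat_lit 0) (nat_lit 16073579360727) (nat_lit 1) (nat_lit 5) (nat_lit 3) (nat_lit 4) (nat_lit 1) (nat_lit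 4) (nat_lit 340) (nat_lit 223) (nat_lit 217)))))) (XT.nd (nat_lit 40092) (nat_lit 0) (nat_lit 0) (XT.nd (nat_lit 156) (nat_lit 0) (nat_lit 0) (XT.nd (nat_lit 78) (nat_lit 0) (nat_lit 0) (XT.lf (nat_lit 0) (nat_lit 18484749725726) (nat_lit 152) (nat_lit 45785295116152) (nat_lit 0) (nat_lit 18484726020268) (nat_lit 1) (nat_lit 5) (nat_lit 3) (nat_lit 4) (nat_lit 1) (nat_lit 4) (nat_lit 341) (nat_lit 223) (nat_lit 216)) (XT.lf (nat_lit 0) (nat_lit 21257564180049) (nat_lit 152) (nat_lit 52652867497618) (nat_lit 0) (nat_lit 21257538611953) (nat_lit 1) (nat_lit 5) (nat_lit 3) (nat_lit 4) (nat_lit 1) (nat_lit 4) (nat_lit 342) (nat_lit 223) (nat_lit 215))) (XT.nd (nat_lit 39780) (nat_lit 0) (nat_lit 0) (XT.lf (nat_lit 0) (nat_lit 24446295004705) (nat_lit 152) (nat_lit 60550587681833) (nat_lit 0) (nat_lit 24446267816924) (nat_lit 1) (nat_lit 5) (nat_lit 3) (nat_lit 4) (nat_lit 1) (nat_lit 4) (nat_lit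 343) (nat_lit 223) (nat_lit 214)) (XT.nd (nat_lit 78) (nat_lit 0) (nat_lit 0) (XT.lf (nat_lit 0) (nat_lit 2626873802288) (nat_lit 152) (nat_lit 6508348322580) (nat_lit 0) (nat_lit 2626873802288) (nat_lit 1) (nat_lit 5) (nat_lit 3) (nat_lit 4) (nat_lit 1) (nat_lit 4) (nat_lit 332) (nat_lit 224) (nat_lit 224)) (XT.lf (nat_lit 0) (nat_lit 6042011895953) (nat_lit 152) (nat_lit 14968771140192) (nat_lit 0) (nat_lit 6042006198101) (nat_lit 1) (nat_lit 5) (nat_lit 3) (nat_lit 4) (nat_lit 1) (nat_lit 4) (nat_lit 333) (nat_lit 224) (nat_lit 223))))) (XT.nd (nat_lit 156) (nat_lit 0) (nat_lit 0) (XT.nd (nat_lit 78) (nat_lit 0) (nat_lit 0) (XT.lf (nat_lit 0) (nat_lit 6948498095387) (nat_lit 152) (nat_lit 17213693351127) (nat_lit 0) (nat_lit 6948487442880) (nat_lit 1) (nat_lit 5) (nat_lit 3) (nat_lit 4) (nat_lit 1) (nat_lit 4) (nat_lit 334) (nat_lit 224) (nat_lit 222)) (XT.lf (nat_lit 0) (nat_lit 7990941802433)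 (nat_lit 152) (nat_lit 19795385669051) (nat_lit 0) (nat_lit 7990926841531) (nat_lit 1) (nat_lit 5) (nat_lit 3) (nat_lit 4) (nat_lit 1) (nat_lit 4) (nat_lit 335) (nat_lit 224) (nat_lit 221))) (XT.nd (nat_lit 78) (nat_lit 0) (nat_lit 0) (XT.lf (nat_lit 0) (nat_lit 9189738654837) (nat_lit 152) (nat_lit 22764359465401) (nat_lit 0) (nat_lit 9189719947504) (nat_lit 1) (nat_lit 5) (nat_lit 3) (nat_lit 4) (nat_lit 1) (nat_lit 4) (nat_lit 336) (nat_lit 224) (nat_lit 220)) (XT.nd (nat_lit 78) (nat_lit 0) (nat_lit 0) (XT.lf (nat_lit 0) (nat_lit 10568343373624) (nat_lit 152) (nat_lit 26178703357931) (nat_lit 0) (nat_lit 10568321408525) (nat_lit 1) (nat_lit 5) (nat_lit 3) (nat_lit 4) (nat_lit 1) (nat_lit 4) (nat_lit 337) (nat_lit 224) (nat_lit 219)) (XT.lf (nat_lit 0) (nat_lit 12153728659814) (nat_lit 152) (nat_lit 30105219727148) (nat_lit 0) (nat_lit 12153703861875) (nat_lit 1) (nat_lit 5) (nat_lit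 3) (nat_lit 4) (nat_lit 1) (nat_lit 4) (nat_lit 338) (nat_lit 224) (nat_lit 218))))))) (XT.nd (nat_lit 39936) (nat_lit 0) (nat_lit 0) (XT.nd (nat_lit 858) (nat_lit 0) (nat_lit 0) (XT.nd (nat_lit 156) (nat_lit 0) (nat_lit 0) (XT.nd (nat_lit 78) (nat_lit 0) (nat_lit 0) (XT.lf (nat_lit 0) (nat_lit 13976912921180) (nat_lit 152) (nat_lit 34620731719406) (nat_lit 0) (nat_lit 13976885659903) (nat_lit 1) (nat_lit 5) (nat_lit 3) (nat_lit 4) (nat_lit 1) (nat_lit 4) (nat_lit 339) (nat_lit 224) (nat_lit 217)) (XT.lf (nat_lit 0) (nat_lit 16073567154141) (nat_lit 152) (nat_lit 39813586308467) (nat_lit 0) (nat_lit 16073537750830) (nat_lit 1) (nat_lit 5) (nat_lit 3) (nat_lit 4) (nat_lit 1) (nat_lit 4) (nat_lit 340) (nat_lit 224) (nat_lit 216))) (XT.nd (nat_lit 78) (nat_lit 0) (nat_lit 0) (XT.lf (nat_lit 0) (nat_lit 18484712854558) (nat_lit 152) (nat_lit 45785382823246) (nat_lit 0) (nat_lit 18484681588609)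 (nat_lit 1) (nat_lit 5) (nat_lit 3) (nat_lit 4) (nat_lit 1) (nat_lit 4) (nat_lit 341) (nat_lit 224) (nat_lit 215)) (XT.nd (nat_lit 78) (nat_lit 0) (nat_lit 0) (XT.lf (nat_lit 0) (nat_lit 21257524612223) (nat_lit 152) (nat_lit 52652960760772) (nat_lit 0) (nat_lit 21257491726589) (nat_lit 1) (nat_lit 5) (nat_lit 3) (nat_lit 4) (nat_lit 1) (nat_lit 4) (nat_lit 342) (nat_lit 224) (nat_lit 214)) (XT.lf (nat_lit 0) (nat_lit 24446253091959) (nat_lit 152) (nat_lit 60550685776345) (nat_lit 0) (nat_lit 24446218797903) (nat_lit 1) (nat_lit 5) (nat_lit 3) (nat_lit 4) (nat_lit 1) (nat_lit 4) (nat_lit 343) (nat_lit 224) (nat_lit 213))))) (XT.nd (nat_lit 156) (nat_lit 0) (nat_lit 0) (XT.nd (nat_lit 78) (nat_lit 0) (nat_lit 0) (XT.lf (nat_lit 0) (nat_lit 65028489643445) (nat_lit 152) (nat_lit 161063879137072) (nat_lit 0) (nat_lit 65028449489761) (nat_lit 1) (nat_lit 5) (nat_lit 3) (nat_lit 4) (nat_lit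 1) (nat_lit 4) (nat_lit 350) (nat_lit 224) (nat_lit 206)) (XT.lf (nat_lit 0) (nat_lit 74782840254680) (nat_lit 152) (nat_lit 185223288520772) (nat_lit 0) (nat_lit 74782799640582) (nat_lit 1) (nat_lit 5) (nat_lit 3) (nat_lit 4) (nat_lit 1) (nat_lit 4) (nat_lit 351) (nat_lit 224) (nat_lit 205))) (XT.nd (nat_lit 78) (nat_lit 0) (nat_lit 0) (XT.lf (nat_lit 0) (nat_lit 86000342024471) (nat_lit 152) (nat_lit 213006612264780) (nat_lit 0) (nat_lit 86000301010010) (nat_lit 1) (nat_lit 5) (nat_lit 3) (nat_lit 4) (nat_lit 1) (nat_lit 4) (nat_lit 352) (nat_lit 224) (nat_lit 204)) (XT.nd (nat_lit 78) (nat_lit 0) (nat_lit 0) (XT.lf (nat_lit 0) (nat_lit 98900467813528) (nat_lit 152) (nat_lit 244957437137999) (nat_lit 0) (nat_lit 98900426450928) (nat_lit 1) (nat_lit 5) (nat_lit 3) (nat_lit 4) (nat_lit 1) (nat_lit 4) (nat_lit 353) (nat_lit 224) (nat_lit 203)) (XT.lf (nat_lit 0) (nat_lit 113735611387292)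 (nat_lit 152) (nat_lit 281700887974906) (nat_lit 0) (nat_lit 113735569721960) (nat_lit 1) (nat_lit 5) (nat_lit 3) (nat_lit 4) (nat_lit 1) (nat_lit 4) (nat_lit 354) (nat_lit 224) (nat_lit 202)))))) (XT.nd (nat_lit 390) (nat_lit 0) (nat_lit 0) (XT.nd (nat_lit 156) (nat_lit 0) (nat_lit 0) (XT.nd (nat_lit 78) (nat_lit 0) (nat_lit 0) (XT.lf (nat_lit 0) (nat_lit 1986111625335) (nat_lit 152) (nat_lit 4921639828774) (nat_lit 0) (nat_lit 1986111625335) (nat_lit 1) (nat_lit 5) (nat_lit 3) (nat_lit 4) (nat_lit 1) (nat_lit 4) (nat_lit 330) (nat_lit 225) (nat_lit 225)) (XT.lf (nat_lit 0) (nat_lit 4568289211565) (nat_lit 152) (nat_lit 11319277104175) (nat_lit 0) (nat_lit 4568282659034) (nat_lit 1) (nat_lit 5) (nat_lit 3) (nat_lit 4) (nat_lit 1) (nat_lit 4) (nat_lit 331) (nat_lit 225) (nat_lit 224))) (XT.nd (nat_lit 78) (nat_lit 0) (nat_lit 0) (XT.lf (nat_lit 0) (nat_lit 5253744670597) (nat_lit 152)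 (nat_lit 13016716190694) (nat_lit 0) (nat_lit 5253732420214) (nat_lit 1) (nat_lit 5) (nat_lit 3) (nat_lit 4) (nat_lit 1) (nat_lit 4) (nat_lit 332) (nat_lit 225) (nat_lit 223)) (XT.nd (nat_lit 78) (nat_lit 0) (nat_lit 0) (XT.lf (nat_lit 0) (nat_lit 6042000712834) (nat_lit 152) (nat_lit 14968807681842) (nat_lit 0) (nat_lit 6041983507797) (nat_lit 1) (nat_lit 5) (nat_lit 3) (nat_lit 4) (nat_lit 1) (nat_lit 4) (nat_lit 333) (nat_lit 225) (nat_lit 222)) (XT.lf (nat_lit 0) (nat_lit 6948479739104) (nat_lit 152) (nat_lit 17213744672009) (nat_lit 0) (nat_lit 6948458225671) (nat_lit 1) (nat_lit 5) (nat_lit 3) (nat_lit 4) (nat_lit 1) (nat_lit 4) (nat_lit 334) (nat_lit 225) (nat_lit 221))))) (XT.nd (nat_lit 156) (nat_lit 0) (nat_lit 0) (XT.nd (nat_lit 78) (nat_lit 0) (nat_lit 0) (XT.lf (nat_lit 0) (nat_lit 7990917208615) (nat_lit 152) (nat_lit 19795449841439) (nat_lit 0) (nat_lit 7990891948752) (nat_lit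 1) (nat_lit 5) (nat_lit 3) (nat_lit 4) (nat_lit 1) (nat_lit 4) (nat_lit 335) (nat_lit 225) (nat_lit 220)) (XT.lf (nat_lit 0) (nat_lit 9189708637076) (nat_lit 152) (nat_lit 22764434813011) (nat_lit 0) (nat_lit 9189680119447) (nat_lit 1) (nat_lit 5) (nat_lit 3) (nat_lit 4) (nat_lit 1) (nat_lit 4) (nat_lit 336) (nat_lit 225) (nat_lit 219))) (XT.nd (nat_lit 78) (nat_lit 0) (nat_lit 0) (XT.lf (nat_lit 0) (nat_lit 10568308639391) (nat_lit 152) (nat_lit 26178788423126) (nat_lit 0) (nat_lit 10568277288922) (nat_lit 1) (nat_lit 5) (nat_lit 3) (nat_lit 4) (nat_lit 1) (nat_lit 4) (nat_lit 337) (nat_lit 225) (nat_lit 218)) (XT.nd (nat_lit 78) (nat_lit 0) (nat_lit 0) (XT.lf (nat_lit 0) (nat_lit 12153689824301) (nat_lit 152) (nat_lit 30105313242417) (nat_lit 0) (nat_lit 12153656010493) (nat_lit 1) (nat_lit 5) (nat_lit 3) (nat_lit 4) (nat_lit 1) (nat_lit 4) (nat_lit 338) (nat_lit 225) (nat_lit 217))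 (XT.lf (nat_lit 0) (nat_lit 13976870519337) (nat_lit 152) (nat_lit 34620832582565) (nat_lit 0) (nat_lit 13976834563495) (nat_lit 1) (nat_lit 5) (nat_lit 3) (nat_lit 4) (nat_lit 1) (nat_lit 4) (nat_lit 339) (nat_lit 225) (nat_lit 216))))))))
noncomputable def xc2 : XT := (XT.nd (nat_lit 40404) (nat_lit 0) (nat_lit 0) (XT.nd (nat_lit 1092) (nat_lit 0) (nat_lit 0) (XT.nd (nat_lit 702) (nat_lit 0) (nat_lit 0) (XT.nd (nat_lit 156) (nat_lit 0) (nat_lit 0) (XT.nd (nat_lit 78) (nat_lit 0) (nat_lit 0) (XT.lf (nat_lit 0) (nat_lit 16073521651141) (nat_lit 152) (nat_lit 39813693561095) (nat_lit 0) (nat_lit 16073483832661) (nat_lit 1) (nat_lit 5) (nat_lit 3) (nat_lit 4) (nat_lit 1) (nat_lit 4) (nat_lit 340) (nat_lit 225) (nat_lit 215)) (XT.lf (nat_lit 0) (nat_lit 18484664654900) (nat_lit 152) (nat_lit 45785495631935) (nat_lit 0) (nat_lit 18484625216735) (nat_lit 1) (nat_lit 5) (nat_lit 3) (nat_lit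 4) (nat_lit 1) (nat_lit 4) (nat_lit 341) (nat_lit 225) (nat_lit 214))) (XT.nd (nat_lit 78) (nat_lit 0) (nat_lit 0) (XT.lf (nat_lit 0) (nat_lit 21257474067644) (nat_lit 152) (nat_lit 52653078400818) (nat_lit 0) (nat_lit 21257433221057) (nat_lit 1) (nat_lit 5) (nat_lit 3) (nat_lit 4) (nat_lit 1) (nat_lit 4) (nat_lit 342) (nat_lit 225) (nat_lit 213)) (XT.lf (nat_lit 0) (nat_lit 24446200508319) (nat_lit 152) (nat_lit 60550807617571) (nat_lit 0) (nat_lit 24446158437018) (nat_lit 1) (nat_lit 5) (nat_lit 3) (nat_lit 4) (nat_lit 1) (nat_lit 4) (nat_lit 343) (nat_lit 225) (nat_lit 212)))) (XT.nd (nat_lit 156) (nat_lit 0) (nat_lit 0) (XT.nd (nat_lit 78) (nat_lit 0) (nat_lit 0) (XT.lf (nat_lit 0) (nat_lit 56546383900112) (nat_lit 152) (nat_lit 140055837757560) (nat_lit 0) (nat_lit 56546337193899) (nat_lit 1) (nat_lit 5) (nat_lit 3) (nat_lit 4) (nat_lit 1) (nat_lit 4) (nat_lit 349) (nat_lit 225)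 (nat_lit 206)) (XT.lf (nat_lit 0) (nat_lit 65028428576455) (nat_lit 152) (nat_lit 161064018456970) (nat_lit 0) (nat_lit 65028381409826) (nat_lit 1) (nat_lit 5) (nat_lit 3) (nat_lit 4) (nat_lit 1) (nat_lit 4) (nat_lit 350) (nat_lit 225) (nat_lit 205))) (XT.nd (nat_lit 78) (nat_lit 0) (nat_lit 0) (XT.lf (nat_lit 0) (nat_lit 74782778521119) (nat_lit 152) (nat_lit 185223429214043) (nat_lit 0) (nat_lit 74782730954128) (nat_lit 1) (nat_lit 5) (nat_lit 3) (nat_lit 4) (nat_lit 1) (nat_lit 4) (nat_lit 351) (nat_lit 225) (nat_lit 204)) (XT.nd (nat_lit 78) (nat_lit 0) (nat_lit 0) (XT.lf (nat_lit 0) (nat_lit 86000279711280) (nat_lit 152) (nat_lit 213006754152288) (nat_lit 0) (nat_lit 86000231796149) (nat_lit 1) (nat_lit 5) (nat_lit 3) (nat_lit 4) (nat_lit 1) (nat_lit 4) (nat_lit 352) (nat_lit 225) (nat_lit 203)) (XT.lf (nat_lit 0) (nat_lit 98900404996314) (nat_lit 152) (nat_lit 244957580063975) (nat_lit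 0) (nat_lit 98900356778451) (nat_lit 1) (nat_lit 5) (nat_lit 3) (nat_lit 4) (nat_lit 1) (nat_lit 4) (nat_lit 353) (nat_lit 225) (nat_lit 202)))))) (XT.nd (nat_lit 38922) (nat_lit 0) (nat_lit 0) (XT.nd (nat_lit 38688) (nat_lit 0) (nat_lit 0) (XT.nd (nat_lit 38610) (nat_lit 0) (nat_lit 0) (XT.lf (nat_lit 0) (nat_lit 113735548131794) (nat_lit 152) (nat_lit 281701031803897) (nat_lit 0) (nat_lit 113735499650688) (nat_lit 1) (nat_lit 5) (nat_lit 3) (nat_lit 4) (nat_lit 1) (nat_lit 4) (nat_lit 354) (nat_lit 225) (nat_lit 201)) (XT.lf (nat_lit 0) (nat_lit 1501576008231) (nat_lit 152) (nat_lit 3721919268350) (nat_lit 0) (nat_lit 1501576008231) (nat_lit 1) (nat_lit 5) (nat_lit 3) (nat_lit 4) (nat_lit 1) (nat_lit 4) (nat_lit 328) (nat_lit 226) (nat_lit 226))) (XT.nd (nat_lit 78) (nat_lit 0) (nat_lit 0) (XT.lf (nat_lit 0) (nat_lit 3453892163219) (nat_lit 152) (nat_lit 8559845639900) (nat_lit 0) (nat_lit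 3453884627809) (nat_lit 1) (nat_lit 5) (nat_lit 3) (nat_lit 4) (nat_lit 1) (nat_lit 4) (nat_lit 329) (nat_lit 226) (nat_lit 225)) (XT.nd (nat_lit 78) (nat_lit 0) (nat_lit 0) (XT.lf (nat_lit 0) (nat_lit 3972219876594) (nat_lit 152) (nat_lit 9843302134912) (nat_lit 0) (nat_lit 3972205788653) (nat_lit 1) (nat_lit 5) (nat_lit 3) (nat_lit 4) (nat_lit 1) (nat_lit 4) (nat_lit 330) (nat_lit 226) (nat_lit 224)) (XT.lf (nat_lit 0) (nat_lit 4568276350978) (nat_lit 152) (nat_lit 11319319127073) (nat_lit 0) (nat_lit 4568256565185) (nat_lit 1) (nat_lit 5) (nat_lit 3) (nat_lit 4) (nat_lit 1) (nat_lit 4) (nat_lit 331) (nat_lit 226) (nat_lit 223))))) (XT.nd (nat_lit 156) (nat_lit 0) (nat_lit 0) (XT.nd (nat_lit 78) (nat_lit 0) (nat_lit 0) (XT.lf (nat_lit 0) (nat_lit 5253723560871) (nat_lit 152) (nat_lit 13016775209708) (nat_lit 0) (nat_lit 5253698820423) (nat_lit 1) (nat_lit 5) (nat_lit 3) (nat_lit 4)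 (nat_lit 1) (nat_lit 4) (nat_lit 332) (nat_lit 226) (nat_lit 222)) (XT.lf (nat_lit 0) (nat_lit 6041972429944) (nat_lit 152) (nat_lit 14968881480087) (nat_lit 0) (nat_lit 6041943381102) (nat_lit 1) (nat_lit 5) (nat_lit 3) (nat_lit 4) (nat_lit 1) (nat_lit 4) (nat_lit 333) (nat_lit 226) (nat_lit 221))) (XT.nd (nat_lit 78) (nat_lit 0) (nat_lit 0) (XT.lf (nat_lit 0) (nat_lit 6948445218680) (nat_lit 152) (nat_lit 17213831321760) (nat_lit 0) (nat_lit 6948412423406) (nat_lit 1) (nat_lit 5) (nat_lit 3) (nat_lit 4) (nat_lit 1) (nat_lit 4) (nat_lit 334) (nat_lit 226) (nat_lit 220)) (XT.nd (nat_lit 78) (nat_lit 0) (nat_lit 0) (XT.lf (nat_lit 0) (nat_lit 7990877264248) (nat_lit 152) (nat_lit 19795547666412) (nat_lit 0) (nat_lit 7990841211209) (nat_lit 1) (nat_lit 5) (nat_lit 3) (nat_lit 4) (nat_lit 1) (nat_lit 4) (nat_lit 335) (nat_lit 226) (nat_lit 219)) (XT.lf (nat_lit 0) (nat_lit 9189663976237)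 (nat_lit 152) (nat_lit 22764542355569) (nat_lit 0) (nat_lit 9189625090358) (nat_lit 1) (nat_lit 5) (nat_lit 3) (nat_lit 4) (nat_lit 1) (nat_lit 4) (nat_lit 336) (nat_lit 226) (nat_lit 218))))))) (XT.nd (nat_lit 1014) (nat_lit 0) (nat_lit 0) (XT.nd (nat_lit 390) (nat_lit 0) (nat_lit 0) (XT.nd (nat_lit 156) (nat_lit 0) (nat_lit 0) (XT.nd (nat_lit 78) (nat_lit 0) (nat_lit 0) (XT.lf (nat_lit 0) (nat_lit 10568259877271) (nat_lit 152) (nat_lit 26178904415758) (nat_lit 0) (nat_lit 10568218528054) (nat_lit 1) (nat_lit 5) (nat_lit 3) (nat_lit 4) (nat_lit 1) (nat_lit 4) (nat_lit 337) (nat_lit 226) (nat_lit 217)) (XT.lf (nat_lit 0) (nat_lit 12153637495851) (nat_lit 152) (nat_lit 30105436582939) (nat_lit 0) (nat_lit 12153594004599) (nat_lit 1) (nat_lit 5) (nat_lit 3) (nat_lit 4) (nat_lit 1) (nat_lit 4) (nat_lit 338) (nat_lit 226) (nat_lit 216))) (XT.nd (nat_lit 78) (nat_lit 0) (nat_lit 0) (XT.lf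 (nat_lit 0) (nat_lit 13976815089730) (nat_lit 152) (nat_lit 34620962312557) (nat_lit 0) (nat_lit 13976769735840) (nat_lit 1) (nat_lit 5) (nat_lit 3) (nat_lit 4) (nat_lit 1) (nat_lit 4) (nat_lit 339) (nat_lit 226) (nat_lit 215)) (XT.nd (nat_lit 78) (nat_lit 0) (nat_lit 0) (XT.lf (nat_lit 0) (nat_lit 16073463524875) (nat_lit 152) (nat_lit 39813828847147) (nat_lit 0) (nat_lit 16073416551300) (nat_lit 1) (nat_lit 5) (nat_lit 3) (nat_lit 4) (nat_lit 1) (nat_lit 4) (nat_lit 340) (nat_lit 226) (nat_lit 214)) (XT.lf (nat_lit 0) (nat_lit 18484604183714) (nat_lit 152) (nat_lit 45785635749344) (nat_lit 0) (nat_lit 18484555801717) (nat_lit 1) (nat_lit 5) (nat_lit 3) (nat_lit 4) (nat_lit 1) (nat_lit 4) (nat_lit 341) (nat_lit 226) (nat_lit 213))))) (XT.nd (nat_lit 156) (nat_lit 0) (nat_lit 0) (XT.nd (nat_lit 78) (nat_lit 0) (nat_lit 0) (XT.lf (nat_lit 0) (nat_lit 21257411557398) (nat_lit 152) (nat_lit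 52653222719407) (nat_lit 0) (nat_lit 21257361950686) (nat_lit 1) (nat_lit 5) (nat_lit 3) (nat_lit 4) (nat_lit 1) (nat_lit 4) (nat_lit 342) (nat_lit 226) (nat_lit 212)) (XT.lf (nat_lit 0) (nat_lit 24446136224976) (nat_lit 152) (nat_lit 60550955589360) (nat_lit 0) (nat_lit 24446085553295) (nat_lit 1) (nat_lit 5) (nat_lit 3) (nat_lit 4) (nat_lit 1) (nat_lit 4) (nat_lit 343) (nat_lit 226) (nat_lit 211))) (XT.nd (nat_lit 312) (nat_lit 0) (nat_lit 0) (XT.lf (nat_lit 0) (nat_lit 28113166277772) (nat_lit 152) (nat_lit 69633355219702) (nat_lit 0) (nat_lit 28113114680031) (nat_lit 1) (nat_lit 5) (nat_lit 3) (nat_lit 4) (nat_lit 1) (nat_lit 4) (nat_lit 344) (nat_lit 226) (nat_lit 210)) (XT.nd (nat_lit 78) (nat_lit 0) (nat_lit 0) (XT.lf (nat_lit 0) (nat_lit 49170621217036) (nat_lit 152) (nat_lit 121788017711317) (nat_lit 0) (nat_lit 49170566975412) (nat_lit 1) (nat_lit 5) (nat_lit 3) (nat_lit 4)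 (nat_lit 1) (nat_lit 4) (nat_lit 348) (nat_lit 226) (nat_lit 206)) (XT.lf (nat_lit 0) (nat_lit 56546312906516) (nat_lit 152) (nat_lit 140055999554822) (nat_lit 0) (nat_lit 56546258204476) (nat_lit 1) (nat_lit 5) (nat_lit 3) (nat_lit 4) (nat_lit 1) (nat_lit 4) (nat_lit 349) (nat_lit 226) (nat_lit 205)))))) (XT.nd (nat_lit 38766) (nat_lit 0) (nat_lit 0) (XT.nd (nat_lit 156) (nat_lit 0) (nat_lit 0) (XT.nd (nat_lit 78) (nat_lit 0) (nat_lit 0) (XT.lf (nat_lit 0) (nat_lit 65028356916286) (nat_lit 152) (nat_lit 161064181627604) (nat_lit 0) (nat_lit 65028301813886) (nat_lit 1) (nat_lit 5) (nat_lit 3) (nat_lit 4) (nat_lit 1) (nat_lit 4) (nat_lit 350) (nat_lit 226) (nat_lit 204)) (XT.lf (nat_lit 0) (nat_lit 74782706281321) (nat_lit 152) (nat_lit 185223593578915) (nat_lit 0) (nat_lit 74782650830780) (nat_lit 1) (nat_lit 5) (nat_lit 3) (nat_lit 4) (nat_lit 1) (nat_lit 4) (nat_lit 351) (nat_lit 226)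 (nat_lit 203))) (XT.nd (nat_lit 78) (nat_lit 0) (nat_lit 0) (XT.lf (nat_lit 0) (nat_lit 86000206967458) (nat_lit 152) (nat_lit 213006919555628) (nat_lit 0) (nat_lit 86000151214186) (nat_lit 1) (nat_lit 5) (nat_lit 3) (nat_lit 4) (nat_lit 1) (nat_lit 4) (nat_lit 352) (nat_lit 226) (nat_lit 202)) (XT.nd (nat_lit 78) (nat_lit 0) (nat_lit 0) (XT.lf (nat_lit 0) (nat_lit 98900331814209) (nat_lit 152) (nat_lit 244957746370330) (nat_lit 0) (nat_lit 98900275797693) (nat_lit 1) (nat_lit 5) (nat_lit 3) (nat_lit 4) (nat_lit 1) (nat_lit 4) (nat_lit 353) (nat_lit 226) (nat_lit 201)) (XT.lf (nat_lit 0) (nat_lit 113735474568575) (nat_lit 152) (nat_lit 281701198895483) (nat_lit 0) (nat_lit 113735418323151) (nat_lit 1) (nat_lit 5) (nat_lit 3) (nat_lit 4) (nat_lit 1) (nat_lit 4) (nat_lit 354) (nat_lit 226) (nat_lit 200))))) (XT.nd (nat_lit 156) (nat_lit 0) (nat_lit 0) (XT.nd (nat_lit 78) (nat_lit 0) (nat_lit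 0) (XT.lf (nat_lit 0) (nat_lit 1135166011806) (nat_lit 152) (nat_lit 2814826035926) (nat_lit 0) (nat_lit 1135166011806) (nat_lit 1) (nat_lit 5) (nat_lit 3) (nat_lit 4) (nat_lit 1) (nat_lit 4) (nat_lit 326) (nat_lit 227) (nat_lit 227)) (XT.lf (nat_lit 0) (nat_lit 2611189273085) (nat_lit 152) (nat_lit 6473445903728) (nat_lit 0) (nat_lit 2611180607364) (nat_lit 1) (nat_lit 5) (nat_lit 3) (nat_lit 4) (nat_lit 1) (nat_lit 4) (nat_lit 327) (nat_lit 227) (nat_lit 226))) (XT.nd (nat_lit 78) (nat_lit 0) (nat_lit 0) (XT.lf (nat_lit 0) (nat_lit 3003148136274) (nat_lit 152) (nat_lit 7443864385669) (nat_lit 0) (nat_lit 3003131935142) (nat_lit 1) (nat_lit 5) (nat_lit 3) (nat_lit 4) (nat_lit 1) (nat_lit 4) (nat_lit 328) (nat_lit 227) (nat_lit 225)) (XT.nd (nat_lit 78) (nat_lit 0) (nat_lit 0) (XT.lf (nat_lit 0) (nat_lit 3453877373544) (nat_lit 152) (nat_lit 8559893966232) (nat_lit 0) (nat_lit 3453854619882)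 (nat_lit 1) (nat_lit 5) (nat_lit 3) (nat_lit 4) (nat_lit 1) (nat_lit 4) (nat_lit 329) (nat_lit 227) (nat_lit 224)) (XT.lf (nat_lit 0) (nat_lit 3972195600409) (nat_lit 152) (nat_lit 9843370006778) (nat_lit 0) (nat_lit 3972167148894) (nat_lit 1) (nat_lit 5) (nat_lit 3) (nat_lit 4) (nat_lit 1) (nat_lit 4) (nat_lit 330) (nat_lit 227) (nat_lit 223))))))))
noncomputable def xc3 : XT := (XT.nd (nat_lit 1716) (nat_lit 0) (nat_lit 0) (XT.nd (nat_lit 702) (nat_lit 0) (nat_lit 0) (XT.nd (nat_lit 312) (nat_lit 0) (nat_lit 0) (XT.nd (nat_lit 156) (nat_lit 0) (nat_lit 0) (XT.nd (nat_lit 78) (nat_lit 0) (nat_lit 0) (XT.lf (nat_lit 0) (nat_lit 4568243825654) (nat_lit 152) (nat_lit 11319403995055) (nat_lit 0) (nat_lit 4568210419485) (nat_lit 1) (nat_lit 5) (nat_lit 3) (nat_lit 4) (nat_lit 1) (nat_lit 4) (nat_lit 331) (nat_lit 227) (nat_lit 222)) (XT.lf (nat_lit 0) (nat_lit 5253683862383) (nat_lit 152)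 (nat_lit 13016874856922) (nat_lit 0) (nat_lit 5253646147819) (nat_lit 1) (nat_lit 5) (nat_lit 3) (nat_lit 4) (nat_lit 1) (nat_lit 4) (nat_lit 332) (nat_lit 227) (nat_lit 221))) (XT.nd (nat_lit 78) (nat_lit 0) (nat_lit 0) (XT.lf (nat_lit 0) (nat_lit 6041926493922) (nat_lit 152) (nat_lit 14968993978807) (nat_lit 0) (nat_lit 6041885032927) (nat_lit 1) (nat_lit 5) (nat_lit 3) (nat_lit 4) (nat_lit 1) (nat_lit 4) (nat_lit 333) (nat_lit 227) (nat_lit 220)) (XT.lf (nat_lit 0) (nat_lit 6948393858714) (nat_lit 152) (nat_lit 17213954995702) (nat_lit 0) (nat_lit 6948349139954) (nat_lit 1) (nat_lit 5) (nat_lit 3) (nat_lit 4) (nat_lit 1) (nat_lit 4) (nat_lit 334) (nat_lit 227) (nat_lit 219)))) (XT.nd (nat_lit 156) (nat_lit 0) (nat_lit 0) (XT.nd (nat_lit 78) (nat_lit 0) (nat_lit 0) (XT.lf (nat_lit 0) (nat_lit 7990821187810) (nat_lit 152) (nat_lit 19795681057939) (nat_lit 0) (nat_lit 7990773636210) (nat_lit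 1) (nat_lit 5) (nat_lit 3) (nat_lit 4) (nat_lit 1) (nat_lit 4) (nat_lit 335) (nat_lit 227) (nat_lit 218)) (XT.lf (nat_lit 0) (nat_lit 9189603798519) (nat_lit 152) (nat_lit 22764684197170) (nat_lit 0) (nat_lit 9189553783580) (nat_lit 1) (nat_lit 5) (nat_lit 3) (nat_lit 4) (nat_lit 1) (nat_lit 4) (nat_lit 336) (nat_lit 227) (nat_lit 217))) (XT.nd (nat_lit 78) (nat_lit 0) (nat_lit 0) (XT.lf (nat_lit 0) (nat_lit 10568196133223) (nat_lit 152) (nat_lit 26179053605248) (nat_lit 0) (nat_lit 10568143976250) (nat_lit 1) (nat_lit 5) (nat_lit 3) (nat_lit 4) (nat_lit 1) (nat_lit 4) (nat_lit 337) (nat_lit 227) (nat_lit 216)) (XT.nd (nat_lit 78) (nat_lit 0) (nat_lit 0) (XT.lf (nat_lit 0) (nat_lit 12153570650646) (nat_lit 152) (nat_lit 30105592161899) (nat_lit 0) (nat_lit 12153516631035) (nat_lit 1) (nat_lit 5) (nat_lit 3) (nat_lit 4) (nat_lit 1) (nat_lit 4) (nat_lit 338) (nat_lit 227) (nat_lit 215))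 (XT.lf (nat_lit 0) (nat_lit 13976745547867) (nat_lit 152) (nat_lit 34621123447577) (nat_lit 0) (nat_lit 13976689908570) (nat_lit 1) (nat_lit 5) (nat_lit 3) (nat_lit 4) (nat_lit 1) (nat_lit 4) (nat_lit 339) (nat_lit 227) (nat_lit 214)))))) (XT.nd (nat_lit 624) (nat_lit 0) (nat_lit 0) (XT.nd (nat_lit 156) (nat_lit 0) (nat_lit 0) (XT.nd (nat_lit 78) (nat_lit 0) (nat_lit 0) (XT.lf (nat_lit 0) (nat_lit 16073391638092) (nat_lit 152) (nat_lit 39813994813525) (nat_lit 0) (nat_lit 16073334590373) (nat_lit 1) (nat_lit 5) (nat_lit 3) (nat_lit 4) (nat_lit 1) (nat_lit 4) (nat_lit 340) (nat_lit 227) (nat_lit 213)) (XT.lf (nat_lit 0) (nat_lit 18484530257870) (nat_lit 152) (nat_lit 45785805916902) (nat_lit 0) (nat_lit 18484471985437) (nat_lit 1) (nat_lit 5) (nat_lit 3) (nat_lit 4) (nat_lit 1) (nat_lit 4) (nat_lit 341) (nat_lit 227) (nat_lit 212))) (XT.nd (nat_lit 78) (nat_lit 0) (nat_lit 0) (XT.lf (nat_lit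 0) (nat_lit 21257335858457) (nat_lit 152) (nat_lit 52653396540165) (nat_lit 0) (nat_lit 21257276521054) (nat_lit 1) (nat_lit 5) (nat_lit 3) (nat_lit 4) (nat_lit 1) (nat_lit 4) (nat_lit 342) (nat_lit 227) (nat_lit 211)) (XT.nd (nat_lit 78) (nat_lit 0) (nat_lit 0) (XT.lf (nat_lit 0) (nat_lit 24446058984212) (nat_lit 152) (nat_lit 60551132586814) (nat_lit 0) (nat_lit 24445998720749) (nat_lit 1) (nat_lit 5) (nat_lit 3) (nat_lit 4) (nat_lit 1) (nat_lit 4) (nat_lit 343) (nat_lit 227) (nat_lit 210)) (XT.lf (nat_lit 0) (nat_lit 28113087696292) (nat_lit 152) (nat_lit 69633534979499) (nat_lit 0) (nat_lit 28113026627559) (nat_lit 1) (nat_lit 5) (nat_lit 3) (nat_lit 4) (nat_lit 1) (nat_lit 4) (nat_lit 344) (nat_lit 227) (nat_lit 209))))) (XT.nd (nat_lit 156) (nat_lit 0) (nat_lit 0) (XT.nd (nat_lit 78) (nat_lit 0) (nat_lit 0) (XT.lf (nat_lit 0) (nat_lit 49170538807842) (nat_lit 152) (nat_lit 121788205357547)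 (nat_lit 0) (nat_lit 49170475440081) (nat_lit 1) (nat_lit 5) (nat_lit 3) (nat_lit 4) (nat_lit 1) (nat_lit 4) (nat_lit 348) (nat_lit 227) (nat_lit 205)) (XT.lf (nat_lit 0) (nat_lit 56546229830749) (nat_lit 152) (nat_lit 140056188574425) (nat_lit 0) (nat_lit 56546166062626) (nat_lit 1) (nat_lit 5) (nat_lit 3) (nat_lit 4) (nat_lit 1) (nat_lit 4) (nat_lit 349) (nat_lit 227) (nat_lit 204))) (XT.nd (nat_lit 78) (nat_lit 0) (nat_lit 0) (XT.lf (nat_lit 0) (nat_lit 65028273260891) (nat_lit 152) (nat_lit 161064371841445) (nat_lit 0) (nat_lit 65028209144628) (nat_lit 1) (nat_lit 5) (nat_lit 3) (nat_lit 4) (nat_lit 1) (nat_lit 4) (nat_lit 350) (nat_lit 227) (nat_lit 203)) (XT.nd (nat_lit 78) (nat_lit 0) (nat_lit 0) (XT.lf (nat_lit 0) (nat_lit 74782622121901) (nat_lit 152) (nat_lit 185223784831223) (nat_lit 0) (nat_lit 74782557702908) (nat_lit 1) (nat_lit 5) (nat_lit 3) (nat_lit 4) (nat_lit 1) (nat_lit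 4) (nat_lit 351) (nat_lit 227) (nat_lit 202)) (XT.lf (nat_lit 0) (nat_lit 86000122369756) (nat_lit 152) (nat_lit 213007111710951) (nat_lit 0) (nat_lit 86000057687518) (nat_lit 1) (nat_lit 5) (nat_lit 3) (nat_lit 4) (nat_lit 1) (nat_lit 4) (nat_lit 352) (nat_lit 227) (nat_lit 201))))))) (XT.nd (nat_lit 39000) (nat_lit 0) (nat_lit 0) (XT.nd (nat_lit 38610) (nat_lit 0) (nat_lit 0) (XT.nd (nat_lit 38376) (nat_lit 0) (nat_lit 0) (XT.nd (nat_lit 78) (nat_lit 0) (nat_lit 0) (XT.lf (nat_lit 0) (nat_lit 98900246835392) (nat_lit 152) (nat_lit 244957939310884) (nat_lit 0) (nat_lit 98900181924246) (nat_lit 1) (nat_lit 5) (nat_lit 3) (nat_lit 4) (nat_lit 1) (nat_lit 4) (nat_lit 353) (nat_lit 227) (nat_lit 200)) (XT.lf (nat_lit 0) (nat_lit 113735389258353) (nat_lit 152) (nat_lit 281701392518846) (nat_lit 0) (nat_lit 113735324148157) (nat_lit 1) (nat_lit 5) (nat_lit 3) (nat_lit 4) (nat_lit 1) (nat_lit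 4) (nat_lit 354) (nat_lit 227) (nat_lit 199))) (XT.nd (nat_lit 78) (nat_lit 0) (nat_lit 0) (XT.lf (nat_lit 0) (nat_lit 858071236708) (nat_lit 152) (nat_lit 2129011285226) (nat_lit 0) (nat_lit 858071236708) (nat_lit 1) (nat_lit 5) (nat_lit 3) (nat_lit 4) (nat_lit 1) (nat_lit 4) (nat_lit 324) (nat_lit 228) (nat_lit 228)) (XT.nd (nat_lit 78) (nat_lit 0) (nat_lit 0) (XT.lf (nat_lit 0) (nat_lit 1973917407249) (nat_lit 152) (nat_lit 4895973880285) (nat_lit 0) (nat_lit 1973907441669) (nat_lit 1) (nat_lit 5) (nat_lit 3) (nat_lit 4) (nat_lit 1) (nat_lit 4) (nat_lit 325) (nat_lit 228) (nat_lit 227)) (XT.lf (nat_lit 0) (nat_lit 2270327561396) (nat_lit 152) (nat_lit 5629681798166) (nat_lit 0) (nat_lit 2270308930095) (nat_lit 1) (nat_lit 5) (nat_lit 3) (nat_lit 4) (nat_lit 1) (nat_lit 4) (nat_lit 326) (nat_lit 228) (nat_lit 226))))) (XT.nd (nat_lit 156) (nat_lit 0) (nat_lit 0) (XT.nd (nat_lit 78)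 (nat_lit 0) (nat_lit 0) (XT.lf (nat_lit 0) (nat_lit 2611172264959) (nat_lit 152) (nat_lit 6473501479011) (nat_lit 0) (nat_lit 2611146098248) (nat_lit 1) (nat_lit 5) (nat_lit 3) (nat_lit 4) (nat_lit 1) (nat_lit 4) (nat_lit 327) (nat_lit 228) (nat_lit 225)) (XT.lf (nat_lit 0) (nat_lit 3003120218661) (nat_lit 152) (nat_lit 7443942438315) (nat_lit 0) (nat_lit 3003087499420) (nat_lit 1) (nat_lit 5) (nat_lit 3) (nat_lit 4) (nat_lit 1) (nat_lit 4) (nat_lit 328) (nat_lit 228) (nat_lit 224))) (XT.nd (nat_lit 78) (nat_lit 0) (nat_lit 0) (XT.lf (nat_lit 0) (nat_lit 3453839969422) (nat_lit 152) (nat_lit 8559991564412) (nat_lit 0) (nat_lit 3453801552328) (nat_lit 1) (nat_lit 5) (nat_lit 3) (nat_lit 4) (nat_lit 1) (nat_lit 4) (nat_lit 329) (nat_lit 228) (nat_lit 223)) (XT.nd (nat_lit 78) (nat_lit 0) (nat_lit 0) (XT.lf (nat_lit 0) (nat_lit 3972149947148) (nat_lit 152) (nat_lit 9843484601074) (nat_lit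 0) (nat_lit 3972106575399) (nat_lit 1) (nat_lit 5) (nat_lit 3) (nat_lit 4) (nat_lit 1) (nat_lit 4) (nat_lit 330) (nat_lit 228) (nat_lit 222)) (XT.lf (nat_lit 0) (nat_lit 4568190999229) (nat_lit 152) (nat_lit 11319533368583) (nat_lit 0) (nat_lit 4568143319084) (nat_lit 1) (nat_lit 5) (nat_lit 3) (nat_lit 4) (nat_lit 1) (nat_lit 4) (nat_lit 331) (nat_lit 228) (nat_lit 221)))))) (XT.nd (nat_lit 390) (nat_lit 0) (nat_lit 0) (XT.nd (nat_lit 156) (nat_lit 0) (nat_lit 0) (XT.nd (nat_lit 78) (nat_lit 0) (nat_lit 0) (XT.lf (nat_lit 0) (nat_lit 5253624798423) (nat_lit 152) (nat_lit 13017017081956) (nat_lit 0) (nat_lit 5253573371848) (nat_lit 1) (nat_lit 5) (nat_lit 3) (nat_lit 4) (nat_lit 1) (nat_lit 4) (nat_lit 332) (nat_lit 228) (nat_lit 220)) (XT.lf (nat_lit 0) (nat_lit 6041862006019) (nat_lit 152) (nat_lit 14969147379063) (nat_lit 0) (nat_lit 6041807321678) (nat_lit 1) (nat_lit 5) (nat_lit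 3) (nat_lit 4) (nat_lit 1) (nat_lit 4) (nat_lit 333) (nat_lit 228) (nat_lit 219))) (XT.nd (nat_lit 78) (nat_lit 0) (nat_lit 0) (XT.lf (nat_lit 0) (nat_lit 6948324654339) (nat_lit 152) (nat_lit 17214118113543) (nat_lit 0) (nat_lit 6948267137159) (nat_lit 1) (nat_lit 5) (nat_lit 3) (nat_lit 4) (nat_lit 1) (nat_lit 4) (nat_lit 334) (nat_lit 228) (nat_lit 218)) (XT.nd (nat_lit 78) (nat_lit 0) (nat_lit 0) (XT.lf (nat_lit 0) (nat_lit 7990747882155) (nat_lit 152) (nat_lit 19795852625853) (nat_lit 0) (nat_lit 7990687901636) (nat_lit 1) (nat_lit 5) (nat_lit 3) (nat_lit 4) (nat_lit 1) (nat_lit 4) (nat_lit 335) (nat_lit 228) (nat_lit 217)) (XT.lf (nat_lit 0) (nat_lit 9189526926533) (nat_lit 152) (nat_lit 22764863112974) (nat_lit 0) (nat_lit 9189464803980) (nat_lit 1) (nat_lit 5) (nat_lit 3) (nat_lit 4) (nat_lit 1) (nat_lit 4) (nat_lit 336) (nat_lit 228) (nat_lit 216))))) (XT.nd (nat_lit 156) (nat_lit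 0) (nat_lit 0) (XT.nd (nat_lit 78) (nat_lit 0) (nat_lit 0) (XT.lf (nat_lit 0) (nat_lit 10568116160081) (nat_lit 152) (nat_lit 26179238910522) (nat_lit 0) (nat_lit 10568052174890) (nat_lit 1) (nat_lit 5) (nat_lit 3) (nat_lit 4) (nat_lit 1) (nat_lit 4) (nat_lit 337) (nat_lit 228) (nat_lit 215)) (XT.lf (nat_lit 0) (nat_lit 12153487980845) (nat_lit 152) (nat_lit 30105783023233) (nat_lit 0) (nat_lit 12153422375969) (nat_lit 1) (nat_lit 5) (nat_lit 3) (nat_lit 4) (nat_lit 1) (nat_lit 4) (nat_lit 338) (nat_lit 228) (nat_lit 214))) (XT.nd (nat_lit 78) (nat_lit 0) (nat_lit 0) (XT.lf (nat_lit 0) (nat_lit 13976660533145) (nat_lit 152) (nat_lit 34621319140269) (nat_lit 0) (nat_lit 13976593519847) (nat_lit 1) (nat_lit 5) (nat_lit 3) (nat_lit 4) (nat_lit 1) (nat_lit 4) (nat_lit 339) (nat_lit 228) (nat_lit 213)) (XT.nd (nat_lit 78) (nat_lit 0) (nat_lit 0) (XT.lf (nat_lit 0) (nat_lit 16073304584310)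 (nat_lit 152) (nat_lit 39814194707396) (nat_lit 0) (nat_lit 16073236346297) (nat_lit 1) (nat_lit 5) (nat_lit 3) (nat_lit 4) (nat_lit 1) (nat_lit 4) (nat_lit 340) (nat_lit 228) (nat_lit 212)) (XT.lf (nat_lit 0) (nat_lit 18484441430991) (nat_lit 152) (nat_lit 45786009463973) (nat_lit 0) (nat_lit 18484372128009) (nat_lit 1) (nat_lit 5) (nat_lit 3) (nat_lit 4) (nat_lit 1) (nat_lit 4) (nat_lit 341) (nat_lit 228) (nat_lit 211))))))))
noncomputable def xc4 : XT := (XT.nd (nat_lit 39858) (nat_lit 0) (nat_lit 0) (XT.nd (nat_lit 39078) (nat_lit 0) (nat_lit 0) (XT.nd (nat_lit 546) (nat_lit 0) (nat_lit 0) (XT.nd (nat_lit 156) (nat_lit 0) (nat_lit 0) (XT.nd (nat_lit 78) (nat_lit 0) (nat_lit 0) (XT.lf (nat_lit 0) (nat_lit 21257245489755) (nat_lit 152) (nat_lit 52653603263932) (nat_lit 0) (nat_lit 21257175260712) (nat_lit 1) (nat_lit 5) (nat_lit 3) (nat_lit 4) (nat_lit 1) (nat_lit 4) (nat_lit 342) (nat_lit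 228) (nat_lit 210)) (XT.lf (nat_lit 0) (nat_lit 24445967274795) (nat_lit 152) (nat_lit 60551342072925) (nat_lit 0) (nat_lit 24445896240482) (nat_lit 1) (nat_lit 5) (nat_lit 3) (nat_lit 4) (nat_lit 1) (nat_lit 4) (nat_lit 343) (nat_lit 228) (nat_lit 209))) (XT.nd (nat_lit 312) (nat_lit 0) (nat_lit 0) (XT.lf (nat_lit 0) (nat_lit 28112994821035) (nat_lit 152) (nat_lit 69633746867649) (nat_lit 0) (nat_lit 28112923086487) (nat_lit 1) (nat_lit 5) (nat_lit 3) (nat_lit 4) (nat_lit 1) (nat_lit 4) (nat_lit 344) (nat_lit 228) (nat_lit 208)) (XT.lf (nat_lit 0) (nat_lit 49170442604137) (nat_lit 152) (nat_lit 121788424103464) (nat_lit 0) (nat_lit 49170368870435) (nat_lit 1) (nat_lit 5) (nat_lit 3) (nat_lit 4) (nat_lit 1) (nat_lit 4) (nat_lit 348) (nat_lit 228) (nat_lit 204)))) (XT.nd (nat_lit 156) (nat_lit 0) (nat_lit 0) (XT.nd (nat_lit 78) (nat_lit 0) (nat_lit 0) (XT.lf (nat_lit 0) (nat_lit 56546133047416)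 (nat_lit 152) (nat_lit 140056408514579) (nat_lit 0) (nat_lit 56546058965573) (nat_lit 1) (nat_lit 5) (nat_lit 3) (nat_lit 4) (nat_lit 1) (nat_lit 4) (nat_lit 349) (nat_lit 228) (nat_lit 203)) (XT.lf (nat_lit 0) (nat_lit 65028175973533) (nat_lit 152) (nat_lit 161064592820067) (nat_lit 0) (nat_lit 65028101588960) (nat_lit 1) (nat_lit 5) (nat_lit 3) (nat_lit 4) (nat_lit 1) (nat_lit 4) (nat_lit 350) (nat_lit 228) (nat_lit 202))) (XT.nd (nat_lit 78) (nat_lit 0) (nat_lit 0) (XT.lf (nat_lit 0) (nat_lit 74782524396261) (nat_lit 152) (nat_lit 185224006712860) (nat_lit 0) (nat_lit 74782449748444) (nat_lit 1) (nat_lit 5) (nat_lit 3) (nat_lit 4) (nat_lit 1) (nat_lit 4) (nat_lit 351) (nat_lit 228) (nat_lit 201)) (XT.nd (nat_lit 78) (nat_lit 0) (nat_lit 0) (XT.lf (nat_lit 0) (nat_lit 86000024263000) (nat_lit 152) (nat_lit 213007334377819) (nat_lit 0) (nat_lit 85999949386275) (nat_lit 1) (nat_lit 5)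 (nat_lit 3) (nat_lit 4) (nat_lit 1) (nat_lit 4) (nat_lit 352) (nat_lit 228) (nat_lit 200)) (XT.lf (nat_lit 0) (nat_lit 98900148397232) (nat_lit 152) (nat_lit 244958162660561) (nat_lit 0) (nat_lit 98900073321456) (nat_lit 1) (nat_lit 5) (nat_lit 3) (nat_lit 4) (nat_lit 1) (nat_lit 4) (nat_lit 353) (nat_lit 228) (nat_lit 199)))))) (XT.nd (nat_lit 390) (nat_lit 0) (nat_lit 0) (XT.nd (nat_lit 156) (nat_lit 0) (nat_lit 0) (XT.nd (nat_lit 78) (nat_lit 0) (nat_lit 0) (XT.lf (nat_lit 0) (nat_lit 648506174109) (nat_lit 152) (nat_lit 1610526565089) (nat_lit 0) (nat_lit 648506174109) (nat_lit 1) (nat_lit 5) (nat_lit 3) (nat_lit 4) (nat_lit 1) (nat_lit 4) (nat_lit 322) (nat_lit 229) (nat_lit 229)) (XT.lf (nat_lit 0) (nat_lit 1491970797694) (nat_lit 152) (nat_lit 3703346212609) (nat_lit 0) (nat_lit 1491959337278) (nat_lit 1) (nat_lit 5) (nat_lit 3) (nat_lit 4) (nat_lit 1) (nat_lit 4) (nat_lit 323)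 (nat_lit 229) (nat_lit 228))) (XT.nd (nat_lit 78) (nat_lit 0) (nat_lit 0) (XT.lf (nat_lit 0) (nat_lit 1716137341867) (nat_lit 152) (nat_lit 4258056755714) (nat_lit 0) (nat_lit 1716115915871) (nat_lit 1) (nat_lit 5) (nat_lit 3) (nat_lit 4) (nat_lit 1) (nat_lit 4) (nat_lit 324) (nat_lit 229) (nat_lit 227)) (XT.nd (nat_lit 78) (nat_lit 0) (nat_lit 0) (XT.lf (nat_lit 0) (nat_lit 1973897847904) (nat_lit 152) (nat_lit 4896037791859) (nat_lit 0) (nat_lit 1973867756186) (nat_lit 1) (nat_lit 5) (nat_lit 3) (nat_lit 4) (nat_lit 1) (nat_lit 4) (nat_lit 325) (nat_lit 229) (nat_lit 226)) (XT.lf (nat_lit 0) (nat_lit 2270295456142) (nat_lit 152) (nat_lit 5629771558708) (nat_lit 0) (nat_lit 2270257829014) (nat_lit 1) (nat_lit 5) (nat_lit 3) (nat_lit 4) (nat_lit 1) (nat_lit 4) (nat_lit 326) (nat_lit 229) (nat_lit 225))))) (XT.nd (nat_lit 156) (nat_lit 0) (nat_lit 0) (XT.nd (nat_lit 78) (nat_lit 0) (nat_lit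 0) (XT.lf (nat_lit 0) (nat_lit 2611129250219) (nat_lit 152) (nat_lit 6473613716917) (nat_lit 0) (nat_lit 2611085070560) (nat_lit 1) (nat_lit 5) (nat_lit 3) (nat_lit 4) (nat_lit 1) (nat_lit 4) (nat_lit 327) (nat_lit 229) (nat_lit 224)) (XT.lf (nat_lit 0) (nat_lit 3003067717411) (nat_lit 152) (nat_lit 7444074221755) (nat_lit 0) (nat_lit 3003017839900) (nat_lit 1) (nat_lit 5) (nat_lit 3) (nat_lit 4) (nat_lit 1) (nat_lit 4) (nat_lit 328) (nat_lit 229) (nat_lit 223))) (XT.nd (nat_lit 78) (nat_lit 0) (nat_lit 0) (XT.lf (nat_lit 0) (nat_lit 3453779219032) (nat_lit 152) (nat_lit 8560140343969) (nat_lit 0) (nat_lit 3453724386867) (nat_lit 1) (nat_lit 5) (nat_lit 3) (nat_lit 4) (nat_lit 1) (nat_lit 4) (nat_lit 329) (nat_lit 229) (nat_lit 222)) (XT.nd (nat_lit 78) (nat_lit 0) (nat_lit 0) (XT.lf (nat_lit 0) (nat_lit 3972082023593) (nat_lit 152) (nat_lit 9843648159862) (nat_lit 0) (nat_lit 3972022883033)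 (nat_lit 1) (nat_lit 5) (nat_lit 3) (nat_lit 4) (nat_lit 1) (nat_lit 4) (nat_lit 330) (nat_lit 229) (nat_lit 221)) (XT.lf (nat_lit 0) (nat_lit 4568116838140) (nat_lit 152) (nat_lit 11319709778877) (nat_lit 0) (nat_lit 4568053951149) (nat_lit 1) (nat_lit 5) (nat_lit 3) (nat_lit 4) (nat_lit 1) (nat_lit 4) (nat_lit 331) (nat_lit 229) (nat_lit 220))))))) (XT.nd (nat_lit 780) (nat_lit 0) (nat_lit 0) (XT.nd (nat_lit 390) (nat_lit 0) (nat_lit 0) (XT.nd (nat_lit 156) (nat_lit 0) (nat_lit 0) (XT.nd (nat_lit 78) (nat_lit 0) (nat_lit 0) (XT.lf (nat_lit 0) (nat_lit 5253545213391) (nat_lit 152) (nat_lit 13017204667472) (nat_lit 0) (nat_lit 5253479068634) (nat_lit 1) (nat_lit 5) (nat_lit 3) (nat_lit 4) (nat_lit 1) (nat_lit 4) (nat_lit 332) (nat_lit 229) (nat_lit 219)) (XT.lf (nat_lit 0) (nat_lit 6041777704515) (nat_lit 152) (nat_lit 14969344682164) (nat_lit 0) (nat_lit 6041708726918) (nat_lit 1) (nat_lit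 5) (nat_lit 3) (nat_lit 4) (nat_lit 1) (nat_lit 4) (nat_lit 333) (nat_lit 229) (nat_lit 218))) (XT.nd (nat_lit 78) (nat_lit 0) (nat_lit 0) (XT.lf (nat_lit 0) (nat_lit 6948236251555) (nat_lit 152) (nat_lit 17214323866718) (nat_lit 0) (nat_lit 6948164810619) (nat_lit 1) (nat_lit 5) (nat_lit 3) (nat_lit 4) (nat_lit 1) (nat_lit 4) (nat_lit 334) (nat_lit 229) (nat_lit 217)) (XT.nd (nat_lit 78) (nat_lit 0) (nat_lit 0) (XT.lf (nat_lit 0) (nat_lit 7990655913041) (nat_lit 152) (nat_lit 19796065726918) (nat_lit 0) (nat_lit 7990582330071) (nat_lit 1) (nat_lit 5) (nat_lit 3) (nat_lit 4) (nat_lit 1) (nat_lit 4) (nat_lit 335) (nat_lit 229) (nat_lit 216)) (XT.lf (nat_lit 0) (nat_lit 9189431856262) (nat_lit 152) (nat_lit 22765082603509) (nat_lit 0) (nat_lit 9189356410654) (nat_lit 1) (nat_lit 5) (nat_lit 3) (nat_lit 4) (nat_lit 1) (nat_lit 4) (nat_lit 336) (nat_lit 229) (nat_lit 215))))) (XT.nd (nat_lit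 156) (nat_lit 0) (nat_lit 0) (XT.nd (nat_lit 78) (nat_lit 0) (nat_lit 0) (XT.lf (nat_lit 0) (nat_lit 10568018393151) (nat_lit 152) (nat_lit 26179463957118) (nat_lit 0) (nat_lit 10567941327858) (nat_lit 1) (nat_lit 5) (nat_lit 3) (nat_lit 4) (nat_lit 1) (nat_lit 4) (nat_lit 337) (nat_lit 229) (nat_lit 214)) (XT.lf (nat_lit 0) (nat_lit 12153387868995) (nat_lit 152) (nat_lit 30106012901186) (nat_lit 0) (nat_lit 12153309395280) (nat_lit 1) (nat_lit 5) (nat_lit 3) (nat_lit 4) (nat_lit 1) (nat_lit 4) (nat_lit 338) (nat_lit 229) (nat_lit 213))) (XT.nd (nat_lit 78) (nat_lit 0) (nat_lit 0) (XT.lf (nat_lit 0) (nat_lit 13976558382235) (nat_lit 152) (nat_lit 34621553219401) (nat_lit 0) (nat_lit 13976478683805) (nat_lit 1) (nat_lit 5) (nat_lit 3) (nat_lit 4) (nat_lit 1) (nat_lit 4) (nat_lit 339) (nat_lit 229) (nat_lit 212)) (XT.nd (nat_lit 78) (nat_lit 0) (nat_lit 0) (XT.lf (nat_lit 0) (nat_lit 16073200660302)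 (nat_lit 152) (nat_lit 39814432439729) (nat_lit 0) (nat_lit 16073119896903) (nat_lit 1) (nat_lit 5) (nat_lit 3) (nat_lit 4) (nat_lit 1) (nat_lit 4) (nat_lit 340) (nat_lit 229) (nat_lit 211)) (XT.lf (nat_lit 0) (nat_lit 18484335965161) (nat_lit 152) (nat_lit 45786250373001) (nat_lit 0) (nat_lit 18484254275701) (nat_lit 1) (nat_lit 5) (nat_lit 3) (nat_lit 4) (nat_lit 1) (nat_lit 4) (nat_lit 341) (nat_lit 229) (nat_lit 210)))))) (XT.nd (nat_lit 624) (nat_lit 0) (nat_lit 0) (XT.nd (nat_lit 156) (nat_lit 0) (nat_lit 0) (XT.nd (nat_lit 78) (nat_lit 0) (nat_lit 0) (XT.lf (nat_lit 0) (nat_lit 21257138683209) (nat_lit 152) (nat_lit 52653846935304) (nat_lit 0) (nat_lit 21257056188480) (nat_lit 1) (nat_lit 5) (nat_lit 3) (nat_lit 4) (nat_lit 1) (nat_lit 4) (nat_lit 342) (nat_lit 229) (nat_lit 209)) (XT.lf (nat_lit 0) (nat_lit 24445859302409) (nat_lit 152) (nat_lit 60551588146335) (nat_lit 0) (nat_lit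 24445776107445) (nat_lit 1) (nat_lit 5) (nat_lit 3) (nat_lit 4) (nat_lit 1) (nat_lit 4) (nat_lit 343) (nat_lit 229) (nat_lit 208))) (XT.nd (nat_lit 312) (nat_lit 0) (nat_lit 0) (XT.lf (nat_lit 0) (nat_lit 28112885834875) (nat_lit 152) (nat_lit 69633995029788) (nat_lit 0) (nat_lit 28112802031011) (nat_lit 1) (nat_lit 5) (nat_lit 3) (nat_lit 4) (nat_lit 1) (nat_lit 4) (nat_lit 344) (nat_lit 229) (nat_lit 207)) (XT.nd (nat_lit 78) (nat_lit 0) (nat_lit 0) (XT.lf (nat_lit 0) (nat_lit 49170330723676) (nat_lit 152) (nat_lit 121788678228879) (nat_lit 0) (nat_lit 49170245181416) (nat_lit 1) (nat_lit 5) (nat_lit 3) (nat_lit 4) (nat_lit 1) (nat_lit 4) (nat_lit 348) (nat_lit 229) (nat_lit 203)) (XT.lf (nat_lit 0) (nat_lit 56546020662930) (nat_lit 152) (nat_lit 140056663678462) (nat_lit 0) (nat_lit 56545934817939) (nat_lit 1) (nat_lit 5) (nat_lit 3) (nat_lit 4) (nat_lit 1) (nat_lit 4) (nat_lit 349)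 (nat_lit 229) (nat_lit 202))))) (XT.nd (nat_lit 156) (nat_lit 0) (nat_lit 0) (XT.nd (nat_lit 78) (nat_lit 0) (nat_lit 0) (XT.lf (nat_lit 0) (nat_lit 65028063150764) (nat_lit 152) (nat_lit 161064848886965) (nat_lit 0) (nat_lit 65027977042531) (nat_lit 1) (nat_lit 5) (nat_lit 3) (nat_lit 4) (nat_lit 1) (nat_lit 4) (nat_lit 350) (nat_lit 229) (nat_lit 201)) (XT.lf (nat_lit 0) (nat_lit 74782411192377) (nat_lit 152) (nat_lit 185224263564989) (nat_lit 0) (nat_lit 74782324855235) (nat_lit 1) (nat_lit 5) (nat_lit 3) (nat_lit 4) (nat_lit 1) (nat_lit 4) (nat_lit 351) (nat_lit 229) (nat_lit 200))) (XT.nd (nat_lit 38142) (nat_lit 0) (nat_lit 0) (XT.lf (nat_lit 0) (nat_lit 85999910727713) (nat_lit 152) (nat_lit 213007591912757) (nat_lit 0) (nat_lit 85999824191520) (nat_lit 1) (nat_lit 5) (nat_lit 3) (nat_lit 4) (nat_lit 1) (nat_lit 4) (nat_lit 352) (nat_lit 229) (nat_lit 199)) (XT.nd (nat_lit 78)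 (nat_lit 0) (nat_lit 0) (XT.lf (nat_lit 0) (nat_lit 489997035495) (nat_lit 152) (nat_lit 1218580851992) (nat_lit 0) (nat_lit 489997035495) (nat_lit 1) (nat_lit 5) (nat_lit 3) (nat_lit 4) (nat_lit 1) (nat_lit 4) (nat_lit 320) (nat_lit 230) (nat_lit 230)) (XT.lf (nat_lit 0) (nat_lit 1127460768470) (nat_lit 152) (nat_lit 2801741339420) (nat_lit 0) (nat_lit 1127447588991) (nat_lit 1) (nat_lit 5) (nat_lit 3) (nat_lit 4) (nat_lit 1) (nat_lit 4) (nat_lit 321) (nat_lit 230) (nat_lit 229))))))))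
noncomputable def xc5 : XT := (XT.nd (nat_lit 1482) (nat_lit 0) (nat_lit 0) (XT.nd (nat_lit 702) (nat_lit 0) (nat_lit 0) (XT.nd (nat_lit 312) (nat_lit 0) (nat_lit 0) (XT.nd (nat_lit 156) (nat_lit 0) (nat_lit 0) (XT.nd (nat_lit 78) (nat_lit 0) (nat_lit 0) (XT.lf (nat_lit 0) (nat_lit 1297006446937) (nat_lit 152) (nat_lit 3221092443229) (nat_lit 0) (nat_lit 1296981807041) (nat_lit 1) (nat_lit 5) (nat_lit 3) (nat_lit 4) (nat_lit 1) (nat_lit 4) (nat_lit 322) (nat_lit 230) (nat_lit 228)) (XT.lf (nat_lit 0) (nat_lit 1491948304448) (nat_lit 152) (nat_lit 3703419710920) (nat_lit 0) (nat_lit 1491913698972) (nat_lit 1) (nat_lit 5) (nat_lit 3) (nat_lit 4) (nat_lit 1) (nat_lit 4) (nat_lit 323) (nat_lit 230) (nat_lit 227))) (XT.nd (nat_lit 78) (nat_lit 0) (nat_lit 0) (XT.lf (nat_lit 0) (nat_lit 1716100420825) (nat_lit 152) (nat_lit 4258159980338) (nat_lit 0) (nat_lit 1716057149628) (nat_lit 1) (nat_lit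 5) (nat_lit 3) (nat_lit 4) (nat_lit 1) (nat_lit 4) (nat_lit 324) (nat_lit 230) (nat_lit 226)) (XT.lf (nat_lit 0) (nat_lit 1973848380953) (nat_lit 152) (nat_lit 4896166865452) (nat_lit 0) (nat_lit 1973797574345) (nat_lit 1) (nat_lit 5) (nat_lit 3) (nat_lit 4) (nat_lit 1) (nat_lit 4) (nat_lit 325) (nat_lit 230) (nat_lit 225)))) (XT.nd (nat_lit 156) (nat_lit 0) (nat_lit 0) (XT.nd (nat_lit 78) (nat_lit 0) (nat_lit 0) (XT.lf (nat_lit 0) (nat_lit 2270235079704) (nat_lit 152) (nat_lit 5629923109665) (nat_lit 0) (nat_lit 2270177720566) (nat_lit 1) (nat_lit 5) (nat_lit 3) (nat_lit 4) (nat_lit 1) (nat_lit 4) (nat_lit 326) (nat_lit 230) (nat_lit 224)) (XT.lf (nat_lit 0) (nat_lit 2611059387271) (nat_lit 152) (nat_lit 6473784813408) (nat_lit 0) (nat_lit 2610996330280) (nat_lit 1) (nat_lit 5) (nat_lit 3) (nat_lit 4) (nat_lit 1) (nat_lit 4) (nat_lit 327) (nat_lit 230) (nat_lit 223))) (XT.nd (nat_lit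 78) (nat_lit 0) (nat_lit 0) (XT.lf (nat_lit 0) (nat_lit 3002989605323) (nat_lit 152) (nat_lit 7444262314362) (nat_lit 0) (nat_lit 3002921593678) (nat_lit 1) (nat_lit 5) (nat_lit 3) (nat_lit 4) (nat_lit 1) (nat_lit 4) (nat_lit 328) (nat_lit 230) (nat_lit 222)) (XT.nd (nat_lit 78) (nat_lit 0) (nat_lit 0) (XT.lf (nat_lit 0) (nat_lit 3453693933780) (nat_lit 152) (nat_lit 8560343215807) (nat_lit 0) (nat_lit 3453621613740) (nat_lit 1) (nat_lit 5) (nat_lit 3) (nat_lit 4) (nat_lit 1) (nat_lit 4) (nat_lit 329) (nat_lit 230) (nat_lit 221)) (XT.lf (nat_lit 0) (nat_lit 3971990500807) (nat_lit 152) (nat_lit 9843863883206) (nat_lit 0) (nat_lit 3971914434337) (nat_lit 1) (nat_lit 5) (nat_lit 3) (nat_lit 4) (nat_lit 1) (nat_lit 4) (nat_lit 330) (nat_lit 230) (nat_lit 220)))))) (XT.nd (nat_lit 390) (nat_lit 0) (nat_lit 0) (XT.nd (nat_lit 156) (nat_lit 0) (nat_lit 0) (XT.nd (nat_lit 78) (nat_lit 0) (nat_lit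 0) (XT.lf (nat_lit 0) (nat_lit 4568019891411) (nat_lit 152) (nat_lit 11319936677444) (nat_lit 0) (nat_lit 4567940567174) (nat_lit 1) (nat_lit 5) (nat_lit 3) (nat_lit 4) (nat_lit 1) (nat_lit 4) (nat_lit 331) (nat_lit 230) (nat_lit 219)) (XT.lf (nat_lit 0) (nat_lit 5253443550190) (nat_lit 152) (nat_lit 13017441283624) (nat_lit 0) (nat_lit 5253361393114) (nat_lit 1) (nat_lit 5) (nat_lit 3) (nat_lit 4) (nat_lit 1) (nat_lit 4) (nat_lit 332) (nat_lit 230) (nat_lit 218))) (XT.nd (nat_lit 78) (nat_lit 0) (nat_lit 0) (XT.lf (nat_lit 0) (nat_lit 6041671940034) (nat_lit 152) (nat_lit 14969589748389) (nat_lit 0) (nat_lit 6041587319619) (nat_lit 1) (nat_lit 5) (nat_lit 3) (nat_lit 4) (nat_lit 1) (nat_lit 4) (nat_lit 333) (nat_lit 230) (nat_lit 217)) (XT.nd (nat_lit 78) (nat_lit 0) (nat_lit 0) (XT.lf (nat_lit 0) (nat_lit 6948126920743) (nat_lit 152) (nat_lit 17214576280833) (nat_lit 0) (nat_lit 6948040158294)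 (nat_lit 1) (nat_lit 5) (nat_lit 3) (nat_lit 4) (nat_lit 1) (nat_lit 4) (nat_lit 334) (nat_lit 230) (nat_lit 216)) (XT.lf (nat_lit 0) (nat_lit 7990543481072) (nat_lit 152) (nat_lit 19796324530503) (nat_lit 0) (nat_lit 7990454855985) (nat_lit 1) (nat_lit 5) (nat_lit 3) (nat_lit 4) (nat_lit 1) (nat_lit 4) (nat_lit 335) (nat_lit 230) (nat_lit 215))))) (XT.nd (nat_lit 156) (nat_lit 0) (nat_lit 0) (XT.nd (nat_lit 78) (nat_lit 0) (nat_lit 0) (XT.lf (nat_lit 0) (nat_lit 9189316727635) (nat_lit 152) (nat_lit 22765346963154) (nat_lit 0) (nat_lit 9189226482863) (nat_lit 1) (nat_lit 5) (nat_lit 3) (nat_lit 4) (nat_lit 1) (nat_lit 4) (nat_lit 336) (nat_lit 230) (nat_lit 214)) (XT.lf (nat_lit 0) (nat_lit 10567900919604) (nat_lit 152) (nat_lit 26179733148120) (nat_lit 0) (nat_lit 10567809266410) (nat_lit 1) (nat_lit 5) (nat_lit 3) (nat_lit 4) (nat_lit 1) (nat_lit 4) (nat_lit 337) (nat_lit 230) (nat_lit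 213))) (XT.nd (nat_lit 78) (nat_lit 0) (nat_lit 0) (XT.lf (nat_lit 0) (nat_lit 12153268356387) (nat_lit 152) (nat_lit 30106286293368) (nat_lit 0) (nat_lit 12153175478478) (nat_lit 1) (nat_lit 5) (nat_lit 3) (nat_lit 4) (nat_lit 1) (nat_lit 4) (nat_lit 338) (nat_lit 230) (nat_lit 212)) (XT.nd (nat_lit 78) (nat_lit 0) (nat_lit 0) (XT.lf (nat_lit 0) (nat_lit 13976437096530) (nat_lit 152) (nat_lit 34621830264783) (nat_lit 0) (nat_lit 13976343153651) (nat_lit 1) (nat_lit 5) (nat_lit 3) (nat_lit 4) (nat_lit 1) (nat_lit 4) (nat_lit 339) (nat_lit 230) (nat_lit 211)) (XT.lf (nat_lit 0) (nat_lit 16073077832775) (nat_lit 152) (nat_lit 39814712661807) (nat_lit 0) (nat_lit 16072982963836) (nat_lit 1) (nat_lit 5) (nat_lit 3) (nat_lit 4) (nat_lit 1) (nat_lit 4) (nat_lit 340) (nat_lit 230) (nat_lit 210))))))) (XT.nd (nat_lit 39000) (nat_lit 0) (nat_lit 0) (XT.nd (nat_lit 624) (nat_lit 0) (nat_lit 0)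 (XT.nd (nat_lit 156) (nat_lit 0) (nat_lit 0) (XT.nd (nat_lit 78) (nat_lit 0) (nat_lit 0) (XT.lf (nat_lit 0) (nat_lit 18484211796917) (nat_lit 152) (nat_lit 45786533357423) (nat_lit 0) (nat_lit 18484116122708) (nat_lit 1) (nat_lit 5) (nat_lit 3) (nat_lit 4) (nat_lit 1) (nat_lit 4) (nat_lit 341) (nat_lit 230) (nat_lit 209)) (XT.lf (nat_lit 0) (nat_lit 21257013349126) (nat_lit 152) (nat_lit 52654132321765) (nat_lit 0) (nat_lit 21256916974682) (nat_lit 1) (nat_lit 5) (nat_lit 3) (nat_lit 4) (nat_lit 1) (nat_lit 4) (nat_lit 342) (nat_lit 230) (nat_lit 208))) (XT.nd (nat_lit 78) (nat_lit 0) (nat_lit 0) (XT.lf (nat_lit 0) (nat_lit 24445732954552) (nat_lit 152) (nat_lit 60551875621524) (nat_lit 0) (nat_lit 24445635971209) (nat_lit 1) (nat_lit 5) (nat_lit 3) (nat_lit 4) (nat_lit 1) (nat_lit 4) (nat_lit 343) (nat_lit 230) (nat_lit 207)) (XT.nd (nat_lit 312) (nat_lit 0) (nat_lit 0) (XT.lf (nat_lit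 0) (nat_lit 28112758605476) (nat_lit 152) (nat_lit 69634284321263) (nat_lit 0) (nat_lit 28112661092655) (nat_lit 1) (nat_lit 5) (nat_lit 3) (nat_lit 4) (nat_lit 1) (nat_lit 4) (nat_lit 344) (nat_lit 230) (nat_lit 206)) (XT.lf (nat_lit 0) (nat_lit 49170200977492) (nat_lit 152) (nat_lit 121788972705812) (nat_lit 0) (nat_lit 49170101953022) (nat_lit 1) (nat_lit 5) (nat_lit 3) (nat_lit 4) (nat_lit 1) (nat_lit 4) (nat_lit 348) (nat_lit 230) (nat_lit 202))))) (XT.nd (nat_lit 156) (nat_lit 0) (nat_lit 0) (XT.nd (nat_lit 78) (nat_lit 0) (nat_lit 0) (XT.lf (nat_lit 0) (nat_lit 56545890478463) (nat_lit 152) (nat_lit 140056959058410) (nat_lit 0) (nat_lit 56545791190750) (nat_lit 1) (nat_lit 5) (nat_lit 3) (nat_lit 4) (nat_lit 1) (nat_lit 4) (nat_lit 349) (nat_lit 230) (nat_lit 201)) (XT.lf (nat_lit 0) (nat_lit 65027932585183) (nat_lit 152) (nat_lit 161065145052144) (nat_lit 0) (nat_lit 65027833068562)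 (nat_lit 1) (nat_lit 5) (nat_lit 3) (nat_lit 4) (nat_lit 1) (nat_lit 4) (nat_lit 350) (nat_lit 230) (nat_lit 200))) (XT.nd (nat_lit 38064) (nat_lit 0) (nat_lit 0) (XT.lf (nat_lit 0) (nat_lit 74782280295392) (nat_lit 152) (nat_lit 185224560412977) (nat_lit 0) (nat_lit 74782180579720) (nat_lit 1) (nat_lit 5) (nat_lit 3) (nat_lit 4) (nat_lit 1) (nat_lit 4) (nat_lit 351) (nat_lit 230) (nat_lit 199)) (XT.nd (nat_lit 78) (nat_lit 0) (nat_lit 0) (XT.lf (nat_lit 0) (nat_lit 370086333935) (nat_lit 152) (nat_lit 922332291427) (nat_lit 0) (nat_lit 370086333935) (nat_lit 1) (nat_lit 5) (nat_lit 3) (nat_lit 4) (nat_lit 1) (nat_lit 4) (nat_lit 318) (nat_lit 231) (nat_lit 231)) (XT.lf (nat_lit 0) (nat_lit 851736292906) (nat_lit 152) (nat_lit 2120220457097) (nat_lit 0) (nat_lit 851721136505) (nat_lit 1) (nat_lit 5) (nat_lit 3) (nat_lit 4) (nat_lit 1) (nat_lit 4) (nat_lit 319) (nat_lit 231) (nat_lit 230))))))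 (XT.nd (nat_lit 390) (nat_lit 0) (nat_lit 0) (XT.nd (nat_lit 156) (nat_lit 0) (nat_lit 0) (XT.nd (nat_lit 78) (nat_lit 0) (nat_lit 0) (XT.lf (nat_lit 0) (nat_lit 979987284518) (nat_lit 152) (nat_lit 2437206913991) (nat_lit 0) (nat_lit 979958948637) (nat_lit 1) (nat_lit 5) (nat_lit 3) (nat_lit 4) (nat_lit 1) (nat_lit 4) (nat_lit 320) (nat_lit 231) (nat_lit 229)) (XT.lf (nat_lit 0) (nat_lit 1127434901237) (nat_lit 152) (nat_lit 2801825862477) (nat_lit 0) (nat_lit 1127395104940) (nat_lit 1) (nat_lit 5) (nat_lit 3) (nat_lit 4) (nat_lit 1) (nat_lit 4) (nat_lit 321) (nat_lit 231) (nat_lit 228))) (XT.nd (nat_lit 78) (nat_lit 0) (nat_lit 0) (XT.lf (nat_lit 0) (nat_lit 1296963987738) (nat_lit 152) (nat_lit 3221211151547) (nat_lit 0) (nat_lit 1296914225861) (nat_lit 1) (nat_lit 5) (nat_lit 3) (nat_lit 4) (nat_lit 1) (nat_lit 4) (nat_lit 322) (nat_lit 231) (nat_lit 227)) (XT.nd (nat_lit 78) (nat_lit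 0) (nat_lit 0) (XT.lf (nat_lit 0) (nat_lit 1491891417454) (nat_lit 152) (nat_lit 3703568145551) (nat_lit 0) (nat_lit 1491832989855) (nat_lit 1) (nat_lit 5) (nat_lit 3) (nat_lit 4) (nat_lit 1) (nat_lit 4) (nat_lit 323) (nat_lit 231) (nat_lit 226)) (XT.lf (nat_lit 0) (nat_lit 1716030987921) (nat_lit 152) (nat_lit 4258334263938) (nat_lit 0) (nat_lit 1715965024912) (nat_lit 1) (nat_lit 5) (nat_lit 3) (nat_lit 4) (nat_lit 1) (nat_lit 4) (nat_lit 324) (nat_lit 231) (nat_lit 225))))) (XT.nd (nat_lit 156) (nat_lit 0) (nat_lit 0) (XT.nd (nat_lit 78) (nat_lit 0) (nat_lit 0) (XT.lf (nat_lit 0) (nat_lit 1973768038562) (nat_lit 152) (nat_lit 4896363626416) (nat_lit 0) (nat_lit 1973695523023) (nat_lit 1) (nat_lit 5) (nat_lit 3) (nat_lit 4) (nat_lit 1) (nat_lit 4) (nat_lit 325) (nat_lit 231) (nat_lit 224)) (XT.lf (nat_lit 0) (nat_lit 2270145250803) (nat_lit 152) (nat_lit 5630139416163) (nat_lit 0) (nat_lit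 2270067037411) (nat_lit 1) (nat_lit 5) (nat_lit 3) (nat_lit 4) (nat_lit 1) (nat_lit 4) (nat_lit 326) (nat_lit 231) (nat_lit 223))) (XT.nd (nat_lit 78) (nat_lit 0) (nat_lit 0) (XT.lf (nat_lit 0) (nat_lit 2610961309231) (nat_lit 152) (nat_lit 6474018116022) (nat_lit 0) (nat_lit 2610878141185) (nat_lit 1) (nat_lit 5) (nat_lit 3) (nat_lit 4) (nat_lit 1) (nat_lit 4) (nat_lit 327) (nat_lit 231) (nat_lit 222)) (XT.nd (nat_lit 78) (nat_lit 0) (nat_lit 0) (XT.lf (nat_lit 0) (nat_lit 3002884354119) (nat_lit 152) (nat_lit 7444510396207) (nat_lit 0) (nat_lit 3002796877678) (nat_lit 1) (nat_lit 5) (nat_lit 3) (nat_lit 4) (nat_lit 1) (nat_lit 4) (nat_lit 328) (nat_lit 231) (nat_lit 221)) (XT.lf (nat_lit 0) (nat_lit 3453582445042) (nat_lit 152) (nat_lit 8560604149158) (nat_lit 0) (nat_lit 3453491222170) (nat_lit 1) (nat_lit 5) (nat_lit 3) (nat_lit 4) (nat_lit 1) (nat_lit 4) (nat_lit 329) (nat_lit 231)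 (nat_lit 220))))))))
noncomputable def xc6 : XT := (XT.nd (nat_lit 39624) (nat_lit 0) (nat_lit 0) (XT.nd (nat_lit 702) (nat_lit 0) (nat_lit 0) (XT.nd (nat_lit 312) (nat_lit 0) (nat_lit 0) (XT.nd (nat_lit 156) (nat_lit 0) (nat_lit 0) (XT.nd (nat_lit 78) (nat_lit 0) (nat_lit 0) (XT.lf (nat_lit 0) (nat_lit 3971873588126) (nat_lit 152) (nat_lit 9844135991780) (nat_lit 0) (nat_lit 3971779107488) (nat_lit 1) (nat_lit 5) (nat_lit 3) (nat_lit 4) (nat_lit 1) (nat_lit 4) (nat_lit 330) (nat_lit 231) (nat_lit 219)) (XT.lf (nat_lit 0) (nat_lit 4567898262257) (nat_lit 152) (nat_lit 11320218503602) (nat_lit 0) (nat_lit 4567800948780) (nat_lit 1) (nat_lit 5) (nat_lit 3) (nat_lit 4) (nat_lit 1) (nat_lit 4) (nat_lit 331) (nat_lit 231) (nat_lit 218))) (XT.nd (nat_lit 78) (nat_lit 0) (nat_lit 0) (XT.lf (nat_lit 0) (nat_lit 5253317819756) (nat_lit 152) (nat_lit 13017731559856) (nat_lit 0) (nat_lit 5253218042940)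 (nat_lit 1) (nat_lit 5) (nat_lit 3) (nat_lit 4) (nat_lit 1) (nat_lit 4) (nat_lit 332) (nat_lit 231) (nat_lit 217)) (XT.lf (nat_lit 0) (nat_lit 6041542643270) (nat_lit 152) (nat_lit 14969887372511) (nat_lit 0) (nat_lit 6041440724419) (nat_lit 1) (nat_lit 5) (nat_lit 3) (nat_lit 4) (nat_lit 1) (nat_lit 4) (nat_lit 333) (nat_lit 231) (nat_lit 216)))) (XT.nd (nat_lit 156) (nat_lit 0) (nat_lit 0) (XT.nd (nat_lit 78) (nat_lit 0) (nat_lit 0) (XT.lf (nat_lit 0) (nat_lit 6947994522822) (nat_lit 152) (nat_lit 17214880294424) (nat_lit 0) (nat_lit 6947890741334) (nat_lit 1) (nat_lit 5) (nat_lit 3) (nat_lit 4) (nat_lit 1) (nat_lit 4) (nat_lit 334) (nat_lit 231) (nat_lit 215)) (XT.lf (nat_lit 0) (nat_lit 7990408386493) (nat_lit 152) (nat_lit 19796634100155) (nat_lit 0) (nat_lit 7990302985319) (nat_lit 1) (nat_lit 5) (nat_lit 3) (nat_lit 4) (nat_lit 1) (nat_lit 4) (nat_lit 335) (nat_lit 231) (nat_lit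 214))) (XT.nd (nat_lit 78) (nat_lit 0) (nat_lit 0) (XT.lf (nat_lit 0) (nat_lit 9189179288136) (nat_lit 152) (nat_lit 22765661364163) (nat_lit 0) (nat_lit 9189072478540) (nat_lit 1) (nat_lit 5) (nat_lit 3) (nat_lit 4) (nat_lit 1) (nat_lit 4) (nat_lit 336) (nat_lit 231) (nat_lit 213)) (XT.nd (nat_lit 78) (nat_lit 0) (nat_lit 0) (XT.lf (nat_lit 0) (nat_lit 10567761441043) (nat_lit 152) (nat_lit 26180051750309) (nat_lit 0) (nat_lit 10567653406733) (nat_lit 1) (nat_lit 5) (nat_lit 3) (nat_lit 4) (nat_lit 1) (nat_lit 4) (nat_lit 337) (nat_lit 231) (nat_lit 212)) (XT.lf (nat_lit 0) (nat_lit 12153127104730) (nat_lit 152) (nat_lit 30106608548757) (nat_lit 0) (nat_lit 12153018005450) (nat_lit 1) (nat_lit 5) (nat_lit 3) (nat_lit 4) (nat_lit 1) (nat_lit 4) (nat_lit 338) (nat_lit 231) (nat_lit 211)))))) (XT.nd (nat_lit 390) (nat_lit 0) (nat_lit 0) (XT.nd (nat_lit 156) (nat_lit 0) (nat_lit 0) (XT.nd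 (nat_lit 78) (nat_lit 0) (nat_lit 0) (XT.lf (nat_lit 0) (nat_lit 13976294303050) (nat_lit 152) (nat_lit 34622155696868) (nat_lit 0) (nat_lit 13976184277710) (nat_lit 1) (nat_lit 5) (nat_lit 3) (nat_lit 4) (nat_lit 1) (nat_lit 4) (nat_lit 339) (nat_lit 231) (nat_lit 210)) (XT.lf (nat_lit 0) (nat_lit 16072933698579) (nat_lit 152) (nat_lit 39815040856236) (nat_lit 0) (nat_lit 16072822867969) (nat_lit 1) (nat_lit 5) (nat_lit 3) (nat_lit 4) (nat_lit 1) (nat_lit 4) (nat_lit 340) (nat_lit 231) (nat_lit 209))) (XT.nd (nat_lit 78) (nat_lit 0) (nat_lit 0) (XT.lf (nat_lit 0) (nat_lit 18484066496881) (nat_lit 152) (nat_lit 45786863953891) (nat_lit 0) (nat_lit 18483954966037) (nat_lit 1) (nat_lit 5) (nat_lit 3) (nat_lit 4) (nat_lit 1) (nat_lit 4) (nat_lit 341) (nat_lit 231) (nat_lit 208)) (XT.nd (nat_lit 78) (nat_lit 0) (nat_lit 0) (XT.lf (nat_lit 0) (nat_lit 21256867035316) (nat_lit 152) (nat_lit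 52654465006961) (nat_lit 0) (nat_lit 21256754895572) (nat_lit 1) (nat_lit 5) (nat_lit 3) (nat_lit 4) (nat_lit 1) (nat_lit 4) (nat_lit 342) (nat_lit 231) (nat_lit 207)) (XT.lf (nat_lit 0) (nat_lit 24445585759200) (nat_lit 152) (nat_lit 60552210123007) (nat_lit 0) (nat_lit 24445473089978) (nat_lit 1) (nat_lit 5) (nat_lit 3) (nat_lit 4) (nat_lit 1) (nat_lit 4) (nat_lit 343) (nat_lit 231) (nat_lit 206))))) (XT.nd (nat_lit 390) (nat_lit 0) (nat_lit 0) (XT.nd (nat_lit 312) (nat_lit 0) (nat_lit 0) (XT.lf (nat_lit 0) (nat_lit 28112610643566) (nat_lit 152) (nat_lit 69634620402125) (nat_lit 0) (nat_lit 28112497513928) (nat_lit 1) (nat_lit 5) (nat_lit 3) (nat_lit 4) (nat_lit 1) (nat_lit 4) (nat_lit 344) (nat_lit 231) (nat_lit 205)) (XT.lf (nat_lit 0) (nat_lit 49170050827073) (nat_lit 152) (nat_lit 121789313295767) (nat_lit 0) (nat_lit 49169936382959) (nat_lit 1) (nat_lit 5) (nat_lit 3) (nat_lit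 4) (nat_lit 1) (nat_lit 4) (nat_lit 348) (nat_lit 231) (nat_lit 201))) (XT.nd (nat_lit 78) (nat_lit 0) (nat_lit 0) (XT.lf (nat_lit 0) (nat_lit 56545739946930) (nat_lit 152) (nat_lit 140057300433596) (nat_lit 0) (nat_lit 56545625273907) (nat_lit 1) (nat_lit 5) (nat_lit 3) (nat_lit 4) (nat_lit 1) (nat_lit 4) (nat_lit 349) (nat_lit 231) (nat_lit 200)) (XT.nd (nat_lit 37986) (nat_lit 0) (nat_lit 0) (XT.lf (nat_lit 0) (nat_lit 65027781722246) (nat_lit 152) (nat_lit 161065487110139) (nat_lit 0) (nat_lit 65027666850172) (nat_lit 1) (nat_lit 5) (nat_lit 3) (nat_lit 4) (nat_lit 1) (nat_lit 4) (nat_lit 350) (nat_lit 231) (nat_lit 199)) (XT.lf (nat_lit 0) (nat_lit 279353343092) (nat_lit 152) (nat_lit 698462332976) (nat_lit 0) (nat_lit 279353343092) (nat_lit 1) (nat_lit 5) (nat_lit 3) (nat_lit 4) (nat_lit 1) (nat_lit 4) (nat_lit 316) (nat_lit 232) (nat_lit 232))))))) (XT.nd (nat_lit 780) (nat_lit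 0) (nat_lit 0) (XT.nd (nat_lit 390) (nat_lit 0) (nat_lit 0) (XT.nd (nat_lit 156) (nat_lit 0) (nat_lit 0) (XT.nd (nat_lit 78) (nat_lit 0) (nat_lit 0) (XT.lf (nat_lit 0) (nat_lit 643131072695) (nat_lit 152) (nat_lit 1605147980681) (nat_lit 0) (nat_lit 643113642834) (nat_lit 1) (nat_lit 5) (nat_lit 3) (nat_lit 4) (nat_lit 1) (nat_lit 4) (nat_lit 317) (nat_lit 232) (nat_lit 231)) (XT.lf (nat_lit 0) (nat_lit 740164863426) (nat_lit 152) (nat_lit 1844716574363) (nat_lit 0) (nat_lit 740132277164) (nat_lit 1) (nat_lit 5) (nat_lit 3) (nat_lit 4) (nat_lit 1) (nat_lit 4) (nat_lit 318) (nat_lit 232) (nat_lit 230))) (XT.nd (nat_lit 78) (nat_lit 0) (nat_lit 0) (XT.lf (nat_lit 0) (nat_lit 851706545588) (nat_lit 152) (nat_lit 2120317658613) (nat_lit 0) (nat_lit 851660779846) (nat_lit 1) (nat_lit 5) (nat_lit 3) (nat_lit 4) (nat_lit 1) (nat_lit 4) (nat_lit 319) (nat_lit 232) (nat_lit 229)) (XT.nd (nat_lit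 78) (nat_lit 0) (nat_lit 0) (XT.lf (nat_lit 0) (nat_lit 979938456440) (nat_lit 152) (nat_lit 2437343428557) (nat_lit 0) (nat_lit 979881230281) (nat_lit 1) (nat_lit 5) (nat_lit 3) (nat_lit 4) (nat_lit 1) (nat_lit 4) (nat_lit 320) (nat_lit 232) (nat_lit 228)) (XT.lf (nat_lit 0) (nat_lit 1127369481193) (nat_lit 152) (nat_lit 2801996562304) (nat_lit 0) (nat_lit 1127302289455) (nat_lit 1) (nat_lit 5) (nat_lit 3) (nat_lit 4) (nat_lit 1) (nat_lit 4) (nat_lit 321) (nat_lit 232) (nat_lit 227))))) (XT.nd (nat_lit 156) (nat_lit 0) (nat_lit 0) (XT.nd (nat_lit 78) (nat_lit 0) (nat_lit 0) (XT.lf (nat_lit 0) (nat_lit 1296884139899) (nat_lit 152) (nat_lit 3221411577687) (nat_lit 0) (nat_lit 1296808282439) (nat_lit 1) (nat_lit 5) (nat_lit 3) (nat_lit 4) (nat_lit 1) (nat_lit 4) (nat_lit 322) (nat_lit 232) (nat_lit 226)) (XT.lf (nat_lit 0) (nat_lit 1491799023705) (nat_lit 152) (nat_lit 3703794420660) (nat_lit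 0) (nat_lit 1491715630835) (nat_lit 1) (nat_lit 5) (nat_lit 3) (nat_lit 4) (nat_lit 1) (nat_lit 4) (nat_lit 323) (nat_lit 232) (nat_lit 225))) (XT.nd (nat_lit 78) (nat_lit 0) (nat_lit 0) (XT.lf (nat_lit 0) (nat_lit 1715927684685) (nat_lit 152) (nat_lit 4258583016411) (nat_lit 0) (nat_lit 1715837739285) (nat_lit 1) (nat_lit 5) (nat_lit 3) (nat_lit 4) (nat_lit 1) (nat_lit 4) (nat_lit 324) (nat_lit 232) (nat_lit 224)) (XT.nd (nat_lit 78) (nat_lit 0) (nat_lit 0) (XT.lf (nat_lit 0) (nat_lit 1973655248817) (nat_lit 152) (nat_lit 4896631924422) (nat_lit 0) (nat_lit 1973559605564) (nat_lit 1) (nat_lit 5) (nat_lit 3) (nat_lit 4) (nat_lit 1) (nat_lit 4) (nat_lit 325) (nat_lit 232) (nat_lit 223)) (XT.lf (nat_lit 0) (nat_lit 2270024211918) (nat_lit 152) (nat_lit 5630424710285) (nat_lit 0) (nat_lit 2269923614011) (nat_lit 1) (nat_lit 5) (nat_lit 3) (nat_lit 4) (nat_lit 1) (nat_lit 4) (nat_lit 326)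 (nat_lit 232) (nat_lit 222)))))) (XT.nd (nat_lit 390) (nat_lit 0) (nat_lit 0) (XT.nd (nat_lit 156) (nat_lit 0) (nat_lit 0) (XT.nd (nat_lit 78) (nat_lit 0) (nat_lit 0) (XT.lf (nat_lit 0) (nat_lit 2610833097182) (nat_lit 152) (nat_lit 6474318189376) (nat_lit 0) (nat_lit 2610728190879) (nat_lit 1) (nat_lit 5) (nat_lit 3) (nat_lit 4) (nat_lit 1) (nat_lit 4) (nat_lit 327) (nat_lit 232) (nat_lit 221)) (XT.lf (nat_lit 0) (nat_lit 3002749904536) (nat_lit 152) (nat_lit 7444823321067) (nat_lit 0) (nat_lit 3002641251802) (nat_lit 1) (nat_lit 5) (nat_lit 3) (nat_lit 4) (nat_lit 1) (nat_lit 4) (nat_lit 328) (nat_lit 232) (nat_lit 220))) (XT.nd (nat_lit 78) (nat_lit 0) (nat_lit 0) (XT.lf (nat_lit 0) (nat_lit 3453442571515) (nat_lit 152) (nat_lit 8560928249241) (nat_lit 0) (nat_lit 3453330661016) (nat_lit 1) (nat_lit 5) (nat_lit 3) (nat_lit 4) (nat_lit 1) (nat_lit 4) (nat_lit 329) (nat_lit 232) (nat_lit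 219)) (XT.nd (nat_lit 78) (nat_lit 0) (nat_lit 0) (XT.lf (nat_lit 0) (nat_lit 3971728998127) (nat_lit 152) (nat_lit 9844469809447) (nat_lit 0) (nat_lit 3971614254788) (nat_lit 1) (nat_lit 5) (nat_lit 3) (nat_lit 4) (nat_lit 1) (nat_lit 4) (nat_lit 330) (nat_lit 232) (nat_lit 218)) (XT.lf (nat_lit 0) (nat_lit 4567749570978) (nat_lit 152) (nat_lit 11320560771343) (nat_lit 0) (nat_lit 4567632364301) (nat_lit 1) (nat_lit 5) (nat_lit 3) (nat_lit 4) (nat_lit 1) (nat_lit 4) (nat_lit 331) (nat_lit 232) (nat_lit 217))))) (XT.nd (nat_lit 156) (nat_lit 0) (nat_lit 0) (XT.nd (nat_lit 78) (nat_lit 0) (nat_lit 0) (XT.lf (nat_lit 0) (nat_lit 5253165562147) (nat_lit 152) (nat_lit 13018081175486) (nat_lit 0) (nat_lit 5253046213436) (nat_lit 1) (nat_lit 5) (nat_lit 3) (nat_lit 4) (nat_lit 1) (nat_lit 4) (nat_lit 332) (nat_lit 232) (nat_lit 216)) (XT.lf (nat_lit 0) (nat_lit 6041387284503) (nat_lit 152)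 (nat_lit 14970243377611) (nat_lit 0) (nat_lit 6041266073154) (nat_lit 1) (nat_lit 5) (nat_lit 3) (nat_lit 4) (nat_lit 1) (nat_lit 4) (nat_lit 333) (nat_lit 232) (nat_lit 215))) (XT.nd (nat_lit 78) (nat_lit 0) (nat_lit 0) (XT.lf (nat_lit 0) (nat_lit 6947836467398) (nat_lit 152) (nat_lit 17215241855585) (nat_lit 0) (nat_lit 6947713636363) (nat_lit 1) (nat_lit 5) (nat_lit 3) (nat_lit 4) (nat_lit 1) (nat_lit 4) (nat_lit 334) (nat_lit 232) (nat_lit 214)) (XT.nd (nat_lit 78) (nat_lit 0) (nat_lit 0) (XT.lf (nat_lit 0) (nat_lit 7990247986148) (nat_lit 152) (nat_lit 19797000492673) (nat_lit 0) (nat_lit 7990123746691) (nat_lit 1) (nat_lit 5) (nat_lit 3) (nat_lit 4) (nat_lit 1) (nat_lit 4) (nat_lit 335) (nat_lit 232) (nat_lit 213)) (XT.lf (nat_lit 0) (nat_lit 9189016848730) (nat_lit 152) (nat_lit 22766031957861) (nat_lit 0) (nat_lit 9188891384558) (nat_lit 1) (nat_lit 5) (nat_lit 3) (nat_lit 4)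 (nat_lit 1) (nat_lit 4) (nat_lit 336) (nat_lit 232) (nat_lit 212))))))))
noncomputable def xc7 : XT := (XT.nd (nat_lit 39702) (nat_lit 0) (nat_lit 0) (XT.nd (nat_lit 38922) (nat_lit 0) (nat_lit 0) (XT.nd (nat_lit 312) (nat_lit 0) (nat_lit 0) (XT.nd (nat_lit 156) (nat_lit 0) (nat_lit 0) (XT.nd (nat_lit 78) (nat_lit 0) (nat_lit 0) (XT.lf (nat_lit 0) (nat_lit 10567597228541) (nat_lit 152) (nat_lit 26180425997207) (nat_lit 0) (nat_lit 10567470699400) (nat_lit 1) (nat_lit 5) (nat_lit 3) (nat_lit 4) (nat_lit 1) (nat_lit 4) (nat_lit 337) (nat_lit 232) (nat_lit 211)) (XT.lf (nat_lit 0) (nat_lit 12152961350405) (nat_lit 152) (nat_lit 30106985972351) (nat_lit 0) (nat_lit 12152833895203) (nat_lit 1) (nat_lit 5) (nat_lit 3) (nat_lit 4) (nat_lit 1) (nat_lit 4) (nat_lit 338) (nat_lit 232) (nat_lit 210))) (XT.nd (nat_lit 78) (nat_lit 0) (nat_lit 0) (XT.lf (nat_lit 0) (nat_lit 13976127208009) (nat_lit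 152) (nat_lit 34622535882806) (nat_lit 0) (nat_lit 13975998947537) (nat_lit 1) (nat_lit 5) (nat_lit 3) (nat_lit 4) (nat_lit 1) (nat_lit 4) (nat_lit 339) (nat_lit 232) (nat_lit 209)) (XT.lf (nat_lit 0) (nat_lit 16072765437698) (nat_lit 152) (nat_lit 39815423444212) (nat_lit 0) (nat_lit 16072636476992) (nat_lit 1) (nat_lit 5) (nat_lit 3) (nat_lit 4) (nat_lit 1) (nat_lit 4) (nat_lit 340) (nat_lit 232) (nat_lit 208)))) (XT.nd (nat_lit 156) (nat_lit 0) (nat_lit 0) (XT.nd (nat_lit 78) (nat_lit 0) (nat_lit 0) (XT.lf (nat_lit 0) (nat_lit 18483897222227) (nat_lit 152) (nat_lit 45787248630596) (nat_lit 0) (nat_lit 18483767652621) (nat_lit 1) (nat_lit 5) (nat_lit 3) (nat_lit 4) (nat_lit 1) (nat_lit 4) (nat_lit 341) (nat_lit 232) (nat_lit 207)) (XT.lf (nat_lit 0) (nat_lit 21256696879119) (nat_lit 152) (nat_lit 52654851499952) (nat_lit 0) (nat_lit 21256566780036) (nat_lit 1) (nat_lit 5) (nat_lit 3)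 (nat_lit 4) (nat_lit 1) (nat_lit 4) (nat_lit 342) (nat_lit 232) (nat_lit 206))) (XT.nd (nat_lit 78) (nat_lit 0) (nat_lit 0) (XT.lf (nat_lit 0) (nat_lit 24445414836445) (nat_lit 152) (nat_lit 60552598195377) (nat_lit 0) (nat_lit 24445284276945) (nat_lit 1) (nat_lit 5) (nat_lit 3) (nat_lit 4) (nat_lit 1) (nat_lit 4) (nat_lit 343) (nat_lit 232) (nat_lit 205)) (XT.nd (nat_lit 38298) (nat_lit 0) (nat_lit 0) (XT.lf (nat_lit 0) (nat_lit 28112439054237) (nat_lit 152) (nat_lit 69635009847869) (nat_lit 0) (nat_lit 28112308094377) (nat_lit 1) (nat_lit 5) (nat_lit 3) (nat_lit 4) (nat_lit 1) (nat_lit 4) (nat_lit 344) (nat_lit 232) (nat_lit 204)) (XT.lf (nat_lit 0) (nat_lit 210673402451) (nat_lit 152) (nat_lit 529341473345) (nat_lit 0) (nat_lit 210673402451) (nat_lit 1) (nat_lit 5) (nat_lit 3) (nat_lit 4) (nat_lit 1) (nat_lit 4) (nat_lit 314) (nat_lit 233) (nat_lit 233)))))) (XT.nd (nat_lit 390) (nat_lit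 0) (nat_lit 0) (XT.nd (nat_lit 156) (nat_lit 0) (nat_lit 0) (XT.nd (nat_lit 78) (nat_lit 0) (nat_lit 0) (XT.lf (nat_lit 0) (nat_lit 485259966759) (nat_lit 152) (nat_lit 1215972695757) (nat_lit 0) (nat_lit 485239922418) (nat_lit 1) (nat_lit 5) (nat_lit 3) (nat_lit 4) (nat_lit 1) (nat_lit 4) (nat_lit 315) (nat_lit 233) (nat_lit 232)) (XT.lf (nat_lit 0) (nat_lit 558697711074) (nat_lit 152) (nat_lit 1396984456187) (nat_lit 0) (nat_lit 558660236872) (nat_lit 1) (nat_lit 5) (nat_lit 3) (nat_lit 4) (nat_lit 1) (nat_lit 4) (nat_lit 316) (nat_lit 233) (nat_lit 231))) (XT.nd (nat_lit 78) (nat_lit 0) (nat_lit 0) (XT.lf (nat_lit 0) (nat_lit 643096863279) (nat_lit 152) (nat_lit 1605259762424) (nat_lit 0) (nat_lit 643044232676) (nat_lit 1) (nat_lit 5) (nat_lit 3) (nat_lit 4) (nat_lit 1) (nat_lit 4) (nat_lit 317) (nat_lit 233) (nat_lit 230)) (XT.nd (nat_lit 78) (nat_lit 0) (nat_lit 0) (XT.lf (nat_lit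 0) (nat_lit 740108711136) (nat_lit 152) (nat_lit 1844873566113) (nat_lit 0) (nat_lit 740042901054) (nat_lit 1) (nat_lit 5) (nat_lit 3) (nat_lit 4) (nat_lit 1) (nat_lit 4) (nat_lit 318) (nat_lit 233) (nat_lit 229)) (XT.lf (nat_lit 0) (nat_lit 851631312538) (nat_lit 152) (nat_lit 2120513963413) (nat_lit 0) (nat_lit 851554042039) (nat_lit 1) (nat_lit 5) (nat_lit 3) (nat_lit 4) (nat_lit 1) (nat_lit 4) (nat_lit 319) (nat_lit 233) (nat_lit 228))))) (XT.nd (nat_lit 156) (nat_lit 0) (nat_lit 0) (XT.nd (nat_lit 78) (nat_lit 0) (nat_lit 0) (XT.lf (nat_lit 0) (nat_lit 979846631424) (nat_lit 152) (nat_lit 2437573918618) (nat_lit 0) (nat_lit 979759395345) (nat_lit 1) (nat_lit 5) (nat_lit 3) (nat_lit 4) (nat_lit 1) (nat_lit 4) (nat_lit 320) (nat_lit 233) (nat_lit 227)) (XT.lf (nat_lit 0) (nat_lit 1127263228382) (nat_lit 152) (nat_lit 2802256778679) (nat_lit 0) (nat_lit 1127167326581) (nat_lit 1) (nat_lit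 5) (nat_lit 3) (nat_lit 4) (nat_lit 1) (nat_lit 4) (nat_lit 321) (nat_lit 233) (nat_lit 226))) (XT.nd (nat_lit 78) (nat_lit 0) (nat_lit 0) (XT.lf (nat_lit 0) (nat_lit 1296765341178) (nat_lit 152) (nat_lit 3221697643030) (nat_lit 0) (nat_lit 1296661903967) (nat_lit 1) (nat_lit 5) (nat_lit 3) (nat_lit 4) (nat_lit 1) (nat_lit 4) (nat_lit 322) (nat_lit 233) (nat_lit 225)) (XT.nd (nat_lit 78) (nat_lit 0) (nat_lit 0) (XT.lf (nat_lit 0) (nat_lit 1491669315497) (nat_lit 152) (nat_lit 3704102963367) (nat_lit 0) (nat_lit 1491559325756) (nat_lit 1) (nat_lit 5) (nat_lit 3) (nat_lit 4) (nat_lit 1) (nat_lit 4) (nat_lit 323) (nat_lit 233) (nat_lit 224)) (XT.lf (nat_lit 0) (nat_lit 1715788489968) (nat_lit 152) (nat_lit 4258911104652) (nat_lit 0) (nat_lit 1715672802374) (nat_lit 1) (nat_lit 5) (nat_lit 3) (nat_lit 4) (nat_lit 1) (nat_lit 4) (nat_lit 324) (nat_lit 233) (nat_lit 223))))))) (XT.nd (nat_lit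 780) (nat_lit 0) (nat_lit 0) (XT.nd (nat_lit 390) (nat_lit 0) (nat_lit 0) (XT.nd (nat_lit 156) (nat_lit 0) (nat_lit 0) (XT.nd (nat_lit 78) (nat_lit 0) (nat_lit 0) (XT.lf (nat_lit 0) (nat_lit 1973507804960) (nat_lit 152) (nat_lit 4896977008779) (nat_lit 0) (nat_lit 1973387162712) (nat_lit 1) (nat_lit 5) (nat_lit 3) (nat_lit 4) (nat_lit 1) (nat_lit 4) (nat_lit 325) (nat_lit 233) (nat_lit 222)) (XT.lf (nat_lit 0) (nat_lit 2269869594897) (nat_lit 152) (nat_lit 5630784573874) (nat_lit 0) (nat_lit 2269744644254) (nat_lit 1) (nat_lit 5) (nat_lit 3) (nat_lit 4) (nat_lit 1) (nat_lit 4) (nat_lit 326) (nat_lit 233) (nat_lit 221))) (XT.nd (nat_lit 78) (nat_lit 0) (nat_lit 0) (XT.lf (nat_lit 0) (nat_lit 2610672242626) (nat_lit 152) (nat_lit 6474690904470) (nat_lit 0) (nat_lit 2610543545552) (nat_lit 1) (nat_lit 5) (nat_lit 3) (nat_lit 4) (nat_lit 1) (nat_lit 4) (nat_lit 327) (nat_lit 233) (nat_lit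 220)) (XT.nd (nat_lit 78) (nat_lit 0) (nat_lit 0) (XT.lf (nat_lit 0) (nat_lit 3002583626037) (nat_lit 152) (nat_lit 7445207211384) (nat_lit 0) (nat_lit 3002451671198) (nat_lit 1) (nat_lit 5) (nat_lit 3) (nat_lit 4) (nat_lit 1) (nat_lit 4) (nat_lit 328) (nat_lit 233) (nat_lit 219)) (XT.lf (nat_lit 0) (nat_lit 3453271576545) (nat_lit 152) (nat_lit 8561321857142) (nat_lit 0) (nat_lit 3453136788866) (nat_lit 1) (nat_lit 5) (nat_lit 3) (nat_lit 4) (nat_lit 1) (nat_lit 4) (nat_lit 329) (nat_lit 233) (nat_lit 218))))) (XT.nd (nat_lit 156) (nat_lit 0) (nat_lit 0) (XT.nd (nat_lit 78) (nat_lit 0) (nat_lit 0) (XT.lf (nat_lit 0) (nat_lit 3971553901876) (nat_lit 152) (nat_lit 9844871867422) (nat_lit 0) (nat_lit 3971416650858) (nat_lit 1) (nat_lit 5) (nat_lit 3) (nat_lit 4) (nat_lit 1) (nat_lit 4) (nat_lit 330) (nat_lit 233) (nat_lit 217)) (XT.lf (nat_lit 0) (nat_lit 4567570908397) (nat_lit 152) (nat_lit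 11320970177208) (nat_lit 0) (nat_lit 4567431515345) (nat_lit 1) (nat_lit 5) (nat_lit 3) (nat_lit 4) (nat_lit 1) (nat_lit 4) (nat_lit 331) (nat_lit 233) (nat_lit 216))) (XT.nd (nat_lit 78) (nat_lit 0) (nat_lit 0) (XT.lf (nat_lit 0) (nat_lit 5252983798409) (nat_lit 152) (nat_lit 13018496970821) (nat_lit 0) (nat_lit 5252842542719) (nat_lit 1) (nat_lit 5) (nat_lit 3) (nat_lit 4) (nat_lit 1) (nat_lit 4) (nat_lit 332) (nat_lit 233) (nat_lit 215)) (XT.nd (nat_lit 78) (nat_lit 0) (nat_lit 0) (XT.lf (nat_lit 0) (nat_lit 6041202824107) (nat_lit 152) (nat_lit 14970664729007) (nat_lit 0) (nat_lit 6041059948732) (nat_lit 1) (nat_lit 5) (nat_lit 3) (nat_lit 4) (nat_lit 1) (nat_lit 4) (nat_lit 333) (nat_lit 233) (nat_lit 214)) (XT.lf (nat_lit 0) (nat_lit 6947649662081) (nat_lit 152) (nat_lit 17215668038338) (nat_lit 0) (nat_lit 6947505378284) (nat_lit 1) (nat_lit 5) (nat_lit 3) (nat_lit 4) (nat_lit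 1) (nat_lit 4) (nat_lit 334) (nat_lit 233) (nat_lit 213)))))) (XT.nd (nat_lit 390) (nat_lit 0) (nat_lit 0) (XT.nd (nat_lit 156) (nat_lit 0) (nat_lit 0) (XT.nd (nat_lit 78) (nat_lit 0) (nat_lit 0) (XT.lf (nat_lit 0) (nat_lit 7990059141771) (nat_lit 152) (nat_lit 19797430876606) (nat_lit 0) (nat_lit 7989913633259) (nat_lit 1) (nat_lit 5) (nat_lit 3) (nat_lit 4) (nat_lit 1) (nat_lit 4) (nat_lit 335) (nat_lit 233) (nat_lit 212)) (XT.lf (nat_lit 0) (nat_lit 9188826231256) (nat_lit 152) (nat_lit 22766465994994) (nat_lit 0) (nat_lit 9188679657774) (nat_lit 1) (nat_lit 5) (nat_lit 3) (nat_lit 4) (nat_lit 1) (nat_lit 4) (nat_lit 336) (nat_lit 233) (nat_lit 211))) (XT.nd (nat_lit 78) (nat_lit 0) (nat_lit 0) (XT.lf (nat_lit 0) (nat_lit 10567405069244) (nat_lit 152) (nat_lit 26180863211035) (nat_lit 0) (nat_lit 10567257569702) (nat_lit 1) (nat_lit 5) (nat_lit 3) (nat_lit 4) (nat_lit 1) (nat_lit 4)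 (nat_lit 337) (nat_lit 233) (nat_lit 210)) (XT.nd (nat_lit 78) (nat_lit 0) (nat_lit 0) (XT.lf (nat_lit 0) (nat_lit 12152767850392) (nat_lit 152) (nat_lit 30107425948523) (nat_lit 0) (nat_lit 12152619545580) (nat_lit 1) (nat_lit 5) (nat_lit 3) (nat_lit 4) (nat_lit 1) (nat_lit 4) (nat_lit 338) (nat_lit 233) (nat_lit 209)) (XT.lf (nat_lit 0) (nat_lit 13975932542156) (nat_lit 152) (nat_lit 34622978261017) (nat_lit 0) (nat_lit 13975783537110) (nat_lit 1) (nat_lit 5) (nat_lit 3) (nat_lit 4) (nat_lit 1) (nat_lit 4) (nat_lit 339) (nat_lit 233) (nat_lit 208))))) (XT.nd (nat_lit 156) (nat_lit 0) (nat_lit 0) (XT.nd (nat_lit 78) (nat_lit 0) (nat_lit 0) (XT.lf (nat_lit 0) (nat_lit 16072569758071) (nat_lit 152) (nat_lit 39815867911151) (nat_lit 0) (nat_lit 16072420144125) (nat_lit 1) (nat_lit 5) (nat_lit 3) (nat_lit 4) (nat_lit 1) (nat_lit 4) (nat_lit 340) (nat_lit 233) (nat_lit 207)) (XT.lf (nat_lit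 0) (nat_lit 18483700661058) (nat_lit 152) (nat_lit 45787694913821) (nat_lit 0) (nat_lit 18483550517634) (nat_lit 1) (nat_lit 5) (nat_lit 3) (nat_lit 4) (nat_lit 1) (nat_lit 4) (nat_lit 341) (nat_lit 233) (nat_lit 206))) (XT.nd (nat_lit 78) (nat_lit 0) (nat_lit 0) (XT.lf (nat_lit 0) (nat_lit 21256499551392) (nat_lit 152) (nat_lit 52655299362557) (nat_lit 0) (nat_lit 21256348947552) (nat_lit 1) (nat_lit 5) (nat_lit 3) (nat_lit 4) (nat_lit 1) (nat_lit 4) (nat_lit 342) (nat_lit 233) (nat_lit 205)) (XT.nd (nat_lit 1248) (nat_lit 0) (nat_lit 0) (XT.lf (nat_lit 0) (nat_lit 24445216842145) (nat_lit 152) (nat_lit 60553047431355) (nat_lit 0) (nat_lit 24445065837943) (nat_lit 1) (nat_lit 5) (nat_lit 3) (nat_lit 4) (nat_lit 1) (nat_lit 4) (nat_lit 343) (nat_lit 233) (nat_lit 204)) (XT.lf (nat_lit 0) (nat_lit 228762316679316) (nat_lit 152) (nat_lit 566602524447429) (nat_lit 0) (nat_lit 228762163291268)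 (nat_lit 1) (nat_lit 5) (nat_lit 3) (nat_lit 4) (nat_lit 1) (nat_lit 4) (nat_lit 359) (nat_lit 233) (nat_lit 188))))))))
noncomputable def xc8 : XT := (XT.nd (nat_lit 38298) (nat_lit 0) (nat_lit 0) (XT.nd (nat_lit 37518) (nat_lit 0) (nat_lit 0) (XT.nd (nat_lit 37128) (nat_lit 0) (nat_lit 0) (XT.nd (nat_lit 36972) (nat_lit 0) (nat_lit 0) (XT.nd (nat_lit 36894) (nat_lit 0) (nat_lit 0) (XT.lf (nat_lit 0) (nat_lit 263076897872882) (nat_lit 152) (nat_lit 651592374134728) (nat_lit 0) (nat_lit 263076744447630) (nat_lit 1) (nat_lit 5) (nat_lit 3) (nat_lit 4) (nat_lit 1) (nat_lit 4) (nat_lit 360) (nat_lit 233) (nat_lit 187)) (XT.lf (nat_lit 0) (nat_lit 158657821435) (nat_lit 152) (nat_lit 401642346841) (nat_lit 0) (nat_lit 158657821435) (nat_lit 1) (nat_lit 5) (nat_lit 3) (nat_lit 4) (nat_lit 1) (nat_lit 4) (nat_lit 312) (nat_lit 234) (nat_lit 234))) (XT.nd (nat_lit 78) (nat_lit 0) (nat_lit 0)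 (XT.lf (nat_lit 0) (nat_lit 365730801590) (nat_lit 152) (nat_lit 922037800856) (nat_lit 0) (nat_lit 365707750599) (nat_lit 1) (nat_lit 5) (nat_lit 3) (nat_lit 4) (nat_lit 1) (nat_lit 4) (nat_lit 313) (nat_lit 234) (nat_lit 233)) (XT.lf (nat_lit 0) (nat_lit 421336483525) (nat_lit 152) (nat_lit 1058751705461) (nat_lit 0) (nat_lit 421293388193) (nat_lit 1) (nat_lit 5) (nat_lit 3) (nat_lit 4) (nat_lit 1) (nat_lit 4) (nat_lit 314) (nat_lit 234) (nat_lit 232)))) (XT.nd (nat_lit 156) (nat_lit 0) (nat_lit 0) (XT.nd (nat_lit 78) (nat_lit 0) (nat_lit 0) (XT.lf (nat_lit 0) (nat_lit 485220625930) (nat_lit 152) (nat_lit 1216101244761) (nat_lit 0) (nat_lit 485160100737) (nat_lit 1) (nat_lit 5) (nat_lit 3) (nat_lit 4) (nat_lit 1) (nat_lit 4) (nat_lit 315) (nat_lit 234) (nat_lit 231)) (XT.lf (nat_lit 0) (nat_lit 558633135940) (nat_lit 152) (nat_lit 1397164996700) (nat_lit 0) (nat_lit 558557454345) (nat_lit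 1) (nat_lit 5) (nat_lit 3) (nat_lit 4) (nat_lit 1) (nat_lit 4) (nat_lit 316) (nat_lit 234) (nat_lit 230))) (XT.nd (nat_lit 78) (nat_lit 0) (nat_lit 0) (XT.lf (nat_lit 0) (nat_lit 643010345272) (nat_lit 152) (nat_lit 1605485512945) (nat_lit 0) (nat_lit 642921484198) (nat_lit 1) (nat_lit 5) (nat_lit 3) (nat_lit 4) (nat_lit 1) (nat_lit 4) (nat_lit 317) (nat_lit 234) (nat_lit 229)) (XT.nd (nat_lit 78) (nat_lit 0) (nat_lit 0) (XT.lf (nat_lit 0) (nat_lit 740003112369) (nat_lit 152) (nat_lit 1845138629684) (nat_lit 0) (nat_lit 739902790878) (nat_lit 1) (nat_lit 5) (nat_lit 3) (nat_lit 4) (nat_lit 1) (nat_lit 4) (nat_lit 318) (nat_lit 234) (nat_lit 228)) (XT.lf (nat_lit 0) (nat_lit 851509121805) (nat_lit 152) (nat_lit 2120813212244) (nat_lit 0) (nat_lit 851398834734) (nat_lit 1) (nat_lit 5) (nat_lit 3) (nat_lit 4) (nat_lit 1) (nat_lit 4) (nat_lit 319) (nat_lit 234) (nat_lit 227)))))) (XT.nd (nat_lit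 390) (nat_lit 0) (nat_lit 0) (XT.nd (nat_lit 156) (nat_lit 0) (nat_lit 0) (XT.nd (nat_lit 78) (nat_lit 0) (nat_lit 0) (XT.lf (nat_lit 0) (nat_lit 979710012895) (nat_lit 152) (nat_lit 2437902893763) (nat_lit 0) (nat_lit 979591060103) (nat_lit 1) (nat_lit 5) (nat_lit 3) (nat_lit 4) (nat_lit 1) (nat_lit 4) (nat_lit 320) (nat_lit 234) (nat_lit 226)) (XT.lf (nat_lit 0) (nat_lit 1127114063943) (nat_lit 152) (nat_lit 2802611602792) (nat_lit 0) (nat_lit 1126987575741) (nat_lit 1) (nat_lit 5) (nat_lit 3) (nat_lit 4) (nat_lit 1) (nat_lit 4) (nat_lit 321) (nat_lit 234) (nat_lit 225))) (XT.nd (nat_lit 78) (nat_lit 0) (nat_lit 0) (XT.lf (nat_lit 0) (nat_lit 1296605267253) (nat_lit 152) (nat_lit 3222074944507) (nat_lit 0) (nat_lit 1296472226520) (nat_lit 1) (nat_lit 5) (nat_lit 3) (nat_lit 4) (nat_lit 1) (nat_lit 4) (nat_lit 322) (nat_lit 234) (nat_lit 224)) (XT.nd (nat_lit 78) (nat_lit 0) (nat_lit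 0) (XT.lf (nat_lit 0) (nat_lit 1491499755062) (nat_lit 152) (nat_lit 3704499810378) (nat_lit 0) (nat_lit 1491361016477) (nat_lit 1) (nat_lit 5) (nat_lit 3) (nat_lit 4) (nat_lit 1) (nat_lit 4) (nat_lit 323) (nat_lit 234) (nat_lit 223)) (XT.lf (nat_lit 0) (nat_lit 1715610680393) (nat_lit 152) (nat_lit 4259324947779) (nat_lit 0) (nat_lit 1715466987154) (nat_lit 1) (nat_lit 5) (nat_lit 3) (nat_lit 4) (nat_lit 1) (nat_lit 4) (nat_lit 324) (nat_lit 234) (nat_lit 222))))) (XT.nd (nat_lit 156) (nat_lit 0) (nat_lit 0) (XT.nd (nat_lit 78) (nat_lit 0) (nat_lit 0) (XT.lf (nat_lit 0) (nat_lit 1973322822221) (nat_lit 152) (nat_lit 4897405631138) (nat_lit 0) (nat_lit 1973174820586) (nat_lit 1) (nat_lit 5) (nat_lit 3) (nat_lit 4) (nat_lit 1) (nat_lit 4) (nat_lit 325) (nat_lit 234) (nat_lit 221)) (XT.lf (nat_lit 0) (nat_lit 2269678374624) (nat_lit 152) (nat_lit 5631226047739) (nat_lit 0) (nat_lit 2269526626559)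 (nat_lit 1) (nat_lit 5) (nat_lit 3) (nat_lit 4) (nat_lit 1) (nat_lit 4) (nat_lit 326) (nat_lit 234) (nat_lit 220))) (XT.nd (nat_lit 78) (nat_lit 0) (nat_lit 0) (XT.lf (nat_lit 0) (nat_lit 2610475598410) (nat_lit 152) (nat_lit 6475143553557) (nat_lit 0) (nat_lit 2610320592579) (nat_lit 1) (nat_lit 5) (nat_lit 3) (nat_lit 4) (nat_lit 1) (nat_lit 4) (nat_lit 327) (nat_lit 234) (nat_lit 219)) (XT.nd (nat_lit 78) (nat_lit 0) (nat_lit 0) (XT.lf (nat_lit 0) (nat_lit 3002382265349) (nat_lit 152) (nat_lit 7445669578056) (nat_lit 0) (nat_lit 3002224426678) (nat_lit 1) (nat_lit 5) (nat_lit 3) (nat_lit 4) (nat_lit 1) (nat_lit 4) (nat_lit 328) (nat_lit 234) (nat_lit 218)) (XT.lf (nat_lit 0) (nat_lit 3453066114576) (nat_lit 152) (nat_lit 8561792673887) (nat_lit 0) (nat_lit 3452905812567) (nat_lit 1) (nat_lit 5) (nat_lit 3) (nat_lit 4) (nat_lit 1) (nat_lit 4) (nat_lit 329) (nat_lit 234) (nat_lit 217)))))))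 (XT.nd (nat_lit 780) (nat_lit 0) (nat_lit 0) (XT.nd (nat_lit 390) (nat_lit 0) (nat_lit 0) (XT.nd (nat_lit 156) (nat_lit 0) (nat_lit 0) (XT.nd (nat_lit 78) (nat_lit 0) (nat_lit 0) (XT.lf (nat_lit 0) (nat_lit 3971344873578) (nat_lit 152) (nat_lit 9845350032057) (nat_lit 0) (nat_lit 3971182429534) (nat_lit 1) (nat_lit 5) (nat_lit 3) (nat_lit 4) (nat_lit 1) (nat_lit 4) (nat_lit 330) (nat_lit 234) (nat_lit 216)) (XT.lf (nat_lit 0) (nat_lit 4567358778942) (nat_lit 152) (nat_lit 11321454731313) (nat_lit 0) (nat_lit 4567194472260) (nat_lit 1) (nat_lit 5) (nat_lit 3) (nat_lit 4) (nat_lit 1) (nat_lit 4) (nat_lit 331) (nat_lit 234) (nat_lit 215))) (XT.nd (nat_lit 78) (nat_lit 0) (nat_lit 0) (XT.lf (nat_lit 0) (nat_lit 5252768972295) (nat_lit 152) (nat_lit 13018987080987) (nat_lit 0) (nat_lit 5252603045928) (nat_lit 1) (nat_lit 5) (nat_lit 3) (nat_lit 4) (nat_lit 1) (nat_lit 4) (nat_lit 332) (nat_lit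 234) (nat_lit 214)) (XT.nd (nat_lit 78) (nat_lit 0) (nat_lit 0) (XT.lf (nat_lit 0) (nat_lit 6040985653073) (nat_lit 152) (nat_lit 14971159670529) (nat_lit 0) (nat_lit 6040818318284) (nat_lit 1) (nat_lit 5) (nat_lit 3) (nat_lit 4) (nat_lit 1) (nat_lit 4) (nat_lit 333) (nat_lit 234) (nat_lit 213)) (XT.lf (nat_lit 0) (nat_lit 6947430451986) (nat_lit 152) (nat_lit 17216167181040) (nat_lit 0) (nat_lit 6947261892482) (nat_lit 1) (nat_lit 5) (nat_lit 3) (nat_lit 4) (nat_lit 1) (nat_lit 4) (nat_lit 334) (nat_lit 234) (nat_lit 212))))) (XT.nd (nat_lit 156) (nat_lit 0) (nat_lit 0) (XT.nd (nat_lit 78) (nat_lit 0) (nat_lit 0) (XT.lf (nat_lit 0) (nat_lit 7989838158579) (nat_lit 152) (nat_lit 19797933672508) (nat_lit 0) (nat_lit 7989668534106) (nat_lit 1) (nat_lit 5) (nat_lit 3) (nat_lit 4) (nat_lit 1) (nat_lit 4) (nat_lit 335) (nat_lit 234) (nat_lit 211)) (XT.lf (nat_lit 0) (nat_lit 9188603706241)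 (nat_lit 152) (nat_lit 22766971967592) (nat_lit 0) (nat_lit 9188433155707) (nat_lit 1) (nat_lit 5) (nat_lit 3) (nat_lit 4) (nat_lit 1) (nat_lit 4) (nat_lit 336) (nat_lit 234) (nat_lit 210))) (XT.nd (nat_lit 78) (nat_lit 0) (nat_lit 0) (XT.lf (nat_lit 0) (nat_lit 10567181203513) (nat_lit 152) (nat_lit 26181371945978) (nat_lit 0) (nat_lit 10567009847710) (nat_lit 1) (nat_lit 5) (nat_lit 3) (nat_lit 4) (nat_lit 1) (nat_lit 4) (nat_lit 337) (nat_lit 234) (nat_lit 209)) (XT.nd (nat_lit 78) (nat_lit 0) (nat_lit 0) (XT.lf (nat_lit 0) (nat_lit 12152542818821) (nat_lit 152) (nat_lit 30107937085504) (nat_lit 0) (nat_lit 12152370762783) (nat_lit 1) (nat_lit 5) (nat_lit 3) (nat_lit 4) (nat_lit 1) (nat_lit 4) (nat_lit 338) (nat_lit 234) (nat_lit 208)) (XT.lf (nat_lit 0) (nat_lit 13975706496812) (nat_lit 152) (nat_lit 34623491486726) (nat_lit 0) (nat_lit 13975533831874) (nat_lit 1) (nat_lit 5) (nat_lit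 3) (nat_lit 4) (nat_lit 1) (nat_lit 4) (nat_lit 339) (nat_lit 234) (nat_lit 207)))))) (XT.nd (nat_lit 1482) (nat_lit 0) (nat_lit 0) (XT.nd (nat_lit 156) (nat_lit 0) (nat_lit 0) (XT.nd (nat_lit 78) (nat_lit 0) (nat_lit 0) (XT.lf (nat_lit 0) (nat_lit 16072342831185) (nat_lit 152) (nat_lit 39816382953147) (nat_lit 0) (nat_lit 16072169636769) (nat_lit 1) (nat_lit 5) (nat_lit 3) (nat_lit 4) (nat_lit 1) (nat_lit 4) (nat_lit 340) (nat_lit 234) (nat_lit 206)) (XT.lf (nat_lit 0) (nat_lit 18483472967613) (nat_lit 152) (nat_lit 45788211535196) (nat_lit 0) (nat_lit 18483299312782) (nat_lit 1) (nat_lit 5) (nat_lit 3) (nat_lit 4) (nat_lit 1) (nat_lit 4) (nat_lit 341) (nat_lit 234) (nat_lit 205))) (XT.nd (nat_lit 78) (nat_lit 0) (nat_lit 0) (XT.lf (nat_lit 0) (nat_lit 21256271191374) (nat_lit 152) (nat_lit 52655817357305) (nat_lit 0) (nat_lit 21256097136181) (nat_lit 1) (nat_lit 5) (nat_lit 3) (nat_lit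 4) (nat_lit 1) (nat_lit 4) (nat_lit 342) (nat_lit 234) (nat_lit 204)) (XT.nd (nat_lit 1170) (nat_lit 0) (nat_lit 0) (XT.lf (nat_lit 0) (nat_lit 24444987902498) (nat_lit 152) (nat_lit 60553566620341) (nat_lit 0) (nat_lit 24444813499165) (nat_lit 1) (nat_lit 5) (nat_lit 3) (nat_lit 4) (nat_lit 1) (nat_lit 4) (nat_lit 343) (nat_lit 234) (nat_lit 203)) (XT.lf (nat_lit 0) (nat_lit 198923317979289) (nat_lit 152) (nat_lit 492698833738773) (nat_lit 0) (nat_lit 198923141540250) (nat_lit 1) (nat_lit 5) (nat_lit 3) (nat_lit 4) (nat_lit 1) (nat_lit 4) (nat_lit 358) (nat_lit 234) (nat_lit 188))))) (XT.nd (nat_lit 156) (nat_lit 0) (nat_lit 0) (XT.nd (nat_lit 78) (nat_lit 0) (nat_lit 0) (XT.lf (nat_lit 0) (nat_lit 228762084288427) (nat_lit 152) (nat_lit 566603050747185) (nat_lit 0) (nat_lit 228761907812183) (nat_lit 1) (nat_lit 5) (nat_lit 3) (nat_lit 4) (nat_lit 1) (nat_lit 4) (nat_lit 359) (nat_lit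 234) (nat_lit 187)) (XT.lf (nat_lit 0) (nat_lit 263076665428128) (nat_lit 152) (nat_lit 651592900545460) (nat_lit 0) (nat_lit 263076488919537) (nat_lit 1) (nat_lit 5) (nat_lit 3) (nat_lit 4) (nat_lit 1) (nat_lit 4) (nat_lit 360) (nat_lit 234) (nat_lit 186))) (XT.nd (nat_lit 36660) (nat_lit 0) (nat_lit 0) (XT.lf (nat_lit 0) (nat_lit 302538433638090) (nat_lit 152) (nat_lit 749331228020950) (nat_lit 0) (nat_lit 302538257101364) (nat_lit 1) (nat_lit 5) (nat_lit 3) (nat_lit 4) (nat_lit 1) (nat_lit 4) (nat_lit 361) (nat_lit 234) (nat_lit 185)) (XT.nd (nat_lit 78) (nat_lit 0) (nat_lit 0) (XT.lf (nat_lit 0) (nat_lit 119230338595) (nat_lit 152) (nat_lit 305291082605) (nat_lit 0) (nat_lit 119230338595) (nat_lit 1) (nat_lit 5) (nat_lit 3) (nat_lit 4) (nat_lit 1) (nat_lit 4) (nat_lit 310) (nat_lit 235) (nat_lit 235)) (XT.lf (nat_lit 0) (nat_lit 275170262901) (nat_lit 152) (nat_lit 700168953583) (nat_lit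 0) (nat_lit 275143754261) (nat_lit 1) (nat_lit 5) (nat_lit 3) (nat_lit 4) (nat_lit 1) (nat_lit 4) (nat_lit 311) (nat_lit 235) (nat_lit 234))))))))
noncomputable def xc9 : XT := (XT.nd (nat_lit 1482) (nat_lit 0) (nat_lit 0) (XT.nd (nat_lit 702) (nat_lit 0) (nat_lit 0) (XT.nd (nat_lit 312) (nat_lit 0) (nat_lit 0) (XT.nd (nat_lit 156) (nat_lit 0) (nat_lit 0) (XT.nd (nat_lit 78) (nat_lit 0) (nat_lit 0) (XT.lf (nat_lit 0) (nat_lit 317303773287) (nat_lit 152) (nat_lit 803363766268) (nat_lit 0) (nat_lit 317254213655) (nat_lit 1) (nat_lit 5) (nat_lit 3) (nat_lit 4) (nat_lit 1) (nat_lit 4) (nat_lit 312) (nat_lit 235) (nat_lit 233)) (XT.lf (nat_lit 0) (nat_lit 365685559638) (nat_lit 152) (nat_lit 922185632211) (nat_lit 0) (nat_lit 365615955665) (nat_lit 1) (nat_lit 5) (nat_lit 3) (nat_lit 4) (nat_lit 1) (nat_lit 4) (nat_lit 313) (nat_lit 235) (nat_lit 232))) (XT.nd (nat_lit 78) (nat_lit 0) (nat_lit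 0) (XT.lf (nat_lit 0) (nat_lit 421262222122) (nat_lit 152) (nat_lit 1058959327051) (nat_lit 0) (nat_lit 421175188288) (nat_lit 1) (nat_lit 5) (nat_lit 3) (nat_lit 4) (nat_lit 1) (nat_lit 4) (nat_lit 314) (nat_lit 235) (nat_lit 231)) (XT.lf (nat_lit 0) (nat_lit 485121130222) (nat_lit 152) (nat_lit 1216360857860) (nat_lit 0) (nat_lit 485018939987) (nat_lit 1) (nat_lit 5) (nat_lit 3) (nat_lit 4) (nat_lit 1) (nat_lit 4) (nat_lit 315) (nat_lit 235) (nat_lit 230)))) (XT.nd (nat_lit 156) (nat_lit 0) (nat_lit 0) (XT.nd (nat_lit 78) (nat_lit 0) (nat_lit 0) (XT.lf (nat_lit 0) (nat_lit 558511697357) (nat_lit 152) (nat_lit 1397469819805) (nat_lit 0) (nat_lit 558396327643) (nat_lit 1) (nat_lit 5) (nat_lit 3) (nat_lit 4) (nat_lit 1) (nat_lit 4) (nat_lit 316) (nat_lit 235) (nat_lit 229)) (XT.lf (nat_lit 0) (nat_lit 642869825928) (nat_lit 152) (nat_lit 1605829649100) (nat_lit 0) (nat_lit 642742995797)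 (nat_lit 1) (nat_lit 5) (nat_lit 3) (nat_lit 4) (nat_lit 1) (nat_lit 4) (nat_lit 317) (nat_lit 235) (nat_lit 228))) (XT.nd (nat_lit 78) (nat_lit 0) (nat_lit 0) (XT.lf (nat_lit 0) (nat_lit 739846001060) (nat_lit 152) (nat_lit 1845516951100) (nat_lit 0) (nat_lit 739709205349) (nat_lit 1) (nat_lit 5) (nat_lit 3) (nat_lit 4) (nat_lit 1) (nat_lit 4) (nat_lit 318) (nat_lit 235) (nat_lit 227)) (XT.nd (nat_lit 78) (nat_lit 0) (nat_lit 0) (XT.lf (nat_lit 0) (nat_lit 851337582700) (nat_lit 152) (nat_lit 2121221259974) (nat_lit 0) (nat_lit 851192121268) (nat_lit 1) (nat_lit 5) (nat_lit 3) (nat_lit 4) (nat_lit 1) (nat_lit 4) (nat_lit 319) (nat_lit 235) (nat_lit 226)) (XT.lf (nat_lit 0) (nat_lit 979525927881) (nat_lit 152) (nat_lit 2438336790461) (nat_lit 0) (nat_lit 979372931039) (nat_lit 1) (nat_lit 5) (nat_lit 3) (nat_lit 4) (nat_lit 1) (nat_lit 4) (nat_lit 320) (nat_lit 235) (nat_lit 225))))))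 (XT.nd (nat_lit 390) (nat_lit 0) (nat_lit 0) (XT.nd (nat_lit 156) (nat_lit 0) (nat_lit 0) (XT.nd (nat_lit 78) (nat_lit 0) (nat_lit 0) (XT.lf (nat_lit 0) (nat_lit 1126919069443) (nat_lit 152) (nat_lit 2803067976854) (nat_lit 0) (nat_lit 1126759520070) (nat_lit 1) (nat_lit 5) (nat_lit 3) (nat_lit 4) (nat_lit 1) (nat_lit 4) (nat_lit 321) (nat_lit 235) (nat_lit 224)) (XT.lf (nat_lit 0) (nat_lit 1296400786242) (nat_lit 152) (nat_lit 3222550864103) (nat_lit 0) (nat_lit 1296235539017) (nat_lit 1) (nat_lit 5) (nat_lit 3) (nat_lit 4) (nat_lit 1) (nat_lit 4) (nat_lit 322) (nat_lit 235) (nat_lit 223))) (XT.nd (nat_lit 78) (nat_lit 0) (nat_lit 0) (XT.lf (nat_lit 0) (nat_lit 1491287024912) (nat_lit 152) (nat_lit 3704992726090) (nat_lit 0) (nat_lit 1491116823032) (nat_lit 1) (nat_lit 5) (nat_lit 3) (nat_lit 4) (nat_lit 1) (nat_lit 4) (nat_lit 323) (nat_lit 235) (nat_lit 222)) (XT.nd (nat_lit 78) (nat_lit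 0) (nat_lit 0) (XT.lf (nat_lit 0) (nat_lit 1715390777079) (nat_lit 152) (nat_lit 4259832642723) (nat_lit 0) (nat_lit 1715216266804) (nat_lit 1) (nat_lit 5) (nat_lit 3) (nat_lit 4) (nat_lit 1) (nat_lit 4) (nat_lit 324) (nat_lit 235) (nat_lit 221)) (XT.lf (nat_lit 0) (nat_lit 1973096681372) (nat_lit 152) (nat_lit 4897926177588) (nat_lit 0) (nat_lit 1972918424667) (nat_lit 1) (nat_lit 5) (nat_lit 3) (nat_lit 4) (nat_lit 1) (nat_lit 4) (nat_lit 325) (nat_lit 235) (nat_lit 220))))) (XT.nd (nat_lit 156) (nat_lit 0) (nat_lit 0) (XT.nd (nat_lit 78) (nat_lit 0) (nat_lit 0) (XT.lf (nat_lit 0) (nat_lit 2269446809832) (nat_lit 152) (nat_lit 5631757769411) (nat_lit 0) (nat_lit 2269265295361) (nat_lit 1) (nat_lit 5) (nat_lit 3) (nat_lit 4) (nat_lit 1) (nat_lit 4) (nat_lit 326) (nat_lit 235) (nat_lit 219)) (XT.lf (nat_lit 0) (nat_lit 2610239317146) (nat_lit 152) (nat_lit 6475684992814) (nat_lit 0) (nat_lit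 2610054969835) (nat_lit 1) (nat_lit 5) (nat_lit 3) (nat_lit 4) (nat_lit 1) (nat_lit 4) (nat_lit 327) (nat_lit 235) (nat_lit 218))) (XT.nd (nat_lit 78) (nat_lit 0) (nat_lit 0) (XT.lf (nat_lit 0) (nat_lit 3002141882805) (nat_lit 152) (nat_lit 7446219467386) (nat_lit 0) (nat_lit 3001955072155) (nat_lit 1) (nat_lit 5) (nat_lit 3) (nat_lit 4) (nat_lit 1) (nat_lit 4) (nat_lit 328) (nat_lit 235) (nat_lit 217)) (XT.nd (nat_lit 78) (nat_lit 0) (nat_lit 0) (XT.lf (nat_lit 0) (nat_lit 3452822165702) (nat_lit 152) (nat_lit 8562349911108) (nat_lit 0) (nat_lit 3452633213019) (nat_lit 1) (nat_lit 5) (nat_lit 3) (nat_lit 4) (nat_lit 1) (nat_lit 4) (nat_lit 329) (nat_lit 235) (nat_lit 216)) (XT.lf (nat_lit 0) (nat_lit 3971097823547) (nat_lit 152) (nat_lit 9845913658748) (nat_lit 0) (nat_lit 3970907008225) (nat_lit 1) (nat_lit 5) (nat_lit 3) (nat_lit 4) (nat_lit 1) (nat_lit 4) (nat_lit 330) (nat_lit 235)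 (nat_lit 215))))))) (XT.nd (nat_lit 780) (nat_lit 0) (nat_lit 0) (XT.nd (nat_lit 390) (nat_lit 0) (nat_lit 0) (XT.nd (nat_lit 156) (nat_lit 0) (nat_lit 0) (XT.nd (nat_lit 78) (nat_lit 0) (nat_lit 0) (XT.lf (nat_lit 0) (nat_lit 4567109032252) (nat_lit 152) (nat_lit 11322023914064) (nat_lit 0) (nat_lit 4566916597245) (nat_lit 1) (nat_lit 5) (nat_lit 3) (nat_lit 4) (nat_lit 1) (nat_lit 4) (nat_lit 331) (nat_lit 235) (nat_lit 214)) (XT.lf (nat_lit 0) (nat_lit 5252516880685) (nat_lit 152) (nat_lit 13019561095095) (nat_lit 0) (nat_lit 5252323037256) (nat_lit 1) (nat_lit 5) (nat_lit 3) (nat_lit 4) (nat_lit 1) (nat_lit 4) (nat_lit 332) (nat_lit 235) (nat_lit 213))) (XT.nd (nat_lit 78) (nat_lit 0) (nat_lit 0) (XT.lf (nat_lit 0) (nat_lit 6040731522402) (nat_lit 152) (nat_lit 14971737885817) (nat_lit 0) (nat_lit 6040536454258) (nat_lit 1) (nat_lit 5) (nat_lit 3) (nat_lit 4) (nat_lit 1) (nat_lit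 4) (nat_lit 333) (nat_lit 235) (nat_lit 212)) (XT.nd (nat_lit 78) (nat_lit 0) (nat_lit 0) (XT.lf (nat_lit 0) (nat_lit 6947174548219) (nat_lit 152) (nat_lit 17216749049528) (nat_lit 0) (nat_lit 6946978415106) (nat_lit 1) (nat_lit 5) (nat_lit 3) (nat_lit 4) (nat_lit 1) (nat_lit 4) (nat_lit 334) (nat_lit 235) (nat_lit 211)) (XT.lf (nat_lit 0) (nat_lit 7989580712989) (nat_lit 152) (nat_lit 19798518717692) (nat_lit 0) (nat_lit 7989383653815) (nat_lit 1) (nat_lit 5) (nat_lit 3) (nat_lit 4) (nat_lit 1) (nat_lit 4) (nat_lit 335) (nat_lit 235) (nat_lit 210))))) (XT.nd (nat_lit 156) (nat_lit 0) (nat_lit 0) (XT.nd (nat_lit 78) (nat_lit 0) (nat_lit 0) (XT.lf (nat_lit 0) (nat_lit 9188344919935) (nat_lit 152) (nat_lit 22767559775120) (nat_lit 0) (nat_lit 9188147055491) (nat_lit 1) (nat_lit 5) (nat_lit 3) (nat_lit 4) (nat_lit 1) (nat_lit 4) (nat_lit 336) (nat_lit 235) (nat_lit 209)) (XT.lf (nat_lit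 0) (nat_lit 10566921251368) (nat_lit 152) (nat_lit 26181962155544) (nat_lit 0) (nat_lit 10566722686689) (nat_lit 1) (nat_lit 5) (nat_lit 3) (nat_lit 4) (nat_lit 1) (nat_lit 4) (nat_lit 337) (nat_lit 235) (nat_lit 208))) (XT.nd (nat_lit 78) (nat_lit 0) (nat_lit 0) (XT.lf (nat_lit 0) (nat_lit 12152281852902) (nat_lit 152) (nat_lit 30108529383799) (nat_lit 0) (nat_lit 12152082679324) (nat_lit 1) (nat_lit 5) (nat_lit 3) (nat_lit 4) (nat_lit 1) (nat_lit 4) (nat_lit 338) (nat_lit 235) (nat_lit 207)) (XT.nd (nat_lit 78) (nat_lit 0) (nat_lit 0) (XT.lf (nat_lit 0) (nat_lit 13975444649350) (nat_lit 152) (nat_lit 34624085601307) (nat_lit 0) (nat_lit 13975244946294) (nat_lit 1) (nat_lit 5) (nat_lit 3) (nat_lit 4) (nat_lit 1) (nat_lit 4) (nat_lit 339) (nat_lit 235) (nat_lit 206)) (XT.lf (nat_lit 0) (nat_lit 16072080217165) (nat_lit 152) (nat_lit 39816978647107) (nat_lit 0) (nat_lit 16071880053693)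 (nat_lit 1) (nat_lit 5) (nat_lit 3) (nat_lit 4) (nat_lit 1) (nat_lit 4) (nat_lit 340) (nat_lit 235) (nat_lit 205)))))) (XT.nd (nat_lit 1404) (nat_lit 0) (nat_lit 0) (XT.nd (nat_lit 156) (nat_lit 0) (nat_lit 0) (XT.nd (nat_lit 78) (nat_lit 0) (nat_lit 0) (XT.lf (nat_lit 0) (nat_lit 18483209687020) (nat_lit 152) (nat_lit 45788808602530) (nat_lit 0) (nat_lit 18483009123187) (nat_lit 1) (nat_lit 5) (nat_lit 3) (nat_lit 4) (nat_lit 1) (nat_lit 4) (nat_lit 341) (nat_lit 235) (nat_lit 204)) (XT.lf (nat_lit 0) (nat_lit 21256007331153) (nat_lit 152) (nat_lit 52656415618876) (nat_lit 0) (nat_lit 21255806419179) (nat_lit 1) (nat_lit 5) (nat_lit 3) (nat_lit 4) (nat_lit 1) (nat_lit 4) (nat_lit 342) (nat_lit 235) (nat_lit 203))) (XT.nd (nat_lit 1092) (nat_lit 0) (nat_lit 0) (XT.lf (nat_lit 0) (nat_lit 24444723538252) (nat_lit 152) (nat_lit 60554165920379) (nat_lit 0) (nat_lit 24444522323548) (nat_lit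 1) (nat_lit 5) (nat_lit 3) (nat_lit 4) (nat_lit 1) (nat_lit 4) (nat_lit 343) (nat_lit 235) (nat_lit 202)) (XT.nd (nat_lit 78) (nat_lit 0) (nat_lit 0) (XT.lf (nat_lit 0) (nat_lit 172976297301668) (nat_lit 152) (nat_lit 428434902693035) (nat_lit 0) (nat_lit 172976094353988) (nat_lit 1) (nat_lit 5) (nat_lit 3) (nat_lit 4) (nat_lit 1) (nat_lit 4) (nat_lit 357) (nat_lit 235) (nat_lit 188)) (XT.lf (nat_lit 0) (nat_lit 198923050667824) (nat_lit 152) (nat_lit 492699439111115) (nat_lit 0) (nat_lit 198922847682941) (nat_lit 1) (nat_lit 5) (nat_lit 3) (nat_lit 4) (nat_lit 1) (nat_lit 4) (nat_lit 358) (nat_lit 235) (nat_lit 187))))) (XT.nd (nat_lit 36660) (nat_lit 0) (nat_lit 0) (XT.nd (nat_lit 78) (nat_lit 0) (nat_lit 0) (XT.lf (nat_lit 0) (nat_lit 228761816923098) (nat_lit 152) (nat_lit 566603656230504) (nat_lit 0) (nat_lit 228761613905863) (nat_lit 1) (nat_lit 5) (nat_lit 3) (nat_lit 4) (nat_lit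 1) (nat_lit 4) (nat_lit 359) (nat_lit 235) (nat_lit 186)) (XT.lf (nat_lit 0) (nat_lit 263076398015965) (nat_lit 152) (nat_lit 651593506125278) (nat_lit 0) (nat_lit 263076194970599) (nat_lit 1) (nat_lit 5) (nat_lit 3) (nat_lit 4) (nat_lit 1) (nat_lit 4) (nat_lit 360) (nat_lit 235) (nat_lit 185))) (XT.nd (nat_lit 78) (nat_lit 0) (nat_lit 0) (XT.lf (nat_lit 0) (nat_lit 89306831875) (nat_lit 152) (nat_lit 232674449146) (nat_lit 0) (nat_lit 89306831875) (nat_lit 1) (nat_lit 5) (nat_lit 3) (nat_lit 4) (nat_lit 1) (nat_lit 4) (nat_lit 308) (nat_lit 236) (nat_lit 236)) (XT.nd (nat_lit 78) (nat_lit 0) (nat_lit 0) (XT.lf (nat_lit 0) (nat_lit 206487270066) (nat_lit 152) (nat_lit 532850616165) (nat_lit 0) (nat_lit 206456785129) (nat_lit 1) (nat_lit 5) (nat_lit 3) (nat_lit 4) (nat_lit 1) (nat_lit 4) (nat_lit 309) (nat_lit 236) (nat_lit 235)) (XT.lf (nat_lit 0) (nat_lit 238447027169) (nat_lit 152)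 (nat_lit 610673098685) (nat_lit 0) (nat_lit 238390033592) (nat_lit 1) (nat_lit 5) (nat_lit 3) (nat_lit 4) (nat_lit 1) (nat_lit 4) (nat_lit 310) (nat_lit 236) (nat_lit 234))))))))
noncomputable def xc10 : XT := (XT.nd (nat_lit 1482) (nat_lit 0) (nat_lit 0) (XT.nd (nat_lit 702) (nat_lit 0) (nat_lit 0) (XT.nd (nat_lit 312) (nat_lit 0) (nat_lit 0) (XT.nd (nat_lit 156) (nat_lit 0) (nat_lit 0) (XT.nd (nat_lit 78) (nat_lit 0) (nat_lit 0) (XT.lf (nat_lit 0) (nat_lit 275118234656) (nat_lit 152) (nat_lit 700338959641) (nat_lit 0) (nat_lit 275038190087) (nat_lit 1) (nat_lit 5) (nat_lit 3) (nat_lit 4) (nat_lit 1) (nat_lit 4) (nat_lit 311) (nat_lit 236) (nat_lit 233)) (XT.lf (nat_lit 0) (nat_lit 317218372673) (nat_lit 152) (nat_lit 803602531096) (nat_lit 0) (nat_lit 317118283764) (nat_lit 1) (nat_lit 5) (nat_lit 3) (nat_lit 4) (nat_lit 1) (nat_lit 4) (nat_lit 312) (nat_lit 236) (nat_lit 232))) (XT.nd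 (nat_lit 78) (nat_lit 0) (nat_lit 0) (XT.lf (nat_lit 0) (nat_lit 365571139573) (nat_lit 152) (nat_lit 922484187275) (nat_lit 0) (nat_lit 365453620802) (nat_lit 1) (nat_lit 5) (nat_lit 3) (nat_lit 4) (nat_lit 1) (nat_lit 4) (nat_lit 313) (nat_lit 236) (nat_lit 231)) (XT.lf (nat_lit 0) (nat_lit 421122567751) (nat_lit 152) (nat_lit 1059309873623) (nat_lit 0) (nat_lit 420989892580) (nat_lit 1) (nat_lit 5) (nat_lit 3) (nat_lit 4) (nat_lit 1) (nat_lit 4) (nat_lit 314) (nat_lit 236) (nat_lit 230)))) (XT.nd (nat_lit 156) (nat_lit 0) (nat_lit 0) (XT.nd (nat_lit 78) (nat_lit 0) (nat_lit 0) (XT.lf (nat_lit 0) (nat_lit 484959532977) (nat_lit 152) (nat_lit 1216756614439) (nat_lit 0) (nat_lit 484813678326) (nat_lit 1) (nat_lit 5) (nat_lit 3) (nat_lit 4) (nat_lit 1) (nat_lit 4) (nat_lit 315) (nat_lit 236) (nat_lit 229)) (XT.lf (nat_lit 0) (nat_lit 558331019352) (nat_lit 152) (nat_lit 1397904889434)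 (nat_lit 0) (nat_lit 558173704285) (nat_lit 1) (nat_lit 5) (nat_lit 3) (nat_lit 4) (nat_lit 1) (nat_lit 4) (nat_lit 316) (nat_lit 236) (nat_lit 228))) (XT.nd (nat_lit 78) (nat_lit 0) (nat_lit 0) (XT.lf (nat_lit 0) (nat_lit 642672555958) (nat_lit 152) (nat_lit 1606298903990) (nat_lit 0) (nat_lit 642505275311) (nat_lit 1) (nat_lit 5) (nat_lit 3) (nat_lit 4) (nat_lit 1) (nat_lit 4) (nat_lit 317) (nat_lit 236) (nat_lit 227)) (XT.nd (nat_lit 78) (nat_lit 0) (nat_lit 0) (XT.lf (nat_lit 0) (nat_lit 739634303294) (nat_lit 152) (nat_lit 1846015932303) (nat_lit 0) (nat_lit 739458356925) (nat_lit 1) (nat_lit 5) (nat_lit 3) (nat_lit 4) (nat_lit 1) (nat_lit 4) (nat_lit 318) (nat_lit 236) (nat_lit 226)) (XT.lf (nat_lit 0) (nat_lit 851113339025) (nat_lit 152) (nat_lit 2121746090146) (nat_lit 0) (nat_lit 850929857246) (nat_lit 1) (nat_lit 5) (nat_lit 3) (nat_lit 4) (nat_lit 1) (nat_lit 4) (nat_lit 319)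 (nat_lit 236) (nat_lit 225)))))) (XT.nd (nat_lit 390) (nat_lit 0) (nat_lit 0) (XT.nd (nat_lit 156) (nat_lit 0) (nat_lit 0) (XT.nd (nat_lit 78) (nat_lit 0) (nat_lit 0) (XT.lf (nat_lit 0) (nat_lit 979290774719) (nat_lit 152) (nat_lit 2438884097997) (nat_lit 0) (nat_lit 979100740410) (nat_lit 1) (nat_lit 5) (nat_lit 3) (nat_lit 4) (nat_lit 1) (nat_lit 4) (nat_lit 320) (nat_lit 236) (nat_lit 224)) (XT.lf (nat_lit 0) (nat_lit 1126674429771) (nat_lit 152) (nat_lit 2803634829924) (nat_lit 0) (nat_lit 1126478697609) (nat_lit 1) (nat_lit 5) (nat_lit 3) (nat_lit 4) (nat_lit 1) (nat_lit 4) (nat_lit 321) (nat_lit 236) (nat_lit 223))) (XT.nd (nat_lit 78) (nat_lit 0) (nat_lit 0) (XT.lf (nat_lit 0) (nat_lit 1296147897431) (nat_lit 152) (nat_lit 3223134713289) (nat_lit 0) (nat_lit 1295947210614) (nat_lit 1) (nat_lit 5) (nat_lit 3) (nat_lit 4) (nat_lit 1) (nat_lit 4) (nat_lit 322) (nat_lit 236) (nat_lit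 222)) (XT.nd (nat_lit 78) (nat_lit 0) (nat_lit 0) (XT.lf (nat_lit 0) (nat_lit 1491026962936) (nat_lit 152) (nat_lit 3705591354508) (nat_lit 0) (nat_lit 1490821967725) (nat_lit 1) (nat_lit 5) (nat_lit 3) (nat_lit 4) (nat_lit 1) (nat_lit 4) (nat_lit 323) (nat_lit 236) (nat_lit 221)) (XT.lf (nat_lit 0) (nat_lit 1715124477569) (nat_lit 152) (nat_lit 4260444122646) (nat_lit 0) (nat_lit 1714915735927) (nat_lit 1) (nat_lit 5) (nat_lit 3) (nat_lit 4) (nat_lit 1) (nat_lit 4) (nat_lit 324) (nat_lit 236) (nat_lit 220))))) (XT.nd (nat_lit 156) (nat_lit 0) (nat_lit 0) (XT.nd (nat_lit 78) (nat_lit 0) (nat_lit 0) (XT.lf (nat_lit 0) (nat_lit 1972824957919) (nat_lit 152) (nat_lit 4898548832733) (nat_lit 0) (nat_lit 1972612958512) (nat_lit 1) (nat_lit 5) (nat_lit 3) (nat_lit 4) (nat_lit 1) (nat_lit 4) (nat_lit 325) (nat_lit 236) (nat_lit 219)) (XT.lf (nat_lit 0) (nat_lit 2269170369907) (nat_lit 152) (nat_lit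 5632390142141) (nat_lit 0) (nat_lit 2268955537660) (nat_lit 1) (nat_lit 5) (nat_lit 3) (nat_lit 4) (nat_lit 1) (nat_lit 4) (nat_lit 326) (nat_lit 236) (nat_lit 218))) (XT.nd (nat_lit 78) (nat_lit 0) (nat_lit 0) (XT.lf (nat_lit 0) (nat_lit 2609958775941) (nat_lit 152) (nat_lit 6476325815618) (nat_lit 0) (nat_lit 2609741480355) (nat_lit 1) (nat_lit 5) (nat_lit 3) (nat_lit 4) (nat_lit 1) (nat_lit 4) (nat_lit 327) (nat_lit 236) (nat_lit 217)) (XT.nd (nat_lit 78) (nat_lit 0) (nat_lit 0) (XT.lf (nat_lit 0) (nat_lit 3001857775270) (nat_lit 152) (nat_lit 7446867638080) (nat_lit 0) (nat_lit 3001638337649) (nat_lit 1) (nat_lit 5) (nat_lit 3) (nat_lit 4) (nat_lit 1) (nat_lit 4) (nat_lit 328) (nat_lit 236) (nat_lit 216)) (XT.lf (nat_lit 0) (nat_lit 3452534957010) (nat_lit 152) (nat_lit 8563004471272) (nat_lit 0) (nat_lit 3452313656751) (nat_lit 1) (nat_lit 5) (nat_lit 3) (nat_lit 4) (nat_lit 1) (nat_lit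 4) (nat_lit 329) (nat_lit 236) (nat_lit 215))))))) (XT.nd (nat_lit 780) (nat_lit 0) (nat_lit 0) (XT.nd (nat_lit 390) (nat_lit 0) (nat_lit 0) (XT.nd (nat_lit 156) (nat_lit 0) (nat_lit 0) (XT.nd (nat_lit 78) (nat_lit 0) (nat_lit 0) (XT.lf (nat_lit 0) (nat_lit 3970807918196) (nat_lit 152) (nat_lit 9846573774972) (nat_lit 0) (nat_lit 3970584998252) (nat_lit 1) (nat_lit 5) (nat_lit 3) (nat_lit 4) (nat_lit 1) (nat_lit 4) (nat_lit 330) (nat_lit 236) (nat_lit 214)) (XT.lf (nat_lit 0) (nat_lit 4566816781981) (nat_lit 152) (nat_lit 11322688861645) (nat_lit 0) (nat_lit 4566592453615) (nat_lit 1) (nat_lit 5) (nat_lit 3) (nat_lit 4) (nat_lit 1) (nat_lit 4) (nat_lit 331) (nat_lit 236) (nat_lit 213))) (XT.nd (nat_lit 78) (nat_lit 0) (nat_lit 0) (XT.lf (nat_lit 0) (nat_lit 5252222591353) (nat_lit 152) (nat_lit 13020230243856) (nat_lit 0) (nat_lit 5251997038273) (nat_lit 1) (nat_lit 5) (nat_lit 3) (nat_lit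 4) (nat_lit 1) (nat_lit 4) (nat_lit 332) (nat_lit 236) (nat_lit 212)) (XT.nd (nat_lit 78) (nat_lit 0) (nat_lit 0) (XT.lf (nat_lit 0) (nat_lit 6040435459974) (nat_lit 152) (nat_lit 14972410687779) (nat_lit 0) (nat_lit 6040208841924) (nat_lit 1) (nat_lit 5) (nat_lit 3) (nat_lit 4) (nat_lit 1) (nat_lit 4) (nat_lit 333) (nat_lit 236) (nat_lit 211)) (XT.lf (nat_lit 0) (nat_lit 6946876943967) (nat_lit 152) (nat_lit 17217425028185) (nat_lit 0) (nat_lit 6946649399857) (nat_lit 1) (nat_lit 5) (nat_lit 3) (nat_lit 4) (nat_lit 1) (nat_lit 4) (nat_lit 334) (nat_lit 236) (nat_lit 210))))) (XT.nd (nat_lit 156) (nat_lit 0) (nat_lit 0) (XT.nd (nat_lit 78) (nat_lit 0) (nat_lit 0) (XT.lf (nat_lit 0) (nat_lit 7989281768021) (nat_lit 152) (nat_lit 19799197458693) (nat_lit 0) (nat_lit 7989053418641) (nat_lit 1) (nat_lit 5) (nat_lit 3) (nat_lit 4) (nat_lit 1) (nat_lit 4) (nat_lit 335) (nat_lit 236) (nat_lit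 209)) (XT.lf (nat_lit 0) (nat_lit 9188044809128) (nat_lit 152) (nat_lit 22768240918159) (nat_lit 0) (nat_lit 9187815759513) (nat_lit 1) (nat_lit 5) (nat_lit 3) (nat_lit 4) (nat_lit 1) (nat_lit 4) (nat_lit 336) (nat_lit 236) (nat_lit 208))) (XT.nd (nat_lit 78) (nat_lit 0) (nat_lit 0) (XT.lf (nat_lit 0) (nat_lit 10566620126787) (nat_lit 152) (nat_lit 26182645387312) (nat_lit 0) (nat_lit 10566390468272) (nat_lit 1) (nat_lit 5) (nat_lit 3) (nat_lit 4) (nat_lit 1) (nat_lit 4) (nat_lit 337) (nat_lit 236) (nat_lit 207)) (XT.nd (nat_lit 78) (nat_lit 0) (nat_lit 0) (XT.lf (nat_lit 0) (nat_lit 12151979846779) (nat_lit 152) (nat_lit 30109214431853) (nat_lit 0) (nat_lit 12151749658786) (nat_lit 1) (nat_lit 5) (nat_lit 3) (nat_lit 4) (nat_lit 1) (nat_lit 4) (nat_lit 338) (nat_lit 236) (nat_lit 206)) (XT.lf (nat_lit 0) (nat_lit 13975141876668) (nat_lit 152) (nat_lit 34624772228741) (nat_lit 0) (nat_lit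 13974911228260) (nat_lit 1) (nat_lit 5) (nat_lit 3) (nat_lit 4) (nat_lit 1) (nat_lit 4) (nat_lit 339) (nat_lit 236) (nat_lit 205)))))) (XT.nd (nat_lit 1482) (nat_lit 0) (nat_lit 0) (XT.nd (nat_lit 156) (nat_lit 0) (nat_lit 0) (XT.nd (nat_lit 78) (nat_lit 0) (nat_lit 0) (XT.lf (nat_lit 0) (nat_lit 16071776777910) (nat_lit 152) (nat_lit 39817666647914) (nat_lit 0) (nat_lit 16071545729140) (nat_lit 1) (nat_lit 5) (nat_lit 3) (nat_lit 4) (nat_lit 1) (nat_lit 4) (nat_lit 340) (nat_lit 236) (nat_lit 204)) (XT.lf (nat_lit 0) (nat_lit 18482905668137) (nat_lit 152) (nat_lit 45789497797574) (nat_lit 0) (nat_lit 18482674271227) (nat_lit 1) (nat_lit 5) (nat_lit 3) (nat_lit 4) (nat_lit 1) (nat_lit 4) (nat_lit 341) (nat_lit 236) (nat_lit 203))) (XT.nd (nat_lit 1170) (nat_lit 0) (nat_lit 0) (XT.lf (nat_lit 0) (nat_lit 21255702808245) (nat_lit 152) (nat_lit 52657105852388) (nat_lit 0) (nat_lit 21255471108604)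 (nat_lit 1) (nat_lit 5) (nat_lit 3) (nat_lit 4) (nat_lit 1) (nat_lit 4) (nat_lit 342) (nat_lit 236) (nat_lit 202)) (XT.nd (nat_lit 78) (nat_lit 0) (nat_lit 0) (XT.lf (nat_lit 0) (nat_lit 172975989831541) (nat_lit 152) (nat_lit 428435598998850) (nat_lit 0) (nat_lit 172975756361722) (nat_lit 1) (nat_lit 5) (nat_lit 3) (nat_lit 4) (nat_lit 1) (nat_lit 4) (nat_lit 357) (nat_lit 236) (nat_lit 187)) (XT.lf (nat_lit 0) (nat_lit 198922743143835) (nat_lit 152) (nat_lit 492700135527905) (nat_lit 0) (nat_lit 198922509641664) (nat_lit 1) (nat_lit 5) (nat_lit 3) (nat_lit 4) (nat_lit 1) (nat_lit 4) (nat_lit 358) (nat_lit 236) (nat_lit 186))))) (XT.nd (nat_lit 36504) (nat_lit 0) (nat_lit 0) (XT.nd (nat_lit 78) (nat_lit 0) (nat_lit 0) (XT.lf (nat_lit 0) (nat_lit 228761509352272) (nat_lit 152) (nat_lit 566604352743795) (nat_lit 0) (nat_lit 228761275821970) (nat_lit 1) (nat_lit 5) (nat_lit 3) (nat_lit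 4) (nat_lit 1) (nat_lit 4) (nat_lit 359) (nat_lit 236) (nat_lit 185)) (XT.lf (nat_lit 0) (nat_lit 263076090404410) (nat_lit 152) (nat_lit 651594202722482) (nat_lit 0) (nat_lit 263075856849648) (nat_lit 1) (nat_lit 5) (nat_lit 3) (nat_lit 4) (nat_lit 1) (nat_lit 4) (nat_lit 360) (nat_lit 236) (nat_lit 184))) (XT.nd (nat_lit 78) (nat_lit 0) (nat_lit 0) (XT.lf (nat_lit 0) (nat_lit 66553096725) (nat_lit 152) (nat_lit 178040421169) (nat_lit 0) (nat_lit 66553096725) (nat_lit 1) (nat_lit 5) (nat_lit 3) (nat_lit 4) (nat_lit 1) (nat_lit 4) (nat_lit 306) (nat_lit 237) (nat_lit 237)) (XT.nd (nat_lit 78) (nat_lit 0) (nat_lit 0) (XT.lf (nat_lit 0) (nat_lit 154315912734) (nat_lit 152) (nat_lit 406847259285) (nat_lit 0) (nat_lit 154280855057) (nat_lit 1) (nat_lit 5) (nat_lit 3) (nat_lit 4) (nat_lit 1) (nat_lit 4) (nat_lit 307) (nat_lit 237) (nat_lit 236)) (XT.lf (nat_lit 0) (nat_lit 178597966226) (nat_lit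 152) (nat_lit 465453471787) (nat_lit 0) (nat_lit 178532423613) (nat_lit 1) (nat_lit 5) (nat_lit 3) (nat_lit 4) (nat_lit 1) (nat_lit 4) (nat_lit 308) (nat_lit 237) (nat_lit 235))))))))
noncomputable def xc11 : XT := (XT.nd (nat_lit 1482) (nat_lit 0) (nat_lit 0) (XT.nd (nat_lit 702) (nat_lit 0) (nat_lit 0) (XT.nd (nat_lit 312) (nat_lit 0) (nat_lit 0) (XT.nd (nat_lit 156) (nat_lit 0) (nat_lit 0) (XT.nd (nat_lit 78) (nat_lit 0) (nat_lit 0) (XT.lf (nat_lit 0) (nat_lit 206427437584) (nat_lit 152) (nat_lit 533046123132) (nat_lit 0) (nat_lit 206335386330) (nat_lit 1) (nat_lit 5) (nat_lit 3) (nat_lit 4) (nat_lit 1) (nat_lit 4) (nat_lit 309) (nat_lit 237) (nat_lit 234)) (XT.lf (nat_lit 0) (nat_lit 238348816463) (nat_lit 152) (nat_lit 610947678237) (nat_lit 0) (nat_lit 238233714217) (nat_lit 1) (nat_lit 5) (nat_lit 3) (nat_lit 4) (nat_lit 1) (nat_lit 4) (nat_lit 310) (nat_lit 237) (nat_lit 233)))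 (XT.nd (nat_lit 78) (nat_lit 0) (nat_lit 0) (XT.lf (nat_lit 0) (nat_lit 274986651581) (nat_lit 152) (nat_lit 700682297964) (nat_lit 0) (nat_lit 274851504995) (nat_lit 1) (nat_lit 5) (nat_lit 3) (nat_lit 4) (nat_lit 1) (nat_lit 4) (nat_lit 311) (nat_lit 237) (nat_lit 232)) (XT.lf (nat_lit 0) (nat_lit 317057770147) (nat_lit 152) (nat_lit 804005659654) (nat_lit 0) (nat_lit 316905193700) (nat_lit 1) (nat_lit 5) (nat_lit 3) (nat_lit 4) (nat_lit 1) (nat_lit 4) (nat_lit 312) (nat_lit 237) (nat_lit 231)))) (XT.nd (nat_lit 156) (nat_lit 0) (nat_lit 0) (XT.nd (nat_lit 78) (nat_lit 0) (nat_lit 0) (XT.lf (nat_lit 0) (nat_lit 365385302741) (nat_lit 152) (nat_lit 922939307340) (nat_lit 0) (nat_lit 365217569893) (nat_lit 1) (nat_lit 5) (nat_lit 3) (nat_lit 4) (nat_lit 1) (nat_lit 4) (nat_lit 313) (nat_lit 237) (nat_lit 230)) (XT.lf (nat_lit 0) (nat_lit 420914788046) (nat_lit 152) (nat_lit 1059810203696)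 (nat_lit 0) (nat_lit 420733875718) (nat_lit 1) (nat_lit 5) (nat_lit 3) (nat_lit 4) (nat_lit 1) (nat_lit 4) (nat_lit 314) (nat_lit 237) (nat_lit 229))) (XT.nd (nat_lit 78) (nat_lit 0) (nat_lit 0) (XT.lf (nat_lit 0) (nat_lit 484732672511) (nat_lit 152) (nat_lit 1217296257562) (nat_lit 0) (nat_lit 484540299767) (nat_lit 1) (nat_lit 5) (nat_lit 3) (nat_lit 4) (nat_lit 1) (nat_lit 4) (nat_lit 315) (nat_lit 237) (nat_lit 228)) (XT.nd (nat_lit 78) (nat_lit 0) (nat_lit 0) (XT.lf (nat_lit 0) (nat_lit 558087566921) (nat_lit 152) (nat_lit 1398478717818) (nat_lit 0) (nat_lit 557885228597) (nat_lit 1) (nat_lit 5) (nat_lit 3) (nat_lit 4) (nat_lit 1) (nat_lit 4) (nat_lit 316) (nat_lit 237) (nat_lit 227)) (XT.lf (nat_lit 0) (nat_lit 642414675731) (nat_lit 152) (nat_lit 1606902458687) (nat_lit 0) (nat_lit 642203671686) (nat_lit 1) (nat_lit 5) (nat_lit 3) (nat_lit 4) (nat_lit 1) (nat_lit 4) (nat_lit 317)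 (nat_lit 237) (nat_lit 226)))))) (XT.nd (nat_lit 390) (nat_lit 0) (nat_lit 0) (XT.nd (nat_lit 156) (nat_lit 0) (nat_lit 0) (XT.nd (nat_lit 78) (nat_lit 0) (nat_lit 0) (XT.lf (nat_lit 0) (nat_lit 739363877158) (nat_lit 152) (nat_lit 1846645335969) (nat_lit 0) (nat_lit 739145337702) (nat_lit 1) (nat_lit 5) (nat_lit 3) (nat_lit 4) (nat_lit 1) (nat_lit 4) (nat_lit 318) (nat_lit 237) (nat_lit 225)) (XT.lf (nat_lit 0) (nat_lit 850832003402) (nat_lit 152) (nat_lit 2122397971176) (nat_lit 0) (nat_lit 850606911415) (nat_lit 1) (nat_lit 5) (nat_lit 3) (nat_lit 4) (nat_lit 1) (nat_lit 4) (nat_lit 319) (nat_lit 237) (nat_lit 224))) (XT.nd (nat_lit 78) (nat_lit 0) (nat_lit 0) (XT.lf (nat_lit 0) (nat_lit 978999952586) (nat_lit 152) (nat_lit 2439555524561) (nat_lit 0) (nat_lit 978769162747) (nat_lit 1) (nat_lit 5) (nat_lit 3) (nat_lit 4) (nat_lit 1) (nat_lit 4) (nat_lit 320) (nat_lit 237) (nat_lit 223))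 (XT.nd (nat_lit 78) (nat_lit 0) (nat_lit 0) (XT.lf (nat_lit 0) (nat_lit 1126375358498) (nat_lit 152) (nat_lit 2804323252604) (nat_lit 0) (nat_lit 1126139614005) (nat_lit 1) (nat_lit 5) (nat_lit 3) (nat_lit 4) (nat_lit 1) (nat_lit 4) (nat_lit 321) (nat_lit 237) (nat_lit 222)) (XT.lf (nat_lit 0) (nat_lit 1295841652994) (nat_lit 152) (nat_lit 3223837915201) (nat_lit 0) (nat_lit 1295601600106) (nat_lit 1) (nat_lit 5) (nat_lit 3) (nat_lit 4) (nat_lit 1) (nat_lit 4) (nat_lit 322) (nat_lit 237) (nat_lit 221))))) (XT.nd (nat_lit 156) (nat_lit 0) (nat_lit 0) (XT.nd (nat_lit 78) (nat_lit 0) (nat_lit 0) (XT.lf (nat_lit 0) (nat_lit 1490714480965) (nat_lit 152) (nat_lit 3706307407925) (nat_lit 0) (nat_lit 1490470681646) (nat_lit 1) (nat_lit 5) (nat_lit 3) (nat_lit 4) (nat_lit 1) (nat_lit 4) (nat_lit 323) (nat_lit 237) (nat_lit 220)) (XT.lf (nat_lit 0) (nat_lit 1714806571655) (nat_lit 152) (nat_lit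 4261171351286) (nat_lit 0) (nat_lit 1714559514570) (nat_lit 1) (nat_lit 5) (nat_lit 3) (nat_lit 4) (nat_lit 1) (nat_lit 4) (nat_lit 324) (nat_lit 237) (nat_lit 219))) (XT.nd (nat_lit 78) (nat_lit 0) (nat_lit 0) (XT.lf (nat_lit 0) (nat_lit 1972502335533) (nat_lit 152) (nat_lit 4899285778958) (nat_lit 0) (nat_lit 1972252445609) (nat_lit 1) (nat_lit 5) (nat_lit 3) (nat_lit 4) (nat_lit 1) (nat_lit 4) (nat_lit 325) (nat_lit 237) (nat_lit 218)) (XT.nd (nat_lit 78) (nat_lit 0) (nat_lit 0) (XT.lf (nat_lit 0) (nat_lit 2268843646241) (nat_lit 152) (nat_lit 5633135538439) (nat_lit 0) (nat_lit 2268591292978) (nat_lit 1) (nat_lit 5) (nat_lit 3) (nat_lit 4) (nat_lit 1) (nat_lit 4) (nat_lit 326) (nat_lit 237) (nat_lit 217)) (XT.lf (nat_lit 0) (nat_lit 2609628485945) (nat_lit 152) (nat_lit 6477078559806) (nat_lit 0) (nat_lit 2609373990647) (nat_lit 1) (nat_lit 5) (nat_lit 3) (nat_lit 4) (nat_lit 1) (nat_lit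 4) (nat_lit 327) (nat_lit 237) (nat_lit 216))))))) (XT.nd (nat_lit 780) (nat_lit 0) (nat_lit 0) (XT.nd (nat_lit 390) (nat_lit 0) (nat_lit 0) (XT.nd (nat_lit 156) (nat_lit 0) (nat_lit 0) (XT.nd (nat_lit 78) (nat_lit 0) (nat_lit 0) (XT.lf (nat_lit 0) (nat_lit 3001524384116) (nat_lit 152) (nat_lit 7447626771738) (nat_lit 0) (nat_lit 3001268026181) (nat_lit 1) (nat_lit 5) (nat_lit 3) (nat_lit 4) (nat_lit 1) (nat_lit 4) (nat_lit 328) (nat_lit 237) (nat_lit 215)) (XT.lf (nat_lit 0) (nat_lit 3452198869198) (nat_lit 152) (nat_lit 8563769160990) (nat_lit 0) (nat_lit 3451940891577) (nat_lit 1) (nat_lit 5) (nat_lit 3) (nat_lit 4) (nat_lit 1) (nat_lit 4) (nat_lit 329) (nat_lit 237) (nat_lit 214))) (XT.nd (nat_lit 78) (nat_lit 0) (nat_lit 0) (XT.lf (nat_lit 0) (nat_lit 3970469485464) (nat_lit 152) (nat_lit 9847343296047) (nat_lit 0) (nat_lit 3970210099421) (nat_lit 1) (nat_lit 5) (nat_lit 3) (nat_lit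 4) (nat_lit 1) (nat_lit 4) (nat_lit 330) (nat_lit 237) (nat_lit 213)) (XT.nd (nat_lit 78) (nat_lit 0) (nat_lit 0) (XT.lf (nat_lit 0) (nat_lit 4566476310188) (nat_lit 152) (nat_lit 11323462583900) (nat_lit 0) (nat_lit 4566215699431) (nat_lit 1) (nat_lit 5) (nat_lit 3) (nat_lit 4) (nat_lit 1) (nat_lit 4) (nat_lit 331) (nat_lit 237) (nat_lit 212)) (XT.lf (nat_lit 0) (nat_lit 5251880346464) (nat_lit 152) (nat_lit 13021007619311) (nat_lit 0) (nat_lit 5251618670737) (nat_lit 1) (nat_lit 5) (nat_lit 3) (nat_lit 4) (nat_lit 1) (nat_lit 4) (nat_lit 332) (nat_lit 237) (nat_lit 211))))) (XT.nd (nat_lit 156) (nat_lit 0) (nat_lit 0) (XT.nd (nat_lit 78) (nat_lit 0) (nat_lit 0) (XT.lf (nat_lit 0) (nat_lit 6040091673261) (nat_lit 152) (nat_lit 14973191239930) (nat_lit 0) (nat_lit 6039829071474) (nat_lit 1) (nat_lit 5) (nat_lit 3) (nat_lit 4) (nat_lit 1) (nat_lit 4) (nat_lit 333) (nat_lit 237) (nat_lit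 210)) (XT.lf (nat_lit 0) (nat_lit 6946531816539) (nat_lit 152) (nat_lit 17218208342680) (nat_lit 0) (nat_lit 6946268409482) (nat_lit 1) (nat_lit 5) (nat_lit 3) (nat_lit 4) (nat_lit 1) (nat_lit 4) (nat_lit 334) (nat_lit 237) (nat_lit 209))) (XT.nd (nat_lit 78) (nat_lit 0) (nat_lit 0) (XT.lf (nat_lit 0) (nat_lit 7988935474753) (nat_lit 152) (nat_lit 19799983175226) (nat_lit 0) (nat_lit 7988671367461) (nat_lit 1) (nat_lit 5) (nat_lit 3) (nat_lit 4) (nat_lit 1) (nat_lit 4) (nat_lit 335) (nat_lit 237) (nat_lit 208)) (XT.nd (nat_lit 78) (nat_lit 0) (nat_lit 0) (XT.lf (nat_lit 0) (nat_lit 9187697502086) (nat_lit 152) (nat_lit 22769028723421) (nat_lit 0) (nat_lit 9187432785895) (nat_lit 1) (nat_lit 5) (nat_lit 3) (nat_lit 4) (nat_lit 1) (nat_lit 4) (nat_lit 336) (nat_lit 237) (nat_lit 207)) (XT.lf (nat_lit 0) (nat_lit 10566271938203) (nat_lit 152) (nat_lit 26183435008860) (nat_lit 0) (nat_lit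 10566006692533) (nat_lit 1) (nat_lit 5) (nat_lit 3) (nat_lit 4) (nat_lit 1) (nat_lit 4) (nat_lit 337) (nat_lit 237) (nat_lit 206)))))) (XT.nd (nat_lit 1482) (nat_lit 0) (nat_lit 0) (XT.nd (nat_lit 156) (nat_lit 0) (nat_lit 0) (XT.nd (nat_lit 78) (nat_lit 0) (nat_lit 0) (XT.lf (nat_lit 0) (nat_lit 12151630891636) (nat_lit 152) (nat_lit 30110005632781) (nat_lit 0) (nat_lit 12151365185551) (nat_lit 1) (nat_lit 5) (nat_lit 3) (nat_lit 4) (nat_lit 1) (nat_lit 4) (nat_lit 338) (nat_lit 237) (nat_lit 205)) (XT.lf (nat_lit 0) (nat_lit 13974792254953) (nat_lit 152) (nat_lit 34625564803042) (nat_lit 0) (nat_lit 13974526148506) (nat_lit 1) (nat_lit 5) (nat_lit 3) (nat_lit 4) (nat_lit 1) (nat_lit 4) (nat_lit 339) (nat_lit 237) (nat_lit 204))) (XT.nd (nat_lit 78) (nat_lit 0) (nat_lit 0) (XT.lf (nat_lit 0) (nat_lit 16071426576566) (nat_lit 152) (nat_lit 39818460416452) (nat_lit 0) (nat_lit 16071160121979)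 (nat_lit 1) (nat_lit 5) (nat_lit 3) (nat_lit 4) (nat_lit 1) (nat_lit 4) (nat_lit 340) (nat_lit 237) (nat_lit 203)) (XT.nd (nat_lit 78) (nat_lit 0) (nat_lit 0) (XT.lf (nat_lit 0) (nat_lit 18482554962769) (nat_lit 152) (nat_lit 45790292604580) (nat_lit 0) (nat_lit 18482288205451) (nat_lit 1) (nat_lit 5) (nat_lit 3) (nat_lit 4) (nat_lit 1) (nat_lit 4) (nat_lit 341) (nat_lit 237) (nat_lit 202)) (XT.lf (nat_lit 0) (nat_lit 21255351664594) (nat_lit 152) (nat_lit 52657901562409) (nat_lit 0) (nat_lit 21255084644032) (nat_lit 1) (nat_lit 5) (nat_lit 3) (nat_lit 4) (nat_lit 1) (nat_lit 4) (nat_lit 342) (nat_lit 237) (nat_lit 201))))) (XT.nd (nat_lit 156) (nat_lit 0) (nat_lit 0) (XT.nd (nat_lit 78) (nat_lit 0) (nat_lit 0) (XT.lf (nat_lit 0) (nat_lit 172975636125091) (nat_lit 152) (nat_lit 428436399989135) (nat_lit 0) (nat_lit 172975367565243) (nat_lit 1) (nat_lit 5) (nat_lit 3) (nat_lit 4) (nat_lit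 1) (nat_lit 4) (nat_lit 357) (nat_lit 237) (nat_lit 186)) (XT.lf (nat_lit 0) (nat_lit 198922389390548) (nat_lit 152) (nat_lit 492700936614691) (nat_lit 0) (nat_lit 198922120802568) (nat_lit 1) (nat_lit 5) (nat_lit 3) (nat_lit 4) (nat_lit 1) (nat_lit 4) (nat_lit 358) (nat_lit 237) (nat_lit 185))) (XT.nd (nat_lit 36348) (nat_lit 0) (nat_lit 0) (XT.lf (nat_lit 0) (nat_lit 228761155558257) (nat_lit 152) (nat_lit 566605153914494) (nat_lit 0) (nat_lit 228760886945816) (nat_lit 1) (nat_lit 5) (nat_lit 3) (nat_lit 4) (nat_lit 1) (nat_lit 4) (nat_lit 359) (nat_lit 237) (nat_lit 184)) (XT.nd (nat_lit 78) (nat_lit 0) (nat_lit 0) (XT.lf (nat_lit 0) (nat_lit 49201649188) (nat_lit 152) (nat_lit 137045013380) (nat_lit 0) (nat_lit 49201649188) (nat_lit 1) (nat_lit 5) (nat_lit 3) (nat_lit 4) (nat_lit 1) (nat_lit 4) (nat_lit 304) (nat_lit 238) (nat_lit 238)) (XT.lf (nat_lit 0) (nat_lit 114594151938) (nat_lit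 152) (nat_lit 312160964961) (nat_lit 0) (nat_lit 114553835609) (nat_lit 1) (nat_lit 5) (nat_lit 3) (nat_lit 4) (nat_lit 1) (nat_lit 4) (nat_lit 305) (nat_lit 238) (nat_lit 237))))))))
noncomputable def xc12 : XT := (XT.nd (nat_lit 1482) (nat_lit 0) (nat_lit 0) (XT.nd (nat_lit 702) (nat_lit 0) (nat_lit 0) (XT.nd (nat_lit 312) (nat_lit 0) (nat_lit 0) (XT.nd (nat_lit 156) (nat_lit 0) (nat_lit 0) (XT.nd (nat_lit 78) (nat_lit 0) (nat_lit 0) (XT.lf (nat_lit 0) (nat_lit 133088141298) (nat_lit 152) (nat_lit 356201101856) (nat_lit 0) (nat_lit 133012767293) (nat_lit 1) (nat_lit 5) (nat_lit 3) (nat_lit 4) (nat_lit 1) (nat_lit 4) (nat_lit 306) (nat_lit 238) (nat_lit 236)) (XT.lf (nat_lit 0) (nat_lit 154247105380) (nat_lit 152) (nat_lit 407072092298) (nat_lit 0) (nat_lit 154141246438) (nat_lit 1) (nat_lit 5) (nat_lit 3) (nat_lit 4) (nat_lit 1) (nat_lit 4) (nat_lit 307) (nat_lit 238) (nat_lit 235)))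 (XT.nd (nat_lit 78) (nat_lit 0) (nat_lit 0) (XT.lf (nat_lit 0) (nat_lit 178485023914) (nat_lit 152) (nat_lit 465769238273) (nat_lit 0) (nat_lit 178352656332) (nat_lit 1) (nat_lit 5) (nat_lit 3) (nat_lit 4) (nat_lit 1) (nat_lit 4) (nat_lit 308) (nat_lit 238) (nat_lit 234)) (XT.lf (nat_lit 0) (nat_lit 206276117047) (nat_lit 152) (nat_lit 533440962203) (nat_lit 0) (nat_lit 206120698474) (nat_lit 1) (nat_lit 5) (nat_lit 3) (nat_lit 4) (nat_lit 1) (nat_lit 4) (nat_lit 309) (nat_lit 238) (nat_lit 233)))) (XT.nd (nat_lit 156) (nat_lit 0) (nat_lit 0) (XT.nd (nat_lit 78) (nat_lit 0) (nat_lit 0) (XT.lf (nat_lit 0) (nat_lit 238164123558) (nat_lit 152) (nat_lit 611411276079) (nat_lit 0) (nat_lit 237988660644) (nat_lit 1) (nat_lit 5) (nat_lit 3) (nat_lit 4) (nat_lit 1) (nat_lit 4) (nat_lit 310) (nat_lit 238) (nat_lit 232)) (XT.lf (nat_lit 0) (nat_lit 274772939225) (nat_lit 152) (nat_lit 701205686040)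 (nat_lit 0) (nat_lit 274580046449) (nat_lit 1) (nat_lit 5) (nat_lit 3) (nat_lit 4) (nat_lit 1) (nat_lit 4) (nat_lit 311) (nat_lit 238) (nat_lit 231))) (XT.nd (nat_lit 78) (nat_lit 0) (nat_lit 0) (XT.lf (nat_lit 0) (nat_lit 316818823486) (nat_lit 152) (nat_lit 804581039238) (nat_lit 0) (nat_lit 316610774309) (nat_lit 1) (nat_lit 5) (nat_lit 3) (nat_lit 4) (nat_lit 1) (nat_lit 4) (nat_lit 312) (nat_lit 238) (nat_lit 230)) (XT.nd (nat_lit 78) (nat_lit 0) (nat_lit 0) (XT.lf (nat_lit 0) (nat_lit 365124413206) (nat_lit 152) (nat_lit 923559896932) (nat_lit 0) (nat_lit 364903184550) (nat_lit 1) (nat_lit 5) (nat_lit 3) (nat_lit 4) (nat_lit 1) (nat_lit 4) (nat_lit 313) (nat_lit 238) (nat_lit 229)) (XT.lf (nat_lit 0) (nat_lit 420634817750) (nat_lit 152) (nat_lit 1060470106337) (nat_lit 0) (nat_lit 420402128677) (nat_lit 1) (nat_lit 5) (nat_lit 3) (nat_lit 4) (nat_lit 1) (nat_lit 4) (nat_lit 314)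 (nat_lit 238) (nat_lit 228)))))) (XT.nd (nat_lit 390) (nat_lit 0) (nat_lit 0) (XT.nd (nat_lit 156) (nat_lit 0) (nat_lit 0) (XT.nd (nat_lit 78) (nat_lit 0) (nat_lit 0) (XT.lf (nat_lit 0) (nat_lit 484436110250) (nat_lit 152) (nat_lit 1217990345464) (nat_lit 0) (nat_lit 484193455598) (nat_lit 1) (nat_lit 5) (nat_lit 3) (nat_lit 4) (nat_lit 1) (nat_lit 4) (nat_lit 315) (nat_lit 238) (nat_lit 227)) (XT.lf (nat_lit 0) (nat_lit 557776576864) (nat_lit 152) (nat_lit 1399202532034) (nat_lit 0) (nat_lit 557525256490) (nat_lit 1) (nat_lit 5) (nat_lit 3) (nat_lit 4) (nat_lit 1) (nat_lit 4) (nat_lit 316) (nat_lit 238) (nat_lit 226))) (XT.nd (nat_lit 78) (nat_lit 0) (nat_lit 0) (XT.lf (nat_lit 0) (nat_lit 642091139765) (nat_lit 152) (nat_lit 1607652121872) (nat_lit 0) (nat_lit 641832283981) (nat_lit 1) (nat_lit 5) (nat_lit 3) (nat_lit 4) (nat_lit 1) (nat_lit 4) (nat_lit 317) (nat_lit 238) (nat_lit 225))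 (XT.nd (nat_lit 78) (nat_lit 0) (nat_lit 0) (XT.lf (nat_lit 0) (nat_lit 739029431705) (nat_lit 152) (nat_lit 1847417476517) (nat_lit 0) (nat_lit 738764023390) (nat_lit 1) (nat_lit 5) (nat_lit 3) (nat_lit 4) (nat_lit 1) (nat_lit 4) (nat_lit 318) (nat_lit 238) (nat_lit 224)) (XT.lf (nat_lit 0) (nat_lit 850488071439) (nat_lit 152) (nat_lit 2123189657258) (nat_lit 0) (nat_lit 850216965271) (nat_lit 1) (nat_lit 5) (nat_lit 3) (nat_lit 4) (nat_lit 1) (nat_lit 4) (nat_lit 319) (nat_lit 238) (nat_lit 223))))) (XT.nd (nat_lit 156) (nat_lit 0) (nat_lit 0) (XT.nd (nat_lit 78) (nat_lit 0) (nat_lit 0) (XT.lf (nat_lit 0) (nat_lit 978647771484) (nat_lit 152) (nat_lit 2440364206759) (nat_lit 0) (nat_lit 978371710662) (nat_lit 1) (nat_lit 5) (nat_lit 3) (nat_lit 4) (nat_lit 1) (nat_lit 4) (nat_lit 320) (nat_lit 238) (nat_lit 222)) (XT.lf (nat_lit 0) (nat_lit 1126016004232) (nat_lit 152) (nat_lit 2805146714033)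 (nat_lit 0) (nat_lit 1125735635015) (nat_lit 1) (nat_lit 5) (nat_lit 3) (nat_lit 4) (nat_lit 1) (nat_lit 4) (nat_lit 321) (nat_lit 238) (nat_lit 221))) (XT.nd (nat_lit 78) (nat_lit 0) (nat_lit 0) (XT.lf (nat_lit 0) (nat_lit 1295476061193) (nat_lit 152) (nat_lit 3224674228136) (nat_lit 0) (nat_lit 1295191945546) (nat_lit 1) (nat_lit 5) (nat_lit 3) (nat_lit 4) (nat_lit 1) (nat_lit 4) (nat_lit 322) (nat_lit 238) (nat_lit 220)) (XT.nd (nat_lit 78) (nat_lit 0) (nat_lit 0) (XT.lf (nat_lit 0) (nat_lit 1490343465222) (nat_lit 152) (nat_lit 3707154896083) (nat_lit 0) (nat_lit 1490056091808) (nat_lit 1) (nat_lit 5) (nat_lit 3) (nat_lit 4) (nat_lit 1) (nat_lit 4) (nat_lit 323) (nat_lit 238) (nat_lit 219)) (XT.lf (nat_lit 0) (nat_lit 1714430839439) (nat_lit 152) (nat_lit 4262028557028) (nat_lit 0) (nat_lit 1714140633186) (nat_lit 1) (nat_lit 5) (nat_lit 3) (nat_lit 4) (nat_lit 1) (nat_lit 4) (nat_lit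 324) (nat_lit 238) (nat_lit 218))))))) (XT.nd (nat_lit 780) (nat_lit 0) (nat_lit 0) (XT.nd (nat_lit 390) (nat_lit 0) (nat_lit 0) (XT.nd (nat_lit 156) (nat_lit 0) (nat_lit 0) (XT.nd (nat_lit 78) (nat_lit 0) (nat_lit 0) (XT.lf (nat_lit 0) (nat_lit 1972122502037) (nat_lit 152) (nat_lit 4900151434774) (nat_lit 0) (nat_lit 1971829832446) (nat_lit 1) (nat_lit 5) (nat_lit 3) (nat_lit 4) (nat_lit 1) (nat_lit 4) (nat_lit 325) (nat_lit 238) (nat_lit 217)) (XT.lf (nat_lit 0) (nat_lit 2268460246415) (nat_lit 152) (nat_lit 5634008542145) (nat_lit 0) (nat_lit 2268165434789) (nat_lit 1) (nat_lit 5) (nat_lit 3) (nat_lit 4) (nat_lit 1) (nat_lit 4) (nat_lit 326) (nat_lit 238) (nat_lit 216))) (XT.nd (nat_lit 78) (nat_lit 0) (nat_lit 0) (XT.lf (nat_lit 0) (nat_lit 2609241984961) (nat_lit 152) (nat_lit 6477957952982) (nat_lit 0) (nat_lit 2608945310697) (nat_lit 1) (nat_lit 5) (nat_lit 3) (nat_lit 4) (nat_lit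 1) (nat_lit 4) (nat_lit 327) (nat_lit 238) (nat_lit 215)) (XT.nd (nat_lit 78) (nat_lit 0) (nat_lit 0) (XT.lf (nat_lit 0) (nat_lit 3001135186474) (nat_lit 152) (nat_lit 7448511720975) (nat_lit 0) (nat_lit 3000836892525) (nat_lit 1) (nat_lit 5) (nat_lit 3) (nat_lit 4) (nat_lit 1) (nat_lit 4) (nat_lit 328) (nat_lit 238) (nat_lit 214)) (XT.lf (nat_lit 0) (nat_lit 3451807326636) (nat_lit 152) (nat_lit 8564658941584) (nat_lit 0) (nat_lit 3451507624265) (nat_lit 1) (nat_lit 5) (nat_lit 3) (nat_lit 4) (nat_lit 1) (nat_lit 4) (nat_lit 329) (nat_lit 238) (nat_lit 213))))) (XT.nd (nat_lit 156) (nat_lit 0) (nat_lit 0) (XT.nd (nat_lit 78) (nat_lit 0) (nat_lit 0) (XT.lf (nat_lit 0) (nat_lit 3970075903841) (nat_lit 152) (nat_lit 9848237277821) (nat_lit 0) (nat_lit 3969774976755) (nat_lit 1) (nat_lit 5) (nat_lit 3) (nat_lit 4) (nat_lit 1) (nat_lit 4) (nat_lit 330) (nat_lit 238) (nat_lit 212)) (XT.lf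 (nat_lit 0) (nat_lit 4566080955469) (nat_lit 152) (nat_lit 11324360218874) (nat_lit 0) (nat_lit 4565778963413) (nat_lit 1) (nat_lit 5) (nat_lit 3) (nat_lit 4) (nat_lit 1) (nat_lit 4) (nat_lit 331) (nat_lit 238) (nat_lit 211))) (XT.nd (nat_lit 78) (nat_lit 0) (nat_lit 0) (XT.lf (nat_lit 0) (nat_lit 5251483449921) (nat_lit 152) (nat_lit 13021908430981) (nat_lit 0) (nat_lit 5251180531806) (nat_lit 1) (nat_lit 5) (nat_lit 3) (nat_lit 4) (nat_lit 1) (nat_lit 4) (nat_lit 332) (nat_lit 238) (nat_lit 210)) (XT.nd (nat_lit 78) (nat_lit 0) (nat_lit 0) (XT.lf (nat_lit 0) (nat_lit 6039693436003) (nat_lit 152) (nat_lit 14974094813943) (nat_lit 0) (nat_lit 6039389712617) (nat_lit 1) (nat_lit 5) (nat_lit 3) (nat_lit 4) (nat_lit 1) (nat_lit 4) (nat_lit 333) (nat_lit 238) (nat_lit 209)) (XT.lf (nat_lit 0) (nat_lit 6946132413441) (nat_lit 152) (nat_lit 17219114318732) (nat_lit 0) (nat_lit 6945827989821)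 (nat_lit 1) (nat_lit 5) (nat_lit 3) (nat_lit 4) (nat_lit 1) (nat_lit 4) (nat_lit 334) (nat_lit 238) (nat_lit 208)))))) (XT.nd (nat_lit 390) (nat_lit 0) (nat_lit 0) (XT.nd (nat_lit 156) (nat_lit 0) (nat_lit 0) (XT.nd (nat_lit 78) (nat_lit 0) (nat_lit 0) (XT.lf (nat_lit 0) (nat_lit 7988535057881) (nat_lit 152) (nat_lit 19800891240007) (nat_lit 0) (nat_lit 7988230025361) (nat_lit 1) (nat_lit 5) (nat_lit 3) (nat_lit 4) (nat_lit 1) (nat_lit 4) (nat_lit 335) (nat_lit 238) (nat_lit 207)) (XT.lf (nat_lit 0) (nat_lit 9187296203672) (nat_lit 152) (nat_lit 22769938604488) (nat_lit 0) (nat_lit 9186990641674) (nat_lit 1) (nat_lit 5) (nat_lit 3) (nat_lit 4) (nat_lit 1) (nat_lit 4) (nat_lit 336) (nat_lit 238) (nat_lit 206))) (XT.nd (nat_lit 78) (nat_lit 0) (nat_lit 0) (XT.lf (nat_lit 0) (nat_lit 10565869873230) (nat_lit 152) (nat_lit 26184346469306) (nat_lit 0) (nat_lit 10565563850816) (nat_lit 1) (nat_lit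 5) (nat_lit 3) (nat_lit 4) (nat_lit 1) (nat_lit 4) (nat_lit 337) (nat_lit 238) (nat_lit 205)) (XT.nd (nat_lit 78) (nat_lit 0) (nat_lit 0) (XT.lf (nat_lit 0) (nat_lit 12151228160090) (nat_lit 152) (nat_lit 30110918466600) (nat_lit 0) (nat_lit 12150921737315) (nat_lit 1) (nat_lit 5) (nat_lit 3) (nat_lit 4) (nat_lit 1) (nat_lit 4) (nat_lit 338) (nat_lit 238) (nat_lit 204)) (XT.lf (nat_lit 0) (nat_lit 13974388943779) (nat_lit 152) (nat_lit 34626478831098) (nat_lit 0) (nat_lit 13974082172864) (nat_lit 1) (nat_lit 5) (nat_lit 3) (nat_lit 4) (nat_lit 1) (nat_lit 4) (nat_lit 339) (nat_lit 238) (nat_lit 203))))) (XT.nd (nat_lit 156) (nat_lit 0) (nat_lit 0) (XT.nd (nat_lit 78) (nat_lit 0) (nat_lit 0) (XT.lf (nat_lit 0) (nat_lit 16071022761368) (nat_lit 152) (nat_lit 39819375482977) (nat_lit 0) (nat_lit 16070715687722) (nat_lit 1) (nat_lit 5) (nat_lit 3) (nat_lit 4) (nat_lit 1) (nat_lit 4) (nat_lit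 340) (nat_lit 238) (nat_lit 202)) (XT.lf (nat_lit 0) (nat_lit 18482150709288) (nat_lit 152) (nat_lit 45791208574119) (nat_lit 0) (nat_lit 18481843372398) (nat_lit 1) (nat_lit 5) (nat_lit 3) (nat_lit 4) (nat_lit 1) (nat_lit 4) (nat_lit 341) (nat_lit 238) (nat_lit 201))) (XT.nd (nat_lit 1248) (nat_lit 0) (nat_lit 0) (XT.lf (nat_lit 0) (nat_lit 21254947029998) (nat_lit 152) (nat_lit 52658818317179) (nat_lit 0) (nat_lit 21254639464200) (nat_lit 1) (nat_lit 5) (nat_lit 3) (nat_lit 4) (nat_lit 1) (nat_lit 4) (nat_lit 342) (nat_lit 238) (nat_lit 200)) (XT.nd (nat_lit 36270) (nat_lit 0) (nat_lit 0) (XT.lf (nat_lit 0) (nat_lit 198921982486703) (nat_lit 152) (nat_lit 492701858044908) (nat_lit 0) (nat_lit 198921673557933) (nat_lit 1) (nat_lit 5) (nat_lit 3) (nat_lit 4) (nat_lit 1) (nat_lit 4) (nat_lit 358) (nat_lit 238) (nat_lit 184)) (XT.lf (nat_lit 0) (nat_lit 35913153998) (nat_lit 152) (nat_lit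 106409726851) (nat_lit 0) (nat_lit 35913153998) (nat_lit 1) (nat_lit 5) (nat_lit 3) (nat_lit 4) (nat_lit 1) (nat_lit 4) (nat_lit 302) (nat_lit 239) (nat_lit 239))))))))
noncomputable def xc13 : XT := (XT.nd (nat_lit 1482) (nat_lit 0) (nat_lit 0) (XT.nd (nat_lit 702) (nat_lit 0) (nat_lit 0) (XT.nd (nat_lit 312) (nat_lit 0) (nat_lit 0) (XT.nd (nat_lit 156) (nat_lit 0) (nat_lit 0) (XT.nd (nat_lit 78) (nat_lit 0) (nat_lit 0) (XT.lf (nat_lit 0) (nat_lit 84245166822) (nat_lit 152) (nat_lit 241243421072) (nat_lit 0) (nat_lit 84198803044) (nat_lit 1) (nat_lit 5) (nat_lit 3) (nat_lit 4) (nat_lit 1) (nat_lit 4) (nat_lit 303) (nat_lit 239) (nat_lit 238)) (XT.lf (nat_lit 0) (nat_lit 98382538400) (nat_lit 152) (nat_lit 274228325207) (nat_lit 0) (nat_lit 98295858294) (nat_lit 1) (nat_lit 5) (nat_lit 3) (nat_lit 4) (nat_lit 1) (nat_lit 4) (nat_lit 304) (nat_lit 239) (nat_lit 237))) (XT.nd (nat_lit 78)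 (nat_lit 0) (nat_lit 0) (XT.lf (nat_lit 0) (nat_lit 114515023480) (nat_lit 152) (nat_lit 312419522925) (nat_lit 0) (nat_lit 114393285697) (nat_lit 1) (nat_lit 5) (nat_lit 3) (nat_lit 4) (nat_lit 1) (nat_lit 4) (nat_lit 305) (nat_lit 239) (nat_lit 236)) (XT.lf (nat_lit 0) (nat_lit 132958257639) (nat_lit 152) (nat_lit 356564233315) (nat_lit 0) (nat_lit 132806034920) (nat_lit 1) (nat_lit 5) (nat_lit 3) (nat_lit 4) (nat_lit 1) (nat_lit 4) (nat_lit 306) (nat_lit 239) (nat_lit 235)))) (XT.nd (nat_lit 156) (nat_lit 0) (nat_lit 0) (XT.nd (nat_lit 78) (nat_lit 0) (nat_lit 0) (XT.lf (nat_lit 0) (nat_lit 154073086763) (nat_lit 152) (nat_lit 407526157229) (nat_lit 0) (nat_lit 153894355403) (nat_lit 1) (nat_lit 5) (nat_lit 3) (nat_lit 4) (nat_lit 1) (nat_lit 4) (nat_lit 307) (nat_lit 239) (nat_lit 234)) (XT.lf (nat_lit 0) (nat_lit 178272627074) (nat_lit 152) (nat_lit 466302375790) (nat_lit 0) (nat_lit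 178070844722) (nat_lit 1) (nat_lit 5) (nat_lit 3) (nat_lit 4) (nat_lit 1) (nat_lit 4) (nat_lit 308) (nat_lit 239) (nat_lit 233))) (XT.nd (nat_lit 78) (nat_lit 0) (nat_lit 0) (XT.lf (nat_lit 0) (nat_lit 206030347838) (nat_lit 152) (nat_lit 534042858491) (nat_lit 0) (nat_lit 205808521146) (nat_lit 1) (nat_lit 5) (nat_lit 3) (nat_lit 4) (nat_lit 1) (nat_lit 4) (nat_lit 309) (nat_lit 239) (nat_lit 232)) (XT.nd (nat_lit 78) (nat_lit 0) (nat_lit 0) (XT.lf (nat_lit 0) (nat_lit 237889334897) (nat_lit 152) (nat_lit 612072962600) (nat_lit 0) (nat_lit 237650078344) (nat_lit 1) (nat_lit 5) (nat_lit 3) (nat_lit 4) (nat_lit 1) (nat_lit 4) (nat_lit 310) (nat_lit 239) (nat_lit 231)) (XT.lf (nat_lit 0) (nat_lit 274472916259) (nat_lit 152) (nat_lit 701919364070) (nat_lit 0) (nat_lit 274218503305) (nat_lit 1) (nat_lit 5) (nat_lit 3) (nat_lit 4) (nat_lit 1) (nat_lit 4) (nat_lit 311) (nat_lit 239) (nat_lit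 230)))))) (XT.nd (nat_lit 390) (nat_lit 0) (nat_lit 0) (XT.nd (nat_lit 156) (nat_lit 0) (nat_lit 0) (XT.nd (nat_lit 78) (nat_lit 0) (nat_lit 0) (XT.lf (nat_lit 0) (nat_lit 316496857646) (nat_lit 152) (nat_lit 805339927276) (nat_lit 0) (nat_lit 316229265212) (nat_lit 1) (nat_lit 5) (nat_lit 3) (nat_lit 4) (nat_lit 1) (nat_lit 4) (nat_lit 312) (nat_lit 239) (nat_lit 229)) (XT.lf (nat_lit 0) (nat_lit 364783366606) (nat_lit 152) (nat_lit 924358098020) (nat_lit 0) (nat_lit 364504313755) (nat_lit 1) (nat_lit 5) (nat_lit 3) (nat_lit 4) (nat_lit 1) (nat_lit 4) (nat_lit 313) (nat_lit 239) (nat_lit 228))) (XT.nd (nat_lit 78) (nat_lit 0) (nat_lit 0) (XT.lf (nat_lit 0) (nat_lit 420277179185) (nat_lit 152) (nat_lit 1061302492686) (nat_lit 0) (nat_lit 419988160754) (nat_lit 1) (nat_lit 5) (nat_lit 3) (nat_lit 4) (nat_lit 1) (nat_lit 4) (nat_lit 314) (nat_lit 239) (nat_lit 227)) (XT.nd (nat_lit 78)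 (nat_lit 0) (nat_lit 0) (XT.lf (nat_lit 0) (nat_lit 484064043889) (nat_lit 152) (nat_lit 1218852458126) (nat_lit 0) (nat_lit 483766359737) (nat_lit 1) (nat_lit 5) (nat_lit 3) (nat_lit 4) (nat_lit 1) (nat_lit 4) (nat_lit 315) (nat_lit 239) (nat_lit 226)) (XT.lf (nat_lit 0) (nat_lit 557391964593) (nat_lit 152) (nat_lit 1400090493664) (nat_lit 0) (nat_lit 557086745032) (nat_lit 1) (nat_lit 5) (nat_lit 3) (nat_lit 4) (nat_lit 1) (nat_lit 4) (nat_lit 316) (nat_lit 239) (nat_lit 225))))) (XT.nd (nat_lit 156) (nat_lit 0) (nat_lit 0) (XT.nd (nat_lit 78) (nat_lit 0) (nat_lit 0) (XT.lf (nat_lit 0) (nat_lit 641695618008) (nat_lit 152) (nat_lit 1608562560866) (nat_lit 0) (nat_lit 641383845915) (nat_lit 1) (nat_lit 5) (nat_lit 3) (nat_lit 4) (nat_lit 1) (nat_lit 4) (nat_lit 317) (nat_lit 239) (nat_lit 224)) (XT.lf (nat_lit 0) (nat_lit 738624423437) (nat_lit 152) (nat_lit 1848347461045) (nat_lit 0)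 (nat_lit 738306953492) (nat_lit 1) (nat_lit 5) (nat_lit 3) (nat_lit 4) (nat_lit 1) (nat_lit 4) (nat_lit 318) (nat_lit 239) (nat_lit 223))) (XT.nd (nat_lit 78) (nat_lit 0) (nat_lit 0) (XT.lf (nat_lit 0) (nat_lit 850074814032) (nat_lit 152) (nat_lit 2124136637902) (nat_lit 0) (nat_lit 849752389433) (nat_lit 1) (nat_lit 5) (nat_lit 3) (nat_lit 4) (nat_lit 1) (nat_lit 4) (nat_lit 319) (nat_lit 239) (nat_lit 222)) (XT.nd (nat_lit 78) (nat_lit 0) (nat_lit 0) (XT.lf (nat_lit 0) (nat_lit 978227340913) (nat_lit 152) (nat_lit 2441325966635) (nat_lit 0) (nat_lit 977900607918) (nat_lit 1) (nat_lit 5) (nat_lit 3) (nat_lit 4) (nat_lit 1) (nat_lit 4) (nat_lit 320) (nat_lit 239) (nat_lit 221)) (XT.lf (nat_lit 0) (nat_lit 1125589336126) (nat_lit 152) (nat_lit 2806121325415) (nat_lit 0) (nat_lit 1125258856701) (nat_lit 1) (nat_lit 5) (nat_lit 3) (nat_lit 4) (nat_lit 1) (nat_lit 4) (nat_lit 321) (nat_lit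 239) (nat_lit 220))))))) (XT.nd (nat_lit 780) (nat_lit 0) (nat_lit 0) (XT.nd (nat_lit 390) (nat_lit 0) (nat_lit 0) (XT.nd (nat_lit 156) (nat_lit 0) (nat_lit 0) (XT.nd (nat_lit 78) (nat_lit 0) (nat_lit 0) (XT.lf (nat_lit 0) (nat_lit 1295043969145) (nat_lit 152) (nat_lit 3225660014740) (nat_lit 0) (nat_lit 1294710231954) (nat_lit 1) (nat_lit 5) (nat_lit 3) (nat_lit 4) (nat_lit 1) (nat_lit 4) (nat_lit 322) (nat_lit 239) (nat_lit 219)) (XT.lf (nat_lit 0) (nat_lit 1489906656701) (nat_lit 152) (nat_lit 3708150400272) (nat_lit 0) (nat_lit 1489570086671) (nat_lit 1) (nat_lit 5) (nat_lit 3) (nat_lit 4) (nat_lit 1) (nat_lit 4) (nat_lit 323) (nat_lit 239) (nat_lit 218))) (XT.nd (nat_lit 78) (nat_lit 0) (nat_lit 0) (XT.lf (nat_lit 0) (nat_lit 1713989929639) (nat_lit 152) (nat_lit 4263032511291) (nat_lit 0) (nat_lit 1713650896269) (nat_lit 1) (nat_lit 5) (nat_lit 3) (nat_lit 4) (nat_lit 1) (nat_lit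 4) (nat_lit 324) (nat_lit 239) (nat_lit 217)) (XT.nd (nat_lit 78) (nat_lit 0) (nat_lit 0) (XT.lf (nat_lit 0) (nat_lit 1971678025906) (nat_lit 152) (nat_lit 4901162736927) (nat_lit 0) (nat_lit 1971336850503) (nat_lit 1) (nat_lit 5) (nat_lit 3) (nat_lit 4) (nat_lit 1) (nat_lit 4) (nat_lit 325) (nat_lit 239) (nat_lit 216)) (XT.lf (nat_lit 0) (nat_lit 2268012669127) (nat_lit 152) (nat_lit 5635026233767) (nat_lit 0) (nat_lit 2267669631085) (nat_lit 1) (nat_lit 5) (nat_lit 3) (nat_lit 4) (nat_lit 1) (nat_lit 4) (nat_lit 326) (nat_lit 239) (nat_lit 215))))) (XT.nd (nat_lit 156) (nat_lit 0) (nat_lit 0) (XT.nd (nat_lit 78) (nat_lit 0) (nat_lit 0) (XT.lf (nat_lit 0) (nat_lit 2608791711015) (nat_lit 152) (nat_lit 6478981200665) (nat_lit 0) (nat_lit 2608447053288) (nat_lit 1) (nat_lit 5) (nat_lit 3) (nat_lit 4) (nat_lit 1) (nat_lit 4) (nat_lit 327) (nat_lit 239) (nat_lit 214)) (XT.lf (nat_lit 0)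 (nat_lit 3000682567608) (nat_lit 152) (nat_lit 7449539800014) (nat_lit 0) (nat_lit 3000336501459) (nat_lit 1) (nat_lit 5) (nat_lit 3) (nat_lit 4) (nat_lit 1) (nat_lit 4) (nat_lit 328) (nat_lit 239) (nat_lit 213))) (XT.nd (nat_lit 78) (nat_lit 0) (nat_lit 0) (XT.lf (nat_lit 0) (nat_lit 3451352668709) (nat_lit 152) (nat_lit 8565691221803) (nat_lit 0) (nat_lit 3451005377845) (nat_lit 1) (nat_lit 5) (nat_lit 3) (nat_lit 4) (nat_lit 1) (nat_lit 4) (nat_lit 329) (nat_lit 239) (nat_lit 212)) (XT.nd (nat_lit 78) (nat_lit 0) (nat_lit 0) (XT.lf (nat_lit 0) (nat_lit 3969619472817) (nat_lit 152) (nat_lit 9849273211241) (nat_lit 0) (nat_lit 3969271116984) (nat_lit 1) (nat_lit 5) (nat_lit 3) (nat_lit 4) (nat_lit 1) (nat_lit 4) (nat_lit 330) (nat_lit 239) (nat_lit 211)) (XT.lf (nat_lit 0) (nat_lit 4565622982622) (nat_lit 152) (nat_lit 11325399328989) (nat_lit 0) (nat_lit 4565273700728) (nat_lit 1) (nat_lit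 5) (nat_lit 3) (nat_lit 4) (nat_lit 1) (nat_lit 4) (nat_lit 331) (nat_lit 239) (nat_lit 210)))))) (XT.nd (nat_lit 390) (nat_lit 0) (nat_lit 0) (XT.nd (nat_lit 156) (nat_lit 0) (nat_lit 0) (XT.nd (nat_lit 78) (nat_lit 0) (nat_lit 0) (XT.lf (nat_lit 0) (nat_lit 5251024136358) (nat_lit 152) (nat_lit 13022950303440) (nat_lit 0) (nat_lit 5250674049195) (nat_lit 1) (nat_lit 5) (nat_lit 3) (nat_lit 4) (nat_lit 1) (nat_lit 4) (nat_lit 332) (nat_lit 239) (nat_lit 209)) (XT.lf (nat_lit 0) (nat_lit 6039232956600) (nat_lit 152) (nat_lit 14975139088441) (nat_lit 0) (nat_lit 6038882169202) (nat_lit 1) (nat_lit 5) (nat_lit 3) (nat_lit 4) (nat_lit 1) (nat_lit 4) (nat_lit 333) (nat_lit 239) (nat_lit 208))) (XT.nd (nat_lit 78) (nat_lit 0) (nat_lit 0) (XT.lf (nat_lit 0) (nat_lit 6945670920264) (nat_lit 152) (nat_lit 17220160681959) (nat_lit 0) (nat_lit 6945319523967) (nat_lit 1) (nat_lit 5) (nat_lit 3)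 (nat_lit 4) (nat_lit 1) (nat_lit 4) (nat_lit 334) (nat_lit 239) (nat_lit 207)) (XT.nd (nat_lit 78) (nat_lit 0) (nat_lit 0) (XT.lf (nat_lit 0) (nat_lit 7988072683163) (nat_lit 152) (nat_lit 19801939419520) (nat_lit 0) (nat_lit 7987720757387) (nat_lit 1) (nat_lit 5) (nat_lit 3) (nat_lit 4) (nat_lit 1) (nat_lit 4) (nat_lit 335) (nat_lit 239) (nat_lit 206)) (XT.lf (nat_lit 0) (nat_lit 9186833062395) (nat_lit 152) (nat_lit 22770988363380) (nat_lit 0) (nat_lit 9186480676203) (nat_lit 1) (nat_lit 5) (nat_lit 3) (nat_lit 4) (nat_lit 1) (nat_lit 4) (nat_lit 336) (nat_lit 239) (nat_lit 205))))) (XT.nd (nat_lit 156) (nat_lit 0) (nat_lit 0) (XT.nd (nat_lit 78) (nat_lit 0) (nat_lit 0) (XT.lf (nat_lit 0) (nat_lit 10565406065380) (nat_lit 152) (nat_lit 26185397601572) (nat_lit 0) (nat_lit 10565053278827) (nat_lit 1) (nat_lit 5) (nat_lit 3) (nat_lit 4) (nat_lit 1) (nat_lit 4) (nat_lit 337) (nat_lit 239)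 (nat_lit 204)) (XT.lf (nat_lit 0) (nat_lit 12150763772612) (nat_lit 152) (nat_lit 30111970793103) (nat_lit 0) (nat_lit 12150410637919) (nat_lit 1) (nat_lit 5) (nat_lit 3) (nat_lit 4) (nat_lit 1) (nat_lit 4) (nat_lit 338) (nat_lit 239) (nat_lit 203))) (XT.nd (nat_lit 78) (nat_lit 0) (nat_lit 0) (XT.lf (nat_lit 0) (nat_lit 13973924052276) (nat_lit 152) (nat_lit 34627532196069) (nat_lit 0) (nat_lit 13973570614852) (nat_lit 1) (nat_lit 5) (nat_lit 3) (nat_lit 4) (nat_lit 1) (nat_lit 4) (nat_lit 339) (nat_lit 239) (nat_lit 202)) (XT.nd (nat_lit 78) (nat_lit 0) (nat_lit 0) (XT.lf (nat_lit 0) (nat_lit 16070557431582) (nat_lit 152) (nat_lit 39820429750962) (nat_lit 0) (nat_lit 16070203730914) (nat_lit 1) (nat_lit 5) (nat_lit 3) (nat_lit 4) (nat_lit 1) (nat_lit 4) (nat_lit 340) (nat_lit 239) (nat_lit 201)) (XT.lf (nat_lit 0) (nat_lit 18481684998387) (nat_lit 152) (nat_lit 45792263627335) (nat_lit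 0) (nat_lit 18481331068811) (nat_lit 1) (nat_lit 5) (nat_lit 3) (nat_lit 4) (nat_lit 1) (nat_lit 4) (nat_lit 341) (nat_lit 239) (nat_lit 200))))))))
noncomputable def xc14 : XT := (XT.nd (nat_lit 38766) (nat_lit 0) (nat_lit 0) (XT.nd (nat_lit 37986) (nat_lit 0) (nat_lit 0) (XT.nd (nat_lit 37596) (nat_lit 0) (nat_lit 0) (XT.nd (nat_lit 37440) (nat_lit 0) (nat_lit 0) (XT.nd (nat_lit 37362) (nat_lit 0) (nat_lit 0) (XT.lf (nat_lit 0) (nat_lit 21254480987693) (nat_lit 152) (nat_lit 52659874053204) (nat_lit 0) (nat_lit 21254126859067) (nat_lit 1) (nat_lit 5) (nat_lit 3) (nat_lit 4) (nat_lit 1) (nat_lit 4) (nat_lit 342) (nat_lit 239) (nat_lit 199)) (XT.lf (nat_lit 0) (nat_lit 25671588294) (nat_lit 152) (nat_lit 83662650124) (nat_lit 0) (nat_lit 25671588294) (nat_lit 1) (nat_lit 5) (nat_lit 3) (nat_lit 4) (nat_lit 1) (nat_lit 4) (nat_lit 300) (nat_lit 240) (nat_lit 240))) (XT.nd (nat_lit 78)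 (nat_lit 0) (nat_lit 0) (XT.lf (nat_lit 0) (nat_lit 60936302597) (nat_lit 152) (nat_lit 188400301997) (nat_lit 0) (nat_lit 60882984252) (nat_lit 1) (nat_lit 5) (nat_lit 3) (nat_lit 4) (nat_lit 1) (nat_lit 4) (nat_lit 301) (nat_lit 240) (nat_lit 239)) (XT.lf (nat_lit 0) (nat_lit 71802434024) (nat_lit 152) (nat_lit 212978496916) (nat_lit 0) (nat_lit 71702751902) (nat_lit 1) (nat_lit 5) (nat_lit 3) (nat_lit 4) (nat_lit 1) (nat_lit 4) (nat_lit 302) (nat_lit 240) (nat_lit 238)))) (XT.nd (nat_lit 156) (nat_lit 0) (nat_lit 0) (XT.nd (nat_lit 78) (nat_lit 0) (nat_lit 0) (XT.lf (nat_lit 0) (nat_lit 84154169096) (nat_lit 152) (nat_lit 241540762731) (nat_lit 0) (nat_lit 84014170645) (nat_lit 1) (nat_lit 5) (nat_lit 3) (nat_lit 4) (nat_lit 1) (nat_lit 4) (nat_lit 303) (nat_lit 240) (nat_lit 237)) (XT.lf (nat_lit 0) (nat_lit 98233172193) (nat_lit 152) (nat_lit 274645926384) (nat_lit 0) (nat_lit 98058116065)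 (nat_lit 1) (nat_lit 5) (nat_lit 3) (nat_lit 4) (nat_lit 1) (nat_lit 4) (nat_lit 304) (nat_lit 240) (nat_lit 236))) (XT.nd (nat_lit 78) (nat_lit 0) (nat_lit 0) (XT.lf (nat_lit 0) (nat_lit 114314902071) (nat_lit 152) (nat_lit 312941697597) (nat_lit 0) (nat_lit 114109361007) (nat_lit 1) (nat_lit 5) (nat_lit 3) (nat_lit 4) (nat_lit 1) (nat_lit 4) (nat_lit 305) (nat_lit 240) (nat_lit 235)) (XT.nd (nat_lit 78) (nat_lit 0) (nat_lit 0) (XT.lf (nat_lit 0) (nat_lit 132714001272) (nat_lit 152) (nat_lit 357177341459) (nat_lit 0) (nat_lit 132481951568) (nat_lit 1) (nat_lit 5) (nat_lit 3) (nat_lit 4) (nat_lit 1) (nat_lit 4) (nat_lit 306) (nat_lit 240) (nat_lit 234)) (XT.lf (nat_lit 0) (nat_lit 153790452172) (nat_lit 152) (nat_lit 408218337960) (nat_lit 0) (nat_lit 153535351476) (nat_lit 1) (nat_lit 5) (nat_lit 3) (nat_lit 4) (nat_lit 1) (nat_lit 4) (nat_lit 307) (nat_lit 240) (nat_lit 233)))))) (XT.nd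 (nat_lit 390) (nat_lit 0) (nat_lit 0) (XT.nd (nat_lit 156) (nat_lit 0) (nat_lit 0) (XT.nd (nat_lit 78) (nat_lit 0) (nat_lit 0) (XT.lf (nat_lit 0) (nat_lit 177956620114) (nat_lit 152) (nat_lit 467063315290) (nat_lit 0) (nat_lit 177681475078) (nat_lit 1) (nat_lit 5) (nat_lit 3) (nat_lit 4) (nat_lit 1) (nat_lit 4) (nat_lit 308) (nat_lit 240) (nat_lit 232)) (XT.lf (nat_lit 0) (nat_lit 205685321427) (nat_lit 152) (nat_lit 534863588225) (nat_lit 0) (nat_lit 205392746530) (nat_lit 1) (nat_lit 5) (nat_lit 3) (nat_lit 4) (nat_lit 1) (nat_lit 4) (nat_lit 309) (nat_lit 240) (nat_lit 231))) (XT.nd (nat_lit 78) (nat_lit 0) (nat_lit 0) (XT.lf (nat_lit 0) (nat_lit 237519074181) (nat_lit 152) (nat_lit 612945683844) (nat_lit 0) (nat_lit 237211342883) (nat_lit 1) (nat_lit 5) (nat_lit 3) (nat_lit 4) (nat_lit 1) (nat_lit 4) (nat_lit 310) (nat_lit 240) (nat_lit 230)) (XT.nd (nat_lit 78) (nat_lit 0) (nat_lit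 0) (XT.lf (nat_lit 0) (nat_lit 274080712669) (nat_lit 152) (nat_lit 702837295321) (nat_lit 0) (nat_lit 273759801891) (nat_lit 1) (nat_lit 5) (nat_lit 3) (nat_lit 4) (nat_lit 1) (nat_lit 4) (nat_lit 311) (nat_lit 240) (nat_lit 229)) (XT.lf (nat_lit 0) (nat_lit 316085573295) (nat_lit 152) (nat_lit 806297171576) (nat_lit 0) (nat_lit 315753202101) (nat_lit 1) (nat_lit 5) (nat_lit 3) (nat_lit 4) (nat_lit 1) (nat_lit 4) (nat_lit 312) (nat_lit 240) (nat_lit 228))))) (XT.nd (nat_lit 156) (nat_lit 0) (nat_lit 0) (XT.nd (nat_lit 78) (nat_lit 0) (nat_lit 0) (XT.lf (nat_lit 0) (nat_lit 364355490290) (nat_lit 152) (nat_lit 925349527581) (nat_lit 0) (nat_lit 364013153516) (nat_lit 1) (nat_lit 5) (nat_lit 3) (nat_lit 4) (nat_lit 1) (nat_lit 4) (nat_lit 313) (nat_lit 240) (nat_lit 227)) (XT.lf (nat_lit 0) (nat_lit 419834875073) (nat_lit 152) (nat_lit 1062323648560) (nat_lit 0) (nat_lit 419483872577)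 (nat_lit 1) (nat_lit 5) (nat_lit 3) (nat_lit 4) (nat_lit 1) (nat_lit 4) (nat_lit 314) (nat_lit 240) (nat_lit 226))) (XT.nd (nat_lit 78) (nat_lit 0) (nat_lit 0) (XT.lf (nat_lit 0) (nat_lit 483609193868) (nat_lit 152) (nat_lit 1219899462969) (nat_lit 0) (nat_lit 483250655962) (nat_lit 1) (nat_lit 5) (nat_lit 3) (nat_lit 4) (nat_lit 1) (nat_lit 4) (nat_lit 315) (nat_lit 240) (nat_lit 225)) (XT.nd (nat_lit 78) (nat_lit 0) (nat_lit 0) (XT.lf (nat_lit 0) (nat_lit 556926205086) (nat_lit 152) (nat_lit 1401159975872) (nat_lit 0) (nat_lit 556561114649) (nat_lit 1) (nat_lit 5) (nat_lit 3) (nat_lit 4) (nat_lit 1) (nat_lit 4) (nat_lit 316) (nat_lit 240) (nat_lit 224)) (XT.lf (nat_lit 0) (nat_lit 641220371990) (nat_lit 152) (nat_lit 1609651588607) (nat_lit 0) (nat_lit 640849583701) (nat_lit 1) (nat_lit 5) (nat_lit 3) (nat_lit 4) (nat_lit 1) (nat_lit 4) (nat_lit 317) (nat_lit 240) (nat_lit 223)))))))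 (XT.nd (nat_lit 780) (nat_lit 0) (nat_lit 0) (XT.nd (nat_lit 390) (nat_lit 0) (nat_lit 0) (XT.nd (nat_lit 156) (nat_lit 0) (nat_lit 0) (XT.nd (nat_lit 78) (nat_lit 0) (nat_lit 0) (XT.lf (nat_lit 0) (nat_lit 738140928280) (nat_lit 152) (nat_lit 1849453484903) (nat_lit 0) (nat_lit 737765185337) (nat_lit 1) (nat_lit 5) (nat_lit 3) (nat_lit 4) (nat_lit 1) (nat_lit 4) (nat_lit 318) (nat_lit 240) (nat_lit 222)) (XT.lf (nat_lit 0) (nat_lit 849584145711) (nat_lit 152) (nat_lit 2125257440991) (nat_lit 0) (nat_lit 849204094372) (nat_lit 1) (nat_lit 5) (nat_lit 3) (nat_lit 4) (nat_lit 1) (nat_lit 4) (nat_lit 319) (nat_lit 240) (nat_lit 221))) (XT.nd (nat_lit 78) (nat_lit 0) (nat_lit 0) (XT.lf (nat_lit 0) (nat_lit 977730435057) (nat_lit 152) (nat_lit 2442459621230) (nat_lit 0) (nat_lit 977346637287) (nat_lit 1) (nat_lit 5) (nat_lit 3) (nat_lit 4) (nat_lit 1) (nat_lit 4) (nat_lit 320) (nat_lit 240)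 (nat_lit 220)) (XT.nd (nat_lit 78) (nat_lit 0) (nat_lit 0) (XT.lf (nat_lit 0) (nat_lit 1125087006328) (nat_lit 152) (nat_lit 2807266155232) (nat_lit 0) (nat_lit 1124699950793) (nat_lit 1) (nat_lit 5) (nat_lit 3) (nat_lit 4) (nat_lit 1) (nat_lit 4) (nat_lit 321) (nat_lit 240) (nat_lit 219)) (XT.lf (nat_lit 0) (nat_lit 1294536922874) (nat_lit 152) (nat_lit 3226814562142) (nat_lit 0) (nat_lit 1294147034499) (nat_lit 1) (nat_lit 5) (nat_lit 3) (nat_lit 4) (nat_lit 1) (nat_lit 4) (nat_lit 322) (nat_lit 240) (nat_lit 218))))) (XT.nd (nat_lit 156) (nat_lit 0) (nat_lit 0) (XT.nd (nat_lit 78) (nat_lit 0) (nat_lit 0) (XT.lf (nat_lit 0) (nat_lit 1489395509150) (nat_lit 152) (nat_lit 3709313397747) (nat_lit 0) (nat_lit 1489003157437) (nat_lit 1) (nat_lit 5) (nat_lit 3) (nat_lit 4) (nat_lit 1) (nat_lit 4) (nat_lit 323) (nat_lit 240) (nat_lit 217)) (XT.lf (nat_lit 0) (nat_lit 1713475215757) (nat_lit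 152) (nat_lit 4264202856656) (nat_lit 0) (nat_lit 1713080722010) (nat_lit 1) (nat_lit 5) (nat_lit 3) (nat_lit 4) (nat_lit 1) (nat_lit 4) (nat_lit 324) (nat_lit 240) (nat_lit 216))) (XT.nd (nat_lit 78) (nat_lit 0) (nat_lit 0) (XT.lf (nat_lit 0) (nat_lit 1971160210868) (nat_lit 152) (nat_lit 4902339471762) (nat_lit 0) (nat_lit 1970763854482) (nat_lit 1) (nat_lit 5) (nat_lit 3) (nat_lit 4) (nat_lit 1) (nat_lit 4) (nat_lit 325) (nat_lit 240) (nat_lit 215)) (XT.nd (nat_lit 78) (nat_lit 0) (nat_lit 0) (XT.lf (nat_lit 0) (nat_lit 2267492157430) (nat_lit 152) (nat_lit 5636208524663) (nat_lit 0) (nat_lit 2267094181359) (nat_lit 1) (nat_lit 5) (nat_lit 3) (nat_lit 4) (nat_lit 1) (nat_lit 4) (nat_lit 326) (nat_lit 240) (nat_lit 214)) (XT.lf (nat_lit 0) (nat_lit 2608268854398) (nat_lit 152) (nat_lit 6480168322918) (nat_lit 0) (nat_lit 2607869469905) (nat_lit 1) (nat_lit 5) (nat_lit 3) (nat_lit 4)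 (nat_lit 1) (nat_lit 4) (nat_lit 327) (nat_lit 240) (nat_lit 213)))))) (XT.nd (nat_lit 390) (nat_lit 0) (nat_lit 0) (XT.nd (nat_lit 156) (nat_lit 0) (nat_lit 0) (XT.nd (nat_lit 78) (nat_lit 0) (nat_lit 0) (XT.lf (nat_lit 0) (nat_lit 3000157671930) (nat_lit 152) (nat_lit 7450731123447) (nat_lit 0) (nat_lit 2999757062722) (nat_lit 1) (nat_lit 5) (nat_lit 3) (nat_lit 4) (nat_lit 1) (nat_lit 4) (nat_lit 328) (nat_lit 240) (nat_lit 212)) (XT.lf (nat_lit 0) (nat_lit 3450825999934) (nat_lit 152) (nat_lit 8566886198436) (nat_lit 0) (nat_lit 3450424325757) (nat_lit 1) (nat_lit 5) (nat_lit 3) (nat_lit 4) (nat_lit 1) (nat_lit 4) (nat_lit 329) (nat_lit 240) (nat_lit 211))) (XT.nd (nat_lit 78) (nat_lit 0) (nat_lit 0) (XT.lf (nat_lit 0) (nat_lit 3969091262219) (nat_lit 152) (nat_lit 9850471364569) (nat_lit 0) (nat_lit 3968688661982) (nat_lit 1) (nat_lit 5) (nat_lit 3) (nat_lit 4) (nat_lit 1) (nat_lit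 4) (nat_lit 330) (nat_lit 240) (nat_lit 210)) (XT.nd (nat_lit 78) (nat_lit 0) (nat_lit 0) (XT.lf (nat_lit 0) (nat_lit 4565093431309) (nat_lit 152) (nat_lit 11326600244662) (nat_lit 0) (nat_lit 4564690025801) (nat_lit 1) (nat_lit 5) (nat_lit 3) (nat_lit 4) (nat_lit 1) (nat_lit 4) (nat_lit 331) (nat_lit 240) (nat_lit 209)) (XT.lf (nat_lit 0) (nat_lit 5250493419205) (nat_lit 152) (nat_lit 13024153621151) (nat_lit 0) (nat_lit 5250089313463) (nat_lit 1) (nat_lit 5) (nat_lit 3) (nat_lit 4) (nat_lit 1) (nat_lit 4) (nat_lit 332) (nat_lit 240) (nat_lit 208))))) (XT.nd (nat_lit 156) (nat_lit 0) (nat_lit 0) (XT.nd (nat_lit 78) (nat_lit 0) (nat_lit 0) (XT.lf (nat_lit 0) (nat_lit 6038701225674) (nat_lit 152) (nat_lit 14976344494881) (nat_lit 0) (nat_lit 6038296511032) (nat_lit 1) (nat_lit 5) (nat_lit 3) (nat_lit 4) (nat_lit 1) (nat_lit 4) (nat_lit 333) (nat_lit 240) (nat_lit 207)) (XT.lf (nat_lit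 0) (nat_lit 6945138307796) (nat_lit 152) (nat_lit 17221367904685) (nat_lit 0) (nat_lit 6944733063676) (nat_lit 1) (nat_lit 5) (nat_lit 3) (nat_lit 4) (nat_lit 1) (nat_lit 4) (nat_lit 334) (nat_lit 240) (nat_lit 206))) (XT.nd (nat_lit 78) (nat_lit 0) (nat_lit 0) (XT.lf (nat_lit 0) (nat_lit 7987539304135) (nat_lit 152) (nat_lit 19803148221625) (nat_lit 0) (nat_lit 7987133599600) (nat_lit 1) (nat_lit 5) (nat_lit 3) (nat_lit 4) (nat_lit 1) (nat_lit 4) (nat_lit 335) (nat_lit 240) (nat_lit 205)) (XT.nd (nat_lit 78) (nat_lit 0) (nat_lit 0) (XT.lf (nat_lit 0) (nat_lit 9186299016794) (nat_lit 152) (nat_lit 22772198538858) (nat_lit 0) (nat_lit 9185892911897) (nat_lit 1) (nat_lit 5) (nat_lit 3) (nat_lit 4) (nat_lit 1) (nat_lit 4) (nat_lit 336) (nat_lit 240) (nat_lit 204)) (XT.lf (nat_lit 0) (nat_lit 10564871440151) (nat_lit 152) (nat_lit 26186608971287) (nat_lit 0) (nat_lit 10564464987114) (nat_lit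 1) (nat_lit 5) (nat_lit 3) (nat_lit 4) (nat_lit 1) (nat_lit 4) (nat_lit 337) (nat_lit 240) (nat_lit 203))))))))
noncomputable def xc15 : XT := (XT.nd (nat_lit 38298) (nat_lit 0) (nat_lit 0) (XT.nd (nat_lit 37518) (nat_lit 0) (nat_lit 0) (XT.nd (nat_lit 312) (nat_lit 0) (nat_lit 0) (XT.nd (nat_lit 156) (nat_lit 0) (nat_lit 0) (XT.nd (nat_lit 78) (nat_lit 0) (nat_lit 0) (XT.lf (nat_lit 0) (nat_lit 12150228643359) (nat_lit 152) (nat_lit 30113183201286) (nat_lit 0) (nat_lit 12149821887591) (nat_lit 1) (nat_lit 5) (nat_lit 3) (nat_lit 4) (nat_lit 1) (nat_lit 4) (nat_lit 338) (nat_lit 240) (nat_lit 202)) (XT.lf (nat_lit 0) (nat_lit 13973388484740) (nat_lit 152) (nat_lit 34628745507267) (nat_lit 0) (nat_lit 13972981465728) (nat_lit 1) (nat_lit 5) (nat_lit 3) (nat_lit 4) (nat_lit 1) (nat_lit 4) (nat_lit 339) (nat_lit 240) (nat_lit 201))) (XT.nd (nat_lit 78) (nat_lit 0) (nat_lit 0) (XT.lf (nat_lit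 0) (nat_lit 16070021482932) (nat_lit 152) (nat_lit 39821643847391) (nat_lit 0) (nat_lit 16069614235012) (nat_lit 1) (nat_lit 5) (nat_lit 3) (nat_lit 4) (nat_lit 1) (nat_lit 4) (nat_lit 340) (nat_lit 240) (nat_lit 200)) (XT.lf (nat_lit 0) (nat_lit 18481148718332) (nat_lit 152) (nat_lit 45793478406573) (nat_lit 0) (nat_lit 18480741271362) (nat_lit 1) (nat_lit 5) (nat_lit 3) (nat_lit 4) (nat_lit 1) (nat_lit 4) (nat_lit 341) (nat_lit 240) (nat_lit 199)))) (XT.nd (nat_lit 156) (nat_lit 0) (nat_lit 0) (XT.nd (nat_lit 78) (nat_lit 0) (nat_lit 0) (XT.lf (nat_lit 0) (nat_lit 21253944419461) (nat_lit 152) (nat_lit 52661089426189) (nat_lit 0) (nat_lit 21253536799403) (nat_lit 1) (nat_lit 5) (nat_lit 3) (nat_lit 4) (nat_lit 1) (nat_lit 4) (nat_lit 342) (nat_lit 240) (nat_lit 198)) (XT.lf (nat_lit 0) (nat_lit 24442658936991) (nat_lit 152) (nat_lit 60558843208797) (nat_lit 0) (nat_lit 24442251166422)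 (nat_lit 1) (nat_lit 5) (nat_lit 3) (nat_lit 4) (nat_lit 1) (nat_lit 4) (nat_lit 343) (nat_lit 240) (nat_lit 197))) (XT.nd (nat_lit 78) (nat_lit 0) (nat_lit 0) (XT.lf (nat_lit 0) (nat_lit 28109680163658) (nat_lit 152) (nat_lit 69641261024055) (nat_lit 0) (nat_lit 28109272262211) (nat_lit 1) (nat_lit 5) (nat_lit 3) (nat_lit 4) (nat_lit 1) (nat_lit 4) (nat_lit 344) (nat_lit 240) (nat_lit 196)) (XT.nd (nat_lit 78) (nat_lit 0) (nat_lit 0) (XT.lf (nat_lit 0) (nat_lit 32326754166940) (nat_lit 152) (nat_lit 80086042350959) (nat_lit 0) (nat_lit 32326346151684) (nat_lit 1) (nat_lit 5) (nat_lit 3) (nat_lit 4) (nat_lit 1) (nat_lit 4) (nat_lit 345) (nat_lit 240) (nat_lit 195)) (XT.lf (nat_lit 0) (nat_lit 37176388916466) (nat_lit 152) (nat_lit 92097541606773) (nat_lit 0) (nat_lit 37175980802247) (nat_lit 1) (nat_lit 5) (nat_lit 3) (nat_lit 4) (nat_lit 1) (nat_lit 4) (nat_lit 346) (nat_lit 240) (nat_lit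 194)))))) (XT.nd (nat_lit 390) (nat_lit 0) (nat_lit 0) (XT.nd (nat_lit 156) (nat_lit 0) (nat_lit 0) (XT.nd (nat_lit 78) (nat_lit 0) (nat_lit 0) (XT.lf (nat_lit 0) (nat_lit 17704905893) (nat_lit 152) (nat_lit 66942833461) (nat_lit 0) (nat_lit 17704905893) (nat_lit 1) (nat_lit 5) (nat_lit 3) (nat_lit 4) (nat_lit 1) (nat_lit 4) (nat_lit 298) (nat_lit 241) (nat_lit 241)) (XT.lf (nat_lit 0) (nat_lit 42896680501) (nat_lit 152) (nat_lit 149341154679) (nat_lit 0) (nat_lit 42835364405) (nat_lit 1) (nat_lit 5) (nat_lit 3) (nat_lit 4) (nat_lit 1) (nat_lit 4) (nat_lit 299) (nat_lit 241) (nat_lit 240))) (XT.nd (nat_lit 78) (nat_lit 0) (nat_lit 0) (XT.lf (nat_lit 0) (nat_lit 51315721520) (nat_lit 152) (nat_lit 167508199943) (nat_lit 0) (nat_lit 51201087080) (nat_lit 1) (nat_lit 5) (nat_lit 3) (nat_lit 4) (nat_lit 1) (nat_lit 4) (nat_lit 300) (nat_lit 241) (nat_lit 239)) (XT.nd (nat_lit 78) (nat_lit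 0) (nat_lit 0) (XT.lf (nat_lit 0) (nat_lit 60831655211) (nat_lit 152) (nat_lit 188742244905) (nat_lit 0) (nat_lit 60670656993) (nat_lit 1) (nat_lit 5) (nat_lit 3) (nat_lit 4) (nat_lit 1) (nat_lit 4) (nat_lit 301) (nat_lit 241) (nat_lit 238)) (XT.lf (nat_lit 0) (nat_lit 71630662885) (nat_lit 152) (nat_lit 213458738270) (nat_lit 0) (nat_lit 71429348339) (nat_lit 1) (nat_lit 5) (nat_lit 3) (nat_lit 4) (nat_lit 1) (nat_lit 4) (nat_lit 302) (nat_lit 241) (nat_lit 237))))) (XT.nd (nat_lit 156) (nat_lit 0) (nat_lit 0) (XT.nd (nat_lit 78) (nat_lit 0) (nat_lit 0) (XT.lf (nat_lit 0) (nat_lit 83924029475) (nat_lit 152) (nat_lit 242141263604) (nat_lit 0) (nat_lit 83687657252) (nat_lit 1) (nat_lit 5) (nat_lit 3) (nat_lit 4) (nat_lit 1) (nat_lit 4) (nat_lit 303) (nat_lit 241) (nat_lit 236)) (XT.lf (nat_lit 0) (nat_lit 97952277371) (nat_lit 152) (nat_lit 275351000751) (nat_lit 0) (nat_lit 97685420211)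 (nat_lit 1) (nat_lit 5) (nat_lit 3) (nat_lit 4) (nat_lit 1) (nat_lit 4) (nat_lit 304) (nat_lit 241) (nat_lit 235))) (XT.nd (nat_lit 78) (nat_lit 0) (nat_lit 0) (XT.lf (nat_lit 0) (nat_lit 113989872292) (nat_lit 152) (nat_lit 313737705437) (nat_lit 0) (nat_lit 113696506492) (nat_lit 1) (nat_lit 5) (nat_lit 3) (nat_lit 4) (nat_lit 1) (nat_lit 4) (nat_lit 305) (nat_lit 241) (nat_lit 234)) (XT.nd (nat_lit 78) (nat_lit 0) (nat_lit 0) (XT.lf (nat_lit 0) (nat_lit 132350593269) (nat_lit 152) (nat_lit 358052421885) (nat_lit 0) (nat_lit 132034176477) (nat_lit 1) (nat_lit 5) (nat_lit 3) (nat_lit 4) (nat_lit 1) (nat_lit 4) (nat_lit 306) (nat_lit 241) (nat_lit 233)) (XT.lf (nat_lit 0) (nat_lit 153393671800) (nat_lit 152) (nat_lit 409162177155) (nat_lit 0) (nat_lit 153057210668) (nat_lit 1) (nat_lit 5) (nat_lit 3) (nat_lit 4) (nat_lit 1) (nat_lit 4) (nat_lit 307) (nat_lit 241) (nat_lit 232))))))) (XT.nd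 (nat_lit 780) (nat_lit 0) (nat_lit 0) (XT.nd (nat_lit 390) (nat_lit 0) (nat_lit 0) (XT.nd (nat_lit 156) (nat_lit 0) (nat_lit 0) (XT.nd (nat_lit 78) (nat_lit 0) (nat_lit 0) (XT.lf (nat_lit 0) (nat_lit 177530820291) (nat_lit 152) (nat_lit 468066944720) (nat_lit 0) (nat_lit 177176929297) (nat_lit 1) (nat_lit 5) (nat_lit 3) (nat_lit 4) (nat_lit 1) (nat_lit 4) (nat_lit 308) (nat_lit 241) (nat_lit 231)) (XT.lf (nat_lit 0) (nat_lit 205234287299) (nat_lit 152) (nat_lit 535919209164) (nat_lit 0) (nat_lit 204865239904) (nat_lit 1) (nat_lit 5) (nat_lit 3) (nat_lit 4) (nat_lit 1) (nat_lit 4) (nat_lit 309) (nat_lit 241) (nat_lit 230))) (XT.nd (nat_lit 78) (nat_lit 0) (nat_lit 0) (XT.lf (nat_lit 0) (nat_lit 237046097179) (nat_lit 152) (nat_lit 614046514789) (nat_lit 0) (nat_lit 236663870305) (nat_lit 1) (nat_lit 5) (nat_lit 3) (nat_lit 4) (nat_lit 1) (nat_lit 4) (nat_lit 310) (nat_lit 241) (nat_lit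 229)) (XT.nd (nat_lit 78) (nat_lit 0) (nat_lit 0) (XT.lf (nat_lit 0) (nat_lit 273588654906) (nat_lit 152) (nat_lit 703977439316) (nat_lit 0) (nat_lit 273194967615) (nat_lit 1) (nat_lit 5) (nat_lit 3) (nat_lit 4) (nat_lit 1) (nat_lit 4) (nat_lit 311) (nat_lit 241) (nat_lit 228)) (XT.lf (nat_lit 0) (nat_lit 315576923567) (nat_lit 152) (nat_lit 807471500832) (nat_lit 0) (nat_lit 315173270696) (nat_lit 1) (nat_lit 5) (nat_lit 3) (nat_lit 4) (nat_lit 1) (nat_lit 4) (nat_lit 312) (nat_lit 241) (nat_lit 227))))) (XT.nd (nat_lit 156) (nat_lit 0) (nat_lit 0) (XT.nd (nat_lit 78) (nat_lit 0) (nat_lit 0) (XT.lf (nat_lit 0) (nat_lit 363832412766) (nat_lit 152) (nat_lit 926553583151) (nat_lit 0) (nat_lit 363420094174) (nat_lit 1) (nat_lit 5) (nat_lit 3) (nat_lit 4) (nat_lit 1) (nat_lit 4) (nat_lit 313) (nat_lit 241) (nat_lit 226)) (XT.lf (nat_lit 0) (nat_lit 419299251639) (nat_lit 152) (nat_lit 1063553553099)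 (nat_lit 0) (nat_lit 418879397637) (nat_lit 1) (nat_lit 5) (nat_lit 3) (nat_lit 4) (nat_lit 1) (nat_lit 4) (nat_lit 314) (nat_lit 241) (nat_lit 225))) (XT.nd (nat_lit 78) (nat_lit 0) (nat_lit 0) (XT.lf (nat_lit 0) (nat_lit 483062660948) (nat_lit 152) (nat_lit 1221151844871) (nat_lit 0) (nat_lit 482636254415) (nat_lit 1) (nat_lit 5) (nat_lit 3) (nat_lit 4) (nat_lit 1) (nat_lit 4) (nat_lit 315) (nat_lit 241) (nat_lit 224)) (XT.nd (nat_lit 78) (nat_lit 0) (nat_lit 0) (XT.lf (nat_lit 0) (nat_lit 556370185656) (nat_lit 152) (nat_lit 1402431903308) (nat_lit 0) (nat_lit 555938081270) (nat_lit 1) (nat_lit 5) (nat_lit 3) (nat_lit 4) (nat_lit 1) (nat_lit 4) (nat_lit 316) (nat_lit 241) (nat_lit 223)) (XT.lf (nat_lit 0) (nat_lit 640656103420) (nat_lit 152) (nat_lit 1610940512159) (nat_lit 0) (nat_lit 640219044381) (nat_lit 1) (nat_lit 5) (nat_lit 3) (nat_lit 4) (nat_lit 1) (nat_lit 4) (nat_lit 317)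 (nat_lit 241) (nat_lit 222)))))) (XT.nd (nat_lit 390) (nat_lit 0) (nat_lit 0) (XT.nd (nat_lit 156) (nat_lit 0) (nat_lit 0) (XT.nd (nat_lit 78) (nat_lit 0) (nat_lit 0) (XT.lf (nat_lit 0) (nat_lit 737569486546) (nat_lit 152) (nat_lit 1850757187687) (nat_lit 0) (nat_lit 737128119112) (nat_lit 1) (nat_lit 5) (nat_lit 3) (nat_lit 4) (nat_lit 1) (nat_lit 4) (nat_lit 318) (nat_lit 241) (nat_lit 221)) (XT.lf (nat_lit 0) (nat_lit 849006466442) (nat_lit 152) (nat_lit 2126573995280) (nat_lit 0) (nat_lit 848561352577) (nat_lit 1) (nat_lit 5) (nat_lit 3) (nat_lit 4) (nat_lit 1) (nat_lit 4) (nat_lit 319) (nat_lit 241) (nat_lit 220))) (XT.nd (nat_lit 78) (nat_lit 0) (nat_lit 0) (XT.lf (nat_lit 0) (nat_lit 977147331846) (nat_lit 152) (nat_lit 2443787350742) (nat_lit 0) (nat_lit 976698960215) (nat_lit 1) (nat_lit 5) (nat_lit 3) (nat_lit 4) (nat_lit 1) (nat_lit 4) (nat_lit 320) (nat_lit 241) (nat_lit 219))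 (XT.nd (nat_lit 78) (nat_lit 0) (nat_lit 0) (XT.lf (nat_lit 0) (nat_lit 1124499186644) (nat_lit 152) (nat_lit 2808603602329) (nat_lit 0) (nat_lit 1124047982174) (nat_lit 1) (nat_lit 5) (nat_lit 3) (nat_lit 4) (nat_lit 1) (nat_lit 4) (nat_lit 321) (nat_lit 241) (nat_lit 218)) (XT.lf (nat_lit 0) (nat_lit 1293945001911) (nat_lit 152) (nat_lit 3228160459312) (nat_lit 0) (nat_lit 1293491334101) (nat_lit 1) (nat_lit 5) (nat_lit 3) (nat_lit 4) (nat_lit 1) (nat_lit 4) (nat_lit 322) (nat_lit 241) (nat_lit 217))))) (XT.nd (nat_lit 156) (nat_lit 0) (nat_lit 0) (XT.nd (nat_lit 78) (nat_lit 0) (nat_lit 0) (XT.lf (nat_lit 0) (nat_lit 1488800021856) (nat_lit 152) (nat_lit 3710666642807) (nat_lit 0) (nat_lit 1488344212013) (nat_lit 1) (nat_lit 5) (nat_lit 3) (nat_lit 4) (nat_lit 1) (nat_lit 4) (nat_lit 323) (nat_lit 241) (nat_lit 216)) (XT.lf (nat_lit 0) (nat_lit 1712876627307) (nat_lit 152) (nat_lit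 4265562491186) (nat_lit 0) (nat_lit 1712418954825) (nat_lit 1) (nat_lit 5) (nat_lit 3) (nat_lit 4) (nat_lit 1) (nat_lit 4) (nat_lit 324) (nat_lit 241) (nat_lit 215))) (XT.nd (nat_lit 78) (nat_lit 0) (nat_lit 0) (XT.lf (nat_lit 0) (nat_lit 1970558925759) (nat_lit 152) (nat_lit 4903704662352) (nat_lit 0) (nat_lit 1970099633592) (nat_lit 1) (nat_lit 5) (nat_lit 3) (nat_lit 4) (nat_lit 1) (nat_lit 4) (nat_lit 325) (nat_lit 241) (nat_lit 214)) (XT.nd (nat_lit 78) (nat_lit 0) (nat_lit 0) (XT.lf (nat_lit 0) (nat_lit 2266888527401) (nat_lit 152) (nat_lit 5637578546611) (nat_lit 0) (nat_lit 2266427826812) (nat_lit 1) (nat_lit 5) (nat_lit 3) (nat_lit 4) (nat_lit 1) (nat_lit 4) (nat_lit 326) (nat_lit 241) (nat_lit 213)) (XT.lf (nat_lit 0) (nat_lit 2607663185308) (nat_lit 152) (nat_lit 6481542546045) (nat_lit 0) (nat_lit 2607201260004) (nat_lit 1) (nat_lit 5) (nat_lit 3) (nat_lit 4) (nat_lit 1) (nat_lit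 4) (nat_lit 327) (nat_lit 241) (nat_lit 212))))))))
noncomputable def xc16 : XT := (XT.nd (nat_lit 1482) (nat_lit 0) (nat_lit 0) (XT.nd (nat_lit 702) (nat_lit 0) (nat_lit 0) (XT.nd (nat_lit 312) (nat_lit 0) (nat_lit 0) (XT.nd (nat_lit 156) (nat_lit 0) (nat_lit 0) (XT.nd (nat_lit 78) (nat_lit 0) (nat_lit 0) (XT.lf (nat_lit 0) (nat_lit 2999550229743) (nat_lit 152) (nat_lit 7452108999775) (nat_lit 0) (nat_lit 2999087239470) (nat_lit 1) (nat_lit 5) (nat_lit 3) (nat_lit 4) (nat_lit 1) (nat_lit 4) (nat_lit 328) (nat_lit 241) (nat_lit 211)) (XT.lf (nat_lit 0) (nat_lit 3450217015924) (nat_lit 152) (nat_lit 8568267251460) (nat_lit 0) (nat_lit 3449753099591) (nat_lit 1) (nat_lit 5) (nat_lit 3) (nat_lit 4) (nat_lit 1) (nat_lit 4) (nat_lit 329) (nat_lit 241) (nat_lit 210))) (XT.nd (nat_lit 78) (nat_lit 0) (nat_lit 0) (XT.lf (nat_lit 0) (nat_lit 3968480937494) (nat_lit 152) (nat_lit 9851855179937)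 (nat_lit 0) (nat_lit 3968016215890) (nat_lit 1) (nat_lit 5) (nat_lit 3) (nat_lit 4) (nat_lit 1) (nat_lit 4) (nat_lit 330) (nat_lit 241) (nat_lit 209)) (XT.lf (nat_lit 0) (nat_lit 4564481940743) (nat_lit 152) (nat_lit 11327986462068) (nat_lit 0) (nat_lit 4564016518905) (nat_lit 1) (nat_lit 5) (nat_lit 3) (nat_lit 4) (nat_lit 1) (nat_lit 4) (nat_lit 331) (nat_lit 241) (nat_lit 208)))) (XT.nd (nat_lit 156) (nat_lit 0) (nat_lit 0) (XT.nd (nat_lit 78) (nat_lit 0) (nat_lit 0) (XT.lf (nat_lit 0) (nat_lit 5249880914866) (nat_lit 152) (nat_lit 13025541927286) (nat_lit 0) (nat_lit 5249414884128) (nat_lit 1) (nat_lit 5) (nat_lit 3) (nat_lit 4) (nat_lit 1) (nat_lit 4) (nat_lit 332) (nat_lit 241) (nat_lit 207)) (XT.lf (nat_lit 0) (nat_lit 6038087839792) (nat_lit 152) (nat_lit 14977734617301) (nat_lit 0) (nat_lit 6037621279576) (nat_lit 1) (nat_lit 5) (nat_lit 3) (nat_lit 4) (nat_lit 1) (nat_lit 4)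 (nat_lit 333) (nat_lit 241) (nat_lit 206))) (XT.nd (nat_lit 78) (nat_lit 0) (nat_lit 0) (XT.lf (nat_lit 0) (nat_lit 6944524155356) (nat_lit 152) (nat_lit 17222759606485) (nat_lit 0) (nat_lit 6944057134724) (nat_lit 1) (nat_lit 5) (nat_lit 3) (nat_lit 4) (nat_lit 1) (nat_lit 4) (nat_lit 334) (nat_lit 241) (nat_lit 205)) (XT.nd (nat_lit 78) (nat_lit 0) (nat_lit 0) (XT.lf (nat_lit 0) (nat_lit 7986924485122) (nat_lit 152) (nat_lit 19804541296798) (nat_lit 0) (nat_lit 7986457064129) (nat_lit 1) (nat_lit 5) (nat_lit 3) (nat_lit 4) (nat_lit 1) (nat_lit 4) (nat_lit 335) (nat_lit 241) (nat_lit 204)) (XT.lf (nat_lit 0) (nat_lit 9185683618153) (nat_lit 152) (nat_lit 22773592808269) (nat_lit 0) (nat_lit 9185215849020) (nat_lit 1) (nat_lit 5) (nat_lit 3) (nat_lit 4) (nat_lit 1) (nat_lit 4) (nat_lit 336) (nat_lit 241) (nat_lit 203)))))) (XT.nd (nat_lit 390) (nat_lit 0) (nat_lit 0) (XT.nd (nat_lit 156)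 (nat_lit 0) (nat_lit 0) (XT.nd (nat_lit 78) (nat_lit 0) (nat_lit 0) (XT.lf (nat_lit 0) (nat_lit 10564255537485) (nat_lit 152) (nat_lit 26188004279166) (nat_lit 0) (nat_lit 10563787465621) (nat_lit 1) (nat_lit 5) (nat_lit 3) (nat_lit 4) (nat_lit 1) (nat_lit 4) (nat_lit 337) (nat_lit 241) (nat_lit 202)) (XT.lf (nat_lit 0) (nat_lit 12149612302411) (nat_lit 152) (nat_lit 30114579412179) (nat_lit 0) (nat_lit 12149143967302) (nat_lit 1) (nat_lit 5) (nat_lit 3) (nat_lit 4) (nat_lit 1) (nat_lit 4) (nat_lit 338) (nat_lit 241) (nat_lit 201))) (XT.nd (nat_lit 78) (nat_lit 0) (nat_lit 0) (XT.lf (nat_lit 0) (nat_lit 13972771762677) (nat_lit 152) (nat_lit 34630142503391) (nat_lit 0) (nat_lit 13972303198661) (nat_lit 1) (nat_lit 5) (nat_lit 3) (nat_lit 4) (nat_lit 1) (nat_lit 4) (nat_lit 339) (nat_lit 241) (nat_lit 200)) (XT.nd (nat_lit 78) (nat_lit 0) (nat_lit 0) (XT.lf (nat_lit 0) (nat_lit 16069404429464)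 (nat_lit 152) (nat_lit 39823041526324) (nat_lit 0) (nat_lit 16068935666397) (nat_lit 1) (nat_lit 5) (nat_lit 3) (nat_lit 4) (nat_lit 1) (nat_lit 4) (nat_lit 340) (nat_lit 241) (nat_lit 199)) (XT.lf (nat_lit 0) (nat_lit 18480531376687) (nat_lit 152) (nat_lit 45794876679254) (nat_lit 0) (nat_lit 18480062440533) (nat_lit 1) (nat_lit 5) (nat_lit 3) (nat_lit 4) (nat_lit 1) (nat_lit 4) (nat_lit 341) (nat_lit 241) (nat_lit 198))))) (XT.nd (nat_lit 156) (nat_lit 0) (nat_lit 0) (XT.nd (nat_lit 78) (nat_lit 0) (nat_lit 0) (XT.lf (nat_lit 0) (nat_lit 21253326827226) (nat_lit 152) (nat_lit 52662488215171) (nat_lit 0) (nat_lit 21252857740561) (nat_lit 1) (nat_lit 5) (nat_lit 3) (nat_lit 4) (nat_lit 1) (nat_lit 4) (nat_lit 342) (nat_lit 241) (nat_lit 197)) (XT.lf (nat_lit 0) (nat_lit 24442041126852) (nat_lit 152) (nat_lit 60560242446737) (nat_lit 0) (nat_lit 24441571909309) (nat_lit 1) (nat_lit 5)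 (nat_lit 3) (nat_lit 4) (nat_lit 1) (nat_lit 4) (nat_lit 343) (nat_lit 241) (nat_lit 196))) (XT.nd (nat_lit 78) (nat_lit 0) (nat_lit 0) (XT.lf (nat_lit 0) (nat_lit 28109062164038) (nat_lit 152) (nat_lit 69642660652394) (nat_lit 0) (nat_lit 28108592832687) (nat_lit 1) (nat_lit 5) (nat_lit 3) (nat_lit 4) (nat_lit 1) (nat_lit 4) (nat_lit 344) (nat_lit 241) (nat_lit 195)) (XT.nd (nat_lit 78) (nat_lit 0) (nat_lit 0) (XT.lf (nat_lit 0) (nat_lit 32326136002553) (nat_lit 152) (nat_lit 80087442318774) (nat_lit 0) (nat_lit 32325666572239) (nat_lit 1) (nat_lit 5) (nat_lit 3) (nat_lit 4) (nat_lit 1) (nat_lit 4) (nat_lit 345) (nat_lit 241) (nat_lit 194)) (XT.lf (nat_lit 0) (nat_lit 37175770608803) (nat_lit 152) (nat_lit 92098941869786) (nat_lit 0) (nat_lit 37175301092434) (nat_lit 1) (nat_lit 5) (nat_lit 3) (nat_lit 4) (nat_lit 1) (nat_lit 4) (nat_lit 346) (nat_lit 241) (nat_lit 193))))))) (XT.nd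 (nat_lit 37362) (nat_lit 0) (nat_lit 0) (XT.nd (nat_lit 36972) (nat_lit 0) (nat_lit 0) (XT.nd (nat_lit 36738) (nat_lit 0) (nat_lit 0) (XT.nd (nat_lit 36660) (nat_lit 0) (nat_lit 0) (XT.lf (nat_lit 0) (nat_lit 42752850138129) (nat_lit 152) (nat_lit 105912166905340) (nat_lit 0) (nat_lit 42752380546929) (nat_lit 1) (nat_lit 5) (nat_lit 3) (nat_lit 4) (nat_lit 1) (nat_lit 4) (nat_lit 347) (nat_lit 241) (nat_lit 192)) (XT.lf (nat_lit 0) (nat_lit 11424973992) (nat_lit 152) (nat_lit 54852527530) (nat_lit 0) (nat_lit 11424973992) (nat_lit 1) (nat_lit 5) (nat_lit 3) (nat_lit 4) (nat_lit 1) (nat_lit 4) (nat_lit 296) (nat_lit 242) (nat_lit 242))) (XT.nd (nat_lit 78) (nat_lit 0) (nat_lit 0) (XT.lf (nat_lit 0) (nat_lit 28779146671) (nat_lit 152) (nat_lit 120839346696) (nat_lit 0) (nat_lit 28708633161) (nat_lit 1) (nat_lit 5) (nat_lit 3) (nat_lit 4) (nat_lit 1) (nat_lit 4) (nat_lit 297) (nat_lit 242)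 (nat_lit 241)) (XT.nd (nat_lit 78) (nat_lit 0) (nat_lit 0) (XT.lf (nat_lit 0) (nat_lit 35378238457) (nat_lit 152) (nat_lit 134096001571) (nat_lit 0) (nat_lit 35246408851) (nat_lit 1) (nat_lit 5) (nat_lit 3) (nat_lit 4) (nat_lit 1) (nat_lit 4) (nat_lit 298) (nat_lit 242) (nat_lit 240)) (XT.lf (nat_lit 0) (nat_lit 42776336008) (nat_lit 152) (nat_lit 149734389023) (nat_lit 0) (nat_lit 42591188058) (nat_lit 1) (nat_lit 5) (nat_lit 3) (nat_lit 4) (nat_lit 1) (nat_lit 4) (nat_lit 299) (nat_lit 242) (nat_lit 239))))) (XT.nd (nat_lit 156) (nat_lit 0) (nat_lit 0) (XT.nd (nat_lit 78) (nat_lit 0) (nat_lit 0) (XT.lf (nat_lit 0) (nat_lit 51118184711) (nat_lit 152) (nat_lit 168060477500) (nat_lit 0) (nat_lit 50886672982) (nat_lit 1) (nat_lit 5) (nat_lit 3) (nat_lit 4) (nat_lit 1) (nat_lit 4) (nat_lit 300) (nat_lit 242) (nat_lit 238)) (XT.lf (nat_lit 0) (nat_lit 60566994648) (nat_lit 152) (nat_lit 189432820908)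 (nat_lit 0) (nat_lit 60295166591) (nat_lit 1) (nat_lit 5) (nat_lit 3) (nat_lit 4) (nat_lit 1) (nat_lit 4) (nat_lit 301) (nat_lit 242) (nat_lit 237))) (XT.nd (nat_lit 78) (nat_lit 0) (nat_lit 0) (XT.lf (nat_lit 0) (nat_lit 71307633840) (nat_lit 152) (nat_lit 214269573791) (nat_lit 0) (nat_lit 71000748107) (nat_lit 1) (nat_lit 5) (nat_lit 3) (nat_lit 4) (nat_lit 1) (nat_lit 4) (nat_lit 302) (nat_lit 242) (nat_lit 236)) (XT.nd (nat_lit 78) (nat_lit 0) (nat_lit 0) (XT.lf (nat_lit 0) (nat_lit 83550245229) (nat_lit 152) (nat_lit 243056672619) (nat_lit 0) (nat_lit 83212874559) (nat_lit 1) (nat_lit 5) (nat_lit 3) (nat_lit 4) (nat_lit 1) (nat_lit 4) (nat_lit 303) (nat_lit 242) (nat_lit 235)) (XT.lf (nat_lit 0) (nat_lit 97534358167) (nat_lit 152) (nat_lit 276357343239) (nat_lit 0) (nat_lit 97170478856) (nat_lit 1) (nat_lit 5) (nat_lit 3) (nat_lit 4) (nat_lit 1) (nat_lit 4) (nat_lit 304) (nat_lit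 242) (nat_lit 234)))))) (XT.nd (nat_lit 390) (nat_lit 0) (nat_lit 0) (XT.nd (nat_lit 156) (nat_lit 0) (nat_lit 0) (XT.nd (nat_lit 78) (nat_lit 0) (nat_lit 0) (XT.lf (nat_lit 0) (nat_lit 113533574864) (nat_lit 152) (nat_lit 314823120511) (nat_lit 0) (nat_lit 113146644561) (nat_lit 1) (nat_lit 5) (nat_lit 3) (nat_lit 4) (nat_lit 1) (nat_lit 4) (nat_lit 305) (nat_lit 242) (nat_lit 233)) (XT.lf (nat_lit 0) (nat_lit 131860923472) (nat_lit 152) (nat_lit 359206595729) (nat_lit 0) (nat_lit 131453948829) (nat_lit 1) (nat_lit 5) (nat_lit 3) (nat_lit 4) (nat_lit 1) (nat_lit 4) (nat_lit 306) (nat_lit 242) (nat_lit 232))) (XT.nd (nat_lit 78) (nat_lit 0) (nat_lit 0) (XT.lf (nat_lit 0) (nat_lit 152874982552) (nat_lit 152) (nat_lit 410376141234) (nat_lit 0) (nat_lit 152450578048) (nat_lit 1) (nat_lit 5) (nat_lit 3) (nat_lit 4) (nat_lit 1) (nat_lit 4) (nat_lit 307) (nat_lit 242) (nat_lit 231)) (XT.nd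 (nat_lit 78) (nat_lit 0) (nat_lit 0) (XT.lf (nat_lit 0) (nat_lit 176986896737) (nat_lit 152) (nat_lit 469332900308) (nat_lit 0) (nat_lit 176547335832) (nat_lit 1) (nat_lit 5) (nat_lit 3) (nat_lit 4) (nat_lit 1) (nat_lit 4) (nat_lit 308) (nat_lit 242) (nat_lit 230)) (XT.lf (nat_lit 0) (nat_lit 204668420871) (nat_lit 152) (nat_lit 537230374758) (nat_lit 0) (nat_lit 204215680487) (nat_lit 1) (nat_lit 5) (nat_lit 3) (nat_lit 4) (nat_lit 1) (nat_lit 4) (nat_lit 309) (nat_lit 242) (nat_lit 229))))) (XT.nd (nat_lit 156) (nat_lit 0) (nat_lit 0) (XT.nd (nat_lit 78) (nat_lit 0) (nat_lit 0) (XT.lf (nat_lit 0) (nat_lit 236461149991) (nat_lit 152) (nat_lit 615396993434) (nat_lit 0) (nat_lit 235996949190) (nat_lit 1) (nat_lit 5) (nat_lit 3) (nat_lit 4) (nat_lit 1) (nat_lit 4) (nat_lit 310) (nat_lit 242) (nat_lit 228)) (XT.lf (nat_lit 0) (nat_lit 272987115753) (nat_lit 152) (nat_lit 705362103221) (nat_lit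 0) (nat_lit 272512949372) (nat_lit 1) (nat_lit 5) (nat_lit 3) (nat_lit 4) (nat_lit 1) (nat_lit 4) (nat_lit 311) (nat_lit 242) (nat_lit 227))) (XT.nd (nat_lit 78) (nat_lit 0) (nat_lit 0) (XT.lf (nat_lit 0) (nat_lit 314960956618) (nat_lit 152) (nat_lit 808885891051) (nat_lit 0) (nat_lit 314478124516) (nat_lit 1) (nat_lit 5) (nat_lit 3) (nat_lit 4) (nat_lit 1) (nat_lit 4) (nat_lit 312) (nat_lit 242) (nat_lit 226)) (XT.nd (nat_lit 78) (nat_lit 0) (nat_lit 0) (XT.lf (nat_lit 0) (nat_lit 363203899908) (nat_lit 152) (nat_lit 927993822338) (nat_lit 0) (nat_lit 362713532395) (nat_lit 1) (nat_lit 5) (nat_lit 3) (nat_lit 4) (nat_lit 1) (nat_lit 4) (nat_lit 313) (nat_lit 242) (nat_lit 225)) (XT.lf (nat_lit 0) (nat_lit 418659829294) (nat_lit 152) (nat_lit 1065016269650) (nat_lit 0) (nat_lit 418162909251) (nat_lit 1) (nat_lit 5) (nat_lit 3) (nat_lit 4) (nat_lit 1) (nat_lit 4) (nat_lit 314) (nat_lit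 242) (nat_lit 224))))))))
noncomputable def xc17 : XT := (XT.nd (nat_lit 1482) (nat_lit 0) (nat_lit 0) (XT.nd (nat_lit 702) (nat_lit 0) (nat_lit 0) (XT.nd (nat_lit 312) (nat_lit 0) (nat_lit 0) (XT.nd (nat_lit 156) (nat_lit 0) (nat_lit 0) (XT.nd (nat_lit 78) (nat_lit 0) (nat_lit 0) (XT.lf (nat_lit 0) (nat_lit 482413752093) (nat_lit 152) (nat_lit 1222634106956) (nat_lit 0) (nat_lit 481911134197) (nat_lit 1) (nat_lit 5) (nat_lit 3) (nat_lit 4) (nat_lit 1) (nat_lit 4) (nat_lit 315) (nat_lit 242) (nat_lit 223)) (XT.lf (nat_lit 0) (nat_lit 555713027661) (nat_lit 152) (nat_lit 1403931161509) (nat_lit 0) (nat_lit 555205455111) (nat_lit 1) (nat_lit 5) (nat_lit 3) (nat_lit 4) (nat_lit 1) (nat_lit 4) (nat_lit 316) (nat_lit 242) (nat_lit 222))) (XT.nd (nat_lit 78) (nat_lit 0) (nat_lit 0) (XT.lf (nat_lit 0) (nat_lit 639991772262) (nat_lit 152) (nat_lit 1612454549592) (nat_lit 0) (nat_lit 639479891317)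 (nat_lit 1) (nat_lit 5) (nat_lit 3) (nat_lit 4) (nat_lit 1) (nat_lit 4) (nat_lit 317) (nat_lit 242) (nat_lit 221)) (XT.lf (nat_lit 0) (nat_lit 736898917853) (nat_lit 152) (nat_lit 1852284076625) (nat_lit 0) (nat_lit 736383290478) (nat_lit 1) (nat_lit 5) (nat_lit 3) (nat_lit 4) (nat_lit 1) (nat_lit 4) (nat_lit 318) (nat_lit 242) (nat_lit 220)))) (XT.nd (nat_lit 156) (nat_lit 0) (nat_lit 0) (XT.nd (nat_lit 78) (nat_lit 0) (nat_lit 0) (XT.lf (nat_lit 0) (nat_lit 848330473807) (nat_lit 152) (nat_lit 2128112059442) (nat_lit 0) (nat_lit 847811588665) (nat_lit 1) (nat_lit 5) (nat_lit 3) (nat_lit 4) (nat_lit 1) (nat_lit 4) (nat_lit 319) (nat_lit 242) (nat_lit 219)) (XT.lf (nat_lit 0) (nat_lit 976466622738) (nat_lit 152) (nat_lit 2445335132487) (nat_lit 0) (nat_lit 975944904757) (nat_lit 1) (nat_lit 5) (nat_lit 3) (nat_lit 4) (nat_lit 1) (nat_lit 4) (nat_lit 320) (nat_lit 242) (nat_lit 218)))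 (XT.nd (nat_lit 78) (nat_lit 0) (nat_lit 0) (XT.lf (nat_lit 0) (nat_lit 1123814376256) (nat_lit 152) (nat_lit 2810159834148) (nat_lit 0) (nat_lit 1123290194936) (nat_lit 1) (nat_lit 5) (nat_lit 3) (nat_lit 4) (nat_lit 1) (nat_lit 4) (nat_lit 321) (nat_lit 242) (nat_lit 217)) (XT.nd (nat_lit 78) (nat_lit 0) (nat_lit 0) (XT.lf (nat_lit 0) (nat_lit 1293256625192) (nat_lit 152) (nat_lit 3229724039022) (nat_lit 0) (nat_lit 1292730301838) (nat_lit 1) (nat_lit 5) (nat_lit 3) (nat_lit 4) (nat_lit 1) (nat_lit 4) (nat_lit 322) (nat_lit 242) (nat_lit 216)) (XT.lf (nat_lit 0) (nat_lit 1488108543981) (nat_lit 152) (nat_lit 3712236611987) (nat_lit 0) (nat_lit 1487580357989) (nat_lit 1) (nat_lit 5) (nat_lit 3) (nat_lit 4) (nat_lit 1) (nat_lit 4) (nat_lit 323) (nat_lit 242) (nat_lit 215)))))) (XT.nd (nat_lit 390) (nat_lit 0) (nat_lit 0) (XT.nd (nat_lit 156) (nat_lit 0) (nat_lit 0) (XT.nd (nat_lit 78)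 (nat_lit 0) (nat_lit 0) (XT.lf (nat_lit 0) (nat_lit 1712182452773) (nat_lit 152) (nat_lit 4267138016426) (nat_lit 0) (nat_lit 1711652647095) (nat_lit 1) (nat_lit 5) (nat_lit 3) (nat_lit 4) (nat_lit 1) (nat_lit 4) (nat_lit 324) (nat_lit 242) (nat_lit 214)) (XT.lf (nat_lit 0) (nat_lit 1969862406305) (nat_lit 152) (nat_lit 4905285018949) (nat_lit 0) (nat_lit 1969331192206) (nat_lit 1) (nat_lit 5) (nat_lit 3) (nat_lit 4) (nat_lit 1) (nat_lit 4) (nat_lit 325) (nat_lit 242) (nat_lit 213))) (XT.nd (nat_lit 78) (nat_lit 0) (nat_lit 0) (XT.lf (nat_lit 0) (nat_lit 2266189968886) (nat_lit 152) (nat_lit 5639163104388) (nat_lit 0) (nat_lit 2265657530072) (nat_lit 1) (nat_lit 5) (nat_lit 3) (nat_lit 4) (nat_lit 1) (nat_lit 4) (nat_lit 326) (nat_lit 242) (nat_lit 212)) (XT.nd (nat_lit 78) (nat_lit 0) (nat_lit 0) (XT.lf (nat_lit 0) (nat_lit 2606962853696) (nat_lit 152) (nat_lit 6483130757022) (nat_lit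 0) (nat_lit 2606429349913) (nat_lit 1) (nat_lit 5) (nat_lit 3) (nat_lit 4) (nat_lit 1) (nat_lit 4) (nat_lit 327) (nat_lit 242) (nat_lit 211)) (XT.lf (nat_lit 0) (nat_lit 2998848356309) (nat_lit 152) (nat_lit 7453700387447) (nat_lit 0) (nat_lit 2998313926465) (nat_lit 1) (nat_lit 5) (nat_lit 3) (nat_lit 4) (nat_lit 1) (nat_lit 4) (nat_lit 328) (nat_lit 242) (nat_lit 210))))) (XT.nd (nat_lit 156) (nat_lit 0) (nat_lit 0) (XT.nd (nat_lit 78) (nat_lit 0) (nat_lit 0) (XT.lf (nat_lit 0) (nat_lit 3449513801774) (nat_lit 152) (nat_lit 8569861401476) (nat_lit 0) (nat_lit 3448978566660) (nat_lit 1) (nat_lit 5) (nat_lit 3) (nat_lit 4) (nat_lit 1) (nat_lit 4) (nat_lit 329) (nat_lit 242) (nat_lit 209)) (XT.lf (nat_lit 0) (nat_lit 3967776557504) (nat_lit 152) (nat_lit 9853451731992) (nat_lit 0) (nat_lit 3967240622155) (nat_lit 1) (nat_lit 5) (nat_lit 3) (nat_lit 4) (nat_lit 1) (nat_lit 4) (nat_lit 330)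 (nat_lit 242) (nat_lit 208))) (XT.nd (nat_lit 78) (nat_lit 0) (nat_lit 0) (XT.lf (nat_lit 0) (nat_lit 4563776546979) (nat_lit 152) (nat_lit 11329585102852) (nat_lit 0) (nat_lit 4563240002731) (nat_lit 1) (nat_lit 5) (nat_lit 3) (nat_lit 4) (nat_lit 1) (nat_lit 4) (nat_lit 331) (nat_lit 242) (nat_lit 207)) (XT.nd (nat_lit 78) (nat_lit 0) (nat_lit 0) (XT.lf (nat_lit 0) (nat_lit 5249174639560) (nat_lit 152) (nat_lit 13027142384356) (nat_lit 0) (nat_lit 5248637565834) (nat_lit 1) (nat_lit 5) (nat_lit 3) (nat_lit 4) (nat_lit 1) (nat_lit 4) (nat_lit 332) (nat_lit 242) (nat_lit 206)) (XT.lf (nat_lit 0) (nat_lit 6037380797927) (nat_lit 152) (nat_lit 14979336653751) (nat_lit 0) (nat_lit 6036843263785) (nat_lit 1) (nat_lit 5) (nat_lit 3) (nat_lit 4) (nat_lit 1) (nat_lit 4) (nat_lit 333) (nat_lit 242) (nat_lit 205))))))) (XT.nd (nat_lit 780) (nat_lit 0) (nat_lit 0) (XT.nd (nat_lit 390) (nat_lit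 0) (nat_lit 0) (XT.nd (nat_lit 156) (nat_lit 0) (nat_lit 0) (XT.nd (nat_lit 78) (nat_lit 0) (nat_lit 0) (XT.lf (nat_lit 0) (nat_lit 6943816446918) (nat_lit 152) (nat_lit 17224363016307) (nat_lit 0) (nat_lit 6943278512415) (nat_lit 1) (nat_lit 5) (nat_lit 3) (nat_lit 4) (nat_lit 1) (nat_lit 4) (nat_lit 334) (nat_lit 242) (nat_lit 204)) (XT.lf (nat_lit 0) (nat_lit 7986216197057) (nat_lit 152) (nat_lit 19806145900858) (nat_lit 0) (nat_lit 7985677914413) (nat_lit 1) (nat_lit 5) (nat_lit 3) (nat_lit 4) (nat_lit 1) (nat_lit 4) (nat_lit 335) (nat_lit 242) (nat_lit 203))) (XT.nd (nat_lit 78) (nat_lit 0) (nat_lit 0) (XT.lf (nat_lit 0) (nat_lit 9184974826063) (nat_lit 152) (nat_lit 22775198450796) (nat_lit 0) (nat_lit 9184436240688) (nat_lit 1) (nat_lit 5) (nat_lit 3) (nat_lit 4) (nat_lit 1) (nat_lit 4) (nat_lit 336) (nat_lit 242) (nat_lit 202)) (XT.nd (nat_lit 78) (nat_lit 0) (nat_lit 0) (XT.lf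 (nat_lit 0) (nat_lit 10563546307113) (nat_lit 152) (nat_lit 26189610824708) (nat_lit 0) (nat_lit 10563007458494) (nat_lit 1) (nat_lit 5) (nat_lit 3) (nat_lit 4) (nat_lit 1) (nat_lit 4) (nat_lit 337) (nat_lit 242) (nat_lit 201)) (XT.lf (nat_lit 0) (nat_lit 12148902690923) (nat_lit 152) (nat_lit 30116186742953) (nat_lit 0) (nat_lit 12148363613396) (nat_lit 1) (nat_lit 5) (nat_lit 3) (nat_lit 4) (nat_lit 1) (nat_lit 4) (nat_lit 338) (nat_lit 242) (nat_lit 200))))) (XT.nd (nat_lit 156) (nat_lit 0) (nat_lit 0) (XT.nd (nat_lit 78) (nat_lit 0) (nat_lit 0) (XT.lf (nat_lit 0) (nat_lit 13972061819785) (nat_lit 152) (nat_lit 34631750516973) (nat_lit 0) (nat_lit 13971522543208) (nat_lit 1) (nat_lit 5) (nat_lit 3) (nat_lit 4) (nat_lit 1) (nat_lit 4) (nat_lit 339) (nat_lit 242) (nat_lit 199)) (XT.lf (nat_lit 0) (nat_lit 16068694198394) (nat_lit 152) (nat_lit 39824650133654) (nat_lit 0) (nat_lit 16068154748730)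 (nat_lit 1) (nat_lit 5) (nat_lit 3) (nat_lit 4) (nat_lit 1) (nat_lit 4) (nat_lit 340) (nat_lit 242) (nat_lit 198))) (XT.nd (nat_lit 78) (nat_lit 0) (nat_lit 0) (XT.lf (nat_lit 0) (nat_lit 18479820895027) (nat_lit 152) (nat_lit 45796485802885) (nat_lit 0) (nat_lit 18479281294852) (nat_lit 1) (nat_lit 5) (nat_lit 3) (nat_lit 4) (nat_lit 1) (nat_lit 4) (nat_lit 341) (nat_lit 242) (nat_lit 197)) (XT.nd (nat_lit 78) (nat_lit 0) (nat_lit 0) (XT.lf (nat_lit 0) (nat_lit 21252616127662) (nat_lit 152) (nat_lit 52664097787761) (nat_lit 0) (nat_lit 21252076396609) (nat_lit 1) (nat_lit 5) (nat_lit 3) (nat_lit 4) (nat_lit 1) (nat_lit 4) (nat_lit 342) (nat_lit 242) (nat_lit 196)) (XT.lf (nat_lit 0) (nat_lit 24441330237808) (nat_lit 152) (nat_lit 60561852409725) (nat_lit 0) (nat_lit 24440790392946) (nat_lit 1) (nat_lit 5) (nat_lit 3) (nat_lit 4) (nat_lit 1) (nat_lit 4) (nat_lit 343) (nat_lit 242) (nat_lit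 195)))))) (XT.nd (nat_lit 36816) (nat_lit 0) (nat_lit 0) (XT.nd (nat_lit 156) (nat_lit 0) (nat_lit 0) (XT.nd (nat_lit 78) (nat_lit 0) (nat_lit 0) (XT.lf (nat_lit 0) (nat_lit 28108351110226) (nat_lit 152) (nat_lit 69644270954858) (nat_lit 0) (nat_lit 28107811166402) (nat_lit 1) (nat_lit 5) (nat_lit 3) (nat_lit 4) (nat_lit 1) (nat_lit 4) (nat_lit 344) (nat_lit 242) (nat_lit 194)) (XT.lf (nat_lit 0) (nat_lit 32325424805466) (nat_lit 152) (nat_lit 80089052916436) (nat_lit 0) (nat_lit 32324884775587) (nat_lit 1) (nat_lit 5) (nat_lit 3) (nat_lit 4) (nat_lit 1) (nat_lit 4) (nat_lit 345) (nat_lit 242) (nat_lit 193))) (XT.nd (nat_lit 78) (nat_lit 0) (nat_lit 0) (XT.lf (nat_lit 0) (nat_lit 37175059287129) (nat_lit 152) (nat_lit 92100552724141) (nat_lit 0) (nat_lit 37174519182419) (nat_lit 1) (nat_lit 5) (nat_lit 3) (nat_lit 4) (nat_lit 1) (nat_lit 4) (nat_lit 346) (nat_lit 242) (nat_lit 192)) (XT.nd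 (nat_lit 36504) (nat_lit 0) (nat_lit 0) (XT.lf (nat_lit 0) (nat_lit 42752138708118) (nat_lit 152) (nat_lit 105913777982907) (nat_lit 0) (nat_lit 42751598538338) (nat_lit 1) (nat_lit 5) (nat_lit 3) (nat_lit 4) (nat_lit 1) (nat_lit 4) (nat_lit 347) (nat_lit 242) (nat_lit 191)) (XT.lf (nat_lit 0) (nat_lit 6382071482) (nat_lit 152) (nat_lit 46345638455) (nat_lit 0) (nat_lit 6382071482) (nat_lit 1) (nat_lit 5) (nat_lit 3) (nat_lit 4) (nat_lit 1) (nat_lit 4) (nat_lit 294) (nat_lit 243) (nat_lit 243))))) (XT.nd (nat_lit 156) (nat_lit 0) (nat_lit 0) (XT.nd (nat_lit 78) (nat_lit 0) (nat_lit 0) (XT.lf (nat_lit 0) (nat_lit 17555726872) (nat_lit 152) (nat_lit 100475281830) (nat_lit 0) (nat_lit 17474636335) (nat_lit 1) (nat_lit 5) (nat_lit 3) (nat_lit 4) (nat_lit 1) (nat_lit 4) (nat_lit 295) (nat_lit 243) (nat_lit 242)) (XT.lf (nat_lit 0) (nat_lit 22813638656) (nat_lit 152) (nat_lit 109946939907)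 (nat_lit 0) (nat_lit 22662034609) (nat_lit 1) (nat_lit 5) (nat_lit 3) (nat_lit 4) (nat_lit 1) (nat_lit 4) (nat_lit 296) (nat_lit 243) (nat_lit 241))) (XT.nd (nat_lit 78) (nat_lit 0) (nat_lit 0) (XT.lf (nat_lit 0) (nat_lit 28640750504) (nat_lit 152) (nat_lit 121291566191) (nat_lit 0) (nat_lit 28427830361) (nat_lit 1) (nat_lit 5) (nat_lit 3) (nat_lit 4) (nat_lit 1) (nat_lit 4) (nat_lit 297) (nat_lit 243) (nat_lit 240)) (XT.nd (nat_lit 78) (nat_lit 0) (nat_lit 0) (XT.lf (nat_lit 0) (nat_lit 35151071126) (nat_lit 152) (nat_lit 134731120762) (nat_lit 0) (nat_lit 34884832638) (nat_lit 1) (nat_lit 5) (nat_lit 3) (nat_lit 4) (nat_lit 1) (nat_lit 4) (nat_lit 298) (nat_lit 243) (nat_lit 239)) (XT.lf (nat_lit 0) (nat_lit 42471976360) (nat_lit 152) (nat_lit 150528551427) (nat_lit 0) (nat_lit 42159374095) (nat_lit 1) (nat_lit 5) (nat_lit 3) (nat_lit 4) (nat_lit 1) (nat_lit 4) (nat_lit 299) (nat_lit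 243) (nat_lit 238))))))))
noncomputable def xc18 : XT := (XT.nd (nat_lit 1482) (nat_lit 0) (nat_lit 0) (XT.nd (nat_lit 702) (nat_lit 0) (nat_lit 0) (XT.nd (nat_lit 312) (nat_lit 0) (nat_lit 0) (XT.nd (nat_lit 156) (nat_lit 0) (nat_lit 0) (XT.nd (nat_lit 78) (nat_lit 0) (nat_lit 0) (XT.lf (nat_lit 0) (nat_lit 50746701309) (nat_lit 152) (nat_lit 168992938350) (nat_lit 0) (nat_lit 50393782715) (nat_lit 1) (nat_lit 5) (nat_lit 3) (nat_lit 4) (nat_lit 1) (nat_lit 4) (nat_lit 300) (nat_lit 243) (nat_lit 237)) (XT.lf (nat_lit 0) (nat_lit 60137142765) (nat_lit 152) (nat_lit 190485541276) (nat_lit 0) (nat_lit 59749166494) (nat_lit 1) (nat_lit 5) (nat_lit 3) (nat_lit 4) (nat_lit 1) (nat_lit 4) (nat_lit 301) (nat_lit 243) (nat_lit 236))) (XT.nd (nat_lit 78) (nat_lit 0) (nat_lit 0) (XT.lf (nat_lit 0) (nat_lit 70827026756) (nat_lit 152) (nat_lit 215426867653) (nat_lit 0) (nat_lit 70408565549) (nat_lit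 1) (nat_lit 5) (nat_lit 3) (nat_lit 4) (nat_lit 1) (nat_lit 4) (nat_lit 302) (nat_lit 243) (nat_lit 235)) (XT.lf (nat_lit 0) (nat_lit 83025503187) (nat_lit 152) (nat_lit 244304899955) (nat_lit 0) (nat_lit 82580533339) (nat_lit 1) (nat_lit 5) (nat_lit 3) (nat_lit 4) (nat_lit 1) (nat_lit 4) (nat_lit 303) (nat_lit 243) (nat_lit 234)))) (XT.nd (nat_lit 156) (nat_lit 0) (nat_lit 0) (XT.nd (nat_lit 78) (nat_lit 0) (nat_lit 0) (XT.lf (nat_lit 0) (nat_lit 96971237900) (nat_lit 152) (nat_lit 277684643160) (nat_lit 0) (nat_lit 96503217061) (nat_lit 1) (nat_lit 5) (nat_lit 3) (nat_lit 4) (nat_lit 1) (nat_lit 4) (nat_lit 304) (nat_lit 243) (nat_lit 233)) (XT.lf (nat_lit 0) (nat_lit 112937082228) (nat_lit 152) (nat_lit 316219179202) (nat_lit 0) (nat_lit 112449017049) (nat_lit 1) (nat_lit 5) (nat_lit 3) (nat_lit 4) (nat_lit 1) (nat_lit 4) (nat_lit 305) (nat_lit 243) (nat_lit 232))) (XT.nd (nat_lit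 78) (nat_lit 0) (nat_lit 0) (XT.lf (nat_lit 0) (nat_lit 131235411386) (nat_lit 152) (nat_lit 360662444654) (nat_lit 0) (nat_lit 130729916345) (nat_lit 1) (nat_lit 5) (nat_lit 3) (nat_lit 4) (nat_lit 1) (nat_lit 4) (nat_lit 306) (nat_lit 243) (nat_lit 231)) (XT.nd (nat_lit 78) (nat_lit 0) (nat_lit 0) (XT.lf (nat_lit 0) (nat_lit 152224236160) (nat_lit 152) (nat_lit 411883981668) (nat_lit 0) (nat_lit 151703584718) (nat_lit 1) (nat_lit 5) (nat_lit 3) (nat_lit 4) (nat_lit 1) (nat_lit 4) (nat_lit 307) (nat_lit 243) (nat_lit 230)) (XT.lf (nat_lit 0) (nat_lit 176314207472) (nat_lit 152) (nat_lit 470885950749) (nat_lit 0) (nat_lit 175780376550) (nat_lit 1) (nat_lit 5) (nat_lit 3) (nat_lit 4) (nat_lit 1) (nat_lit 4) (nat_lit 308) (nat_lit 243) (nat_lit 229)))))) (XT.nd (nat_lit 390) (nat_lit 0) (nat_lit 0) (XT.nd (nat_lit 156) (nat_lit 0) (nat_lit 0) (XT.nd (nat_lit 78) (nat_lit 0) (nat_lit 0)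 (XT.lf (nat_lit 0) (nat_lit 203976650846) (nat_lit 152) (nat_lit 538822738249) (nat_lit 0) (nat_lit 203431359507) (nat_lit 1) (nat_lit 5) (nat_lit 3) (nat_lit 4) (nat_lit 1) (nat_lit 4) (nat_lit 309) (nat_lit 243) (nat_lit 228)) (XT.lf (nat_lit 0) (nat_lit 235752788000) (nat_lit 152) (nat_lit 617023542186) (nat_lit 0) (nat_lit 235197531082) (nat_lit 1) (nat_lit 5) (nat_lit 3) (nat_lit 4) (nat_lit 1) (nat_lit 4) (nat_lit 310) (nat_lit 243) (nat_lit 227))) (XT.nd (nat_lit 78) (nat_lit 0) (nat_lit 0) (XT.lf (nat_lit 0) (nat_lit 272264325966) (nat_lit 152) (nat_lit 707018378287) (nat_lit 0) (nat_lit 271700403327) (nat_lit 1) (nat_lit 5) (nat_lit 3) (nat_lit 4) (nat_lit 1) (nat_lit 4) (nat_lit 311) (nat_lit 243) (nat_lit 226)) (XT.nd (nat_lit 78) (nat_lit 0) (nat_lit 0) (XT.lf (nat_lit 0) (nat_lit 314225620922) (nat_lit 152) (nat_lit 810568015085) (nat_lit 0) (nat_lit 313654162872) (nat_lit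 1) (nat_lit 5) (nat_lit 3) (nat_lit 4) (nat_lit 1) (nat_lit 4) (nat_lit 312) (nat_lit 243) (nat_lit 225)) (XT.lf (nat_lit 0) (nat_lit 362457654725) (nat_lit 152) (nat_lit 929698423736) (nat_lit 0) (nat_lit 361879644145) (nat_lit 1) (nat_lit 5) (nat_lit 3) (nat_lit 4) (nat_lit 1) (nat_lit 4) (nat_lit 313) (nat_lit 243) (nat_lit 224))))) (XT.nd (nat_lit 156) (nat_lit 0) (nat_lit 0) (XT.nd (nat_lit 78) (nat_lit 0) (nat_lit 0) (XT.lf (nat_lit 0) (nat_lit 417904097601) (nat_lit 152) (nat_lit 1066740416582) (nat_lit 0) (nat_lit 417320389169) (nat_lit 1) (nat_lit 5) (nat_lit 3) (nat_lit 4) (nat_lit 1) (nat_lit 4) (nat_lit 314) (nat_lit 243) (nat_lit 223)) (XT.lf (nat_lit 0) (nat_lit 481649771260) (nat_lit 152) (nat_lit 1224375250004) (nat_lit 0) (nat_lit 481061108173) (nat_lit 1) (nat_lit 5) (nat_lit 3) (nat_lit 4) (nat_lit 1) (nat_lit 4) (nat_lit 315) (nat_lit 243) (nat_lit 222))) (XT.nd (nat_lit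 78) (nat_lit 0) (nat_lit 0) (XT.lf (nat_lit 0) (nat_lit 554941873665) (nat_lit 152) (nat_lit 1405687083789) (nat_lit 0) (nat_lit 554348902182) (nat_lit 1) (nat_lit 5) (nat_lit 3) (nat_lit 4) (nat_lit 1) (nat_lit 4) (nat_lit 316) (nat_lit 243) (nat_lit 221)) (XT.nd (nat_lit 78) (nat_lit 0) (nat_lit 0) (XT.lf (nat_lit 0) (nat_lit 639214380731) (nat_lit 152) (nat_lit 1614223323378) (nat_lit 0) (nat_lit 638617662818) (nat_lit 1) (nat_lit 5) (nat_lit 3) (nat_lit 4) (nat_lit 1) (nat_lit 4) (nat_lit 317) (nat_lit 243) (nat_lit 220)) (XT.lf (nat_lit 0) (nat_lit 736116102379) (nat_lit 152) (nat_lit 1854064025633) (nat_lit 0) (nat_lit 735516126701) (nat_lit 1) (nat_lit 5) (nat_lit 3) (nat_lit 4) (nat_lit 1) (nat_lit 4) (nat_lit 318) (nat_lit 243) (nat_lit 219))))))) (XT.nd (nat_lit 780) (nat_lit 0) (nat_lit 0) (XT.nd (nat_lit 390) (nat_lit 0) (nat_lit 0) (XT.nd (nat_lit 156) (nat_lit 0) (nat_lit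 0) (XT.nd (nat_lit 78) (nat_lit 0) (nat_lit 0) (XT.lf (nat_lit 0) (nat_lit 847542941860) (nat_lit 152) (nat_lit 2129901726034) (nat_lit 0) (nat_lit 846940133342) (nat_lit 1) (nat_lit 5) (nat_lit 3) (nat_lit 4) (nat_lit 1) (nat_lit 4) (nat_lit 319) (nat_lit 243) (nat_lit 218)) (XT.lf (nat_lit 0) (nat_lit 975674989511) (nat_lit 152) (nat_lit 2447133249153) (nat_lit 0) (nat_lit 975069717654) (nat_lit 1) (nat_lit 5) (nat_lit 3) (nat_lit 4) (nat_lit 1) (nat_lit 4) (nat_lit 320) (nat_lit 243) (nat_lit 217))) (XT.nd (nat_lit 78) (nat_lit 0) (nat_lit 0) (XT.lf (nat_lit 0) (nat_lit 1123019176700) (nat_lit 152) (nat_lit 2811965298704) (nat_lit 0) (nat_lit 1122411762809) (nat_lit 1) (nat_lit 5) (nat_lit 3) (nat_lit 4) (nat_lit 1) (nat_lit 4) (nat_lit 321) (nat_lit 243) (nat_lit 216)) (XT.nd (nat_lit 78) (nat_lit 0) (nat_lit 0) (XT.lf (nat_lit 0) (nat_lit 1292458324479) (nat_lit 152) (nat_lit 3231535893048)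 (nat_lit 0) (nat_lit 1291849047949) (nat_lit 1) (nat_lit 5) (nat_lit 3) (nat_lit 4) (nat_lit 1) (nat_lit 4) (nat_lit 322) (nat_lit 243) (nat_lit 215)) (XT.lf (nat_lit 0) (nat_lit 1487307546609) (nat_lit 152) (nat_lit 3714054022073) (nat_lit 0) (nat_lit 1486696650395) (nat_lit 1) (nat_lit 5) (nat_lit 3) (nat_lit 4) (nat_lit 1) (nat_lit 4) (nat_lit 323) (nat_lit 243) (nat_lit 214))))) (XT.nd (nat_lit 156) (nat_lit 0) (nat_lit 0) (XT.nd (nat_lit 78) (nat_lit 0) (nat_lit 0) (XT.lf (nat_lit 0) (nat_lit 1711379110481) (nat_lit 152) (nat_lit 4268960257870) (nat_lit 0) (nat_lit 1710766805844) (nat_lit 1) (nat_lit 5) (nat_lit 3) (nat_lit 4) (nat_lit 1) (nat_lit 4) (nat_lit 324) (nat_lit 243) (nat_lit 213)) (XT.lf (nat_lit 0) (nat_lit 1969057024952) (nat_lit 152) (nat_lit 4907111461573) (nat_lit 0) (nat_lit 1968443495601) (nat_lit 1) (nat_lit 5) (nat_lit 3) (nat_lit 4) (nat_lit 1) (nat_lit 4) (nat_lit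 325) (nat_lit 243) (nat_lit 212))) (XT.nd (nat_lit 78) (nat_lit 0) (nat_lit 0) (XT.lf (nat_lit 0) (nat_lit 2265382814436) (nat_lit 152) (nat_lit 5640993200211) (nat_lit 0) (nat_lit 2264768220116) (nat_lit 1) (nat_lit 5) (nat_lit 3) (nat_lit 4) (nat_lit 1) (nat_lit 4) (nat_lit 326) (nat_lit 243) (nat_lit 211)) (XT.nd (nat_lit 78) (nat_lit 0) (nat_lit 0) (XT.lf (nat_lit 0) (nat_lit 2606154157424) (nat_lit 152) (nat_lit 6484964029541) (nat_lit 0) (nat_lit 2605538637043) (nat_lit 1) (nat_lit 5) (nat_lit 3) (nat_lit 4) (nat_lit 1) (nat_lit 4) (nat_lit 327) (nat_lit 243) (nat_lit 210)) (XT.lf (nat_lit 0) (nat_lit 2998038319320) (nat_lit 152) (nat_lit 7455536422311) (nat_lit 0) (nat_lit 2997421993669) (nat_lit 1) (nat_lit 5) (nat_lit 3) (nat_lit 4) (nat_lit 1) (nat_lit 4) (nat_lit 328) (nat_lit 243) (nat_lit 209)))))) (XT.nd (nat_lit 390) (nat_lit 0) (nat_lit 0) (XT.nd (nat_lit 156) (nat_lit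 0) (nat_lit 0) (XT.nd (nat_lit 78) (nat_lit 0) (nat_lit 0) (XT.lf (nat_lit 0) (nat_lit 3448702598946) (nat_lit 152) (nat_lit 8571699838378) (nat_lit 0) (nat_lit 3448085573060) (nat_lit 1) (nat_lit 5) (nat_lit 3) (nat_lit 4) (nat_lit 1) (nat_lit 4) (nat_lit 329) (nat_lit 243) (nat_lit 208)) (XT.lf (nat_lit 0) (nat_lit 3966964340902) (nat_lit 152) (nat_lit 9855292257622) (nat_lit 0) (nat_lit 3966346706117) (nat_lit 1) (nat_lit 5) (nat_lit 3) (nat_lit 4) (nat_lit 1) (nat_lit 4) (nat_lit 330) (nat_lit 243) (nat_lit 207))) (XT.nd (nat_lit 78) (nat_lit 0) (nat_lit 0) (XT.lf (nat_lit 0) (nat_lit 4562963448835) (nat_lit 152) (nat_lit 11331427444768) (nat_lit 0) (nat_lit 4562345284572) (nat_lit 1) (nat_lit 5) (nat_lit 3) (nat_lit 4) (nat_lit 1) (nat_lit 4) (nat_lit 331) (nat_lit 243) (nat_lit 206)) (XT.nd (nat_lit 78) (nat_lit 0) (nat_lit 0) (XT.lf (nat_lit 0) (nat_lit 5248360774857) (nat_lit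 152) (nat_lit 13028986305651) (nat_lit 0) (nat_lit 5247742150178) (nat_lit 1) (nat_lit 5) (nat_lit 3) (nat_lit 4) (nat_lit 1) (nat_lit 4) (nat_lit 332) (nat_lit 243) (nat_lit 205)) (XT.lf (nat_lit 0) (nat_lit 6036566266652) (nat_lit 152) (nat_lit 14981181948420) (nat_lit 0) (nat_lit 6035947241611) (nat_lit 1) (nat_lit 5) (nat_lit 3) (nat_lit 4) (nat_lit 1) (nat_lit 4) (nat_lit 333) (nat_lit 243) (nat_lit 204))))) (XT.nd (nat_lit 156) (nat_lit 0) (nat_lit 0) (XT.nd (nat_lit 78) (nat_lit 0) (nat_lit 0) (XT.lf (nat_lit 0) (nat_lit 6943001336014) (nat_lit 152) (nat_lit 17226209505214) (nat_lit 0) (nat_lit 6942381962833) (nat_lit 1) (nat_lit 5) (nat_lit 3) (nat_lit 4) (nat_lit 1) (nat_lit 4) (nat_lit 334) (nat_lit 243) (nat_lit 203)) (XT.lf (nat_lit 0) (nat_lit 7985400582128) (nat_lit 152) (nat_lit 19807993428232) (nat_lit 0) (nat_lit 7984780906216) (nat_lit 1) (nat_lit 5) (nat_lit 3) (nat_lit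 4) (nat_lit 1) (nat_lit 4) (nat_lit 335) (nat_lit 243) (nat_lit 202))) (XT.nd (nat_lit 78) (nat_lit 0) (nat_lit 0) (XT.lf (nat_lit 0) (nat_lit 9184158772852) (nat_lit 152) (nat_lit 22777046881185) (nat_lit 0) (nat_lit 9183538833696) (nat_lit 1) (nat_lit 5) (nat_lit 3) (nat_lit 4) (nat_lit 1) (nat_lit 4) (nat_lit 336) (nat_lit 243) (nat_lit 201)) (XT.nd (nat_lit 78) (nat_lit 0) (nat_lit 0) (XT.lf (nat_lit 0) (nat_lit 10562729872786) (nat_lit 152) (nat_lit 26191460040328) (nat_lit 0) (nat_lit 10562109704723) (nat_lit 1) (nat_lit 5) (nat_lit 3) (nat_lit 4) (nat_lit 1) (nat_lit 4) (nat_lit 337) (nat_lit 243) (nat_lit 200)) (XT.lf (nat_lit 0) (nat_lit 12148085925192) (nat_lit 152) (nat_lit 30118036641381) (nat_lit 0) (nat_lit 12147465558078) (nat_lit 1) (nat_lit 5) (nat_lit 3) (nat_lit 4) (nat_lit 1) (nat_lit 4) (nat_lit 338) (nat_lit 243) (nat_lit 199))))))))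
noncomputable def xc19 : XT := (XT.nd (nat_lit 37830) (nat_lit 0) (nat_lit 0) (XT.nd (nat_lit 37050) (nat_lit 0) (nat_lit 0) (XT.nd (nat_lit 312) (nat_lit 0) (nat_lit 0) (XT.nd (nat_lit 156) (nat_lit 0) (nat_lit 0) (XT.nd (nat_lit 78) (nat_lit 0) (nat_lit 0) (XT.lf (nat_lit 0) (nat_lit 13971244765876) (nat_lit 152) (nat_lit 34633601009149) (nat_lit 0) (nat_lit 13970624225675) (nat_lit 1) (nat_lit 5) (nat_lit 3) (nat_lit 4) (nat_lit 1) (nat_lit 4) (nat_lit 339) (nat_lit 243) (nat_lit 198)) (XT.lf (nat_lit 0) (nat_lit 16067876893896) (nat_lit 152) (nat_lit 39826501142131) (nat_lit 0) (nat_lit 16067256203184) (nat_lit 1) (nat_lit 5) (nat_lit 3) (nat_lit 4) (nat_lit 1) (nat_lit 4) (nat_lit 340) (nat_lit 243) (nat_lit 197))) (XT.nd (nat_lit 78) (nat_lit 0) (nat_lit 0) (XT.lf (nat_lit 0) (nat_lit 18479003372626) (nat_lit 152) (nat_lit 45798337260321) (nat_lit 0) (nat_lit 18478382551035) (nat_lit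 1) (nat_lit 5) (nat_lit 3) (nat_lit 4) (nat_lit 1) (nat_lit 4) (nat_lit 341) (nat_lit 243) (nat_lit 196)) (XT.lf (nat_lit 0) (nat_lit 21251798415779) (nat_lit 152) (nat_lit 52665949635595) (nat_lit 0) (nat_lit 21251177480381) (nat_lit 1) (nat_lit 5) (nat_lit 3) (nat_lit 4) (nat_lit 1) (nat_lit 4) (nat_lit 342) (nat_lit 243) (nat_lit 195)))) (XT.nd (nat_lit 156) (nat_lit 0) (nat_lit 0) (XT.nd (nat_lit 78) (nat_lit 0) (nat_lit 0) (XT.lf (nat_lit 0) (nat_lit 24440512361158) (nat_lit 152) (nat_lit 60563704597036) (nat_lit 0) (nat_lit 24439891326796) (nat_lit 1) (nat_lit 5) (nat_lit 3) (nat_lit 4) (nat_lit 1) (nat_lit 4) (nat_lit 343) (nat_lit 243) (nat_lit 194)) (XT.lf (nat_lit 0) (nat_lit 28107533090302) (nat_lit 152) (nat_lit 69646123437367) (nat_lit 0) (nat_lit 28106911969885) (nat_lit 1) (nat_lit 5) (nat_lit 3) (nat_lit 4) (nat_lit 1) (nat_lit 4) (nat_lit 344) (nat_lit 243) (nat_lit 193)))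 (XT.nd (nat_lit 78) (nat_lit 0) (nat_lit 0) (XT.lf (nat_lit 0) (nat_lit 32324606660954) (nat_lit 152) (nat_lit 80090905655638) (nat_lit 0) (nat_lit 32323985465707) (nat_lit 1) (nat_lit 5) (nat_lit 3) (nat_lit 4) (nat_lit 1) (nat_lit 4) (nat_lit 345) (nat_lit 243) (nat_lit 192)) (XT.nd (nat_lit 36426) (nat_lit 0) (nat_lit 0) (XT.lf (nat_lit 0) (nat_lit 37174241034281) (nat_lit 152) (nat_lit 92102405686555) (nat_lit 0) (nat_lit 37173619773964) (nat_lit 1) (nat_lit 5) (nat_lit 3) (nat_lit 4) (nat_lit 1) (nat_lit 4) (nat_lit 346) (nat_lit 243) (nat_lit 191)) (XT.lf (nat_lit 0) (nat_lit 2230385147) (nat_lit 152) (nat_lit 40643595222) (nat_lit 0) (nat_lit 2230385147) (nat_lit 1) (nat_lit 5) (nat_lit 3) (nat_lit 4) (nat_lit 1) (nat_lit 4) (nat_lit 292) (nat_lit 244) (nat_lit 244)))))) (XT.nd (nat_lit 390) (nat_lit 0) (nat_lit 0) (XT.nd (nat_lit 156) (nat_lit 0) (nat_lit 0) (XT.nd (nat_lit 78)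 (nat_lit 0) (nat_lit 0) (XT.lf (nat_lit 0) (nat_lit 8438392670) (nat_lit 152) (nat_lit 86442629402) (nat_lit 0) (nat_lit 8345138553) (nat_lit 1) (nat_lit 5) (nat_lit 3) (nat_lit 4) (nat_lit 1) (nat_lit 4) (nat_lit 293) (nat_lit 244) (nat_lit 243)) (XT.lf (nat_lit 0) (nat_lit 12722387237) (nat_lit 152) (nat_lit 92969444485) (nat_lit 0) (nat_lit 12548042583) (nat_lit 1) (nat_lit 5) (nat_lit 3) (nat_lit 4) (nat_lit 1) (nat_lit 4) (nat_lit 294) (nat_lit 244) (nat_lit 242))) (XT.nd (nat_lit 78) (nat_lit 0) (nat_lit 0) (XT.lf (nat_lit 0) (nat_lit 17396571280) (nat_lit 152) (nat_lit 100995334250) (nat_lit 0) (nat_lit 17151713115) (nat_lit 1) (nat_lit 5) (nat_lit 3) (nat_lit 4) (nat_lit 1) (nat_lit 4) (nat_lit 295) (nat_lit 244) (nat_lit 241)) (XT.nd (nat_lit 78) (nat_lit 0) (nat_lit 0) (XT.lf (nat_lit 0) (nat_lit 22552396225) (nat_lit 152) (nat_lit 110677326976) (nat_lit 0) (nat_lit 22246221964)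 (nat_lit 1) (nat_lit 5) (nat_lit 3) (nat_lit 4) (nat_lit 1) (nat_lit 4) (nat_lit 296) (nat_lit 244) (nat_lit 240)) (XT.lf (nat_lit 0) (nat_lit 28290736909) (nat_lit 152) (nat_lit 122204852955) (nat_lit 0) (nat_lit 27931244304) (nat_lit 1) (nat_lit 5) (nat_lit 3) (nat_lit 4) (nat_lit 1) (nat_lit 4) (nat_lit 297) (nat_lit 244) (nat_lit 239))))) (XT.nd (nat_lit 156) (nat_lit 0) (nat_lit 0) (XT.nd (nat_lit 78) (nat_lit 0) (nat_lit 0) (XT.lf (nat_lit 0) (nat_lit 34723865214) (nat_lit 152) (nat_lit 135803450739) (nat_lit 0) (nat_lit 34318008831) (nat_lit 1) (nat_lit 5) (nat_lit 3) (nat_lit 4) (nat_lit 1) (nat_lit 4) (nat_lit 298) (nat_lit 244) (nat_lit 238)) (XT.lf (nat_lit 0) (nat_lit 41977646694) (nat_lit 152) (nat_lit 151739179850) (nat_lit 0) (nat_lit 41531473983) (nat_lit 1) (nat_lit 5) (nat_lit 3) (nat_lit 4) (nat_lit 1) (nat_lit 4) (nat_lit 299) (nat_lit 244) (nat_lit 237))) (XT.nd (nat_lit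 78) (nat_lit 0) (nat_lit 0) (XT.lf (nat_lit 0) (nat_lit 50194003162) (nat_lit 152) (nat_lit 170323826291) (nat_lit 0) (nat_lit 49712772773) (nat_lit 1) (nat_lit 5) (nat_lit 3) (nat_lit 4) (nat_lit 1) (nat_lit 4) (nat_lit 300) (nat_lit 244) (nat_lit 236)) (XT.nd (nat_lit 78) (nat_lit 0) (nat_lit 0) (XT.lf (nat_lit 0) (nat_lit 59533689416) (nat_lit 152) (nat_lit 191921002712) (nat_lit 0) (nat_lit 59021974091) (nat_lit 1) (nat_lit 5) (nat_lit 3) (nat_lit 4) (nat_lit 1) (nat_lit 4) (nat_lit 301) (nat_lit 244) (nat_lit 235)) (XT.lf (nat_lit 0) (nat_lit 70179438449) (nat_lit 152) (nat_lit 216953262562) (nat_lit 0) (nat_lit 69641214485) (nat_lit 1) (nat_lit 5) (nat_lit 3) (nat_lit 4) (nat_lit 1) (nat_lit 4) (nat_lit 302) (nat_lit 244) (nat_lit 234))))))) (XT.nd (nat_lit 780) (nat_lit 0) (nat_lit 0) (XT.nd (nat_lit 390) (nat_lit 0) (nat_lit 0) (XT.nd (nat_lit 156) (nat_lit 0) (nat_lit 0) (XT.nd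 (nat_lit 78) (nat_lit 0) (nat_lit 0) (XT.lf (nat_lit 0) (nat_lit 82339536656) (nat_lit 152) (nat_lit 245910367449) (nat_lit 0) (nat_lit 81778261700) (nat_lit 1) (nat_lit 5) (nat_lit 3) (nat_lit 4) (nat_lit 1) (nat_lit 4) (nat_lit 303) (nat_lit 244) (nat_lit 233)) (XT.lf (nat_lit 0) (nat_lit 96251899001) (nat_lit 152) (nat_lit 279358869425) (nat_lit 0) (nat_lit 95670579704) (nat_lit 1) (nat_lit 5) (nat_lit 3) (nat_lit 4) (nat_lit 1) (nat_lit 4) (nat_lit 304) (nat_lit 244) (nat_lit 232))) (XT.nd (nat_lit 78) (nat_lit 0) (nat_lit 0) (XT.lf (nat_lit 0) (nat_lit 112188723878) (nat_lit 152) (nat_lit 317953195701) (nat_lit 0) (nat_lit 111589974720) (nat_lit 1) (nat_lit 5) (nat_lit 3) (nat_lit 4) (nat_lit 1) (nat_lit 4) (nat_lit 305) (nat_lit 244) (nat_lit 231)) (XT.nd (nat_lit 78) (nat_lit 0) (nat_lit 0) (XT.lf (nat_lit 0) (nat_lit 130461818730) (nat_lit 152) (nat_lit 362448452662) (nat_lit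 0) (nat_lit 129847913171) (nat_lit 1) (nat_lit 5) (nat_lit 3) (nat_lit 4) (nat_lit 1) (nat_lit 4) (nat_lit 306) (nat_lit 244) (nat_lit 230)) (XT.lf (nat_lit 0) (nat_lit 151428700631) (nat_lit 152) (nat_lit 413715199682) (nat_lit 0) (nat_lit 150801615592) (nat_lit 1) (nat_lit 5) (nat_lit 3) (nat_lit 4) (nat_lit 1) (nat_lit 4) (nat_lit 307) (nat_lit 244) (nat_lit 229))))) (XT.nd (nat_lit 156) (nat_lit 0) (nat_lit 0) (XT.nd (nat_lit 78) (nat_lit 0) (nat_lit 0) (XT.lf (nat_lit 0) (nat_lit 175499591182) (nat_lit 152) (nat_lit 472756481814) (nat_lit 0) (nat_lit 174861045726) (nat_lit 1) (nat_lit 5) (nat_lit 3) (nat_lit 4) (nat_lit 1) (nat_lit 4) (nat_lit 308) (nat_lit 244) (nat_lit 228)) (XT.lf (nat_lit 0) (nat_lit 203145442590) (nat_lit 152) (nat_lit 540727454575) (nat_lit 0) (nat_lit 202496931555) (nat_lit 1) (nat_lit 5) (nat_lit 3) (nat_lit 4) (nat_lit 1) (nat_lit 4) (nat_lit 309) (nat_lit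 244) (nat_lit 227))) (XT.nd (nat_lit 78) (nat_lit 0) (nat_lit 0) (XT.lf (nat_lit 0) (nat_lit 234907151949) (nat_lit 152) (nat_lit 618957984825) (nat_lit 0) (nat_lit 234249975192) (nat_lit 1) (nat_lit 5) (nat_lit 3) (nat_lit 4) (nat_lit 1) (nat_lit 4) (nat_lit 310) (nat_lit 244) (nat_lit 226)) (XT.nd (nat_lit 78) (nat_lit 0) (nat_lit 0) (XT.lf (nat_lit 0) (nat_lit 271406144005) (nat_lit 152) (nat_lit 708978669895) (nat_lit 0) (nat_lit 270741431838) (nat_lit 1) (nat_lit 5) (nat_lit 3) (nat_lit 4) (nat_lit 1) (nat_lit 4) (nat_lit 311) (nat_lit 244) (nat_lit 225)) (XT.lf (nat_lit 0) (nat_lit 313356529474) (nat_lit 152) (nat_lit 812550784057) (nat_lit 0) (nat_lit 312685264777) (nat_lit 1) (nat_lit 5) (nat_lit 3) (nat_lit 4) (nat_lit 1) (nat_lit 4) (nat_lit 312) (nat_lit 244) (nat_lit 224)))))) (XT.nd (nat_lit 390) (nat_lit 0) (nat_lit 0) (XT.nd (nat_lit 156) (nat_lit 0) (nat_lit 0) (XT.nd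 (nat_lit 78) (nat_lit 0) (nat_lit 0) (XT.lf (nat_lit 0) (nat_lit 361579076767) (nat_lit 152) (nat_lit 931700738241) (nat_lit 0) (nat_lit 360902114217) (nat_lit 1) (nat_lit 5) (nat_lit 3) (nat_lit 4) (nat_lit 1) (nat_lit 4) (nat_lit 313) (nat_lit 244) (nat_lit 223)) (XT.lf (nat_lit 0) (nat_lit 417017270505) (nat_lit 152) (nat_lit 1068759727203) (nat_lit 0) (nat_lit 416335353300) (nat_lit 1) (nat_lit 5) (nat_lit 3) (nat_lit 4) (nat_lit 1) (nat_lit 4) (nat_lit 314) (nat_lit 244) (nat_lit 222))) (XT.nd (nat_lit 78) (nat_lit 0) (nat_lit 0) (XT.lf (nat_lit 0) (nat_lit 480755770999) (nat_lit 152) (nat_lit 1226409339858) (nat_lit 0) (nat_lit 480069545400) (nat_lit 1) (nat_lit 5) (nat_lit 3) (nat_lit 4) (nat_lit 1) (nat_lit 4) (nat_lit 315) (nat_lit 244) (nat_lit 221)) (XT.nd (nat_lit 78) (nat_lit 0) (nat_lit 0) (XT.lf (nat_lit 0) (nat_lit 554041635869) (nat_lit 152) (nat_lit 1407734025147) (nat_lit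 0) (nat_lit 553351663839) (nat_lit 1) (nat_lit 5) (nat_lit 3) (nat_lit 4) (nat_lit 1) (nat_lit 4) (nat_lit 316) (nat_lit 244) (nat_lit 220)) (XT.lf (nat_lit 0) (nat_lit 638308718993) (nat_lit 152) (nat_lit 1616281439959) (nat_lit 0) (nat_lit 637615489197) (nat_lit 1) (nat_lit 5) (nat_lit 3) (nat_lit 4) (nat_lit 1) (nat_lit 4) (nat_lit 317) (nat_lit 244) (nat_lit 219))))) (XT.nd (nat_lit 156) (nat_lit 0) (nat_lit 0) (XT.nd (nat_lit 78) (nat_lit 0) (nat_lit 0) (XT.lf (nat_lit 0) (nat_lit 735205724169) (nat_lit 152) (nat_lit 1856131859799) (nat_lit 0) (nat_lit 734509661534) (nat_lit 1) (nat_lit 5) (nat_lit 3) (nat_lit 4) (nat_lit 1) (nat_lit 4) (nat_lit 318) (nat_lit 244) (nat_lit 218)) (XT.lf (nat_lit 0) (nat_lit 846628462370) (nat_lit 152) (nat_lit 2131978010274) (nat_lit 0) (nat_lit 845929936396) (nat_lit 1) (nat_lit 5) (nat_lit 3) (nat_lit 4) (nat_lit 1) (nat_lit 4) (nat_lit 319) (nat_lit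 244) (nat_lit 217))) (XT.nd (nat_lit 78) (nat_lit 0) (nat_lit 0) (XT.lf (nat_lit 0) (nat_lit 974756943691) (nat_lit 152) (nat_lit 2449216881283) (nat_lit 0) (nat_lit 974056275682) (nat_lit 1) (nat_lit 5) (nat_lit 3) (nat_lit 4) (nat_lit 1) (nat_lit 4) (nat_lit 320) (nat_lit 244) (nat_lit 216)) (XT.nd (nat_lit 78) (nat_lit 0) (nat_lit 0) (XT.lf (nat_lit 0) (nat_lit 1122098029722) (nat_lit 152) (nat_lit 2814055320304) (nat_lit 0) (nat_lit 1121395499075) (nat_lit 1) (nat_lit 5) (nat_lit 3) (nat_lit 4) (nat_lit 1) (nat_lit 4) (nat_lit 321) (nat_lit 244) (nat_lit 215)) (XT.lf (nat_lit 0) (nat_lit 1291534480843) (nat_lit 152) (nat_lit 3233631470708) (nat_lit 0) (nat_lit 1290830330511) (nat_lit 1) (nat_lit 5) (nat_lit 3) (nat_lit 4) (nat_lit 1) (nat_lit 4) (nat_lit 322) (nat_lit 244) (nat_lit 214))))))))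
noncomputable def xc20 : XT := (XT.nd (nat_lit 1482) (nat_lit 0) (nat_lit 0) (XT.nd (nat_lit 702) (nat_lit 0) (nat_lit 0) (XT.nd (nat_lit 312) (nat_lit 0) (nat_lit 0) (XT.nd (nat_lit 156) (nat_lit 0) (nat_lit 0) (XT.nd (nat_lit 78) (nat_lit 0) (nat_lit 0) (XT.lf (nat_lit 0) (nat_lit 1486381358053) (nat_lit 152) (nat_lit 3716154431090) (nat_lit 0) (nat_lit 1485675799299) (nat_lit 1) (nat_lit 5) (nat_lit 3) (nat_lit 4) (nat_lit 1) (nat_lit 4) (nat_lit 323) (nat_lit 244) (nat_lit 213)) (XT.lf (nat_lit 0) (nat_lit 1710450882864) (nat_lit 152) (nat_lit 4271064868067) (nat_lit 0) (nat_lit 1709744099395) (nat_lit 1) (nat_lit 5) (nat_lit 3) (nat_lit 4) (nat_lit 1) (nat_lit 4) (nat_lit 324) (nat_lit 244) (nat_lit 212))) (XT.nd (nat_lit 78) (nat_lit 0) (nat_lit 0) (XT.lf (nat_lit 0) (nat_lit 1968127024238) (nat_lit 152) (nat_lit 4909219724970) (nat_lit 0) (nat_lit 1967419175800) (nat_lit 1) (nat_lit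 5) (nat_lit 3) (nat_lit 4) (nat_lit 1) (nat_lit 4) (nat_lit 325) (nat_lit 244) (nat_lit 211)) (XT.lf (nat_lit 0) (nat_lit 2264451271899) (nat_lit 152) (nat_lit 5643104640304) (nat_lit 0) (nat_lit 2263742497401) (nat_lit 1) (nat_lit 5) (nat_lit 3) (nat_lit 4) (nat_lit 1) (nat_lit 4) (nat_lit 326) (nat_lit 244) (nat_lit 210)))) (XT.nd (nat_lit 156) (nat_lit 0) (nat_lit 0) (XT.nd (nat_lit 78) (nat_lit 0) (nat_lit 0) (XT.lf (nat_lit 0) (nat_lit 2605221274171) (nat_lit 152) (nat_lit 6487078231978) (nat_lit 0) (nat_lit 2604511694403) (nat_lit 1) (nat_lit 5) (nat_lit 3) (nat_lit 4) (nat_lit 1) (nat_lit 4) (nat_lit 327) (nat_lit 244) (nat_lit 209)) (XT.lf (nat_lit 0) (nat_lit 2997104270228) (nat_lit 152) (nat_lit 7457653026786) (nat_lit 0) (nat_lit 2996393990225) (nat_lit 1) (nat_lit 5) (nat_lit 3) (nat_lit 4) (nat_lit 1) (nat_lit 4) (nat_lit 328) (nat_lit 244) (nat_lit 208))) (XT.nd (nat_lit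 78) (nat_lit 0) (nat_lit 0) (XT.lf (nat_lit 0) (nat_lit 3447767536080) (nat_lit 152) (nat_lit 8573818531582) (nat_lit 0) (nat_lit 3447056647177) (nat_lit 1) (nat_lit 5) (nat_lit 3) (nat_lit 4) (nat_lit 1) (nat_lit 4) (nat_lit 329) (nat_lit 244) (nat_lit 207)) (XT.nd (nat_lit 78) (nat_lit 0) (nat_lit 0) (XT.lf (nat_lit 0) (nat_lit 3966028396493) (nat_lit 152) (nat_lit 9857412767112) (nat_lit 0) (nat_lit 3965316978113) (nat_lit 1) (nat_lit 5) (nat_lit 3) (nat_lit 4) (nat_lit 1) (nat_lit 4) (nat_lit 330) (nat_lit 244) (nat_lit 206)) (XT.lf (nat_lit 0) (nat_lit 4562026737868) (nat_lit 152) (nat_lit 11333549533637) (nat_lit 0) (nat_lit 4561314859072) (nat_lit 1) (nat_lit 5) (nat_lit 3) (nat_lit 4) (nat_lit 1) (nat_lit 4) (nat_lit 331) (nat_lit 244) (nat_lit 205)))))) (XT.nd (nat_lit 390) (nat_lit 0) (nat_lit 0) (XT.nd (nat_lit 156) (nat_lit 0) (nat_lit 0) (XT.nd (nat_lit 78) (nat_lit 0) (nat_lit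 0) (XT.lf (nat_lit 0) (nat_lit 5247423397318) (nat_lit 152) (nat_lit 13031109767894) (nat_lit 0) (nat_lit 5246711118160) (nat_lit 1) (nat_lit 5) (nat_lit 3) (nat_lit 4) (nat_lit 1) (nat_lit 4) (nat_lit 332) (nat_lit 244) (nat_lit 204)) (XT.lf (nat_lit 0) (nat_lit 6035628309484) (nat_lit 152) (nat_lit 14983306604900) (nat_lit 0) (nat_lit 6034915682185) (nat_lit 1) (nat_lit 5) (nat_lit 3) (nat_lit 4) (nat_lit 1) (nat_lit 4) (nat_lit 333) (nat_lit 244) (nat_lit 203))) (XT.nd (nat_lit 78) (nat_lit 0) (nat_lit 0) (XT.lf (nat_lit 0) (nat_lit 6942062874821) (nat_lit 152) (nat_lit 17228335200161) (nat_lit 0) (nat_lit 6941349944792) (nat_lit 1) (nat_lit 5) (nat_lit 3) (nat_lit 4) (nat_lit 1) (nat_lit 4) (nat_lit 334) (nat_lit 244) (nat_lit 202)) (XT.nd (nat_lit 78) (nat_lit 0) (nat_lit 0) (XT.lf (nat_lit 0) (nat_lit 7984461682653) (nat_lit 152) (nat_lit 19810120026195) (nat_lit 0) (nat_lit 7983748489380)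 (nat_lit 1) (nat_lit 5) (nat_lit 3) (nat_lit 4) (nat_lit 1) (nat_lit 4) (nat_lit 335) (nat_lit 244) (nat_lit 201)) (XT.lf (nat_lit 0) (nat_lit 9183219492261) (nat_lit 152) (nat_lit 22779174264379) (nat_lit 0) (nat_lit 9182506070080) (nat_lit 1) (nat_lit 5) (nat_lit 3) (nat_lit 4) (nat_lit 1) (nat_lit 4) (nat_lit 336) (nat_lit 244) (nat_lit 200))))) (XT.nd (nat_lit 156) (nat_lit 0) (nat_lit 0) (XT.nd (nat_lit 78) (nat_lit 0) (nat_lit 0) (XT.lf (nat_lit 0) (nat_lit 10561790260792) (nat_lit 152) (nat_lit 26193588106330) (nat_lit 0) (nat_lit 10561076639560) (nat_lit 1) (nat_lit 5) (nat_lit 3) (nat_lit 4) (nat_lit 1) (nat_lit 4) (nat_lit 337) (nat_lit 244) (nat_lit 199)) (XT.lf (nat_lit 0) (nat_lit 12147146025020) (nat_lit 152) (nat_lit 30120165301131) (nat_lit 0) (nat_lit 12146432230701) (nat_lit 1) (nat_lit 5) (nat_lit 3) (nat_lit 4) (nat_lit 1) (nat_lit 4) (nat_lit 338) (nat_lit 244) (nat_lit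 198))) (XT.nd (nat_lit 78) (nat_lit 0) (nat_lit 0) (XT.lf (nat_lit 0) (nat_lit 13970304615115) (nat_lit 152) (nat_lit 34635730185201) (nat_lit 0) (nat_lit 13969590670285) (nat_lit 1) (nat_lit 5) (nat_lit 3) (nat_lit 4) (nat_lit 1) (nat_lit 4) (nat_lit 339) (nat_lit 244) (nat_lit 197)) (XT.nd (nat_lit 78) (nat_lit 0) (nat_lit 0) (XT.lf (nat_lit 0) (nat_lit 16066936525231) (nat_lit 152) (nat_lit 39828630767141) (nat_lit 0) (nat_lit 16066222449522) (nat_lit 1) (nat_lit 5) (nat_lit 3) (nat_lit 4) (nat_lit 1) (nat_lit 4) (nat_lit 340) (nat_lit 244) (nat_lit 196)) (XT.lf (nat_lit 0) (nat_lit 18478062814479) (nat_lit 152) (nat_lit 45800467275729) (nat_lit 0) (nat_lit 18477348624963) (nat_lit 1) (nat_lit 5) (nat_lit 3) (nat_lit 4) (nat_lit 1) (nat_lit 4) (nat_lit 341) (nat_lit 244) (nat_lit 195))))))) (XT.nd (nat_lit 36972) (nat_lit 0) (nat_lit 0) (XT.nd (nat_lit 36582) (nat_lit 0) (nat_lit 0)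 (XT.nd (nat_lit 156) (nat_lit 0) (nat_lit 0) (XT.nd (nat_lit 78) (nat_lit 0) (nat_lit 0) (XT.lf (nat_lit 0) (nat_lit 21250857692866) (nat_lit 152) (nat_lit 52668079990480) (nat_lit 0) (nat_lit 21250143404387) (nat_lit 1) (nat_lit 5) (nat_lit 3) (nat_lit 4) (nat_lit 1) (nat_lit 4) (nat_lit 342) (nat_lit 244) (nat_lit 194)) (XT.lf (nat_lit 0) (nat_lit 24439571494969) (nat_lit 152) (nat_lit 60565835247118) (nat_lit 0) (nat_lit 24438857120435) (nat_lit 1) (nat_lit 5) (nat_lit 3) (nat_lit 4) (nat_lit 1) (nat_lit 4) (nat_lit 343) (nat_lit 244) (nat_lit 193))) (XT.nd (nat_lit 78) (nat_lit 0) (nat_lit 0) (XT.lf (nat_lit 0) (nat_lit 28106592099525) (nat_lit 152) (nat_lit 69648254344142) (nat_lit 0) (nat_lit 28105877650161) (nat_lit 1) (nat_lit 5) (nat_lit 3) (nat_lit 4) (nat_lit 1) (nat_lit 4) (nat_lit 344) (nat_lit 244) (nat_lit 192)) (XT.nd (nat_lit 78) (nat_lit 0) (nat_lit 0) (XT.lf (nat_lit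 0) (nat_lit 32323665561841) (nat_lit 152) (nat_lit 80093036785625) (nat_lit 0) (nat_lit 32322951047407) (nat_lit 1) (nat_lit 5) (nat_lit 3) (nat_lit 4) (nat_lit 1) (nat_lit 4) (nat_lit 345) (nat_lit 244) (nat_lit 191)) (XT.lf (nat_lit 0) (nat_lit 37173299840962) (nat_lit 152) (nat_lit 92104537010638) (nat_lit 0) (nat_lit 37172585269945) (nat_lit 1) (nat_lit 5) (nat_lit 3) (nat_lit 4) (nat_lit 1) (nat_lit 4) (nat_lit 346) (nat_lit 244) (nat_lit 190))))) (XT.nd (nat_lit 156) (nat_lit 0) (nat_lit 0) (XT.nd (nat_lit 78) (nat_lit 152) (nat_lit 0) (XT.lf (nat_lit 0) (nat_lit 32064126374) (nat_lit 76) (nat_lit 1239184086) (nat_lit 76) (nat_lit 1239184086) (nat_lit 3) (nat_lit 4) (nat_lit 4) (nat_lit 5) (nat_lit 4) (nat_lit 4) (nat_lit 290) (nat_lit 245) (nat_lit 245)) (XT.lf (nat_lit 0) (nat_lit 818939297) (nat_lit 152) (nat_lit 77402260332) (nat_lit 0) (nat_lit 711697062) (nat_lit 1) (nat_lit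 5) (nat_lit 3) (nat_lit 4) (nat_lit 1) (nat_lit 4) (nat_lit 291) (nat_lit 245) (nat_lit 244))) (XT.nd (nat_lit 78) (nat_lit 0) (nat_lit 0) (XT.lf (nat_lit 0) (nat_lit 4412751208) (nat_lit 152) (nat_lit 81607083155) (nat_lit 0) (nat_lit 4212254855) (nat_lit 1) (nat_lit 5) (nat_lit 3) (nat_lit 4) (nat_lit 1) (nat_lit 4) (nat_lit 292) (nat_lit 245) (nat_lit 243)) (XT.nd (nat_lit 78) (nat_lit 0) (nat_lit 0) (XT.lf (nat_lit 0) (nat_lit 8255363740) (nat_lit 152) (nat_lit 87040689685) (nat_lit 0) (nat_lit 7973776850) (nat_lit 1) (nat_lit 5) (nat_lit 3) (nat_lit 4) (nat_lit 1) (nat_lit 4) (nat_lit 293) (nat_lit 245) (nat_lit 242)) (XT.lf (nat_lit 0) (nat_lit 12421958442) (nat_lit 152) (nat_lit 93809389614) (nat_lit 0) (nat_lit 12069858042) (nat_lit 1) (nat_lit 5) (nat_lit 3) (nat_lit 4) (nat_lit 1) (nat_lit 4) (nat_lit 294) (nat_lit 245) (nat_lit 241)))))) (XT.nd (nat_lit 390) (nat_lit 0) (nat_lit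 0) (XT.nd (nat_lit 156) (nat_lit 0) (nat_lit 0) (XT.nd (nat_lit 78) (nat_lit 0) (nat_lit 0) (XT.lf (nat_lit 0) (nat_lit 16994055645) (nat_lit 152) (nat_lit 102045614029) (nat_lit 0) (nat_lit 16580639150) (nat_lit 1) (nat_lit 5) (nat_lit 3) (nat_lit 4) (nat_lit 1) (nat_lit 4) (nat_lit 295) (nat_lit 245) (nat_lit 240)) (XT.lf (nat_lit 0) (nat_lit 22061109426) (nat_lit 152) (nat_lit 111910506450) (nat_lit 0) (nat_lit 21594374586) (nat_lit 1) (nat_lit 5) (nat_lit 3) (nat_lit 4) (nat_lit 1) (nat_lit 4) (nat_lit 296) (nat_lit 245) (nat_lit 239))) (XT.nd (nat_lit 78) (nat_lit 0) (nat_lit 0) (XT.lf (nat_lit 0) (nat_lit 27722257793) (nat_lit 152) (nat_lit 123597075642) (nat_lit 0) (nat_lit 27209159175) (nat_lit 1) (nat_lit 5) (nat_lit 3) (nat_lit 4) (nat_lit 1) (nat_lit 4) (nat_lit 297) (nat_lit 245) (nat_lit 238)) (XT.nd (nat_lit 78) (nat_lit 0) (nat_lit 0) (XT.lf (nat_lit 0) (nat_lit 34088262345)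 (nat_lit 152) (nat_lit 137333971872) (nat_lit 0) (nat_lit 33534847398) (nat_lit 1) (nat_lit 5) (nat_lit 3) (nat_lit 4) (nat_lit 1) (nat_lit 4) (nat_lit 298) (nat_lit 245) (nat_lit 237)) (XT.lf (nat_lit 0) (nat_lit 41283675343) (nat_lit 152) (nat_lit 153389960501) (nat_lit 0) (nat_lit 40695202720) (nat_lit 1) (nat_lit 5) (nat_lit 3) (nat_lit 4) (nat_lit 1) (nat_lit 4) (nat_lit 299) (nat_lit 245) (nat_lit 236))))) (XT.nd (nat_lit 156) (nat_lit 0) (nat_lit 0) (XT.nd (nat_lit 78) (nat_lit 0) (nat_lit 0) (XT.lf (nat_lit 0) (nat_lit 49449276609) (nat_lit 152) (nat_lit 172079180437) (nat_lit 0) (nat_lit 48830319050) (nat_lit 1) (nat_lit 5) (nat_lit 3) (nat_lit 4) (nat_lit 1) (nat_lit 4) (nat_lit 300) (nat_lit 245) (nat_lit 235)) (XT.lf (nat_lit 0) (nat_lit 58744827906) (nat_lit 152) (nat_lit 193767290330) (nat_lit 0) (nat_lit 58099361706) (nat_lit 1) (nat_lit 5) (nat_lit 3) (nat_lit 4) (nat_lit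 1) (nat_lit 4) (nat_lit 301) (nat_lit 245) (nat_lit 234))) (XT.nd (nat_lit 78) (nat_lit 0) (nat_lit 0) (XT.lf (nat_lit 0) (nat_lit 69352198715) (nat_lit 152) (nat_lit 218878622766) (nat_lit 0) (nat_lit 68683681524) (nat_lit 1) (nat_lit 5) (nat_lit 3) (nat_lit 4) (nat_lit 1) (nat_lit 4) (nat_lit 302) (nat_lit 245) (nat_lit 233)) (XT.nd (nat_lit 78) (nat_lit 0) (nat_lit 0) (XT.lf (nat_lit 0) (nat_lit 81478924554) (nat_lit 152) (nat_lit 247904486423) (nat_lit 0) (nat_lit 80790363021) (nat_lit 1) (nat_lit 5) (nat_lit 3) (nat_lit 4) (nat_lit 1) (nat_lit 4) (nat_lit 303) (nat_lit 245) (nat_lit 232)) (XT.lf (nat_lit 0) (nat_lit 95362267447) (nat_lit 152) (nat_lit 281412778633) (nat_lit 0) (nat_lit 94656276054) (nat_lit 1) (nat_lit 5) (nat_lit 3) (nat_lit 4) (nat_lit 1) (nat_lit 4) (nat_lit 304) (nat_lit 245) (nat_lit 231))))))))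
noncomputable def xc21 : XT := (XT.nd (nat_lit 1482) (nat_lit 0) (nat_lit 0) (XT.nd (nat_lit 702) (nat_lit 0) (nat_lit 0) (XT.nd (nat_lit 312) (nat_lit 0) (nat_lit 0) (XT.nd (nat_lit 156) (nat_lit 0) (nat_lit 0) (XT.nd (nat_lit 78) (nat_lit 0) (nat_lit 0) (XT.lf (nat_lit 0) (nat_lit 111273858019) (nat_lit 152) (nat_lit 320059096418) (nat_lit 0) (nat_lit 110552710224) (nat_lit 1) (nat_lit 5) (nat_lit 3) (nat_lit 4) (nat_lit 1) (nat_lit 4) (nat_lit 305) (nat_lit 245) (nat_lit 230)) (XT.lf (nat_lit 0) (nat_lit 129525009997) (nat_lit 152) (nat_lit 364599563386) (nat_lit 0) (nat_lit 128790682723) (nat_lit 1) (nat_lit 5) (nat_lit 3) (nat_lit 4) (nat_lit 1) (nat_lit 4) (nat_lit 306) (nat_lit 245) (nat_lit 229))) (XT.nd (nat_lit 78) (nat_lit 0) (nat_lit 0) (XT.lf (nat_lit 0) (nat_lit 150472811137) (nat_lit 152) (nat_lit 415905623457) (nat_lit 0) (nat_lit 149727023447) (nat_lit 1) (nat_lit 5)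 (nat_lit 3) (nat_lit 4) (nat_lit 1) (nat_lit 4) (nat_lit 307) (nat_lit 245) (nat_lit 228)) (XT.lf (nat_lit 0) (nat_lit 174527109723) (nat_lit 152) (nat_lit 474981090849) (nat_lit 0) (nat_lit 173771356453) (nat_lit 1) (nat_lit 5) (nat_lit 3) (nat_lit 4) (nat_lit 1) (nat_lit 4) (nat_lit 308) (nat_lit 245) (nat_lit 227)))) (XT.nd (nat_lit 156) (nat_lit 0) (nat_lit 0) (XT.nd (nat_lit 78) (nat_lit 0) (nat_lit 0) (XT.lf (nat_lit 0) (nat_lit 202158533336) (nat_lit 152) (nat_lit 542981789924) (nat_lit 0) (nat_lit 201394114344) (nat_lit 1) (nat_lit 5) (nat_lit 3) (nat_lit 4) (nat_lit 1) (nat_lit 4) (nat_lit 309) (nat_lit 245) (nat_lit 226)) (XT.lf (nat_lit 0) (nat_lit 233907696784) (nat_lit 152) (nat_lit 621238169142) (nat_lit 0) (nat_lit 233135742382) (nat_lit 1) (nat_lit 5) (nat_lit 3) (nat_lit 4) (nat_lit 1) (nat_lit 4) (nat_lit 310) (nat_lit 245) (nat_lit 225))) (XT.nd (nat_lit 78) (nat_lit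 0) (nat_lit 0) (XT.lf (nat_lit 0) (nat_lit 270395779355) (nat_lit 152) (nat_lit 711281331575) (nat_lit 0) (nat_lit 269617272422) (nat_lit 1) (nat_lit 5) (nat_lit 3) (nat_lit 4) (nat_lit 1) (nat_lit 4) (nat_lit 311) (nat_lit 245) (nat_lit 224)) (XT.nd (nat_lit 78) (nat_lit 0) (nat_lit 0) (XT.lf (nat_lit 0) (nat_lit 312336678314) (nat_lit 152) (nat_lit 814872991272) (nat_lit 0) (nat_lit 311552473528) (nat_lit 1) (nat_lit 5) (nat_lit 3) (nat_lit 4) (nat_lit 1) (nat_lit 4) (nat_lit 312) (nat_lit 245) (nat_lit 223)) (XT.lf (nat_lit 0) (nat_lit 360550976467) (nat_lit 152) (nat_lit 934039941572) (nat_lit 0) (nat_lit 359761817028) (nat_lit 1) (nat_lit 5) (nat_lit 3) (nat_lit 4) (nat_lit 1) (nat_lit 4) (nat_lit 313) (nat_lit 245) (nat_lit 222)))))) (XT.nd (nat_lit 390) (nat_lit 0) (nat_lit 0) (XT.nd (nat_lit 156) (nat_lit 0) (nat_lit 0) (XT.nd (nat_lit 78) (nat_lit 0) (nat_lit 0) (XT.lf (nat_lit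 0) (nat_lit 415981997040) (nat_lit 152) (nat_lit 1071113709766) (nat_lit 0) (nat_lit 415188529206) (nat_lit 1) (nat_lit 5) (nat_lit 3) (nat_lit 4) (nat_lit 1) (nat_lit 4) (nat_lit 314) (nat_lit 245) (nat_lit 221)) (XT.lf (nat_lit 0) (nat_lit 479714260001) (nat_lit 152) (nat_lit 1228776173926) (nat_lit 0) (nat_lit 478917045735) (nat_lit 1) (nat_lit 5) (nat_lit 3) (nat_lit 4) (nat_lit 1) (nat_lit 4) (nat_lit 315) (nat_lit 245) (nat_lit 220))) (XT.nd (nat_lit 78) (nat_lit 0) (nat_lit 0) (XT.lf (nat_lit 0) (nat_lit 552994700928) (nat_lit 152) (nat_lit 1410112034438) (nat_lit 0) (nat_lit 552194228897) (nat_lit 1) (nat_lit 5) (nat_lit 3) (nat_lit 4) (nat_lit 1) (nat_lit 4) (nat_lit 316) (nat_lit 245) (nat_lit 219)) (XT.nd (nat_lit 78) (nat_lit 0) (nat_lit 0) (XT.lf (nat_lit 0) (nat_lit 637257067579) (nat_lit 152) (nat_lit 1618669166834) (nat_lit 0) (nat_lit 636453762708) (nat_lit 1) (nat_lit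 5) (nat_lit 3) (nat_lit 4) (nat_lit 1) (nat_lit 4) (nat_lit 317) (nat_lit 245) (nat_lit 218)) (XT.lf (nat_lit 0) (nat_lit 734149971475) (nat_lit 152) (nat_lit 1858528036748) (nat_lit 0) (nat_lit 733344203266) (nat_lit 1) (nat_lit 5) (nat_lit 3) (nat_lit 4) (nat_lit 1) (nat_lit 4) (nat_lit 318) (nat_lit 245) (nat_lit 217))))) (XT.nd (nat_lit 156) (nat_lit 0) (nat_lit 0) (XT.nd (nat_lit 78) (nat_lit 0) (nat_lit 0) (XT.lf (nat_lit 0) (nat_lit 845569143346) (nat_lit 152) (nat_lit 2134381535113) (nat_lit 0) (nat_lit 844761233102) (nat_lit 1) (nat_lit 5) (nat_lit 3) (nat_lit 4) (nat_lit 1) (nat_lit 4) (nat_lit 319) (nat_lit 245) (nat_lit 216)) (XT.lf (nat_lit 0) (nat_lit 973694523509) (nat_lit 152) (nat_lit 2451626795592) (nat_lit 0) (nat_lit 972884750628) (nat_lit 1) (nat_lit 5) (nat_lit 3) (nat_lit 4) (nat_lit 1) (nat_lit 4) (nat_lit 320) (nat_lit 245) (nat_lit 215))) (XT.nd (nat_lit 78)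 (nat_lit 0) (nat_lit 0) (XT.lf (nat_lit 0) (nat_lit 1121032912882) (nat_lit 152) (nat_lit 2816470790673) (nat_lit 0) (nat_lit 1120221520315) (nat_lit 1) (nat_lit 5) (nat_lit 3) (nat_lit 4) (nat_lit 1) (nat_lit 4) (nat_lit 321) (nat_lit 245) (nat_lit 214)) (XT.nd (nat_lit 78) (nat_lit 0) (nat_lit 0) (XT.lf (nat_lit 0) (nat_lit 1290467019083) (nat_lit 152) (nat_lit 3236051772434) (nat_lit 0) (nat_lit 1289654218094) (nat_lit 1) (nat_lit 5) (nat_lit 3) (nat_lit 4) (nat_lit 1) (nat_lit 4) (nat_lit 322) (nat_lit 245) (nat_lit 213)) (XT.lf (nat_lit 0) (nat_lit 1485311857232) (nat_lit 152) (nat_lit 3718578933996) (nat_lit 0) (nat_lit 1484497831528) (nat_lit 1) (nat_lit 5) (nat_lit 3) (nat_lit 4) (nat_lit 1) (nat_lit 4) (nat_lit 323) (nat_lit 245) (nat_lit 212))))))) (XT.nd (nat_lit 780) (nat_lit 0) (nat_lit 0) (XT.nd (nat_lit 390) (nat_lit 0) (nat_lit 0) (XT.nd (nat_lit 156) (nat_lit 0) (nat_lit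 0) (XT.nd (nat_lit 78) (nat_lit 0) (nat_lit 0) (XT.lf (nat_lit 0) (nat_lit 1709379608946) (nat_lit 152) (nat_lit 4273493024173) (nat_lit 0) (nat_lit 1708564518273) (nat_lit 1) (nat_lit 5) (nat_lit 3) (nat_lit 4) (nat_lit 1) (nat_lit 4) (nat_lit 324) (nat_lit 245) (nat_lit 211)) (XT.lf (nat_lit 0) (nat_lit 1967054208498) (nat_lit 152) (nat_lit 4911651057772) (nat_lit 0) (nat_lit 1966238191764) (nat_lit 1) (nat_lit 5) (nat_lit 3) (nat_lit 4) (nat_lit 1) (nat_lit 4) (nat_lit 325) (nat_lit 245) (nat_lit 210))) (XT.nd (nat_lit 78) (nat_lit 0) (nat_lit 0) (XT.lf (nat_lit 0) (nat_lit 2263377115443) (nat_lit 152) (nat_lit 5645538735450) (nat_lit 0) (nat_lit 2262560293440) (nat_lit 1) (nat_lit 5) (nat_lit 3) (nat_lit 4) (nat_lit 1) (nat_lit 4) (nat_lit 326) (nat_lit 245) (nat_lit 209)) (XT.nd (nat_lit 78) (nat_lit 0) (nat_lit 0) (XT.lf (nat_lit 0) (nat_lit 2604145951875) (nat_lit 152) (nat_lit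 6489514729163) (nat_lit 0) (nat_lit 2603328429637) (nat_lit 1) (nat_lit 5) (nat_lit 3) (nat_lit 4) (nat_lit 1) (nat_lit 4) (nat_lit 327) (nat_lit 245) (nat_lit 208)) (XT.lf (nat_lit 0) (nat_lit 2996027934158) (nat_lit 152) (nat_lit 7460091612699) (nat_lit 0) (nat_lit 2995209803020) (nat_lit 1) (nat_lit 5) (nat_lit 3) (nat_lit 4) (nat_lit 1) (nat_lit 4) (nat_lit 328) (nat_lit 245) (nat_lit 207))))) (XT.nd (nat_lit 156) (nat_lit 0) (nat_lit 0) (XT.nd (nat_lit 78) (nat_lit 0) (nat_lit 0) (XT.lf (nat_lit 0) (nat_lit 3446690318468) (nat_lit 152) (nat_lit 8576258933781) (nat_lit 0) (nat_lit 3445871657852) (nat_lit 1) (nat_lit 5) (nat_lit 3) (nat_lit 4) (nat_lit 1) (nat_lit 4) (nat_lit 329) (nat_lit 245) (nat_lit 206)) (XT.lf (nat_lit 0) (nat_lit 3964950412323) (nat_lit 152) (nat_lit 9859854748691) (nat_lit 0) (nat_lit 3964131291291) (nat_lit 1) (nat_lit 5) (nat_lit 3) (nat_lit 4) (nat_lit 1)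 (nat_lit 4) (nat_lit 330) (nat_lit 245) (nat_lit 205))) (XT.nd (nat_lit 78) (nat_lit 0) (nat_lit 0) (XT.lf (nat_lit 0) (nat_lit 4560948087125) (nat_lit 152) (nat_lit 11335992888589) (nat_lit 0) (nat_lit 4560128565732) (nat_lit 1) (nat_lit 5) (nat_lit 3) (nat_lit 4) (nat_lit 1) (nat_lit 4) (nat_lit 331) (nat_lit 245) (nat_lit 204)) (XT.nd (nat_lit 78) (nat_lit 0) (nat_lit 0) (XT.lf (nat_lit 0) (nat_lit 5246344166946) (nat_lit 152) (nat_lit 13033554317083) (nat_lit 0) (nat_lit 5245524297413) (nat_lit 1) (nat_lit 5) (nat_lit 3) (nat_lit 4) (nat_lit 1) (nat_lit 4) (nat_lit 332) (nat_lit 245) (nat_lit 203)) (XT.lf (nat_lit 0) (nat_lit 6034548575087) (nat_lit 152) (nat_lit 14985752192557) (nat_lit 0) (nat_lit 6033728402823) (nat_lit 1) (nat_lit 5) (nat_lit 3) (nat_lit 4) (nat_lit 1) (nat_lit 4) (nat_lit 333) (nat_lit 245) (nat_lit 202)))))) (XT.nd (nat_lit 390) (nat_lit 0) (nat_lit 0) (XT.nd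 (nat_lit 156) (nat_lit 0) (nat_lit 0) (XT.nd (nat_lit 78) (nat_lit 0) (nat_lit 0) (XT.lf (nat_lit 0) (nat_lit 6940982702143) (nat_lit 152) (nat_lit 17230781690833) (nat_lit 0) (nat_lit 6940162266634) (nat_lit 1) (nat_lit 5) (nat_lit 3) (nat_lit 4) (nat_lit 1) (nat_lit 4) (nat_lit 334) (nat_lit 245) (nat_lit 201)) (XT.lf (nat_lit 0) (nat_lit 7983381128859) (nat_lit 152) (nat_lit 19812567302097) (nat_lit 0) (nat_lit 7982560464443) (nat_lit 1) (nat_lit 5) (nat_lit 3) (nat_lit 4) (nat_lit 1) (nat_lit 4) (nat_lit 335) (nat_lit 245) (nat_lit 200))) (XT.nd (nat_lit 78) (nat_lit 0) (nat_lit 0) (XT.lf (nat_lit 0) (nat_lit 9182138607063) (nat_lit 152) (nat_lit 22781622223091) (nat_lit 0) (nat_lit 9181317743597) (nat_lit 1) (nat_lit 5) (nat_lit 3) (nat_lit 4) (nat_lit 1) (nat_lit 4) (nat_lit 336) (nat_lit 245) (nat_lit 199)) (XT.nd (nat_lit 78) (nat_lit 0) (nat_lit 0) (XT.lf (nat_lit 0) (nat_lit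 10560709087416) (nat_lit 152) (nat_lit 26196036658789) (nat_lit 0) (nat_lit 10559888050862) (nat_lit 1) (nat_lit 5) (nat_lit 3) (nat_lit 4) (nat_lit 1) (nat_lit 4) (nat_lit 337) (nat_lit 245) (nat_lit 198)) (XT.lf (nat_lit 0) (nat_lit 12146064601054) (nat_lit 152) (nat_lit 30122614369892) (nat_lit 0) (nat_lit 12145243413990) (nat_lit 1) (nat_lit 5) (nat_lit 3) (nat_lit 4) (nat_lit 1) (nat_lit 4) (nat_lit 338) (nat_lit 245) (nat_lit 197))))) (XT.nd (nat_lit 156) (nat_lit 0) (nat_lit 0) (XT.nd (nat_lit 78) (nat_lit 0) (nat_lit 0) (XT.lf (nat_lit 0) (nat_lit 13969222973245) (nat_lit 152) (nat_lit 34638179702920) (nat_lit 0) (nat_lit 13968401655302) (nat_lit 1) (nat_lit 5) (nat_lit 3) (nat_lit 4) (nat_lit 1) (nat_lit 4) (nat_lit 339) (nat_lit 245) (nat_lit 196)) (XT.lf (nat_lit 0) (nat_lit 16065854693880) (nat_lit 152) (nat_lit 39831080675258) (nat_lit 0) (nat_lit 16065033262129) (nat_lit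 1) (nat_lit 5) (nat_lit 3) (nat_lit 4) (nat_lit 1) (nat_lit 4) (nat_lit 340) (nat_lit 245) (nat_lit 195))) (XT.nd (nat_lit 78) (nat_lit 0) (nat_lit 0) (XT.lf (nat_lit 0) (nat_lit 18476980818361) (nat_lit 152) (nat_lit 45802917523323) (nat_lit 0) (nat_lit 18476159287647) (nat_lit 1) (nat_lit 5) (nat_lit 3) (nat_lit 4) (nat_lit 1) (nat_lit 4) (nat_lit 341) (nat_lit 245) (nat_lit 194)) (XT.nd (nat_lit 78) (nat_lit 0) (nat_lit 0) (XT.lf (nat_lit 0) (nat_lit 21249775553473) (nat_lit 152) (nat_lit 52670530533272) (nat_lit 0) (nat_lit 21248953936704) (nat_lit 1) (nat_lit 5) (nat_lit 3) (nat_lit 4) (nat_lit 1) (nat_lit 4) (nat_lit 342) (nat_lit 245) (nat_lit 193)) (XT.lf (nat_lit 0) (nat_lit 24438489230989) (nat_lit 152) (nat_lit 60568286046603) (nat_lit 0) (nat_lit 24437667539390) (nat_lit 1) (nat_lit 5) (nat_lit 3) (nat_lit 4) (nat_lit 1) (nat_lit 4) (nat_lit 343) (nat_lit 245) (nat_lit 192))))))))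
noncomputable def xc22 : XT := (XT.nd (nat_lit 37596) (nat_lit 0) (nat_lit 0) (XT.nd (nat_lit 36816) (nat_lit 0) (nat_lit 0) (XT.nd (nat_lit 36426) (nat_lit 0) (nat_lit 0) (XT.nd (nat_lit 36270) (nat_lit 0) (nat_lit 152) (XT.nd (nat_lit 78) (nat_lit 0) (nat_lit 0) (XT.lf (nat_lit 0) (nat_lit 28105509727209) (nat_lit 152) (nat_lit 69650705366838) (nat_lit 0) (nat_lit 28104687970539) (nat_lit 1) (nat_lit 5) (nat_lit 3) (nat_lit 4) (nat_lit 1) (nat_lit 4) (nat_lit 344) (nat_lit 245) (nat_lit 191)) (XT.lf (nat_lit 0) (nat_lit 32322583095319) (nat_lit 152) (nat_lit 80095488002418) (nat_lit 0) (nat_lit 32321761282067) (nat_lit 1) (nat_lit 5) (nat_lit 3) (nat_lit 4) (nat_lit 1) (nat_lit 4) (nat_lit 345) (nat_lit 245) (nat_lit 190))) (XT.nd (nat_lit 78) (nat_lit 0) (nat_lit 0) (XT.lf (nat_lit 0) (nat_lit 18145583502) (nat_lit 76) (nat_lit 4213370727) (nat_lit 76) (nat_lit 4213370727) (nat_lit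 3) (nat_lit 4) (nat_lit 4) (nat_lit 5) (nat_lit 4) (nat_lit 4) (nat_lit 288) (nat_lit 246) (nat_lit 246)) (XT.lf (nat_lit 0) (nat_lit 49400718004) (nat_lit 76) (nat_lit 5643914056) (nat_lit 76) (nat_lit 5502086200) (nat_lit 3) (nat_lit 4) (nat_lit 4) (nat_lit 5) (nat_lit 4) (nat_lit 4) (nat_lit 289) (nat_lit 246) (nat_lit 245)))) (XT.nd (nat_lit 156) (nat_lit 0) (nat_lit 0) (XT.nd (nat_lit 78) (nat_lit 152) (nat_lit 0) (XT.lf (nat_lit 0) (nat_lit 63825253698) (nat_lit 76) (nat_lit 2773703402) (nat_lit 76) (nat_lit 2508546976) (nat_lit 3) (nat_lit 4) (nat_lit 4) (nat_lit 5) (nat_lit 4) (nat_lit 4) (nat_lit 290) (nat_lit 246) (nat_lit 244)) (XT.lf (nat_lit 0) (nat_lit 608456026) (nat_lit 152) (nat_lit 78090029657) (nat_lit 0) (nat_lit 284631104) (nat_lit 1) (nat_lit 5) (nat_lit 3) (nat_lit 4) (nat_lit 1) (nat_lit 4) (nat_lit 291) (nat_lit 246) (nat_lit 243))) (XT.nd (nat_lit 78) (nat_lit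 0) (nat_lit 0) (XT.lf (nat_lit 0) (nat_lit 4067258093) (nat_lit 152) (nat_lit 82573020054) (nat_lit 0) (nat_lit 3662342633) (nat_lit 1) (nat_lit 5) (nat_lit 3) (nat_lit 4) (nat_lit 1) (nat_lit 4) (nat_lit 292) (nat_lit 246) (nat_lit 242)) (XT.nd (nat_lit 78) (nat_lit 0) (nat_lit 0) (XT.lf (nat_lit 0) (nat_lit 7792470760) (nat_lit 152) (nat_lit 88248511431) (nat_lit 0) (nat_lit 7317041790) (nat_lit 1) (nat_lit 5) (nat_lit 3) (nat_lit 4) (nat_lit 1) (nat_lit 4) (nat_lit 293) (nat_lit 246) (nat_lit 241)) (XT.lf (nat_lit 0) (nat_lit 11856978623) (nat_lit 152) (nat_lit 95227546009) (nat_lit 0) (nat_lit 11320233557) (nat_lit 1) (nat_lit 5) (nat_lit 3) (nat_lit 4) (nat_lit 1) (nat_lit 4) (nat_lit 294) (nat_lit 246) (nat_lit 240)))))) (XT.nd (nat_lit 390) (nat_lit 0) (nat_lit 0) (XT.nd (nat_lit 156) (nat_lit 0) (nat_lit 0) (XT.nd (nat_lit 78) (nat_lit 0) (nat_lit 0) (XT.lf (nat_lit 0) (nat_lit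 16340304662) (nat_lit 152) (nat_lit 103646670119) (nat_lit 0) (nat_lit 15750241252) (nat_lit 1) (nat_lit 5) (nat_lit 3) (nat_lit 4) (nat_lit 1) (nat_lit 4) (nat_lit 295) (nat_lit 246) (nat_lit 239)) (XT.lf (nat_lit 0) (nat_lit 21330166126) (nat_lit 152) (nat_lit 113670605753) (nat_lit 0) (nat_lit 20693738938) (nat_lit 1) (nat_lit 5) (nat_lit 3) (nat_lit 4) (nat_lit 1) (nat_lit 4) (nat_lit 296) (nat_lit 246) (nat_lit 238))) (XT.nd (nat_lit 78) (nat_lit 0) (nat_lit 0) (XT.lf (nat_lit 0) (nat_lit 26924190740) (nat_lit 152) (nat_lit 125495473391) (nat_lit 0) (nat_lit 26247447223) (nat_lit 1) (nat_lit 5) (nat_lit 3) (nat_lit 4) (nat_lit 1) (nat_lit 4) (nat_lit 297) (nat_lit 246) (nat_lit 237)) (XT.nd (nat_lit 78) (nat_lit 0) (nat_lit 0) (XT.lf (nat_lit 0) (nat_lit 33231826810) (nat_lit 152) (nat_lit 139352629139) (nat_lit 0) (nat_lit 32520025616) (nat_lit 1) (nat_lit 5) (nat_lit 3) (nat_lit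 4) (nat_lit 1) (nat_lit 4) (nat_lit 298) (nat_lit 246) (nat_lit 236)) (XT.lf (nat_lit 0) (nat_lit 40376484607) (nat_lit 152) (nat_lit 155513191262) (nat_lit 0) (nat_lit 39634198477) (nat_lit 1) (nat_lit 5) (nat_lit 3) (nat_lit 4) (nat_lit 1) (nat_lit 4) (nat_lit 299) (nat_lit 246) (nat_lit 235))))) (XT.nd (nat_lit 156) (nat_lit 0) (nat_lit 0) (XT.nd (nat_lit 78) (nat_lit 0) (nat_lit 0) (XT.lf (nat_lit 0) (nat_lit 48497950915) (nat_lit 152) (nat_lit 174293344671) (nat_lit 0) (nat_lit 47729156145) (nat_lit 1) (nat_lit 5) (nat_lit 3) (nat_lit 4) (nat_lit 1) (nat_lit 4) (nat_lit 300) (nat_lit 246) (nat_lit 234)) (XT.lf (nat_lit 0) (nat_lit 57755123988) (nat_lit 152) (nat_lit 196060527150) (nat_lit 0) (nat_lit 56963278226) (nat_lit 1) (nat_lit 5) (nat_lit 3) (nat_lit 4) (nat_lit 1) (nat_lit 4) (nat_lit 301) (nat_lit 246) (nat_lit 233))) (XT.nd (nat_lit 78) (nat_lit 0) (nat_lit 0) (XT.lf (nat_lit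 0) (nat_lit 68329122429) (nat_lit 152) (nat_lit 221240618356) (nat_lit 0) (nat_lit 67517232326) (nat_lit 1) (nat_lit 5) (nat_lit 3) (nat_lit 4) (nat_lit 1) (nat_lit 4) (nat_lit 302) (nat_lit 246) (nat_lit 232)) (XT.nd (nat_lit 78) (nat_lit 0) (nat_lit 0) (XT.lf (nat_lit 0) (nat_lit 80426828816) (nat_lit 152) (nat_lit 250326272248) (nat_lit 0) (nat_lit 79597508852) (nat_lit 1) (nat_lit 5) (nat_lit 3) (nat_lit 4) (nat_lit 1) (nat_lit 4) (nat_lit 303) (nat_lit 246) (nat_lit 231)) (XT.lf (nat_lit 0) (nat_lit 94284937404) (nat_lit 152) (nat_lit 283886555966) (nat_lit 0) (nat_lit 93440461039) (nat_lit 1) (nat_lit 5) (nat_lit 3) (nat_lit 4) (nat_lit 1) (nat_lit 4) (nat_lit 304) (nat_lit 246) (nat_lit 230))))))) (XT.nd (nat_lit 780) (nat_lit 0) (nat_lit 0) (XT.nd (nat_lit 390) (nat_lit 0) (nat_lit 0) (XT.nd (nat_lit 156) (nat_lit 0) (nat_lit 0) (XT.nd (nat_lit 78) (nat_lit 0) (nat_lit 0) (XT.lf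 (nat_lit 0) (nat_lit 110174585102) (nat_lit 152) (nat_lit 322578083758) (nat_lit 0) (nat_lit 109316929257) (nat_lit 1) (nat_lit 5) (nat_lit 3) (nat_lit 4) (nat_lit 1) (nat_lit 4) (nat_lit 305) (nat_lit 246) (nat_lit 229)) (XT.lf (nat_lit 0) (nat_lit 128406656319) (nat_lit 152) (nat_lit 367157863776) (nat_lit 0) (nat_lit 127537540058) (nat_lit 1) (nat_lit 5) (nat_lit 3) (nat_lit 4) (nat_lit 1) (nat_lit 4) (nat_lit 306) (nat_lit 246) (nat_lit 228))) (XT.nd (nat_lit 78) (nat_lit 0) (nat_lit 0) (XT.lf (nat_lit 0) (nat_lit 149337865494) (nat_lit 152) (nat_lit 418498109108) (nat_lit 0) (nat_lit 148458783654) (nat_lit 1) (nat_lit 5) (nat_lit 3) (nat_lit 4) (nat_lit 1) (nat_lit 4) (nat_lit 307) (nat_lit 246) (nat_lit 227)) (XT.nd (nat_lit 78) (nat_lit 0) (nat_lit 0) (XT.lf (nat_lit 0) (nat_lit 173377736284) (nat_lit 152) (nat_lit 477603302813) (nat_lit 0) (nat_lit 172489988722) (nat_lit 1) (nat_lit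 5) (nat_lit 3) (nat_lit 4) (nat_lit 1) (nat_lit 4) (nat_lit 308) (nat_lit 246) (nat_lit 226)) (XT.lf (nat_lit 0) (nat_lit 200996613987) (nat_lit 152) (nat_lit 545629850857) (nat_lit 0) (nat_lit 200101331015) (nat_lit 1) (nat_lit 5) (nat_lit 3) (nat_lit 4) (nat_lit 1) (nat_lit 4) (nat_lit 309) (nat_lit 246) (nat_lit 225))))) (XT.nd (nat_lit 156) (nat_lit 0) (nat_lit 0) (XT.nd (nat_lit 78) (nat_lit 0) (nat_lit 0) (XT.lf (nat_lit 0) (nat_lit 232734867949) (nat_lit 152) (nat_lit 623908707439) (nat_lit 0) (nat_lit 231833032447) (nat_lit 1) (nat_lit 5) (nat_lit 3) (nat_lit 4) (nat_lit 1) (nat_lit 4) (nat_lit 310) (nat_lit 246) (nat_lit 224)) (XT.lf (nat_lit 0) (nat_lit 269213464010) (nat_lit 152) (nat_lit 713971415406) (nat_lit 0) (nat_lit 268305930654) (nat_lit 1) (nat_lit 5) (nat_lit 3) (nat_lit 4) (nat_lit 1) (nat_lit 4) (nat_lit 311) (nat_lit 246) (nat_lit 223))) (XT.nd (nat_lit 78) (nat_lit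 0) (nat_lit 0) (XT.lf (nat_lit 0) (nat_lit 311146113829) (nat_lit 152) (nat_lit 817580071219) (nat_lit 0) (nat_lit 310233625819) (nat_lit 1) (nat_lit 5) (nat_lit 3) (nat_lit 4) (nat_lit 1) (nat_lit 4) (nat_lit 312) (nat_lit 246) (nat_lit 222)) (XT.nd (nat_lit 78) (nat_lit 0) (nat_lit 0) (XT.lf (nat_lit 0) (nat_lit 359353238819) (nat_lit 152) (nat_lit 936761800751) (nat_lit 0) (nat_lit 358436442414) (nat_lit 1) (nat_lit 5) (nat_lit 3) (nat_lit 4) (nat_lit 1) (nat_lit 4) (nat_lit 313) (nat_lit 246) (nat_lit 221)) (XT.lf (nat_lit 0) (nat_lit 414778021857) (nat_lit 152) (nat_lit 1073848420450) (nat_lit 0) (nat_lit 413857479022) (nat_lit 1) (nat_lit 5) (nat_lit 3) (nat_lit 4) (nat_lit 1) (nat_lit 4) (nat_lit 314) (nat_lit 246) (nat_lit 220)))))) (XT.nd (nat_lit 390) (nat_lit 0) (nat_lit 0) (XT.nd (nat_lit 156) (nat_lit 0) (nat_lit 0) (XT.nd (nat_lit 78) (nat_lit 0) (nat_lit 0) (XT.lf (nat_lit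 0) (nat_lit 478504860875) (nat_lit 152) (nat_lit 1231522059833) (nat_lit 0) (nat_lit 477581060273) (nat_lit 1) (nat_lit 5) (nat_lit 3) (nat_lit 4) (nat_lit 1) (nat_lit 4) (nat_lit 315) (nat_lit 246) (nat_lit 219)) (XT.lf (nat_lit 0) (nat_lit 551780585330) (nat_lit 152) (nat_lit 1412867637930) (nat_lit 0) (nat_lit 550853951889) (nat_lit 1) (nat_lit 5) (nat_lit 3) (nat_lit 4) (nat_lit 1) (nat_lit 4) (nat_lit 316) (nat_lit 246) (nat_lit 218))) (XT.nd (nat_lit 78) (nat_lit 0) (nat_lit 0) (XT.lf (nat_lit 0) (nat_lit 636038850701) (nat_lit 152) (nat_lit 1621433220400) (nat_lit 0) (nat_lit 635109753921) (nat_lit 1) (nat_lit 5) (nat_lit 3) (nat_lit 4) (nat_lit 1) (nat_lit 4) (nat_lit 317) (nat_lit 246) (nat_lit 217)) (XT.nd (nat_lit 78) (nat_lit 0) (nat_lit 0) (XT.lf (nat_lit 0) (nat_lit 732928188267) (nat_lit 152) (nat_lit 1861299438203) (nat_lit 0) (nat_lit 731996949453) (nat_lit 1) (nat_lit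 5) (nat_lit 3) (nat_lit 4) (nat_lit 1) (nat_lit 4) (nat_lit 318) (nat_lit 246) (nat_lit 216)) (XT.lf (nat_lit 0) (nat_lit 844344258980) (nat_lit 152) (nat_lit 2137159326038) (nat_lit 0) (nat_lit 843411157528) (nat_lit 1) (nat_lit 5) (nat_lit 3) (nat_lit 4) (nat_lit 1) (nat_lit 4) (nat_lit 319) (nat_lit 246) (nat_lit 215))))) (XT.nd (nat_lit 156) (nat_lit 0) (nat_lit 0) (XT.nd (nat_lit 78) (nat_lit 0) (nat_lit 0) (XT.lf (nat_lit 0) (nat_lit 972466942486) (nat_lit 152) (nat_lit 2454410142577) (nat_lit 0) (nat_lit 971532221348) (nat_lit 1) (nat_lit 5) (nat_lit 3) (nat_lit 4) (nat_lit 1) (nat_lit 4) (nat_lit 320) (nat_lit 246) (nat_lit 214)) (XT.lf (nat_lit 0) (nat_lit 1119802986938) (nat_lit 152) (nat_lit 2819258969016) (nat_lit 0) (nat_lit 1118866857379) (nat_lit 1) (nat_lit 5) (nat_lit 3) (nat_lit 4) (nat_lit 1) (nat_lit 4) (nat_lit 321) (nat_lit 246) (nat_lit 213))) (XT.nd (nat_lit 78)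 (nat_lit 0) (nat_lit 0) (XT.lf (nat_lit 0) (nat_lit 1289235054078) (nat_lit 152) (nat_lit 3238844151957) (nat_lit 0) (nat_lit 1288297699804) (nat_lit 1) (nat_lit 5) (nat_lit 3) (nat_lit 4) (nat_lit 1) (nat_lit 4) (nat_lit 322) (nat_lit 246) (nat_lit 212)) (XT.nd (nat_lit 78) (nat_lit 0) (nat_lit 0) (XT.lf (nat_lit 0) (nat_lit 1484078119131) (nat_lit 152) (nat_lit 3721374966719) (nat_lit 0) (nat_lit 1483139699887) (nat_lit 1) (nat_lit 5) (nat_lit 3) (nat_lit 4) (nat_lit 1) (nat_lit 4) (nat_lit 323) (nat_lit 246) (nat_lit 211)) (XT.lf (nat_lit 0) (nat_lit 1708144329022) (nat_lit 152) (nat_lit 4276292233591) (nat_lit 0) (nat_lit 1707204983718) (nat_lit 1) (nat_lit 5) (nat_lit 3) (nat_lit 4) (nat_lit 1) (nat_lit 4) (nat_lit 324) (nat_lit 246) (nat_lit 210))))))))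
noncomputable def xc23 : XT := (XT.nd (nat_lit 1482) (nat_lit 0) (nat_lit 0) (XT.nd (nat_lit 702) (nat_lit 0) (nat_lit 0) (XT.nd (nat_lit 312) (nat_lit 0) (nat_lit 0) (XT.nd (nat_lit 156) (nat_lit 0) (nat_lit 0) (XT.nd (nat_lit 78) (nat_lit 0) (nat_lit 0) (XT.lf (nat_lit 0) (nat_lit 1965817587857) (nat_lit 152) (nat_lit 4914453029534) (nat_lit 0) (nat_lit 1964877437284) (nat_lit 1) (nat_lit 5) (nat_lit 3) (nat_lit 4) (nat_lit 1) (nat_lit 4) (nat_lit 325) (nat_lit 246) (nat_lit 209)) (XT.lf (nat_lit 0) (nat_lit 2262139328963) (nat_lit 152) (nat_lit 5648343109251) (nat_lit 0) (nat_lit 2261198478155) (nat_lit 1) (nat_lit 5) (nat_lit 3) (nat_lit 4) (nat_lit 1) (nat_lit 4) (nat_lit 326) (nat_lit 246) (nat_lit 208))) (XT.nd (nat_lit 78) (nat_lit 0) (nat_lit 0) (XT.lf (nat_lit 0) (nat_lit 2602907151621) (nat_lit 152) (nat_lit 6492321191692) (nat_lit 0) (nat_lit 2601965691913) (nat_lit 1) (nat_lit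 5) (nat_lit 3) (nat_lit 4) (nat_lit 1) (nat_lit 4) (nat_lit 327) (nat_lit 246) (nat_lit 207)) (XT.lf (nat_lit 0) (nat_lit 2994788252362) (nat_lit 152) (nat_lit 7462899891515) (nat_lit 0) (nat_lit 2993846263176) (nat_lit 1) (nat_lit 5) (nat_lit 3) (nat_lit 4) (nat_lit 1) (nat_lit 4) (nat_lit 328) (nat_lit 246) (nat_lit 206)))) (XT.nd (nat_lit 156) (nat_lit 0) (nat_lit 0) (XT.nd (nat_lit 78) (nat_lit 0) (nat_lit 0) (XT.lf (nat_lit 0) (nat_lit 3445449870113) (nat_lit 152) (nat_lit 8579068791976) (nat_lit 0) (nat_lit 3444507420511) (nat_lit 1) (nat_lit 5) (nat_lit 3) (nat_lit 4) (nat_lit 1) (nat_lit 4) (nat_lit 329) (nat_lit 246) (nat_lit 205)) (XT.lf (nat_lit 0) (nat_lit 3963709297395) (nat_lit 152) (nat_lit 9862665980259) (nat_lit 0) (nat_lit 3962766447432) (nat_lit 1) (nat_lit 5) (nat_lit 3) (nat_lit 4) (nat_lit 1) (nat_lit 4) (nat_lit 330) (nat_lit 246) (nat_lit 204))) (XT.nd (nat_lit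 78) (nat_lit 0) (nat_lit 0) (XT.lf (nat_lit 0) (nat_lit 4559706392569) (nat_lit 152) (nat_lit 11338805314395) (nat_lit 0) (nat_lit 4558763194465) (nat_lit 1) (nat_lit 5) (nat_lit 3) (nat_lit 4) (nat_lit 1) (nat_lit 4) (nat_lit 331) (nat_lit 246) (nat_lit 203)) (XT.nd (nat_lit 78) (nat_lit 0) (nat_lit 0) (XT.lf (nat_lit 0) (nat_lit 5245101968365) (nat_lit 152) (nat_lit 13036367781356) (nat_lit 0) (nat_lit 5244158467531) (nat_lit 1) (nat_lit 5) (nat_lit 3) (nat_lit 4) (nat_lit 1) (nat_lit 4) (nat_lit 332) (nat_lit 246) (nat_lit 202)) (XT.lf (nat_lit 0) (nat_lit 6033305938224) (nat_lit 152) (nat_lit 14988566559845) (nat_lit 0) (nat_lit 6032362174146) (nat_lit 1) (nat_lit 5) (nat_lit 3) (nat_lit 4) (nat_lit 1) (nat_lit 4) (nat_lit 333) (nat_lit 246) (nat_lit 201)))))) (XT.nd (nat_lit 390) (nat_lit 0) (nat_lit 0) (XT.nd (nat_lit 156) (nat_lit 0) (nat_lit 0) (XT.nd (nat_lit 78) (nat_lit 0)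 (nat_lit 0) (XT.lf (nat_lit 0) (nat_lit 6939739684165) (nat_lit 152) (nat_lit 17233596843352) (nat_lit 0) (nat_lit 6938795691178) (nat_lit 1) (nat_lit 5) (nat_lit 3) (nat_lit 4) (nat_lit 1) (nat_lit 4) (nat_lit 334) (nat_lit 246) (nat_lit 200)) (XT.lf (nat_lit 0) (nat_lit 7982137779476) (nat_lit 152) (nat_lit 19815383137425) (nat_lit 0) (nat_lit 7981193587440) (nat_lit 1) (nat_lit 5) (nat_lit 3) (nat_lit 4) (nat_lit 1) (nat_lit 4) (nat_lit 335) (nat_lit 246) (nat_lit 199))) (XT.nd (nat_lit 78) (nat_lit 0) (nat_lit 0) (XT.lf (nat_lit 0) (nat_lit 9180894969503) (nat_lit 152) (nat_lit 22784438652166) (nat_lit 0) (nat_lit 9179950604379) (nat_lit 1) (nat_lit 5) (nat_lit 3) (nat_lit 4) (nat_lit 1) (nat_lit 4) (nat_lit 336) (nat_lit 246) (nat_lit 198)) (XT.nd (nat_lit 78) (nat_lit 0) (nat_lit 0) (XT.lf (nat_lit 0) (nat_lit 10559465199266) (nat_lit 152) (nat_lit 26198853604166) (nat_lit 0) (nat_lit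 10558520683631) (nat_lit 1) (nat_lit 5) (nat_lit 3) (nat_lit 4) (nat_lit 1) (nat_lit 4) (nat_lit 337) (nat_lit 246) (nat_lit 197)) (XT.lf (nat_lit 0) (nat_lit 12144820495001) (nat_lit 152) (nat_lit 30125431764227) (nat_lit 0) (nat_lit 12143875848487) (nat_lit 1) (nat_lit 5) (nat_lit 3) (nat_lit 4) (nat_lit 1) (nat_lit 4) (nat_lit 338) (nat_lit 246) (nat_lit 196))))) (XT.nd (nat_lit 156) (nat_lit 0) (nat_lit 0) (XT.nd (nat_lit 78) (nat_lit 0) (nat_lit 0) (XT.lf (nat_lit 0) (nat_lit 13967978677710) (nat_lit 152) (nat_lit 34640997487653) (nat_lit 0) (nat_lit 13967033917389) (nat_lit 1) (nat_lit 5) (nat_lit 3) (nat_lit 4) (nat_lit 1) (nat_lit 4) (nat_lit 339) (nat_lit 246) (nat_lit 195)) (XT.lf (nat_lit 0) (nat_lit 16064610233578) (nat_lit 152) (nat_lit 39833898799469) (nat_lit 0) (nat_lit 16063665374294) (nat_lit 1) (nat_lit 5) (nat_lit 3) (nat_lit 4) (nat_lit 1) (nat_lit 4) (nat_lit 340)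 (nat_lit 246) (nat_lit 194))) (XT.nd (nat_lit 78) (nat_lit 0) (nat_lit 0) (XT.lf (nat_lit 0) (nat_lit 18475736214785) (nat_lit 152) (nat_lit 45805735942731) (nat_lit 0) (nat_lit 18474791269445) (nat_lit 1) (nat_lit 5) (nat_lit 3) (nat_lit 4) (nat_lit 1) (nat_lit 4) (nat_lit 341) (nat_lit 246) (nat_lit 193)) (XT.nd (nat_lit 78) (nat_lit 0) (nat_lit 0) (XT.lf (nat_lit 0) (nat_lit 21248530825309) (nat_lit 152) (nat_lit 52673349209372) (nat_lit 0) (nat_lit 21247585805139) (nat_lit 1) (nat_lit 5) (nat_lit 3) (nat_lit 4) (nat_lit 1) (nat_lit 4) (nat_lit 342) (nat_lit 246) (nat_lit 192)) (XT.lf (nat_lit 0) (nat_lit 24437244394489) (nat_lit 152) (nat_lit 60571104945915) (nat_lit 0) (nat_lit 24436299309249) (nat_lit 1) (nat_lit 5) (nat_lit 3) (nat_lit 4) (nat_lit 1) (nat_lit 4) (nat_lit 343) (nat_lit 246) (nat_lit 191))))))) (XT.nd (nat_lit 36816) (nat_lit 0) (nat_lit 0) (XT.nd (nat_lit 36426)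 (nat_lit 0) (nat_lit 0) (XT.nd (nat_lit 36192) (nat_lit 0) (nat_lit 152) (XT.nd (nat_lit 36114) (nat_lit 0) (nat_lit 152) (XT.lf (nat_lit 0) (nat_lit 28104264796503) (nat_lit 152) (nat_lit 69653524460248) (nat_lit 0) (nat_lit 28103319654680) (nat_lit 1) (nat_lit 5) (nat_lit 3) (nat_lit 4) (nat_lit 1) (nat_lit 4) (nat_lit 344) (nat_lit 246) (nat_lit 190)) (XT.lf (nat_lit 0) (nat_lit 6706240061) (nat_lit 76) (nat_lit 6953738551) (nat_lit 76) (nat_lit 6953738551) (nat_lit 3) (nat_lit 4) (nat_lit 4) (nat_lit 5) (nat_lit 4) (nat_lit 4) (nat_lit 286) (nat_lit 247) (nat_lit 247))) (XT.nd (nat_lit 78) (nat_lit 0) (nat_lit 0) (XT.lf (nat_lit 0) (nat_lit 24240109482) (nat_lit 76) (nat_lit 11339734258) (nat_lit 76) (nat_lit 11176632224) (nat_lit 3) (nat_lit 4) (nat_lit 4) (nat_lit 5) (nat_lit 4) (nat_lit 4) (nat_lit 287) (nat_lit 247) (nat_lit 246)) (XT.nd (nat_lit 78) (nat_lit 0) (nat_lit 0) (XT.lf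 (nat_lit 0) (nat_lit 35942718097) (nat_lit 76) (nat_lit 8766376971) (nat_lit 76) (nat_lit 8461447081) (nat_lit 3) (nat_lit 4) (nat_lit 4) (nat_lit 5) (nat_lit 4) (nat_lit 4) (nat_lit 288) (nat_lit 247) (nat_lit 245)) (XT.lf (nat_lit 0) (nat_lit 48749270048) (nat_lit 76) (nat_lit 6137056946) (nat_lit 76) (nat_lit 5708798486) (nat_lit 3) (nat_lit 4) (nat_lit 4) (nat_lit 5) (nat_lit 4) (nat_lit 4) (nat_lit 289) (nat_lit 247) (nat_lit 244))))) (XT.nd (nat_lit 156) (nat_lit 76) (nat_lit 0) (XT.nd (nat_lit 78) (nat_lit 76) (nat_lit 0) (XT.lf (nat_lit 0) (nat_lit 62910328308) (nat_lit 76) (nat_lit 3400330966) (nat_lit 76) (nat_lit 2864830271) (nat_lit 3) (nat_lit 4) (nat_lit 4) (nat_lit 5) (nat_lit 4) (nat_lit 4) (nat_lit 290) (nat_lit 247) (nat_lit 243)) (XT.lf (nat_lit 0) (nat_lit 114874088) (nat_lit 152) (nat_lit 381775523) (nat_lit 76) (nat_lit 78582078190) (nat_lit 2) (nat_lit 5) (nat_lit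 4) (nat_lit 5) (nat_lit 3) (nat_lit 4) (nat_lit 291) (nat_lit 247) (nat_lit 242))) (XT.nd (nat_lit 78) (nat_lit 0) (nat_lit 0) (XT.lf (nat_lit 0) (nat_lit 3417531301) (nat_lit 152) (nat_lit 84203899908) (nat_lit 0) (nat_lit 2800274475) (nat_lit 1) (nat_lit 5) (nat_lit 3) (nat_lit 4) (nat_lit 1) (nat_lit 4) (nat_lit 292) (nat_lit 247) (nat_lit 241)) (XT.nd (nat_lit 78) (nat_lit 0) (nat_lit 0) (XT.lf (nat_lit 0) (nat_lit 7040657129) (nat_lit 152) (nat_lit 90089725934) (nat_lit 0) (nat_lit 6362084207) (nat_lit 1) (nat_lit 5) (nat_lit 3) (nat_lit 4) (nat_lit 1) (nat_lit 4) (nat_lit 293) (nat_lit 247) (nat_lit 240)) (XT.lf (nat_lit 0) (nat_lit 11016393828) (nat_lit 152) (nat_lit 97251660207) (nat_lit 0) (nat_lit 10284502562) (nat_lit 1) (nat_lit 5) (nat_lit 3) (nat_lit 4) (nat_lit 1) (nat_lit 4) (nat_lit 294) (nat_lit 247) (nat_lit 239)))))) (XT.nd (nat_lit 390) (nat_lit 0) (nat_lit 0) (XT.nd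 (nat_lit 156) (nat_lit 0) (nat_lit 0) (XT.nd (nat_lit 78) (nat_lit 0) (nat_lit 0) (XT.lf (nat_lit 0) (nat_lit 15422527551) (nat_lit 152) (nat_lit 105829827530) (nat_lit 0) (nat_lit 14644272507) (nat_lit 1) (nat_lit 5) (nat_lit 3) (nat_lit 4) (nat_lit 1) (nat_lit 4) (nat_lit 295) (nat_lit 247) (nat_lit 238)) (XT.lf (nat_lit 0) (nat_lit 20345265261) (nat_lit 152) (nat_lit 115992061610) (nat_lit 0) (nat_lit 19526693889) (nat_lit 1) (nat_lit 5) (nat_lit 3) (nat_lit 4) (nat_lit 1) (nat_lit 4) (nat_lit 296) (nat_lit 247) (nat_lit 237))) (XT.nd (nat_lit 78) (nat_lit 0) (nat_lit 0) (XT.lf (nat_lit 0) (nat_lit 25880921393) (nat_lit 152) (nat_lit 127937188767) (nat_lit 0) (nat_lit 25027292343) (nat_lit 1) (nat_lit 5) (nat_lit 3) (nat_lit 4) (nat_lit 1) (nat_lit 4) (nat_lit 297) (nat_lit 247) (nat_lit 236)) (XT.nd (nat_lit 78) (nat_lit 0) (nat_lit 0) (XT.lf (nat_lit 0) (nat_lit 32137802261) (nat_lit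 152) (nat_lit 141898918009) (nat_lit 0) (nat_lit 31253688275) (nat_lit 1) (nat_lit 5) (nat_lit 3) (nat_lit 4) (nat_lit 1) (nat_lit 4) (nat_lit 298) (nat_lit 247) (nat_lit 235)) (XT.lf (nat_lit 0) (nat_lit 39238325101) (nat_lit 152) (nat_lit 158150413605) (nat_lit 0) (nat_lit 38327702475) (nat_lit 1) (nat_lit 5) (nat_lit 3) (nat_lit 4) (nat_lit 1) (nat_lit 4) (nat_lit 299) (nat_lit 247) (nat_lit 234))))) (XT.nd (nat_lit 156) (nat_lit 0) (nat_lit 0) (XT.nd (nat_lit 78) (nat_lit 0) (nat_lit 0) (XT.lf (nat_lit 0) (nat_lit 47321413185) (nat_lit 152) (nat_lit 177009639600) (nat_lit 0) (nat_lit 46387739567) (nat_lit 1) (nat_lit 5) (nat_lit 3) (nat_lit 4) (nat_lit 1) (nat_lit 4) (nat_lit 300) (nat_lit 247) (nat_lit 233)) (XT.lf (nat_lit 0) (nat_lit 56545213889) (nat_lit 152) (nat_lit 198845580849) (nat_lit 0) (nat_lit 55591495931) (nat_lit 1) (nat_lit 5) (nat_lit 3) (nat_lit 4) (nat_lit 1) (nat_lit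 4) (nat_lit 301) (nat_lit 247) (nat_lit 232))) (XT.nd (nat_lit 78) (nat_lit 0) (nat_lit 0) (XT.lf (nat_lit 0) (nat_lit 67090192879) (nat_lit 152) (nat_lit 224085462289) (nat_lit 0) (nat_lit 66119045059) (nat_lit 1) (nat_lit 5) (nat_lit 3) (nat_lit 4) (nat_lit 1) (nat_lit 4) (nat_lit 302) (nat_lit 247) (nat_lit 231)) (XT.nd (nat_lit 78) (nat_lit 0) (nat_lit 0) (XT.lf (nat_lit 0) (nat_lit 79162664960) (nat_lit 152) (nat_lit 253223107689) (nat_lit 0) (nat_lit 78176360740) (nat_lit 1) (nat_lit 5) (nat_lit 3) (nat_lit 4) (nat_lit 1) (nat_lit 4) (nat_lit 303) (nat_lit 247) (nat_lit 230)) (XT.lf (nat_lit 0) (nat_lit 92998830675) (nat_lit 152) (nat_lit 286828601415) (nat_lit 0) (nat_lit 91999346975) (nat_lit 1) (nat_lit 5) (nat_lit 3) (nat_lit 4) (nat_lit 1) (nat_lit 4) (nat_lit 304) (nat_lit 247) (nat_lit 229))))))))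
noncomputable def xc24 : XT := (XT.nd (nat_lit 1482) (nat_lit 0) (nat_lit 0) (XT.nd (nat_lit 702) (nat_lit 0) (nat_lit 0) (XT.nd (nat_lit 312) (nat_lit 0) (nat_lit 0) (XT.nd (nat_lit 156) (nat_lit 0) (nat_lit 0) (XT.nd (nat_lit 78) (nat_lit 0) (nat_lit 0) (XT.lf (nat_lit 0) (nat_lit 108869397612) (nat_lit 152) (nat_lit 325559442257) (nat_lit 0) (nat_lit 107858453495) (nat_lit 1) (nat_lit 5) (nat_lit 3) (nat_lit 4) (nat_lit 1) (nat_lit 4) (nat_lit 305) (nat_lit 247) (nat_lit 228)) (XT.lf (nat_lit 0) (nat_lit 127084876865) (nat_lit 152) (nat_lit 370173407536) (nat_lit 0) (nat_lit 126063967168) (nat_lit 1) (nat_lit 5) (nat_lit 3) (nat_lit 4) (nat_lit 1) (nat_lit 4) (nat_lit 306) (nat_lit 247) (nat_lit 227))) (XT.nd (nat_lit 78) (nat_lit 0) (nat_lit 0) (XT.lf (nat_lit 0) (nat_lit 148001658244) (nat_lit 152) (nat_lit 421543379181) (nat_lit 0) (nat_lit 146972082825) (nat_lit 1) (nat_lit 5)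 (nat_lit 3) (nat_lit 4) (nat_lit 1) (nat_lit 4) (nat_lit 307) (nat_lit 247) (nat_lit 226)) (XT.lf (nat_lit 0) (nat_lit 172028983124) (nat_lit 152) (nat_lit 480674421855) (nat_lit 0) (nat_lit 170991872296) (nat_lit 1) (nat_lit 5) (nat_lit 3) (nat_lit 4) (nat_lit 1) (nat_lit 4) (nat_lit 308) (nat_lit 247) (nat_lit 225)))) (XT.nd (nat_lit 156) (nat_lit 0) (nat_lit 0) (XT.nd (nat_lit 78) (nat_lit 0) (nat_lit 0) (XT.lf (nat_lit 0) (nat_lit 199636951340) (nat_lit 152) (nat_lit 548723447262) (nat_lit 0) (nat_lit 198593287982) (nat_lit 1) (nat_lit 5) (nat_lit 3) (nat_lit 4) (nat_lit 1) (nat_lit 4) (nat_lit 309) (nat_lit 247) (nat_lit 224)) (XT.lf (nat_lit 0) (nat_lit 231365718793) (nat_lit 152) (nat_lit 627021849378) (nat_lit 0) (nat_lit 230316357581) (nat_lit 1) (nat_lit 5) (nat_lit 3) (nat_lit 4) (nat_lit 1) (nat_lit 4) (nat_lit 310) (nat_lit 247) (nat_lit 223))) (XT.nd (nat_lit 78) (nat_lit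 0) (nat_lit 0) (XT.lf (nat_lit 0) (nat_lit 267836065714) (nat_lit 152) (nat_lit 717101553462) (nat_lit 0) (nat_lit 266781749848) (nat_lit 1) (nat_lit 5) (nat_lit 3) (nat_lit 4) (nat_lit 1) (nat_lit 4) (nat_lit 311) (nat_lit 247) (nat_lit 222)) (XT.nd (nat_lit 78) (nat_lit 0) (nat_lit 0) (XT.lf (nat_lit 0) (nat_lit 309761542369) (nat_lit 152) (nat_lit 820724988506) (nat_lit 0) (nat_lit 308702918108) (nat_lit 1) (nat_lit 5) (nat_lit 3) (nat_lit 4) (nat_lit 1) (nat_lit 4) (nat_lit 312) (nat_lit 247) (nat_lit 221)) (XT.lf (nat_lit 0) (nat_lit 357962429824) (nat_lit 152) (nat_lit 939919569544) (nat_lit 0) (nat_lit 356900059132) (nat_lit 1) (nat_lit 5) (nat_lit 3) (nat_lit 4) (nat_lit 1) (nat_lit 4) (nat_lit 313) (nat_lit 247) (nat_lit 220)))))) (XT.nd (nat_lit 390) (nat_lit 0) (nat_lit 0) (XT.nd (nat_lit 156) (nat_lit 0) (nat_lit 0) (XT.nd (nat_lit 78) (nat_lit 0) (nat_lit 0) (XT.lf (nat_lit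 0) (nat_lit 413381788920) (nat_lit 152) (nat_lit 1077017364466) (nat_lit 0) (nat_lit 412316160462) (nat_lit 1) (nat_lit 5) (nat_lit 3) (nat_lit 4) (nat_lit 1) (nat_lit 4) (nat_lit 314) (nat_lit 247) (nat_lit 219)) (XT.lf (nat_lit 0) (nat_lit 477103911465) (nat_lit 152) (nat_lit 1234700721433) (nat_lit 0) (nat_lit 476035450168) (nat_lit 1) (nat_lit 5) (nat_lit 3) (nat_lit 4) (nat_lit 1) (nat_lit 4) (nat_lit 315) (nat_lit 247) (nat_lit 218))) (XT.nd (nat_lit 78) (nat_lit 0) (nat_lit 0) (XT.lf (nat_lit 0) (nat_lit 550375534640) (nat_lit 152) (nat_lit 1416054749603) (nat_lit 0) (nat_lit 549304610004) (nat_lit 1) (nat_lit 5) (nat_lit 3) (nat_lit 4) (nat_lit 1) (nat_lit 4) (nat_lit 316) (nat_lit 247) (nat_lit 217)) (XT.nd (nat_lit 78) (nat_lit 0) (nat_lit 0) (XT.lf (nat_lit 0) (nat_lit 634630233680) (nat_lit 152) (nat_lit 1624627679963) (nat_lit 0) (nat_lit 633557167010) (nat_lit 1) (nat_lit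 5) (nat_lit 3) (nat_lit 4) (nat_lit 1) (nat_lit 4) (nat_lit 317) (nat_lit 247) (nat_lit 216)) (XT.lf (nat_lit 0) (nat_lit 731516470089) (nat_lit 152) (nat_lit 1864500287237) (nat_lit 0) (nat_lit 730441540781) (nat_lit 1) (nat_lit 5) (nat_lit 3) (nat_lit 4) (nat_lit 1) (nat_lit 4) (nat_lit 318) (nat_lit 247) (nat_lit 215))))) (XT.nd (nat_lit 156) (nat_lit 0) (nat_lit 0) (XT.nd (nat_lit 78) (nat_lit 0) (nat_lit 0) (XT.lf (nat_lit 0) (nat_lit 842929844145) (nat_lit 152) (nat_lit 2140365731132) (nat_lit 0) (nat_lit 841853295151) (nat_lit 1) (nat_lit 5) (nat_lit 3) (nat_lit 4) (nat_lit 1) (nat_lit 4) (nat_lit 319) (nat_lit 247) (nat_lit 214)) (XT.lf (nat_lit 0) (nat_lit 971050182730) (nat_lit 152) (nat_lit 2457621379028) (nat_lit 0) (nat_lit 969972225315) (nat_lit 1) (nat_lit 5) (nat_lit 3) (nat_lit 4) (nat_lit 1) (nat_lit 4) (nat_lit 320) (nat_lit 247) (nat_lit 213))) (XT.nd (nat_lit 78)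 (nat_lit 0) (nat_lit 0) (XT.lf (nat_lit 0) (nat_lit 1118384188122) (nat_lit 152) (nat_lit 2822474406647) (nat_lit 0) (nat_lit 1117305005992) (nat_lit 1) (nat_lit 5) (nat_lit 3) (nat_lit 4) (nat_lit 1) (nat_lit 4) (nat_lit 321) (nat_lit 247) (nat_lit 212)) (XT.nd (nat_lit 78) (nat_lit 0) (nat_lit 0) (XT.lf (nat_lit 0) (nat_lit 1287814482164) (nat_lit 152) (nat_lit 3242063242788) (nat_lit 0) (nat_lit 1286734235065) (nat_lit 1) (nat_lit 5) (nat_lit 3) (nat_lit 4) (nat_lit 1) (nat_lit 4) (nat_lit 322) (nat_lit 247) (nat_lit 211)) (XT.lf (nat_lit 0) (nat_lit 1482656005394) (nat_lit 152) (nat_lit 3724597234246) (nat_lit 0) (nat_lit 1481574832234) (nat_lit 1) (nat_lit 5) (nat_lit 3) (nat_lit 4) (nat_lit 1) (nat_lit 4) (nat_lit 323) (nat_lit 247) (nat_lit 210))))))) (XT.nd (nat_lit 780) (nat_lit 0) (nat_lit 0) (XT.nd (nat_lit 390) (nat_lit 0) (nat_lit 0) (XT.nd (nat_lit 156) (nat_lit 0) (nat_lit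 0) (XT.nd (nat_lit 78) (nat_lit 0) (nat_lit 0) (XT.lf (nat_lit 0) (nat_lit 1706720874569) (nat_lit 152) (nat_lit 4279517263462) (nat_lit 0) (nat_lit 1705638896140) (nat_lit 1) (nat_lit 5) (nat_lit 3) (nat_lit 4) (nat_lit 1) (nat_lit 4) (nat_lit 324) (nat_lit 247) (nat_lit 209)) (XT.lf (nat_lit 0) (nat_lit 1964392967565) (nat_lit 152) (nat_lit 4917680461443) (nat_lit 0) (nat_lit 1963310288901) (nat_lit 1) (nat_lit 5) (nat_lit 3) (nat_lit 4) (nat_lit 1) (nat_lit 4) (nat_lit 325) (nat_lit 247) (nat_lit 208))) (XT.nd (nat_lit 78) (nat_lit 0) (nat_lit 0) (XT.lf (nat_lit 0) (nat_lit 2260713694897) (nat_lit 152) (nat_lit 5651572629889) (nat_lit 0) (nat_lit 2259630407333) (nat_lit 1) (nat_lit 5) (nat_lit 3) (nat_lit 4) (nat_lit 1) (nat_lit 4) (nat_lit 326) (nat_lit 247) (nat_lit 207)) (XT.nd (nat_lit 78) (nat_lit 0) (nat_lit 0) (XT.lf (nat_lit 0) (nat_lit 2601480636013) (nat_lit 152) (nat_lit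 6495552528616) (nat_lit 0) (nat_lit 2600396818971) (nat_lit 1) (nat_lit 5) (nat_lit 3) (nat_lit 4) (nat_lit 1) (nat_lit 4) (nat_lit 327) (nat_lit 247) (nat_lit 206)) (XT.lf (nat_lit 0) (nat_lit 2993360970195) (nat_lit 152) (nat_lit 7466132807818) (nat_lit 0) (nat_lit 2992276692738) (nat_lit 1) (nat_lit 5) (nat_lit 3) (nat_lit 4) (nat_lit 1) (nat_lit 4) (nat_lit 328) (nat_lit 247) (nat_lit 205))))) (XT.nd (nat_lit 156) (nat_lit 0) (nat_lit 0) (XT.nd (nat_lit 78) (nat_lit 0) (nat_lit 0) (XT.lf (nat_lit 0) (nat_lit 3444021921374) (nat_lit 152) (nat_lit 8582303081652) (nat_lit 0) (nat_lit 3442937243555) (nat_lit 1) (nat_lit 5) (nat_lit 3) (nat_lit 4) (nat_lit 1) (nat_lit 4) (nat_lit 329) (nat_lit 247) (nat_lit 204)) (XT.lf (nat_lit 0) (nat_lit 3962280769028) (nat_lit 152) (nat_lit 9865901464173) (nat_lit 0) (nat_lit 3961195743068) (nat_lit 1) (nat_lit 5) (nat_lit 3) (nat_lit 4) (nat_lit 1)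 (nat_lit 4) (nat_lit 330) (nat_lit 247) (nat_lit 203))) (XT.nd (nat_lit 78) (nat_lit 0) (nat_lit 0) (XT.lf (nat_lit 0) (nat_lit 4558277360176) (nat_lit 152) (nat_lit 11342041836776) (nat_lit 0) (nat_lit 4557192031486) (nat_lit 1) (nat_lit 5) (nat_lit 3) (nat_lit 4) (nat_lit 1) (nat_lit 4) (nat_lit 331) (nat_lit 247) (nat_lit 202)) (XT.nd (nat_lit 78) (nat_lit 0) (nat_lit 0) (XT.lf (nat_lit 0) (nat_lit 5243672497691) (nat_lit 152) (nat_lit 13039605206753) (nat_lit 0) (nat_lit 5242586905756) (nat_lit 1) (nat_lit 5) (nat_lit 3) (nat_lit 4) (nat_lit 1) (nat_lit 4) (nat_lit 332) (nat_lit 247) (nat_lit 201)) (XT.lf (nat_lit 0) (nat_lit 6031876086434) (nat_lit 152) (nat_lit 14991804770472) (nat_lit 0) (nat_lit 6030790265592) (nat_lit 1) (nat_lit 5) (nat_lit 3) (nat_lit 4) (nat_lit 1) (nat_lit 4) (nat_lit 333) (nat_lit 247) (nat_lit 200)))))) (XT.nd (nat_lit 390) (nat_lit 0) (nat_lit 0) (XT.nd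 (nat_lit 156) (nat_lit 0) (nat_lit 0) (XT.nd (nat_lit 78) (nat_lit 0) (nat_lit 0) (XT.lf (nat_lit 0) (nat_lit 6938309500970) (nat_lit 152) (nat_lit 17236835736788) (nat_lit 0) (nat_lit 6937223481078) (nat_lit 1) (nat_lit 5) (nat_lit 3) (nat_lit 4) (nat_lit 1) (nat_lit 4) (nat_lit 334) (nat_lit 247) (nat_lit 199)) (XT.lf (nat_lit 0) (nat_lit 7980707308105) (nat_lit 152) (nat_lit 19818622624609) (nat_lit 0) (nat_lit 7979621115124) (nat_lit 1) (nat_lit 5) (nat_lit 3) (nat_lit 4) (nat_lit 1) (nat_lit 4) (nat_lit 335) (nat_lit 247) (nat_lit 198))) (XT.nd (nat_lit 78) (nat_lit 0) (nat_lit 0) (XT.lf (nat_lit 0) (nat_lit 9179464247542) (nat_lit 152) (nat_lit 22787678655651) (nat_lit 0) (nat_lit 9178377904051) (nat_lit 1) (nat_lit 5) (nat_lit 3) (nat_lit 4) (nat_lit 1) (nat_lit 4) (nat_lit 336) (nat_lit 247) (nat_lit 197)) (XT.nd (nat_lit 78) (nat_lit 0) (nat_lit 0) (XT.lf (nat_lit 0) (nat_lit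 10558034259401) (nat_lit 152) (nat_lit 26202094056610) (nat_lit 0) (nat_lit 10556947785032) (nat_lit 1) (nat_lit 5) (nat_lit 3) (nat_lit 4) (nat_lit 1) (nat_lit 4) (nat_lit 337) (nat_lit 247) (nat_lit 196)) (XT.lf (nat_lit 0) (nat_lit 12143389365654) (nat_lit 152) (nat_lit 30128672607069) (nat_lit 0) (nat_lit 12142302777477) (nat_lit 1) (nat_lit 5) (nat_lit 3) (nat_lit 4) (nat_lit 1) (nat_lit 4) (nat_lit 338) (nat_lit 247) (nat_lit 195))))) (XT.nd (nat_lit 156) (nat_lit 0) (nat_lit 0) (XT.nd (nat_lit 78) (nat_lit 0) (nat_lit 0) (XT.lf (nat_lit 0) (nat_lit 13966547383597) (nat_lit 152) (nat_lit 34644238669972) (nat_lit 0) (nat_lit 13965460696457) (nat_lit 1) (nat_lit 5) (nat_lit 3) (nat_lit 4) (nat_lit 1) (nat_lit 4) (nat_lit 339) (nat_lit 247) (nat_lit 194)) (XT.lf (nat_lit 0) (nat_lit 16063178796190) (nat_lit 152) (nat_lit 39837140276985) (nat_lit 0) (nat_lit 16062092022994) (nat_lit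 1) (nat_lit 5) (nat_lit 3) (nat_lit 4) (nat_lit 1) (nat_lit 4) (nat_lit 340) (nat_lit 247) (nat_lit 193))) (XT.nd (nat_lit 78) (nat_lit 0) (nat_lit 0) (XT.lf (nat_lit 0) (nat_lit 18474304652809) (nat_lit 152) (nat_lit 45808977676940) (nat_lit 0) (nat_lit 18473217804783) (nat_lit 1) (nat_lit 5) (nat_lit 3) (nat_lit 4) (nat_lit 1) (nat_lit 4) (nat_lit 341) (nat_lit 247) (nat_lit 192)) (XT.nd (nat_lit 78) (nat_lit 0) (nat_lit 0) (XT.lf (nat_lit 0) (nat_lit 21247099154997) (nat_lit 152) (nat_lit 52676591166793) (nat_lit 0) (nat_lit 21246012241901) (nat_lit 1) (nat_lit 5) (nat_lit 3) (nat_lit 4) (nat_lit 1) (nat_lit 4) (nat_lit 342) (nat_lit 247) (nat_lit 191)) (XT.lf (nat_lit 0) (nat_lit 24435812629970) (nat_lit 152) (nat_lit 60574347097433) (nat_lit 0) (nat_lit 24434725660292) (nat_lit 1) (nat_lit 5) (nat_lit 3) (nat_lit 4) (nat_lit 1) (nat_lit 4) (nat_lit 343) (nat_lit 247) (nat_lit 190))))))))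
noncomputable def xc25 : XT := (XT.nd (nat_lit 1482) (nat_lit 0) (nat_lit 0) (XT.nd (nat_lit 702) (nat_lit 0) (nat_lit 0) (XT.nd (nat_lit 312) (nat_lit 152) (nat_lit 0) (XT.nd (nat_lit 156) (nat_lit 0) (nat_lit 0) (XT.nd (nat_lit 78) (nat_lit 76) (nat_lit 0) (XT.lf (nat_lit 0) (nat_lit 6719358846) (nat_lit 152) (nat_lit 2729012308) (nat_lit 0) (nat_lit 6719358846) (nat_lit 4) (nat_lit 5) (nat_lit 6) (nat_lit 4) (nat_lit 4) (nat_lit 4) (nat_lit 284) (nat_lit 248) (nat_lit 248)) (XT.lf (nat_lit 0) (nat_lit 3247985094) (nat_lit 76) (nat_lit 16707411292) (nat_lit 76) (nat_lit 16519843953) (nat_lit 3) (nat_lit 4) (nat_lit 4) (nat_lit 5) (nat_lit 4) (nat_lit 4) (nat_lit 285) (nat_lit 248) (nat_lit 247))) (XT.nd (nat_lit 78) (nat_lit 0) (nat_lit 0) (XT.lf (nat_lit 0) (nat_lit 13011763879) (nat_lit 76) (nat_lit 14298057946) (nat_lit 76) (nat_lit 13947388572) (nat_lit 3) (nat_lit 4) (nat_lit 4)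 (nat_lit 5) (nat_lit 4) (nat_lit 4) (nat_lit 286) (nat_lit 248) (nat_lit 246)) (XT.lf (nat_lit 0) (nat_lit 23490944333) (nat_lit 76) (nat_lit 11906848582) (nat_lit 76) (nat_lit 11414351352) (nat_lit 3) (nat_lit 4) (nat_lit 4) (nat_lit 5) (nat_lit 4) (nat_lit 4) (nat_lit 287) (nat_lit 248) (nat_lit 245)))) (XT.nd (nat_lit 156) (nat_lit 152) (nat_lit 0) (XT.nd (nat_lit 78) (nat_lit 0) (nat_lit 0) (XT.lf (nat_lit 0) (nat_lit 34890553898) (nat_lit 76) (nat_lit 9486998669) (nat_lit 76) (nat_lit 8871172869) (nat_lit 3) (nat_lit 4) (nat_lit 4) (nat_lit 5) (nat_lit 4) (nat_lit 4) (nat_lit 288) (nat_lit 248) (nat_lit 244)) (XT.lf (nat_lit 0) (nat_lit 47433628415) (nat_lit 76) (nat_lit 6991163319) (nat_lit 76) (nat_lit 6268095283) (nat_lit 3) (nat_lit 4) (nat_lit 4) (nat_lit 5) (nat_lit 4) (nat_lit 4) (nat_lit 289) (nat_lit 248) (nat_lit 243))) (XT.nd (nat_lit 78) (nat_lit 152) (nat_lit 0) (XT.lf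 (nat_lit 0) (nat_lit 61365575862) (nat_lit 76) (nat_lit 4370510968) (nat_lit 76) (nat_lit 3554188816) (nat_lit 3) (nat_lit 4) (nat_lit 4) (nat_lit 5) (nat_lit 4) (nat_lit 4) (nat_lit 290) (nat_lit 248) (nat_lit 242)) (XT.nd (nat_lit 78) (nat_lit 152) (nat_lit 0) (XT.lf (nat_lit 0) (nat_lit 76958977821) (nat_lit 76) (nat_lit 1573767985) (nat_lit 76) (nat_lit 676355296) (nat_lit 3) (nat_lit 4) (nat_lit 4) (nat_lit 5) (nat_lit 4) (nat_lit 4) (nat_lit 291) (nat_lit 248) (nat_lit 241)) (XT.lf (nat_lit 0) (nat_lit 2450858787) (nat_lit 152) (nat_lit 86531631236) (nat_lit 0) (nat_lit 1609183831) (nat_lit 1) (nat_lit 5) (nat_lit 3) (nat_lit 4) (nat_lit 1) (nat_lit 4) (nat_lit 292) (nat_lit 248) (nat_lit 240)))))) (XT.nd (nat_lit 390) (nat_lit 0) (nat_lit 0) (XT.nd (nat_lit 156) (nat_lit 0) (nat_lit 0) (XT.nd (nat_lit 78) (nat_lit 0) (nat_lit 0) (XT.lf (nat_lit 0) (nat_lit 5985213451) (nat_lit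 152) (nat_lit 92600356957) (nat_lit 0) (nat_lit 5090220150) (nat_lit 1) (nat_lit 5) (nat_lit 3) (nat_lit 4) (nat_lit 1) (nat_lit 4) (nat_lit 293) (nat_lit 248) (nat_lit 239)) (XT.lf (nat_lit 0) (nat_lit 9883757833) (nat_lit 152) (nat_lit 99921334443) (nat_lit 0) (nat_lit 8942400755) (nat_lit 1) (nat_lit 5) (nat_lit 3) (nat_lit 4) (nat_lit 1) (nat_lit 4) (nat_lit 294) (nat_lit 248) (nat_lit 238))) (XT.nd (nat_lit 78) (nat_lit 0) (nat_lit 0) (XT.lf (nat_lit 0) (nat_lit 14222767802) (nat_lit 152) (nat_lit 108637800212) (nat_lit 0) (nat_lit 13241094395) (nat_lit 1) (nat_lit 5) (nat_lit 3) (nat_lit 4) (nat_lit 1) (nat_lit 4) (nat_lit 295) (nat_lit 248) (nat_lit 237)) (XT.nd (nat_lit 78) (nat_lit 0) (nat_lit 0) (XT.lf (nat_lit 0) (nat_lit 19087137031) (nat_lit 152) (nat_lit 118920293810) (nat_lit 0) (nat_lit 18070405947) (nat_lit 1) (nat_lit 5) (nat_lit 3) (nat_lit 4) (nat_lit 1) (nat_lit 4)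 (nat_lit 296) (nat_lit 248) (nat_lit 236)) (XT.lf (nat_lit 0) (nat_lit 24572037961) (nat_lit 152) (nat_lit 130969994461) (nat_lit 0) (nat_lit 23524821941) (nat_lit 1) (nat_lit 5) (nat_lit 3) (nat_lit 4) (nat_lit 1) (nat_lit 4) (nat_lit 297) (nat_lit 248) (nat_lit 235))))) (XT.nd (nat_lit 156) (nat_lit 0) (nat_lit 0) (XT.nd (nat_lit 78) (nat_lit 0) (nat_lit 0) (XT.lf (nat_lit 0) (nat_lit 30784783872) (nat_lit 152) (nat_lit 145022657177) (nat_lit 0) (nat_lit 29711059211) (nat_lit 1) (nat_lit 5) (nat_lit 3) (nat_lit 4) (nat_lit 1) (nat_lit 4) (nat_lit 298) (nat_lit 248) (nat_lit 234)) (XT.lf (nat_lit 0) (nat_lit 37846928488) (nat_lit 152) (nat_lit 161353225358) (nat_lit 0) (nat_lit 36750152835) (nat_lit 1) (nat_lit 5) (nat_lit 3) (nat_lit 4) (nat_lit 1) (nat_lit 4) (nat_lit 299) (nat_lit 248) (nat_lit 233))) (XT.nd (nat_lit 78) (nat_lit 0) (nat_lit 0) (XT.lf (nat_lit 0) (nat_lit 45896644203)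 (nat_lit 152) (nat_lit 180281210123) (nat_lit 0) (nat_lit 44779824210) (nat_lit 1) (nat_lit 5) (nat_lit 3) (nat_lit 4) (nat_lit 1) (nat_lit 4) (nat_lit 300) (nat_lit 248) (nat_lit 232)) (XT.nd (nat_lit 78) (nat_lit 0) (nat_lit 0) (XT.lf (nat_lit 0) (nat_lit 55091425456) (nat_lit 152) (nat_lit 202176941606) (nat_lit 0) (nat_lit 53957175602) (nat_lit 1) (nat_lit 5) (nat_lit 3) (nat_lit 4) (nat_lit 1) (nat_lit 4) (nat_lit 301) (nat_lit 248) (nat_lit 231)) (XT.lf (nat_lit 0) (nat_lit 65611170140) (nat_lit 152) (nat_lit 227468814555) (nat_lit 0) (nat_lit 64461763885) (nat_lit 1) (nat_lit 5) (nat_lit 3) (nat_lit 4) (nat_lit 1) (nat_lit 4) (nat_lit 302) (nat_lit 248) (nat_lit 230))))))) (XT.nd (nat_lit 780) (nat_lit 0) (nat_lit 0) (XT.nd (nat_lit 390) (nat_lit 0) (nat_lit 0) (XT.nd (nat_lit 156) (nat_lit 0) (nat_lit 0) (XT.nd (nat_lit 78) (nat_lit 0) (nat_lit 0) (XT.lf (nat_lit 0) (nat_lit 77661699348)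 (nat_lit 152) (nat_lit 256651669963) (nat_lit 0) (nat_lit 76499113613) (nat_lit 1) (nat_lit 5) (nat_lit 3) (nat_lit 4) (nat_lit 1) (nat_lit 4) (nat_lit 303) (nat_lit 248) (nat_lit 229)) (XT.lf (nat_lit 0) (nat_lit 91478784302) (nat_lit 152) (nat_lit 290296476738) (nat_lit 0) (nat_lit 90304738151) (nat_lit 1) (nat_lit 5) (nat_lit 3) (nat_lit 4) (nat_lit 1) (nat_lit 4) (nat_lit 304) (nat_lit 248) (nat_lit 228))) (XT.nd (nat_lit 78) (nat_lit 0) (nat_lit 0) (XT.lf (nat_lit 0) (nat_lit 107332759274) (nat_lit 152) (nat_lit 329061502841) (nat_lit 0) (nat_lit 106148747543) (nat_lit 1) (nat_lit 5) (nat_lit 3) (nat_lit 4) (nat_lit 1) (nat_lit 4) (nat_lit 305) (nat_lit 248) (nat_lit 227)) (XT.nd (nat_lit 78) (nat_lit 0) (nat_lit 0) (XT.lf (nat_lit 0) (nat_lit 125533810730) (nat_lit 152) (nat_lit 373705194434) (nat_lit 0) (nat_lit 124341133278) (nat_lit 1) (nat_lit 5) (nat_lit 3) (nat_lit 4) (nat_lit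 1) (nat_lit 4) (nat_lit 306) (nat_lit 248) (nat_lit 226)) (XT.lf (nat_lit 0) (nat_lit 146438046200) (nat_lit 152) (nat_lit 425101015047) (nat_lit 0) (nat_lit 145237833337) (nat_lit 1) (nat_lit 5) (nat_lit 3) (nat_lit 4) (nat_lit 1) (nat_lit 4) (nat_lit 307) (nat_lit 248) (nat_lit 225))))) (XT.nd (nat_lit 156) (nat_lit 0) (nat_lit 0) (XT.nd (nat_lit 78) (nat_lit 0) (nat_lit 0) (XT.lf (nat_lit 0) (nat_lit 170454461594) (nat_lit 152) (nat_lit 484254535085) (nat_lit 0) (nat_lit 169247696201) (nat_lit 1) (nat_lit 5) (nat_lit 3) (nat_lit 4) (nat_lit 1) (nat_lit 4) (nat_lit 308) (nat_lit 248) (nat_lit 224)) (XT.lf (nat_lit 0) (nat_lit 198052943300) (nat_lit 152) (nat_lit 552323106026) (nat_lit 0) (nat_lit 196840480054) (nat_lit 1) (nat_lit 5) (nat_lit 3) (nat_lit 4) (nat_lit 1) (nat_lit 4) (nat_lit 309) (nat_lit 248) (nat_lit 223))) (XT.nd (nat_lit 78) (nat_lit 0) (nat_lit 0) (XT.lf (nat_lit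 0) (nat_lit 229773461613) (nat_lit 152) (nat_lit 630638504258) (nat_lit 0) (nat_lit 228556043713) (nat_lit 1) (nat_lit 5) (nat_lit 3) (nat_lit 4) (nat_lit 1) (nat_lit 4) (nat_lit 310) (nat_lit 248) (nat_lit 222)) (XT.nd (nat_lit 78) (nat_lit 0) (nat_lit 0) (XT.lf (nat_lit 0) (nat_lit 266236635370) (nat_lit 152) (nat_lit 720732987574) (nat_lit 0) (nat_lit 265014909074) (nat_lit 1) (nat_lit 5) (nat_lit 3) (nat_lit 4) (nat_lit 1) (nat_lit 4) (nat_lit 311) (nat_lit 248) (nat_lit 221)) (XT.lf (nat_lit 0) (nat_lit 308155874491) (nat_lit 152) (nat_lit 824369274123) (nat_lit 0) (nat_lit 306930401765) (nat_lit 1) (nat_lit 5) (nat_lit 3) (nat_lit 4) (nat_lit 1) (nat_lit 4) (nat_lit 312) (nat_lit 248) (nat_lit 220)))))) (XT.nd (nat_lit 390) (nat_lit 0) (nat_lit 0) (XT.nd (nat_lit 156) (nat_lit 0) (nat_lit 0) (XT.nd (nat_lit 78) (nat_lit 0) (nat_lit 0) (XT.lf (nat_lit 0) (nat_lit 356351338003) (nat_lit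 152) (nat_lit 943575030384) (nat_lit 0) (nat_lit 355122607511) (nat_lit 1) (nat_lit 5) (nat_lit 3) (nat_lit 4) (nat_lit 1) (nat_lit 4) (nat_lit 313) (nat_lit 248) (nat_lit 219)) (XT.lf (nat_lit 0) (nat_lit 411765980626) (nat_lit 152) (nat_lit 1080682542890) (nat_lit 0) (nat_lit 410534417295) (nat_lit 1) (nat_lit 5) (nat_lit 3) (nat_lit 4) (nat_lit 1) (nat_lit 4) (nat_lit 314) (nat_lit 248) (nat_lit 218))) (XT.nd (nat_lit 78) (nat_lit 0) (nat_lit 0) (XT.lf (nat_lit 0) (nat_lit 475484001892) (nat_lit 152) (nat_lit 1238374349931) (nat_lit 0) (nat_lit 474249975221) (nat_lit 1) (nat_lit 5) (nat_lit 3) (nat_lit 4) (nat_lit 1) (nat_lit 4) (nat_lit 315) (nat_lit 248) (nat_lit 217)) (XT.nd (nat_lit 78) (nat_lit 0) (nat_lit 0) (XT.lf (nat_lit 0) (nat_lit 548752058736) (nat_lit 152) (nat_lit 1419735725992) (nat_lit 0) (nat_lit 547515890032) (nat_lit 1) (nat_lit 5) (nat_lit 3) (nat_lit 4) (nat_lit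 1) (nat_lit 4) (nat_lit 316) (nat_lit 248) (nat_lit 216)) (XT.lf (nat_lit 0) (nat_lit 633003656619) (nat_lit 152) (nat_lit 1628315045821) (nat_lit 0) (nat_lit 631765625277) (nat_lit 1) (nat_lit 5) (nat_lit 3) (nat_lit 4) (nat_lit 1) (nat_lit 4) (nat_lit 317) (nat_lit 248) (nat_lit 215))))) (XT.nd (nat_lit 156) (nat_lit 0) (nat_lit 0) (XT.nd (nat_lit 78) (nat_lit 0) (nat_lit 0) (XT.lf (nat_lit 0) (nat_lit 729887196370) (nat_lit 152) (nat_lit 1868193209155) (nat_lit 0) (nat_lit 728647545343) (nat_lit 1) (nat_lit 5) (nat_lit 3) (nat_lit 4) (nat_lit 1) (nat_lit 4) (nat_lit 318) (nat_lit 248) (nat_lit 214)) (XT.lf (nat_lit 0) (nat_lit 841298225505) (nat_lit 152) (nat_lit 2144063484407) (nat_lit 0) (nat_lit 840057166056) (nat_lit 1) (nat_lit 5) (nat_lit 3) (nat_lit 4) (nat_lit 1) (nat_lit 4) (nat_lit 319) (nat_lit 248) (nat_lit 213))) (XT.nd (nat_lit 78) (nat_lit 0) (nat_lit 0) (XT.lf (nat_lit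 0) (nat_lit 969416525030) (nat_lit 152) (nat_lit 2461323333484) (nat_lit 0) (nat_lit 968174240865) (nat_lit 1) (nat_lit 5) (nat_lit 3) (nat_lit 4) (nat_lit 1) (nat_lit 4) (nat_lit 320) (nat_lit 248) (nat_lit 212)) (XT.nd (nat_lit 78) (nat_lit 0) (nat_lit 0) (XT.lf (nat_lit 0) (nat_lit 1116748757325) (nat_lit 152) (nat_lit 2826180014302) (nat_lit 0) (nat_lit 1115505408191) (nat_lit 1) (nat_lit 5) (nat_lit 3) (nat_lit 4) (nat_lit 1) (nat_lit 4) (nat_lit 321) (nat_lit 248) (nat_lit 211)) (XT.lf (nat_lit 0) (nat_lit 1286177509544) (nat_lit 152) (nat_lit 3245772027139) (nat_lit 0) (nat_lit 1284933234350) (nat_lit 1) (nat_lit 5) (nat_lit 3) (nat_lit 4) (nat_lit 1) (nat_lit 4) (nat_lit 322) (nat_lit 248) (nat_lit 210))))))))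
noncomputable def xc26 : XT := (XT.nd (nat_lit 1482) (nat_lit 0) (nat_lit 0) (XT.nd (nat_lit 702) (nat_lit 0) (nat_lit 0) (XT.nd (nat_lit 312) (nat_lit 0) (nat_lit 0) (XT.nd (nat_lit 156) (nat_lit 0) (nat_lit 0) (XT.nd (nat_lit 78) (nat_lit 0) (nat_lit 0) (XT.lf (nat_lit 0) (nat_lit 1481017692058) (nat_lit 152) (nat_lit 3728308780941) (nat_lit 0) (nat_lit 1479772611594) (nat_lit 1) (nat_lit 5) (nat_lit 3) (nat_lit 4) (nat_lit 1) (nat_lit 4) (nat_lit 323) (nat_lit 248) (nat_lit 209)) (XT.lf (nat_lit 0) (nat_lit 1705081395394) (nat_lit 152) (nat_lit 4283231212196) (nat_lit 0) (nat_lit 1703835614695) (nat_lit 1) (nat_lit 5) (nat_lit 3) (nat_lit 4) (nat_lit 1) (nat_lit 4) (nat_lit 324) (nat_lit 248) (nat_lit 208))) (XT.nd (nat_lit 78) (nat_lit 0) (nat_lit 0) (XT.lf (nat_lit 0) (nat_lit 1962752474616) (nat_lit 152) (nat_lit 4921396498906) (nat_lit 0) (nat_lit 1961506085018) (nat_lit 1) (nat_lit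 5) (nat_lit 3) (nat_lit 4) (nat_lit 1) (nat_lit 4) (nat_lit 325) (nat_lit 248) (nat_lit 207)) (XT.lf (nat_lit 0) (nat_lit 2259072320406) (nat_lit 152) (nat_lit 5655290483637) (nat_lit 0) (nat_lit 2257825401330) (nat_lit 1) (nat_lit 5) (nat_lit 3) (nat_lit 4) (nat_lit 1) (nat_lit 4) (nat_lit 326) (nat_lit 248) (nat_lit 206)))) (XT.nd (nat_lit 156) (nat_lit 0) (nat_lit 0) (XT.nd (nat_lit 78) (nat_lit 0) (nat_lit 0) (XT.lf (nat_lit 0) (nat_lit 2599838494963) (nat_lit 152) (nat_lit 6499271961744) (nat_lit 0) (nat_lit 2598591115471) (nat_lit 1) (nat_lit 5) (nat_lit 3) (nat_lit 4) (nat_lit 1) (nat_lit 4) (nat_lit 327) (nat_lit 248) (nat_lit 205)) (XT.lf (nat_lit 0) (nat_lit 2991718162573) (nat_lit 152) (nat_lit 7469853614319) (nat_lit 0) (nat_lit 2990470382719) (nat_lit 1) (nat_lit 5) (nat_lit 3) (nat_lit 4) (nat_lit 1) (nat_lit 4) (nat_lit 328) (nat_lit 248) (nat_lit 204))) (XT.nd (nat_lit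 78) (nat_lit 0) (nat_lit 0) (XT.lf (nat_lit 0) (nat_lit 3442378534122) (nat_lit 152) (nat_lit 8586025082391) (nat_lit 0) (nat_lit 3441130406129) (nat_lit 1) (nat_lit 5) (nat_lit 3) (nat_lit 4) (nat_lit 1) (nat_lit 4) (nat_lit 329) (nat_lit 248) (nat_lit 203)) (XT.nd (nat_lit 78) (nat_lit 0) (nat_lit 0) (XT.lf (nat_lit 0) (nat_lit 3960636877752) (nat_lit 152) (nat_lit 9869624503379) (nat_lit 0) (nat_lit 3959388447027) (nat_lit 1) (nat_lit 5) (nat_lit 3) (nat_lit 4) (nat_lit 1) (nat_lit 4) (nat_lit 330) (nat_lit 248) (nat_lit 202)) (XT.lf (nat_lit 0) (nat_lit 4556633030618) (nat_lit 152) (nat_lit 11345765778998) (nat_lit 0) (nat_lit 4555384336649) (nat_lit 1) (nat_lit 5) (nat_lit 3) (nat_lit 4) (nat_lit 1) (nat_lit 4) (nat_lit 331) (nat_lit 248) (nat_lit 201)))))) (XT.nd (nat_lit 390) (nat_lit 0) (nat_lit 0) (XT.nd (nat_lit 156) (nat_lit 0) (nat_lit 0) (XT.nd (nat_lit 78) (nat_lit 0) (nat_lit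 0) (XT.lf (nat_lit 0) (nat_lit 5242027787017) (nat_lit 152) (nat_lit 13043329934205) (nat_lit 0) (nat_lit 5240778864141) (nat_lit 1) (nat_lit 5) (nat_lit 3) (nat_lit 4) (nat_lit 1) (nat_lit 4) (nat_lit 332) (nat_lit 248) (nat_lit 200)) (XT.lf (nat_lit 0) (nat_lit 6030231044357) (nat_lit 152) (nat_lit 14995530180733) (nat_lit 0) (nat_lit 6028981922430) (nat_lit 1) (nat_lit 5) (nat_lit 3) (nat_lit 4) (nat_lit 1) (nat_lit 4) (nat_lit 333) (nat_lit 248) (nat_lit 199))) (XT.nd (nat_lit 78) (nat_lit 0) (nat_lit 0) (XT.lf (nat_lit 0) (nat_lit 6936664170715) (nat_lit 152) (nat_lit 17240561740797) (nat_lit 0) (nat_lit 6935414875701) (nat_lit 1) (nat_lit 5) (nat_lit 3) (nat_lit 4) (nat_lit 1) (nat_lit 4) (nat_lit 334) (nat_lit 248) (nat_lit 198)) (XT.nd (nat_lit 78) (nat_lit 0) (nat_lit 0) (XT.lf (nat_lit 0) (nat_lit 7979061727260) (nat_lit 152) (nat_lit 19822349144919) (nat_lit 0) (nat_lit 7977812281735)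 (nat_lit 1) (nat_lit 5) (nat_lit 3) (nat_lit 4) (nat_lit 1) (nat_lit 4) (nat_lit 335) (nat_lit 248) (nat_lit 197)) (XT.lf (nat_lit 0) (nat_lit 9177818448793) (nat_lit 152) (nat_lit 22791405624919) (nat_lit 0) (nat_lit 9176568872389) (nat_lit 1) (nat_lit 5) (nat_lit 3) (nat_lit 4) (nat_lit 1) (nat_lit 4) (nat_lit 336) (nat_lit 248) (nat_lit 196))))) (XT.nd (nat_lit 156) (nat_lit 0) (nat_lit 0) (XT.nd (nat_lit 78) (nat_lit 0) (nat_lit 0) (XT.lf (nat_lit 0) (nat_lit 10556388271171) (nat_lit 152) (nat_lit 26205821416276) (nat_lit 0) (nat_lit 10555138580959) (nat_lit 1) (nat_lit 5) (nat_lit 3) (nat_lit 4) (nat_lit 1) (nat_lit 4) (nat_lit 337) (nat_lit 248) (nat_lit 195)) (XT.lf (nat_lit 0) (nat_lit 12141743212657) (nat_lit 152) (nat_lit 30132400306212) (nat_lit 0) (nat_lit 12140493423483) (nat_lit 1) (nat_lit 5) (nat_lit 3) (nat_lit 4) (nat_lit 1) (nat_lit 4) (nat_lit 338) (nat_lit 248) (nat_lit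 194))) (XT.nd (nat_lit 78) (nat_lit 0) (nat_lit 0) (XT.lf (nat_lit 0) (nat_lit 13964901087325) (nat_lit 152) (nat_lit 34647966664313) (nat_lit 0) (nat_lit 13963651212095) (nat_lit 1) (nat_lit 5) (nat_lit 3) (nat_lit 4) (nat_lit 1) (nat_lit 4) (nat_lit 339) (nat_lit 248) (nat_lit 193)) (XT.nd (nat_lit 78) (nat_lit 0) (nat_lit 0) (XT.lf (nat_lit 0) (nat_lit 16061532375331) (nat_lit 152) (nat_lit 39840868528019) (nat_lit 0) (nat_lit 16060282425270) (nat_lit 1) (nat_lit 5) (nat_lit 3) (nat_lit 4) (nat_lit 1) (nat_lit 4) (nat_lit 340) (nat_lit 248) (nat_lit 192)) (XT.lf (nat_lit 0) (nat_lit 18472658123613) (nat_lit 152) (nat_lit 45812706151185) (nat_lit 0) (nat_lit 18471408108483) (nat_lit 1) (nat_lit 5) (nat_lit 3) (nat_lit 4) (nat_lit 1) (nat_lit 4) (nat_lit 341) (nat_lit 248) (nat_lit 191))))))) (XT.nd (nat_lit 36660) (nat_lit 0) (nat_lit 0) (XT.nd (nat_lit 36270) (nat_lit 0) (nat_lit 152)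 (XT.nd (nat_lit 36036) (nat_lit 0) (nat_lit 152) (XT.nd (nat_lit 35958) (nat_lit 0) (nat_lit 228) (XT.lf (nat_lit 0) (nat_lit 21245452531595) (nat_lit 152) (nat_lit 52680319835136) (nat_lit 0) (nat_lit 21244202459882) (nat_lit 1) (nat_lit 5) (nat_lit 3) (nat_lit 4) (nat_lit 1) (nat_lit 4) (nat_lit 342) (nat_lit 248) (nat_lit 190)) (XT.lf (nat_lit 0) (nat_lit 1171291563) (nat_lit 152) (nat_lit 10514241005) (nat_lit 0) (nat_lit 1171291563) (nat_lit 4) (nat_lit 5) (nat_lit 6) (nat_lit 4) (nat_lit 4) (nat_lit 4) (nat_lit 282) (nat_lit 249) (nat_lit 249))) (XT.nd (nat_lit 78) (nat_lit 76) (nat_lit 0) (XT.lf (nat_lit 0) (nat_lit 7715306334) (nat_lit 152) (nat_lit 13561865704) (nat_lit 0) (nat_lit 7499603894) (nat_lit 4) (nat_lit 5) (nat_lit 6) (nat_lit 4) (nat_lit 4) (nat_lit 4) (nat_lit 283) (nat_lit 249) (nat_lit 248)) (XT.nd (nat_lit 78) (nat_lit 76) (nat_lit 0) (XT.lf (nat_lit 0) (nat_lit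 13446143709) (nat_lit 152) (nat_lit 5877822585) (nat_lit 0) (nat_lit 13042873929) (nat_lit 4) (nat_lit 5) (nat_lit 6) (nat_lit 4) (nat_lit 4) (nat_lit 4) (nat_lit 284) (nat_lit 249) (nat_lit 247)) (XT.lf (nat_lit 0) (nat_lit 2386445172) (nat_lit 76) (nat_lit 17359592765) (nat_lit 76) (nat_lit 16793220950) (nat_lit 3) (nat_lit 4) (nat_lit 4) (nat_lit 5) (nat_lit 4) (nat_lit 4) (nat_lit 285) (nat_lit 249) (nat_lit 246))))) (XT.nd (nat_lit 156) (nat_lit 0) (nat_lit 0) (XT.nd (nat_lit 78) (nat_lit 0) (nat_lit 0) (XT.lf (nat_lit 0) (nat_lit 11801775050) (nat_lit 76) (nat_lit 15126772899) (nat_lit 76) (nat_lit 14418573229) (nat_lit 3) (nat_lit 4) (nat_lit 4) (nat_lit 5) (nat_lit 4) (nat_lit 4) (nat_lit 286) (nat_lit 249) (nat_lit 245)) (XT.lf (nat_lit 0) (nat_lit 21977956454) (nat_lit 76) (nat_lit 12889070910) (nat_lit 76) (nat_lit 12057542670) (nat_lit 3) (nat_lit 4) (nat_lit 4) (nat_lit 5)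 (nat_lit 4) (nat_lit 4) (nat_lit 287) (nat_lit 249) (nat_lit 244))) (XT.nd (nat_lit 78) (nat_lit 0) (nat_lit 0) (XT.lf (nat_lit 0) (nat_lit 33114088586) (nat_lit 76) (nat_lit 10602705671) (nat_lit 76) (nat_lit 9663935196) (nat_lit 3) (nat_lit 4) (nat_lit 4) (nat_lit 5) (nat_lit 4) (nat_lit 4) (nat_lit 288) (nat_lit 249) (nat_lit 243)) (XT.nd (nat_lit 78) (nat_lit 0) (nat_lit 0) (XT.lf (nat_lit 0) (nat_lit 45428052290) (nat_lit 76) (nat_lit 8222943950) (nat_lit 76) (nat_lit 7190919357) (nat_lit 3) (nat_lit 4) (nat_lit 4) (nat_lit 5) (nat_lit 4) (nat_lit 4) (nat_lit 289) (nat_lit 249) (nat_lit 242)) (XT.lf (nat_lit 0) (nat_lit 59160772944) (nat_lit 76) (nat_lit 5703225190) (nat_lit 76) (nat_lit 4590110060) (nat_lit 3) (nat_lit 4) (nat_lit 4) (nat_lit 5) (nat_lit 4) (nat_lit 4) (nat_lit 290) (nat_lit 249) (nat_lit 241)))))) (XT.nd (nat_lit 390) (nat_lit 0) (nat_lit 0) (XT.nd (nat_lit 156)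 (nat_lit 0) (nat_lit 0) (XT.nd (nat_lit 78) (nat_lit 152) (nat_lit 0) (XT.lf (nat_lit 0) (nat_lit 74580934213) (nat_lit 76) (nat_lit 2994250547) (nat_lit 76) (nat_lit 1810621907) (nat_lit 3) (nat_lit 4) (nat_lit 4) (nat_lit 5) (nat_lit 4) (nat_lit 4) (nat_lit 291) (nat_lit 249) (nat_lit 240)) (XT.lf (nat_lit 0) (nat_lit 1148327393) (nat_lit 152) (nat_lit 89601756607) (nat_lit 0) (nat_lit 65766753) (nat_lit 1) (nat_lit 5) (nat_lit 3) (nat_lit 4) (nat_lit 1) (nat_lit 4) (nat_lit 292) (nat_lit 249) (nat_lit 239))) (XT.nd (nat_lit 78) (nat_lit 0) (nat_lit 0) (XT.lf (nat_lit 0) (nat_lit 4605489740) (nat_lit 152) (nat_lit 95829525541) (nat_lit 0) (nat_lit 3476565322) (nat_lit 1) (nat_lit 5) (nat_lit 3) (nat_lit 4) (nat_lit 1) (nat_lit 4) (nat_lit 293) (nat_lit 249) (nat_lit 238)) (XT.nd (nat_lit 78) (nat_lit 0) (nat_lit 0) (XT.lf (nat_lit 0) (nat_lit 8436910368) (nat_lit 152) (nat_lit 103288801474)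 (nat_lit 0) (nat_lit 7267669622) (nat_lit 1) (nat_lit 5) (nat_lit 3) (nat_lit 4) (nat_lit 1) (nat_lit 4) (nat_lit 294) (nat_lit 249) (nat_lit 237)) (XT.lf (nat_lit 0) (nat_lit 12717551855) (nat_lit 152) (nat_lit 112125526761) (nat_lit 0) (nat_lit 11513253432) (nat_lit 1) (nat_lit 5) (nat_lit 3) (nat_lit 4) (nat_lit 1) (nat_lit 4) (nat_lit 295) (nat_lit 249) (nat_lit 236))))) (XT.nd (nat_lit 156) (nat_lit 0) (nat_lit 0) (XT.nd (nat_lit 78) (nat_lit 0) (nat_lit 0) (XT.lf (nat_lit 0) (nat_lit 17531165883) (nat_lit 152) (nat_lit 122512593853) (nat_lit 0) (nat_lit 16296382523) (nat_lit 1) (nat_lit 5) (nat_lit 3) (nat_lit 4) (nat_lit 1) (nat_lit 4) (nat_lit 296) (nat_lit 249) (nat_lit 235)) (XT.lf (nat_lit 0) (nat_lit 22971931855) (nat_lit 152) (nat_lit 134653227977) (nat_lit 0) (nat_lit 21710639855) (nat_lit 1) (nat_lit 5) (nat_lit 3) (nat_lit 4) (nat_lit 1) (nat_lit 4) (nat_lit 297) (nat_lit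 249) (nat_lit 234))) (XT.nd (nat_lit 78) (nat_lit 0) (nat_lit 0) (XT.lf (nat_lit 0) (nat_lit 29146299542) (nat_lit 152) (nat_lit 148784963278) (nat_lit 0) (nat_lit 27861956551) (nat_lit 1) (nat_lit 5) (nat_lit 3) (nat_lit 4) (nat_lit 1) (nat_lit 4) (nat_lit 298) (nat_lit 249) (nat_lit 233)) (XT.nd (nat_lit 78) (nat_lit 0) (nat_lit 0) (XT.lf (nat_lit 0) (nat_lit 36175071789) (nat_lit 152) (nat_lit 165184290230) (nat_lit 0) (nat_lit 34870684457) (nat_lit 1) (nat_lit 5) (nat_lit 3) (nat_lit 4) (nat_lit 1) (nat_lit 4) (nat_lit 299) (nat_lit 249) (nat_lit 232)) (XT.lf (nat_lit 0) (nat_lit 44195768054) (nat_lit 152) (nat_lit 184172065229) (nat_lit 0) (nat_lit 42873950860) (nat_lit 1) (nat_lit 5) (nat_lit 3) (nat_lit 4) (nat_lit 1) (nat_lit 4) (nat_lit 300) (nat_lit 249) (nat_lit 231))))))))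
noncomputable def xc27 : XT := (XT.nd (nat_lit 1482) (nat_lit 0) (nat_lit 0) (XT.nd (nat_lit 702) (nat_lit 0) (nat_lit 0) (XT.nd (nat_lit 312) (nat_lit 0) (nat_lit 0) (XT.nd (nat_lit 156) (nat_lit 0) (nat_lit 0) (XT.nd (nat_lit 78) (nat_lit 0) (nat_lit 0) (XT.lf (nat_lit 0) (nat_lit 53365315001) (nat_lit 152) (nat_lit 206119788221) (nat_lit 0) (nat_lit 52028341406) (nat_lit 1) (nat_lit 5) (nat_lit 3) (nat_lit 4) (nat_lit 1) (nat_lit 4) (nat_lit 301) (nat_lit 249) (nat_lit 230)) (XT.lf (nat_lit 0) (nat_lit 63863116811) (nat_lit 152) (nat_lit 231456871177) (nat_lit 0) (nat_lit 62512963737) (nat_lit 1) (nat_lit 5) (nat_lit 3) (nat_lit 4) (nat_lit 1) (nat_lit 4) (nat_lit 302) (nat_lit 249) (nat_lit 229))) (XT.nd (nat_lit 78) (nat_lit 0) (nat_lit 0) (XT.lf (nat_lit 0) (nat_lit 75894565259) (nat_lit 152) (nat_lit 260679039634) (nat_lit 0) (nat_lit 74532951768) (nat_lit 1) (nat_lit 5) (nat_lit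 3) (nat_lit 4) (nat_lit 1) (nat_lit 4) (nat_lit 303) (nat_lit 249) (nat_lit 228)) (XT.lf (nat_lit 0) (nat_lit 89695058248) (nat_lit 152) (nat_lit 294358031671) (nat_lit 0) (nat_lit 88323479177) (nat_lit 1) (nat_lit 5) (nat_lit 3) (nat_lit 4) (nat_lit 1) (nat_lit 4) (nat_lit 304) (nat_lit 249) (nat_lit 227)))) (XT.nd (nat_lit 156) (nat_lit 0) (nat_lit 0) (XT.nd (nat_lit 78) (nat_lit 0) (nat_lit 0) (XT.lf (nat_lit 0) (nat_lit 105534605424) (nat_lit 152) (nat_lit 333152784087) (nat_lit 0) (nat_lit 104154360632) (nat_lit 1) (nat_lit 5) (nat_lit 3) (nat_lit 4) (nat_lit 1) (nat_lit 4) (nat_lit 305) (nat_lit 249) (nat_lit 226)) (XT.lf (nat_lit 0) (nat_lit 123723110971) (nat_lit 152) (nat_lit 377822324648) (nat_lit 0) (nat_lit 122335330768) (nat_lit 1) (nat_lit 5) (nat_lit 3) (nat_lit 4) (nat_lit 1) (nat_lit 4) (nat_lit 306) (nat_lit 249) (nat_lit 225))) (XT.nd (nat_lit 78) (nat_lit 0) (nat_lit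 0) (XT.lf (nat_lit 0) (nat_lit 144616436954) (nat_lit 152) (nat_lit 429240622625) (nat_lit 0) (nat_lit 143222104221) (nat_lit 1) (nat_lit 5) (nat_lit 3) (nat_lit 4) (nat_lit 1) (nat_lit 4) (nat_lit 307) (nat_lit 249) (nat_lit 224)) (XT.nd (nat_lit 78) (nat_lit 0) (nat_lit 0) (XT.lf (nat_lit 0) (nat_lit 168623365837) (nat_lit 152) (nat_lit 488413688197) (nat_lit 0) (nat_lit 167223335252) (nat_lit 1) (nat_lit 5) (nat_lit 3) (nat_lit 4) (nat_lit 1) (nat_lit 4) (nat_lit 308) (nat_lit 249) (nat_lit 223)) (XT.lf (nat_lit 0) (nat_lit 196213598405) (nat_lit 152) (nat_lit 556499255255) (nat_lit 0) (nat_lit 194808613165) (nat_lit 1) (nat_lit 5) (nat_lit 3) (nat_lit 4) (nat_lit 1) (nat_lit 4) (nat_lit 309) (nat_lit 249) (nat_lit 222)))))) (XT.nd (nat_lit 390) (nat_lit 0) (nat_lit 0) (XT.nd (nat_lit 156) (nat_lit 0) (nat_lit 0) (XT.nd (nat_lit 78) (nat_lit 0) (nat_lit 0) (XT.lf (nat_lit 0) (nat_lit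 227926943553) (nat_lit 152) (nat_lit 634829432719) (nat_lit 0) (nat_lit 226517649918) (nat_lit 1) (nat_lit 5) (nat_lit 3) (nat_lit 4) (nat_lit 1) (nat_lit 4) (nat_lit 310) (nat_lit 249) (nat_lit 221)) (XT.lf (nat_lit 0) (nat_lit 264383879775) (nat_lit 152) (nat_lit 724936767539) (nat_lit 0) (nat_lit 262970839710) (nat_lit 1) (nat_lit 5) (nat_lit 3) (nat_lit 4) (nat_lit 1) (nat_lit 4) (nat_lit 311) (nat_lit 249) (nat_lit 220))) (XT.nd (nat_lit 78) (nat_lit 0) (nat_lit 0) (XT.lf (nat_lit 0) (nat_lit 306297694953) (nat_lit 152) (nat_lit 828584229312) (nat_lit 0) (nat_lit 304881397122) (nat_lit 1) (nat_lit 5) (nat_lit 3) (nat_lit 4) (nat_lit 1) (nat_lit 4) (nat_lit 312) (nat_lit 249) (nat_lit 219)) (XT.nd (nat_lit 78) (nat_lit 0) (nat_lit 0) (XT.lf (nat_lit 0) (nat_lit 354488441993) (nat_lit 152) (nat_lit 947799703157) (nat_lit 0) (nat_lit 353069311322) (nat_lit 1) (nat_lit 5) (nat_lit 3)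 (nat_lit 4) (nat_lit 1) (nat_lit 4) (nat_lit 313) (nat_lit 249) (nat_lit 218)) (XT.lf (nat_lit 0) (nat_lit 409898983337) (nat_lit 152) (nat_lit 1084915665737) (nat_lit 0) (nat_lit 408477389327) (nat_lit 1) (nat_lit 5) (nat_lit 3) (nat_lit 4) (nat_lit 1) (nat_lit 4) (nat_lit 314) (nat_lit 249) (nat_lit 217))))) (XT.nd (nat_lit 156) (nat_lit 0) (nat_lit 0) (XT.nd (nat_lit 78) (nat_lit 0) (nat_lit 0) (XT.lf (nat_lit 0) (nat_lit 473613438272) (nat_lit 152) (nat_lit 1242614820668) (nat_lit 0) (nat_lit 472189702228) (nat_lit 1) (nat_lit 5) (nat_lit 3) (nat_lit 4) (nat_lit 1) (nat_lit 4) (nat_lit 315) (nat_lit 249) (nat_lit 216)) (XT.lf (nat_lit 0) (nat_lit 546878393959) (nat_lit 152) (nat_lit 1423982586198) (nat_lit 0) (nat_lit 545452795277) (nat_lit 1) (nat_lit 5) (nat_lit 3) (nat_lit 4) (nat_lit 1) (nat_lit 4) (nat_lit 316) (nat_lit 249) (nat_lit 215))) (XT.nd (nat_lit 78) (nat_lit 0) (nat_lit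 0) (XT.lf (nat_lit 0) (nat_lit 631127295184) (nat_lit 152) (nat_lit 1632567462088) (nat_lit 0) (nat_lit 629700076817) (nat_lit 1) (nat_lit 5) (nat_lit 3) (nat_lit 4) (nat_lit 1) (nat_lit 4) (nat_lit 317) (nat_lit 249) (nat_lit 214)) (XT.nd (nat_lit 78) (nat_lit 0) (nat_lit 0) (XT.lf (nat_lit 0) (nat_lit 728008490015) (nat_lit 152) (nat_lit 1872450456779) (nat_lit 0) (nat_lit 726579863226) (nat_lit 1) (nat_lit 5) (nat_lit 3) (nat_lit 4) (nat_lit 1) (nat_lit 4) (nat_lit 318) (nat_lit 249) (nat_lit 213)) (XT.lf (nat_lit 0) (nat_lit 839417480089) (nat_lit 152) (nat_lit 2148324933211) (nat_lit 0) (nat_lit 837987628585) (nat_lit 1) (nat_lit 5) (nat_lit 3) (nat_lit 4) (nat_lit 1) (nat_lit 4) (nat_lit 319) (nat_lit 249) (nat_lit 212))))))) (XT.nd (nat_lit 780) (nat_lit 0) (nat_lit 0) (XT.nd (nat_lit 390) (nat_lit 0) (nat_lit 0) (XT.nd (nat_lit 156) (nat_lit 0) (nat_lit 0) (XT.nd (nat_lit 78)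 (nat_lit 0) (nat_lit 0) (XT.lf (nat_lit 0) (nat_lit 967534006517) (nat_lit 152) (nat_lit 2465588435488) (nat_lit 0) (nat_lit 966103090043) (nat_lit 1) (nat_lit 5) (nat_lit 3) (nat_lit 4) (nat_lit 1) (nat_lit 4) (nat_lit 320) (nat_lit 249) (nat_lit 211)) (XT.lf (nat_lit 0) (nat_lit 1114864696989) (nat_lit 152) (nat_lit 2830448293002) (nat_lit 0) (nat_lit 1113432854455) (nat_lit 1) (nat_lit 5) (nat_lit 3) (nat_lit 4) (nat_lit 1) (nat_lit 4) (nat_lit 321) (nat_lit 249) (nat_lit 210))) (XT.nd (nat_lit 78) (nat_lit 0) (nat_lit 0) (XT.lf (nat_lit 0) (nat_lit 1284292108493) (nat_lit 152) (nat_lit 3250043068183) (nat_lit 0) (nat_lit 1282859460689) (nat_lit 1) (nat_lit 5) (nat_lit 3) (nat_lit 4) (nat_lit 1) (nat_lit 4) (nat_lit 322) (nat_lit 249) (nat_lit 209)) (XT.nd (nat_lit 78) (nat_lit 0) (nat_lit 0) (XT.lf (nat_lit 0) (nat_lit 1479131125167) (nat_lit 152) (nat_lit 3732582224023) (nat_lit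 0) (nat_lit 1477697777129) (nat_lit 1) (nat_lit 5) (nat_lit 3) (nat_lit 4) (nat_lit 1) (nat_lit 4) (nat_lit 323) (nat_lit 249) (nat_lit 208)) (XT.lf (nat_lit 0) (nat_lit 1703193814729) (nat_lit 152) (nat_lit 4287506744007) (nat_lit 0) (nat_lit 1701759857791) (nat_lit 1) (nat_lit 5) (nat_lit 3) (nat_lit 4) (nat_lit 1) (nat_lit 4) (nat_lit 324) (nat_lit 249) (nat_lit 207))))) (XT.nd (nat_lit 156) (nat_lit 0) (nat_lit 0) (XT.nd (nat_lit 78) (nat_lit 0) (nat_lit 0) (XT.lf (nat_lit 0) (nat_lit 1960864012409) (nat_lit 152) (nat_lit 4925673847003) (nat_lit 0) (nat_lit 1959429525993) (nat_lit 1) (nat_lit 5) (nat_lit 3) (nat_lit 4) (nat_lit 1) (nat_lit 4) (nat_lit 325) (nat_lit 249) (nat_lit 206)) (XT.lf (nat_lit 0) (nat_lit 2257183091640) (nat_lit 152) (nat_lit 5659569411114) (nat_lit 0) (nat_lit 2255748144808) (nat_lit 1) (nat_lit 5) (nat_lit 3) (nat_lit 4) (nat_lit 1) (nat_lit 4) (nat_lit 326)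 (nat_lit 249) (nat_lit 205))) (XT.nd (nat_lit 78) (nat_lit 0) (nat_lit 0) (XT.lf (nat_lit 0) (nat_lit 2597948599624) (nat_lit 152) (nat_lit 6503552262593) (nat_lit 0) (nat_lit 2596513252431) (nat_lit 1) (nat_lit 5) (nat_lit 3) (nat_lit 4) (nat_lit 1) (nat_lit 4) (nat_lit 327) (nat_lit 249) (nat_lit 204)) (XT.nd (nat_lit 78) (nat_lit 0) (nat_lit 0) (XT.lf (nat_lit 0) (nat_lit 2989827687605) (nat_lit 152) (nat_lit 7474135109406) (nat_lit 0) (nat_lit 2988391992272) (nat_lit 1) (nat_lit 5) (nat_lit 3) (nat_lit 4) (nat_lit 1) (nat_lit 4) (nat_lit 328) (nat_lit 249) (nat_lit 203)) (XT.lf (nat_lit 0) (nat_lit 3440487555130) (nat_lit 152) (nat_lit 8590307615946) (nat_lit 0) (nat_lit 3439051557066) (nat_lit 1) (nat_lit 5) (nat_lit 3) (nat_lit 4) (nat_lit 1) (nat_lit 4) (nat_lit 329) (nat_lit 249) (nat_lit 202)))))) (XT.nd (nat_lit 390) (nat_lit 0) (nat_lit 0) (XT.nd (nat_lit 156) (nat_lit 0) (nat_lit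 0) (XT.nd (nat_lit 78) (nat_lit 0) (nat_lit 0) (XT.lf (nat_lit 0) (nat_lit 3958745460477) (nat_lit 152) (nat_lit 9873907939949) (nat_lit 0) (nat_lit 3957309199169) (nat_lit 1) (nat_lit 5) (nat_lit 3) (nat_lit 4) (nat_lit 1) (nat_lit 4) (nat_lit 330) (nat_lit 249) (nat_lit 201)) (XT.lf (nat_lit 0) (nat_lit 4554741232229) (nat_lit 152) (nat_lit 11350050000798) (nat_lit 0) (nat_lit 4553304742013) (nat_lit 1) (nat_lit 5) (nat_lit 3) (nat_lit 4) (nat_lit 1) (nat_lit 4) (nat_lit 331) (nat_lit 249) (nat_lit 200))) (XT.nd (nat_lit 78) (nat_lit 0) (nat_lit 0) (XT.lf (nat_lit 0) (nat_lit 5240135657223) (nat_lit 152) (nat_lit 13047614838814) (nat_lit 0) (nat_lit 5238698967957) (nat_lit 1) (nat_lit 5) (nat_lit 3) (nat_lit 4) (nat_lit 1) (nat_lit 4) (nat_lit 332) (nat_lit 249) (nat_lit 199)) (XT.nd (nat_lit 78) (nat_lit 0) (nat_lit 0) (XT.lf (nat_lit 0) (nat_lit 6028338626385) (nat_lit 152) (nat_lit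 14999815679090) (nat_lit 0) (nat_lit 6026901764031) (nat_lit 1) (nat_lit 5) (nat_lit 3) (nat_lit 4) (nat_lit 1) (nat_lit 4) (nat_lit 333) (nat_lit 249) (nat_lit 198)) (XT.lf (nat_lit 0) (nat_lit 6934771502154) (nat_lit 152) (nat_lit 17244847755455) (nat_lit 0) (nat_lit 6933334489289) (nat_lit 1) (nat_lit 5) (nat_lit 3) (nat_lit 4) (nat_lit 1) (nat_lit 4) (nat_lit 334) (nat_lit 249) (nat_lit 197))))) (XT.nd (nat_lit 156) (nat_lit 0) (nat_lit 0) (XT.nd (nat_lit 78) (nat_lit 0) (nat_lit 0) (XT.lf (nat_lit 0) (nat_lit 7977168840795) (nat_lit 152) (nat_lit 19826635608535) (nat_lit 0) (nat_lit 7975731697052) (nat_lit 1) (nat_lit 5) (nat_lit 3) (nat_lit 4) (nat_lit 1) (nat_lit 4) (nat_lit 335) (nat_lit 249) (nat_lit 196)) (XT.lf (nat_lit 0) (nat_lit 9175925372847) (nat_lit 152) (nat_lit 22795692478934) (nat_lit 0) (nat_lit 9174488115296) (nat_lit 1) (nat_lit 5) (nat_lit 3) (nat_lit 4) (nat_lit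 1) (nat_lit 4) (nat_lit 336) (nat_lit 249) (nat_lit 195))) (XT.nd (nat_lit 78) (nat_lit 0) (nat_lit 0) (XT.lf (nat_lit 0) (nat_lit 10554495030458) (nat_lit 152) (nat_lit 26210108609768) (nat_lit 0) (nat_lit 10553057673944) (nat_lit 1) (nat_lit 5) (nat_lit 3) (nat_lit 4) (nat_lit 1) (nat_lit 4) (nat_lit 337) (nat_lit 249) (nat_lit 194)) (XT.nd (nat_lit 78) (nat_lit 0) (nat_lit 0) (XT.lf (nat_lit 0) (nat_lit 12139849828669) (nat_lit 152) (nat_lit 30136687794901) (nat_lit 0) (nat_lit 12138412386100) (nat_lit 1) (nat_lit 5) (nat_lit 3) (nat_lit 4) (nat_lit 1) (nat_lit 4) (nat_lit 338) (nat_lit 249) (nat_lit 193)) (XT.lf (nat_lit 0) (nat_lit 13963007578750) (nat_lit 152) (nat_lit 34652254409695) (nat_lit 0) (nat_lit 13961570061350) (nat_lit 1) (nat_lit 5) (nat_lit 3) (nat_lit 4) (nat_lit 1) (nat_lit 4) (nat_lit 339) (nat_lit 249) (nat_lit 192))))))))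
noncomputable def xc28 : XT := (XT.nd (nat_lit 36660) (nat_lit 0) (nat_lit 0) (XT.nd (nat_lit 1092) (nat_lit 0) (nat_lit 0) (XT.nd (nat_lit 702) (nat_lit 0) (nat_lit 0) (XT.nd (nat_lit 156) (nat_lit 0) (nat_lit 0) (XT.nd (nat_lit 78) (nat_lit 0) (nat_lit 0) (XT.lf (nat_lit 0) (nat_lit 16059638758419) (nat_lit 152) (nat_lit 39845156496613) (nat_lit 0) (nat_lit 16058201175949) (nat_lit 1) (nat_lit 5) (nat_lit 3) (nat_lit 4) (nat_lit 1) (nat_lit 4) (nat_lit 340) (nat_lit 249) (nat_lit 191)) (XT.lf (nat_lit 0) (nat_lit 18470764412495) (nat_lit 152) (nat_lit 45816994313876) (nat_lit 0) (nat_lit 18469326773443) (nat_lit 1) (nat_lit 5) (nat_lit 3) (nat_lit 4) (nat_lit 1) (nat_lit 4) (nat_lit 341) (nat_lit 249) (nat_lit 190))) (XT.nd (nat_lit 78) (nat_lit 0) (nat_lit 0) (XT.lf (nat_lit 0) (nat_lit 21243558738559) (nat_lit 152) (nat_lit 52684608166607) (nat_lit 0) (nat_lit 21242121050305) (nat_lit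 1) (nat_lit 5) (nat_lit 3) (nat_lit 4) (nat_lit 1) (nat_lit 4) (nat_lit 342) (nat_lit 249) (nat_lit 189)) (XT.lf (nat_lit 0) (nat_lit 24432272060381) (nat_lit 152) (nat_lit 60582364412791) (nat_lit 0) (nat_lit 24430834329342) (nat_lit 1) (nat_lit 5) (nat_lit 3) (nat_lit 4) (nat_lit 1) (nat_lit 4) (nat_lit 343) (nat_lit 249) (nat_lit 188)))) (XT.nd (nat_lit 156) (nat_lit 0) (nat_lit 0) (XT.nd (nat_lit 78) (nat_lit 0) (nat_lit 0) (XT.lf (nat_lit 0) (nat_lit 56532405804103) (nat_lit 152) (nat_lit 140087496845198) (nat_lit 0) (nat_lit 56530967911147) (nat_lit 1) (nat_lit 5) (nat_lit 3) (nat_lit 4) (nat_lit 1) (nat_lit 4) (nat_lit 349) (nat_lit 249) (nat_lit 182)) (XT.lf (nat_lit 0) (nat_lit 65014445548584) (nat_lit 152) (nat_lit 161095687705973) (nat_lit 0) (nat_lit 65013007639543) (nat_lit 1) (nat_lit 5) (nat_lit 3) (nat_lit 4) (nat_lit 1) (nat_lit 4) (nat_lit 350) (nat_lit 249) (nat_lit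 181))) (XT.nd (nat_lit 78) (nat_lit 0) (nat_lit 0) (XT.lf (nat_lit 0) (nat_lit 74768791204671) (nat_lit 152) (nat_lit 185255107299015) (nat_lit 0) (nat_lit 74767353281644) (nat_lit 1) (nat_lit 5) (nat_lit 3) (nat_lit 4) (nat_lit 1) (nat_lit 4) (nat_lit 351) (nat_lit 249) (nat_lit 180)) (XT.nd (nat_lit 78) (nat_lit 0) (nat_lit 0) (XT.lf (nat_lit 0) (nat_lit 85986288665636) (nat_lit 152) (nat_lit 213038439920712) (nat_lit 0) (nat_lit 85984850730447) (nat_lit 1) (nat_lit 5) (nat_lit 3) (nat_lit 4) (nat_lit 1) (nat_lit 4) (nat_lit 352) (nat_lit 249) (nat_lit 179)) (XT.lf (nat_lit 0) (nat_lit 98886410707889) (nat_lit 152) (nat_lit 244989272513662) (nat_lit 0) (nat_lit 98884972762125) (nat_lit 1) (nat_lit 5) (nat_lit 3) (nat_lit 4) (nat_lit 1) (nat_lit 4) (nat_lit 353) (nat_lit 249) (nat_lit 178)))))) (XT.nd (nat_lit 35178) (nat_lit 0) (nat_lit 152) (XT.nd (nat_lit 34944) (nat_lit 0) (nat_lit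 228) (XT.nd (nat_lit 34866) (nat_lit 0) (nat_lit 380) (XT.lf (nat_lit 0) (nat_lit 113721551023562) (nat_lit 152) (nat_lit 281732730063377) (nat_lit 0) (nat_lit 113720113068601) (nat_lit 1) (nat_lit 5) (nat_lit 3) (nat_lit 4) (nat_lit 1) (nat_lit 4) (nat_lit 354) (nat_lit 249) (nat_lit 177)) (XT.lf (nat_lit 0) (nat_lit 3463682700) (nat_lit 76) (nat_lit 3446167524) (nat_lit 76) (nat_lit 3446167524) (nat_lit 6) (nat_lit 4) (nat_lit 7) (nat_lit 5) (nat_lit 7) (nat_lit 4) (nat_lit 280) (nat_lit 250) (nat_lit 250))) (XT.nd (nat_lit 78) (nat_lit 152) (nat_lit 0) (XT.lf (nat_lit 0) (nat_lit 17984849054) (nat_lit 76) (nat_lit 2675152585) (nat_lit 76) (nat_lit 2389886107) (nat_lit 6) (nat_lit 4) (nat_lit 7) (nat_lit 5) (nat_lit 7) (nat_lit 4) (nat_lit 281) (nat_lit 250) (nat_lit 249)) (XT.nd (nat_lit 78) (nat_lit 0) (nat_lit 0) (XT.lf (nat_lit 0) (nat_lit 2351123045) (nat_lit 152) (nat_lit 21511249674)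 (nat_lit 0) (nat_lit 1887362798) (nat_lit 4) (nat_lit 5) (nat_lit 6) (nat_lit 4) (nat_lit 4) (nat_lit 4) (nat_lit 282) (nat_lit 250) (nat_lit 248)) (XT.lf (nat_lit 0) (nat_lit 7515569827) (nat_lit 152) (nat_lit 14464431337) (nat_lit 0) (nat_lit 6864242241) (nat_lit 4) (nat_lit 5) (nat_lit 6) (nat_lit 4) (nat_lit 4) (nat_lit 4) (nat_lit 283) (nat_lit 250) (nat_lit 247))))) (XT.nd (nat_lit 156) (nat_lit 0) (nat_lit 0) (XT.nd (nat_lit 78) (nat_lit 76) (nat_lit 0) (XT.lf (nat_lit 0) (nat_lit 13065297268) (nat_lit 152) (nat_lit 7145429930) (nat_lit 0) (nat_lit 12250867647) (nat_lit 4) (nat_lit 5) (nat_lit 6) (nat_lit 4) (nat_lit 4) (nat_lit 4) (nat_lit 284) (nat_lit 250) (nat_lit 246)) (XT.lf (nat_lit 0) (nat_lit 646509112) (nat_lit 76) (nat_lit 18489148442) (nat_lit 76) (nat_lit 17532890966) (nat_lit 3) (nat_lit 4) (nat_lit 4) (nat_lit 5) (nat_lit 4) (nat_lit 4) (nat_lit 285) (nat_lit 250)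 (nat_lit 245))) (XT.nd (nat_lit 78) (nat_lit 0) (nat_lit 0) (XT.lf (nat_lit 0) (nat_lit 9758839941) (nat_lit 76) (nat_lit 16409835952) (nat_lit 76) (nat_lit 15330249905) (nat_lit 3) (nat_lit 4) (nat_lit 4) (nat_lit 5) (nat_lit 4) (nat_lit 4) (nat_lit 286) (nat_lit 250) (nat_lit 244)) (XT.nd (nat_lit 78) (nat_lit 0) (nat_lit 0) (XT.lf (nat_lit 0) (nat_lit 19671543911) (nat_lit 76) (nat_lit 14305618636) (nat_lit 76) (nat_lit 13118790354) (nat_lit 3) (nat_lit 4) (nat_lit 4) (nat_lit 5) (nat_lit 4) (nat_lit 4) (nat_lit 287) (nat_lit 250) (nat_lit 243)) (XT.lf (nat_lit 0) (nat_lit 30578565230) (nat_lit 76) (nat_lit 12135327027) (nat_lit 76) (nat_lit 10855244628) (nat_lit 3) (nat_lit 4) (nat_lit 4) (nat_lit 5) (nat_lit 4) (nat_lit 4) (nat_lit 288) (nat_lit 250) (nat_lit 242))))))) (XT.nd (nat_lit 780) (nat_lit 0) (nat_lit 0) (XT.nd (nat_lit 390) (nat_lit 0) (nat_lit 0) (XT.nd (nat_lit 156)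 (nat_lit 152) (nat_lit 0) (XT.nd (nat_lit 78) (nat_lit 0) (nat_lit 0) (XT.lf (nat_lit 0) (nat_lit 42693302140) (nat_lit 76) (nat_lit 9856498896) (nat_lit 76) (nat_lit 8495325960) (nat_lit 3) (nat_lit 4) (nat_lit 4) (nat_lit 5) (nat_lit 4) (nat_lit 4) (nat_lit 289) (nat_lit 250) (nat_lit 241)) (XT.lf (nat_lit 0) (nat_lit 56252782105) (nat_lit 76) (nat_lit 7424548476) (nat_lit 76) (nat_lit 5992862030) (nat_lit 3) (nat_lit 4) (nat_lit 4) (nat_lit 5) (nat_lit 4) (nat_lit 4) (nat_lit 290) (nat_lit 250) (nat_lit 240))) (XT.nd (nat_lit 78) (nat_lit 152) (nat_lit 0) (XT.lf (nat_lit 0) (nat_lit 71522299295) (nat_lit 76) (nat_lit 4791894129) (nat_lit 76) (nat_lit 3298891586) (nat_lit 3) (nat_lit 4) (nat_lit 4) (nat_lit 5) (nat_lit 4) (nat_lit 4) (nat_lit 291) (nat_lit 250) (nat_lit 239)) (XT.nd (nat_lit 78) (nat_lit 152) (nat_lit 0) (XT.lf (nat_lit 0) (nat_lit 88800605136) (nat_lit 76) (nat_lit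 1907027399) (nat_lit 76) (nat_lit 360706512) (nat_lit 3) (nat_lit 4) (nat_lit 4) (nat_lit 5) (nat_lit 4) (nat_lit 4) (nat_lit 292) (nat_lit 250) (nat_lit 238)) (XT.lf (nat_lit 0) (nat_lit 2874491401) (nat_lit 152) (nat_lit 99840411072) (nat_lit 0) (nat_lit 1489548215) (nat_lit 1) (nat_lit 5) (nat_lit 3) (nat_lit 4) (nat_lit 1) (nat_lit 4) (nat_lit 293) (nat_lit 250) (nat_lit 237))))) (XT.nd (nat_lit 156) (nat_lit 0) (nat_lit 0) (XT.nd (nat_lit 78) (nat_lit 0) (nat_lit 0) (XT.lf (nat_lit 0) (nat_lit 6647543548) (nat_lit 152) (nat_lit 107419946523) (nat_lit 0) (nat_lit 5227542684) (nat_lit 1) (nat_lit 5) (nat_lit 3) (nat_lit 4) (nat_lit 1) (nat_lit 4) (nat_lit 294) (nat_lit 250) (nat_lit 236)) (XT.lf (nat_lit 0) (nat_lit 10877429834) (nat_lit 152) (nat_lit 116361245304) (nat_lit 0) (nat_lit 9426944034) (nat_lit 1) (nat_lit 5) (nat_lit 3) (nat_lit 4) (nat_lit 1) (nat_lit 4) (nat_lit 295)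 (nat_lit 250) (nat_lit 235))) (XT.nd (nat_lit 78) (nat_lit 0) (nat_lit 0) (XT.lf (nat_lit 0) (nat_lit 15646908904) (nat_lit 152) (nat_lit 126839245870) (nat_lit 0) (nat_lit 14169914463) (nat_lit 1) (nat_lit 5) (nat_lit 3) (nat_lit 4) (nat_lit 1) (nat_lit 4) (nat_lit 296) (nat_lit 250) (nat_lit 234)) (XT.nd (nat_lit 78) (nat_lit 0) (nat_lit 0) (XT.lf (nat_lit 0) (nat_lit 21049296652) (nat_lit 152) (nat_lit 139058952579) (nat_lit 0) (nat_lit 19549251220) (nat_lit 1) (nat_lit 5) (nat_lit 3) (nat_lit 4) (nat_lit 1) (nat_lit 4) (nat_lit 297) (nat_lit 250) (nat_lit 233)) (XT.lf (nat_lit 0) (nat_lit 27190291970) (nat_lit 152) (nat_lit 153259446650) (nat_lit 0) (nat_lit 25670202198) (nat_lit 1) (nat_lit 5) (nat_lit 3) (nat_lit 4) (nat_lit 1) (nat_lit 4) (nat_lit 298) (nat_lit 250) (nat_lit 232)))))) (XT.nd (nat_lit 390) (nat_lit 0) (nat_lit 0) (XT.nd (nat_lit 156) (nat_lit 0) (nat_lit 0) (XT.nd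 (nat_lit 78) (nat_lit 0) (nat_lit 0) (XT.lf (nat_lit 0) (nat_lit 34190044766) (nat_lit 152) (nat_lit 169718563836) (nat_lit 0) (nat_lit 32652525133) (nat_lit 1) (nat_lit 5) (nat_lit 3) (nat_lit 4) (nat_lit 1) (nat_lit 4) (nat_lit 299) (nat_lit 250) (nat_lit 231)) (XT.lf (nat_lit 0) (nat_lit 42185506725) (nat_lit 152) (nat_lit 188758330344) (nat_lit 0) (nat_lit 40632830690) (nat_lit 1) (nat_lit 5) (nat_lit 3) (nat_lit 4) (nat_lit 1) (nat_lit 4) (nat_lit 300) (nat_lit 250) (nat_lit 230))) (XT.nd (nat_lit 78) (nat_lit 0) (nat_lit 0) (XT.lf (nat_lit 0) (nat_lit 51333110799) (nat_lit 152) (nat_lit 210751263343) (nat_lit 0) (nat_lit 49767255284) (nat_lit 1) (nat_lit 5) (nat_lit 3) (nat_lit 4) (nat_lit 1) (nat_lit 4) (nat_lit 301) (nat_lit 250) (nat_lit 229)) (XT.nd (nat_lit 78) (nat_lit 0) (nat_lit 0) (XT.lf (nat_lit 0) (nat_lit 61811831849) (nat_lit 152) (nat_lit 236127659350) (nat_lit 0)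 (nat_lit 60234515918) (nat_lit 1) (nat_lit 5) (nat_lit 3) (nat_lit 4) (nat_lit 1) (nat_lit 4) (nat_lit 302) (nat_lit 250) (nat_lit 228)) (XT.lf (nat_lit 0) (nat_lit 73826688331) (nat_lit 152) (nat_lit 265384013067) (nat_lit 0) (nat_lit 72239406820) (nat_lit 1) (nat_lit 5) (nat_lit 3) (nat_lit 4) (nat_lit 1) (nat_lit 4) (nat_lit 303) (nat_lit 250) (nat_lit 227))))) (XT.nd (nat_lit 156) (nat_lit 0) (nat_lit 0) (XT.nd (nat_lit 78) (nat_lit 0) (nat_lit 0) (XT.lf (nat_lit 0) (nat_lit 87612753524) (nat_lit 152) (nat_lit 299092731418) (nat_lit 0) (nat_lit 86016806291) (nat_lit 1) (nat_lit 5) (nat_lit 3) (nat_lit 4) (nat_lit 1) (nat_lit 4) (nat_lit 304) (nat_lit 250) (nat_lit 226)) (XT.lf (nat_lit 0) (nat_lit 103439754790) (nat_lit 152) (nat_lit 337913332802) (nat_lit 0) (nat_lit 101836272148) (nat_lit 1) (nat_lit 5) (nat_lit 3) (nat_lit 4) (nat_lit 1) (nat_lit 4) (nat_lit 305) (nat_lit 250)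 (nat_lit 225))) (XT.nd (nat_lit 78) (nat_lit 0) (nat_lit 0) (XT.lf (nat_lit 0) (nat_lit 121617350851) (nat_lit 152) (nat_lit 382605350727) (nat_lit 0) (nat_lit 120007315678) (nat_lit 1) (nat_lit 5) (nat_lit 3) (nat_lit 4) (nat_lit 1) (nat_lit 4) (nat_lit 306) (nat_lit 250) (nat_lit 224)) (XT.nd (nat_lit 78) (nat_lit 0) (nat_lit 0) (XT.lf (nat_lit 0) (nat_lit 142501190324) (nat_lit 152) (nat_lit 434043194238) (nat_lit 0) (nat_lit 140885457298) (nat_lit 1) (nat_lit 5) (nat_lit 3) (nat_lit 4) (nat_lit 1) (nat_lit 4) (nat_lit 307) (nat_lit 250) (nat_lit 223)) (XT.lf (nat_lit 0) (nat_lit 166499870068) (nat_lit 152) (nat_lit 493233255926) (nat_lit 0) (nat_lit 164879182388) (nat_lit 1) (nat_lit 5) (nat_lit 3) (nat_lit 4) (nat_lit 1) (nat_lit 4) (nat_lit 308) (nat_lit 250) (nat_lit 222))))))))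
noncomputable def xc29 : XT := (XT.nd (nat_lit 1482) (nat_lit 0) (nat_lit 0) (XT.nd (nat_lit 702) (nat_lit 0) (nat_lit 0) (XT.nd (nat_lit 312) (nat_lit 0) (nat_lit 0) (XT.nd (nat_lit 156) (nat_lit 0) (nat_lit 0) (XT.nd (nat_lit 78) (nat_lit 0) (nat_lit 0) (XT.lf (nat_lit 0) (nat_lit 194082929471) (nat_lit 152) (nat_lit 561333602215) (nat_lit 0) (nat_lit 192457933396) (nat_lit 1) (nat_lit 5) (nat_lit 3) (nat_lit 4) (nat_lit 1) (nat_lit 4) (nat_lit 309) (nat_lit 250) (nat_lit 221)) (XT.lf (nat_lit 0) (nat_lit 225790037085) (nat_lit 152) (nat_lit 639676631185) (nat_lit 0) (nat_lit 224161294579) (nat_lit 1) (nat_lit 5) (nat_lit 3) (nat_lit 4) (nat_lit 1) (nat_lit 4) (nat_lit 310) (nat_lit 250) (nat_lit 220))) (XT.nd (nat_lit 78) (nat_lit 0) (nat_lit 0) (XT.lf (nat_lit 0) (nat_lit 262241549364) (nat_lit 152) (nat_lit 729795141228) (nat_lit 0) (nat_lit 260609549093) (nat_lit 1) (nat_lit 5)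 (nat_lit 3) (nat_lit 4) (nat_lit 1) (nat_lit 4) (nat_lit 311) (nat_lit 250) (nat_lit 219)) (XT.lf (nat_lit 0) (nat_lit 304150648070) (nat_lit 152) (nat_lit 833452320585) (nat_lit 0) (nat_lit 302515814959) (nat_lit 1) (nat_lit 5) (nat_lit 3) (nat_lit 4) (nat_lit 1) (nat_lit 4) (nat_lit 312) (nat_lit 250) (nat_lit 218)))) (XT.nd (nat_lit 156) (nat_lit 0) (nat_lit 0) (XT.nd (nat_lit 78) (nat_lit 0) (nat_lit 0) (XT.lf (nat_lit 0) (nat_lit 352337293830) (nat_lit 152) (nat_lit 952676244504) (nat_lit 0) (nat_lit 350699997380) (nat_lit 1) (nat_lit 5) (nat_lit 3) (nat_lit 4) (nat_lit 1) (nat_lit 4) (nat_lit 313) (nat_lit 250) (nat_lit 217)) (XT.lf (nat_lit 0) (nat_lit 407744268843) (nat_lit 152) (nat_lit 1089799554974) (nat_lit 0) (nat_lit 406104830359) (nat_lit 1) (nat_lit 5) (nat_lit 3) (nat_lit 4) (nat_lit 1) (nat_lit 4) (nat_lit 314) (nat_lit 250) (nat_lit 216))) (XT.nd (nat_lit 78) (nat_lit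 0) (nat_lit 0) (XT.lf (nat_lit 0) (nat_lit 471455622621) (nat_lit 152) (nat_lit 1247505099375) (nat_lit 0) (nat_lit 469814321499) (nat_lit 1) (nat_lit 5) (nat_lit 3) (nat_lit 4) (nat_lit 1) (nat_lit 4) (nat_lit 315) (nat_lit 250) (nat_lit 215)) (XT.nd (nat_lit 78) (nat_lit 0) (nat_lit 0) (XT.lf (nat_lit 0) (nat_lit 544717881650) (nat_lit 152) (nat_lit 1428878420965) (nat_lit 0) (nat_lit 543074960843) (nat_lit 1) (nat_lit 5) (nat_lit 3) (nat_lit 4) (nat_lit 1) (nat_lit 4) (nat_lit 316) (nat_lit 250) (nat_lit 214)) (XT.lf (nat_lit 0) (nat_lit 628964437955) (nat_lit 152) (nat_lit 1637468128213) (nat_lit 0) (nat_lit 627320108726) (nat_lit 1) (nat_lit 5) (nat_lit 3) (nat_lit 4) (nat_lit 1) (nat_lit 4) (nat_lit 317) (nat_lit 250) (nat_lit 213)))))) (XT.nd (nat_lit 390) (nat_lit 0) (nat_lit 0) (XT.nd (nat_lit 156) (nat_lit 0) (nat_lit 0) (XT.nd (nat_lit 78) (nat_lit 0) (nat_lit 0) (XT.lf (nat_lit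 0) (nat_lit 725843593725) (nat_lit 152) (nat_lit 1877355324084) (nat_lit 0) (nat_lit 724198039781) (nat_lit 1) (nat_lit 5) (nat_lit 3) (nat_lit 4) (nat_lit 1) (nat_lit 4) (nat_lit 318) (nat_lit 250) (nat_lit 212)) (XT.lf (nat_lit 0) (nat_lit 837250810703) (nat_lit 152) (nat_lit 2153233453716) (nat_lit 0) (nat_lit 835604191789) (nat_lit 1) (nat_lit 5) (nat_lit 3) (nat_lit 4) (nat_lit 1) (nat_lit 4) (nat_lit 319) (nat_lit 250) (nat_lit 211))) (XT.nd (nat_lit 78) (nat_lit 0) (nat_lit 0) (XT.lf (nat_lit 0) (nat_lit 965365795307) (nat_lit 152) (nat_lit 2470500132688) (nat_lit 0) (nat_lit 963718250333) (nat_lit 1) (nat_lit 5) (nat_lit 3) (nat_lit 4) (nat_lit 1) (nat_lit 4) (nat_lit 320) (nat_lit 250) (nat_lit 210)) (XT.nd (nat_lit 78) (nat_lit 0) (nat_lit 0) (XT.lf (nat_lit 0) (nat_lit 1112695145063) (nat_lit 152) (nat_lit 2835362752546) (nat_lit 0) (nat_lit 1111046794820) (nat_lit 1) (nat_lit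 5) (nat_lit 3) (nat_lit 4) (nat_lit 1) (nat_lit 4) (nat_lit 321) (nat_lit 250) (nat_lit 209)) (XT.lf (nat_lit 0) (nat_lit 1282121390728) (nat_lit 152) (nat_lit 3254959929765) (nat_lit 0) (nat_lit 1280472340249) (nat_lit 1) (nat_lit 5) (nat_lit 3) (nat_lit 4) (nat_lit 1) (nat_lit 4) (nat_lit 322) (nat_lit 250) (nat_lit 208))))) (XT.nd (nat_lit 156) (nat_lit 0) (nat_lit 0) (XT.nd (nat_lit 78) (nat_lit 0) (nat_lit 0) (XT.lf (nat_lit 0) (nat_lit 1476959393628) (nat_lit 152) (nat_lit 3737501174335) (nat_lit 0) (nat_lit 1475309734250) (nat_lit 1) (nat_lit 5) (nat_lit 3) (nat_lit 4) (nat_lit 1) (nat_lit 4) (nat_lit 323) (nat_lit 250) (nat_lit 207)) (XT.lf (nat_lit 0) (nat_lit 1701021201648) (nat_lit 152) (nat_lit 4292427510604) (nat_lit 0) (nat_lit 1699371012791) (nat_lit 1) (nat_lit 5) (nat_lit 3) (nat_lit 4) (nat_lit 1) (nat_lit 4) (nat_lit 324) (nat_lit 250) (nat_lit 206))) (XT.nd (nat_lit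 78) (nat_lit 0) (nat_lit 0) (XT.lf (nat_lit 0) (nat_lit 1958690632769) (nat_lit 152) (nat_lit 4930596192980) (nat_lit 0) (nat_lit 1957039983497) (nat_lit 1) (nat_lit 5) (nat_lit 3) (nat_lit 4) (nat_lit 1) (nat_lit 4) (nat_lit 325) (nat_lit 250) (nat_lit 205)) (XT.nd (nat_lit 78) (nat_lit 0) (nat_lit 0) (XT.lf (nat_lit 0) (nat_lit 2255009045427) (nat_lit 152) (nat_lit 5664493130464) (nat_lit 0) (nat_lit 2253357995794) (nat_lit 1) (nat_lit 5) (nat_lit 3) (nat_lit 4) (nat_lit 1) (nat_lit 4) (nat_lit 326) (nat_lit 250) (nat_lit 204)) (XT.lf (nat_lit 0) (nat_lit 2595773973783) (nat_lit 152) (nat_lit 6508477176181) (nat_lit 0) (nat_lit 2594122576010) (nat_lit 1) (nat_lit 5) (nat_lit 3) (nat_lit 4) (nat_lit 1) (nat_lit 4) (nat_lit 327) (nat_lit 250) (nat_lit 203))))))) (XT.nd (nat_lit 780) (nat_lit 0) (nat_lit 0) (XT.nd (nat_lit 390) (nat_lit 0) (nat_lit 0) (XT.nd (nat_lit 156) (nat_lit 0) (nat_lit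 0) (XT.nd (nat_lit 78) (nat_lit 0) (nat_lit 0) (XT.lf (nat_lit 0) (nat_lit 2987652557740) (nat_lit 152) (nat_lit 7479061061461) (nat_lit 0) (nat_lit 2986000857235) (nat_lit 1) (nat_lit 5) (nat_lit 3) (nat_lit 4) (nat_lit 1) (nat_lit 4) (nat_lit 328) (nat_lit 250) (nat_lit 202)) (XT.lf (nat_lit 0) (nat_lit 3438311986983) (nat_lit 152) (nat_lit 8595234471016) (nat_lit 0) (nat_lit 3436660023234) (nat_lit 1) (nat_lit 5) (nat_lit 3) (nat_lit 4) (nat_lit 1) (nat_lit 4) (nat_lit 329) (nat_lit 250) (nat_lit 201))) (XT.nd (nat_lit 78) (nat_lit 0) (nat_lit 0) (XT.lf (nat_lit 0) (nat_lit 3956569511214) (nat_lit 152) (nat_lit 9878835580249) (nat_lit 0) (nat_lit 3954917318558) (nat_lit 1) (nat_lit 5) (nat_lit 3) (nat_lit 4) (nat_lit 1) (nat_lit 4) (nat_lit 330) (nat_lit 250) (nat_lit 200)) (XT.nd (nat_lit 78) (nat_lit 0) (nat_lit 0) (XT.lf (nat_lit 0) (nat_lit 4552564951561) (nat_lit 152) (nat_lit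 11354978323908) (nat_lit 0) (nat_lit 4550912559855) (nat_lit 1) (nat_lit 5) (nat_lit 3) (nat_lit 4) (nat_lit 1) (nat_lit 4) (nat_lit 331) (nat_lit 250) (nat_lit 199)) (XT.lf (nat_lit 0) (nat_lit 5237959088378) (nat_lit 152) (nat_lit 13052543755671) (nat_lit 0) (nat_lit 5236306523584) (nat_lit 1) (nat_lit 5) (nat_lit 3) (nat_lit 4) (nat_lit 1) (nat_lit 4) (nat_lit 332) (nat_lit 250) (nat_lit 198))))) (XT.nd (nat_lit 156) (nat_lit 0) (nat_lit 0) (XT.nd (nat_lit 78) (nat_lit 0) (nat_lit 0) (XT.lf (nat_lit 0) (nat_lit 6026161806951) (nat_lit 152) (nat_lit 15004745112249) (nat_lit 0) (nat_lit 6024509091646) (nat_lit 1) (nat_lit 5) (nat_lit 3) (nat_lit 4) (nat_lit 1) (nat_lit 4) (nat_lit 333) (nat_lit 250) (nat_lit 197)) (XT.lf (nat_lit 0) (nat_lit 6932594464816) (nat_lit 152) (nat_lit 17249777637572) (nat_lit 0) (nat_lit 6930941618632) (nat_lit 1) (nat_lit 5) (nat_lit 3) (nat_lit 4) (nat_lit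 1) (nat_lit 4) (nat_lit 334) (nat_lit 250) (nat_lit 196))) (XT.nd (nat_lit 78) (nat_lit 0) (nat_lit 0) (XT.lf (nat_lit 0) (nat_lit 7974991613975) (nat_lit 152) (nat_lit 19831565881051) (nat_lit 0) (nat_lit 7973338653984) (nat_lit 1) (nat_lit 5) (nat_lit 3) (nat_lit 4) (nat_lit 1) (nat_lit 4) (nat_lit 335) (nat_lit 250) (nat_lit 195)) (XT.nd (nat_lit 78) (nat_lit 0) (nat_lit 0) (XT.lf (nat_lit 0) (nat_lit 9173747981260) (nat_lit 152) (nat_lit 22800623090927) (nat_lit 0) (nat_lit 9172094922306) (nat_lit 1) (nat_lit 5) (nat_lit 3) (nat_lit 4) (nat_lit 1) (nat_lit 4) (nat_lit 336) (nat_lit 250) (nat_lit 194)) (XT.lf (nat_lit 0) (nat_lit 10552317495596) (nat_lit 152) (nat_lit 26215039516958) (nat_lit 0) (nat_lit 10550664350587) (nat_lit 1) (nat_lit 5) (nat_lit 3) (nat_lit 4) (nat_lit 1) (nat_lit 4) (nat_lit 337) (nat_lit 250) (nat_lit 193)))))) (XT.nd (nat_lit 390) (nat_lit 0) (nat_lit 0)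 (XT.nd (nat_lit 156) (nat_lit 0) (nat_lit 0) (XT.nd (nat_lit 78) (nat_lit 0) (nat_lit 0) (XT.lf (nat_lit 0) (nat_lit 12137672169220) (nat_lit 152) (nat_lit 30141618958784) (nat_lit 0) (nat_lit 12136018949380) (nat_lit 1) (nat_lit 5) (nat_lit 3) (nat_lit 4) (nat_lit 1) (nat_lit 4) (nat_lit 338) (nat_lit 250) (nat_lit 192)) (XT.lf (nat_lit 0) (nat_lit 13960829810964) (nat_lit 152) (nat_lit 34657185796789) (nat_lit 0) (nat_lit 13959176526054) (nat_lit 1) (nat_lit 5) (nat_lit 3) (nat_lit 4) (nat_lit 1) (nat_lit 4) (nat_lit 339) (nat_lit 250) (nat_lit 191))) (XT.nd (nat_lit 78) (nat_lit 0) (nat_lit 0) (XT.lf (nat_lit 0) (nat_lit 16057460896427) (nat_lit 152) (nat_lit 39850088077804) (nat_lit 0) (nat_lit 16055807554935) (nat_lit 1) (nat_lit 5) (nat_lit 3) (nat_lit 4) (nat_lit 1) (nat_lit 4) (nat_lit 340) (nat_lit 250) (nat_lit 190)) (XT.nd (nat_lit 78) (nat_lit 0) (nat_lit 0) (XT.lf (nat_lit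 0) (nat_lit 18468586468585) (nat_lit 152) (nat_lit 45821926063848) (nat_lit 0) (nat_lit 18466933077891) (nat_lit 1) (nat_lit 5) (nat_lit 3) (nat_lit 4) (nat_lit 1) (nat_lit 4) (nat_lit 341) (nat_lit 250) (nat_lit 189)) (XT.lf (nat_lit 0) (nat_lit 21241380723416) (nat_lit 152) (nat_lit 52689540063343) (nat_lit 0) (nat_lit 21239727289937) (nat_lit 1) (nat_lit 5) (nat_lit 3) (nat_lit 4) (nat_lit 1) (nat_lit 4) (nat_lit 342) (nat_lit 250) (nat_lit 188))))) (XT.nd (nat_lit 468) (nat_lit 0) (nat_lit 0) (XT.nd (nat_lit 390) (nat_lit 0) (nat_lit 0) (XT.lf (nat_lit 0) (nat_lit 24430093983297) (nat_lit 152) (nat_lit 60587296437150) (nat_lit 0) (nat_lit 24428440512614) (nat_lit 1) (nat_lit 5) (nat_lit 3) (nat_lit 4) (nat_lit 1) (nat_lit 4) (nat_lit 343) (nat_lit 250) (nat_lit 187)) (XT.lf (nat_lit 0) (nat_lit 49154540734983) (nat_lit 152) (nat_lit 121824437347671) (nat_lit 0) (nat_lit 49152887139587)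 (nat_lit 1) (nat_lit 5) (nat_lit 3) (nat_lit 4) (nat_lit 1) (nat_lit 4) (nat_lit 348) (nat_lit 250) (nat_lit 182))) (XT.nd (nat_lit 78) (nat_lit 0) (nat_lit 0) (XT.lf (nat_lit 0) (nat_lit 56530227492601) (nat_lit 152) (nat_lit 140092429352540) (nat_lit 0) (nat_lit 56528573881120) (nat_lit 1) (nat_lit 5) (nat_lit 3) (nat_lit 4) (nat_lit 1) (nat_lit 4) (nat_lit 349) (nat_lit 250) (nat_lit 181)) (XT.nd (nat_lit 78) (nat_lit 0) (nat_lit 0) (XT.lf (nat_lit 0) (nat_lit 65012267213795) (nat_lit 152) (nat_lit 161100620261292) (nat_lit 0) (nat_lit 65010613588328) (nat_lit 1) (nat_lit 5) (nat_lit 3) (nat_lit 4) (nat_lit 1) (nat_lit 4) (nat_lit 350) (nat_lit 250) (nat_lit 180)) (XT.lf (nat_lit 0) (nat_lit 74766612849633) (nat_lit 152) (nat_lit 185260039896054) (nat_lit 0) (nat_lit 74764959212004) (nat_lit 1) (nat_lit 5) (nat_lit 3) (nat_lit 4) (nat_lit 1) (nat_lit 4) (nat_lit 351) (nat_lit 250)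 (nat_lit 179))))))))
noncomputable def xc30 : XT := (XT.nd (nat_lit 36114) (nat_lit 0) (nat_lit 0) (XT.nd (nat_lit 35334) (nat_lit 0) (nat_lit 76) (XT.nd (nat_lit 34944) (nat_lit 0) (nat_lit 228) (XT.nd (nat_lit 156) (nat_lit 0) (nat_lit 0) (XT.nd (nat_lit 78) (nat_lit 0) (nat_lit 0) (XT.lf (nat_lit 0) (nat_lit 85984110292991) (nat_lit 152) (nat_lit 213043372554029) (nat_lit 0) (nat_lit 85982456644786) (nat_lit 1) (nat_lit 5) (nat_lit 3) (nat_lit 4) (nat_lit 1) (nat_lit 4) (nat_lit 352) (nat_lit 250) (nat_lit 178)) (XT.lf (nat_lit 0) (nat_lit 98884232319933) (nat_lit 152) (nat_lit 244994205178525) (nat_lit 0) (nat_lit 98882578662532) (nat_lit 1) (nat_lit 5) (nat_lit 3) (nat_lit 4) (nat_lit 1) (nat_lit 4) (nat_lit 353) (nat_lit 250) (nat_lit 177))) (XT.nd (nat_lit 34710) (nat_lit 0) (nat_lit 456) (XT.lf (nat_lit 0) (nat_lit 113719372622291) (nat_lit 152) (nat_lit 281737662755672) (nat_lit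 0) (nat_lit 113717718956893) (nat_lit 1) (nat_lit 5) (nat_lit 3) (nat_lit 4) (nat_lit 1) (nat_lit 4) (nat_lit 354) (nat_lit 250) (nat_lit 176)) (XT.lf (nat_lit 0) (nat_lit 1264273396) (nat_lit 152) (nat_lit 5965027066) (nat_lit 0) (nat_lit 1264273396) (nat_lit 7) (nat_lit 5) (nat_lit 9) (nat_lit 4) (nat_lit 7) (nat_lit 4) (nat_lit 278) (nat_lit 251) (nat_lit 251)))) (XT.nd (nat_lit 156) (nat_lit 152) (nat_lit 0) (XT.nd (nat_lit 78) (nat_lit 76) (nat_lit 0) (XT.lf (nat_lit 0) (nat_lit 7913211194) (nat_lit 152) (nat_lit 3224117751) (nat_lit 0) (nat_lit 7585154745) (nat_lit 7) (nat_lit 5) (nat_lit 9) (nat_lit 4) (nat_lit 7) (nat_lit 4) (nat_lit 279) (nat_lit 251) (nat_lit 250)) (XT.lf (nat_lit 0) (nat_lit 6471984544) (nat_lit 76) (nat_lit 7444163146) (nat_lit 76) (nat_lit 6830840219) (nat_lit 6) (nat_lit 4) (nat_lit 7) (nat_lit 5) (nat_lit 7) (nat_lit 4) (nat_lit 280) (nat_lit 251) (nat_lit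 249))) (XT.nd (nat_lit 78) (nat_lit 152) (nat_lit 0) (XT.lf (nat_lit 0) (nat_lit 17133484844) (nat_lit 76) (nat_lit 3421564725) (nat_lit 76) (nat_lit 2560183992) (nat_lit 6) (nat_lit 4) (nat_lit 7) (nat_lit 5) (nat_lit 7) (nat_lit 4) (nat_lit 281) (nat_lit 251) (nat_lit 248)) (XT.nd (nat_lit 78) (nat_lit 0) (nat_lit 0) (XT.lf (nat_lit 0) (nat_lit 1913149638) (nat_lit 152) (nat_lit 22968998120) (nat_lit 0) (nat_lit 976555574) (nat_lit 4) (nat_lit 5) (nat_lit 6) (nat_lit 4) (nat_lit 4) (nat_lit 4) (nat_lit 282) (nat_lit 251) (nat_lit 247)) (XT.lf (nat_lit 0) (nat_lit 6896486486) (nat_lit 152) (nat_lit 16287221495) (nat_lit 0) (nat_lit 5796790388) (nat_lit 4) (nat_lit 5) (nat_lit 6) (nat_lit 4) (nat_lit 4) (nat_lit 4) (nat_lit 283) (nat_lit 251) (nat_lit 246)))))) (XT.nd (nat_lit 390) (nat_lit 76) (nat_lit 0) (XT.nd (nat_lit 156) (nat_lit 76) (nat_lit 0) (XT.nd (nat_lit 78) (nat_lit 0) (nat_lit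 0) (XT.lf (nat_lit 0) (nat_lit 12288727027) (nat_lit 152) (nat_lit 9285647664) (nat_lit 0) (nat_lit 11047203073) (nat_lit 4) (nat_lit 5) (nat_lit 6) (nat_lit 4) (nat_lit 4) (nat_lit 4) (nat_lit 284) (nat_lit 251) (nat_lit 245)) (XT.lf (nat_lit 0) (nat_lit 18195371619) (nat_lit 152) (nat_lit 1827289312) (nat_lit 0) (nat_lit 16830519095) (nat_lit 4) (nat_lit 5) (nat_lit 6) (nat_lit 4) (nat_lit 4) (nat_lit 4) (nat_lit 285) (nat_lit 251) (nat_lit 244))) (XT.nd (nat_lit 78) (nat_lit 0) (nat_lit 0) (XT.lf (nat_lit 0) (nat_lit 6842988081) (nat_lit 76) (nat_lit 18172350510) (nat_lit 76) (nat_lit 16700255751) (nat_lit 3) (nat_lit 4) (nat_lit 4) (nat_lit 5) (nat_lit 4) (nat_lit 4) (nat_lit 286) (nat_lit 251) (nat_lit 243)) (XT.nd (nat_lit 78) (nat_lit 0) (nat_lit 0) (XT.lf (nat_lit 0) (nat_lit 16526581239) (nat_lit 76) (nat_lit 16184206825) (nat_lit 76) (nat_lit 14618857948) (nat_lit 3) (nat_lit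 4) (nat_lit 4) (nat_lit 5) (nat_lit 4) (nat_lit 4) (nat_lit 287) (nat_lit 251) (nat_lit 242)) (XT.lf (nat_lit 0) (nat_lit 27234375764) (nat_lit 76) (nat_lit 14114848806) (nat_lit 76) (nat_lit 12468409392) (nat_lit 3) (nat_lit 4) (nat_lit 4) (nat_lit 5) (nat_lit 4) (nat_lit 4) (nat_lit 288) (nat_lit 251) (nat_lit 241))))) (XT.nd (nat_lit 156) (nat_lit 76) (nat_lit 0) (XT.nd (nat_lit 78) (nat_lit 0) (nat_lit 0) (XT.lf (nat_lit 0) (nat_lit 39175871985) (nat_lit 76) (nat_lit 11923789015) (nat_lit 76) (nat_lit 10206836091) (nat_lit 3) (nat_lit 4) (nat_lit 4) (nat_lit 5) (nat_lit 4) (nat_lit 4) (nat_lit 289) (nat_lit 251) (nat_lit 240)) (XT.lf (nat_lit 0) (nat_lit 52584707871) (nat_lit 76) (nat_lit 9568158891) (nat_lit 76) (nat_lit 7789889870) (nat_lit 3) (nat_lit 4) (nat_lit 4) (nat_lit 5) (nat_lit 4) (nat_lit 4) (nat_lit 290) (nat_lit 251) (nat_lit 239))) (XT.nd (nat_lit 78) (nat_lit 76)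 (nat_lit 0) (XT.lf (nat_lit 0) (nat_lit 67723230211) (nat_lit 76) (nat_lit 7001870017) (nat_lit 76) (nat_lit 5170282653) (nat_lit 3) (nat_lit 4) (nat_lit 4) (nat_lit 5) (nat_lit 4) (nat_lit 4) (nat_lit 291) (nat_lit 251) (nat_lit 238)) (XT.nd (nat_lit 78) (nat_lit 76) (nat_lit 0) (XT.lf (nat_lit 0) (nat_lit 84887627486) (nat_lit 76) (nat_lit 4174712396) (nat_lit 76) (nat_lit 2296761253) (nat_lit 3) (nat_lit 4) (nat_lit 4) (nat_lit 5) (nat_lit 4) (nat_lit 4) (nat_lit 292) (nat_lit 251) (nat_lit 237)) (XT.lf (nat_lit 0) (nat_lit 807937836) (nat_lit 152) (nat_lit 181201121) (nat_lit 76) (nat_lit 103563553909) (nat_lit 2) (nat_lit 5) (nat_lit 4) (nat_lit 5) (nat_lit 3) (nat_lit 4) (nat_lit 293) (nat_lit 251) (nat_lit 236))))))) (XT.nd (nat_lit 780) (nat_lit 0) (nat_lit 0) (XT.nd (nat_lit 390) (nat_lit 0) (nat_lit 0) (XT.nd (nat_lit 156) (nat_lit 0) (nat_lit 0) (XT.nd (nat_lit 78) (nat_lit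 0) (nat_lit 0) (XT.lf (nat_lit 0) (nat_lit 4480648022) (nat_lit 152) (nat_lit 112395596342) (nat_lit 0) (nat_lit 2782104416) (nat_lit 1) (nat_lit 5) (nat_lit 3) (nat_lit 4) (nat_lit 1) (nat_lit 4) (nat_lit 294) (nat_lit 251) (nat_lit 235)) (XT.lf (nat_lit 0) (nat_lit 8666399350) (nat_lit 152) (nat_lit 121427828596) (nat_lit 0) (nat_lit 6941347104) (nat_lit 1) (nat_lit 5) (nat_lit 3) (nat_lit 4) (nat_lit 1) (nat_lit 4) (nat_lit 295) (nat_lit 251) (nat_lit 234))) (XT.nd (nat_lit 78) (nat_lit 0) (nat_lit 0) (XT.lf (nat_lit 0) (nat_lit 13397500196) (nat_lit 152) (nat_lit 131984901747) (nat_lit 0) (nat_lit 11649396958) (nat_lit 1) (nat_lit 5) (nat_lit 3) (nat_lit 4) (nat_lit 1) (nat_lit 4) (nat_lit 296) (nat_lit 251) (nat_lit 233)) (XT.nd (nat_lit 78) (nat_lit 0) (nat_lit 0) (XT.lf (nat_lit 0) (nat_lit 18766515576) (nat_lit 152) (nat_lit 144273367227) (nat_lit 0) (nat_lit 16998367997) (nat_lit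 1) (nat_lit 5) (nat_lit 3) (nat_lit 4) (nat_lit 1) (nat_lit 4) (nat_lit 297) (nat_lit 251) (nat_lit 232)) (XT.lf (nat_lit 0) (nat_lit 24878491443) (nat_lit 152) (nat_lit 158533651532) (nat_lit 0) (nat_lit 23092914003) (nat_lit 1) (nat_lit 5) (nat_lit 3) (nat_lit 4) (nat_lit 1) (nat_lit 4) (nat_lit 298) (nat_lit 251) (nat_lit 231))))) (XT.nd (nat_lit 156) (nat_lit 0) (nat_lit 0) (XT.nd (nat_lit 78) (nat_lit 0) (nat_lit 0) (XT.lf (nat_lit 0) (nat_lit 31853009934) (nat_lit 152) (nat_lit 175044760227) (nat_lit 0) (nat_lit 30052276092) (nat_lit 1) (nat_lit 5) (nat_lit 3) (nat_lit 4) (nat_lit 1) (nat_lit 4) (nat_lit 299) (nat_lit 251) (nat_lit 230)) (XT.lf (nat_lit 0) (nat_lit 39826529018) (nat_lit 152) (nat_lit 194129736742) (nat_lit 0) (nat_lit 38012615698) (nat_lit 1) (nat_lit 5) (nat_lit 3) (nat_lit 4) (nat_lit 1) (nat_lit 4) (nat_lit 300) (nat_lit 251) (nat_lit 229))) (XT.nd (nat_lit 78)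 (nat_lit 0) (nat_lit 0) (XT.lf (nat_lit 0) (nat_lit 48955052332) (nat_lit 152) (nat_lit 216161982791) (nat_lit 0) (nat_lit 47129678594) (nat_lit 1) (nat_lit 5) (nat_lit 3) (nat_lit 4) (nat_lit 1) (nat_lit 4) (nat_lit 301) (nat_lit 251) (nat_lit 228)) (XT.nd (nat_lit 78) (nat_lit 0) (nat_lit 0) (XT.lf (nat_lit 0) (nat_lit 59417181416) (nat_lit 152) (nat_lit 241572564058) (nat_lit 0) (nat_lit 57581842099) (nat_lit 1) (nat_lit 5) (nat_lit 3) (nat_lit 4) (nat_lit 1) (nat_lit 4) (nat_lit 302) (nat_lit 251) (nat_lit 227)) (XT.lf (nat_lit 0) (nat_lit 71417610102) (nat_lit 152) (nat_lit 270858644090) (nat_lit 0) (nat_lit 69573605063) (nat_lit 1) (nat_lit 5) (nat_lit 3) (nat_lit 4) (nat_lit 1) (nat_lit 4) (nat_lit 303) (nat_lit 251) (nat_lit 226)))))) (XT.nd (nat_lit 390) (nat_lit 0) (nat_lit 0) (XT.nd (nat_lit 156) (nat_lit 0) (nat_lit 0) (XT.nd (nat_lit 78) (nat_lit 0) (nat_lit 0) (XT.lf (nat_lit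 0) (nat_lit 85191129386) (nat_lit 152) (nat_lit 304593211409) (nat_lit 0) (nat_lit 83339588937) (nat_lit 1) (nat_lit 5) (nat_lit 3) (nat_lit 4) (nat_lit 1) (nat_lit 4) (nat_lit 304) (nat_lit 251) (nat_lit 225)) (XT.lf (nat_lit 0) (nat_lit 101007221166) (nat_lit 152) (nat_lit 343436290157) (nat_lit 0) (nat_lit 99149128186) (nat_lit 1) (nat_lit 5) (nat_lit 3) (nat_lit 4) (nat_lit 1) (nat_lit 4) (nat_lit 305) (nat_lit 251) (nat_lit 224))) (XT.nd (nat_lit 78) (nat_lit 0) (nat_lit 0) (XT.lf (nat_lit 0) (nat_lit 119175330716) (nat_lit 152) (nat_lit 388147853616) (nat_lit 0) (nat_lit 117311539884) (nat_lit 1) (nat_lit 5) (nat_lit 3) (nat_lit 4) (nat_lit 1) (nat_lit 4) (nat_lit 306) (nat_lit 251) (nat_lit 223)) (XT.nd (nat_lit 78) (nat_lit 0) (nat_lit 0) (XT.lf (nat_lit 0) (nat_lit 140050921050) (nat_lit 152) (nat_lit 439602693243) (nat_lit 0) (nat_lit 138182175564) (nat_lit 1) (nat_lit 5) (nat_lit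 3) (nat_lit 4) (nat_lit 1) (nat_lit 4) (nat_lit 307) (nat_lit 251) (nat_lit 222)) (XT.lf (nat_lit 0) (nat_lit 164042427630) (nat_lit 152) (nat_lit 498807534163) (nat_lit 0) (nat_lit 162169373749) (nat_lit 1) (nat_lit 5) (nat_lit 3) (nat_lit 4) (nat_lit 1) (nat_lit 4) (nat_lit 308) (nat_lit 251) (nat_lit 221))))) (XT.nd (nat_lit 156) (nat_lit 0) (nat_lit 0) (XT.nd (nat_lit 78) (nat_lit 0) (nat_lit 0) (XT.lf (nat_lit 0) (nat_lit 191619249498) (nat_lit 152) (nat_lit 566920731957) (nat_lit 0) (nat_lit 189742449186) (nat_lit 1) (nat_lit 5) (nat_lit 3) (nat_lit 4) (nat_lit 1) (nat_lit 4) (nat_lit 309) (nat_lit 251) (nat_lit 220)) (XT.lf (nat_lit 0) (nat_lit 223320933170) (nat_lit 152) (nat_lit 645274936150) (nat_lit 0) (nat_lit 221440875092) (nat_lit 1) (nat_lit 5) (nat_lit 3) (nat_lit 4) (nat_lit 1) (nat_lit 4) (nat_lit 310) (nat_lit 251) (nat_lit 219))) (XT.nd (nat_lit 78) (nat_lit 0) (nat_lit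 0) (XT.lf (nat_lit 0) (nat_lit 259767728977) (nat_lit 152) (nat_lit 735403163778) (nat_lit 0) (nat_lit 257884838059) (nat_lit 1) (nat_lit 5) (nat_lit 3) (nat_lit 4) (nat_lit 1) (nat_lit 4) (nat_lit 311) (nat_lit 251) (nat_lit 218)) (XT.nd (nat_lit 78) (nat_lit 0) (nat_lit 0) (XT.lf (nat_lit 0) (nat_lit 301672726403) (nat_lit 152) (nat_lit 839068793208) (nat_lit 0) (nat_lit 299787372146) (nat_lit 1) (nat_lit 5) (nat_lit 3) (nat_lit 4) (nat_lit 1) (nat_lit 4) (nat_lit 312) (nat_lit 251) (nat_lit 217)) (XT.lf (nat_lit 0) (nat_lit 349855805832) (nat_lit 152) (nat_lit 958300065017) (nat_lit 0) (nat_lit 347968309542) (nat_lit 1) (nat_lit 5) (nat_lit 3) (nat_lit 4) (nat_lit 1) (nat_lit 4) (nat_lit 313) (nat_lit 251) (nat_lit 216))))))))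
noncomputable def xc31 : XT := (XT.nd (nat_lit 1560) (nat_lit 0) (nat_lit 0) (XT.nd (nat_lit 780) (nat_lit 0) (nat_lit 0) (XT.nd (nat_lit 390) (nat_lit 0) (nat_lit 0) (XT.nd (nat_lit 156) (nat_lit 0) (nat_lit 0) (XT.nd (nat_lit 78) (nat_lit 0) (nat_lit 0) (XT.lf (nat_lit 0) (nat_lit 405259679688) (nat_lit 152) (nat_lit 1095429764957) (nat_lit 0) (nat_lit 403370320760) (nat_lit 1) (nat_lit 5) (nat_lit 3) (nat_lit 4) (nat_lit 1) (nat_lit 4) (nat_lit 314) (nat_lit 251) (nat_lit 215)) (XT.lf (nat_lit 0) (nat_lit 468968336808) (nat_lit 152) (nat_lit 1253140865418) (nat_lit 0) (nat_lit 467077358194) (nat_lit 1) (nat_lit 5) (nat_lit 3) (nat_lit 4) (nat_lit 1) (nat_lit 4) (nat_lit 315) (nat_lit 251) (nat_lit 214))) (XT.nd (nat_lit 78) (nat_lit 0) (nat_lit 0) (XT.lf (nat_lit 0) (nat_lit 542228250917) (nat_lit 152) (nat_lit 1434519018366) (nat_lit 0) (nat_lit 540335863881) (nat_lit 1) (nat_lit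 5) (nat_lit 3) (nat_lit 4) (nat_lit 1) (nat_lit 4) (nat_lit 316) (nat_lit 251) (nat_lit 213)) (XT.nd (nat_lit 78) (nat_lit 0) (nat_lit 0) (XT.lf (nat_lit 0) (nat_lit 626472768161) (nat_lit 152) (nat_lit 1643112926793) (nat_lit 0) (nat_lit 624579156410) (nat_lit 1) (nat_lit 5) (nat_lit 3) (nat_lit 4) (nat_lit 1) (nat_lit 4) (nat_lit 317) (nat_lit 251) (nat_lit 212)) (XT.lf (nat_lit 0) (nat_lit 723350150834) (nat_lit 152) (nat_lit 1883003775864) (nat_lit 0) (nat_lit 721455474114) (nat_lit 1) (nat_lit 5) (nat_lit 3) (nat_lit 4) (nat_lit 1) (nat_lit 4) (nat_lit 318) (nat_lit 251) (nat_lit 211))))) (XT.nd (nat_lit 156) (nat_lit 0) (nat_lit 0) (XT.nd (nat_lit 78) (nat_lit 0) (nat_lit 0) (XT.lf (nat_lit 0) (nat_lit 834755825988) (nat_lit 152) (nat_lit 2158885082192) (nat_lit 0) (nat_lit 832860223208) (nat_lit 1) (nat_lit 5) (nat_lit 3) (nat_lit 4) (nat_lit 1) (nat_lit 4) (nat_lit 319) (nat_lit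 251) (nat_lit 210)) (XT.lf (nat_lit 0) (nat_lit 962869469877) (nat_lit 152) (nat_lit 2476154523508) (nat_lit 0) (nat_lit 960973061827) (nat_lit 1) (nat_lit 5) (nat_lit 3) (nat_lit 4) (nat_lit 1) (nat_lit 4) (nat_lit 320) (nat_lit 251) (nat_lit 209))) (XT.nd (nat_lit 78) (nat_lit 0) (nat_lit 0) (XT.lf (nat_lit 0) (nat_lit 1110197653794) (nat_lit 152) (nat_lit 2841019545405) (nat_lit 0) (nat_lit 1108300545509) (nat_lit 1) (nat_lit 5) (nat_lit 3) (nat_lit 4) (nat_lit 1) (nat_lit 4) (nat_lit 321) (nat_lit 251) (nat_lit 208)) (XT.nd (nat_lit 78) (nat_lit 0) (nat_lit 0) (XT.lf (nat_lit 0) (nat_lit 1279622885684) (nat_lit 152) (nat_lit 3260618811353) (nat_lit 0) (nat_lit 1277725168500) (nat_lit 1) (nat_lit 5) (nat_lit 3) (nat_lit 4) (nat_lit 1) (nat_lit 4) (nat_lit 322) (nat_lit 251) (nat_lit 207)) (XT.lf (nat_lit 0) (nat_lit 1474460007042) (nat_lit 152) (nat_lit 3743161872208) (nat_lit 0) (nat_lit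 1472561760380) (nat_lit 1) (nat_lit 5) (nat_lit 3) (nat_lit 4) (nat_lit 1) (nat_lit 4) (nat_lit 323) (nat_lit 251) (nat_lit 206)))))) (XT.nd (nat_lit 390) (nat_lit 0) (nat_lit 0) (XT.nd (nat_lit 156) (nat_lit 0) (nat_lit 0) (XT.nd (nat_lit 78) (nat_lit 0) (nat_lit 0) (XT.lf (nat_lit 0) (nat_lit 1698521048503) (nat_lit 152) (nat_lit 4298089787857) (nat_lit 0) (nat_lit 1696622341425) (nat_lit 1) (nat_lit 5) (nat_lit 3) (nat_lit 4) (nat_lit 1) (nat_lit 4) (nat_lit 324) (nat_lit 251) (nat_lit 205)) (XT.lf (nat_lit 0) (nat_lit 1956189813052) (nat_lit 152) (nat_lit 4936259843605) (nat_lit 0) (nat_lit 1954290705612) (nat_lit 1) (nat_lit 5) (nat_lit 3) (nat_lit 4) (nat_lit 1) (nat_lit 4) (nat_lit 325) (nat_lit 251) (nat_lit 204))) (XT.nd (nat_lit 78) (nat_lit 0) (nat_lit 0) (XT.lf (nat_lit 0) (nat_lit 2252507646082) (nat_lit 152) (nat_lit 5670157975327) (nat_lit 0) (nat_lit 2250608190502) (nat_lit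 1) (nat_lit 5) (nat_lit 3) (nat_lit 4) (nat_lit 1) (nat_lit 4) (nat_lit 326) (nat_lit 251) (nat_lit 203)) (XT.nd (nat_lit 78) (nat_lit 0) (nat_lit 0) (XT.lf (nat_lit 0) (nat_lit 2593272070413) (nat_lit 152) (nat_lit 6514143059512) (nat_lit 0) (nat_lit 2591372312103) (nat_lit 1) (nat_lit 5) (nat_lit 3) (nat_lit 4) (nat_lit 1) (nat_lit 4) (nat_lit 327) (nat_lit 251) (nat_lit 202)) (XT.lf (nat_lit 0) (nat_lit 2985150216087) (nat_lit 152) (nat_lit 7484727847807) (nat_lit 0) (nat_lit 2983250194533) (nat_lit 1) (nat_lit 5) (nat_lit 3) (nat_lit 4) (nat_lit 1) (nat_lit 4) (nat_lit 328) (nat_lit 251) (nat_lit 201))))) (XT.nd (nat_lit 156) (nat_lit 0) (nat_lit 0) (XT.nd (nat_lit 78) (nat_lit 0) (nat_lit 0) (XT.lf (nat_lit 0) (nat_lit 3435809264215) (nat_lit 152) (nat_lit 8600902042592) (nat_lit 0) (nat_lit 3433909013752) (nat_lit 1) (nat_lit 5) (nat_lit 3) (nat_lit 4) (nat_lit 1) (nat_lit 4) (nat_lit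 329) (nat_lit 251) (nat_lit 200)) (XT.lf (nat_lit 0) (nat_lit 3954066457043) (nat_lit 152) (nat_lit 9884503834635) (nat_lit 0) (nat_lit 3952166007529) (nat_lit 1) (nat_lit 5) (nat_lit 3) (nat_lit 4) (nat_lit 1) (nat_lit 4) (nat_lit 330) (nat_lit 251) (nat_lit 199))) (XT.nd (nat_lit 78) (nat_lit 0) (nat_lit 0) (XT.lf (nat_lit 0) (nat_lit 4550061609212) (nat_lit 152) (nat_lit 11360647172041) (nat_lit 0) (nat_lit 4548160986611) (nat_lit 1) (nat_lit 5) (nat_lit 3) (nat_lit 4) (nat_lit 1) (nat_lit 4) (nat_lit 331) (nat_lit 251) (nat_lit 198)) (XT.nd (nat_lit 78) (nat_lit 0) (nat_lit 0) (XT.lf (nat_lit 0) (nat_lit 5235455495439) (nat_lit 152) (nat_lit 13058213120106) (nat_lit 0) (nat_lit 5233554722328) (nat_lit 1) (nat_lit 5) (nat_lit 3) (nat_lit 4) (nat_lit 1) (nat_lit 4) (nat_lit 332) (nat_lit 251) (nat_lit 197)) (XT.lf (nat_lit 0) (nat_lit 6023657996108) (nat_lit 152) (nat_lit 15010414925641)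 (nat_lit 0) (nat_lit 6021757092118) (nat_lit 1) (nat_lit 5) (nat_lit 3) (nat_lit 4) (nat_lit 1) (nat_lit 4) (nat_lit 333) (nat_lit 251) (nat_lit 196))))))) (XT.nd (nat_lit 1092) (nat_lit 0) (nat_lit 0) (XT.nd (nat_lit 390) (nat_lit 0) (nat_lit 0) (XT.nd (nat_lit 156) (nat_lit 0) (nat_lit 0) (XT.nd (nat_lit 78) (nat_lit 0) (nat_lit 0) (XT.lf (nat_lit 0) (nat_lit 6930090464491) (nat_lit 152) (nat_lit 17255447841363) (nat_lit 0) (nat_lit 6928189446693) (nat_lit 1) (nat_lit 5) (nat_lit 3) (nat_lit 4) (nat_lit 1) (nat_lit 4) (nat_lit 334) (nat_lit 251) (nat_lit 195)) (XT.lf (nat_lit 0) (nat_lit 7972487448884) (nat_lit 152) (nat_lit 19837236424319) (nat_lit 0) (nat_lit 7970586332123) (nat_lit 1) (nat_lit 5) (nat_lit 3) (nat_lit 4) (nat_lit 1) (nat_lit 4) (nat_lit 335) (nat_lit 251) (nat_lit 194))) (XT.nd (nat_lit 78) (nat_lit 0) (nat_lit 0) (XT.lf (nat_lit 0) (nat_lit 9171243672894) (nat_lit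 152) (nat_lit 22806293929392) (nat_lit 0) (nat_lit 9169342470078) (nat_lit 1) (nat_lit 5) (nat_lit 3) (nat_lit 4) (nat_lit 1) (nat_lit 4) (nat_lit 336) (nat_lit 251) (nat_lit 193)) (XT.nd (nat_lit 78) (nat_lit 0) (nat_lit 0) (XT.lf (nat_lit 0) (nat_lit 10549813062643) (nat_lit 152) (nat_lit 26220710612116) (nat_lit 0) (nat_lit 10547911784997) (nat_lit 1) (nat_lit 5) (nat_lit 3) (nat_lit 4) (nat_lit 1) (nat_lit 4) (nat_lit 337) (nat_lit 251) (nat_lit 192)) (XT.lf (nat_lit 0) (nat_lit 12135167627930) (nat_lit 152) (nat_lit 30147290277154) (nat_lit 0) (nat_lit 12133266285214) (nat_lit 1) (nat_lit 5) (nat_lit 3) (nat_lit 4) (nat_lit 1) (nat_lit 4) (nat_lit 338) (nat_lit 251) (nat_lit 191))))) (XT.nd (nat_lit 156) (nat_lit 0) (nat_lit 0) (XT.nd (nat_lit 78) (nat_lit 0) (nat_lit 0) (XT.lf (nat_lit 0) (nat_lit 13958325175468) (nat_lit 152) (nat_lit 34662857309257) (nat_lit 0) (nat_lit 13956423776169)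 (nat_lit 1) (nat_lit 5) (nat_lit 3) (nat_lit 4) (nat_lit 1) (nat_lit 4) (nat_lit 339) (nat_lit 251) (nat_lit 190)) (XT.lf (nat_lit 0) (nat_lit 16054956179013) (nat_lit 152) (nat_lit 39855759759051) (nat_lit 0) (nat_lit 16053054730512) (nat_lit 1) (nat_lit 5) (nat_lit 3) (nat_lit 4) (nat_lit 1) (nat_lit 4) (nat_lit 340) (nat_lit 251) (nat_lit 189))) (XT.nd (nat_lit 78) (nat_lit 0) (nat_lit 0) (XT.lf (nat_lit 0) (nat_lit 18466081679938) (nat_lit 152) (nat_lit 45827597891860) (nat_lit 0) (nat_lit 18464180188653) (nat_lit 1) (nat_lit 5) (nat_lit 3) (nat_lit 4) (nat_lit 1) (nat_lit 4) (nat_lit 341) (nat_lit 251) (nat_lit 188)) (XT.nd (nat_lit 78) (nat_lit 0) (nat_lit 0) (XT.lf (nat_lit 0) (nat_lit 21238875872827) (nat_lit 152) (nat_lit 52695212018977) (nat_lit 0) (nat_lit 21236974344338) (nat_lit 1) (nat_lit 5) (nat_lit 3) (nat_lit 4) (nat_lit 1) (nat_lit 4) (nat_lit 342) (nat_lit 251) (nat_lit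 187)) (XT.lf (nat_lit 0) (nat_lit 24427589078845) (nat_lit 152) (nat_lit 60592968503760) (nat_lit 0) (nat_lit 24425687518005) (nat_lit 1) (nat_lit 5) (nat_lit 3) (nat_lit 4) (nat_lit 1) (nat_lit 4) (nat_lit 343) (nat_lit 251) (nat_lit 186)))))) (XT.nd (nat_lit 390) (nat_lit 0) (nat_lit 0) (XT.nd (nat_lit 156) (nat_lit 0) (nat_lit 0) (XT.nd (nat_lit 78) (nat_lit 0) (nat_lit 0) (XT.lf (nat_lit 0) (nat_lit 49152035649977) (nat_lit 152) (nat_lit 121830109786288) (nat_lit 0) (nat_lit 49150133980689) (nat_lit 1) (nat_lit 5) (nat_lit 3) (nat_lit 4) (nat_lit 1) (nat_lit 4) (nat_lit 348) (nat_lit 251) (nat_lit 181)) (XT.lf (nat_lit 0) (nat_lit 56527722384307) (nat_lit 152) (nat_lit 140098101839135) (nat_lit 0) (nat_lit 56525820701034) (nat_lit 1) (nat_lit 5) (nat_lit 3) (nat_lit 4) (nat_lit 1) (nat_lit 4) (nat_lit 349) (nat_lit 251) (nat_lit 180))) (XT.nd (nat_lit 78) (nat_lit 0) (nat_lit 0) (XT.lf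 (nat_lit 0) (nat_lit 65009762085253) (nat_lit 152) (nat_lit 161106292789607) (nat_lit 0) (nat_lit 65007860389817) (nat_lit 1) (nat_lit 5) (nat_lit 3) (nat_lit 4) (nat_lit 1) (nat_lit 4) (nat_lit 350) (nat_lit 251) (nat_lit 179)) (XT.nd (nat_lit 78) (nat_lit 0) (nat_lit 0) (XT.lf (nat_lit 0) (nat_lit 74764107703483) (nat_lit 152) (nat_lit 185265712460647) (nat_lit 0) (nat_lit 74762205997472) (nat_lit 1) (nat_lit 5) (nat_lit 3) (nat_lit 4) (nat_lit 1) (nat_lit 4) (nat_lit 351) (nat_lit 251) (nat_lit 178)) (XT.lf (nat_lit 0) (nat_lit 85981605131530) (nat_lit 152) (nat_lit 213049045150169) (nat_lit 0) (nat_lit 85979703416322) (nat_lit 1) (nat_lit 5) (nat_lit 3) (nat_lit 4) (nat_lit 1) (nat_lit 4) (nat_lit 352) (nat_lit 251) (nat_lit 177))))) (XT.nd (nat_lit 34632) (nat_lit 0) (nat_lit 456) (XT.nd (nat_lit 78) (nat_lit 0) (nat_lit 0) (XT.lf (nat_lit 0) (nat_lit 98881727145158) (nat_lit 152)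 (nat_lit 244999877802096) (nat_lit 0) (nat_lit 98879825421953) (nat_lit 1) (nat_lit 5) (nat_lit 3) (nat_lit 4) (nat_lit 1) (nat_lit 4) (nat_lit 353) (nat_lit 251) (nat_lit 176)) (XT.lf (nat_lit 0) (nat_lit 113716867435939) (nat_lit 152) (nat_lit 281743335403096) (nat_lit 0) (nat_lit 113714965705781) (nat_lit 1) (nat_lit 5) (nat_lit 3) (nat_lit 4) (nat_lit 1) (nat_lit 4) (nat_lit 354) (nat_lit 251) (nat_lit 175))) (XT.nd (nat_lit 78) (nat_lit 152) (nat_lit 0) (XT.lf (nat_lit 0) (nat_lit 445356260) (nat_lit 76) (nat_lit 3316055027) (nat_lit 76) (nat_lit 3316055027) (nat_lit 9) (nat_lit 4) (nat_lit 10) (nat_lit 5) (nat_lit 10) (nat_lit 4) (nat_lit 276) (nat_lit 252) (nat_lit 252)) (XT.nd (nat_lit 78) (nat_lit 152) (nat_lit 0) (XT.lf (nat_lit 0) (nat_lit 10860585475) (nat_lit 76) (nat_lit 2529367395) (nat_lit 76) (nat_lit 2095512741) (nat_lit 9) (nat_lit 4) (nat_lit 10) (nat_lit 5) (nat_lit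 10) (nat_lit 4) (nat_lit 277) (nat_lit 252) (nat_lit 251)) (XT.lf (nat_lit 0) (nat_lit 2661145923) (nat_lit 152) (nat_lit 12407119792) (nat_lit 0) (nat_lit 1955824558) (nat_lit 7) (nat_lit 5) (nat_lit 9) (nat_lit 4) (nat_lit 7) (nat_lit 4) (nat_lit 278) (nat_lit 252) (nat_lit 250))))))))
noncomputable def xc32 : XT := (XT.nd (nat_lit 1482) (nat_lit 0) (nat_lit 0) (XT.nd (nat_lit 702) (nat_lit 152) (nat_lit 0) (XT.nd (nat_lit 312) (nat_lit 76) (nat_lit 0) (XT.nd (nat_lit 156) (nat_lit 152) (nat_lit 0) (XT.nd (nat_lit 78) (nat_lit 76) (nat_lit 0) (XT.lf (nat_lit 0) (nat_lit 7833057467) (nat_lit 152) (nat_lit 4116023114) (nat_lit 0) (nat_lit 6842469624) (nat_lit 7) (nat_lit 5) (nat_lit 9) (nat_lit 4) (nat_lit 7) (nat_lit 4) (nat_lit 279) (nat_lit 252) (nat_lit 249)) (XT.lf (nat_lit 0) (nat_lit 5096932349) (nat_lit 76) (nat_lit 8497121149) (nat_lit 76) (nat_lit 7258475500) (nat_lit 6) (nat_lit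 4) (nat_lit 7) (nat_lit 5) (nat_lit 7) (nat_lit 4) (nat_lit 280) (nat_lit 252) (nat_lit 248))) (XT.nd (nat_lit 78) (nat_lit 152) (nat_lit 0) (XT.lf (nat_lit 0) (nat_lit 15414099298) (nat_lit 76) (nat_lit 4643726243) (nat_lit 76) (nat_lit 3189378154) (nat_lit 6) (nat_lit 4) (nat_lit 7) (nat_lit 5) (nat_lit 7) (nat_lit 4) (nat_lit 281) (nat_lit 252) (nat_lit 247)) (XT.lf (nat_lit 0) (nat_lit 591125743) (nat_lit 76) (nat_lit 447498057) (nat_lit 152) (nat_lit 25001280396) (nat_lit 4) (nat_lit 5) (nat_lit 5) (nat_lit 5) (nat_lit 6) (nat_lit 4) (nat_lit 282) (nat_lit 252) (nat_lit 246)))) (XT.nd (nat_lit 156) (nat_lit 76) (nat_lit 0) (XT.nd (nat_lit 78) (nat_lit 0) (nat_lit 0) (XT.lf (nat_lit 0) (nat_lit 5845943808) (nat_lit 152) (nat_lit 19065899464) (nat_lit 0) (nat_lit 4276363406) (nat_lit 4) (nat_lit 5) (nat_lit 6) (nat_lit 4) (nat_lit 4) (nat_lit 4) (nat_lit 283) (nat_lit 252) (nat_lit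 245)) (XT.lf (nat_lit 0) (nat_lit 11101239219) (nat_lit 152) (nat_lit 12340349612) (nat_lit 0) (nat_lit 9408330246) (nat_lit 4) (nat_lit 5) (nat_lit 6) (nat_lit 4) (nat_lit 4) (nat_lit 4) (nat_lit 284) (nat_lit 252) (nat_lit 244))) (XT.nd (nat_lit 78) (nat_lit 76) (nat_lit 0) (XT.lf (nat_lit 0) (nat_lit 16888801090) (nat_lit 152) (nat_lit 5122012111) (nat_lit 0) (nat_lit 15088649882) (nat_lit 4) (nat_lit 5) (nat_lit 6) (nat_lit 4) (nat_lit 4) (nat_lit 4) (nat_lit 285) (nat_lit 252) (nat_lit 243)) (XT.nd (nat_lit 78) (nat_lit 0) (nat_lit 0) (XT.lf (nat_lit 0) (nat_lit 2997170196) (nat_lit 76) (nat_lit 20448800556) (nat_lit 76) (nat_lit 18555395230) (nat_lit 3) (nat_lit 4) (nat_lit 4) (nat_lit 5) (nat_lit 4) (nat_lit 4) (nat_lit 286) (nat_lit 252) (nat_lit 242)) (XT.lf (nat_lit 0) (nat_lit 12481536561) (nat_lit 76) (nat_lit 18561590461) (nat_lit 76) (nat_lit 16587094598) (nat_lit 3) (nat_lit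 4) (nat_lit 4) (nat_lit 5) (nat_lit 4) (nat_lit 4) (nat_lit 287) (nat_lit 252) (nat_lit 241)))))) (XT.nd (nat_lit 390) (nat_lit 152) (nat_lit 0) (XT.nd (nat_lit 156) (nat_lit 0) (nat_lit 0) (XT.nd (nat_lit 78) (nat_lit 0) (nat_lit 0) (XT.lf (nat_lit 0) (nat_lit 23016090396) (nat_lit 76) (nat_lit 16580000782) (nat_lit 76) (nat_lit 14534991409) (nat_lit 3) (nat_lit 4) (nat_lit 4) (nat_lit 5) (nat_lit 4) (nat_lit 4) (nat_lit 288) (nat_lit 252) (nat_lit 240)) (XT.lf (nat_lit 0) (nat_lit 34806942539) (nat_lit 76) (nat_lit 14465261287) (nat_lit 76) (nat_lit 12358935818) (nat_lit 3) (nat_lit 4) (nat_lit 4) (nat_lit 5) (nat_lit 4) (nat_lit 4) (nat_lit 289) (nat_lit 252) (nat_lit 239))) (XT.nd (nat_lit 78) (nat_lit 0) (nat_lit 0) (XT.lf (nat_lit 0) (nat_lit 48084783574) (nat_lit 76) (nat_lit 12175996637) (nat_lit 76) (nat_lit 10016352823) (nat_lit 3) (nat_lit 4) (nat_lit 4) (nat_lit 5) (nat_lit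 4) (nat_lit 4) (nat_lit 290) (nat_lit 252) (nat_lit 238)) (XT.nd (nat_lit 78) (nat_lit 0) (nat_lit 0) (XT.lf (nat_lit 0) (nat_lit 63109397349) (nat_lit 76) (nat_lit 9667416872) (nat_lit 76) (nat_lit 7461409280) (nat_lit 3) (nat_lit 4) (nat_lit 4) (nat_lit 5) (nat_lit 4) (nat_lit 4) (nat_lit 291) (nat_lit 252) (nat_lit 237)) (XT.lf (nat_lit 0) (nat_lit 80174743697) (nat_lit 76) (nat_lit 6890441083) (nat_lit 76) (nat_lit 4644117163) (nat_lit 3) (nat_lit 4) (nat_lit 4) (nat_lit 5) (nat_lit 4) (nat_lit 4) (nat_lit 292) (nat_lit 252) (nat_lit 236))))) (XT.nd (nat_lit 156) (nat_lit 0) (nat_lit 0) (XT.nd (nat_lit 78) (nat_lit 152) (nat_lit 0) (XT.lf (nat_lit 0) (nat_lit 99614709830) (nat_lit 76) (nat_lit 3790737136) (nat_lit 76) (nat_lit 1509355539) (nat_lit 3) (nat_lit 4) (nat_lit 4) (nat_lit 5) (nat_lit 4) (nat_lit 4) (nat_lit 293) (nat_lit 252) (nat_lit 235)) (XT.lf (nat_lit 0) (nat_lit 1771248006)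 (nat_lit 76) (nat_lit 127875035) (nat_lit 152) (nat_lit 118190520598) (nat_lit 1) (nat_lit 5) (nat_lit 2) (nat_lit 5) (nat_lit 3) (nat_lit 4) (nat_lit 294) (nat_lit 252) (nat_lit 234))) (XT.nd (nat_lit 78) (nat_lit 0) (nat_lit 0) (XT.lf (nat_lit 0) (nat_lit 6041201113) (nat_lit 152) (nat_lit 127424405441) (nat_lit 0) (nat_lit 4007831397) (nat_lit 1) (nat_lit 5) (nat_lit 3) (nat_lit 4) (nat_lit 1) (nat_lit 4) (nat_lit 295) (nat_lit 252) (nat_lit 233)) (XT.nd (nat_lit 78) (nat_lit 0) (nat_lit 0) (XT.lf (nat_lit 0) (nat_lit 10738929590) (nat_lit 152) (nat_lit 138050237362) (nat_lit 0) (nat_lit 8685515533) (nat_lit 1) (nat_lit 5) (nat_lit 3) (nat_lit 4) (nat_lit 1) (nat_lit 4) (nat_lit 296) (nat_lit 252) (nat_lit 232)) (XT.lf (nat_lit 0) (nat_lit 16078925518) (nat_lit 152) (nat_lit 150398493076) (nat_lit 0) (nat_lit 14008081601) (nat_lit 1) (nat_lit 5) (nat_lit 3) (nat_lit 4) (nat_lit 1)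 (nat_lit 4) (nat_lit 297) (nat_lit 252) (nat_lit 231))))))) (XT.nd (nat_lit 780) (nat_lit 0) (nat_lit 0) (XT.nd (nat_lit 390) (nat_lit 0) (nat_lit 0) (XT.nd (nat_lit 156) (nat_lit 0) (nat_lit 0) (XT.nd (nat_lit 78) (nat_lit 0) (nat_lit 0) (XT.lf (nat_lit 0) (nat_lit 22165667080) (nat_lit 152) (nat_lit 164710768890) (nat_lit 0) (nat_lit 20079666761) (nat_lit 1) (nat_lit 5) (nat_lit 3) (nat_lit 4) (nat_lit 1) (nat_lit 4) (nat_lit 298) (nat_lit 252) (nat_lit 230)) (XT.lf (nat_lit 0) (nat_lit 29118242697) (nat_lit 152) (nat_lit 181267087592) (nat_lit 0) (nat_lit 27019062898) (nat_lit 1) (nat_lit 5) (nat_lit 3) (nat_lit 4) (nat_lit 1) (nat_lit 4) (nat_lit 299) (nat_lit 252) (nat_lit 229))) (XT.nd (nat_lit 78) (nat_lit 0) (nat_lit 0) (XT.lf (nat_lit 0) (nat_lit 37072681021) (nat_lit 152) (nat_lit 200391377157) (nat_lit 0) (nat_lit 34962040806) (nat_lit 1) (nat_lit 5) (nat_lit 3) (nat_lit 4)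 (nat_lit 1) (nat_lit 4) (nat_lit 300) (nat_lit 252) (nat_lit 228)) (XT.nd (nat_lit 78) (nat_lit 0) (nat_lit 0) (XT.lf (nat_lit 0) (nat_lit 46184612369) (nat_lit 152) (nat_lit 222457808467) (nat_lit 0) (nat_lit 44064006574) (nat_lit 1) (nat_lit 5) (nat_lit 3) (nat_lit 4) (nat_lit 1) (nat_lit 4) (nat_lit 301) (nat_lit 252) (nat_lit 227)) (XT.lf (nat_lit 0) (nat_lit 56632313658) (nat_lit 152) (nat_lit 247898116048) (nat_lit 0) (nat_lit 54503042141) (nat_lit 1) (nat_lit 5) (nat_lit 3) (nat_lit 4) (nat_lit 1) (nat_lit 4) (nat_lit 302) (nat_lit 252) (nat_lit 226))))) (XT.nd (nat_lit 156) (nat_lit 0) (nat_lit 0) (XT.nd (nat_lit 78) (nat_lit 0) (nat_lit 0) (XT.lf (nat_lit 0) (nat_lit 68620196434) (nat_lit 152) (nat_lit 277210045048) (nat_lit 0) (nat_lit 66483389508) (nat_lit 1) (nat_lit 5) (nat_lit 3) (nat_lit 4) (nat_lit 1) (nat_lit 4) (nat_lit 303) (nat_lit 252) (nat_lit 225)) (XT.lf (nat_lit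 0) (nat_lit 82382806231) (nat_lit 152) (nat_lit 310967089730) (nat_lit 0) (nat_lit 80239446774) (nat_lit 1) (nat_lit 5) (nat_lit 3) (nat_lit 4) (nat_lit 1) (nat_lit 4) (nat_lit 304) (nat_lit 252) (nat_lit 224))) (XT.nd (nat_lit 78) (nat_lit 0) (nat_lit 0) (XT.lf (nat_lit 0) (nat_lit 98189411501) (nat_lit 152) (nat_lit 349829714013) (nat_lit 0) (nat_lit 96040354192) (nat_lit 1) (nat_lit 5) (nat_lit 3) (nat_lit 4) (nat_lit 1) (nat_lit 4) (nat_lit 305) (nat_lit 252) (nat_lit 223)) (XT.nd (nat_lit 78) (nat_lit 0) (nat_lit 0) (XT.lf (nat_lit 0) (nat_lit 116349271912) (nat_lit 152) (nat_lit 394558273588) (nat_lit 0) (nat_lit 114195259949) (nat_lit 1) (nat_lit 5) (nat_lit 3) (nat_lit 4) (nat_lit 1) (nat_lit 4) (nat_lit 306) (nat_lit 252) (nat_lit 222)) (XT.lf (nat_lit 0) (nat_lit 137217689082) (nat_lit 152) (nat_lit 446027892447) (nat_lit 0) (nat_lit 135059368723) (nat_lit 1) (nat_lit 5) (nat_lit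 3) (nat_lit 4) (nat_lit 1) (nat_lit 4) (nat_lit 307) (nat_lit 252) (nat_lit 221)))))) (XT.nd (nat_lit 390) (nat_lit 0) (nat_lit 0) (XT.nd (nat_lit 156) (nat_lit 0) (nat_lit 0) (XT.nd (nat_lit 78) (nat_lit 0) (nat_lit 0) (XT.lf (nat_lit 0) (nat_lit 161202958127) (nat_lit 152) (nat_lit 505245584872) (nat_lit 0) (nat_lit 159040891338) (nat_lit 1) (nat_lit 5) (nat_lit 3) (nat_lit 4) (nat_lit 1) (nat_lit 4) (nat_lit 308) (nat_lit 252) (nat_lit 220)) (XT.lf (nat_lit 0) (nat_lit 188774356053) (nat_lit 152) (nat_lit 573369957889) (nat_lit 0) (nat_lit 186609031498) (nat_lit 1) (nat_lit 5) (nat_lit 3) (nat_lit 4) (nat_lit 1) (nat_lit 4) (nat_lit 309) (nat_lit 252) (nat_lit 219))) (XT.nd (nat_lit 78) (nat_lit 0) (nat_lit 0) (XT.lf (nat_lit 0) (nat_lit 220471323252) (nat_lit 152) (nat_lit 651733879666) (nat_lit 0) (nat_lit 218303165857) (nat_lit 1) (nat_lit 5) (nat_lit 3) (nat_lit 4) (nat_lit 1)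 (nat_lit 4) (nat_lit 310) (nat_lit 252) (nat_lit 218)) (XT.nd (nat_lit 78) (nat_lit 0) (nat_lit 0) (XT.lf (nat_lit 0) (nat_lit 256914017779) (nat_lit 152) (nat_lit 741870557367) (nat_lit 0) (nat_lit 254743397045) (nat_lit 1) (nat_lit 5) (nat_lit 3) (nat_lit 4) (nat_lit 1) (nat_lit 4) (nat_lit 311) (nat_lit 252) (nat_lit 217)) (XT.lf (nat_lit 0) (nat_lit 298815448875) (nat_lit 152) (nat_lit 845543534688) (nat_lit 0) (nat_lit 296642686107) (nat_lit 1) (nat_lit 5) (nat_lit 3) (nat_lit 4) (nat_lit 1) (nat_lit 4) (nat_lit 312) (nat_lit 252) (nat_lit 216))))) (XT.nd (nat_lit 156) (nat_lit 0) (nat_lit 0) (XT.nd (nat_lit 78) (nat_lit 0) (nat_lit 0) (XT.lf (nat_lit 0) (nat_lit 346995427147) (nat_lit 152) (nat_lit 964781195967) (nat_lit 0) (nat_lit 344820801741) (nat_lit 1) (nat_lit 5) (nat_lit 3) (nat_lit 4) (nat_lit 1) (nat_lit 4) (nat_lit 313) (nat_lit 252) (nat_lit 215)) (XT.lf (nat_lit 0)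 (nat_lit 402396604345) (nat_lit 152) (nat_lit 1101916451967) (nat_lit 0) (nat_lit 400220359254) (nat_lit 1) (nat_lit 5) (nat_lit 3) (nat_lit 4) (nat_lit 1) (nat_lit 4) (nat_lit 314) (nat_lit 252) (nat_lit 214))) (XT.nd (nat_lit 78) (nat_lit 0) (nat_lit 0) (XT.lf (nat_lit 0) (nat_lit 466102916544) (nat_lit 152) (nat_lit 1259632383785) (nat_lit 0) (nat_lit 463925263031) (nat_lit 1) (nat_lit 5) (nat_lit 3) (nat_lit 4) (nat_lit 1) (nat_lit 4) (nat_lit 315) (nat_lit 252) (nat_lit 213)) (XT.nd (nat_lit 78) (nat_lit 0) (nat_lit 0) (XT.lf (nat_lit 0) (nat_lit 539360791592) (nat_lit 152) (nat_lit 1441014737913) (nat_lit 0) (nat_lit 537181913364) (nat_lit 1) (nat_lit 5) (nat_lit 3) (nat_lit 4) (nat_lit 1) (nat_lit 4) (nat_lit 316) (nat_lit 252) (nat_lit 212)) (XT.lf (nat_lit 0) (nat_lit 623603535740) (nat_lit 152) (nat_lit 1649612299540) (nat_lit 0) (nat_lit 621423592542) (nat_lit 1) (nat_lit 5)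 (nat_lit 3) (nat_lit 4) (nat_lit 1) (nat_lit 4) (nat_lit 317) (nat_lit 252) (nat_lit 211))))))))
noncomputable def xc33 : XT := (XT.nd (nat_lit 1482) (nat_lit 0) (nat_lit 0) (XT.nd (nat_lit 702) (nat_lit 0) (nat_lit 0) (XT.nd (nat_lit 312) (nat_lit 0) (nat_lit 0) (XT.nd (nat_lit 156) (nat_lit 0) (nat_lit 0) (XT.nd (nat_lit 78) (nat_lit 0) (nat_lit 0) (XT.lf (nat_lit 0) (nat_lit 720479376590) (nat_lit 152) (nat_lit 1889506325307) (nat_lit 0) (nat_lit 718298507332) (nat_lit 1) (nat_lit 5) (nat_lit 3) (nat_lit 4) (nat_lit 1) (nat_lit 4) (nat_lit 318) (nat_lit 252) (nat_lit 210)) (XT.lf (nat_lit 0) (nat_lit 831883711028) (nat_lit 152) (nat_lit 2165390393979) (nat_lit 0) (nat_lit 829702036501) (nat_lit 1) (nat_lit 5) (nat_lit 3) (nat_lit 4) (nat_lit 1) (nat_lit 4) (nat_lit 319) (nat_lit 252) (nat_lit 209))) (XT.nd (nat_lit 78) (nat_lit 0) (nat_lit 0) (XT.lf (nat_lit 0) (nat_lit 959996189077)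 (nat_lit 152) (nat_lit 2482662237334) (nat_lit 0) (nat_lit 957813814315) (nat_lit 1) (nat_lit 5) (nat_lit 3) (nat_lit 4) (nat_lit 1) (nat_lit 4) (nat_lit 320) (nat_lit 252) (nat_lit 208)) (XT.lf (nat_lit 0) (nat_lit 1107323359220) (nat_lit 152) (nat_lit 2847529347959) (nat_lit 0) (nat_lit 1105140375558) (nat_lit 1) (nat_lit 5) (nat_lit 3) (nat_lit 4) (nat_lit 1) (nat_lit 4) (nat_lit 321) (nat_lit 252) (nat_lit 207)))) (XT.nd (nat_lit 156) (nat_lit 0) (nat_lit 0) (XT.nd (nat_lit 78) (nat_lit 0) (nat_lit 0) (XT.lf (nat_lit 0) (nat_lit 1276747709568) (nat_lit 152) (nat_lit 3267130430193) (nat_lit 0) (nat_lit 1274564196429) (nat_lit 1) (nat_lit 5) (nat_lit 3) (nat_lit 4) (nat_lit 1) (nat_lit 4) (nat_lit 322) (nat_lit 252) (nat_lit 206)) (XT.lf (nat_lit 0) (nat_lit 1471584064368) (nat_lit 152) (nat_lit 3749675070428) (nat_lit 0) (nat_lit 1469400090812) (nat_lit 1) (nat_lit 5) (nat_lit 3) (nat_lit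 4) (nat_lit 1) (nat_lit 4) (nat_lit 323) (nat_lit 252) (nat_lit 205))) (XT.nd (nat_lit 78) (nat_lit 0) (nat_lit 0) (XT.lf (nat_lit 0) (nat_lit 1695644439256) (nat_lit 152) (nat_lit 4304604359450) (nat_lit 0) (nat_lit 1693460065339) (nat_lit 1) (nat_lit 5) (nat_lit 3) (nat_lit 4) (nat_lit 1) (nat_lit 4) (nat_lit 324) (nat_lit 252) (nat_lit 204)) (XT.nd (nat_lit 78) (nat_lit 0) (nat_lit 0) (XT.lf (nat_lit 0) (nat_lit 1953312624177) (nat_lit 152) (nat_lit 4942775609436) (nat_lit 0) (nat_lit 1951127902119) (nat_lit 1) (nat_lit 5) (nat_lit 3) (nat_lit 4) (nat_lit 1) (nat_lit 4) (nat_lit 325) (nat_lit 252) (nat_lit 203)) (XT.lf (nat_lit 0) (nat_lit 2249629953182) (nat_lit 152) (nat_lit 5676674779625) (nat_lit 0) (nat_lit 2247444928394) (nat_lit 1) (nat_lit 5) (nat_lit 3) (nat_lit 4) (nat_lit 1) (nat_lit 4) (nat_lit 326) (nat_lit 252) (nat_lit 202)))))) (XT.nd (nat_lit 390) (nat_lit 0) (nat_lit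 0) (XT.nd (nat_lit 156) (nat_lit 0) (nat_lit 0) (XT.nd (nat_lit 78) (nat_lit 0) (nat_lit 0) (XT.lf (nat_lit 0) (nat_lit 2590393939231) (nat_lit 152) (nat_lit 6520660766825) (nat_lit 0) (nat_lit 2588208651199) (nat_lit 1) (nat_lit 5) (nat_lit 3) (nat_lit 4) (nat_lit 1) (nat_lit 4) (nat_lit 327) (nat_lit 252) (nat_lit 201)) (XT.lf (nat_lit 0) (nat_lit 2982271703790) (nat_lit 152) (nat_lit 7491246340351) (nat_lit 0) (nat_lit 2980086186850) (nat_lit 1) (nat_lit 5) (nat_lit 3) (nat_lit 4) (nat_lit 1) (nat_lit 4) (nat_lit 328) (nat_lit 252) (nat_lit 200))) (XT.nd (nat_lit 78) (nat_lit 0) (nat_lit 0) (XT.lf (nat_lit 0) (nat_lit 3432930420513) (nat_lit 152) (nat_lit 8607421217945) (nat_lit 0) (nat_lit 3430744704522) (nat_lit 1) (nat_lit 5) (nat_lit 3) (nat_lit 4) (nat_lit 1) (nat_lit 4) (nat_lit 329) (nat_lit 252) (nat_lit 199)) (XT.nd (nat_lit 78) (nat_lit 0) (nat_lit 0) (XT.lf (nat_lit 0) (nat_lit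 3951187325163) (nat_lit 152) (nat_lit 9891023603735) (nat_lit 0) (nat_lit 3949001436085) (nat_lit 1) (nat_lit 5) (nat_lit 3) (nat_lit 4) (nat_lit 1) (nat_lit 4) (nat_lit 330) (nat_lit 252) (nat_lit 198)) (XT.lf (nat_lit 0) (nat_lit 4547182226743) (nat_lit 152) (nat_lit 11367167457443) (nat_lit 0) (nat_lit 4544996187154) (nat_lit 1) (nat_lit 5) (nat_lit 3) (nat_lit 4) (nat_lit 1) (nat_lit 4) (nat_lit 331) (nat_lit 252) (nat_lit 197))))) (XT.nd (nat_lit 156) (nat_lit 0) (nat_lit 0) (XT.nd (nat_lit 78) (nat_lit 0) (nat_lit 0) (XT.lf (nat_lit 0) (nat_lit 5232575895066) (nat_lit 152) (nat_lit 13064733854466) (nat_lit 0) (nat_lit 5230389724599) (nat_lit 1) (nat_lit 5) (nat_lit 3) (nat_lit 4) (nat_lit 1) (nat_lit 4) (nat_lit 332) (nat_lit 252) (nat_lit 196)) (XT.lf (nat_lit 0) (nat_lit 6020778206253) (nat_lit 152) (nat_lit 15016936050400) (nat_lit 0) (nat_lit 6018591921978) (nat_lit 1) (nat_lit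 5) (nat_lit 3) (nat_lit 4) (nat_lit 1) (nat_lit 4) (nat_lit 333) (nat_lit 252) (nat_lit 195))) (XT.nd (nat_lit 78) (nat_lit 0) (nat_lit 0) (XT.lf (nat_lit 0) (nat_lit 6927210509870) (nat_lit 152) (nat_lit 17261969305599) (nat_lit 0) (nat_lit 6925024126632) (nat_lit 1) (nat_lit 5) (nat_lit 3) (nat_lit 4) (nat_lit 1) (nat_lit 4) (nat_lit 334) (nat_lit 252) (nat_lit 194)) (XT.nd (nat_lit 78) (nat_lit 0) (nat_lit 0) (XT.lf (nat_lit 0) (nat_lit 7969607350988) (nat_lit 152) (nat_lit 19843758183751) (nat_lit 0) (nat_lit 7967420881694) (nat_lit 1) (nat_lit 5) (nat_lit 3) (nat_lit 4) (nat_lit 1) (nat_lit 4) (nat_lit 335) (nat_lit 252) (nat_lit 193)) (XT.lf (nat_lit 0) (nat_lit 9168363450410) (nat_lit 152) (nat_lit 22812815945518) (nat_lit 0) (nat_lit 9166176906287) (nat_lit 1) (nat_lit 5) (nat_lit 3) (nat_lit 4) (nat_lit 1) (nat_lit 4) (nat_lit 336) (nat_lit 252) (nat_lit 192))))))) (XT.nd (nat_lit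 1092) (nat_lit 0) (nat_lit 0) (XT.nd (nat_lit 390) (nat_lit 0) (nat_lit 0) (XT.nd (nat_lit 156) (nat_lit 0) (nat_lit 0) (XT.nd (nat_lit 78) (nat_lit 0) (nat_lit 0) (XT.lf (nat_lit 0) (nat_lit 10546932731823) (nat_lit 152) (nat_lit 26227232851454) (nat_lit 0) (nat_lit 10544746122629) (nat_lit 1) (nat_lit 5) (nat_lit 3) (nat_lit 4) (nat_lit 1) (nat_lit 4) (nat_lit 337) (nat_lit 252) (nat_lit 191)) (XT.lf (nat_lit 0) (nat_lit 12132287202904) (nat_lit 152) (nat_lit 30153812710589) (nat_lit 0) (nat_lit 12130100537128) (nat_lit 1) (nat_lit 5) (nat_lit 3) (nat_lit 4) (nat_lit 1) (nat_lit 4) (nat_lit 338) (nat_lit 252) (nat_lit 190))) (XT.nd (nat_lit 78) (nat_lit 0) (nat_lit 0) (XT.lf (nat_lit 0) (nat_lit 13955444668524) (nat_lit 152) (nat_lit 34669379911471) (nat_lit 0) (nat_lit 13953257953546) (nat_lit 1) (nat_lit 5) (nat_lit 3) (nat_lit 4) (nat_lit 1) (nat_lit 4) (nat_lit 339) (nat_lit 252)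 (nat_lit 189)) (XT.nd (nat_lit 78) (nat_lit 0) (nat_lit 0) (XT.lf (nat_lit 0) (nat_lit 16052075600836) (nat_lit 152) (nat_lit 39862282508031) (nat_lit 0) (nat_lit 16049888843073) (nat_lit 1) (nat_lit 5) (nat_lit 3) (nat_lit 4) (nat_lit 1) (nat_lit 4) (nat_lit 340) (nat_lit 252) (nat_lit 188)) (XT.lf (nat_lit 0) (nat_lit 18463201039819) (nat_lit 152) (nat_lit 45834120768461) (nat_lit 0) (nat_lit 18461014244852) (nat_lit 1) (nat_lit 5) (nat_lit 3) (nat_lit 4) (nat_lit 1) (nat_lit 4) (nat_lit 341) (nat_lit 252) (nat_lit 187))))) (XT.nd (nat_lit 468) (nat_lit 0) (nat_lit 0) (XT.nd (nat_lit 78) (nat_lit 0) (nat_lit 0) (XT.lf (nat_lit 0) (nat_lit 21235995178846) (nat_lit 152) (nat_lit 52701735006554) (nat_lit 0) (nat_lit 21233808351527) (nat_lit 1) (nat_lit 5) (nat_lit 3) (nat_lit 4) (nat_lit 1) (nat_lit 4) (nat_lit 342) (nat_lit 252) (nat_lit 186)) (XT.lf (nat_lit 0) (nat_lit 24424708338027)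 (nat_lit 152) (nat_lit 60599491587837) (nat_lit 0) (nat_lit 24422521482577) (nat_lit 1) (nat_lit 5) (nat_lit 3) (nat_lit 4) (nat_lit 1) (nat_lit 4) (nat_lit 343) (nat_lit 252) (nat_lit 185))) (XT.nd (nat_lit 78) (nat_lit 0) (nat_lit 0) (XT.lf (nat_lit 0) (nat_lit 49149154752153) (nat_lit 152) (nat_lit 121836633193850) (nat_lit 0) (nat_lit 49146967802402) (nat_lit 1) (nat_lit 5) (nat_lit 3) (nat_lit 4) (nat_lit 1) (nat_lit 4) (nat_lit 348) (nat_lit 252) (nat_lit 180)) (XT.nd (nat_lit 78) (nat_lit 0) (nat_lit 0) (XT.lf (nat_lit 0) (nat_lit 56524841466235) (nat_lit 152) (nat_lit 140104625288417) (nat_lit 0) (nat_lit 56522654504322) (nat_lit 1) (nat_lit 5) (nat_lit 3) (nat_lit 4) (nat_lit 1) (nat_lit 4) (nat_lit 349) (nat_lit 252) (nat_lit 179)) (XT.lf (nat_lit 0) (nat_lit 65006881149573) (nat_lit 152) (nat_lit 161112816275167) (nat_lit 0) (nat_lit 65004694177084) (nat_lit 1) (nat_lit 5)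 (nat_lit 3) (nat_lit 4) (nat_lit 1) (nat_lit 4) (nat_lit 350) (nat_lit 252) (nat_lit 178)))))) (XT.nd (nat_lit 34788) (nat_lit 0) (nat_lit 380) (XT.nd (nat_lit 156) (nat_lit 0) (nat_lit 0) (XT.nd (nat_lit 78) (nat_lit 0) (nat_lit 0) (XT.lf (nat_lit 0) (nat_lit 74761226752492) (nat_lit 152) (nat_lit 185272235977754) (nat_lit 0) (nat_lit 74759039770807) (nat_lit 1) (nat_lit 5) (nat_lit 3) (nat_lit 4) (nat_lit 1) (nat_lit 4) (nat_lit 351) (nat_lit 252) (nat_lit 177)) (XT.lf (nat_lit 0) (nat_lit 85978724167225) (nat_lit 152) (nat_lit 213055568694706) (nat_lit 0) (nat_lit 85976537177543) (nat_lit 1) (nat_lit 5) (nat_lit 3) (nat_lit 4) (nat_lit 1) (nat_lit 4) (nat_lit 352) (nat_lit 252) (nat_lit 176))) (XT.nd (nat_lit 34476) (nat_lit 0) (nat_lit 684) (XT.lf (nat_lit 0) (nat_lit 98878846169275) (nat_lit 152) (nat_lit 245006401370487) (nat_lit 0) (nat_lit 98876659172640) (nat_lit 1) (nat_lit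 5) (nat_lit 3) (nat_lit 4) (nat_lit 1) (nat_lit 4) (nat_lit 353) (nat_lit 252) (nat_lit 175)) (XT.nd (nat_lit 78) (nat_lit 152) (nat_lit 0) (XT.lf (nat_lit 0) (nat_lit 4215033630) (nat_lit 76) (nat_lit 892125949) (nat_lit 76) (nat_lit 892125949) (nat_lit 12) (nat_lit 4) (nat_lit 13) (nat_lit 5) (nat_lit 13) (nat_lit 4) (nat_lit 274) (nat_lit 253) (nat_lit 253)) (XT.lf (nat_lit 0) (nat_lit 2831520605) (nat_lit 152) (nat_lit 7847696472) (nat_lit 0) (nat_lit 2332587753) (nat_lit 10) (nat_lit 5) (nat_lit 12) (nat_lit 4) (nat_lit 10) (nat_lit 4) (nat_lit 275) (nat_lit 253) (nat_lit 252))))) (XT.nd (nat_lit 156) (nat_lit 228) (nat_lit 0) (XT.nd (nat_lit 78) (nat_lit 0) (nat_lit 0) (XT.lf (nat_lit 0) (nat_lit 443609517) (nat_lit 76) (nat_lit 7340071376) (nat_lit 76) (nat_lit 6407283870) (nat_lit 9) (nat_lit 4) (nat_lit 10) (nat_lit 5) (nat_lit 10) (nat_lit 4) (nat_lit 276) (nat_lit 253) (nat_lit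 251)) (XT.lf (nat_lit 0) (nat_lit 10024697252) (nat_lit 76) (nat_lit 3419092602) (nat_lit 76) (nat_lit 2109040180) (nat_lit 9) (nat_lit 4) (nat_lit 10) (nat_lit 5) (nat_lit 10) (nat_lit 4) (nat_lit 277) (nat_lit 253) (nat_lit 250))) (XT.nd (nat_lit 78) (nat_lit 76) (nat_lit 0) (XT.lf (nat_lit 0) (nat_lit 2356216279) (nat_lit 152) (nat_lit 13847650663) (nat_lit 0) (nat_lit 931773783) (nat_lit 7) (nat_lit 5) (nat_lit 9) (nat_lit 4) (nat_lit 7) (nat_lit 4) (nat_lit 278) (nat_lit 253) (nat_lit 249)) (XT.nd (nat_lit 78) (nat_lit 76) (nat_lit 0) (XT.lf (nat_lit 0) (nat_lit 7343125338) (nat_lit 152) (nat_lit 5917284162) (nat_lit 0) (nat_lit 5670625035) (nat_lit 7) (nat_lit 5) (nat_lit 9) (nat_lit 4) (nat_lit 7) (nat_lit 4) (nat_lit 279) (nat_lit 253) (nat_lit 248)) (XT.lf (nat_lit 0) (nat_lit 2775305620) (nat_lit 76) (nat_lit 10071810410) (nat_lit 76) (nat_lit 8183607667) (nat_lit 6) (nat_lit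 4) (nat_lit 7) (nat_lit 5) (nat_lit 7) (nat_lit 4) (nat_lit 280) (nat_lit 253) (nat_lit 247))))))))
noncomputable def xc34 : XT := (XT.nd (nat_lit 1482) (nat_lit 0) (nat_lit 0) (XT.nd (nat_lit 702) (nat_lit 152) (nat_lit 0) (XT.nd (nat_lit 312) (nat_lit 76) (nat_lit 0) (XT.nd (nat_lit 156) (nat_lit 152) (nat_lit 0) (XT.nd (nat_lit 78) (nat_lit 0) (nat_lit 0) (XT.lf (nat_lit 0) (nat_lit 12793052264) (nat_lit 76) (nat_lit 6365548996) (nat_lit 76) (nat_lit 4289778913) (nat_lit 6) (nat_lit 4) (nat_lit 7) (nat_lit 5) (nat_lit 7) (nat_lit 4) (nat_lit 281) (nat_lit 253) (nat_lit 246)) (XT.lf (nat_lit 0) (nat_lit 23753675117) (nat_lit 76) (nat_lit 2378424027) (nat_lit 76) (nat_lit 139551910) (nat_lit 6) (nat_lit 4) (nat_lit 7) (nat_lit 5) (nat_lit 7) (nat_lit 4) (nat_lit 282) (nat_lit 253) (nat_lit 245))) (XT.nd (nat_lit 78) (nat_lit 0) (nat_lit 0) (XT.lf (nat_lit 0) (nat_lit 4343387700) (nat_lit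 152) (nat_lit 22854830683) (nat_lit 0) (nat_lit 2273213811) (nat_lit 4) (nat_lit 5) (nat_lit 6) (nat_lit 4) (nat_lit 4) (nat_lit 4) (nat_lit 283) (nat_lit 253) (nat_lit 244)) (XT.lf (nat_lit 0) (nat_lit 9479600389) (nat_lit 152) (nat_lit 16369301682) (nat_lit 0) (nat_lit 7302184265) (nat_lit 4) (nat_lit 5) (nat_lit 6) (nat_lit 4) (nat_lit 4) (nat_lit 4) (nat_lit 284) (nat_lit 253) (nat_lit 243)))) (XT.nd (nat_lit 156) (nat_lit 76) (nat_lit 0) (XT.nd (nat_lit 78) (nat_lit 0) (nat_lit 0) (XT.lf (nat_lit 0) (nat_lit 15163612067) (nat_lit 152) (nat_lit 9359677964) (nat_lit 0) (nat_lit 12892941825) (nat_lit 4) (nat_lit 5) (nat_lit 6) (nat_lit 4) (nat_lit 4) (nat_lit 4) (nat_lit 285) (nat_lit 253) (nat_lit 242)) (XT.lf (nat_lit 0) (nat_lit 21506631658) (nat_lit 152) (nat_lit 1688814719) (nat_lit 0) (nat_lit 19154870879) (nat_lit 4) (nat_lit 5) (nat_lit 6) (nat_lit 4) (nat_lit 4) (nat_lit 4)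 (nat_lit 286) (nat_lit 253) (nat_lit 241))) (XT.nd (nat_lit 78) (nat_lit 0) (nat_lit 0) (XT.lf (nat_lit 0) (nat_lit 7457267697) (nat_lit 76) (nat_lit 21484283574) (nat_lit 76) (nat_lit 19062009284) (nat_lit 3) (nat_lit 4) (nat_lit 4) (nat_lit 5) (nat_lit 4) (nat_lit 4) (nat_lit 287) (nat_lit 253) (nat_lit 240)) (XT.nd (nat_lit 78) (nat_lit 0) (nat_lit 0) (XT.lf (nat_lit 0) (nat_lit 17841177454) (nat_lit 76) (nat_lit 19579014190) (nat_lit 76) (nat_lit 17095423805) (nat_lit 3) (nat_lit 4) (nat_lit 4) (nat_lit 5) (nat_lit 4) (nat_lit 4) (nat_lit 288) (nat_lit 253) (nat_lit 239)) (XT.lf (nat_lit 0) (nat_lit 29501034747) (nat_lit 76) (nat_lit 17530640169) (nat_lit 76) (nat_lit 14993731439) (nat_lit 3) (nat_lit 4) (nat_lit 4) (nat_lit 5) (nat_lit 4) (nat_lit 4) (nat_lit 289) (nat_lit 253) (nat_lit 238)))))) (XT.nd (nat_lit 390) (nat_lit 152) (nat_lit 0) (XT.nd (nat_lit 156) (nat_lit 0) (nat_lit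 0) (XT.nd (nat_lit 78) (nat_lit 0) (nat_lit 0) (XT.lf (nat_lit 0) (nat_lit 42664967216) (nat_lit 76) (nat_lit 15299084627) (nat_lit 76) (nat_lit 12715812120) (nat_lit 3) (nat_lit 4) (nat_lit 4) (nat_lit 5) (nat_lit 4) (nat_lit 4) (nat_lit 290) (nat_lit 253) (nat_lit 237)) (XT.lf (nat_lit 0) (nat_lit 57590530064) (nat_lit 76) (nat_lit 12840686695) (nat_lit 76) (nat_lit 10217097859) (nat_lit 3) (nat_lit 4) (nat_lit 4) (nat_lit 5) (nat_lit 4) (nat_lit 4) (nat_lit 291) (nat_lit 253) (nat_lit 236))) (XT.nd (nat_lit 78) (nat_lit 0) (nat_lit 0) (XT.lf (nat_lit 0) (nat_lit 74569745171) (nat_lit 76) (nat_lit 10107347283) (nat_lit 76) (nat_lit 7448700770) (nat_lit 3) (nat_lit 4) (nat_lit 4) (nat_lit 5) (nat_lit 4) (nat_lit 4) (nat_lit 292) (nat_lit 253) (nat_lit 235)) (XT.nd (nat_lit 78) (nat_lit 0) (nat_lit 0) (XT.lf (nat_lit 0) (nat_lit 93934814574) (nat_lit 76) (nat_lit 7045588011) (nat_lit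 76) (nat_lit 4356456562) (nat_lit 3) (nat_lit 4) (nat_lit 4) (nat_lit 5) (nat_lit 4) (nat_lit 4) (nat_lit 293) (nat_lit 253) (nat_lit 234)) (XT.lf (nat_lit 0) (nat_lit 116064620063) (nat_lit 76) (nat_lit 3595504894) (nat_lit 76) (nat_lit 879864804) (nat_lit 3) (nat_lit 4) (nat_lit 4) (nat_lit 5) (nat_lit 4) (nat_lit 4) (nat_lit 294) (nat_lit 253) (nat_lit 233))))) (XT.nd (nat_lit 156) (nat_lit 0) (nat_lit 0) (XT.nd (nat_lit 78) (nat_lit 0) (nat_lit 0) (XT.lf (nat_lit 0) (nat_lit 2950472546) (nat_lit 152) (nat_lit 134468300168) (nat_lit 0) (nat_lit 569002041) (nat_lit 1) (nat_lit 5) (nat_lit 3) (nat_lit 4) (nat_lit 1) (nat_lit 4) (nat_lit 295) (nat_lit 253) (nat_lit 232)) (XT.lf (nat_lit 0) (nat_lit 7619181572) (nat_lit 152) (nat_lit 145153922324) (nat_lit 0) (nat_lit 5220281206) (nat_lit 1) (nat_lit 5) (nat_lit 3) (nat_lit 4) (nat_lit 1) (nat_lit 4) (nat_lit 296) (nat_lit 253) (nat_lit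 231))) (XT.nd (nat_lit 78) (nat_lit 0) (nat_lit 0) (XT.lf (nat_lit 0) (nat_lit 12933943196) (nat_lit 152) (nat_lit 157554169546) (nat_lit 0) (nat_lit 10519886428) (nat_lit 1) (nat_lit 5) (nat_lit 3) (nat_lit 4) (nat_lit 1) (nat_lit 4) (nat_lit 297) (nat_lit 253) (nat_lit 230)) (XT.nd (nat_lit 78) (nat_lit 0) (nat_lit 0) (XT.lf (nat_lit 0) (nat_lit 18998741883) (nat_lit 152) (nat_lit 171911655368) (nat_lit 0) (nat_lit 16571505636) (nat_lit 1) (nat_lit 5) (nat_lit 3) (nat_lit 4) (nat_lit 1) (nat_lit 4) (nat_lit 298) (nat_lit 253) (nat_lit 229)) (XT.lf (nat_lit 0) (nat_lit 25932236739) (nat_lit 152) (nat_lit 188507287120) (nat_lit 0) (nat_lit 23493540076) (nat_lit 1) (nat_lit 5) (nat_lit 3) (nat_lit 4) (nat_lit 1) (nat_lit 4) (nat_lit 299) (nat_lit 253) (nat_lit 228))))))) (XT.nd (nat_lit 780) (nat_lit 0) (nat_lit 0) (XT.nd (nat_lit 390) (nat_lit 0) (nat_lit 0) (XT.nd (nat_lit 156) (nat_lit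 0) (nat_lit 0) (XT.nd (nat_lit 78) (nat_lit 0) (nat_lit 0) (XT.lf (nat_lit 0) (nat_lit 33870083099) (nat_lit 152) (nat_lit 207665761945) (nat_lit 0) (nat_lit 31421420855) (nat_lit 1) (nat_lit 5) (nat_lit 3) (nat_lit 4) (nat_lit 1) (nat_lit 4) (nat_lit 300) (nat_lit 253) (nat_lit 227)) (XT.lf (nat_lit 0) (nat_lit 42967586651) (nat_lit 152) (nat_lit 229761919569) (nat_lit 0) (nat_lit 40510258685) (nat_lit 1) (nat_lit 5) (nat_lit 3) (nat_lit 4) (nat_lit 1) (nat_lit 4) (nat_lit 301) (nat_lit 253) (nat_lit 226))) (XT.nd (nat_lit 78) (nat_lit 0) (nat_lit 0) (XT.lf (nat_lit 0) (nat_lit 53402742030) (nat_lit 152) (nat_lit 255228076118) (nat_lit 0) (nat_lit 50937878655) (nat_lit 1) (nat_lit 5) (nat_lit 3) (nat_lit 4) (nat_lit 1) (nat_lit 4) (nat_lit 302) (nat_lit 253) (nat_lit 225)) (XT.nd (nat_lit 78) (nat_lit 0) (nat_lit 0) (XT.lf (nat_lit 0) (nat_lit 65379715320) (nat_lit 152) (nat_lit 284562482482)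 (nat_lit 0) (nat_lit 62908299414) (nat_lit 1) (nat_lit 5) (nat_lit 3) (nat_lit 4) (nat_lit 1) (nat_lit 4) (nat_lit 303) (nat_lit 253) (nat_lit 224)) (XT.lf (nat_lit 0) (nat_lit 79132838607) (nat_lit 152) (nat_lit 318339072698) (nat_lit 0) (nat_lit 76655724848) (nat_lit 1) (nat_lit 5) (nat_lit 3) (nat_lit 4) (nat_lit 1) (nat_lit 4) (nat_lit 304) (nat_lit 253) (nat_lit 223))))) (XT.nd (nat_lit 156) (nat_lit 0) (nat_lit 0) (XT.nd (nat_lit 78) (nat_lit 0) (nat_lit 0) (XT.lf (nat_lit 0) (nat_lit 94931194738) (nat_lit 152) (nat_lit 357218693097) (nat_lit 0) (nat_lit 92449126325) (nat_lit 1) (nat_lit 5) (nat_lit 3) (nat_lit 4) (nat_lit 1) (nat_lit 4) (nat_lit 305) (nat_lit 253) (nat_lit 222)) (XT.lf (nat_lit 0) (nat_lit 113083881984) (nat_lit 152) (nat_lit 401962031903) (nat_lit 0) (nat_lit 110597505176) (nat_lit 1) (nat_lit 5) (nat_lit 3) (nat_lit 4) (nat_lit 1) (nat_lit 4) (nat_lit 306) (nat_lit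 253) (nat_lit 221))) (XT.nd (nat_lit 78) (nat_lit 0) (nat_lit 0) (XT.lf (nat_lit 0) (nat_lit 133946061619) (nat_lit 152) (nat_lit 453444502268) (nat_lit 0) (nat_lit 131455938381) (nat_lit 1) (nat_lit 5) (nat_lit 3) (nat_lit 4) (nat_lit 1) (nat_lit 4) (nat_lit 307) (nat_lit 253) (nat_lit 220)) (XT.nd (nat_lit 78) (nat_lit 0) (nat_lit 0) (XT.lf (nat_lit 0) (nat_lit 157925906722) (nat_lit 152) (nat_lit 512673369916) (nat_lit 0) (nat_lit 155432525718) (nat_lit 1) (nat_lit 5) (nat_lit 3) (nat_lit 4) (nat_lit 1) (nat_lit 4) (nat_lit 308) (nat_lit 253) (nat_lit 219)) (XT.lf (nat_lit 0) (nat_lit 185492588175) (nat_lit 152) (nat_lit 580807460518) (nat_lit 0) (nat_lit 182996374332) (nat_lit 1) (nat_lit 5) (nat_lit 3) (nat_lit 4) (nat_lit 1) (nat_lit 4) (nat_lit 309) (nat_lit 253) (nat_lit 218)))))) (XT.nd (nat_lit 390) (nat_lit 0) (nat_lit 0) (XT.nd (nat_lit 156) (nat_lit 0) (nat_lit 0) (XT.nd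 (nat_lit 78) (nat_lit 0) (nat_lit 0) (XT.lf (nat_lit 0) (nat_lit 217185454095) (nat_lit 152) (nat_lit 659179832368) (nat_lit 0) (nat_lit 214686776912) (nat_lit 1) (nat_lit 5) (nat_lit 3) (nat_lit 4) (nat_lit 1) (nat_lit 4) (nat_lit 310) (nat_lit 253) (nat_lit 217)) (XT.lf (nat_lit 0) (nat_lit 253624582291) (nat_lit 152) (nat_lit 749323857960) (nat_lit 0) (nat_lit 251123763075) (nat_lit 1) (nat_lit 5) (nat_lit 3) (nat_lit 4) (nat_lit 1) (nat_lit 4) (nat_lit 311) (nat_lit 253) (nat_lit 216))) (XT.nd (nat_lit 78) (nat_lit 0) (nat_lit 0) (XT.lf (nat_lit 0) (nat_lit 295522912230) (nat_lit 152) (nat_lit 853003224750) (nat_lit 0) (nat_lit 293020230375) (nat_lit 1) (nat_lit 5) (nat_lit 3) (nat_lit 4) (nat_lit 1) (nat_lit 4) (nat_lit 312) (nat_lit 253) (nat_lit 215)) (XT.nd (nat_lit 78) (nat_lit 0) (nat_lit 0) (XT.lf (nat_lit 0) (nat_lit 343700193844) (nat_lit 152) (nat_lit 972246442089) (nat_lit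 0) (nat_lit 341195892304) (nat_lit 1) (nat_lit 5) (nat_lit 3) (nat_lit 4) (nat_lit 1) (nat_lit 4) (nat_lit 313) (nat_lit 253) (nat_lit 214)) (XT.lf (nat_lit 0) (nat_lit 399099026122) (nat_lit 152) (nat_lit 1109386529446) (nat_lit 0) (nat_lit 396593316159) (nat_lit 1) (nat_lit 5) (nat_lit 3) (nat_lit 4) (nat_lit 1) (nat_lit 4) (nat_lit 314) (nat_lit 253) (nat_lit 213))))) (XT.nd (nat_lit 156) (nat_lit 0) (nat_lit 0) (XT.nd (nat_lit 78) (nat_lit 0) (nat_lit 0) (XT.lf (nat_lit 0) (nat_lit 462803299260) (nat_lit 152) (nat_lit 1267106662445) (nat_lit 0) (nat_lit 460296364583) (nat_lit 1) (nat_lit 5) (nat_lit 3) (nat_lit 4) (nat_lit 1) (nat_lit 4) (nat_lit 315) (nat_lit 253) (nat_lit 212)) (XT.lf (nat_lit 0) (nat_lit 536059401211) (nat_lit 152) (nat_lit 1448492669773) (nat_lit 0) (nat_lit 533551401565) (nat_lit 1) (nat_lit 5) (nat_lit 3) (nat_lit 4) (nat_lit 1) (nat_lit 4) (nat_lit 316) (nat_lit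 253) (nat_lit 211))) (XT.nd (nat_lit 78) (nat_lit 0) (nat_lit 0) (XT.lf (nat_lit 0) (nat_lit 620300603536) (nat_lit 152) (nat_lit 1657093408095) (nat_lit 0) (nat_lit 617791677829) (nat_lit 1) (nat_lit 5) (nat_lit 3) (nat_lit 4) (nat_lit 1) (nat_lit 4) (nat_lit 317) (nat_lit 253) (nat_lit 210)) (XT.nd (nat_lit 78) (nat_lit 0) (nat_lit 0) (XT.lf (nat_lit 0) (nat_lit 717175103670) (nat_lit 152) (nat_lit 1896990196206) (nat_lit 0) (nat_lit 714665372693) (nat_lit 1) (nat_lit 5) (nat_lit 3) (nat_lit 4) (nat_lit 1) (nat_lit 4) (nat_lit 318) (nat_lit 253) (nat_lit 209)) (XT.lf (nat_lit 0) (nat_lit 828578272269) (nat_lit 152) (nat_lit 2172876666916) (nat_lit 0) (nat_lit 826067841058) (nat_lit 1) (nat_lit 5) (nat_lit 3) (nat_lit 4) (nat_lit 1) (nat_lit 4) (nat_lit 319) (nat_lit 253) (nat_lit 208))))))))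
noncomputable def xc35 : XT := (XT.nd (nat_lit 1482) (nat_lit 0) (nat_lit 0) (XT.nd (nat_lit 702) (nat_lit 0) (nat_lit 0) (XT.nd (nat_lit 312) (nat_lit 0) (nat_lit 0) (XT.nd (nat_lit 156) (nat_lit 0) (nat_lit 0) (XT.nd (nat_lit 78) (nat_lit 0) (nat_lit 0) (XT.lf (nat_lit 0) (nat_lit 956689736544) (nat_lit 152) (nat_lit 2490150599000) (nat_lit 0) (nat_lit 954178696433) (nat_lit 1) (nat_lit 5) (nat_lit 3) (nat_lit 4) (nat_lit 1) (nat_lit 4) (nat_lit 320) (nat_lit 253) (nat_lit 207)) (XT.lf (nat_lit 0) (nat_lit 1104016025145) (nat_lit 152) (nat_lit 2855019525912) (nat_lit 0) (nat_lit 1101504455556) (nat_lit 1) (nat_lit 5) (nat_lit 3) (nat_lit 4) (nat_lit 1) (nat_lit 4) (nat_lit 321) (nat_lit 253) (nat_lit 206))) (XT.nd (nat_lit 78) (nat_lit 0) (nat_lit 0) (XT.lf (nat_lit 0) (nat_lit 1273439608934) (nat_lit 152) (nat_lit 3274622187525) (nat_lit 0) (nat_lit 1270927578930) (nat_lit 1) (nat_lit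 5) (nat_lit 3) (nat_lit 4) (nat_lit 1) (nat_lit 4) (nat_lit 322) (nat_lit 253) (nat_lit 205)) (XT.lf (nat_lit 0) (nat_lit 1468275297161) (nat_lit 152) (nat_lit 3757168201133) (nat_lit 0) (nat_lit 1465762866795) (nat_lit 1) (nat_lit 5) (nat_lit 3) (nat_lit 4) (nat_lit 1) (nat_lit 4) (nat_lit 323) (nat_lit 253) (nat_lit 204)))) (XT.nd (nat_lit 156) (nat_lit 0) (nat_lit 0) (XT.nd (nat_lit 78) (nat_lit 0) (nat_lit 0) (XT.lf (nat_lit 0) (nat_lit 1692335092421) (nat_lit 152) (nat_lit 4312098684392) (nat_lit 0) (nat_lit 1689822313915) (nat_lit 1) (nat_lit 5) (nat_lit 3) (nat_lit 4) (nat_lit 1) (nat_lit 4) (nat_lit 324) (nat_lit 253) (nat_lit 203)) (XT.lf (nat_lit 0) (nat_lit 1950002773317) (nat_lit 152) (nat_lit 4950270972846) (nat_lit 0) (nat_lit 1947489692079) (nat_lit 1) (nat_lit 5) (nat_lit 3) (nat_lit 4) (nat_lit 1) (nat_lit 4) (nat_lit 325) (nat_lit 253) (nat_lit 202))) (XT.nd (nat_lit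 78) (nat_lit 0) (nat_lit 0) (XT.lf (nat_lit 0) (nat_lit 2246319664039) (nat_lit 152) (nat_lit 5684171046050) (nat_lit 0) (nat_lit 2243806319558) (nat_lit 1) (nat_lit 5) (nat_lit 3) (nat_lit 4) (nat_lit 1) (nat_lit 4) (nat_lit 326) (nat_lit 253) (nat_lit 201)) (XT.nd (nat_lit 78) (nat_lit 0) (nat_lit 0) (XT.lf (nat_lit 0) (nat_lit 2587083268973) (nat_lit 152) (nat_lit 6528157818481) (nat_lit 0) (nat_lit 2584569695584) (nat_lit 1) (nat_lit 5) (nat_lit 3) (nat_lit 4) (nat_lit 1) (nat_lit 4) (nat_lit 327) (nat_lit 253) (nat_lit 200)) (XT.lf (nat_lit 0) (nat_lit 2978960702128) (nat_lit 152) (nat_lit 7498744074816) (nat_lit 0) (nat_lit 2976446929688) (nat_lit 1) (nat_lit 5) (nat_lit 3) (nat_lit 4) (nat_lit 1) (nat_lit 4) (nat_lit 328) (nat_lit 253) (nat_lit 199)))))) (XT.nd (nat_lit 390) (nat_lit 0) (nat_lit 0) (XT.nd (nat_lit 156) (nat_lit 0) (nat_lit 0) (XT.nd (nat_lit 78) (nat_lit 0) (nat_lit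 0) (XT.lf (nat_lit 0) (nat_lit 3429619130673) (nat_lit 152) (nat_lit 8614919546157) (nat_lit 0) (nat_lit 3427105185147) (nat_lit 1) (nat_lit 5) (nat_lit 3) (nat_lit 4) (nat_lit 1) (nat_lit 4) (nat_lit 329) (nat_lit 253) (nat_lit 198)) (XT.lf (nat_lit 0) (nat_lit 3947875784734) (nat_lit 152) (nat_lit 9898522448249) (nat_lit 0) (nat_lit 3945361688696) (nat_lit 1) (nat_lit 5) (nat_lit 3) (nat_lit 4) (nat_lit 1) (nat_lit 4) (nat_lit 330) (nat_lit 253) (nat_lit 197))) (XT.nd (nat_lit 78) (nat_lit 0) (nat_lit 0) (XT.lf (nat_lit 0) (nat_lit 4543870468410) (nat_lit 152) (nat_lit 11374666750915) (nat_lit 0) (nat_lit 4541356241493) (nat_lit 1) (nat_lit 5) (nat_lit 3) (nat_lit 4) (nat_lit 1) (nat_lit 4) (nat_lit 331) (nat_lit 253) (nat_lit 196)) (XT.nd (nat_lit 78) (nat_lit 0) (nat_lit 0) (XT.lf (nat_lit 0) (nat_lit 5229263947252) (nat_lit 152) (nat_lit 13072233538336) (nat_lit 0) (nat_lit 5226749606528)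 (nat_lit 1) (nat_lit 5) (nat_lit 3) (nat_lit 4) (nat_lit 1) (nat_lit 4) (nat_lit 332) (nat_lit 253) (nat_lit 195)) (XT.lf (nat_lit 0) (nat_lit 6017466093672) (nat_lit 152) (nat_lit 15024436073747) (nat_lit 0) (nat_lit 6014951653985) (nat_lit 1) (nat_lit 5) (nat_lit 3) (nat_lit 4) (nat_lit 1) (nat_lit 4) (nat_lit 333) (nat_lit 253) (nat_lit 194))))) (XT.nd (nat_lit 156) (nat_lit 0) (nat_lit 0) (XT.nd (nat_lit 78) (nat_lit 0) (nat_lit 0) (XT.lf (nat_lit 0) (nat_lit 6923898254014) (nat_lit 152) (nat_lit 17269469624143) (nat_lit 0) (nat_lit 6921383728272) (nat_lit 1) (nat_lit 5) (nat_lit 3) (nat_lit 4) (nat_lit 1) (nat_lit 4) (nat_lit 334) (nat_lit 253) (nat_lit 193)) (XT.lf (nat_lit 0) (nat_lit 7966294970544) (nat_lit 152) (nat_lit 19851258758989) (nat_lit 0) (nat_lit 7963780369972) (nat_lit 1) (nat_lit 5) (nat_lit 3) (nat_lit 4) (nat_lit 1) (nat_lit 4) (nat_lit 335) (nat_lit 253) (nat_lit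 192))) (XT.nd (nat_lit 78) (nat_lit 0) (nat_lit 0) (XT.lf (nat_lit 0) (nat_lit 9165050961630) (nat_lit 152) (nat_lit 22820316743967) (nat_lit 0) (nat_lit 9162536295988) (nat_lit 1) (nat_lit 5) (nat_lit 3) (nat_lit 4) (nat_lit 1) (nat_lit 4) (nat_lit 336) (nat_lit 253) (nat_lit 191)) (XT.nd (nat_lit 78) (nat_lit 0) (nat_lit 0) (XT.lf (nat_lit 0) (nat_lit 10543620148837) (nat_lit 152) (nat_lit 26234733844000) (nat_lit 0) (nat_lit 10541105426612) (nat_lit 1) (nat_lit 5) (nat_lit 3) (nat_lit 4) (nat_lit 1) (nat_lit 4) (nat_lit 337) (nat_lit 253) (nat_lit 190)) (XT.lf (nat_lit 0) (nat_lit 12128974538000) (nat_lit 152) (nat_lit 30161313871915) (nat_lit 0) (nat_lit 12126459766573) (nat_lit 1) (nat_lit 5) (nat_lit 3) (nat_lit 4) (nat_lit 1) (nat_lit 4) (nat_lit 338) (nat_lit 253) (nat_lit 189))))))) (XT.nd (nat_lit 1092) (nat_lit 0) (nat_lit 0) (XT.nd (nat_lit 702) (nat_lit 0) (nat_lit 0) (XT.nd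 (nat_lit 156) (nat_lit 0) (nat_lit 0) (XT.nd (nat_lit 78) (nat_lit 0) (nat_lit 0) (XT.lf (nat_lit 0) (nat_lit 13952131932387) (nat_lit 152) (nat_lit 34676881219562) (nat_lit 0) (nat_lit 13949617118175) (nat_lit 1) (nat_lit 5) (nat_lit 3) (nat_lit 4) (nat_lit 1) (nat_lit 4) (nat_lit 339) (nat_lit 253) (nat_lit 188)) (XT.lf (nat_lit 0) (nat_lit 16048762802757) (nat_lit 152) (nat_lit 39869783943744) (nat_lit 0) (nat_lit 16046247951341) (nat_lit 1) (nat_lit 5) (nat_lit 3) (nat_lit 4) (nat_lit 1) (nat_lit 4) (nat_lit 340) (nat_lit 253) (nat_lit 187))) (XT.nd (nat_lit 78) (nat_lit 0) (nat_lit 0) (XT.lf (nat_lit 0) (nat_lit 18459888187878) (nat_lit 152) (nat_lit 45841622315150) (nat_lit 0) (nat_lit 18457373304110) (nat_lit 1) (nat_lit 5) (nat_lit 3) (nat_lit 4) (nat_lit 1) (nat_lit 4) (nat_lit 341) (nat_lit 253) (nat_lit 186)) (XT.nd (nat_lit 78) (nat_lit 0) (nat_lit 0) (XT.lf (nat_lit 0) (nat_lit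 21232682280067) (nat_lit 152) (nat_lit 52709236649744) (nat_lit 0) (nat_lit 21230167368169) (nat_lit 1) (nat_lit 5) (nat_lit 3) (nat_lit 4) (nat_lit 1) (nat_lit 4) (nat_lit 342) (nat_lit 253) (nat_lit 185)) (XT.lf (nat_lit 0) (nat_lit 24421395398521) (nat_lit 152) (nat_lit 60606993314940) (nat_lit 0) (nat_lit 24418880462160) (nat_lit 1) (nat_lit 5) (nat_lit 3) (nat_lit 4) (nat_lit 1) (nat_lit 4) (nat_lit 343) (nat_lit 253) (nat_lit 184))))) (XT.nd (nat_lit 156) (nat_lit 0) (nat_lit 0) (XT.nd (nat_lit 78) (nat_lit 0) (nat_lit 0) (XT.lf (nat_lit 0) (nat_lit 49145841676121) (nat_lit 152) (nat_lit 121844135202244) (nat_lit 0) (nat_lit 49143326657759) (nat_lit 1) (nat_lit 5) (nat_lit 3) (nat_lit 4) (nat_lit 1) (nat_lit 4) (nat_lit 348) (nat_lit 253) (nat_lit 179)) (XT.lf (nat_lit 0) (nat_lit 56521528372596) (nat_lit 152) (nat_lit 140112127333089) (nat_lit 0) (nat_lit 56519013343658) (nat_lit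 1) (nat_lit 5) (nat_lit 3) (nat_lit 4) (nat_lit 1) (nat_lit 4) (nat_lit 349) (nat_lit 253) (nat_lit 178))) (XT.nd (nat_lit 78) (nat_lit 0) (nat_lit 0) (XT.lf (nat_lit 0) (nat_lit 65003568040622) (nat_lit 152) (nat_lit 161120318351386) (nat_lit 0) (nat_lit 65001053002488) (nat_lit 1) (nat_lit 5) (nat_lit 3) (nat_lit 4) (nat_lit 1) (nat_lit 4) (nat_lit 350) (nat_lit 253) (nat_lit 177)) (XT.nd (nat_lit 78) (nat_lit 0) (nat_lit 0) (XT.lf (nat_lit 0) (nat_lit 74757913630228) (nat_lit 152) (nat_lit 185279738081403) (nat_lit 0) (nat_lit 74755398584097) (nat_lit 1) (nat_lit 5) (nat_lit 3) (nat_lit 4) (nat_lit 1) (nat_lit 4) (nat_lit 351) (nat_lit 253) (nat_lit 176)) (XT.lf (nat_lit 0) (nat_lit 85975411033382) (nat_lit 152) (nat_lit 213063070822210) (nat_lit 0) (nat_lit 85972895980298) (nat_lit 1) (nat_lit 5) (nat_lit 3) (nat_lit 4) (nat_lit 1) (nat_lit 4) (nat_lit 352) (nat_lit 253) (nat_lit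 175)))))) (XT.nd (nat_lit 34632) (nat_lit 0) (nat_lit 456) (XT.nd (nat_lit 34398) (nat_lit 0) (nat_lit 684) (XT.nd (nat_lit 34320) (nat_lit 0) (nat_lit 912) (XT.lf (nat_lit 0) (nat_lit 98875533025366) (nat_lit 152) (nat_lit 245013903518732) (nat_lit 0) (nat_lit 98873017966235) (nat_lit 1) (nat_lit 5) (nat_lit 3) (nat_lit 4) (nat_lit 1) (nat_lit 4) (nat_lit 353) (nat_lit 253) (nat_lit 174)) (XT.lf (nat_lit 0) (nat_lit 571441782) (nat_lit 152) (nat_lit 4025469262) (nat_lit 0) (nat_lit 571441782) (nat_lit 13) (nat_lit 5) (nat_lit 15) (nat_lit 4) (nat_lit 13) (nat_lit 4) (nat_lit 272) (nat_lit 254) (nat_lit 254))) (XT.nd (nat_lit 78) (nat_lit 228) (nat_lit 0) (XT.lf (nat_lit 0) (nat_lit 5613636308) (nat_lit 152) (nat_lit 550318553) (nat_lit 0) (nat_lit 4953797611) (nat_lit 13) (nat_lit 5) (nat_lit 15) (nat_lit 4) (nat_lit 13) (nat_lit 4) (nat_lit 273) (nat_lit 254) (nat_lit 253)) (XT.nd (nat_lit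 78) (nat_lit 152) (nat_lit 0) (XT.lf (nat_lit 0) (nat_lit 8052229502) (nat_lit 76) (nat_lit 2606356625) (nat_lit 76) (nat_lit 1372745149) (nat_lit 12) (nat_lit 4) (nat_lit 13) (nat_lit 5) (nat_lit 13) (nat_lit 4) (nat_lit 274) (nat_lit 254) (nat_lit 252)) (XT.lf (nat_lit 0) (nat_lit 2933237337) (nat_lit 152) (nat_lit 8723388897) (nat_lit 0) (nat_lit 1426677051) (nat_lit 10) (nat_lit 5) (nat_lit 12) (nat_lit 4) (nat_lit 10) (nat_lit 4) (nat_lit 275) (nat_lit 254) (nat_lit 251))))) (XT.nd (nat_lit 156) (nat_lit 152) (nat_lit 0) (XT.nd (nat_lit 78) (nat_lit 76) (nat_lit 0) (XT.lf (nat_lit 0) (nat_lit 7676106134) (nat_lit 152) (nat_lit 825748965) (nat_lit 0) (nat_lit 5792280932) (nat_lit 10) (nat_lit 5) (nat_lit 12) (nat_lit 4) (nat_lit 10) (nat_lit 4) (nat_lit 276) (nat_lit 254) (nat_lit 250)) (XT.lf (nat_lit 0) (nat_lit 8336566469) (nat_lit 76) (nat_lit 4782096029) (nat_lit 76) (nat_lit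 2570214378) (nat_lit 9) (nat_lit 4) (nat_lit 10) (nat_lit 5) (nat_lit 10) (nat_lit 4) (nat_lit 277) (nat_lit 254) (nat_lit 249))) (XT.nd (nat_lit 78) (nat_lit 0) (nat_lit 0) (XT.lf (nat_lit 0) (nat_lit 1014687468) (nat_lit 76) (nat_lit 618724436) (nat_lit 152) (nat_lit 15686726668) (nat_lit 7) (nat_lit 5) (nat_lit 8) (nat_lit 5) (nat_lit 9) (nat_lit 4) (nat_lit 278) (nat_lit 254) (nat_lit 248)) (XT.nd (nat_lit 78) (nat_lit 0) (nat_lit 0) (XT.lf (nat_lit 0) (nat_lit 6433829178) (nat_lit 152) (nat_lit 8663142959) (nat_lit 0) (nat_lit 4046693583) (nat_lit 7) (nat_lit 5) (nat_lit 9) (nat_lit 4) (nat_lit 7) (nat_lit 4) (nat_lit 279) (nat_lit 254) (nat_lit 247)) (XT.lf (nat_lit 0) (nat_lit 11683011927) (nat_lit 152) (nat_lit 490393913) (nat_lit 0) (nat_lit 9108308992) (nat_lit 7) (nat_lit 5) (nat_lit 9) (nat_lit 4) (nat_lit 7) (nat_lit 4) (nat_lit 280) (nat_lit 254) (nat_lit 246))))))))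
noncomputable def xc36 : XT := (XT.nd (nat_lit 1482) (nat_lit 0) (nat_lit 0) (XT.nd (nat_lit 702) (nat_lit 152) (nat_lit 0) (XT.nd (nat_lit 312) (nat_lit 76) (nat_lit 0) (XT.nd (nat_lit 156) (nat_lit 152) (nat_lit 0) (XT.nd (nat_lit 78) (nat_lit 0) (nat_lit 0) (XT.lf (nat_lit 0) (nat_lit 9219062388) (nat_lit 76) (nat_lit 8620720819) (nat_lit 76) (nat_lit 5882915851) (nat_lit 6) (nat_lit 4) (nat_lit 7) (nat_lit 5) (nat_lit 7) (nat_lit 4) (nat_lit 281) (nat_lit 254) (nat_lit 245)) (XT.lf (nat_lit 0) (nat_lit 19953280473) (nat_lit 76) (nat_lit 4744849908) (nat_lit 76) (nat_lit 1865217084) (nat_lit 6) (nat_lit 4) (nat_lit 7) (nat_lit 5) (nat_lit 7) (nat_lit 4) (nat_lit 282) (nat_lit 254) (nat_lit 244))) (XT.nd (nat_lit 78) (nat_lit 0) (nat_lit 0) (XT.lf (nat_lit 0) (nat_lit 2094404959) (nat_lit 76) (nat_lit 276463112) (nat_lit 152) (nat_lit 27463131051) (nat_lit 4) (nat_lit 5) (nat_lit 5)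 (nat_lit 5) (nat_lit 6) (nat_lit 4) (nat_lit 283) (nat_lit 254) (nat_lit 243)) (XT.lf (nat_lit 0) (nat_lit 7392082820) (nat_lit 152) (nat_lit 21451331197) (nat_lit 0) (nat_lit 4687557924) (nat_lit 4) (nat_lit 5) (nat_lit 6) (nat_lit 4) (nat_lit 4) (nat_lit 4) (nat_lit 284) (nat_lit 254) (nat_lit 242)))) (XT.nd (nat_lit 156) (nat_lit 76) (nat_lit 0) (XT.nd (nat_lit 78) (nat_lit 0) (nat_lit 0) (XT.lf (nat_lit 0) (nat_lit 12986050852) (nat_lit 152) (nat_lit 14623197726) (nat_lit 0) (nat_lit 10200435419) (nat_lit 4) (nat_lit 5) (nat_lit 6) (nat_lit 4) (nat_lit 4) (nat_lit 4) (nat_lit 285) (nat_lit 254) (nat_lit 241)) (XT.lf (nat_lit 0) (nat_lit 19250771620) (nat_lit 152) (nat_lit 7110152087) (nat_lit 0) (nat_lit 16394642677) (nat_lit 4) (nat_lit 5) (nat_lit 6) (nat_lit 4) (nat_lit 4) (nat_lit 4) (nat_lit 286) (nat_lit 254) (nat_lit 240))) (XT.nd (nat_lit 78) (nat_lit 0) (nat_lit 0) (XT.lf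 (nat_lit 0) (nat_lit 1355473736) (nat_lit 76) (nat_lit 25009469288) (nat_lit 76) (nat_lit 22092024249) (nat_lit 3) (nat_lit 4) (nat_lit 4) (nat_lit 5) (nat_lit 4) (nat_lit 4) (nat_lit 287) (nat_lit 254) (nat_lit 239)) (XT.nd (nat_lit 78) (nat_lit 0) (nat_lit 0) (XT.lf (nat_lit 0) (nat_lit 11608388643) (nat_lit 76) (nat_lit 23170565379) (nat_lit 76) (nat_lit 20199801996) (nat_lit 3) (nat_lit 4) (nat_lit 4) (nat_lit 5) (nat_lit 4) (nat_lit 4) (nat_lit 288) (nat_lit 254) (nat_lit 238)) (XT.lf (nat_lit 0) (nat_lit 23154337369) (nat_lit 76) (nat_lit 21179900466) (nat_lit 76) (nat_lit 18162773305) (nat_lit 3) (nat_lit 4) (nat_lit 4) (nat_lit 5) (nat_lit 4) (nat_lit 4) (nat_lit 289) (nat_lit 254) (nat_lit 237)))))) (XT.nd (nat_lit 390) (nat_lit 152) (nat_lit 0) (XT.nd (nat_lit 156) (nat_lit 0) (nat_lit 0) (XT.nd (nat_lit 78) (nat_lit 0) (nat_lit 0) (XT.lf (nat_lit 0) (nat_lit 36219218912) (nat_lit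 76) (nat_lit 18998526757) (nat_lit 76) (nat_lit 15941083268) (nat_lit 3) (nat_lit 4) (nat_lit 4) (nat_lit 5) (nat_lit 4) (nat_lit 4) (nat_lit 290) (nat_lit 254) (nat_lit 236)) (XT.lf (nat_lit 0) (nat_lit 51058650519) (nat_lit 76) (nat_lit 16583765202) (nat_lit 76) (nat_lit 13491264035) (nat_lit 3) (nat_lit 4) (nat_lit 4) (nat_lit 5) (nat_lit 4) (nat_lit 4) (nat_lit 291) (nat_lit 254) (nat_lit 235))) (XT.nd (nat_lit 78) (nat_lit 0) (nat_lit 0) (XT.lf (nat_lit 0) (nat_lit 67962968896) (nat_lit 76) (nat_lit 13888370465) (nat_lit 76) (nat_lit 10765384362) (nat_lit 3) (nat_lit 4) (nat_lit 4) (nat_lit 5) (nat_lit 4) (nat_lit 4) (nat_lit 292) (nat_lit 254) (nat_lit 234)) (XT.nd (nat_lit 78) (nat_lit 0) (nat_lit 0) (XT.lf (nat_lit 0) (nat_lit 87262910706) (nat_lit 76) (nat_lit 10859606563) (nat_lit 76) (nat_lit 7710111820) (nat_lit 3) (nat_lit 4) (nat_lit 4) (nat_lit 5) (nat_lit 4) (nat_lit 4)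 (nat_lit 293) (nat_lit 254) (nat_lit 233)) (XT.lf (nat_lit 0) (nat_lit 109336083506) (nat_lit 76) (nat_lit 7438215072) (nat_lit 76) (nat_lit 4265669337) (nat_lit 3) (nat_lit 4) (nat_lit 4) (nat_lit 5) (nat_lit 4) (nat_lit 4) (nat_lit 294) (nat_lit 254) (nat_lit 232))))) (XT.nd (nat_lit 156) (nat_lit 0) (nat_lit 0) (XT.nd (nat_lit 78) (nat_lit 152) (nat_lit 0) (XT.lf (nat_lit 0) (nat_lit 134614353721) (nat_lit 76) (nat_lit 3557255723) (nat_lit 76) (nat_lit 364665647) (nat_lit 3) (nat_lit 4) (nat_lit 4) (nat_lit 5) (nat_lit 4) (nat_lit 4) (nat_lit 295) (nat_lit 254) (nat_lit 231)) (XT.lf (nat_lit 0) (nat_lit 3977217596) (nat_lit 152) (nat_lit 153434941773) (nat_lit 0) (nat_lit 1185895912) (nat_lit 1) (nat_lit 5) (nat_lit 3) (nat_lit 4) (nat_lit 1) (nat_lit 4) (nat_lit 296) (nat_lit 254) (nat_lit 230))) (XT.nd (nat_lit 78) (nat_lit 0) (nat_lit 0) (XT.lf (nat_lit 0) (nat_lit 9270036345) (nat_lit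 152) (nat_lit 165880399002) (nat_lit 0) (nat_lit 6465535182) (nat_lit 1) (nat_lit 5) (nat_lit 3) (nat_lit 4) (nat_lit 1) (nat_lit 4) (nat_lit 297) (nat_lit 254) (nat_lit 229)) (XT.nd (nat_lit 78) (nat_lit 0) (nat_lit 0) (XT.lf (nat_lit 0) (nat_lit 15315754272) (nat_lit 152) (nat_lit 180277197874) (nat_lit 0) (nat_lit 12499792692) (nat_lit 1) (nat_lit 5) (nat_lit 3) (nat_lit 4) (nat_lit 1) (nat_lit 4) (nat_lit 298) (nat_lit 254) (nat_lit 228)) (XT.lf (nat_lit 0) (nat_lit 22232657163) (nat_lit 152) (nat_lit 196907014886) (nat_lit 0) (nat_lit 19406730003) (nat_lit 1) (nat_lit 5) (nat_lit 3) (nat_lit 4) (nat_lit 1) (nat_lit 4) (nat_lit 299) (nat_lit 254) (nat_lit 227))))))) (XT.nd (nat_lit 780) (nat_lit 0) (nat_lit 0) (XT.nd (nat_lit 390) (nat_lit 0) (nat_lit 0) (XT.nd (nat_lit 156) (nat_lit 0) (nat_lit 0) (XT.nd (nat_lit 78) (nat_lit 0) (nat_lit 0) (XT.lf (nat_lit 0) (nat_lit 30156075727)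 (nat_lit 152) (nat_lit 216095216026) (nat_lit 0) (nat_lit 27321482845) (nat_lit 1) (nat_lit 5) (nat_lit 3) (nat_lit 4) (nat_lit 1) (nat_lit 4) (nat_lit 300) (nat_lit 254) (nat_lit 226)) (XT.lf (nat_lit 0) (nat_lit 39241033369) (nat_lit 152) (nat_lit 238217222618) (nat_lit 0) (nat_lit 36398905078) (nat_lit 1) (nat_lit 5) (nat_lit 3) (nat_lit 4) (nat_lit 1) (nat_lit 4) (nat_lit 301) (nat_lit 254) (nat_lit 225))) (XT.nd (nat_lit 78) (nat_lit 0) (nat_lit 0) (XT.lf (nat_lit 0) (nat_lit 49665279262) (nat_lit 152) (nat_lit 263705856531) (nat_lit 0) (nat_lit 46816598440) (nat_lit 1) (nat_lit 5) (nat_lit 3) (nat_lit 4) (nat_lit 1) (nat_lit 4) (nat_lit 302) (nat_lit 254) (nat_lit 224)) (XT.nd (nat_lit 78) (nat_lit 0) (nat_lit 0) (XT.lf (nat_lit 0) (nat_lit 61632766042) (nat_lit 152) (nat_lit 293059808428) (nat_lit 0) (nat_lit 58778387367) (nat_lit 1) (nat_lit 5) (nat_lit 3) (nat_lit 4) (nat_lit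 1) (nat_lit 4) (nat_lit 303) (nat_lit 254) (nat_lit 223)) (XT.lf (nat_lit 0) (nat_lit 75377640190) (nat_lit 152) (nat_lit 326853394761) (nat_lit 0) (nat_lit 72518306860) (nat_lit 1) (nat_lit 5) (nat_lit 3) (nat_lit 4) (nat_lit 1) (nat_lit 4) (nat_lit 304) (nat_lit 254) (nat_lit 222))))) (XT.nd (nat_lit 156) (nat_lit 0) (nat_lit 0) (XT.nd (nat_lit 78) (nat_lit 0) (nat_lit 0) (XT.lf (nat_lit 0) (nat_lit 91168823156) (nat_lit 152) (nat_lit 365747794391) (nat_lit 0) (nat_lit 88305181432) (nat_lit 1) (nat_lit 5) (nat_lit 3) (nat_lit 4) (nat_lit 1) (nat_lit 4) (nat_lit 305) (nat_lit 254) (nat_lit 221)) (XT.lf (nat_lit 0) (nat_lit 109315272868) (nat_lit 152) (nat_lit 410503984704) (nat_lit 0) (nat_lit 106447884713) (nat_lit 1) (nat_lit 5) (nat_lit 3) (nat_lit 4) (nat_lit 1) (nat_lit 4) (nat_lit 306) (nat_lit 254) (nat_lit 220))) (XT.nd (nat_lit 78) (nat_lit 0) (nat_lit 0) (XT.lf (nat_lit 0)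 (nat_lit 130172028560) (nat_lit 152) (nat_lit 461997630291) (nat_lit 0) (nat_lit 127301382640) (nat_lit 1) (nat_lit 5) (nat_lit 3) (nat_lit 4) (nat_lit 1) (nat_lit 4) (nat_lit 307) (nat_lit 254) (nat_lit 219)) (XT.nd (nat_lit 78) (nat_lit 0) (nat_lit 0) (XT.lf (nat_lit 0) (nat_lit 154147157191) (nat_lit 152) (nat_lit 521236215523) (nat_lit 0) (nat_lit 151273678431) (nat_lit 1) (nat_lit 5) (nat_lit 3) (nat_lit 4) (nat_lit 1) (nat_lit 4) (nat_lit 308) (nat_lit 254) (nat_lit 218)) (XT.lf (nat_lit 0) (nat_lit 181709737364) (nat_lit 152) (nat_lit 589378756199) (nat_lit 0) (nat_lit 178833795265) (nat_lit 1) (nat_lit 5) (nat_lit 3) (nat_lit 4) (nat_lit 1) (nat_lit 4) (nat_lit 309) (nat_lit 254) (nat_lit 217)))))) (XT.nd (nat_lit 390) (nat_lit 0) (nat_lit 0) (XT.nd (nat_lit 156) (nat_lit 0) (nat_lit 0) (XT.nd (nat_lit 78) (nat_lit 0) (nat_lit 0) (XT.lf (nat_lit 0) (nat_lit 213399036953) (nat_lit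 152) (nat_lit 667758475939) (nat_lit 0) (nat_lit 210520952820) (nat_lit 1) (nat_lit 5) (nat_lit 3) (nat_lit 4) (nat_lit 1) (nat_lit 4) (nat_lit 310) (nat_lit 254) (nat_lit 216)) (XT.lf (nat_lit 0) (nat_lit 249835063993) (nat_lit 152) (nat_lit 757908891000) (nat_lit 0) (nat_lit 246955117221) (nat_lit 1) (nat_lit 5) (nat_lit 3) (nat_lit 4) (nat_lit 1) (nat_lit 4) (nat_lit 311) (nat_lit 254) (nat_lit 215))) (XT.nd (nat_lit 78) (nat_lit 0) (nat_lit 0) (XT.lf (nat_lit 0) (nat_lit 291730697273) (nat_lit 152) (nat_lit 861593813851) (nat_lit 0) (nat_lit 288849130816) (nat_lit 1) (nat_lit 5) (nat_lit 3) (nat_lit 4) (nat_lit 1) (nat_lit 4) (nat_lit 312) (nat_lit 254) (nat_lit 214)) (XT.nd (nat_lit 78) (nat_lit 0) (nat_lit 0) (XT.lf (nat_lit 0) (nat_lit 339905633967) (nat_lit 152) (nat_lit 980841862547) (nat_lit 0) (nat_lit 337022659088) (nat_lit 1) (nat_lit 5) (nat_lit 3) (nat_lit 4) (nat_lit 1)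 (nat_lit 4) (nat_lit 313) (nat_lit 254) (nat_lit 213)) (XT.lf (nat_lit 0) (nat_lit 395302427184) (nat_lit 152) (nat_lit 1117986151085) (nat_lit 0) (nat_lit 392418227590) (nat_lit 1) (nat_lit 5) (nat_lit 3) (nat_lit 4) (nat_lit 1) (nat_lit 4) (nat_lit 314) (nat_lit 254) (nat_lit 212))))) (XT.nd (nat_lit 156) (nat_lit 0) (nat_lit 0) (XT.nd (nat_lit 78) (nat_lit 0) (nat_lit 0) (XT.lf (nat_lit 0) (nat_lit 459004927225) (nat_lit 152) (nat_lit 1275709937283) (nat_lit 0) (nat_lit 456119662663) (nat_lit 1) (nat_lit 5) (nat_lit 3) (nat_lit 4) (nat_lit 1) (nat_lit 4) (nat_lit 315) (nat_lit 254) (nat_lit 211)) (XT.lf (nat_lit 0) (nat_lit 532259487353) (nat_lit 152) (nat_lit 1457099121307) (nat_lit 0) (nat_lit 529373296730) (nat_lit 1) (nat_lit 5) (nat_lit 3) (nat_lit 4) (nat_lit 1) (nat_lit 4) (nat_lit 316) (nat_lit 254) (nat_lit 210))) (XT.nd (nat_lit 78) (nat_lit 0) (nat_lit 0) (XT.lf (nat_lit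 0) (nat_lit 616499348962) (nat_lit 152) (nat_lit 1665702621974) (nat_lit 0) (nat_lit 613612353069) (nat_lit 1) (nat_lit 5) (nat_lit 3) (nat_lit 4) (nat_lit 1) (nat_lit 4) (nat_lit 317) (nat_lit 254) (nat_lit 209)) (XT.nd (nat_lit 78) (nat_lit 0) (nat_lit 0) (XT.lf (nat_lit 0) (nat_lit 713372683257) (nat_lit 152) (nat_lit 1905601812123) (nat_lit 0) (nat_lit 710484987129) (nat_lit 1) (nat_lit 5) (nat_lit 3) (nat_lit 4) (nat_lit 1) (nat_lit 4) (nat_lit 318) (nat_lit 254) (nat_lit 208)) (XT.lf (nat_lit 0) (nat_lit 824774838082) (nat_lit 152) (nat_lit 2181490371562) (nat_lit 0) (nat_lit 821886533055) (nat_lit 1) (nat_lit 5) (nat_lit 3) (nat_lit 4) (nat_lit 1) (nat_lit 4) (nat_lit 319) (nat_lit 254) (nat_lit 207))))))))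
noncomputable def xc37 : XT := (XT.nd (nat_lit 1482) (nat_lit 0) (nat_lit 0) (XT.nd (nat_lit 702) (nat_lit 0) (nat_lit 0) (XT.nd (nat_lit 312) (nat_lit 0) (nat_lit 0) (XT.nd (nat_lit 156) (nat_lit 0) (nat_lit 0) (XT.nd (nat_lit 78) (nat_lit 0) (nat_lit 0) (XT.lf (nat_lit 0) (nat_lit 952885420815) (nat_lit 152) (nat_lit 2498766119932) (nat_lit 0) (nat_lit 949996586310) (nat_lit 1) (nat_lit 5) (nat_lit 3) (nat_lit 4) (nat_lit 1) (nat_lit 4) (nat_lit 320) (nat_lit 254) (nat_lit 206)) (XT.lf (nat_lit 0) (nat_lit 1100210942857) (nat_lit 152) (nat_lit 2863636626222) (nat_lit 0) (nat_lit 1097321647936) (nat_lit 1) (nat_lit 5) (nat_lit 3) (nat_lit 4) (nat_lit 1) (nat_lit 4) (nat_lit 321) (nat_lit 254) (nat_lit 205))) (XT.nd (nat_lit 78) (nat_lit 0) (nat_lit 0) (XT.lf (nat_lit 0) (nat_lit 1269633860074) (nat_lit 152) (nat_lit 3283240661209) (nat_lit 0) (nat_lit 1266744164791) (nat_lit 1) (nat_lit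 5) (nat_lit 3) (nat_lit 4) (nat_lit 1) (nat_lit 4) (nat_lit 322) (nat_lit 254) (nat_lit 204)) (XT.lf (nat_lit 0) (nat_lit 1464468968672) (nat_lit 152) (nat_lit 3765787869054) (nat_lit 0) (nat_lit 1461578925249) (nat_lit 1) (nat_lit 5) (nat_lit 3) (nat_lit 4) (nat_lit 1) (nat_lit 4) (nat_lit 323) (nat_lit 254) (nat_lit 203)))) (XT.nd (nat_lit 156) (nat_lit 0) (nat_lit 0) (XT.nd (nat_lit 78) (nat_lit 0) (nat_lit 0) (XT.lf (nat_lit 0) (nat_lit 1688528259907) (nat_lit 152) (nat_lit 4320719390781) (nat_lit 0) (nat_lit 1685637913754) (nat_lit 1) (nat_lit 5) (nat_lit 3) (nat_lit 4) (nat_lit 1) (nat_lit 4) (nat_lit 324) (nat_lit 254) (nat_lit 202)) (XT.lf (nat_lit 0) (nat_lit 1946195502521) (nat_lit 152) (nat_lit 4958892582250) (nat_lit 0) (nat_lit 1943304893123) (nat_lit 1) (nat_lit 5) (nat_lit 3) (nat_lit 4) (nat_lit 1) (nat_lit 4) (nat_lit 325) (nat_lit 254) (nat_lit 201))) (XT.nd (nat_lit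 78) (nat_lit 0) (nat_lit 0) (XT.lf (nat_lit 0) (nat_lit 2242512012128) (nat_lit 152) (nat_lit 5692793440685) (nat_lit 0) (nat_lit 2239621173823) (nat_lit 1) (nat_lit 5) (nat_lit 3) (nat_lit 4) (nat_lit 1) (nat_lit 4) (nat_lit 326) (nat_lit 254) (nat_lit 200)) (XT.nd (nat_lit 78) (nat_lit 0) (nat_lit 0) (XT.lf (nat_lit 0) (nat_lit 2583275285658) (nat_lit 152) (nat_lit 6536780895924) (nat_lit 0) (nat_lit 2580384248302) (nat_lit 1) (nat_lit 5) (nat_lit 3) (nat_lit 4) (nat_lit 1) (nat_lit 4) (nat_lit 327) (nat_lit 254) (nat_lit 199)) (XT.lf (nat_lit 0) (nat_lit 2975152430635) (nat_lit 152) (nat_lit 7507367746007) (nat_lit 0) (nat_lit 2972261220191) (nat_lit 1) (nat_lit 5) (nat_lit 3) (nat_lit 4) (nat_lit 1) (nat_lit 4) (nat_lit 328) (nat_lit 254) (nat_lit 198)))))) (XT.nd (nat_lit 390) (nat_lit 0) (nat_lit 0) (XT.nd (nat_lit 156) (nat_lit 0) (nat_lit 0) (XT.nd (nat_lit 78) (nat_lit 0) (nat_lit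 0) (XT.lf (nat_lit 0) (nat_lit 3425810608591) (nat_lit 152) (nat_lit 8623543733650) (nat_lit 0) (nat_lit 3422919247637) (nat_lit 1) (nat_lit 5) (nat_lit 3) (nat_lit 4) (nat_lit 1) (nat_lit 4) (nat_lit 329) (nat_lit 254) (nat_lit 197)) (XT.lf (nat_lit 0) (nat_lit 3944067044747) (nat_lit 152) (nat_lit 9907147084700) (nat_lit 0) (nat_lit 3941175552914) (nat_lit 1) (nat_lit 5) (nat_lit 3) (nat_lit 4) (nat_lit 1) (nat_lit 4) (nat_lit 330) (nat_lit 254) (nat_lit 196))) (XT.nd (nat_lit 78) (nat_lit 0) (nat_lit 0) (XT.lf (nat_lit 0) (nat_lit 4540061538942) (nat_lit 152) (nat_lit 11383291777764) (nat_lit 0) (nat_lit 4537169933301) (nat_lit 1) (nat_lit 5) (nat_lit 3) (nat_lit 4) (nat_lit 1) (nat_lit 4) (nat_lit 331) (nat_lit 254) (nat_lit 195)) (XT.nd (nat_lit 78) (nat_lit 0) (nat_lit 0) (XT.lf (nat_lit 0) (nat_lit 5225454853017) (nat_lit 152) (nat_lit 13080858904663) (nat_lit 0) (nat_lit 5222563148414)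 (nat_lit 1) (nat_lit 5) (nat_lit 3) (nat_lit 4) (nat_lit 1) (nat_lit 4) (nat_lit 332) (nat_lit 254) (nat_lit 194)) (XT.lf (nat_lit 0) (nat_lit 6013656856163) (nat_lit 152) (nat_lit 15033061735270) (nat_lit 0) (nat_lit 6010765065504) (nat_lit 1) (nat_lit 5) (nat_lit 3) (nat_lit 4) (nat_lit 1) (nat_lit 4) (nat_lit 333) (nat_lit 254) (nat_lit 193))))) (XT.nd (nat_lit 156) (nat_lit 0) (nat_lit 0) (XT.nd (nat_lit 78) (nat_lit 0) (nat_lit 0) (XT.lf (nat_lit 0) (nat_lit 6920088891917) (nat_lit 152) (nat_lit 17278095542360) (nat_lit 0) (nat_lit 6917197026428) (nat_lit 1) (nat_lit 5) (nat_lit 3) (nat_lit 4) (nat_lit 1) (nat_lit 4) (nat_lit 334) (nat_lit 254) (nat_lit 192)) (XT.lf (nat_lit 0) (nat_lit 7962485500111) (nat_lit 152) (nat_lit 19859884900417) (nat_lit 0) (nat_lit 7959593569552) (nat_lit 1) (nat_lit 5) (nat_lit 3) (nat_lit 4) (nat_lit 1) (nat_lit 4) (nat_lit 335) (nat_lit 254) (nat_lit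 191))) (XT.nd (nat_lit 78) (nat_lit 0) (nat_lit 0) (XT.lf (nat_lit 0) (nat_lit 9161241396991) (nat_lit 152) (nat_lit 22828943079492) (nat_lit 0) (nat_lit 9158349409849) (nat_lit 1) (nat_lit 5) (nat_lit 3) (nat_lit 4) (nat_lit 1) (nat_lit 4) (nat_lit 336) (nat_lit 254) (nat_lit 190)) (XT.nd (nat_lit 78) (nat_lit 0) (nat_lit 0) (XT.lf (nat_lit 0) (nat_lit 10539810502279) (nat_lit 152) (nat_lit 26243360348305) (nat_lit 0) (nat_lit 10536918465935) (nat_lit 1) (nat_lit 5) (nat_lit 3) (nat_lit 4) (nat_lit 1) (nat_lit 4) (nat_lit 337) (nat_lit 254) (nat_lit 189)) (XT.lf (nat_lit 0) (nat_lit 12125164820210) (nat_lit 152) (nat_lit 30169940522986) (nat_lit 0) (nat_lit 12122272741081) (nat_lit 1) (nat_lit 5) (nat_lit 3) (nat_lit 4) (nat_lit 1) (nat_lit 4) (nat_lit 338) (nat_lit 254) (nat_lit 188))))))) (XT.nd (nat_lit 35256) (nat_lit 0) (nat_lit 456) (XT.nd (nat_lit 702) (nat_lit 0) (nat_lit 0)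 (XT.nd (nat_lit 156) (nat_lit 0) (nat_lit 0) (XT.nd (nat_lit 78) (nat_lit 0) (nat_lit 0) (XT.lf (nat_lit 0) (nat_lit 13948322152654) (nat_lit 152) (nat_lit 34685507998255) (nat_lit 0) (nat_lit 13945430036322) (nat_lit 1) (nat_lit 5) (nat_lit 3) (nat_lit 4) (nat_lit 1) (nat_lit 4) (nat_lit 339) (nat_lit 254) (nat_lit 187)) (XT.lf (nat_lit 0) (nat_lit 16044952969162) (nat_lit 152) (nat_lit 39878410833412) (nat_lit 0) (nat_lit 16042060820478) (nat_lit 1) (nat_lit 5) (nat_lit 3) (nat_lit 4) (nat_lit 1) (nat_lit 4) (nat_lit 340) (nat_lit 254) (nat_lit 186))) (XT.nd (nat_lit 78) (nat_lit 0) (nat_lit 0) (XT.lf (nat_lit 0) (nat_lit 18456078307446) (nat_lit 152) (nat_lit 45850249301319) (nat_lit 0) (nat_lit 18453186130631) (nat_lit 1) (nat_lit 5) (nat_lit 3) (nat_lit 4) (nat_lit 1) (nat_lit 4) (nat_lit 341) (nat_lit 254) (nat_lit 185)) (XT.nd (nat_lit 78) (nat_lit 0) (nat_lit 0) (XT.lf (nat_lit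 0) (nat_lit 21228872358908) (nat_lit 152) (nat_lit 52717863719826) (nat_lit 0) (nat_lit 21225980157630) (nat_lit 1) (nat_lit 5) (nat_lit 3) (nat_lit 4) (nat_lit 1) (nat_lit 4) (nat_lit 342) (nat_lit 254) (nat_lit 184)) (XT.lf (nat_lit 0) (nat_lit 24417585441945) (nat_lit 152) (nat_lit 60615620457991) (nat_lit 0) (nat_lit 24414693219397) (nat_lit 1) (nat_lit 5) (nat_lit 3) (nat_lit 4) (nat_lit 1) (nat_lit 4) (nat_lit 343) (nat_lit 254) (nat_lit 183))))) (XT.nd (nat_lit 156) (nat_lit 0) (nat_lit 0) (XT.nd (nat_lit 78) (nat_lit 0) (nat_lit 0) (XT.lf (nat_lit 0) (nat_lit 49142031600828) (nat_lit 152) (nat_lit 121852762589895) (nat_lit 0) (nat_lit 49139139306974) (nat_lit 1) (nat_lit 5) (nat_lit 3) (nat_lit 4) (nat_lit 1) (nat_lit 4) (nat_lit 348) (nat_lit 254) (nat_lit 178)) (XT.lf (nat_lit 0) (nat_lit 56517718281991) (nat_lit 152) (nat_lit 140120754752287) (nat_lit 0) (nat_lit 56514825978941)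 (nat_lit 1) (nat_lit 5) (nat_lit 3) (nat_lit 4) (nat_lit 1) (nat_lit 4) (nat_lit 349) (nat_lit 254) (nat_lit 177))) (XT.nd (nat_lit 78) (nat_lit 0) (nat_lit 0) (XT.lf (nat_lit 0) (nat_lit 64999757936703) (nat_lit 152) (nat_lit 161128945798014) (nat_lit 0) (nat_lit 64996865625657) (nat_lit 1) (nat_lit 5) (nat_lit 3) (nat_lit 4) (nat_lit 1) (nat_lit 4) (nat_lit 350) (nat_lit 254) (nat_lit 176)) (XT.nd (nat_lit 78) (nat_lit 0) (nat_lit 0) (XT.lf (nat_lit 0) (nat_lit 74754103514732) (nat_lit 152) (nat_lit 185288365551886) (nat_lit 0) (nat_lit 74751211196731) (nat_lit 1) (nat_lit 5) (nat_lit 3) (nat_lit 4) (nat_lit 1) (nat_lit 4) (nat_lit 351) (nat_lit 254) (nat_lit 175)) (XT.lf (nat_lit 0) (nat_lit 85971600907819) (nat_lit 152) (nat_lit 213071698313434) (nat_lit 0) (nat_lit 85968708583772) (nat_lit 1) (nat_lit 5) (nat_lit 3) (nat_lit 4) (nat_lit 1) (nat_lit 4) (nat_lit 352) (nat_lit 254)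 (nat_lit 174)))))) (XT.nd (nat_lit 390) (nat_lit 380) (nat_lit 0) (XT.nd (nat_lit 156) (nat_lit 228) (nat_lit 0) (XT.nd (nat_lit 78) (nat_lit 152) (nat_lit 0) (XT.lf (nat_lit 0) (nat_lit 1541337478) (nat_lit 152) (nat_lit 1438027066) (nat_lit 0) (nat_lit 1541337478) (nat_lit 17) (nat_lit 5) (nat_lit 19) (nat_lit 4) (nat_lit 17) (nat_lit 4) (nat_lit 270) (nat_lit 255) (nat_lit 255)) (XT.lf (nat_lit 0) (nat_lit 4315445374) (nat_lit 152) (nat_lit 3104427283) (nat_lit 152) (nat_lit 2231790607) (nat_lit 15) (nat_lit 4) (nat_lit 17) (nat_lit 5) (nat_lit 17) (nat_lit 4) (nat_lit 271) (nat_lit 255) (nat_lit 254))) (XT.nd (nat_lit 78) (nat_lit 76) (nat_lit 0) (XT.lf (nat_lit 0) (nat_lit 1671782851) (nat_lit 152) (nat_lit 8446768558) (nat_lit 0) (nat_lit 253129654) (nat_lit 13) (nat_lit 5) (nat_lit 15) (nat_lit 4) (nat_lit 13) (nat_lit 4) (nat_lit 272) (nat_lit 255) (nat_lit 253)) (XT.nd (nat_lit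 78) (nat_lit 76) (nat_lit 0) (XT.lf (nat_lit 0) (nat_lit 5942609322) (nat_lit 152) (nat_lit 1290348616) (nat_lit 0) (nat_lit 3950183344) (nat_lit 13) (nat_lit 5) (nat_lit 15) (nat_lit 4) (nat_lit 13) (nat_lit 4) (nat_lit 273) (nat_lit 255) (nat_lit 252)) (XT.lf (nat_lit 0) (nat_lit 6911323744) (nat_lit 76) (nat_lit 3855143989) (nat_lit 76) (nat_lit 1363785160) (nat_lit 12) (nat_lit 4) (nat_lit 13) (nat_lit 5) (nat_lit 13) (nat_lit 4) (nat_lit 274) (nat_lit 255) (nat_lit 251))))) (XT.nd (nat_lit 156) (nat_lit 228) (nat_lit 0) (XT.nd (nat_lit 78) (nat_lit 0) (nat_lit 0) (XT.lf (nat_lit 0) (nat_lit 2639728058) (nat_lit 152) (nat_lit 10491906860) (nat_lit 0) (nat_lit 96064160) (nat_lit 10) (nat_lit 5) (nat_lit 12) (nat_lit 4) (nat_lit 10) (nat_lit 4) (nat_lit 275) (nat_lit 255) (nat_lit 250)) (XT.lf (nat_lit 0) (nat_lit 7216577231) (nat_lit 152) (nat_lit 2902243338) (nat_lit 0) (nat_lit 4344856884)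 (nat_lit 10) (nat_lit 5) (nat_lit 12) (nat_lit 4) (nat_lit 10) (nat_lit 4) (nat_lit 276) (nat_lit 255) (nat_lit 249))) (XT.nd (nat_lit 78) (nat_lit 152) (nat_lit 0) (XT.lf (nat_lit 0) (nat_lit 5763164482) (nat_lit 76) (nat_lit 6645045134) (nat_lit 76) (nat_lit 3488058310) (nat_lit 9) (nat_lit 4) (nat_lit 10) (nat_lit 5) (nat_lit 10) (nat_lit 4) (nat_lit 277) (nat_lit 255) (nat_lit 248)) (XT.nd (nat_lit 78) (nat_lit 76) (nat_lit 0) (XT.lf (nat_lit 0) (nat_lit 612495787) (nat_lit 152) (nat_lit 2088178687) (nat_lit 76) (nat_lit 14860433363) (nat_lit 8) (nat_lit 5) (nat_lit 10) (nat_lit 5) (nat_lit 9) (nat_lit 4) (nat_lit 278) (nat_lit 255) (nat_lit 247)) (XT.lf (nat_lit 0) (nat_lit 5087378411) (nat_lit 152) (nat_lit 12407322829) (nat_lit 0) (nat_lit 1938902697) (nat_lit 7) (nat_lit 5) (nat_lit 9) (nat_lit 4) (nat_lit 7) (nat_lit 4) (nat_lit 279) (nat_lit 255) (nat_lit 246))))))))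
noncomputable def xc38 : XT := (XT.nd (nat_lit 1482) (nat_lit 0) (nat_lit 0) (XT.nd (nat_lit 702) (nat_lit 152) (nat_lit 0) (XT.nd (nat_lit 312) (nat_lit 152) (nat_lit 0) (XT.nd (nat_lit 156) (nat_lit 76) (nat_lit 0) (XT.nd (nat_lit 78) (nat_lit 76) (nat_lit 0) (XT.lf (nat_lit 0) (nat_lit 10214919023) (nat_lit 152) (nat_lit 4471759730) (nat_lit 0) (nat_lit 6903341275) (nat_lit 7) (nat_lit 5) (nat_lit 9) (nat_lit 4) (nat_lit 7) (nat_lit 4) (nat_lit 280) (nat_lit 255) (nat_lit 245)) (XT.lf (nat_lit 0) (nat_lit 4622203779) (nat_lit 76) (nat_lit 11453364641) (nat_lit 76) (nat_lit 7999959036) (nat_lit 6) (nat_lit 4) (nat_lit 7) (nat_lit 5) (nat_lit 7) (nat_lit 4) (nat_lit 281) (nat_lit 255) (nat_lit 244))) (XT.nd (nat_lit 78) (nat_lit 76) (nat_lit 0) (XT.lf (nat_lit 0) (nat_lit 15159548154) (nat_lit 76) (nat_lit 7674236388) (nat_lit 76) (nat_lit 4097502214) (nat_lit 6) (nat_lit 4) (nat_lit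 7) (nat_lit 5) (nat_lit 7) (nat_lit 4) (nat_lit 282) (nat_lit 255) (nat_lit 243)) (XT.lf (nat_lit 0) (nat_lit 159302592) (nat_lit 152) (nat_lit 3341475835) (nat_lit 76) (nat_lit 26741796168) (nat_lit 5) (nat_lit 5) (nat_lit 7) (nat_lit 5) (nat_lit 6) (nat_lit 4) (nat_lit 283) (nat_lit 255) (nat_lit 242)))) (XT.nd (nat_lit 156) (nat_lit 76) (nat_lit 0) (XT.nd (nat_lit 78) (nat_lit 0) (nat_lit 0) (XT.lf (nat_lit 0) (nat_lit 4797843776) (nat_lit 152) (nat_lit 27685869169) (nat_lit 0) (nat_lit 1513295492) (nat_lit 4) (nat_lit 5) (nat_lit 6) (nat_lit 4) (nat_lit 4) (nat_lit 4) (nat_lit 284) (nat_lit 255) (nat_lit 241)) (XT.lf (nat_lit 0) (nat_lit 10313512986) (nat_lit 152) (nat_lit 21015553304) (nat_lit 0) (nat_lit 6958451191) (nat_lit 4) (nat_lit 5) (nat_lit 6) (nat_lit 4) (nat_lit 4) (nat_lit 4) (nat_lit 285) (nat_lit 255) (nat_lit 240))) (XT.nd (nat_lit 78) (nat_lit 76) (nat_lit 0) (XT.lf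 (nat_lit 0) (nat_lit 16510147821) (nat_lit 152) (nat_lit 13639740366) (nat_lit 0) (nat_lit 13093769930) (nat_lit 4) (nat_lit 5) (nat_lit 6) (nat_lit 4) (nat_lit 4) (nat_lit 4) (nat_lit 286) (nat_lit 255) (nat_lit 239)) (XT.nd (nat_lit 78) (nat_lit 76) (nat_lit 0) (XT.lf (nat_lit 0) (nat_lit 23508986790) (nat_lit 152) (nat_lit 5414120970) (nat_lit 0) (nat_lit 20039290555) (nat_lit 4) (nat_lit 5) (nat_lit 6) (nat_lit 4) (nat_lit 4) (nat_lit 4) (nat_lit 287) (nat_lit 255) (nat_lit 238)) (XT.lf (nat_lit 0) (nat_lit 4195778093) (nat_lit 76) (nat_lit 27424923829) (nat_lit 76) (nat_lit 23908863816) (nat_lit 3) (nat_lit 4) (nat_lit 4) (nat_lit 5) (nat_lit 4) (nat_lit 4) (nat_lit 288) (nat_lit 255) (nat_lit 237)))))) (XT.nd (nat_lit 390) (nat_lit 152) (nat_lit 0) (XT.nd (nat_lit 156) (nat_lit 0) (nat_lit 0) (XT.nd (nat_lit 78) (nat_lit 0) (nat_lit 0) (XT.lf (nat_lit 0) (nat_lit 15642675893) (nat_lit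 76) (nat_lit 25484440749) (nat_lit 76) (nat_lit 21928064408) (nat_lit 3) (nat_lit 4) (nat_lit 4) (nat_lit 5) (nat_lit 4) (nat_lit 4) (nat_lit 289) (nat_lit 255) (nat_lit 236)) (XT.lf (nat_lit 0) (nat_lit 28621426195) (nat_lit 76) (nat_lit 23346703417) (nat_lit 76) (nat_lit 19755269399) (nat_lit 3) (nat_lit 4) (nat_lit 4) (nat_lit 5) (nat_lit 4) (nat_lit 4) (nat_lit 290) (nat_lit 255) (nat_lit 235))) (XT.nd (nat_lit 78) (nat_lit 0) (nat_lit 0) (XT.lf (nat_lit 0) (nat_lit 43385961071) (nat_lit 76) (nat_lit 20969886537) (nat_lit 76) (nat_lit 17347967582) (nat_lit 3) (nat_lit 4) (nat_lit 4) (nat_lit 5) (nat_lit 4) (nat_lit 4) (nat_lit 291) (nat_lit 255) (nat_lit 234)) (XT.nd (nat_lit 78) (nat_lit 0) (nat_lit 0) (XT.lf (nat_lit 0) (nat_lit 60225151856) (nat_lit 76) (nat_lit 18307487170) (nat_lit 76) (nat_lit 14659059575) (nat_lit 3) (nat_lit 4) (nat_lit 4) (nat_lit 5) (nat_lit 4) (nat_lit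 4) (nat_lit 292) (nat_lit 255) (nat_lit 233)) (XT.lf (nat_lit 0) (nat_lit 79468460977) (nat_lit 76) (nat_lit 15307414894) (nat_lit 76) (nat_lit 11635936307) (nat_lit 3) (nat_lit 4) (nat_lit 4) (nat_lit 5) (nat_lit 4) (nat_lit 4) (nat_lit 293) (nat_lit 255) (nat_lit 232))))) (XT.nd (nat_lit 156) (nat_lit 152) (nat_lit 0) (XT.nd (nat_lit 78) (nat_lit 0) (nat_lit 0) (XT.lf (nat_lit 0) (nat_lit 101492387961) (nat_lit 76) (nat_lit 11910972643) (nat_lit 76) (nat_lit 8219449715) (nat_lit 3) (nat_lit 4) (nat_lit 4) (nat_lit 5) (nat_lit 4) (nat_lit 4) (nat_lit 294) (nat_lit 255) (nat_lit 231)) (XT.lf (nat_lit 0) (nat_lit 126727835727) (nat_lit 76) (nat_lit 8051708285) (nat_lit 76) (nat_lit 4342755496) (nat_lit 3) (nat_lit 4) (nat_lit 4) (nat_lit 5) (nat_lit 4) (nat_lit 4) (nat_lit 295) (nat_lit 255) (nat_lit 230))) (XT.nd (nat_lit 78) (nat_lit 76) (nat_lit 0) (XT.lf (nat_lit 0) (nat_lit 63763301)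 (nat_lit 152) (nat_lit 3587018091) (nat_lit 76) (nat_lit 155601444914) (nat_lit 2) (nat_lit 5) (nat_lit 4) (nat_lit 5) (nat_lit 3) (nat_lit 4) (nat_lit 296) (nat_lit 255) (nat_lit 229)) (XT.nd (nat_lit 78) (nat_lit 0) (nat_lit 0) (XT.lf (nat_lit 0) (nat_lit 5015519833) (nat_lit 152) (nat_lit 175540085934) (nat_lit 0) (nat_lit 1765703599) (nat_lit 1) (nat_lit 5) (nat_lit 3) (nat_lit 4) (nat_lit 1) (nat_lit 4) (nat_lit 297) (nat_lit 255) (nat_lit 228)) (XT.lf (nat_lit 0) (nat_lit 11044645795) (nat_lit 152) (nat_lit 189971070066) (nat_lit 0) (nat_lit 7784863981) (nat_lit 1) (nat_lit 5) (nat_lit 3) (nat_lit 4) (nat_lit 1) (nat_lit 4) (nat_lit 298) (nat_lit 255) (nat_lit 227))))))) (XT.nd (nat_lit 780) (nat_lit 0) (nat_lit 0) (XT.nd (nat_lit 390) (nat_lit 0) (nat_lit 0) (XT.nd (nat_lit 156) (nat_lit 0) (nat_lit 0) (XT.nd (nat_lit 78) (nat_lit 0) (nat_lit 0) (XT.lf (nat_lit 0) (nat_lit 17947120890)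 (nat_lit 152) (nat_lit 206630613393) (nat_lit 0) (nat_lit 14678673354) (nat_lit 1) (nat_lit 5) (nat_lit 3) (nat_lit 4) (nat_lit 1) (nat_lit 4) (nat_lit 299) (nat_lit 255) (nat_lit 226)) (XT.lf (nat_lit 0) (nat_lit 25857993543) (nat_lit 152) (nat_lit 225844663500) (nat_lit 0) (nat_lit 22582010598) (nat_lit 1) (nat_lit 5) (nat_lit 3) (nat_lit 4) (nat_lit 1) (nat_lit 4) (nat_lit 300) (nat_lit 255) (nat_lit 225))) (XT.nd (nat_lit 78) (nat_lit 0) (nat_lit 0) (XT.lf (nat_lit 0) (nat_lit 34932041699) (nat_lit 152) (nat_lit 247989147456) (nat_lit 0) (nat_lit 31649506223) (nat_lit 1) (nat_lit 5) (nat_lit 3) (nat_lit 4) (nat_lit 1) (nat_lit 4) (nat_lit 301) (nat_lit 255) (nat_lit 224)) (XT.nd (nat_lit 78) (nat_lit 0) (nat_lit 0) (XT.lf (nat_lit 0) (nat_lit 45346801082) (nat_lit 152) (nat_lit 273497326903) (nat_lit 0) (nat_lit 42058567753) (nat_lit 1) (nat_lit 5) (nat_lit 3) (nat_lit 4) (nat_lit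 1) (nat_lit 4) (nat_lit 302) (nat_lit 255) (nat_lit 223)) (XT.lf (nat_lit 0) (nat_lit 57306038723) (nat_lit 152) (nat_lit 302868274917) (nat_lit 0) (nat_lit 54012850740) (nat_lit 1) (nat_lit 5) (nat_lit 3) (nat_lit 4) (nat_lit 1) (nat_lit 4) (nat_lit 303) (nat_lit 255) (nat_lit 222))))) (XT.nd (nat_lit 156) (nat_lit 0) (nat_lit 0) (XT.nd (nat_lit 78) (nat_lit 0) (nat_lit 0) (XT.lf (nat_lit 0) (nat_lit 71043739706) (nat_lit 152) (nat_lit 336676640481) (nat_lit 0) (nat_lit 67746243328) (nat_lit 1) (nat_lit 5) (nat_lit 3) (nat_lit 4) (nat_lit 1) (nat_lit 4) (nat_lit 304) (nat_lit 255) (nat_lit 221)) (XT.lf (nat_lit 0) (nat_lit 86828685138) (nat_lit 152) (nat_lit 375583891617) (nat_lit 0) (nat_lit 83527442329) (nat_lit 1) (nat_lit 5) (nat_lit 3) (nat_lit 4) (nat_lit 1) (nat_lit 4) (nat_lit 305) (nat_lit 255) (nat_lit 220))) (XT.nd (nat_lit 78) (nat_lit 0) (nat_lit 0) (XT.lf (nat_lit 0) (nat_lit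 104969710907) (nat_lit 152) (nat_lit 420351257152) (nat_lit 0) (nat_lit 101665210333) (nat_lit 1) (nat_lit 5) (nat_lit 3) (nat_lit 4) (nat_lit 1) (nat_lit 4) (nat_lit 306) (nat_lit 255) (nat_lit 219)) (XT.nd (nat_lit 78) (nat_lit 0) (nat_lit 0) (XT.lf (nat_lit 0) (nat_lit 125821750127) (nat_lit 152) (nat_lit 471854620324) (nat_lit 0) (nat_lit 122514416713) (nat_lit 1) (nat_lit 5) (nat_lit 3) (nat_lit 4) (nat_lit 1) (nat_lit 4) (nat_lit 307) (nat_lit 255) (nat_lit 218)) (XT.lf (nat_lit 0) (nat_lit 149792777478) (nat_lit 152) (nat_lit 531101655630) (nat_lit 0) (nat_lit 146482980725) (nat_lit 1) (nat_lit 5) (nat_lit 3) (nat_lit 4) (nat_lit 1) (nat_lit 4) (nat_lit 308) (nat_lit 255) (nat_lit 217)))))) (XT.nd (nat_lit 390) (nat_lit 0) (nat_lit 0) (XT.nd (nat_lit 156) (nat_lit 0) (nat_lit 0) (XT.nd (nat_lit 78) (nat_lit 0) (nat_lit 0) (XT.lf (nat_lit 0) (nat_lit 177351791321) (nat_lit 152)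 (nat_lit 599251544195) (nat_lit 0) (nat_lit 174039852534) (nat_lit 1) (nat_lit 5) (nat_lit 3) (nat_lit 4) (nat_lit 1) (nat_lit 4) (nat_lit 309) (nat_lit 255) (nat_lit 216)) (XT.lf (nat_lit 0) (nat_lit 209037989753) (nat_lit 152) (nat_lit 677637653406) (nat_lit 0) (nat_lit 205724188328) (nat_lit 1) (nat_lit 5) (nat_lit 3) (nat_lit 4) (nat_lit 1) (nat_lit 4) (nat_lit 310) (nat_lit 255) (nat_lit 215))) (XT.nd (nat_lit 78) (nat_lit 0) (nat_lit 0) (XT.lf (nat_lit 0) (nat_lit 245471320134) (nat_lit 152) (nat_lit 767793624528) (nat_lit 0) (nat_lit 242155899024) (nat_lit 1) (nat_lit 5) (nat_lit 3) (nat_lit 4) (nat_lit 1) (nat_lit 4) (nat_lit 311) (nat_lit 255) (nat_lit 214)) (XT.nd (nat_lit 78) (nat_lit 0) (nat_lit 0) (XT.lf (nat_lit 0) (nat_lit 287364608494) (nat_lit 152) (nat_lit 871483378735) (nat_lit 0) (nat_lit 284047778962) (nat_lit 1) (nat_lit 5) (nat_lit 3) (nat_lit 4) (nat_lit 1) (nat_lit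 4) (nat_lit 312) (nat_lit 255) (nat_lit 213)) (XT.lf (nat_lit 0) (nat_lit 335537506127) (nat_lit 152) (nat_lit 990735628612) (nat_lit 0) (nat_lit 332219451880) (nat_lit 1) (nat_lit 5) (nat_lit 3) (nat_lit 4) (nat_lit 1) (nat_lit 4) (nat_lit 313) (nat_lit 255) (nat_lit 212))))) (XT.nd (nat_lit 156) (nat_lit 0) (nat_lit 0) (XT.nd (nat_lit 78) (nat_lit 0) (nat_lit 0) (XT.lf (nat_lit 0) (nat_lit 390932526247) (nat_lit 152) (nat_lit 1127883570349) (nat_lit 0) (nat_lit 387613407031) (nat_lit 1) (nat_lit 5) (nat_lit 3) (nat_lit 4) (nat_lit 1) (nat_lit 4) (nat_lit 314) (nat_lit 255) (nat_lit 211)) (XT.lf (nat_lit 0) (nat_lit 454633484466) (nat_lit 152) (nat_lit 1285610533243) (nat_lit 0) (nat_lit 451313439189) (nat_lit 1) (nat_lit 5) (nat_lit 3) (nat_lit 4) (nat_lit 1) (nat_lit 4) (nat_lit 315) (nat_lit 255) (nat_lit 210))) (XT.nd (nat_lit 78) (nat_lit 0) (nat_lit 0) (XT.lf (nat_lit 0) (nat_lit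 527886703878) (nat_lit 152) (nat_lit 1467002479611) (nat_lit 0) (nat_lit 524565853332) (nat_lit 1) (nat_lit 5) (nat_lit 3) (nat_lit 4) (nat_lit 1) (nat_lit 4) (nat_lit 316) (nat_lit 255) (nat_lit 209)) (XT.nd (nat_lit 78) (nat_lit 0) (nat_lit 0) (XT.lf (nat_lit 0) (nat_lit 612125399647) (nat_lit 152) (nat_lit 1675608382316) (nat_lit 0) (nat_lit 608803848866) (nat_lit 1) (nat_lit 5) (nat_lit 3) (nat_lit 4) (nat_lit 1) (nat_lit 4) (nat_lit 317) (nat_lit 255) (nat_lit 208)) (XT.lf (nat_lit 0) (nat_lit 708997720168) (nat_lit 152) (nat_lit 1915509661194) (nat_lit 0) (nat_lit 705675560487) (nat_lit 1) (nat_lit 5) (nat_lit 3) (nat_lit 4) (nat_lit 1) (nat_lit 4) (nat_lit 318) (nat_lit 255) (nat_lit 207))))))))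
noncomputable def xc39 : XT := (XT.nd (nat_lit 1482) (nat_lit 0) (nat_lit 0) (XT.nd (nat_lit 702) (nat_lit 0) (nat_lit 0) (XT.nd (nat_lit 312) (nat_lit 0) (nat_lit 0) (XT.nd (nat_lit 156) (nat_lit 0) (nat_lit 0) (XT.nd (nat_lit 78) (nat_lit 0) (nat_lit 0) (XT.lf (nat_lit 0) (nat_lit 820398993451) (nat_lit 152) (nat_lit 2191400036919) (nat_lit 0) (nat_lit 817076304292) (nat_lit 1) (nat_lit 5) (nat_lit 3) (nat_lit 4) (nat_lit 1) (nat_lit 4) (nat_lit 319) (nat_lit 255) (nat_lit 206)) (XT.lf (nat_lit 0) (nat_lit 948508809625) (nat_lit 152) (nat_lit 2508677364668) (nat_lit 0) (nat_lit 945185660050) (nat_lit 1) (nat_lit 5) (nat_lit 3) (nat_lit 4) (nat_lit 1) (nat_lit 4) (nat_lit 320) (nat_lit 255) (nat_lit 205))) (XT.nd (nat_lit 78) (nat_lit 0) (nat_lit 0) (XT.lf (nat_lit 0) (nat_lit 1095833665094) (nat_lit 152) (nat_lit 2873549244332) (nat_lit 0) (nat_lit 1092510115158) (nat_lit 1) (nat_lit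 5) (nat_lit 3) (nat_lit 4) (nat_lit 1) (nat_lit 4) (nat_lit 321) (nat_lit 255) (nat_lit 204)) (XT.lf (nat_lit 0) (nat_lit 1265256002683) (nat_lit 152) (nat_lit 3293154473556) (nat_lit 0) (nat_lit 1261932104606) (nat_lit 1) (nat_lit 5) (nat_lit 3) (nat_lit 4) (nat_lit 1) (nat_lit 4) (nat_lit 322) (nat_lit 255) (nat_lit 203)))) (XT.nd (nat_lit 156) (nat_lit 0) (nat_lit 0) (XT.nd (nat_lit 78) (nat_lit 0) (nat_lit 0) (XT.lf (nat_lit 0) (nat_lit 1460090607257) (nat_lit 152) (nat_lit 3775702719869) (nat_lit 0) (nat_lit 1456766406449) (nat_lit 1) (nat_lit 5) (nat_lit 3) (nat_lit 4) (nat_lit 1) (nat_lit 4) (nat_lit 323) (nat_lit 255) (nat_lit 202)) (XT.lf (nat_lit 0) (nat_lit 1684149460209) (nat_lit 152) (nat_lit 4330635144611) (nat_lit 0) (nat_lit 1680824996158) (nat_lit 1) (nat_lit 5) (nat_lit 3) (nat_lit 4) (nat_lit 1) (nat_lit 4) (nat_lit 324) (nat_lit 255) (nat_lit 201))) (XT.nd (nat_lit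 78) (nat_lit 0) (nat_lit 0) (XT.lf (nat_lit 0) (nat_lit 1941816321708) (nat_lit 152) (nat_lit 4968809121310) (nat_lit 0) (nat_lit 1938491628748) (nat_lit 1) (nat_lit 5) (nat_lit 3) (nat_lit 4) (nat_lit 1) (nat_lit 4) (nat_lit 325) (nat_lit 255) (nat_lit 200)) (XT.nd (nat_lit 78) (nat_lit 0) (nat_lit 0) (XT.lf (nat_lit 0) (nat_lit 2238132499911) (nat_lit 152) (nat_lit 5702710662554) (nat_lit 0) (nat_lit 2234807607901) (nat_lit 1) (nat_lit 5) (nat_lit 3) (nat_lit 4) (nat_lit 1) (nat_lit 4) (nat_lit 326) (nat_lit 255) (nat_lit 199)) (XT.lf (nat_lit 0) (nat_lit 2578895485263) (nat_lit 152) (nat_lit 6546698711541) (nat_lit 0) (nat_lit 2575570420166) (nat_lit 1) (nat_lit 5) (nat_lit 3) (nat_lit 4) (nat_lit 1) (nat_lit 4) (nat_lit 327) (nat_lit 255) (nat_lit 198)))))) (XT.nd (nat_lit 390) (nat_lit 0) (nat_lit 0) (XT.nd (nat_lit 156) (nat_lit 0) (nat_lit 0) (XT.nd (nat_lit 78) (nat_lit 0) (nat_lit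 0) (XT.lf (nat_lit 0) (nat_lit 2970772379650) (nat_lit 152) (nat_lit 7517286077925) (nat_lit 0) (nat_lit 2967447164043) (nat_lit 1) (nat_lit 5) (nat_lit 3) (nat_lit 4) (nat_lit 1) (nat_lit 4) (nat_lit 328) (nat_lit 255) (nat_lit 197)) (XT.lf (nat_lit 0) (nat_lit 3421430339703) (nat_lit 152) (nat_lit 8633462514527) (nat_lit 0) (nat_lit 3418104993216) (nat_lit 1) (nat_lit 5) (nat_lit 3) (nat_lit 4) (nat_lit 1) (nat_lit 4) (nat_lit 329) (nat_lit 255) (nat_lit 196))) (XT.nd (nat_lit 78) (nat_lit 0) (nat_lit 0) (XT.lf (nat_lit 0) (nat_lit 3939686586378) (nat_lit 152) (nat_lit 9917066255975) (nat_lit 0) (nat_lit 3936361126083) (nat_lit 1) (nat_lit 5) (nat_lit 3) (nat_lit 4) (nat_lit 1) (nat_lit 4) (nat_lit 330) (nat_lit 255) (nat_lit 195)) (XT.nd (nat_lit 78) (nat_lit 0) (nat_lit 0) (XT.lf (nat_lit 0) (nat_lit 4535680915806) (nat_lit 152) (nat_lit 11393211288516) (nat_lit 0) (nat_lit 4532355356548)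 (nat_lit 1) (nat_lit 5) (nat_lit 3) (nat_lit 4) (nat_lit 1) (nat_lit 4) (nat_lit 331) (nat_lit 255) (nat_lit 194)) (XT.lf (nat_lit 0) (nat_lit 5221074086606) (nat_lit 152) (nat_lit 13090778710612) (nat_lit 0) (nat_lit 5217748441293) (nat_lit 1) (nat_lit 5) (nat_lit 3) (nat_lit 4) (nat_lit 1) (nat_lit 4) (nat_lit 332) (nat_lit 255) (nat_lit 193))))) (XT.nd (nat_lit 156) (nat_lit 0) (nat_lit 0) (XT.nd (nat_lit 78) (nat_lit 0) (nat_lit 0) (XT.lf (nat_lit 0) (nat_lit 6009275965164) (nat_lit 152) (nat_lit 15042981797913) (nat_lit 0) (nat_lit 6005950245021) (nat_lit 1) (nat_lit 5) (nat_lit 3) (nat_lit 4) (nat_lit 1) (nat_lit 4) (nat_lit 333) (nat_lit 255) (nat_lit 192)) (XT.lf (nat_lit 0) (nat_lit 6915707892582) (nat_lit 152) (nat_lit 17288015828214) (nat_lit 0) (nat_lit 6912382107369) (nat_lit 1) (nat_lit 5) (nat_lit 3) (nat_lit 4) (nat_lit 1) (nat_lit 4) (nat_lit 334) (nat_lit 255) (nat_lit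 191))) (XT.nd (nat_lit 78) (nat_lit 0) (nat_lit 0) (XT.lf (nat_lit 0) (nat_lit 7958104406569) (nat_lit 152) (nat_lit 19869805380369) (nat_lit 0) (nat_lit 7954778564774) (nat_lit 1) (nat_lit 5) (nat_lit 3) (nat_lit 4) (nat_lit 1) (nat_lit 4) (nat_lit 335) (nat_lit 255) (nat_lit 190)) (XT.nd (nat_lit 78) (nat_lit 0) (nat_lit 0) (XT.lf (nat_lit 0) (nat_lit 9156860221532) (nat_lit 152) (nat_lit 22838863728223) (nat_lit 0) (nat_lit 9153534330534) (nat_lit 1) (nat_lit 5) (nat_lit 3) (nat_lit 4) (nat_lit 1) (nat_lit 4) (nat_lit 336) (nat_lit 255) (nat_lit 189)) (XT.lf (nat_lit 0) (nat_lit 10535429255587) (nat_lit 152) (nat_lit 26253281143802) (nat_lit 0) (nat_lit 10532103321804) (nat_lit 1) (nat_lit 5) (nat_lit 3) (nat_lit 4) (nat_lit 1) (nat_lit 4) (nat_lit 337) (nat_lit 255) (nat_lit 188))))))) (XT.nd (nat_lit 35256) (nat_lit 0) (nat_lit 608) (XT.nd (nat_lit 780) (nat_lit 0) (nat_lit 0) (XT.nd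 (nat_lit 156) (nat_lit 0) (nat_lit 0) (XT.nd (nat_lit 78) (nat_lit 0) (nat_lit 0) (XT.lf (nat_lit 0) (nat_lit 12120783511575) (nat_lit 152) (nat_lit 30179861446104) (nat_lit 0) (nat_lit 12117457540589) (nat_lit 1) (nat_lit 5) (nat_lit 3) (nat_lit 4) (nat_lit 1) (nat_lit 4) (nat_lit 338) (nat_lit 255) (nat_lit 187)) (XT.lf (nat_lit 0) (nat_lit 13943940790158) (nat_lit 152) (nat_lit 34695429032349) (nat_lit 0) (nat_lit 13940614786820) (nat_lit 1) (nat_lit 5) (nat_lit 3) (nat_lit 4) (nat_lit 1) (nat_lit 4) (nat_lit 339) (nat_lit 255) (nat_lit 186))) (XT.nd (nat_lit 78) (nat_lit 0) (nat_lit 0) (XT.lf (nat_lit 0) (nat_lit 16040571559828) (nat_lit 152) (nat_lit 39888331964006) (nat_lit 0) (nat_lit 16037245528359) (nat_lit 1) (nat_lit 5) (nat_lit 3) (nat_lit 4) (nat_lit 1) (nat_lit 4) (nat_lit 340) (nat_lit 255) (nat_lit 185)) (XT.nd (nat_lit 78) (nat_lit 0) (nat_lit 0) (XT.lf (nat_lit 0) (nat_lit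 18451696857384) (nat_lit 152) (nat_lit 45860170515827) (nat_lit 0) (nat_lit 18448370801453) (nat_lit 1) (nat_lit 5) (nat_lit 3) (nat_lit 4) (nat_lit 1) (nat_lit 4) (nat_lit 341) (nat_lit 255) (nat_lit 184)) (XT.lf (nat_lit 0) (nat_lit 21224490873430) (nat_lit 152) (nat_lit 52727785007302) (nat_lit 0) (nat_lit 21221164796228) (nat_lit 1) (nat_lit 5) (nat_lit 3) (nat_lit 4) (nat_lit 1) (nat_lit 4) (nat_lit 342) (nat_lit 255) (nat_lit 183))))) (XT.nd (nat_lit 156) (nat_lit 0) (nat_lit 0) (XT.nd (nat_lit 78) (nat_lit 0) (nat_lit 0) (XT.lf (nat_lit 0) (nat_lit 49137649981322) (nat_lit 152) (nat_lit 121862684153518) (nat_lit 0) (nat_lit 49134323823617) (nat_lit 1) (nat_lit 5) (nat_lit 3) (nat_lit 4) (nat_lit 1) (nat_lit 4) (nat_lit 348) (nat_lit 255) (nat_lit 177)) (XT.lf (nat_lit 0) (nat_lit 56513336649171) (nat_lit 152) (nat_lit 140130676343341) (nat_lit 0) (nat_lit 56510010483470) (nat_lit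 1) (nat_lit 5) (nat_lit 3) (nat_lit 4) (nat_lit 1) (nat_lit 4) (nat_lit 349) (nat_lit 255) (nat_lit 176))) (XT.nd (nat_lit 78) (nat_lit 0) (nat_lit 0) (XT.lf (nat_lit 0) (nat_lit 64995376292306) (nat_lit 152) (nat_lit 161138867412922) (nat_lit 0) (nat_lit 64992050119652) (nat_lit 1) (nat_lit 5) (nat_lit 3) (nat_lit 4) (nat_lit 1) (nat_lit 4) (nat_lit 350) (nat_lit 255) (nat_lit 175)) (XT.nd (nat_lit 34164) (nat_lit 0) (nat_lit 1368) (XT.lf (nat_lit 0) (nat_lit 74749721860267) (nat_lit 152) (nat_lit 185298287187536) (nat_lit 0) (nat_lit 74746395681566) (nat_lit 1) (nat_lit 5) (nat_lit 3) (nat_lit 4) (nat_lit 1) (nat_lit 4) (nat_lit 351) (nat_lit 255) (nat_lit 174)) (XT.lf (nat_lit 0) (nat_lit 560622898) (nat_lit 152) (nat_lit 1734690564) (nat_lit 152) (nat_lit 1734690564) (nat_lit 19) (nat_lit 4) (nat_lit 21) (nat_lit 5) (nat_lit 21) (nat_lit 4) (nat_lit 268) (nat_lit 256) (nat_lit 256))))))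 (XT.nd (nat_lit 390) (nat_lit 304) (nat_lit 0) (XT.nd (nat_lit 156) (nat_lit 304) (nat_lit 0) (XT.nd (nat_lit 78) (nat_lit 76) (nat_lit 0) (XT.lf (nat_lit 0) (nat_lit 150854688) (nat_lit 228) (nat_lit 829724424) (nat_lit 76) (nat_lit 7555953069) (nat_lit 18) (nat_lit 5) (nat_lit 21) (nat_lit 5) (nat_lit 19) (nat_lit 4) (nat_lit 269) (nat_lit 256) (nat_lit 255)) (XT.lf (nat_lit 0) (nat_lit 3872587350) (nat_lit 152) (nat_lit 3205086717) (nat_lit 0) (nat_lit 1996418496) (nat_lit 17) (nat_lit 5) (nat_lit 19) (nat_lit 4) (nat_lit 17) (nat_lit 4) (nat_lit 270) (nat_lit 256) (nat_lit 254))) (XT.nd (nat_lit 78) (nat_lit 152) (nat_lit 0) (XT.lf (nat_lit 0) (nat_lit 3640180776) (nat_lit 152) (nat_lit 4355886674) (nat_lit 152) (nat_lit 1720903319) (nat_lit 15) (nat_lit 4) (nat_lit 17) (nat_lit 5) (nat_lit 17) (nat_lit 4) (nat_lit 271) (nat_lit 256) (nat_lit 253)) (XT.nd (nat_lit 78) (nat_lit 0)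 (nat_lit 0) (XT.lf (nat_lit 0) (nat_lit 782237519) (nat_lit 76) (nat_lit 1114069257) (nat_lit 152) (nat_lit 8574065135) (nat_lit 13) (nat_lit 5) (nat_lit 14) (nat_lit 5) (nat_lit 15) (nat_lit 4) (nat_lit 272) (nat_lit 256) (nat_lit 252)) (XT.lf (nat_lit 0) (nat_lit 5947153081) (nat_lit 152) (nat_lit 2784887593) (nat_lit 0) (nat_lit 2583157576) (nat_lit 13) (nat_lit 5) (nat_lit 15) (nat_lit 4) (nat_lit 13) (nat_lit 4) (nat_lit 273) (nat_lit 256) (nat_lit 251))))) (XT.nd (nat_lit 156) (nat_lit 76) (nat_lit 0) (XT.nd (nat_lit 78) (nat_lit 152) (nat_lit 0) (XT.lf (nat_lit 0) (nat_lit 4985027920) (nat_lit 76) (nat_lit 5555046785) (nat_lit 76) (nat_lit 1757196626) (nat_lit 12) (nat_lit 4) (nat_lit 13) (nat_lit 5) (nat_lit 13) (nat_lit 4) (nat_lit 274) (nat_lit 256) (nat_lit 250)) (XT.lf (nat_lit 0) (nat_lit 171871119) (nat_lit 76) (nat_lit 1849982924) (nat_lit 152) (nat_lit 11414472722) (nat_lit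 10) (nat_lit 5) (nat_lit 11) (nat_lit 5) (nat_lit 12) (nat_lit 4) (nat_lit 275) (nat_lit 256) (nat_lit 249))) (XT.nd (nat_lit 78) (nat_lit 76) (nat_lit 0) (XT.lf (nat_lit 0) (nat_lit 6377734478) (nat_lit 152) (nat_lit 5865993851) (nat_lit 0) (nat_lit 2461933153) (nat_lit 10) (nat_lit 5) (nat_lit 12) (nat_lit 4) (nat_lit 10) (nat_lit 4) (nat_lit 276) (nat_lit 256) (nat_lit 248)) (XT.nd (nat_lit 78) (nat_lit 0) (nat_lit 0) (XT.lf (nat_lit 0) (nat_lit 2254142121) (nat_lit 76) (nat_lit 9044388922) (nat_lit 76) (nat_lit 4880529790) (nat_lit 9) (nat_lit 4) (nat_lit 10) (nat_lit 5) (nat_lit 10) (nat_lit 4) (nat_lit 277) (nat_lit 256) (nat_lit 247)) (XT.lf (nat_lit 0) (nat_lit 11773634403) (nat_lit 76) (nat_lit 5235959180) (nat_lit 76) (nat_lit 856397607) (nat_lit 9) (nat_lit 4) (nat_lit 10) (nat_lit 5) (nat_lit 10) (nat_lit 4) (nat_lit 278) (nat_lit 256) (nat_lit 246))))))))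
noncomputable def xc40 : XT := (XT.nd (nat_lit 1482) (nat_lit 76) (nat_lit 0) (XT.nd (nat_lit 702) (nat_lit 152) (nat_lit 0) (XT.nd (nat_lit 312) (nat_lit 152) (nat_lit 0) (XT.nd (nat_lit 156) (nat_lit 76) (nat_lit 0) (XT.nd (nat_lit 78) (nat_lit 0) (nat_lit 0) (XT.lf (nat_lit 0) (nat_lit 2547165832) (nat_lit 76) (nat_lit 761808467) (nat_lit 152) (nat_lit 16492815863) (nat_lit 7) (nat_lit 5) (nat_lit 8) (nat_lit 5) (nat_lit 9) (nat_lit 4) (nat_lit 279) (nat_lit 256) (nat_lit 245)) (XT.lf (nat_lit 0) (nat_lit 8299194276) (nat_lit 152) (nat_lit 9493765017) (nat_lit 0) (nat_lit 4185949975) (nat_lit 7) (nat_lit 5) (nat_lit 9) (nat_lit 4) (nat_lit 7) (nat_lit 4) (nat_lit 280) (nat_lit 256) (nat_lit 244))) (XT.nd (nat_lit 78) (nat_lit 76) (nat_lit 0) (XT.lf (nat_lit 0) (nat_lit 13876469140) (nat_lit 152) (nat_lit 990648702) (nat_lit 0) (nat_lit 9639896269) (nat_lit 7) (nat_lit 5) (nat_lit 9)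 (nat_lit 4) (nat_lit 7) (nat_lit 4) (nat_lit 281) (nat_lit 256) (nat_lit 243)) (XT.lf (nat_lit 0) (nat_lit 9278687745) (nat_lit 76) (nat_lit 11223897551) (nat_lit 76) (nat_lit 6880082444) (nat_lit 6) (nat_lit 4) (nat_lit 7) (nat_lit 5) (nat_lit 7) (nat_lit 4) (nat_lit 282) (nat_lit 256) (nat_lit 242)))) (XT.nd (nat_lit 156) (nat_lit 76) (nat_lit 0) (XT.nd (nat_lit 78) (nat_lit 76) (nat_lit 0) (XT.lf (nat_lit 0) (nat_lit 20879700723) (nat_lit 76) (nat_lit 7131918120) (nat_lit 76) (nat_lit 2694848896) (nat_lit 6) (nat_lit 4) (nat_lit 7) (nat_lit 5) (nat_lit 7) (nat_lit 4) (nat_lit 283) (nat_lit 256) (nat_lit 241)) (XT.lf (nat_lit 0) (nat_lit 1781186290) (nat_lit 152) (nat_lit 688609236) (nat_lit 76) (nat_lit 32068259422) (nat_lit 5) (nat_lit 5) (nat_lit 7) (nat_lit 5) (nat_lit 6) (nat_lit 4) (nat_lit 284) (nat_lit 256) (nat_lit 240))) (XT.nd (nat_lit 78) (nat_lit 0) (nat_lit 0) (XT.lf (nat_lit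 0) (nat_lit 7093709684) (nat_lit 152) (nat_lit 28661812525) (nat_lit 0) (nat_lit 3103559014) (nat_lit 4) (nat_lit 5) (nat_lit 6) (nat_lit 4) (nat_lit 4) (nat_lit 4) (nat_lit 285) (nat_lit 256) (nat_lit 239)) (XT.nd (nat_lit 78) (nat_lit 0) (nat_lit 0) (XT.lf (nat_lit 0) (nat_lit 13231139361) (nat_lit 152) (nat_lit 21405332370) (nat_lit 0) (nat_lit 9187670346) (nat_lit 4) (nat_lit 5) (nat_lit 6) (nat_lit 4) (nat_lit 4) (nat_lit 4) (nat_lit 286) (nat_lit 256) (nat_lit 238)) (XT.lf (nat_lit 0) (nat_lit 20178495583) (nat_lit 152) (nat_lit 13283480612) (nat_lit 0) (nat_lit 16088662791) (nat_lit 4) (nat_lit 5) (nat_lit 6) (nat_lit 4) (nat_lit 4) (nat_lit 4) (nat_lit 287) (nat_lit 256) (nat_lit 237)))))) (XT.nd (nat_lit 390) (nat_lit 76) (nat_lit 0) (XT.nd (nat_lit 156) (nat_lit 0) (nat_lit 0) (XT.nd (nat_lit 78) (nat_lit 76) (nat_lit 0) (XT.lf (nat_lit 0) (nat_lit 28071704886) (nat_lit 152)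 (nat_lit 4137351456) (nat_lit 0) (nat_lit 23941555765) (nat_lit 4) (nat_lit 5) (nat_lit 6) (nat_lit 4) (nat_lit 4) (nat_lit 4) (nat_lit 288) (nat_lit 256) (nat_lit 236)) (XT.lf (nat_lit 0) (nat_lit 6819083028) (nat_lit 76) (nat_lit 30528480284) (nat_lit 76) (nat_lit 26363273486) (nat_lit 3) (nat_lit 4) (nat_lit 4) (nat_lit 5) (nat_lit 4) (nat_lit 4) (nat_lit 289) (nat_lit 256) (nat_lit 235))) (XT.nd (nat_lit 78) (nat_lit 0) (nat_lit 0) (XT.lf (nat_lit 0) (nat_lit 19722936599) (nat_lit 76) (nat_lit 28428687627) (nat_lit 76) (nat_lit 24232995893) (nat_lit 3) (nat_lit 4) (nat_lit 4) (nat_lit 5) (nat_lit 4) (nat_lit 4) (nat_lit 290) (nat_lit 256) (nat_lit 234)) (XT.nd (nat_lit 78) (nat_lit 0) (nat_lit 0) (XT.lf (nat_lit 0) (nat_lit 34422343883) (nat_lit 76) (nat_lit 26084866117) (nat_lit 76) (nat_lit 21862665742) (nat_lit 3) (nat_lit 4) (nat_lit 4) (nat_lit 5) (nat_lit 4) (nat_lit 4) (nat_lit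 291) (nat_lit 256) (nat_lit 233)) (XT.lf (nat_lit 0) (nat_lit 51204901978) (nat_lit 76) (nat_lit 23451158376) (nat_lit 76) (nat_lit 19205907010) (nat_lit 3) (nat_lit 4) (nat_lit 4) (nat_lit 5) (nat_lit 4) (nat_lit 4) (nat_lit 292) (nat_lit 256) (nat_lit 232))))) (XT.nd (nat_lit 156) (nat_lit 76) (nat_lit 0) (XT.nd (nat_lit 78) (nat_lit 0) (nat_lit 0) (XT.lf (nat_lit 0) (nat_lit 70398965283) (nat_lit 76) (nat_lit 20476035340) (nat_lit 76) (nat_lit 16210739633) (nat_lit 3) (nat_lit 4) (nat_lit 4) (nat_lit 5) (nat_lit 4) (nat_lit 4) (nat_lit 293) (nat_lit 256) (nat_lit 231)) (XT.lf (nat_lit 0) (nat_lit 92380069818) (nat_lit 76) (nat_lit 17101288080) (nat_lit 76) (nat_lit 12818562512) (nat_lit 3) (nat_lit 4) (nat_lit 4) (nat_lit 5) (nat_lit 4) (nat_lit 4) (nat_lit 294) (nat_lit 256) (nat_lit 230))) (XT.nd (nat_lit 78) (nat_lit 76) (nat_lit 0) (XT.lf (nat_lit 0) (nat_lit 117578280672) (nat_lit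 76) (nat_lit 13260888932) (nat_lit 76) (nat_lit 8963006963) (nat_lit 3) (nat_lit 4) (nat_lit 4) (nat_lit 5) (nat_lit 4) (nat_lit 4) (nat_lit 295) (nat_lit 256) (nat_lit 229)) (XT.nd (nat_lit 78) (nat_lit 76) (nat_lit 0) (XT.lf (nat_lit 0) (nat_lit 146486606318) (nat_lit 76) (nat_lit 8879699652) (nat_lit 76) (nat_lit 4568638203) (nat_lit 3) (nat_lit 4) (nat_lit 4) (nat_lit 5) (nat_lit 4) (nat_lit 4) (nat_lit 296) (nat_lit 256) (nat_lit 228)) (XT.lf (nat_lit 0) (nat_lit 410412091) (nat_lit 152) (nat_lit 3440135868) (nat_lit 76) (nat_lit 179238778982) (nat_lit 2) (nat_lit 5) (nat_lit 4) (nat_lit 5) (nat_lit 3) (nat_lit 4) (nat_lit 297) (nat_lit 256) (nat_lit 227))))))) (XT.nd (nat_lit 780) (nat_lit 0) (nat_lit 0) (XT.nd (nat_lit 390) (nat_lit 0) (nat_lit 0) (XT.nd (nat_lit 156) (nat_lit 0) (nat_lit 0) (XT.nd (nat_lit 78) (nat_lit 0) (nat_lit 0) (XT.lf (nat_lit 0) (nat_lit 6101851284) (nat_lit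 152) (nat_lit 201182934662) (nat_lit 0) (nat_lit 2334470897) (nat_lit 1) (nat_lit 5) (nat_lit 3) (nat_lit 4) (nat_lit 1) (nat_lit 4) (nat_lit 298) (nat_lit 256) (nat_lit 226)) (XT.lf (nat_lit 0) (nat_lit 12991780469) (nat_lit 152) (nat_lit 217868326957) (nat_lit 0) (nat_lit 9216864672) (nat_lit 1) (nat_lit 5) (nat_lit 3) (nat_lit 4) (nat_lit 1) (nat_lit 4) (nat_lit 299) (nat_lit 256) (nat_lit 225))) (XT.nd (nat_lit 78) (nat_lit 0) (nat_lit 0) (XT.lf (nat_lit 0) (nat_lit 20891743637) (nat_lit 152) (nat_lit 237104854429) (nat_lit 0) (nat_lit 17110275309) (nat_lit 1) (nat_lit 5) (nat_lit 3) (nat_lit 4) (nat_lit 1) (nat_lit 4) (nat_lit 300) (nat_lit 256) (nat_lit 224)) (XT.nd (nat_lit 78) (nat_lit 0) (nat_lit 0) (XT.lf (nat_lit 0) (nat_lit 29956305282) (nat_lit 152) (nat_lit 259268883918) (nat_lit 0) (nat_lit 26169139102) (nat_lit 1) (nat_lit 5) (nat_lit 3) (nat_lit 4) (nat_lit 1) (nat_lit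 4) (nat_lit 301) (nat_lit 256) (nat_lit 223)) (XT.lf (nat_lit 0) (nat_lit 40362815526) (nat_lit 152) (nat_lit 284794059482) (nat_lit 0) (nat_lit 36570694691) (nat_lit 1) (nat_lit 5) (nat_lit 3) (nat_lit 4) (nat_lit 1) (nat_lit 4) (nat_lit 302) (nat_lit 256) (nat_lit 222))))) (XT.nd (nat_lit 156) (nat_lit 0) (nat_lit 0) (XT.nd (nat_lit 78) (nat_lit 0) (nat_lit 0) (XT.lf (nat_lit 0) (nat_lit 52314880002) (nat_lit 152) (nat_lit 314179786727) (nat_lit 0) (nat_lit 48518450772) (nat_lit 1) (nat_lit 5) (nat_lit 3) (nat_lit 4) (nat_lit 1) (nat_lit 4) (nat_lit 303) (nat_lit 256) (nat_lit 221)) (XT.lf (nat_lit 0) (nat_lit 66046343451) (nat_lit 152) (nat_lit 348001003797) (nat_lit 0) (nat_lit 62246167791) (nat_lit 1) (nat_lit 5) (nat_lit 3) (nat_lit 4) (nat_lit 1) (nat_lit 4) (nat_lit 304) (nat_lit 256) (nat_lit 220))) (XT.nd (nat_lit 78) (nat_lit 0) (nat_lit 0) (XT.lf (nat_lit 0) (nat_lit 81825864940)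 (nat_lit 152) (nat_lit 386919430156) (nat_lit 0) (nat_lit 78022431514) (nat_lit 1) (nat_lit 5) (nat_lit 3) (nat_lit 4) (nat_lit 1) (nat_lit 4) (nat_lit 305) (nat_lit 256) (nat_lit 219)) (XT.nd (nat_lit 78) (nat_lit 0) (nat_lit 0) (XT.lf (nat_lit 0) (nat_lit 99962174238) (nat_lit 152) (nat_lit 431696513275) (nat_lit 0) (nat_lit 96155907972) (nat_lit 1) (nat_lit 5) (nat_lit 3) (nat_lit 4) (nat_lit 1) (nat_lit 4) (nat_lit 306) (nat_lit 256) (nat_lit 218)) (XT.lf (nat_lit 0) (nat_lit 120810112177) (nat_lit 152) (nat_lit 483208326520) (nat_lit 0) (nat_lit 117001382573) (nat_lit 1) (nat_lit 5) (nat_lit 3) (nat_lit 4) (nat_lit 1) (nat_lit 4) (nat_lit 307) (nat_lit 256) (nat_lit 217)))))) (XT.nd (nat_lit 390) (nat_lit 0) (nat_lit 0) (XT.nd (nat_lit 156) (nat_lit 0) (nat_lit 0) (XT.nd (nat_lit 78) (nat_lit 0) (nat_lit 0) (XT.lf (nat_lit 0) (nat_lit 144777573198) (nat_lit 152) (nat_lit 542462709716)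 (nat_lit 0) (nat_lit 140966701559) (nat_lit 1) (nat_lit 5) (nat_lit 3) (nat_lit 4) (nat_lit 1) (nat_lit 4) (nat_lit 308) (nat_lit 256) (nat_lit 216)) (XT.lf (nat_lit 0) (nat_lit 172333485884) (nat_lit 152) (nat_lit 610618987752) (nat_lit 0) (nat_lit 168520751607) (nat_lit 1) (nat_lit 5) (nat_lit 3) (nat_lit 4) (nat_lit 1) (nat_lit 4) (nat_lit 309) (nat_lit 256) (nat_lit 215))) (XT.nd (nat_lit 78) (nat_lit 0) (nat_lit 0) (XT.lf (nat_lit 0) (nat_lit 204016987657) (nat_lit 152) (nat_lit 689010653022) (nat_lit 0) (nat_lit 200202633695) (nat_lit 1) (nat_lit 5) (nat_lit 3) (nat_lit 4) (nat_lit 1) (nat_lit 4) (nat_lit 310) (nat_lit 256) (nat_lit 214)) (XT.nd (nat_lit 78) (nat_lit 0) (nat_lit 0) (XT.lf (nat_lit 0) (nat_lit 240447973118) (nat_lit 152) (nat_lit 779171455501) (nat_lit 0) (nat_lit 236632210734) (nat_lit 1) (nat_lit 5) (nat_lit 3) (nat_lit 4) (nat_lit 1) (nat_lit 4) (nat_lit 311)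 (nat_lit 256) (nat_lit 213)) (XT.lf (nat_lit 0) (nat_lit 282339222417) (nat_lit 152) (nat_lit 882865410889) (nat_lit 0) (nat_lit 278522235318) (nat_lit 1) (nat_lit 5) (nat_lit 3) (nat_lit 4) (nat_lit 1) (nat_lit 4) (nat_lit 312) (nat_lit 256) (nat_lit 212))))) (XT.nd (nat_lit 156) (nat_lit 0) (nat_lit 0) (XT.nd (nat_lit 78) (nat_lit 0) (nat_lit 0) (XT.lf (nat_lit 0) (nat_lit 330510346954) (nat_lit 152) (nat_lit 1002121313965) (nat_lit 0) (nat_lit 326692294885) (nat_lit 1) (nat_lit 5) (nat_lit 3) (nat_lit 4) (nat_lit 1) (nat_lit 4) (nat_lit 313) (nat_lit 256) (nat_lit 211)) (XT.lf (nat_lit 0) (nat_lit 385903825251) (nat_lit 152) (nat_lit 1139272432399) (nat_lit 0) (nat_lit 382084847122) (nat_lit 1) (nat_lit 5) (nat_lit 3) (nat_lit 4) (nat_lit 1) (nat_lit 4) (nat_lit 314) (nat_lit 256) (nat_lit 210))) (XT.nd (nat_lit 78) (nat_lit 0) (nat_lit 0) (XT.lf (nat_lit 0) (nat_lit 449603442753)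 (nat_lit 152) (nat_lit 1297002157637) (nat_lit 0) (nat_lit 445783659355) (nat_lit 1) (nat_lit 5) (nat_lit 3) (nat_lit 4) (nat_lit 1) (nat_lit 4) (nat_lit 315) (nat_lit 256) (nat_lit 209)) (XT.nd (nat_lit 78) (nat_lit 0) (nat_lit 0) (XT.lf (nat_lit 0) (nat_lit 522855496326) (nat_lit 152) (nat_lit 1478396506043) (nat_lit 0) (nat_lit 519035012693) (nat_lit 1) (nat_lit 5) (nat_lit 3) (nat_lit 4) (nat_lit 1) (nat_lit 4) (nat_lit 316) (nat_lit 256) (nat_lit 208)) (XT.lf (nat_lit 0) (nat_lit 607093178321) (nat_lit 152) (nat_lit 1687004497477) (nat_lit 0) (nat_lit 603272085789) (nat_lit 1) (nat_lit 5) (nat_lit 3) (nat_lit 4) (nat_lit 1) (nat_lit 4) (nat_lit 317) (nat_lit 256) (nat_lit 207))))))))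
noncomputable def xc41 : XT := (XT.nd (nat_lit 1482) (nat_lit 0) (nat_lit 0) (XT.nd (nat_lit 702) (nat_lit 0) (nat_lit 0) (XT.nd (nat_lit 312) (nat_lit 0) (nat_lit 0) (XT.nd (nat_lit 156) (nat_lit 0) (nat_lit 0) (XT.nd (nat_lit 78) (nat_lit 0) (nat_lit 0) (XT.lf (nat_lit 0) (nat_lit 703964617300) (nat_lit 152) (nat_lit 1926907592641) (nat_lit 0) (nat_lit 700142995289) (nat_lit 1) (nat_lit 5) (nat_lit 3) (nat_lit 4) (nat_lit 1) (nat_lit 4) (nat_lit 318) (nat_lit 256) (nat_lit 206)) (XT.lf (nat_lit 0) (nat_lit 815365124024) (nat_lit 152) (nat_lit 2202799547745) (nat_lit 0) (nat_lit 811543041598) (nat_lit 1) (nat_lit 5) (nat_lit 3) (nat_lit 4) (nat_lit 1) (nat_lit 4) (nat_lit 319) (nat_lit 256) (nat_lit 205))) (XT.nd (nat_lit 78) (nat_lit 0) (nat_lit 0) (XT.lf (nat_lit 0) (nat_lit 943474273626) (nat_lit 152) (nat_lit 2520078248867) (nat_lit 0) (nat_lit 939651790838) (nat_lit 1) (nat_lit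 5) (nat_lit 3) (nat_lit 4) (nat_lit 1) (nat_lit 4) (nat_lit 320) (nat_lit 256) (nat_lit 204)) (XT.lf (nat_lit 0) (nat_lit 1090798549467) (nat_lit 152) (nat_lit 2884951322769) (nat_lit 0) (nat_lit 1086975718538) (nat_lit 1) (nat_lit 5) (nat_lit 3) (nat_lit 4) (nat_lit 1) (nat_lit 4) (nat_lit 321) (nat_lit 256) (nat_lit 203)))) (XT.nd (nat_lit 156) (nat_lit 0) (nat_lit 0) (XT.nd (nat_lit 78) (nat_lit 0) (nat_lit 0) (XT.lf (nat_lit 0) (nat_lit 1260220383031) (nat_lit 152) (nat_lit 3304557590460) (nat_lit 0) (nat_lit 1256397249371) (nat_lit 1) (nat_lit 5) (nat_lit 3) (nat_lit 4) (nat_lit 1) (nat_lit 4) (nat_lit 322) (nat_lit 256) (nat_lit 202)) (XT.lf (nat_lit 0) (nat_lit 1455054549322) (nat_lit 152) (nat_lit 3787106739788) (nat_lit 0) (nat_lit 1451231152419) (nat_lit 1) (nat_lit 5) (nat_lit 3) (nat_lit 4) (nat_lit 1) (nat_lit 4) (nat_lit 323) (nat_lit 256) (nat_lit 201))) (XT.nd (nat_lit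 78) (nat_lit 0) (nat_lit 0) (XT.lf (nat_lit 0) (nat_lit 1679113021160) (nat_lit 152) (nat_lit 4342039949761) (nat_lit 0) (nat_lit 1675289395348) (nat_lit 1) (nat_lit 5) (nat_lit 3) (nat_lit 4) (nat_lit 1) (nat_lit 4) (nat_lit 324) (nat_lit 256) (nat_lit 200)) (XT.nd (nat_lit 78) (nat_lit 0) (nat_lit 0) (XT.lf (nat_lit 0) (nat_lit 1936779551253) (nat_lit 152) (nat_lit 4980214609270) (nat_lit 0) (nat_lit 1932955726392) (nat_lit 1) (nat_lit 5) (nat_lit 3) (nat_lit 4) (nat_lit 1) (nat_lit 4) (nat_lit 325) (nat_lit 256) (nat_lit 199)) (XT.lf (nat_lit 0) (nat_lit 2233095441279) (nat_lit 152) (nat_lit 5714116744261) (nat_lit 0) (nat_lit 2229271443330) (nat_lit 1) (nat_lit 5) (nat_lit 3) (nat_lit 4) (nat_lit 1) (nat_lit 4) (nat_lit 326) (nat_lit 256) (nat_lit 198)))))) (XT.nd (nat_lit 390) (nat_lit 0) (nat_lit 0) (XT.nd (nat_lit 156) (nat_lit 0) (nat_lit 0) (XT.nd (nat_lit 78) (nat_lit 0) (nat_lit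 0) (XT.lf (nat_lit 0) (nat_lit 2573858176041) (nat_lit 152) (nat_lit 6558105309549) (nat_lit 0) (nat_lit 2570034027582) (nat_lit 1) (nat_lit 5) (nat_lit 3) (nat_lit 4) (nat_lit 1) (nat_lit 4) (nat_lit 327) (nat_lit 256) (nat_lit 197)) (XT.lf (nat_lit 0) (nat_lit 2965734852525) (nat_lit 152) (nat_lit 7528693124892) (nat_lit 0) (nat_lit 2961910573187) (nat_lit 1) (nat_lit 5) (nat_lit 3) (nat_lit 4) (nat_lit 1) (nat_lit 4) (nat_lit 328) (nat_lit 256) (nat_lit 196))) (XT.nd (nat_lit 78) (nat_lit 0) (nat_lit 0) (XT.lf (nat_lit 0) (nat_lit 3416392623096) (nat_lit 152) (nat_lit 8644869951892) (nat_lit 0) (nat_lit 3412568229950) (nat_lit 1) (nat_lit 5) (nat_lit 3) (nat_lit 4) (nat_lit 1) (nat_lit 4) (nat_lit 329) (nat_lit 256) (nat_lit 195)) (XT.nd (nat_lit 78) (nat_lit 0) (nat_lit 0) (XT.lf (nat_lit 0) (nat_lit 3934648705004) (nat_lit 152) (nat_lit 9928474032817) (nat_lit 0) (nat_lit 3930824212895)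 (nat_lit 1) (nat_lit 5) (nat_lit 3) (nat_lit 4) (nat_lit 1) (nat_lit 4) (nat_lit 330) (nat_lit 256) (nat_lit 194)) (XT.lf (nat_lit 0) (nat_lit 4530642891157) (nat_lit 152) (nat_lit 11404619360555) (nat_lit 0) (nat_lit 4526818312993) (nat_lit 1) (nat_lit 5) (nat_lit 3) (nat_lit 4) (nat_lit 1) (nat_lit 4) (nat_lit 331) (nat_lit 256) (nat_lit 193))))) (XT.nd (nat_lit 156) (nat_lit 0) (nat_lit 0) (XT.nd (nat_lit 78) (nat_lit 0) (nat_lit 0) (XT.lf (nat_lit 0) (nat_lit 5216035937370) (nat_lit 152) (nat_lit 13102187039344) (nat_lit 0) (nat_lit 5212211284375) (nat_lit 1) (nat_lit 5) (nat_lit 3) (nat_lit 4) (nat_lit 1) (nat_lit 4) (nat_lit 332) (nat_lit 256) (nat_lit 192)) (XT.lf (nat_lit 0) (nat_lit 6004237707591) (nat_lit 152) (nat_lit 15054390349857) (nat_lit 0) (nat_lit 6000412989527) (nat_lit 1) (nat_lit 5) (nat_lit 3) (nat_lit 4) (nat_lit 1) (nat_lit 4) (nat_lit 333) (nat_lit 256) (nat_lit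 191))) (XT.nd (nat_lit 78) (nat_lit 0) (nat_lit 0) (XT.lf (nat_lit 0) (nat_lit 6910669540803) (nat_lit 152) (nat_lit 17299424574255) (nat_lit 0) (nat_lit 6906844766156) (nat_lit 1) (nat_lit 5) (nat_lit 3) (nat_lit 4) (nat_lit 1) (nat_lit 4) (nat_lit 334) (nat_lit 256) (nat_lit 190)) (XT.nd (nat_lit 78) (nat_lit 0) (nat_lit 0) (XT.lf (nat_lit 0) (nat_lit 7953065972873) (nat_lit 152) (nat_lit 19881214295189) (nat_lit 0) (nat_lit 7949241149023) (nat_lit 1) (nat_lit 5) (nat_lit 3) (nat_lit 4) (nat_lit 1) (nat_lit 4) (nat_lit 335) (nat_lit 256) (nat_lit 189)) (XT.lf (nat_lit 0) (nat_lit 9151821716602) (nat_lit 152) (nat_lit 22850272789809) (nat_lit 0) (nat_lit 9147996849968) (nat_lit 1) (nat_lit 5) (nat_lit 3) (nat_lit 4) (nat_lit 1) (nat_lit 4) (nat_lit 336) (nat_lit 256) (nat_lit 188))))))) (XT.nd (nat_lit 35334) (nat_lit 0) (nat_lit 608) (XT.nd (nat_lit 390) (nat_lit 0) (nat_lit 0) (XT.nd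 (nat_lit 156) (nat_lit 0) (nat_lit 0) (XT.nd (nat_lit 78) (nat_lit 0) (nat_lit 0) (XT.lf (nat_lit 0) (nat_lit 10530390688715) (nat_lit 152) (nat_lit 26264690333009) (nat_lit 0) (nat_lit 10526565784877) (nat_lit 1) (nat_lit 5) (nat_lit 3) (nat_lit 4) (nat_lit 1) (nat_lit 4) (nat_lit 337) (nat_lit 256) (nat_lit 187)) (XT.lf (nat_lit 0) (nat_lit 12115744890841) (nat_lit 152) (nat_lit 30191270746287) (nat_lit 0) (nat_lit 12111919954652) (nat_lit 1) (nat_lit 5) (nat_lit 3) (nat_lit 4) (nat_lit 1) (nat_lit 4) (nat_lit 338) (nat_lit 256) (nat_lit 186))) (XT.nd (nat_lit 78) (nat_lit 0) (nat_lit 0) (XT.lf (nat_lit 0) (nat_lit 13938902122587) (nat_lit 152) (nat_lit 34706838429033) (nat_lit 0) (nat_lit 13935077158266) (nat_lit 1) (nat_lit 5) (nat_lit 3) (nat_lit 4) (nat_lit 1) (nat_lit 4) (nat_lit 339) (nat_lit 256) (nat_lit 185)) (XT.nd (nat_lit 78) (nat_lit 0) (nat_lit 0) (XT.lf (nat_lit 0) (nat_lit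 16035532851529) (nat_lit 152) (nat_lit 39899741444604) (nat_lit 0) (nat_lit 16031707862746) (nat_lit 1) (nat_lit 5) (nat_lit 3) (nat_lit 4) (nat_lit 1) (nat_lit 4) (nat_lit 340) (nat_lit 256) (nat_lit 184)) (XT.lf (nat_lit 0) (nat_lit 18446658113670) (nat_lit 152) (nat_lit 45871580069392) (nat_lit 0) (nat_lit 18442833103616) (nat_lit 1) (nat_lit 5) (nat_lit 3) (nat_lit 4) (nat_lit 1) (nat_lit 4) (nat_lit 341) (nat_lit 256) (nat_lit 183))))) (XT.nd (nat_lit 34710) (nat_lit 0) (nat_lit 1368) (XT.nd (nat_lit 546) (nat_lit 0) (nat_lit 0) (XT.lf (nat_lit 0) (nat_lit 21219452098920) (nat_lit 152) (nat_lit 52739194624318) (nat_lit 0) (nat_lit 21215627070369) (nat_lit 1) (nat_lit 5) (nat_lit 3) (nat_lit 4) (nat_lit 1) (nat_lit 4) (nat_lit 342) (nat_lit 256) (nat_lit 182)) (XT.lf (nat_lit 0) (nat_lit 56508297746536) (nat_lit 152) (nat_lit 140142086224339) (nat_lit 0) (nat_lit 56504472641030) (nat_lit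 1) (nat_lit 5) (nat_lit 3) (nat_lit 4) (nat_lit 1) (nat_lit 4) (nat_lit 349) (nat_lit 256) (nat_lit 175))) (XT.nd (nat_lit 78) (nat_lit 532) (nat_lit 0) (XT.lf (nat_lit 0) (nat_lit 2437772010) (nat_lit 228) (nat_lit 614245265) (nat_lit 228) (nat_lit 614245265) (nat_lit 26) (nat_lit 4) (nat_lit 29) (nat_lit 5) (nat_lit 29) (nat_lit 4) (nat_lit 266) (nat_lit 257) (nat_lit 257)) (XT.nd (nat_lit 78) (nat_lit 152) (nat_lit 0) (XT.lf (nat_lit 0) (nat_lit 2151524252) (nat_lit 380) (nat_lit 4698987767) (nat_lit 0) (nat_lit 824352947) (nat_lit 21) (nat_lit 5) (nat_lit 26) (nat_lit 4) (nat_lit 21) (nat_lit 4) (nat_lit 267) (nat_lit 257) (nat_lit 256)) (XT.lf (nat_lit 0) (nat_lit 829188494) (nat_lit 152) (nat_lit 4872650264) (nat_lit 152) (nat_lit 2391416955) (nat_lit 19) (nat_lit 4) (nat_lit 21) (nat_lit 5) (nat_lit 21) (nat_lit 4) (nat_lit 268) (nat_lit 257) (nat_lit 255)))))) (XT.nd (nat_lit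 390) (nat_lit 304) (nat_lit 0) (XT.nd (nat_lit 156) (nat_lit 304) (nat_lit 0) (XT.nd (nat_lit 78) (nat_lit 76) (nat_lit 0) (XT.lf (nat_lit 0) (nat_lit 935441479) (nat_lit 228) (nat_lit 1473566305) (nat_lit 76) (nat_lit 6184333610) (nat_lit 18) (nat_lit 5) (nat_lit 21) (nat_lit 5) (nat_lit 19) (nat_lit 4) (nat_lit 269) (nat_lit 257) (nat_lit 254)) (XT.lf (nat_lit 0) (nat_lit 4381610485) (nat_lit 152) (nat_lit 4198622062) (nat_lit 0) (nat_lit 592565126) (nat_lit 17) (nat_lit 5) (nat_lit 19) (nat_lit 4) (nat_lit 17) (nat_lit 4) (nat_lit 270) (nat_lit 257) (nat_lit 253))) (XT.nd (nat_lit 78) (nat_lit 152) (nat_lit 0) (XT.lf (nat_lit 0) (nat_lit 2276439882) (nat_lit 152) (nat_lit 6010653854) (nat_lit 152) (nat_lit 1561769798) (nat_lit 15) (nat_lit 4) (nat_lit 17) (nat_lit 5) (nat_lit 17) (nat_lit 4) (nat_lit 271) (nat_lit 257) (nat_lit 252)) (XT.nd (nat_lit 78) (nat_lit 76) (nat_lit 0) (XT.lf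 (nat_lit 0) (nat_lit 1851046590) (nat_lit 228) (nat_lit 1042906665) (nat_lit 76) (nat_lit 7736226090) (nat_lit 14) (nat_lit 5) (nat_lit 17) (nat_lit 5) (nat_lit 15) (nat_lit 4) (nat_lit 272) (nat_lit 257) (nat_lit 251)) (XT.lf (nat_lit 0) (nat_lit 5627356487) (nat_lit 152) (nat_lit 5063176462) (nat_lit 0) (nat_lit 825974150) (nat_lit 13) (nat_lit 5) (nat_lit 15) (nat_lit 4) (nat_lit 13) (nat_lit 4) (nat_lit 273) (nat_lit 257) (nat_lit 250))))) (XT.nd (nat_lit 156) (nat_lit 152) (nat_lit 0) (XT.nd (nat_lit 78) (nat_lit 76) (nat_lit 0) (XT.lf (nat_lit 0) (nat_lit 2235653633) (nat_lit 76) (nat_lit 7739323982) (nat_lit 76) (nat_lit 2560676728) (nat_lit 12) (nat_lit 4) (nat_lit 13) (nat_lit 5) (nat_lit 13) (nat_lit 4) (nat_lit 274) (nat_lit 257) (nat_lit 249)) (XT.lf (nat_lit 0) (nat_lit 1153444333) (nat_lit 152) (nat_lit 3026798384) (nat_lit 76) (nat_lit 9520137794) (nat_lit 11) (nat_lit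 5) (nat_lit 13) (nat_lit 5) (nat_lit 12) (nat_lit 4) (nat_lit 275) (nat_lit 257) (nat_lit 248))) (XT.nd (nat_lit 78) (nat_lit 76) (nat_lit 0) (XT.lf (nat_lit 0) (nat_lit 5143165735) (nat_lit 152) (nat_lit 9774986927) (nat_lit 0) (nat_lit 106669927) (nat_lit 10) (nat_lit 5) (nat_lit 12) (nat_lit 4) (nat_lit 10) (nat_lit 4) (nat_lit 276) (nat_lit 257) (nat_lit 247)) (XT.nd (nat_lit 78) (nat_lit 76) (nat_lit 0) (XT.lf (nat_lit 0) (nat_lit 9861462485) (nat_lit 152) (nat_lit 2058029762) (nat_lit 0) (nat_lit 4609264236) (nat_lit 10) (nat_lit 5) (nat_lit 12) (nat_lit 4) (nat_lit 10) (nat_lit 4) (nat_lit 277) (nat_lit 257) (nat_lit 246)) (XT.lf (nat_lit 0) (nat_lit 7067041916) (nat_lit 76) (nat_lit 8309010109) (nat_lit 76) (nat_lit 2869244521) (nat_lit 9) (nat_lit 4) (nat_lit 10) (nat_lit 5) (nat_lit 10) (nat_lit 4) (nat_lit 278) (nat_lit 257) (nat_lit 245))))))))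
noncomputable def xc42 : XT := (XT.nd (nat_lit 1482) (nat_lit 152) (nat_lit 0) (XT.nd (nat_lit 702) (nat_lit 76) (nat_lit 0) (XT.nd (nat_lit 312) (nat_lit 152) (nat_lit 0) (XT.nd (nat_lit 156) (nat_lit 76) (nat_lit 0) (XT.nd (nat_lit 78) (nat_lit 76) (nat_lit 0) (XT.lf (nat_lit 0) (nat_lit 1275979326) (nat_lit 152) (nat_lit 2859512071) (nat_lit 76) (nat_lit 16088113038) (nat_lit 8) (nat_lit 5) (nat_lit 10) (nat_lit 5) (nat_lit 9) (nat_lit 4) (nat_lit 279) (nat_lit 257) (nat_lit 244)) (XT.lf (nat_lit 0) (nat_lit 5898356114) (nat_lit 152) (nat_lit 15654666398) (nat_lit 0) (nat_lit 902968741) (nat_lit 7) (nat_lit 5) (nat_lit 9) (nat_lit 4) (nat_lit 7) (nat_lit 4) (nat_lit 280) (nat_lit 257) (nat_lit 243))) (XT.nd (nat_lit 78) (nat_lit 76) (nat_lit 0) (XT.lf (nat_lit 0) (nat_lit 11395649298) (nat_lit 152) (nat_lit 7307503693) (nat_lit 0) (nat_lit 6293019691) (nat_lit 7) (nat_lit 5) (nat_lit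 9) (nat_lit 4) (nat_lit 7) (nat_lit 4) (nat_lit 281) (nat_lit 257) (nat_lit 242)) (XT.lf (nat_lit 0) (nat_lit 2195638933) (nat_lit 76) (nat_lit 15463283287) (nat_lit 76) (nat_lit 10267399562) (nat_lit 6) (nat_lit 4) (nat_lit 7) (nat_lit 5) (nat_lit 7) (nat_lit 4) (nat_lit 282) (nat_lit 257) (nat_lit 241)))) (XT.nd (nat_lit 156) (nat_lit 152) (nat_lit 0) (XT.nd (nat_lit 78) (nat_lit 0) (nat_lit 0) (XT.lf (nat_lit 0) (nat_lit 13667204251) (nat_lit 76) (nat_lit 11434913725) (nat_lit 76) (nat_lit 6157939463) (nat_lit 6) (nat_lit 4) (nat_lit 7) (nat_lit 5) (nat_lit 7) (nat_lit 4) (nat_lit 283) (nat_lit 257) (nat_lit 240)) (XT.lf (nat_lit 0) (nat_lit 26617493522) (nat_lit 76) (nat_lit 6921211526) (nat_lit 76) (nat_lit 1573723754) (nat_lit 6) (nat_lit 4) (nat_lit 7) (nat_lit 5) (nat_lit 7) (nat_lit 4) (nat_lit 284) (nat_lit 257) (nat_lit 239))) (XT.nd (nat_lit 78) (nat_lit 0) (nat_lit 0) (XT.lf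 (nat_lit 0) (nat_lit 1748726775) (nat_lit 76) (nat_lit 1580357245) (nat_lit 152) (nat_lit 36196658092) (nat_lit 4) (nat_lit 5) (nat_lit 5) (nat_lit 5) (nat_lit 6) (nat_lit 4) (nat_lit 285) (nat_lit 257) (nat_lit 238)) (XT.nd (nat_lit 78) (nat_lit 0) (nat_lit 0) (XT.lf (nat_lit 0) (nat_lit 9349591726) (nat_lit 152) (nat_lit 30558863596) (nat_lit 0) (nat_lit 4599920237) (nat_lit 4) (nat_lit 5) (nat_lit 6) (nat_lit 4) (nat_lit 4) (nat_lit 4) (nat_lit 286) (nat_lit 257) (nat_lit 237)) (XT.lf (nat_lit 0) (nat_lit 16252180343) (nat_lit 152) (nat_lit 22527244566) (nat_lit 0) (nat_lit 11462192525) (nat_lit 4) (nat_lit 5) (nat_lit 6) (nat_lit 4) (nat_lit 4) (nat_lit 4) (nat_lit 287) (nat_lit 257) (nat_lit 236)))))) (XT.nd (nat_lit 390) (nat_lit 0) (nat_lit 0) (XT.nd (nat_lit 156) (nat_lit 76) (nat_lit 0) (XT.nd (nat_lit 78) (nat_lit 0) (nat_lit 0) (XT.lf (nat_lit 0) (nat_lit 24106461293) (nat_lit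 152) (nat_lit 13459578652) (nat_lit 0) (nat_lit 19281415798) (nat_lit 4) (nat_lit 5) (nat_lit 6) (nat_lit 4) (nat_lit 4) (nat_lit 4) (nat_lit 288) (nat_lit 257) (nat_lit 235)) (XT.lf (nat_lit 0) (nat_lit 33066105290) (nat_lit 152) (nat_lit 3178454999) (nat_lit 0) (nat_lit 28210574859) (nat_lit 4) (nat_lit 5) (nat_lit 6) (nat_lit 4) (nat_lit 4) (nat_lit 4) (nat_lit 289) (nat_lit 257) (nat_lit 234))) (XT.nd (nat_lit 78) (nat_lit 0) (nat_lit 0) (XT.lf (nat_lit 0) (nat_lit 9349649240) (nat_lit 76) (nat_lit 34343909515) (nat_lit 76) (nat_lit 29461870443) (nat_lit 3) (nat_lit 4) (nat_lit 4) (nat_lit 5) (nat_lit 4) (nat_lit 4) (nat_lit 290) (nat_lit 257) (nat_lit 233)) (XT.nd (nat_lit 78) (nat_lit 0) (nat_lit 0) (XT.lf (nat_lit 0) (nat_lit 23992423835) (nat_lit 76) (nat_lit 32028779630) (nat_lit 76) (nat_lit 27123689567) (nat_lit 3) (nat_lit 4) (nat_lit 4) (nat_lit 5) (nat_lit 4) (nat_lit 4)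 (nat_lit 291) (nat_lit 257) (nat_lit 232)) (XT.lf (nat_lit 0) (nat_lit 40725736115) (nat_lit 76) (nat_lit 29420021130) (nat_lit 76) (nat_lit 24494886726) (nat_lit 3) (nat_lit 4) (nat_lit 4) (nat_lit 5) (nat_lit 4) (nat_lit 4) (nat_lit 292) (nat_lit 257) (nat_lit 231))))) (XT.nd (nat_lit 156) (nat_lit 0) (nat_lit 0) (XT.nd (nat_lit 78) (nat_lit 0) (nat_lit 0) (XT.lf (nat_lit 0) (nat_lit 59876976970) (nat_lit 76) (nat_lit 26466593085) (nat_lit 76) (nat_lit 21524028820) (nat_lit 3) (nat_lit 4) (nat_lit 4) (nat_lit 5) (nat_lit 4) (nat_lit 4) (nat_lit 293) (nat_lit 257) (nat_lit 230)) (XT.lf (nat_lit 0) (nat_lit 81820844593) (nat_lit 76) (nat_lit 23110711035) (nat_lit 76) (nat_lit 18152990368) (nat_lit 3) (nat_lit 4) (nat_lit 4) (nat_lit 5) (nat_lit 4) (nat_lit 4) (nat_lit 294) (nat_lit 257) (nat_lit 229))) (XT.nd (nat_lit 78) (nat_lit 0) (nat_lit 0) (XT.lf (nat_lit 0) (nat_lit 106986675523)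 (nat_lit 76) (nat_lit 19286716417) (nat_lit 76) (nat_lit 14315816271) (nat_lit 3) (nat_lit 4) (nat_lit 4) (nat_lit 5) (nat_lit 4) (nat_lit 4) (nat_lit 295) (nat_lit 257) (nat_lit 228)) (XT.nd (nat_lit 78) (nat_lit 0) (nat_lit 0) (XT.lf (nat_lit 0) (nat_lit 135866844714) (nat_lit 76) (nat_lit 14919791945) (nat_lit 76) (nat_lit 9937431383) (nat_lit 3) (nat_lit 4) (nat_lit 4) (nat_lit 5) (nat_lit 4) (nat_lit 4) (nat_lit 296) (nat_lit 257) (nat_lit 227)) (XT.lf (nat_lit 0) (nat_lit 169026398954) (nat_lit 76) (nat_lit 9924497794) (nat_lit 76) (nat_lit 4932171652) (nat_lit 3) (nat_lit 4) (nat_lit 4) (nat_lit 5) (nat_lit 4) (nat_lit 4) (nat_lit 297) (nat_lit 257) (nat_lit 226))))))) (XT.nd (nat_lit 780) (nat_lit 0) (nat_lit 0) (XT.nd (nat_lit 390) (nat_lit 0) (nat_lit 0) (XT.nd (nat_lit 156) (nat_lit 0) (nat_lit 0) (XT.nd (nat_lit 78) (nat_lit 76) (nat_lit 0) (XT.lf (nat_lit 0) (nat_lit 726858060)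 (nat_lit 152) (nat_lit 3438247033) (nat_lit 76) (nat_lit 206349259217) (nat_lit 2) (nat_lit 5) (nat_lit 4) (nat_lit 5) (nat_lit 3) (nat_lit 4) (nat_lit 298) (nat_lit 257) (nat_lit 225)) (XT.lf (nat_lit 0) (nat_lit 7269683590) (nat_lit 152) (nat_lit 230840023889) (nat_lit 0) (nat_lit 2914442483) (nat_lit 1) (nat_lit 5) (nat_lit 3) (nat_lit 4) (nat_lit 1) (nat_lit 4) (nat_lit 299) (nat_lit 257) (nat_lit 224))) (XT.nd (nat_lit 78) (nat_lit 0) (nat_lit 0) (XT.lf (nat_lit 0) (nat_lit 15160160247) (nat_lit 152) (nat_lit 250096096894) (nat_lit 0) (nat_lit 10799221287) (nat_lit 1) (nat_lit 5) (nat_lit 3) (nat_lit 4) (nat_lit 1) (nat_lit 4) (nat_lit 300) (nat_lit 257) (nat_lit 223)) (XT.nd (nat_lit 78) (nat_lit 0) (nat_lit 0) (XT.lf (nat_lit 0) (nat_lit 24216472754) (nat_lit 152) (nat_lit 272277122500) (nat_lit 0) (nat_lit 19850579139) (nat_lit 1) (nat_lit 5) (nat_lit 3) (nat_lit 4) (nat_lit 1)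 (nat_lit 4) (nat_lit 301) (nat_lit 257) (nat_lit 222)) (XT.lf (nat_lit 0) (nat_lit 34615809833) (nat_lit 152) (nat_lit 297817077295) (nat_lit 0) (nat_lit 30245607823) (nat_lit 1) (nat_lit 5) (nat_lit 3) (nat_lit 4) (nat_lit 1) (nat_lit 4) (nat_lit 302) (nat_lit 257) (nat_lit 221))))) (XT.nd (nat_lit 156) (nat_lit 0) (nat_lit 0) (XT.nd (nat_lit 78) (nat_lit 0) (nat_lit 0) (XT.lf (nat_lit 0) (nat_lit 46561636775) (nat_lit 152) (nat_lit 327215656046) (nat_lit 0) (nat_lit 42187688335) (nat_lit 1) (nat_lit 5) (nat_lit 3) (nat_lit 4) (nat_lit 1) (nat_lit 4) (nat_lit 303) (nat_lit 257) (nat_lit 220)) (XT.lf (nat_lit 0) (nat_lit 60287676281) (nat_lit 152) (nat_lit 361048048338) (nat_lit 0) (nat_lit 55910470075) (nat_lit 1) (nat_lit 5) (nat_lit 3) (nat_lit 4) (nat_lit 1) (nat_lit 4) (nat_lit 304) (nat_lit 257) (nat_lit 219))) (XT.nd (nat_lit 78) (nat_lit 0) (nat_lit 0) (XT.lf (nat_lit 0) (nat_lit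 76062481298) (nat_lit 152) (nat_lit 399976192282) (nat_lit 0) (nat_lit 71682442252) (nat_lit 1) (nat_lit 5) (nat_lit 3) (nat_lit 4) (nat_lit 1) (nat_lit 4) (nat_lit 305) (nat_lit 257) (nat_lit 218)) (XT.nd (nat_lit 78) (nat_lit 0) (nat_lit 0) (XT.lf (nat_lit 0) (nat_lit 94194689315) (nat_lit 152) (nat_lit 444761725474) (nat_lit 0) (nat_lit 89812186931) (nat_lit 1) (nat_lit 5) (nat_lit 3) (nat_lit 4) (nat_lit 1) (nat_lit 4) (nat_lit 306) (nat_lit 257) (nat_lit 217)) (XT.lf (nat_lit 0) (nat_lit 115039060924) (nat_lit 152) (nat_lit 496280886610) (nat_lit 0) (nat_lit 110654416506) (nat_lit 1) (nat_lit 5) (nat_lit 3) (nat_lit 4) (nat_lit 1) (nat_lit 4) (nat_lit 307) (nat_lit 257) (nat_lit 216)))))) (XT.nd (nat_lit 390) (nat_lit 0) (nat_lit 0) (XT.nd (nat_lit 156) (nat_lit 0) (nat_lit 0) (XT.nd (nat_lit 78) (nat_lit 0) (nat_lit 0) (XT.lf (nat_lit 0) (nat_lit 139003420788) (nat_lit 152) (nat_lit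 555541659276) (nat_lit 0) (nat_lit 134616913731) (nat_lit 1) (nat_lit 5) (nat_lit 3) (nat_lit 4) (nat_lit 1) (nat_lit 4) (nat_lit 308) (nat_lit 257) (nat_lit 215)) (XT.lf (nat_lit 0) (nat_lit 166556636815) (nat_lit 152) (nat_lit 623703493372) (nat_lit 0) (nat_lit 162168510074) (nat_lit 1) (nat_lit 5) (nat_lit 3) (nat_lit 4) (nat_lit 1) (nat_lit 4) (nat_lit 309) (nat_lit 257) (nat_lit 214))) (XT.nd (nat_lit 78) (nat_lit 0) (nat_lit 0) (XT.lf (nat_lit 0) (nat_lit 198237793669) (nat_lit 152) (nat_lit 702099989999) (nat_lit 0) (nat_lit 193848258505) (nat_lit 1) (nat_lit 5) (nat_lit 3) (nat_lit 4) (nat_lit 1) (nat_lit 4) (nat_lit 310) (nat_lit 257) (nat_lit 213)) (XT.nd (nat_lit 78) (nat_lit 0) (nat_lit 0) (XT.lf (nat_lit 0) (nat_lit 234666740069) (nat_lit 152) (nat_lit 792264993658) (nat_lit 0) (nat_lit 230275980190) (nat_lit 1) (nat_lit 5) (nat_lit 3) (nat_lit 4) (nat_lit 1) (nat_lit 4)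 (nat_lit 311) (nat_lit 257) (nat_lit 212)) (XT.lf (nat_lit 0) (nat_lit 276556216271) (nat_lit 152) (nat_lit 895962602246) (nat_lit 0) (nat_lit 272164391423) (nat_lit 1) (nat_lit 5) (nat_lit 3) (nat_lit 4) (nat_lit 1) (nat_lit 4) (nat_lit 312) (nat_lit 257) (nat_lit 211))))) (XT.nd (nat_lit 156) (nat_lit 0) (nat_lit 0) (XT.nd (nat_lit 78) (nat_lit 0) (nat_lit 0) (XT.lf (nat_lit 0) (nat_lit 324725798984) (nat_lit 152) (nat_lit 1015221682018) (nat_lit 0) (nat_lit 320333048076) (nat_lit 1) (nat_lit 5) (nat_lit 3) (nat_lit 4) (nat_lit 1) (nat_lit 4) (nat_lit 313) (nat_lit 257) (nat_lit 210)) (XT.lf (nat_lit 0) (nat_lit 380117936566) (nat_lit 152) (nat_lit 1152375562795) (nat_lit 0) (nat_lit 375724380388) (nat_lit 1) (nat_lit 5) (nat_lit 3) (nat_lit 4) (nat_lit 1) (nat_lit 4) (nat_lit 314) (nat_lit 257) (nat_lit 209))) (XT.nd (nat_lit 78) (nat_lit 0) (nat_lit 0) (XT.lf (nat_lit 0) (nat_lit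 443816388229) (nat_lit 152) (nat_lit 1310107690072) (nat_lit 0) (nat_lit 439422131816) (nat_lit 1) (nat_lit 5) (nat_lit 3) (nat_lit 4) (nat_lit 1) (nat_lit 4) (nat_lit 315) (nat_lit 257) (nat_lit 208)) (XT.nd (nat_lit 78) (nat_lit 0) (nat_lit 0) (XT.lf (nat_lit 0) (nat_lit 517067428028) (nat_lit 152) (nat_lit 1491504127207) (nat_lit 0) (nat_lit 512672562715) (nat_lit 1) (nat_lit 5) (nat_lit 3) (nat_lit 4) (nat_lit 1) (nat_lit 4) (nat_lit 316) (nat_lit 257) (nat_lit 207)) (XT.lf (nat_lit 0) (nat_lit 601304228481) (nat_lit 152) (nat_lit 1700113934927) (nat_lit 0) (nat_lit 596908833690) (nat_lit 1) (nat_lit 5) (nat_lit 3) (nat_lit 4) (nat_lit 1) (nat_lit 4) (nat_lit 317) (nat_lit 257) (nat_lit 206))))))))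
noncomputable def xc43 : XT := (XT.nd (nat_lit 1482) (nat_lit 0) (nat_lit 0) (XT.nd (nat_lit 702) (nat_lit 0) (nat_lit 0) (XT.nd (nat_lit 312) (nat_lit 0) (nat_lit 0) (XT.nd (nat_lit 156) (nat_lit 0) (nat_lit 0) (XT.nd (nat_lit 78) (nat_lit 0) (nat_lit 0) (XT.lf (nat_lit 0) (nat_lit 698174900901) (nat_lit 152) (nat_lit 1940018609470) (nat_lit 0) (nat_lit 693779045695) (nat_lit 1) (nat_lit 5) (nat_lit 3) (nat_lit 4) (nat_lit 1) (nat_lit 4) (nat_lit 318) (nat_lit 257) (nat_lit 205)) (XT.lf (nat_lit 0) (nat_lit 809574741052) (nat_lit 152) (nat_lit 2215911937948) (nat_lit 0) (nat_lit 805178485485) (nat_lit 1) (nat_lit 5) (nat_lit 3) (nat_lit 4) (nat_lit 1) (nat_lit 4) (nat_lit 319) (nat_lit 257) (nat_lit 204))) (XT.nd (nat_lit 78) (nat_lit 0) (nat_lit 0) (XT.lf (nat_lit 0) (nat_lit 937683311026) (nat_lit 152) (nat_lit 2533191833307) (nat_lit 0) (nat_lit 933286707318) (nat_lit 1) (nat_lit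 5) (nat_lit 3) (nat_lit 4) (nat_lit 1) (nat_lit 4) (nat_lit 320) (nat_lit 257) (nat_lit 203)) (XT.lf (nat_lit 0) (nat_lit 1085007082842) (nat_lit 152) (nat_lit 2898065945676) (nat_lit 0) (nat_lit 1080610176403) (nat_lit 1) (nat_lit 5) (nat_lit 3) (nat_lit 4) (nat_lit 1) (nat_lit 4) (nat_lit 321) (nat_lit 257) (nat_lit 202)))) (XT.nd (nat_lit 156) (nat_lit 0) (nat_lit 0) (XT.nd (nat_lit 78) (nat_lit 0) (nat_lit 0) (XT.lf (nat_lit 0) (nat_lit 1254428478123) (nat_lit 152) (nat_lit 3317673116383) (nat_lit 0) (nat_lit 1250031308440) (nat_lit 1) (nat_lit 5) (nat_lit 3) (nat_lit 4) (nat_lit 1) (nat_lit 4) (nat_lit 322) (nat_lit 257) (nat_lit 201)) (XT.lf (nat_lit 0) (nat_lit 1449262263300) (nat_lit 152) (nat_lit 3800223050941) (nat_lit 0) (nat_lit 1444864864709) (nat_lit 1) (nat_lit 5) (nat_lit 3) (nat_lit 4) (nat_lit 1) (nat_lit 4) (nat_lit 323) (nat_lit 257) (nat_lit 200))) (XT.nd (nat_lit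 78) (nat_lit 0) (nat_lit 0) (XT.lf (nat_lit 0) (nat_lit 1673320403733) (nat_lit 152) (nat_lit 4355156943723) (nat_lit 0) (nat_lit 1668922806091) (nat_lit 1) (nat_lit 5) (nat_lit 3) (nat_lit 4) (nat_lit 1) (nat_lit 4) (nat_lit 324) (nat_lit 257) (nat_lit 199)) (XT.nd (nat_lit 78) (nat_lit 0) (nat_lit 0) (XT.lf (nat_lit 0) (nat_lit 1930986645649) (nat_lit 152) (nat_lit 4993332196979) (nat_lit 0) (nat_lit 1926588874920) (nat_lit 1) (nat_lit 5) (nat_lit 3) (nat_lit 4) (nat_lit 1) (nat_lit 4) (nat_lit 325) (nat_lit 257) (nat_lit 198)) (XT.lf (nat_lit 0) (nat_lit 2227302285085) (nat_lit 152) (nat_lit 5727234848272) (nat_lit 0) (nat_lit 2222904363846) (nat_lit 1) (nat_lit 5) (nat_lit 3) (nat_lit 4) (nat_lit 1) (nat_lit 4) (nat_lit 326) (nat_lit 257) (nat_lit 197)))))) (XT.nd (nat_lit 390) (nat_lit 0) (nat_lit 0) (XT.nd (nat_lit 156) (nat_lit 0) (nat_lit 0) (XT.nd (nat_lit 78) (nat_lit 0) (nat_lit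 0) (XT.lf (nat_lit 0) (nat_lit 2568064801944) (nat_lit 152) (nat_lit 6571223862519) (nat_lit 0) (nat_lit 2563666749826) (nat_lit 1) (nat_lit 5) (nat_lit 3) (nat_lit 4) (nat_lit 1) (nat_lit 4) (nat_lit 327) (nat_lit 257) (nat_lit 196)) (XT.lf (nat_lit 0) (nat_lit 2959941288946) (nat_lit 152) (nat_lit 7541812068260) (nat_lit 0) (nat_lit 2955543123020) (nat_lit 1) (nat_lit 5) (nat_lit 3) (nat_lit 4) (nat_lit 1) (nat_lit 4) (nat_lit 328) (nat_lit 257) (nat_lit 195))) (XT.nd (nat_lit 78) (nat_lit 0) (nat_lit 0) (XT.lf (nat_lit 0) (nat_lit 3410598894750) (nat_lit 152) (nat_lit 8657989234736) (nat_lit 0) (nat_lit 3406200629861) (nat_lit 1) (nat_lit 5) (nat_lit 3) (nat_lit 4) (nat_lit 1) (nat_lit 4) (nat_lit 329) (nat_lit 257) (nat_lit 194)) (XT.nd (nat_lit 78) (nat_lit 0) (nat_lit 0) (XT.lf (nat_lit 0) (nat_lit 3928854833383) (nat_lit 152) (nat_lit 9941593610859) (nat_lit 0) (nat_lit 3924456482439)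 (nat_lit 1) (nat_lit 5) (nat_lit 3) (nat_lit 4) (nat_lit 1) (nat_lit 4) (nat_lit 330) (nat_lit 257) (nat_lit 193)) (XT.lf (nat_lit 0) (nat_lit 4524848894949) (nat_lit 152) (nat_lit 11417739195290) (nat_lit 0) (nat_lit 4520450469174) (nat_lit 1) (nat_lit 5) (nat_lit 3) (nat_lit 4) (nat_lit 1) (nat_lit 4) (nat_lit 331) (nat_lit 257) (nat_lit 192))))) (XT.nd (nat_lit 156) (nat_lit 0) (nat_lit 0) (XT.nd (nat_lit 78) (nat_lit 0) (nat_lit 0) (XT.lf (nat_lit 0) (nat_lit 5210241832825) (nat_lit 152) (nat_lit 13115307097291) (nat_lit 0) (nat_lit 5205843341981) (nat_lit 1) (nat_lit 5) (nat_lit 3) (nat_lit 4) (nat_lit 1) (nat_lit 4) (nat_lit 332) (nat_lit 257) (nat_lit 191)) (XT.lf (nat_lit 0) (nat_lit 5998443508840) (nat_lit 152) (nat_lit 15067510601901) (nat_lit 0) (nat_lit 5994044961414) (nat_lit 1) (nat_lit 5) (nat_lit 3) (nat_lit 4) (nat_lit 1) (nat_lit 4) (nat_lit 333) (nat_lit 257) (nat_lit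 190))) (XT.nd (nat_lit 78) (nat_lit 0) (nat_lit 0) (XT.lf (nat_lit 0) (nat_lit 6904875260134) (nat_lit 152) (nat_lit 17312544995078) (nat_lit 0) (nat_lit 6900476663505) (nat_lit 1) (nat_lit 5) (nat_lit 3) (nat_lit 4) (nat_lit 1) (nat_lit 4) (nat_lit 334) (nat_lit 257) (nat_lit 189)) (XT.nd (nat_lit 78) (nat_lit 0) (nat_lit 0) (XT.lf (nat_lit 0) (nat_lit 7947271620971) (nat_lit 152) (nat_lit 19894334862778) (nat_lit 0) (nat_lit 7942872981557) (nat_lit 1) (nat_lit 5) (nat_lit 3) (nat_lit 4) (nat_lit 1) (nat_lit 4) (nat_lit 335) (nat_lit 257) (nat_lit 188)) (XT.lf (nat_lit 0) (nat_lit 9146027302758) (nat_lit 152) (nat_lit 22863393485020) (nat_lit 0) (nat_lit 9141628626140) (nat_lit 1) (nat_lit 5) (nat_lit 3) (nat_lit 4) (nat_lit 1) (nat_lit 4) (nat_lit 336) (nat_lit 257) (nat_lit 187))))))) (XT.nd (nat_lit 35334) (nat_lit 0) (nat_lit 608) (XT.nd (nat_lit 34944) (nat_lit 0) (nat_lit 1520)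 (XT.nd (nat_lit 156) (nat_lit 0) (nat_lit 0) (XT.nd (nat_lit 78) (nat_lit 0) (nat_lit 0) (XT.lf (nat_lit 0) (nat_lit 10524596221009) (nat_lit 152) (nat_lit 26277811139196) (nat_lit 0) (nat_lit 10520197512040) (nat_lit 1) (nat_lit 5) (nat_lit 3) (nat_lit 4) (nat_lit 1) (nat_lit 4) (nat_lit 337) (nat_lit 257) (nat_lit 186)) (XT.lf (nat_lit 0) (nat_lit 12109950376298) (nat_lit 152) (nat_lit 30204391648974) (nat_lit 0) (nat_lit 12105551639197) (nat_lit 1) (nat_lit 5) (nat_lit 3) (nat_lit 4) (nat_lit 1) (nat_lit 4) (nat_lit 338) (nat_lit 257) (nat_lit 185))) (XT.nd (nat_lit 78) (nat_lit 0) (nat_lit 0) (XT.lf (nat_lit 0) (nat_lit 13933107567316) (nat_lit 152) (nat_lit 34719959415633) (nat_lit 0) (nat_lit 13928708805753) (nat_lit 1) (nat_lit 5) (nat_lit 3) (nat_lit 4) (nat_lit 1) (nat_lit 4) (nat_lit 339) (nat_lit 257) (nat_lit 184)) (XT.nd (nat_lit 78) (nat_lit 0) (nat_lit 0) (XT.lf (nat_lit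 0) (nat_lit 16029738260843) (nat_lit 152) (nat_lit 39912862504173) (nat_lit 0) (nat_lit 16025339478009) (nat_lit 1) (nat_lit 5) (nat_lit 3) (nat_lit 4) (nat_lit 1) (nat_lit 4) (nat_lit 340) (nat_lit 257) (nat_lit 183)) (XT.lf (nat_lit 0) (nat_lit 18440863492187) (nat_lit 152) (nat_lit 45884701192412) (nat_lit 0) (nat_lit 18436464690856) (nat_lit 1) (nat_lit 5) (nat_lit 3) (nat_lit 4) (nat_lit 1) (nat_lit 4) (nat_lit 341) (nat_lit 257) (nat_lit 182))))) (XT.nd (nat_lit 156) (nat_lit 608) (nat_lit 0) (XT.nd (nat_lit 78) (nat_lit 0) (nat_lit 0) (XT.lf (nat_lit 0) (nat_lit 484994231) (nat_lit 228) (nat_lit 2444021992) (nat_lit 0) (nat_lit 484994231) (nat_lit 29) (nat_lit 5) (nat_lit 32) (nat_lit 4) (nat_lit 29) (nat_lit 4) (nat_lit 264) (nat_lit 258) (nat_lit 258)) (XT.lf (nat_lit 0) (nat_lit 4188013021) (nat_lit 228) (nat_lit 439168378) (nat_lit 0) (nat_lit 2432828970) (nat_lit 29) (nat_lit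 5) (nat_lit 32) (nat_lit 4) (nat_lit 29) (nat_lit 4) (nat_lit 265) (nat_lit 258) (nat_lit 257))) (XT.nd (nat_lit 78) (nat_lit 304) (nat_lit 0) (XT.lf (nat_lit 0) (nat_lit 258214523) (nat_lit 304) (nat_lit 2726269825) (nat_lit 76) (nat_lit 4378989509) (nat_lit 25) (nat_lit 5) (nat_lit 29) (nat_lit 5) (nat_lit 26) (nat_lit 4) (nat_lit 266) (nat_lit 258) (nat_lit 256)) (XT.nd (nat_lit 78) (nat_lit 0) (nat_lit 0) (XT.lf (nat_lit 0) (nat_lit 2431291839) (nat_lit 304) (nat_lit 843077554) (nat_lit 380) (nat_lit 4462841393) (nat_lit 21) (nat_lit 5) (nat_lit 25) (nat_lit 5) (nat_lit 26) (nat_lit 4) (nat_lit 267) (nat_lit 258) (nat_lit 255)) (XT.lf (nat_lit 0) (nat_lit 6578164144) (nat_lit 380) (nat_lit 48006077) (nat_lit 0) (nat_lit 1567151656) (nat_lit 21) (nat_lit 5) (nat_lit 26) (nat_lit 4) (nat_lit 21) (nat_lit 4) (nat_lit 268) (nat_lit 258) (nat_lit 254)))))) (XT.nd (nat_lit 390) (nat_lit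 304) (nat_lit 0) (XT.nd (nat_lit 156) (nat_lit 304) (nat_lit 0) (XT.nd (nat_lit 78) (nat_lit 76) (nat_lit 0) (XT.lf (nat_lit 0) (nat_lit 1468646249) (nat_lit 228) (nat_lit 2726059727) (nat_lit 76) (nat_lit 4520533417) (nat_lit 18) (nat_lit 5) (nat_lit 21) (nat_lit 5) (nat_lit 19) (nat_lit 4) (nat_lit 269) (nat_lit 258) (nat_lit 253)) (XT.lf (nat_lit 0) (nat_lit 3402905995) (nat_lit 76) (nat_lit 1269358963) (nat_lit 152) (nat_lit 4659301387) (nat_lit 17) (nat_lit 5) (nat_lit 18) (nat_lit 5) (nat_lit 19) (nat_lit 4) (nat_lit 270) (nat_lit 258) (nat_lit 252))) (XT.nd (nat_lit 78) (nat_lit 152) (nat_lit 0) (XT.lf (nat_lit 0) (nat_lit 197540804) (nat_lit 152) (nat_lit 8101104704) (nat_lit 152) (nat_lit 1751276563) (nat_lit 15) (nat_lit 4) (nat_lit 17) (nat_lit 5) (nat_lit 17) (nat_lit 4) (nat_lit 271) (nat_lit 258) (nat_lit 251)) (XT.nd (nat_lit 78) (nat_lit 76) (nat_lit 0) (XT.lf (nat_lit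 0) (nat_lit 1541162547) (nat_lit 228) (nat_lit 3535261515) (nat_lit 76) (nat_lit 5776899106) (nat_lit 14) (nat_lit 5) (nat_lit 17) (nat_lit 5) (nat_lit 15) (nat_lit 4) (nat_lit 272) (nat_lit 258) (nat_lit 250)) (XT.lf (nat_lit 0) (nat_lit 3550347465) (nat_lit 76) (nat_lit 1488240028) (nat_lit 152) (nat_lit 6743175259) (nat_lit 13) (nat_lit 5) (nat_lit 14) (nat_lit 5) (nat_lit 15) (nat_lit 4) (nat_lit 273) (nat_lit 258) (nat_lit 249))))) (XT.nd (nat_lit 156) (nat_lit 228) (nat_lit 0) (XT.nd (nat_lit 78) (nat_lit 76) (nat_lit 0) (XT.lf (nat_lit 0) (nat_lit 9117701631) (nat_lit 152) (nat_lit 1266791175) (nat_lit 0) (nat_lit 2456935925) (nat_lit 13) (nat_lit 5) (nat_lit 15) (nat_lit 4) (nat_lit 13) (nat_lit 4) (nat_lit 274) (nat_lit 258) (nat_lit 248)) (XT.lf (nat_lit 0) (nat_lit 6919778809) (nat_lit 76) (nat_lit 7032598749) (nat_lit 76) (nat_lit 86566566) (nat_lit 12) (nat_lit 4) (nat_lit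 13) (nat_lit 5) (nat_lit 13) (nat_lit 4) (nat_lit 275) (nat_lit 258) (nat_lit 247))) (XT.nd (nat_lit 78) (nat_lit 76) (nat_lit 0) (XT.lf (nat_lit 0) (nat_lit 577062997) (nat_lit 76) (nat_lit 3037426764) (nat_lit 152) (nat_lit 11794049466) (nat_lit 10) (nat_lit 5) (nat_lit 11) (nat_lit 5) (nat_lit 12) (nat_lit 4) (nat_lit 276) (nat_lit 258) (nat_lit 246)) (XT.nd (nat_lit 78) (nat_lit 76) (nat_lit 0) (XT.lf (nat_lit 0) (nat_lit 8112090887) (nat_lit 152) (nat_lit 7164832213) (nat_lit 0) (nat_lit 1668793121) (nat_lit 10) (nat_lit 5) (nat_lit 12) (nat_lit 4) (nat_lit 10) (nat_lit 4) (nat_lit 277) (nat_lit 258) (nat_lit 245)) (XT.lf (nat_lit 0) (nat_lit 1293083011) (nat_lit 76) (nat_lit 12011968997) (nat_lit 76) (nat_lit 5405569197) (nat_lit 9) (nat_lit 4) (nat_lit 10) (nat_lit 5) (nat_lit 10) (nat_lit 4) (nat_lit 278) (nat_lit 258) (nat_lit 244))))))))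
noncomputable def xc44 : XT := (XT.nd (nat_lit 1482) (nat_lit 152) (nat_lit 0) (XT.nd (nat_lit 702) (nat_lit 76) (nat_lit 0) (XT.nd (nat_lit 312) (nat_lit 228) (nat_lit 0) (XT.nd (nat_lit 156) (nat_lit 76) (nat_lit 0) (XT.nd (nat_lit 78) (nat_lit 76) (nat_lit 0) (XT.lf (nat_lit 0) (nat_lit 11510673612) (nat_lit 76) (nat_lit 7973480981) (nat_lit 76) (nat_lit 1225253325) (nat_lit 9) (nat_lit 4) (nat_lit 10) (nat_lit 5) (nat_lit 10) (nat_lit 4) (nat_lit 279) (nat_lit 258) (nat_lit 243)) (XT.lf (nat_lit 0) (nat_lit 3110595712) (nat_lit 152) (nat_lit 183775444) (nat_lit 76) (nat_lit 19714454427) (nat_lit 8) (nat_lit 5) (nat_lit 10) (nat_lit 5) (nat_lit 9) (nat_lit 4) (nat_lit 280) (nat_lit 258) (nat_lit 242))) (XT.nd (nat_lit 78) (nat_lit 0) (nat_lit 0) (XT.lf (nat_lit 0) (nat_lit 8393175514) (nat_lit 152) (nat_lit 14863452378) (nat_lit 0) (nat_lit 2324655113) (nat_lit 7) (nat_lit 5) (nat_lit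 9) (nat_lit 4) (nat_lit 7) (nat_lit 4) (nat_lit 281) (nat_lit 258) (nat_lit 241)) (XT.lf (nat_lit 0) (nat_lit 14505054070) (nat_lit 152) (nat_lit 5673704047) (nat_lit 0) (nat_lit 8355443132) (nat_lit 7) (nat_lit 5) (nat_lit 9) (nat_lit 4) (nat_lit 7) (nat_lit 4) (nat_lit 282) (nat_lit 258) (nat_lit 240)))) (XT.nd (nat_lit 156) (nat_lit 152) (nat_lit 0) (XT.nd (nat_lit 78) (nat_lit 0) (nat_lit 0) (XT.lf (nat_lit 0) (nat_lit 5130822464) (nat_lit 76) (nat_lit 16502281469) (nat_lit 76) (nat_lit 10282157020) (nat_lit 6) (nat_lit 4) (nat_lit 7) (nat_lit 5) (nat_lit 7) (nat_lit 4) (nat_lit 283) (nat_lit 258) (nat_lit 239)) (XT.lf (nat_lit 0) (nat_lit 17983230707) (nat_lit 76) (nat_lit 12036677470) (nat_lit 76) (nat_lit 5755236925) (nat_lit 6) (nat_lit 4) (nat_lit 7) (nat_lit 5) (nat_lit 7) (nat_lit 4) (nat_lit 284) (nat_lit 258) (nat_lit 238))) (XT.nd (nat_lit 78) (nat_lit 152) (nat_lit 0) (XT.lf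 (nat_lit 0) (nat_lit 32580505219) (nat_lit 76) (nat_lit 6991155591) (nat_lit 76) (nat_lit 656396702) (nat_lit 6) (nat_lit 4) (nat_lit 7) (nat_lit 5) (nat_lit 7) (nat_lit 4) (nat_lit 285) (nat_lit 258) (nat_lit 237)) (XT.nd (nat_lit 78) (nat_lit 0) (nat_lit 0) (XT.lf (nat_lit 0) (nat_lit 3990633285) (nat_lit 76) (nat_lit 833439250) (nat_lit 152) (nat_lit 40480496563) (nat_lit 4) (nat_lit 5) (nat_lit 5) (nat_lit 5) (nat_lit 6) (nat_lit 4) (nat_lit 286) (nat_lit 258) (nat_lit 236)) (XT.lf (nat_lit 0) (nat_lit 11653221857) (nat_lit 152) (nat_lit 33326269084) (nat_lit 0) (nat_lit 6069361861) (nat_lit 4) (nat_lit 5) (nat_lit 6) (nat_lit 4) (nat_lit 4) (nat_lit 4) (nat_lit 287) (nat_lit 258) (nat_lit 235)))))) (XT.nd (nat_lit 390) (nat_lit 0) (nat_lit 0) (XT.nd (nat_lit 156) (nat_lit 76) (nat_lit 0) (XT.nd (nat_lit 78) (nat_lit 0) (nat_lit 0) (XT.lf (nat_lit 0) (nat_lit 19473652065) (nat_lit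 152) (nat_lit 24326832076) (nat_lit 0) (nat_lit 13859307133) (nat_lit 4) (nat_lit 5) (nat_lit 6) (nat_lit 4) (nat_lit 4) (nat_lit 4) (nat_lit 288) (nat_lit 258) (nat_lit 234)) (XT.lf (nat_lit 0) (nat_lit 28403860635) (nat_lit 152) (nat_lit 14105037906) (nat_lit 0) (nat_lit 22763007063) (nat_lit 4) (nat_lit 5) (nat_lit 6) (nat_lit 4) (nat_lit 4) (nat_lit 4) (nat_lit 289) (nat_lit 258) (nat_lit 233))) (XT.nd (nat_lit 78) (nat_lit 76) (nat_lit 0) (XT.lf (nat_lit 0) (nat_lit 38618569039) (nat_lit 152) (nat_lit 2460894950) (nat_lit 0) (nat_lit 32954664475) (nat_lit 4) (nat_lit 5) (nat_lit 6) (nat_lit 4) (nat_lit 4) (nat_lit 4) (nat_lit 290) (nat_lit 258) (nat_lit 232)) (XT.nd (nat_lit 78) (nat_lit 0) (nat_lit 0) (XT.lf (nat_lit 0) (nat_lit 11892137275) (nat_lit 76) (nat_lit 38917921037) (nat_lit 76) (nat_lit 33233972132) (nat_lit 3) (nat_lit 4) (nat_lit 4) (nat_lit 5) (nat_lit 4) (nat_lit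 4) (nat_lit 291) (nat_lit 258) (nat_lit 231)) (XT.lf (nat_lit 0) (nat_lit 28582627106) (nat_lit 76) (nat_lit 36330857527) (nat_lit 76) (nat_lit 30629478761) (nat_lit 3) (nat_lit 4) (nat_lit 4) (nat_lit 5) (nat_lit 4) (nat_lit 4) (nat_lit 292) (nat_lit 258) (nat_lit 230))))) (XT.nd (nat_lit 156) (nat_lit 0) (nat_lit 0) (XT.nd (nat_lit 78) (nat_lit 0) (nat_lit 0) (XT.lf (nat_lit 0) (nat_lit 47696631049) (nat_lit 76) (nat_lit 33396294692) (nat_lit 76) (nat_lit 27679759525) (nat_lit 3) (nat_lit 4) (nat_lit 4) (nat_lit 5) (nat_lit 4) (nat_lit 4) (nat_lit 293) (nat_lit 258) (nat_lit 229)) (XT.lf (nat_lit 0) (nat_lit 69608118748) (nat_lit 76) (nat_lit 30056817172) (nat_lit 76) (nat_lit 24327102526) (nat_lit 3) (nat_lit 4) (nat_lit 4) (nat_lit 5) (nat_lit 4) (nat_lit 4) (nat_lit 294) (nat_lit 258) (nat_lit 228))) (XT.nd (nat_lit 78) (nat_lit 0) (nat_lit 0) (XT.lf (nat_lit 0) (nat_lit 94745793223)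 (nat_lit 76) (nat_lit 26247087363) (nat_lit 76) (nat_lit 20505912300) (nat_lit 3) (nat_lit 4) (nat_lit 4) (nat_lit 5) (nat_lit 4) (nat_lit 4) (nat_lit 295) (nat_lit 258) (nat_lit 227)) (XT.nd (nat_lit 78) (nat_lit 0) (nat_lit 0) (XT.lf (nat_lit 0) (nat_lit 123601478540) (nat_lit 76) (nat_lit 21892567073) (nat_lit 76) (nat_lit 16141426431) (nat_lit 3) (nat_lit 4) (nat_lit 4) (nat_lit 5) (nat_lit 4) (nat_lit 4) (nat_lit 296) (nat_lit 258) (nat_lit 226)) (XT.lf (nat_lit 0) (nat_lit 156739742455) (nat_lit 76) (nat_lit 16908059167) (nat_lit 76) (nat_lit 11148252802) (nat_lit 3) (nat_lit 4) (nat_lit 4) (nat_lit 5) (nat_lit 4) (nat_lit 4) (nat_lit 297) (nat_lit 258) (nat_lit 225))))))) (XT.nd (nat_lit 780) (nat_lit 0) (nat_lit 0) (XT.nd (nat_lit 390) (nat_lit 0) (nat_lit 0) (XT.nd (nat_lit 156) (nat_lit 76) (nat_lit 0) (XT.nd (nat_lit 78) (nat_lit 76) (nat_lit 0) (XT.lf (nat_lit 0) (nat_lit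 194808942304) (nat_lit 76) (nat_lit 11196040663) (nat_lit 76) (nat_lit 5428698888) (nat_lit 3) (nat_lit 4) (nat_lit 4) (nat_lit 5) (nat_lit 4) (nat_lit 4) (nat_lit 298) (nat_lit 258) (nat_lit 224)) (XT.lf (nat_lit 0) (nat_lit 1028615809) (nat_lit 152) (nat_lit 3562370314) (nat_lit 76) (nat_lit 237471525898) (nat_lit 2) (nat_lit 5) (nat_lit 4) (nat_lit 5) (nat_lit 3) (nat_lit 4) (nat_lit 299) (nat_lit 258) (nat_lit 223))) (XT.nd (nat_lit 78) (nat_lit 0) (nat_lit 0) (XT.lf (nat_lit 0) (nat_lit 8551103700) (nat_lit 152) (nat_lit 265072567379) (nat_lit 0) (nat_lit 3525371389) (nat_lit 1) (nat_lit 5) (nat_lit 3) (nat_lit 4) (nat_lit 1) (nat_lit 4) (nat_lit 300) (nat_lit 258) (nat_lit 222)) (XT.nd (nat_lit 78) (nat_lit 0) (nat_lit 0) (XT.lf (nat_lit 0) (nat_lit 17600243042) (nat_lit 152) (nat_lit 287268372217) (nat_lit 0) (nat_lit 12570202336) (nat_lit 1) (nat_lit 5) (nat_lit 3) (nat_lit 4)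 (nat_lit 1) (nat_lit 4) (nat_lit 301) (nat_lit 258) (nat_lit 221)) (XT.lf (nat_lit 0) (nat_lit 27993342587) (nat_lit 152) (nat_lit 312821178517) (nat_lit 0) (nat_lit 22959555450) (nat_lit 1) (nat_lit 5) (nat_lit 3) (nat_lit 4) (nat_lit 1) (nat_lit 4) (nat_lit 302) (nat_lit 258) (nat_lit 220))))) (XT.nd (nat_lit 156) (nat_lit 0) (nat_lit 0) (XT.nd (nat_lit 78) (nat_lit 0) (nat_lit 0) (XT.lf (nat_lit 0) (nat_lit 39933745586) (nat_lit 152) (nat_lit 342230932491) (nat_lit 0) (nat_lit 34896700684) (nat_lit 1) (nat_lit 5) (nat_lit 3) (nat_lit 4) (nat_lit 1) (nat_lit 4) (nat_lit 303) (nat_lit 258) (nat_lit 219)) (XT.lf (nat_lit 0) (nat_lit 53655068620) (nat_lit 152) (nat_lit 376073042368) (nat_lit 0) (nat_lit 48615190878) (nat_lit 1) (nat_lit 5) (nat_lit 3) (nat_lit 4) (nat_lit 1) (nat_lit 4) (nat_lit 304) (nat_lit 258) (nat_lit 218))) (XT.nd (nat_lit 78) (nat_lit 0) (nat_lit 0) (XT.lf (nat_lit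 0) (nat_lit 69425772357) (nat_lit 152) (nat_lit 415009636385) (nat_lit 0) (nat_lit 64383431276) (nat_lit 1) (nat_lit 5) (nat_lit 3) (nat_lit 4) (nat_lit 1) (nat_lit 4) (nat_lit 305) (nat_lit 258) (nat_lit 217)) (XT.nd (nat_lit 78) (nat_lit 0) (nat_lit 0) (XT.lf (nat_lit 0) (nat_lit 87554414044) (nat_lit 152) (nat_lit 459802517468) (nat_lit 0) (nat_lit 82509930929) (nat_lit 1) (nat_lit 5) (nat_lit 3) (nat_lit 4) (nat_lit 1) (nat_lit 4) (nat_lit 306) (nat_lit 258) (nat_lit 216)) (XT.lf (nat_lit 0) (nat_lit 108395684496) (nat_lit 152) (nat_lit 511328068073) (nat_lit 0) (nat_lit 103349338743) (nat_lit 1) (nat_lit 5) (nat_lit 3) (nat_lit 4) (nat_lit 1) (nat_lit 4) (nat_lit 307) (nat_lit 258) (nat_lit 215)))))) (XT.nd (nat_lit 390) (nat_lit 0) (nat_lit 0) (XT.nd (nat_lit 156) (nat_lit 0) (nat_lit 0) (XT.nd (nat_lit 78) (nat_lit 0) (nat_lit 0) (XT.lf (nat_lit 0) (nat_lit 132357347701) (nat_lit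 152) (nat_lit 570594396799) (nat_lit 0) (nat_lit 127309382263) (nat_lit 1) (nat_lit 5) (nat_lit 3) (nat_lit 4) (nat_lit 1) (nat_lit 4) (nat_lit 308) (nat_lit 258) (nat_lit 214)) (XT.lf (nat_lit 0) (nat_lit 159908218808) (nat_lit 152) (nat_lit 638761062252) (nat_lit 0) (nat_lit 154858844948) (nat_lit 1) (nat_lit 5) (nat_lit 3) (nat_lit 4) (nat_lit 1) (nat_lit 4) (nat_lit 309) (nat_lit 258) (nat_lit 213))) (XT.nd (nat_lit 78) (nat_lit 0) (nat_lit 0) (XT.lf (nat_lit 0) (nat_lit 191587336601) (nat_lit 152) (nat_lit 717161760060) (nat_lit 0) (nat_lit 186536738026) (nat_lit 1) (nat_lit 5) (nat_lit 3) (nat_lit 4) (nat_lit 1) (nat_lit 4) (nat_lit 310) (nat_lit 258) (nat_lit 212)) (XT.nd (nat_lit 78) (nat_lit 0) (nat_lit 0) (XT.lf (nat_lit 0) (nat_lit 228014509904) (nat_lit 152) (nat_lit 807330416919) (nat_lit 0) (nat_lit 222962846360) (nat_lit 1) (nat_lit 5) (nat_lit 3) (nat_lit 4) (nat_lit 1)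 (nat_lit 4) (nat_lit 311) (nat_lit 258) (nat_lit 211)) (XT.lf (nat_lit 0) (nat_lit 269902444284) (nat_lit 152) (nat_lit 911031202202) (nat_lit 0) (nat_lit 264849854679) (nat_lit 1) (nat_lit 5) (nat_lit 3) (nat_lit 4) (nat_lit 1) (nat_lit 4) (nat_lit 312) (nat_lit 258) (nat_lit 210))))) (XT.nd (nat_lit 156) (nat_lit 0) (nat_lit 0) (XT.nd (nat_lit 78) (nat_lit 0) (nat_lit 0) (XT.lf (nat_lit 0) (nat_lit 318070686281) (nat_lit 152) (nat_lit 1030293044318) (nat_lit 0) (nat_lit 313017291406) (nat_lit 1) (nat_lit 5) (nat_lit 3) (nat_lit 4) (nat_lit 1) (nat_lit 4) (nat_lit 313) (nat_lit 258) (nat_lit 209)) (XT.lf (nat_lit 0) (nat_lit 373461658023) (nat_lit 152) (nat_lit 1167449327134) (nat_lit 0) (nat_lit 368407562913) (nat_lit 1) (nat_lit 5) (nat_lit 3) (nat_lit 4) (nat_lit 1) (nat_lit 4) (nat_lit 314) (nat_lit 258) (nat_lit 208))) (XT.nd (nat_lit 78) (nat_lit 0) (nat_lit 0) (XT.lf (nat_lit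 0) (nat_lit 437159095912) (nat_lit 152) (nat_lit 1325183543139) (nat_lit 0) (nat_lit 432104391903) (nat_lit 1) (nat_lit 5) (nat_lit 3) (nat_lit 4) (nat_lit 1) (nat_lit 4) (nat_lit 315) (nat_lit 258) (nat_lit 207)) (XT.nd (nat_lit 78) (nat_lit 0) (nat_lit 0) (XT.lf (nat_lit 0) (nat_lit 510409254169) (nat_lit 152) (nat_lit 1506581796560) (nat_lit 0) (nat_lit 505354020682) (nat_lit 1) (nat_lit 5) (nat_lit 3) (nat_lit 4) (nat_lit 1) (nat_lit 4) (nat_lit 316) (nat_lit 258) (nat_lit 206)) (XT.lf (nat_lit 0) (nat_lit 594645288063) (nat_lit 152) (nat_lit 1715193183660) (nat_lit 0) (nat_lit 589589594160) (nat_lit 1) (nat_lit 5) (nat_lit 3) (nat_lit 4) (nat_lit 1) (nat_lit 4) (nat_lit 317) (nat_lit 258) (nat_lit 205))))))))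
noncomputable def xc45 : XT := (XT.nd (nat_lit 1482) (nat_lit 0) (nat_lit 0) (XT.nd (nat_lit 702) (nat_lit 0) (nat_lit 0) (XT.nd (nat_lit 312) (nat_lit 0) (nat_lit 0) (XT.nd (nat_lit 156) (nat_lit 0) (nat_lit 0) (XT.nd (nat_lit 78) (nat_lit 0) (nat_lit 0) (XT.lf (nat_lit 0) (nat_lit 691515293910) (nat_lit 152) (nat_lit 1955099231576) (nat_lit 0) (nat_lit 686459199646) (nat_lit 1) (nat_lit 5) (nat_lit 3) (nat_lit 4) (nat_lit 1) (nat_lit 4) (nat_lit 318) (nat_lit 258) (nat_lit 204)) (XT.lf (nat_lit 0) (nat_lit 802914554434) (nat_lit 152) (nat_lit 2230993754291) (nat_lit 0) (nat_lit 797858112029) (nat_lit 1) (nat_lit 5) (nat_lit 3) (nat_lit 4) (nat_lit 1) (nat_lit 4) (nat_lit 319) (nat_lit 258) (nat_lit 203))) (XT.nd (nat_lit 78) (nat_lit 0) (nat_lit 0) (XT.lf (nat_lit 0) (nat_lit 931022620382) (nat_lit 152) (nat_lit 2548274688118) (nat_lit 0) (nat_lit 925965875247) (nat_lit 1) (nat_lit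 5) (nat_lit 3) (nat_lit 4) (nat_lit 1) (nat_lit 4) (nat_lit 320) (nat_lit 258) (nat_lit 202)) (XT.lf (nat_lit 0) (nat_lit 1078345953916) (nat_lit 152) (nat_lit 2913149703502) (nat_lit 0) (nat_lit 1073288945536) (nat_lit 1) (nat_lit 5) (nat_lit 3) (nat_lit 4) (nat_lit 1) (nat_lit 4) (nat_lit 321) (nat_lit 258) (nat_lit 201)))) (XT.nd (nat_lit 156) (nat_lit 0) (nat_lit 0) (XT.nd (nat_lit 78) (nat_lit 0) (nat_lit 0) (XT.lf (nat_lit 0) (nat_lit 1247766968082) (nat_lit 152) (nat_lit 3332757659440) (nat_lit 0) (nat_lit 1242709730795) (nat_lit 1) (nat_lit 5) (nat_lit 3) (nat_lit 4) (nat_lit 1) (nat_lit 4) (nat_lit 322) (nat_lit 258) (nat_lit 200)) (XT.lf (nat_lit 0) (nat_lit 1442600421854) (nat_lit 152) (nat_lit 3815308276807) (nat_lit 0) (nat_lit 1437542985516) (nat_lit 1) (nat_lit 5) (nat_lit 3) (nat_lit 4) (nat_lit 1) (nat_lit 4) (nat_lit 323) (nat_lit 258) (nat_lit 199))) (XT.nd (nat_lit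 78) (nat_lit 0) (nat_lit 0) (XT.lf (nat_lit 0) (nat_lit 1666658274110) (nat_lit 152) (nat_lit 4370242763336) (nat_lit 0) (nat_lit 1661600664685) (nat_lit 1) (nat_lit 5) (nat_lit 3) (nat_lit 4) (nat_lit 1) (nat_lit 4) (nat_lit 324) (nat_lit 258) (nat_lit 198)) (XT.nd (nat_lit 78) (nat_lit 0) (nat_lit 0) (XT.lf (nat_lit 0) (nat_lit 1924324265436) (nat_lit 152) (nat_lit 5008418532894) (nat_lit 0) (nat_lit 1919266505500) (nat_lit 1) (nat_lit 5) (nat_lit 3) (nat_lit 4) (nat_lit 1) (nat_lit 4) (nat_lit 325) (nat_lit 258) (nat_lit 197)) (XT.lf (nat_lit 0) (nat_lit 2220639686969) (nat_lit 152) (nat_lit 5742321633145) (nat_lit 0) (nat_lit 2215581796154) (nat_lit 1) (nat_lit 5) (nat_lit 3) (nat_lit 4) (nat_lit 1) (nat_lit 4) (nat_lit 326) (nat_lit 258) (nat_lit 196)))))) (XT.nd (nat_lit 390) (nat_lit 0) (nat_lit 0) (XT.nd (nat_lit 156) (nat_lit 0) (nat_lit 0) (XT.nd (nat_lit 78) (nat_lit 0) (nat_lit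 0) (XT.lf (nat_lit 0) (nat_lit 2561402014346) (nat_lit 152) (nat_lit 6586311037790) (nat_lit 0) (nat_lit 2556344009724) (nat_lit 1) (nat_lit 5) (nat_lit 3) (nat_lit 4) (nat_lit 1) (nat_lit 4) (nat_lit 327) (nat_lit 258) (nat_lit 195)) (XT.lf (nat_lit 0) (nat_lit 2953278336581) (nat_lit 152) (nat_lit 7556899583008) (nat_lit 0) (nat_lit 2948220232996) (nat_lit 1) (nat_lit 5) (nat_lit 3) (nat_lit 4) (nat_lit 1) (nat_lit 4) (nat_lit 328) (nat_lit 258) (nat_lit 194))) (XT.nd (nat_lit 78) (nat_lit 0) (nat_lit 0) (XT.lf (nat_lit 0) (nat_lit 3403935799110) (nat_lit 152) (nat_lit 8673077044682) (nat_lit 0) (nat_lit 3398877609470) (nat_lit 1) (nat_lit 5) (nat_lit 3) (nat_lit 4) (nat_lit 1) (nat_lit 4) (nat_lit 329) (nat_lit 258) (nat_lit 193)) (XT.nd (nat_lit 78) (nat_lit 0) (nat_lit 0) (XT.lf (nat_lit 0) (nat_lit 3922191613156) (nat_lit 152) (nat_lit 9956681677498) (nat_lit 0) (nat_lit 3917133348685)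 (nat_lit 1) (nat_lit 5) (nat_lit 3) (nat_lit 4) (nat_lit 1) (nat_lit 4) (nat_lit 330) (nat_lit 258) (nat_lit 192)) (XT.lf (nat_lit 0) (nat_lit 4518185566385) (nat_lit 152) (nat_lit 11432827485140) (nat_lit 0) (nat_lit 4513127236844) (nat_lit 1) (nat_lit 5) (nat_lit 3) (nat_lit 4) (nat_lit 1) (nat_lit 4) (nat_lit 331) (nat_lit 258) (nat_lit 191))))) (XT.nd (nat_lit 156) (nat_lit 0) (nat_lit 0) (XT.nd (nat_lit 78) (nat_lit 0) (nat_lit 0) (XT.lf (nat_lit 0) (nat_lit 5203578410056) (nat_lit 152) (nat_lit 13130395581238) (nat_lit 0) (nat_lit 5198520023932) (nat_lit 1) (nat_lit 5) (nat_lit 3) (nat_lit 4) (nat_lit 1) (nat_lit 4) (nat_lit 332) (nat_lit 258) (nat_lit 190)) (XT.lf (nat_lit 0) (nat_lit 5991780004153) (nat_lit 152) (nat_lit 15082599254628) (nat_lit 0) (nat_lit 5986721568827) (nat_lit 1) (nat_lit 5) (nat_lit 3) (nat_lit 4) (nat_lit 1) (nat_lit 4) (nat_lit 333) (nat_lit 258) (nat_lit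 189))) (XT.nd (nat_lit 78) (nat_lit 0) (nat_lit 0) (XT.lf (nat_lit 0) (nat_lit 6898211684214) (nat_lit 152) (nat_lit 17327633794571) (nat_lit 0) (nat_lit 6893153206103) (nat_lit 1) (nat_lit 5) (nat_lit 3) (nat_lit 4) (nat_lit 1) (nat_lit 4) (nat_lit 334) (nat_lit 258) (nat_lit 188)) (XT.nd (nat_lit 78) (nat_lit 0) (nat_lit 0) (XT.lf (nat_lit 0) (nat_lit 7940607983108) (nat_lit 152) (nat_lit 19909423789893) (nat_lit 0) (nat_lit 7935549467794) (nat_lit 1) (nat_lit 5) (nat_lit 3) (nat_lit 4) (nat_lit 1) (nat_lit 4) (nat_lit 335) (nat_lit 258) (nat_lit 187)) (XT.lf (nat_lit 0) (nat_lit 9139363611033) (nat_lit 152) (nat_lit 22878482523110) (nat_lit 0) (nat_lit 9134305063368) (nat_lit 1) (nat_lit 5) (nat_lit 3) (nat_lit 4) (nat_lit 1) (nat_lit 4) (nat_lit 336) (nat_lit 258) (nat_lit 186))))))) (XT.nd (nat_lit 35100) (nat_lit 0) (nat_lit 836) (XT.nd (nat_lit 1716) (nat_lit 0) (nat_lit 0) (XT.nd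 (nat_lit 156) (nat_lit 0) (nat_lit 0) (XT.nd (nat_lit 78) (nat_lit 0) (nat_lit 0) (XT.lf (nat_lit 0) (nat_lit 10517932482447) (nat_lit 152) (nat_lit 26292900273787) (nat_lit 0) (nat_lit 10512873906650) (nat_lit 1) (nat_lit 5) (nat_lit 3) (nat_lit 4) (nat_lit 1) (nat_lit 4) (nat_lit 337) (nat_lit 258) (nat_lit 185)) (XT.lf (nat_lit 0) (nat_lit 12103286597008) (nat_lit 152) (nat_lit 30219480867478) (nat_lit 0) (nat_lit 12098227996749) (nat_lit 1) (nat_lit 5) (nat_lit 3) (nat_lit 4) (nat_lit 1) (nat_lit 4) (nat_lit 338) (nat_lit 258) (nat_lit 184))) (XT.nd (nat_lit 78) (nat_lit 0) (nat_lit 0) (XT.lf (nat_lit 0) (nat_lit 13926443752610) (nat_lit 152) (nat_lit 34735048707105) (nat_lit 0) (nat_lit 13921385131080) (nat_lit 1) (nat_lit 5) (nat_lit 3) (nat_lit 4) (nat_lit 1) (nat_lit 4) (nat_lit 339) (nat_lit 258) (nat_lit 183)) (XT.nd (nat_lit 78) (nat_lit 0) (nat_lit 0) (XT.lf (nat_lit 0) (nat_lit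 16023074415342) (nat_lit 152) (nat_lit 39927951859095) (nat_lit 0) (nat_lit 16018015775314) (nat_lit 1) (nat_lit 5) (nat_lit 3) (nat_lit 4) (nat_lit 1) (nat_lit 4) (nat_lit 340) (nat_lit 258) (nat_lit 182)) (XT.lf (nat_lit 0) (nat_lit 18434199619907) (nat_lit 152) (nat_lit 45899790602509) (nat_lit 0) (nat_lit 18429140963795) (nat_lit 1) (nat_lit 5) (nat_lit 3) (nat_lit 4) (nat_lit 1) (nat_lit 4) (nat_lit 341) (nat_lit 258) (nat_lit 181))))) (XT.nd (nat_lit 33150) (nat_lit 0) (nat_lit 2128) (XT.nd (nat_lit 33072) (nat_lit 0) (nat_lit 2356) (XT.lf (nat_lit 0) (nat_lit 228712780718434) (nat_lit 152) (nat_lit 566714692082994) (nat_lit 0) (nat_lit 228707721963758) (nat_lit 1) (nat_lit 5) (nat_lit 3) (nat_lit 4) (nat_lit 1) (nat_lit 4) (nat_lit 359) (nat_lit 258) (nat_lit 163)) (XT.lf (nat_lit 0) (nat_lit 130398446) (nat_lit 76) (nat_lit 1567060963) (nat_lit 76) (nat_lit 1567060963) (nat_lit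 32) (nat_lit 4) (nat_lit 33) (nat_lit 5) (nat_lit 33) (nat_lit 4) (nat_lit 262) (nat_lit 259) (nat_lit 259))) (XT.nd (nat_lit 78) (nat_lit 228) (nat_lit 0) (XT.lf (nat_lit 0) (nat_lit 4272100591) (nat_lit 76) (nat_lit 2355416464) (nat_lit 76) (nat_lit 34185557) (nat_lit 32) (nat_lit 4) (nat_lit 33) (nat_lit 5) (nat_lit 33) (nat_lit 4) (nat_lit 263) (nat_lit 259) (nat_lit 258)) (XT.nd (nat_lit 78) (nat_lit 0) (nat_lit 0) (XT.lf (nat_lit 0) (nat_lit 1687296774) (nat_lit 152) (nat_lit 1115954081) (nat_lit 228) (nat_lit 4053848373) (nat_lit 29) (nat_lit 5) (nat_lit 31) (nat_lit 5) (nat_lit 32) (nat_lit 4) (nat_lit 264) (nat_lit 259) (nat_lit 257)) (XT.lf (nat_lit 0) (nat_lit 5773841316) (nat_lit 228) (nat_lit 879542953) (nat_lit 0) (nat_lit 473948606) (nat_lit 29) (nat_lit 5) (nat_lit 32) (nat_lit 4) (nat_lit 29) (nat_lit 4) (nat_lit 265) (nat_lit 259) (nat_lit 256)))))) (XT.nd (nat_lit 390)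 (nat_lit 380) (nat_lit 0) (XT.nd (nat_lit 156) (nat_lit 304) (nat_lit 0) (XT.nd (nat_lit 78) (nat_lit 304) (nat_lit 0) (XT.lf (nat_lit 0) (nat_lit 1427876038) (nat_lit 304) (nat_lit 3557130533) (nat_lit 76) (nat_lit 2469260278) (nat_lit 25) (nat_lit 5) (nat_lit 29) (nat_lit 5) (nat_lit 26) (nat_lit 4) (nat_lit 266) (nat_lit 259) (nat_lit 255)) (XT.lf (nat_lit 0) (nat_lit 1313815606) (nat_lit 304) (nat_lit 2916389800) (nat_lit 380) (nat_lit 3630614577) (nat_lit 21) (nat_lit 5) (nat_lit 25) (nat_lit 5) (nat_lit 26) (nat_lit 4) (nat_lit 267) (nat_lit 259) (nat_lit 254))) (XT.nd (nat_lit 78) (nat_lit 304) (nat_lit 0) (XT.lf (nat_lit 0) (nat_lit 6931134708) (nat_lit 304) (nat_lit 378536410) (nat_lit 380) (nat_lit 1041554863) (nat_lit 21) (nat_lit 5) (nat_lit 25) (nat_lit 5) (nat_lit 26) (nat_lit 4) (nat_lit 268) (nat_lit 259) (nat_lit 253)) (XT.nd (nat_lit 78) (nat_lit 76) (nat_lit 0) (XT.lf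 (nat_lit 0) (nat_lit 1760901264) (nat_lit 228) (nat_lit 4611709997) (nat_lit 76) (nat_lit 2531999878) (nat_lit 18) (nat_lit 5) (nat_lit 21) (nat_lit 5) (nat_lit 19) (nat_lit 4) (nat_lit 269) (nat_lit 259) (nat_lit 252)) (XT.lf (nat_lit 0) (nat_lit 1135281986) (nat_lit 76) (nat_lit 3605540524) (nat_lit 152) (nat_lit 4814094659) (nat_lit 17) (nat_lit 5) (nat_lit 18) (nat_lit 5) (nat_lit 19) (nat_lit 4) (nat_lit 270) (nat_lit 259) (nat_lit 251))))) (XT.nd (nat_lit 156) (nat_lit 152) (nat_lit 0) (XT.nd (nat_lit 78) (nat_lit 228) (nat_lit 0) (XT.lf (nat_lit 0) (nat_lit 7893013732) (nat_lit 76) (nat_lit 257810883) (nat_lit 152) (nat_lit 2155274142) (nat_lit 17) (nat_lit 5) (nat_lit 18) (nat_lit 5) (nat_lit 19) (nat_lit 4) (nat_lit 271) (nat_lit 259) (nat_lit 250)) (XT.lf (nat_lit 0) (nat_lit 928200911) (nat_lit 228) (nat_lit 6813230686) (nat_lit 76) (nat_lit 3407596254) (nat_lit 14) (nat_lit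 5) (nat_lit 17) (nat_lit 5) (nat_lit 15) (nat_lit 4) (nat_lit 272) (nat_lit 259) (nat_lit 249))) (XT.nd (nat_lit 78) (nat_lit 152) (nat_lit 0) (XT.lf (nat_lit 0) (nat_lit 4174833970) (nat_lit 228) (nat_lit 210234526) (nat_lit 76) (nat_lit 7730260409) (nat_lit 14) (nat_lit 5) (nat_lit 17) (nat_lit 5) (nat_lit 15) (nat_lit 4) (nat_lit 273) (nat_lit 259) (nat_lit 248)) (XT.nd (nat_lit 78) (nat_lit 76) (nat_lit 0) (XT.lf (nat_lit 0) (nat_lit 7762974155) (nat_lit 76) (nat_lit 272913364) (nat_lit 152) (nat_lit 5172027485) (nat_lit 13) (nat_lit 5) (nat_lit 14) (nat_lit 5) (nat_lit 15) (nat_lit 4) (nat_lit 274) (nat_lit 259) (nat_lit 247)) (XT.lf (nat_lit 0) (nat_lit 2182365425) (nat_lit 76) (nat_lit 10394297431) (nat_lit 76) (nat_lit 1873036135) (nat_lit 12) (nat_lit 4) (nat_lit 13) (nat_lit 5) (nat_lit 13) (nat_lit 4) (nat_lit 275) (nat_lit 259) (nat_lit 246))))))))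
noncomputable def xc46 : XT := (XT.nd (nat_lit 1482) (nat_lit 152) (nat_lit 0) (XT.nd (nat_lit 702) (nat_lit 228) (nat_lit 0) (XT.nd (nat_lit 312) (nat_lit 228) (nat_lit 0) (XT.nd (nat_lit 156) (nat_lit 76) (nat_lit 0) (XT.nd (nat_lit 78) (nat_lit 76) (nat_lit 0) (XT.lf (nat_lit 0) (nat_lit 1878123242) (nat_lit 152) (nat_lit 4698998764) (nat_lit 76) (nat_lit 9269748052) (nat_lit 11) (nat_lit 5) (nat_lit 13) (nat_lit 5) (nat_lit 12) (nat_lit 4) (nat_lit 276) (nat_lit 259) (nat_lit 245)) (XT.lf (nat_lit 0) (nat_lit 3989181617) (nat_lit 76) (nat_lit 2017196378) (nat_lit 152) (nat_lit 11433191670) (nat_lit 10) (nat_lit 5) (nat_lit 11) (nat_lit 5) (nat_lit 12) (nat_lit 4) (nat_lit 277) (nat_lit 259) (nat_lit 244))) (XT.nd (nat_lit 78) (nat_lit 76) (nat_lit 0) (XT.lf (nat_lit 0) (nat_lit 10990492642) (nat_lit 152) (nat_lit 5157210917) (nat_lit 0) (nat_lit 3088202982) (nat_lit 10) (nat_lit 5)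 (nat_lit 12) (nat_lit 4) (nat_lit 10) (nat_lit 4) (nat_lit 278) (nat_lit 259) (nat_lit 243)) (XT.lf (nat_lit 0) (nat_lit 4429284948) (nat_lit 76) (nat_lit 12438215960) (nat_lit 76) (nat_lit 4412597730) (nat_lit 9) (nat_lit 4) (nat_lit 10) (nat_lit 5) (nat_lit 10) (nat_lit 4) (nat_lit 279) (nat_lit 259) (nat_lit 242)))) (XT.nd (nat_lit 156) (nat_lit 76) (nat_lit 0) (XT.nd (nat_lit 78) (nat_lit 76) (nat_lit 0) (XT.lf (nat_lit 0) (nat_lit 145287788) (nat_lit 152) (nat_lit 7820491720) (nat_lit 76) (nat_lit 15642861394) (nat_lit 8) (nat_lit 5) (nat_lit 10) (nat_lit 5) (nat_lit 9) (nat_lit 4) (nat_lit 280) (nat_lit 259) (nat_lit 241)) (XT.lf (nat_lit 0) (nat_lit 2344997752) (nat_lit 76) (nat_lit 2571798682) (nat_lit 152) (nat_lit 21341022552) (nat_lit 7) (nat_lit 5) (nat_lit 8) (nat_lit 5) (nat_lit 9) (nat_lit 4) (nat_lit 281) (nat_lit 259) (nat_lit 240))) (XT.nd (nat_lit 78) (nat_lit 76) (nat_lit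 0) (XT.lf (nat_lit 0) (nat_lit 10869593039) (nat_lit 152) (nat_lit 14719122235) (nat_lit 0) (nat_lit 3645936413) (nat_lit 7) (nat_lit 5) (nat_lit 9) (nat_lit 4) (nat_lit 7) (nat_lit 4) (nat_lit 282) (nat_lit 259) (nat_lit 239)) (XT.nd (nat_lit 78) (nat_lit 76) (nat_lit 0) (XT.lf (nat_lit 0) (nat_lit 17739456701) (nat_lit 152) (nat_lit 4460544002) (nat_lit 0) (nat_lit 10454483978) (nat_lit 7) (nat_lit 5) (nat_lit 9) (nat_lit 4) (nat_lit 7) (nat_lit 4) (nat_lit 283) (nat_lit 259) (nat_lit 238)) (XT.lf (nat_lit 0) (nat_lit 7870833501) (nat_lit 76) (nat_lit 18009386025) (nat_lit 76) (nat_lit 10671094958) (nat_lit 6) (nat_lit 4) (nat_lit 7) (nat_lit 5) (nat_lit 7) (nat_lit 4) (nat_lit 284) (nat_lit 259) (nat_lit 237)))))) (XT.nd (nat_lit 390) (nat_lit 76) (nat_lit 0) (XT.nd (nat_lit 156) (nat_lit 76) (nat_lit 0) (XT.nd (nat_lit 78) (nat_lit 76) (nat_lit 0) (XT.lf (nat_lit 0) (nat_lit 22394095893)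 (nat_lit 76) (nat_lit 13000233295) (nat_lit 76) (nat_lit 5615578450) (nat_lit 6) (nat_lit 4) (nat_lit 7) (nat_lit 5) (nat_lit 7) (nat_lit 4) (nat_lit 285) (nat_lit 259) (nat_lit 236)) (XT.lf (nat_lit 0) (nat_lit 106828922) (nat_lit 152) (nat_lit 7195288989) (nat_lit 76) (nat_lit 38845063998) (nat_lit 5) (nat_lit 5) (nat_lit 7) (nat_lit 5) (nat_lit 6) (nat_lit 4) (nat_lit 286) (nat_lit 259) (nat_lit 235))) (XT.nd (nat_lit 78) (nat_lit 0) (nat_lit 0) (XT.lf (nat_lit 0) (nat_lit 6086088387) (nat_lit 76) (nat_lit 214431257) (nat_lit 152) (nat_lit 45686287310) (nat_lit 4) (nat_lit 5) (nat_lit 5) (nat_lit 5) (nat_lit 6) (nat_lit 4) (nat_lit 287) (nat_lit 259) (nat_lit 234)) (XT.nd (nat_lit 78) (nat_lit 0) (nat_lit 0) (XT.lf (nat_lit 0) (nat_lit 14082635284) (nat_lit 152) (nat_lit 36951731902) (nat_lit 0) (nat_lit 7569145035) (nat_lit 4) (nat_lit 5) (nat_lit 6) (nat_lit 4) (nat_lit 4) (nat_lit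 4) (nat_lit 288) (nat_lit 259) (nat_lit 233)) (XT.lf (nat_lit 0) (nat_lit 22987247830) (nat_lit 152) (nat_lit 26781528588) (nat_lit 0) (nat_lit 16450706590) (nat_lit 4) (nat_lit 5) (nat_lit 6) (nat_lit 4) (nat_lit 4) (nat_lit 4) (nat_lit 289) (nat_lit 259) (nat_lit 232))))) (XT.nd (nat_lit 156) (nat_lit 76) (nat_lit 0) (XT.nd (nat_lit 78) (nat_lit 0) (nat_lit 0) (XT.lf (nat_lit 0) (nat_lit 33179698822) (nat_lit 152) (nat_lit 15182247245) (nat_lit 0) (nat_lit 26623113241) (nat_lit 4) (nat_lit 5) (nat_lit 6) (nat_lit 4) (nat_lit 4) (nat_lit 4) (nat_lit 290) (nat_lit 259) (nat_lit 231)) (XT.lf (nat_lit 0) (nat_lit 44859405779) (nat_lit 152) (nat_lit 1926945413) (nat_lit 0) (nat_lit 38285390337) (nat_lit 4) (nat_lit 5) (nat_lit 6) (nat_lit 4) (nat_lit 4) (nat_lit 4) (nat_lit 291) (nat_lit 259) (nat_lit 230))) (XT.nd (nat_lit 78) (nat_lit 0) (nat_lit 0) (XT.lf (nat_lit 0) (nat_lit 14537992384)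 (nat_lit 76) (nat_lit 44318879585) (nat_lit 76) (nat_lit 37729707742) (nat_lit 3) (nat_lit 4) (nat_lit 4) (nat_lit 5) (nat_lit 4) (nat_lit 4) (nat_lit 292) (nat_lit 259) (nat_lit 229)) (XT.nd (nat_lit 78) (nat_lit 0) (nat_lit 0) (XT.lf (nat_lit 0) (nat_lit 33619616404) (nat_lit 76) (nat_lit 41400721280) (nat_lit 76) (nat_lit 34798369958) (nat_lit 3) (nat_lit 4) (nat_lit 4) (nat_lit 5) (nat_lit 4) (nat_lit 4) (nat_lit 293) (nat_lit 259) (nat_lit 228)) (XT.lf (nat_lit 0) (nat_lit 55502947648) (nat_lit 76) (nat_lit 38075508569) (nat_lit 76) (nat_lit 31461696830) (nat_lit 3) (nat_lit 4) (nat_lit 4) (nat_lit 5) (nat_lit 4) (nat_lit 4) (nat_lit 294) (nat_lit 259) (nat_lit 227))))))) (XT.nd (nat_lit 780) (nat_lit 0) (nat_lit 0) (XT.nd (nat_lit 390) (nat_lit 152) (nat_lit 0) (XT.nd (nat_lit 156) (nat_lit 0) (nat_lit 0) (XT.nd (nat_lit 78) (nat_lit 0) (nat_lit 0) (XT.lf (nat_lit 0) (nat_lit 80616138249)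 (nat_lit 76) (nat_lit 34278182942) (nat_lit 76) (nat_lit 27654405623) (nat_lit 3) (nat_lit 4) (nat_lit 4) (nat_lit 5) (nat_lit 4) (nat_lit 4) (nat_lit 295) (nat_lit 259) (nat_lit 226)) (XT.lf (nat_lit 0) (nat_lit 109450533240) (nat_lit 76) (nat_lit 29934448897) (nat_lit 76) (nat_lit 23302005857) (nat_lit 3) (nat_lit 4) (nat_lit 4) (nat_lit 5) (nat_lit 4) (nat_lit 4) (nat_lit 296) (nat_lit 259) (nat_lit 225))) (XT.nd (nat_lit 78) (nat_lit 0) (nat_lit 0) (XT.lf (nat_lit 0) (nat_lit 142570283828) (nat_lit 76) (nat_lit 24959320334) (nat_lit 76) (nat_lit 18319341884) (nat_lit 3) (nat_lit 4) (nat_lit 4) (nat_lit 5) (nat_lit 4) (nat_lit 4) (nat_lit 297) (nat_lit 259) (nat_lit 224)) (XT.nd (nat_lit 78) (nat_lit 0) (nat_lit 0) (XT.lf (nat_lit 0) (nat_lit 180623385133) (nat_lit 76) (nat_lit 19255457781) (nat_lit 76) (nat_lit 12608926800) (nat_lit 3) (nat_lit 4) (nat_lit 4) (nat_lit 5) (nat_lit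 4) (nat_lit 4) (nat_lit 298) (nat_lit 259) (nat_lit 223)) (XT.lf (nat_lit 0) (nat_lit 224354354355) (nat_lit 76) (nat_lit 12711263927) (nat_lit 76) (nat_lit 6059035093) (nat_lit 3) (nat_lit 4) (nat_lit 4) (nat_lit 5) (nat_lit 4) (nat_lit 4) (nat_lit 299) (nat_lit 259) (nat_lit 222))))) (XT.nd (nat_lit 156) (nat_lit 0) (nat_lit 0) (XT.nd (nat_lit 78) (nat_lit 76) (nat_lit 0) (XT.lf (nat_lit 0) (nat_lit 1328639023) (nat_lit 152) (nat_lit 3800609587) (nat_lit 76) (nat_lit 273220706804) (nat_lit 2) (nat_lit 5) (nat_lit 4) (nat_lit 5) (nat_lit 3) (nat_lit 4) (nat_lit 300) (nat_lit 259) (nat_lit 221)) (XT.lf (nat_lit 0) (nat_lit 9978168175) (nat_lit 152) (nat_lit 304535940128) (nat_lit 0) (nat_lit 4185566537) (nat_lit 1) (nat_lit 5) (nat_lit 3) (nat_lit 4) (nat_lit 1) (nat_lit 4) (nat_lit 301) (nat_lit 259) (nat_lit 220))) (XT.nd (nat_lit 78) (nat_lit 0) (nat_lit 0) (XT.lf (nat_lit 0) (nat_lit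 20365843777) (nat_lit 152) (nat_lit 330099921651) (nat_lit 0) (nat_lit 14569984373) (nat_lit 1) (nat_lit 5) (nat_lit 3) (nat_lit 4) (nat_lit 1) (nat_lit 4) (nat_lit 302) (nat_lit 259) (nat_lit 219)) (XT.nd (nat_lit 78) (nat_lit 0) (nat_lit 0) (XT.lf (nat_lit 0) (nat_lit 32301530304) (nat_lit 152) (nat_lit 359519393210) (nat_lit 0) (nat_lit 26502838061) (nat_lit 1) (nat_lit 5) (nat_lit 3) (nat_lit 4) (nat_lit 1) (nat_lit 4) (nat_lit 303) (nat_lit 259) (nat_lit 218)) (XT.lf (nat_lit 0) (nat_lit 46018752058) (nat_lit 152) (nat_lit 393369953160) (nat_lit 0) (nat_lit 40217596476) (nat_lit 1) (nat_lit 5) (nat_lit 3) (nat_lit 4) (nat_lit 1) (nat_lit 4) (nat_lit 304) (nat_lit 259) (nat_lit 217)))))) (XT.nd (nat_lit 390) (nat_lit 0) (nat_lit 0) (XT.nd (nat_lit 156) (nat_lit 0) (nat_lit 0) (XT.nd (nat_lit 78) (nat_lit 0) (nat_lit 0) (XT.lf (nat_lit 0) (nat_lit 61785889464) (nat_lit 152) (nat_lit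 432313895067) (nat_lit 0) (nat_lit 55982591848) (nat_lit 1) (nat_lit 5) (nat_lit 3) (nat_lit 4) (nat_lit 1) (nat_lit 4) (nat_lit 305) (nat_lit 259) (nat_lit 216)) (XT.lf (nat_lit 0) (nat_lit 79911429994) (nat_lit 152) (nat_lit 477113165620) (nat_lit 0) (nat_lit 74106269740) (nat_lit 1) (nat_lit 5) (nat_lit 3) (nat_lit 4) (nat_lit 1) (nat_lit 4) (nat_lit 306) (nat_lit 259) (nat_lit 215))) (XT.nd (nat_lit 78) (nat_lit 0) (nat_lit 0) (XT.lf (nat_lit 0) (nat_lit 100750003788) (nat_lit 152) (nat_lit 528644272285) (nat_lit 0) (nat_lit 94943223849) (nat_lit 1) (nat_lit 5) (nat_lit 3) (nat_lit 4) (nat_lit 1) (nat_lit 4) (nat_lit 307) (nat_lit 259) (nat_lit 214)) (XT.nd (nat_lit 78) (nat_lit 0) (nat_lit 0) (XT.lf (nat_lit 0) (nat_lit 124709322073) (nat_lit 152) (nat_lit 587915432369) (nat_lit 0) (nat_lit 118901133712) (nat_lit 1) (nat_lit 5) (nat_lit 3) (nat_lit 4) (nat_lit 1) (nat_lit 4) (nat_lit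 308) (nat_lit 259) (nat_lit 213)) (XT.lf (nat_lit 0) (nat_lit 152258154119) (nat_lit 152) (nat_lit 656086299002) (nat_lit 0) (nat_lit 146448741043) (nat_lit 1) (nat_lit 5) (nat_lit 3) (nat_lit 4) (nat_lit 1) (nat_lit 4) (nat_lit 309) (nat_lit 259) (nat_lit 212))))) (XT.nd (nat_lit 156) (nat_lit 0) (nat_lit 0) (XT.nd (nat_lit 78) (nat_lit 0) (nat_lit 0) (XT.lf (nat_lit 0) (nat_lit 183935498815) (nat_lit 152) (nat_lit 734490650010) (nat_lit 0) (nat_lit 178125020769) (nat_lit 1) (nat_lit 5) (nat_lit 3) (nat_lit 4) (nat_lit 1) (nat_lit 4) (nat_lit 310) (nat_lit 259) (nat_lit 211)) (XT.lf (nat_lit 0) (nat_lit 220361130296) (nat_lit 152) (nat_lit 824662483564) (nat_lit 0) (nat_lit 214549726190) (nat_lit 1) (nat_lit 5) (nat_lit 3) (nat_lit 4) (nat_lit 1) (nat_lit 4) (nat_lit 311) (nat_lit 259) (nat_lit 210))) (XT.nd (nat_lit 78) (nat_lit 0) (nat_lit 0) (XT.lf (nat_lit 0) (nat_lit 262247723959)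 (nat_lit 152) (nat_lit 928366031192) (nat_lit 0) (nat_lit 256435514583) (nat_lit 1) (nat_lit 5) (nat_lit 3) (nat_lit 4) (nat_lit 1) (nat_lit 4) (nat_lit 312) (nat_lit 259) (nat_lit 209)) (XT.nd (nat_lit 78) (nat_lit 0) (nat_lit 0) (XT.lf (nat_lit 0) (nat_lit 310414800117) (nat_lit 152) (nat_lit 1047630275346) (nat_lit 0) (nat_lit 304601890506) (nat_lit 1) (nat_lit 5) (nat_lit 3) (nat_lit 4) (nat_lit 1) (nat_lit 4) (nat_lit 313) (nat_lit 259) (nat_lit 208)) (XT.lf (nat_lit 0) (nat_lit 365804758085) (nat_lit 152) (nat_lit 1184788646891) (nat_lit 0) (nat_lit 359991239575) (nat_lit 1) (nat_lit 5) (nat_lit 3) (nat_lit 4) (nat_lit 1) (nat_lit 4) (nat_lit 314) (nat_lit 259) (nat_lit 207))))))))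
noncomputable def xc47 : XT := (XT.nd (nat_lit 1482) (nat_lit 0) (nat_lit 0) (XT.nd (nat_lit 702) (nat_lit 0) (nat_lit 0) (XT.nd (nat_lit 312) (nat_lit 0) (nat_lit 0) (XT.nd (nat_lit 156) (nat_lit 0) (nat_lit 0) (XT.nd (nat_lit 78) (nat_lit 0) (nat_lit 0) (XT.lf (nat_lit 0) (nat_lit 429501314432) (nat_lit 152) (nat_lit 1342524679182) (nat_lit 0) (nat_lit 423687266444) (nat_lit 1) (nat_lit 5) (nat_lit 3) (nat_lit 4) (nat_lit 1) (nat_lit 4) (nat_lit 315) (nat_lit 259) (nat_lit 206)) (XT.lf (nat_lit 0) (nat_lit 502750706130) (nat_lit 152) (nat_lit 1523924511982) (nat_lit 0) (nat_lit 496936197726) (nat_lit 1) (nat_lit 5) (nat_lit 3) (nat_lit 4) (nat_lit 1) (nat_lit 4) (nat_lit 316) (nat_lit 259) (nat_lit 205))) (XT.nd (nat_lit 78) (nat_lit 0) (nat_lit 0) (XT.lf (nat_lit 0) (nat_lit 586986073452) (nat_lit 152) (nat_lit 1732537272455) (nat_lit 0) (nat_lit 581171164686) (nat_lit 1) (nat_lit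 5) (nat_lit 3) (nat_lit 4) (nat_lit 1) (nat_lit 4) (nat_lit 317) (nat_lit 259) (nat_lit 204)) (XT.lf (nat_lit 0) (nat_lit 683855499670) (nat_lit 152) (nat_lit 1972444514609) (nat_lit 0) (nat_lit 678040242765) (nat_lit 1) (nat_lit 5) (nat_lit 3) (nat_lit 4) (nat_lit 1) (nat_lit 4) (nat_lit 318) (nat_lit 259) (nat_lit 203)))) (XT.nd (nat_lit 156) (nat_lit 0) (nat_lit 0) (XT.nd (nat_lit 78) (nat_lit 0) (nat_lit 0) (XT.lf (nat_lit 0) (nat_lit 795254256169) (nat_lit 152) (nat_lit 2248340075791) (nat_lit 0) (nat_lit 789438696532) (nat_lit 1) (nat_lit 5) (nat_lit 3) (nat_lit 4) (nat_lit 1) (nat_lit 4) (nat_lit 319) (nat_lit 259) (nat_lit 202)) (XT.lf (nat_lit 0) (nat_lit 923361883835) (nat_lit 152) (nat_lit 2565621912634) (nat_lit 0) (nat_lit 917546060955) (nat_lit 1) (nat_lit 5) (nat_lit 3) (nat_lit 4) (nat_lit 1) (nat_lit 4) (nat_lit 320) (nat_lit 259) (nat_lit 201))) (XT.nd (nat_lit 78) (nat_lit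 0) (nat_lit 0) (XT.lf (nat_lit 0) (nat_lit 1070684836254) (nat_lit 152) (nat_lit 2930497713248) (nat_lit 0) (nat_lit 1064868784465) (nat_lit 1) (nat_lit 5) (nat_lit 3) (nat_lit 4) (nat_lit 1) (nat_lit 4) (nat_lit 321) (nat_lit 259) (nat_lit 200)) (XT.nd (nat_lit 78) (nat_lit 0) (nat_lit 0) (XT.lf (nat_lit 0) (nat_lit 1240105519016) (nat_lit 152) (nat_lit 3350106351995) (nat_lit 0) (nat_lit 1234289268177) (nat_lit 1) (nat_lit 5) (nat_lit 3) (nat_lit 4) (nat_lit 1) (nat_lit 4) (nat_lit 322) (nat_lit 259) (nat_lit 199)) (XT.lf (nat_lit 0) (nat_lit 1434938684610) (nat_lit 152) (nat_lit 3832657563110) (nat_lit 0) (nat_lit 1429122260684) (nat_lit 1) (nat_lit 5) (nat_lit 3) (nat_lit 4) (nat_lit 1) (nat_lit 4) (nat_lit 323) (nat_lit 259) (nat_lit 198)))))) (XT.nd (nat_lit 390) (nat_lit 0) (nat_lit 0) (XT.nd (nat_lit 156) (nat_lit 0) (nat_lit 0) (XT.nd (nat_lit 78) (nat_lit 0) (nat_lit 0) (XT.lf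 (nat_lit 0) (nat_lit 1658996286276) (nat_lit 152) (nat_lit 4387592565941) (nat_lit 0) (nat_lit 1653179711839) (nat_lit 1) (nat_lit 5) (nat_lit 3) (nat_lit 4) (nat_lit 1) (nat_lit 4) (nat_lit 324) (nat_lit 259) (nat_lit 197)) (XT.lf (nat_lit 0) (nat_lit 1916662059699) (nat_lit 152) (nat_lit 5025768784456) (nat_lit 0) (nat_lit 1910845354383) (nat_lit 1) (nat_lit 5) (nat_lit 3) (nat_lit 4) (nat_lit 1) (nat_lit 4) (nat_lit 325) (nat_lit 259) (nat_lit 196))) (XT.nd (nat_lit 78) (nat_lit 0) (nat_lit 0) (XT.lf (nat_lit 0) (nat_lit 2212977291750) (nat_lit 152) (nat_lit 5759672275106) (nat_lit 0) (nat_lit 2207160472626) (nat_lit 1) (nat_lit 5) (nat_lit 3) (nat_lit 4) (nat_lit 1) (nat_lit 4) (nat_lit 326) (nat_lit 259) (nat_lit 195)) (XT.nd (nat_lit 78) (nat_lit 0) (nat_lit 0) (XT.lf (nat_lit 0) (nat_lit 2553739454360) (nat_lit 152) (nat_lit 6603662019228) (nat_lit 0) (nat_lit 2547922536274) (nat_lit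 1) (nat_lit 5) (nat_lit 3) (nat_lit 4) (nat_lit 1) (nat_lit 4) (nat_lit 327) (nat_lit 259) (nat_lit 194)) (XT.lf (nat_lit 0) (nat_lit 2945615633321) (nat_lit 152) (nat_lit 7574250859643) (nat_lit 0) (nat_lit 2939798629179) (nat_lit 1) (nat_lit 5) (nat_lit 3) (nat_lit 4) (nat_lit 1) (nat_lit 4) (nat_lit 328) (nat_lit 259) (nat_lit 193))))) (XT.nd (nat_lit 156) (nat_lit 0) (nat_lit 0) (XT.nd (nat_lit 78) (nat_lit 0) (nat_lit 0) (XT.lf (nat_lit 0) (nat_lit 3396272971262) (nat_lit 152) (nat_lit 8690428578010) (nat_lit 0) (nat_lit 3390455892290) (nat_lit 1) (nat_lit 5) (nat_lit 3) (nat_lit 4) (nat_lit 1) (nat_lit 4) (nat_lit 329) (nat_lit 259) (nat_lit 192)) (XT.lf (nat_lit 0) (nat_lit 3914528676972) (nat_lit 152) (nat_lit 9974033434037) (nat_lit 0) (nat_lit 3908711532929) (nat_lit 1) (nat_lit 5) (nat_lit 3) (nat_lit 4) (nat_lit 1) (nat_lit 4) (nat_lit 330) (nat_lit 259) (nat_lit 191))) (XT.nd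 (nat_lit 78) (nat_lit 0) (nat_lit 0) (XT.lf (nat_lit 0) (nat_lit 4510522535995) (nat_lit 152) (nat_lit 11450179435777) (nat_lit 0) (nat_lit 4504705335370) (nat_lit 1) (nat_lit 5) (nat_lit 3) (nat_lit 4) (nat_lit 1) (nat_lit 4) (nat_lit 331) (nat_lit 259) (nat_lit 190)) (XT.nd (nat_lit 78) (nat_lit 0) (nat_lit 0) (XT.lf (nat_lit 0) (nat_lit 5195915297747) (nat_lit 152) (nat_lit 13147747700655) (nat_lit 0) (nat_lit 5190098047920) (nat_lit 1) (nat_lit 5) (nat_lit 3) (nat_lit 4) (nat_lit 1) (nat_lit 4) (nat_lit 332) (nat_lit 259) (nat_lit 189)) (XT.lf (nat_lit 0) (nat_lit 5984116820611) (nat_lit 152) (nat_lit 15099951520810) (nat_lit 0) (nat_lit 5978299528000) (nat_lit 1) (nat_lit 5) (nat_lit 3) (nat_lit 4) (nat_lit 1) (nat_lit 4) (nat_lit 333) (nat_lit 259) (nat_lit 188))))))) (XT.nd (nat_lit 2028) (nat_lit 0) (nat_lit 0) (XT.nd (nat_lit 390) (nat_lit 0) (nat_lit 0) (XT.nd (nat_lit 156)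 (nat_lit 0) (nat_lit 0) (XT.nd (nat_lit 78) (nat_lit 0) (nat_lit 0) (XT.lf (nat_lit 0) (nat_lit 6890548438730) (nat_lit 152) (nat_lit 17344986188375) (nat_lit 0) (nat_lit 6884731108915) (nat_lit 1) (nat_lit 5) (nat_lit 3) (nat_lit 4) (nat_lit 1) (nat_lit 4) (nat_lit 334) (nat_lit 259) (nat_lit 187)) (XT.lf (nat_lit 0) (nat_lit 7932944683762) (nat_lit 152) (nat_lit 19926776294672) (nat_lit 0) (nat_lit 7927127321596) (nat_lit 1) (nat_lit 5) (nat_lit 3) (nat_lit 4) (nat_lit 1) (nat_lit 4) (nat_lit 335) (nat_lit 259) (nat_lit 186))) (XT.nd (nat_lit 78) (nat_lit 0) (nat_lit 0) (XT.lf (nat_lit 0) (nat_lit 9131700264850) (nat_lit 152) (nat_lit 22895835124390) (nat_lit 0) (nat_lit 9125882874552) (nat_lit 1) (nat_lit 5) (nat_lit 3) (nat_lit 4) (nat_lit 1) (nat_lit 4) (nat_lit 336) (nat_lit 259) (nat_lit 185)) (XT.nd (nat_lit 78) (nat_lit 0) (nat_lit 0) (XT.lf (nat_lit 0) (nat_lit 10510269095536)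 (nat_lit 152) (nat_lit 26310252958980) (nat_lit 0) (nat_lit 10504451680776) (nat_lit 1) (nat_lit 5) (nat_lit 3) (nat_lit 4) (nat_lit 1) (nat_lit 4) (nat_lit 337) (nat_lit 259) (nat_lit 184)) (XT.lf (nat_lit 0) (nat_lit 12095623174682) (nat_lit 152) (nat_lit 30236833625640) (nat_lit 0) (nat_lit 12089805738650) (nat_lit 1) (nat_lit 5) (nat_lit 3) (nat_lit 4) (nat_lit 1) (nat_lit 4) (nat_lit 338) (nat_lit 259) (nat_lit 183))))) (XT.nd (nat_lit 156) (nat_lit 0) (nat_lit 0) (XT.nd (nat_lit 78) (nat_lit 0) (nat_lit 0) (XT.lf (nat_lit 0) (nat_lit 13918780299488) (nat_lit 152) (nat_lit 34752401528717) (nat_lit 0) (nat_lit 13912962844959) (nat_lit 1) (nat_lit 5) (nat_lit 3) (nat_lit 4) (nat_lit 1) (nat_lit 4) (nat_lit 339) (nat_lit 259) (nat_lit 182)) (XT.lf (nat_lit 0) (nat_lit 16015410935440) (nat_lit 152) (nat_lit 39945304735882) (nat_lit 0) (nat_lit 16009593464827) (nat_lit 1) (nat_lit 5)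 (nat_lit 3) (nat_lit 4) (nat_lit 1) (nat_lit 4) (nat_lit 340) (nat_lit 259) (nat_lit 181))) (XT.nd (nat_lit 1326) (nat_lit 0) (nat_lit 0) (XT.lf (nat_lit 0) (nat_lit 18426536116719) (nat_lit 152) (nat_lit 45917143527274) (nat_lit 0) (nat_lit 18420718632120) (nat_lit 1) (nat_lit 5) (nat_lit 3) (nat_lit 4) (nat_lit 1) (nat_lit 4) (nat_lit 341) (nat_lit 259) (nat_lit 180)) (XT.nd (nat_lit 78) (nat_lit 0) (nat_lit 0) (XT.lf (nat_lit 0) (nat_lit 198866351163813) (nat_lit 152) (nat_lit 492827827468385) (nat_lit 0) (nat_lit 198860533594636) (nat_lit 1) (nat_lit 5) (nat_lit 3) (nat_lit 4) (nat_lit 1) (nat_lit 4) (nat_lit 358) (nat_lit 259) (nat_lit 163)) (XT.lf (nat_lit 0) (nat_lit 228705117072549) (nat_lit 152) (nat_lit 566732045301765) (nat_lit 0) (nat_lit 228699299502242) (nat_lit 1) (nat_lit 5) (nat_lit 3) (nat_lit 4) (nat_lit 1) (nat_lit 4) (nat_lit 359) (nat_lit 259) (nat_lit 162))))))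 (XT.nd (nat_lit 33150) (nat_lit 0) (nat_lit 1520) (XT.nd (nat_lit 32916) (nat_lit 0) (nat_lit 2280) (XT.nd (nat_lit 32838) (nat_lit 0) (nat_lit 2508) (XT.lf (nat_lit 0) (nat_lit 263019697864077) (nat_lit 152) (nat_lit 651721895817402) (nat_lit 0) (nat_lit 263013880292788) (nat_lit 1) (nat_lit 5) (nat_lit 3) (nat_lit 4) (nat_lit 1) (nat_lit 4) (nat_lit 360) (nat_lit 259) (nat_lit 161)) (XT.lf (nat_lit 0) (nat_lit 1073741823) (nat_lit 0) (nat_lit 0) (nat_lit 0) (nat_lit 0) (nat_lit 34) (nat_lit 0) (nat_lit 1) (nat_lit 0) (nat_lit 1) (nat_lit 0) (nat_lit 260) (nat_lit 260) (nat_lit 260))) (XT.nd (nat_lit 78) (nat_lit 152) (nat_lit 0) (XT.lf (nat_lit 0) (nat_lit 2942712848) (nat_lit 76) (nat_lit 3247482794) (nat_lit 0) (nat_lit 273297305) (nat_lit 33) (nat_lit 5) (nat_lit 34) (nat_lit 0) (nat_lit 33) (nat_lit 4) (nat_lit 261) (nat_lit 260) (nat_lit 259)) (XT.nd (nat_lit 78) (nat_lit 76) (nat_lit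 0) (XT.lf (nat_lit 0) (nat_lit 80243067) (nat_lit 76) (nat_lit 5738965115) (nat_lit 76) (nat_lit 748318664) (nat_lit 32) (nat_lit 4) (nat_lit 33) (nat_lit 5) (nat_lit 33) (nat_lit 4) (nat_lit 262) (nat_lit 260) (nat_lit 258)) (XT.lf (nat_lit 0) (nat_lit 1917596820) (nat_lit 152) (nat_lit 2886274944) (nat_lit 76) (nat_lit 1916708602) (nat_lit 31) (nat_lit 5) (nat_lit 33) (nat_lit 5) (nat_lit 32) (nat_lit 4) (nat_lit 263) (nat_lit 260) (nat_lit 257))))) (XT.nd (nat_lit 156) (nat_lit 532) (nat_lit 0) (XT.nd (nat_lit 78) (nat_lit 76) (nat_lit 0) (XT.lf (nat_lit 0) (nat_lit 968467477) (nat_lit 152) (nat_lit 3558397469) (nat_lit 228) (nat_lit 2423797501) (nat_lit 29) (nat_lit 5) (nat_lit 31) (nat_lit 5) (nat_lit 32) (nat_lit 4) (nat_lit 264) (nat_lit 260) (nat_lit 256)) (XT.lf (nat_lit 0) (nat_lit 44016815) (nat_lit 228) (nat_lit 1849406800) (nat_lit 76) (nat_lit 5357796651) (nat_lit 28) (nat_lit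 5) (nat_lit 31) (nat_lit 5) (nat_lit 29) (nat_lit 5) (nat_lit 265) (nat_lit 260) (nat_lit 255))) (XT.nd (nat_lit 78) (nat_lit 304) (nat_lit 0) (XT.lf (nat_lit 0) (nat_lit 2412747415) (nat_lit 304) (nat_lit 4914949982) (nat_lit 76) (nat_lit 286613416) (nat_lit 25) (nat_lit 5) (nat_lit 29) (nat_lit 5) (nat_lit 26) (nat_lit 4) (nat_lit 266) (nat_lit 260) (nat_lit 254)) (XT.nd (nat_lit 78) (nat_lit 304) (nat_lit 0) (XT.lf (nat_lit 0) (nat_lit 5014976054) (nat_lit 304) (nat_lit 323690586) (nat_lit 76) (nat_lit 2712857968) (nat_lit 25) (nat_lit 5) (nat_lit 29) (nat_lit 5) (nat_lit 26) (nat_lit 4) (nat_lit 267) (nat_lit 260) (nat_lit 253)) (XT.lf (nat_lit 0) (nat_lit 5106669768) (nat_lit 304) (nat_lit 2839932812) (nat_lit 380) (nat_lit 618065251) (nat_lit 21) (nat_lit 5) (nat_lit 25) (nat_lit 5) (nat_lit 26) (nat_lit 4) (nat_lit 268) (nat_lit 260) (nat_lit 252))))))))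
noncomputable def xc48 : XT := (XT.nd (nat_lit 1482) (nat_lit 304) (nat_lit 0) (XT.nd (nat_lit 702) (nat_lit 456) (nat_lit 0) (XT.nd (nat_lit 312) (nat_lit 228) (nat_lit 0) (XT.nd (nat_lit 156) (nat_lit 304) (nat_lit 0) (XT.nd (nat_lit 78) (nat_lit 0) (nat_lit 0) (XT.lf (nat_lit 0) (nat_lit 1817924558) (nat_lit 228) (nat_lit 7167410270) (nat_lit 76) (nat_lit 179826902) (nat_lit 18) (nat_lit 5) (nat_lit 21) (nat_lit 5) (nat_lit 19) (nat_lit 4) (nat_lit 269) (nat_lit 260) (nat_lit 251)) (XT.lf (nat_lit 0) (nat_lit 4637966644) (nat_lit 228) (nat_lit 1678092565) (nat_lit 76) (nat_lit 3523759520) (nat_lit 18) (nat_lit 5) (nat_lit 21) (nat_lit 5) (nat_lit 19) (nat_lit 4) (nat_lit 270) (nat_lit 260) (nat_lit 250))) (XT.nd (nat_lit 78) (nat_lit 228) (nat_lit 0) (XT.lf (nat_lit 0) (nat_lit 4766158491) (nat_lit 76) (nat_lit 3101196017) (nat_lit 152) (nat_lit 2751058898) (nat_lit 17) (nat_lit 5)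 (nat_lit 18) (nat_lit 5) (nat_lit 19) (nat_lit 4) (nat_lit 271) (nat_lit 260) (nat_lit 249)) (XT.lf (nat_lit 0) (nat_lit 168955) (nat_lit 228) (nat_lit 10940948360) (nat_lit 76) (nat_lit 581961610) (nat_lit 14) (nat_lit 5) (nat_lit 17) (nat_lit 5) (nat_lit 15) (nat_lit 4) (nat_lit 272) (nat_lit 260) (nat_lit 248)))) (XT.nd (nat_lit 156) (nat_lit 152) (nat_lit 0) (XT.nd (nat_lit 78) (nat_lit 76) (nat_lit 0) (XT.lf (nat_lit 0) (nat_lit 3156558910) (nat_lit 228) (nat_lit 4482766406) (nat_lit 76) (nat_lit 4863802159) (nat_lit 14) (nat_lit 5) (nat_lit 17) (nat_lit 5) (nat_lit 15) (nat_lit 4) (nat_lit 273) (nat_lit 260) (nat_lit 247)) (XT.lf (nat_lit 0) (nat_lit 2934667644) (nat_lit 76) (nat_lit 3804542674) (nat_lit 152) (nat_lit 6898447083) (nat_lit 13) (nat_lit 5) (nat_lit 14) (nat_lit 5) (nat_lit 15) (nat_lit 4) (nat_lit 274) (nat_lit 260) (nat_lit 246))) (XT.nd (nat_lit 78) (nat_lit 152)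 (nat_lit 0) (XT.lf (nat_lit 0) (nat_lit 10968221627) (nat_lit 152) (nat_lit 3253133045) (nat_lit 0) (nat_lit 705010890) (nat_lit 13) (nat_lit 5) (nat_lit 15) (nat_lit 4) (nat_lit 13) (nat_lit 4) (nat_lit 275) (nat_lit 260) (nat_lit 245)) (XT.nd (nat_lit 78) (nat_lit 76) (nat_lit 0) (XT.lf (nat_lit 0) (nat_lit 5369111794) (nat_lit 76) (nat_lit 10725449061) (nat_lit 76) (nat_lit 274670986) (nat_lit 12) (nat_lit 4) (nat_lit 13) (nat_lit 5) (nat_lit 13) (nat_lit 4) (nat_lit 276) (nat_lit 260) (nat_lit 244)) (XT.lf (nat_lit 0) (nat_lit 3648546474) (nat_lit 152) (nat_lit 2769505190) (nat_lit 76) (nat_lit 11580114296) (nat_lit 11) (nat_lit 5) (nat_lit 13) (nat_lit 5) (nat_lit 12) (nat_lit 4) (nat_lit 277) (nat_lit 260) (nat_lit 243)))))) (XT.nd (nat_lit 390) (nat_lit 152) (nat_lit 0) (XT.nd (nat_lit 156) (nat_lit 228) (nat_lit 0) (XT.nd (nat_lit 78) (nat_lit 0) (nat_lit 0) (XT.lf (nat_lit 0)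 (nat_lit 7102159367) (nat_lit 76) (nat_lit 1203825438) (nat_lit 152) (nat_lit 11537610711) (nat_lit 10) (nat_lit 5) (nat_lit 11) (nat_lit 5) (nat_lit 12) (nat_lit 4) (nat_lit 278) (nat_lit 260) (nat_lit 242)) (XT.lf (nat_lit 0) (nat_lit 13895465874) (nat_lit 152) (nat_lit 3600096050) (nat_lit 0) (nat_lit 4435434104) (nat_lit 10) (nat_lit 5) (nat_lit 12) (nat_lit 4) (nat_lit 10) (nat_lit 4) (nat_lit 279) (nat_lit 260) (nat_lit 241))) (XT.nd (nat_lit 78) (nat_lit 152) (nat_lit 0) (XT.lf (nat_lit 0) (nat_lit 7318433444) (nat_lit 76) (nat_lit 13263836153) (nat_lit 76) (nat_lit 3710550265) (nat_lit 9) (nat_lit 4) (nat_lit 10) (nat_lit 5) (nat_lit 10) (nat_lit 4) (nat_lit 280) (nat_lit 260) (nat_lit 240)) (XT.nd (nat_lit 78) (nat_lit 76) (nat_lit 0) (XT.lf (nat_lit 0) (nat_lit 1247524443) (nat_lit 152) (nat_lit 6952198871) (nat_lit 76) (nat_lit 18786939610) (nat_lit 8) (nat_lit 5) (nat_lit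 10) (nat_lit 5) (nat_lit 9) (nat_lit 4) (nat_lit 281) (nat_lit 260) (nat_lit 239)) (XT.lf (nat_lit 0) (nat_lit 4645324631) (nat_lit 76) (nat_lit 2029193771) (nat_lit 152) (nat_lit 23367892979) (nat_lit 7) (nat_lit 5) (nat_lit 8) (nat_lit 5) (nat_lit 9) (nat_lit 4) (nat_lit 282) (nat_lit 260) (nat_lit 238))))) (XT.nd (nat_lit 156) (nat_lit 152) (nat_lit 0) (XT.nd (nat_lit 78) (nat_lit 0) (nat_lit 0) (XT.lf (nat_lit 0) (nat_lit 13420592447) (nat_lit 152) (nat_lit 15132020438) (nat_lit 0) (nat_lit 4928239376) (nat_lit 7) (nat_lit 5) (nat_lit 9) (nat_lit 4) (nat_lit 7) (nat_lit 4) (nat_lit 283) (nat_lit 260) (nat_lit 237)) (XT.lf (nat_lit 0) (nat_lit 21200862555) (nat_lit 152) (nat_lit 3568782009) (nat_lit 0) (nat_lit 12662145707) (nat_lit 7) (nat_lit 5) (nat_lit 9) (nat_lit 4) (nat_lit 7) (nat_lit 4) (nat_lit 284) (nat_lit 260) (nat_lit 236))) (XT.nd (nat_lit 78) (nat_lit 76) (nat_lit 0)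 (XT.lf (nat_lit 0) (nat_lit 10541354684) (nat_lit 76) (nat_lit 19978667150) (nat_lit 76) (nat_lit 11399633973) (nat_lit 6) (nat_lit 4) (nat_lit 7) (nat_lit 5) (nat_lit 7) (nat_lit 4) (nat_lit 285) (nat_lit 260) (nat_lit 235)) (XT.nd (nat_lit 78) (nat_lit 76) (nat_lit 0) (XT.lf (nat_lit 0) (nat_lit 27048772153) (nat_lit 76) (nat_lit 14313636308) (nat_lit 76) (nat_lit 5699545454) (nat_lit 6) (nat_lit 4) (nat_lit 7) (nat_lit 5) (nat_lit 7) (nat_lit 4) (nat_lit 286) (nat_lit 260) (nat_lit 234)) (XT.lf (nat_lit 0) (nat_lit 723596255) (nat_lit 152) (nat_lit 7088843841) (nat_lit 76) (nat_lit 45166253672) (nat_lit 5) (nat_lit 5) (nat_lit 7) (nat_lit 5) (nat_lit 6) (nat_lit 4) (nat_lit 287) (nat_lit 260) (nat_lit 233))))))) (XT.nd (nat_lit 780) (nat_lit 152) (nat_lit 0) (XT.nd (nat_lit 390) (nat_lit 76) (nat_lit 0) (XT.nd (nat_lit 156) (nat_lit 0) (nat_lit 0) (XT.nd (nat_lit 78) (nat_lit 0) (nat_lit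 0) (XT.lf (nat_lit 0) (nat_lit 7827934534) (nat_lit 152) (nat_lit 51581287042) (nat_lit 0) (nat_lit 287861116) (nat_lit 4) (nat_lit 5) (nat_lit 6) (nat_lit 4) (nat_lit 4) (nat_lit 4) (nat_lit 288) (nat_lit 260) (nat_lit 232)) (XT.lf (nat_lit 0) (nat_lit 16710289668) (nat_lit 152) (nat_lit 41455945341) (nat_lit 0) (nat_lit 9150171910) (nat_lit 4) (nat_lit 5) (nat_lit 6) (nat_lit 4) (nat_lit 4) (nat_lit 4) (nat_lit 289) (nat_lit 260) (nat_lit 231))) (XT.nd (nat_lit 78) (nat_lit 0) (nat_lit 0) (XT.lf (nat_lit 0) (nat_lit 26883386389) (nat_lit 152) (nat_lit 29895674096) (nat_lit 0) (nat_lit 19305838769) (nat_lit 4) (nat_lit 5) (nat_lit 6) (nat_lit 4) (nat_lit 4) (nat_lit 4) (nat_lit 290) (nat_lit 260) (nat_lit 230)) (XT.nd (nat_lit 78) (nat_lit 0) (nat_lit 0) (XT.lf (nat_lit 0) (nat_lit 38546263545) (nat_lit 152) (nat_lit 16674294089) (nat_lit 0) (nat_lit 30953559524) (nat_lit 4) (nat_lit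 5) (nat_lit 6) (nat_lit 4) (nat_lit 4) (nat_lit 4) (nat_lit 291) (nat_lit 260) (nat_lit 229)) (XT.lf (nat_lit 0) (nat_lit 51927107863) (nat_lit 152) (nat_lit 1533126144) (nat_lit 0) (nat_lit 44321224363) (nat_lit 4) (nat_lit 5) (nat_lit 6) (nat_lit 4) (nat_lit 4) (nat_lit 4) (nat_lit 292) (nat_lit 260) (nat_lit 228))))) (XT.nd (nat_lit 156) (nat_lit 0) (nat_lit 0) (XT.nd (nat_lit 78) (nat_lit 0) (nat_lit 0) (XT.lf (nat_lit 0) (nat_lit 17370513183) (nat_lit 76) (nat_lit 50636481196) (nat_lit 76) (nat_lit 43019137279) (nat_lit 3) (nat_lit 4) (nat_lit 4) (nat_lit 5) (nat_lit 4) (nat_lit 4) (nat_lit 293) (nat_lit 260) (nat_lit 227)) (XT.lf (nat_lit 0) (nat_lit 39229360553) (nat_lit 76) (nat_lit 47323672667) (nat_lit 76) (nat_lit 39696363170) (nat_lit 3) (nat_lit 4) (nat_lit 4) (nat_lit 5) (nat_lit 4) (nat_lit 4) (nat_lit 294) (nat_lit 260) (nat_lit 226))) (XT.nd (nat_lit 78) (nat_lit 0) (nat_lit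 0) (XT.lf (nat_lit 0) (nat_lit 64321260828) (nat_lit 76) (nat_lit 43537133284) (nat_lit 76) (nat_lit 35901158066) (nat_lit 3) (nat_lit 4) (nat_lit 4) (nat_lit 5) (nat_lit 4) (nat_lit 4) (nat_lit 295) (nat_lit 260) (nat_lit 225)) (XT.nd (nat_lit 78) (nat_lit 0) (nat_lit 0) (XT.lf (nat_lit 0) (nat_lit 93137142493) (nat_lit 76) (nat_lit 39202778583) (nat_lit 76) (nat_lit 31559267955) (nat_lit 3) (nat_lit 4) (nat_lit 4) (nat_lit 5) (nat_lit 4) (nat_lit 4) (nat_lit 296) (nat_lit 260) (nat_lit 224)) (XT.lf (nat_lit 0) (nat_lit 126240794536) (nat_lit 76) (nat_lit 34235805971) (nat_lit 76) (nat_lit 26585742812) (nat_lit 3) (nat_lit 4) (nat_lit 4) (nat_lit 5) (nat_lit 4) (nat_lit 4) (nat_lit 297) (nat_lit 260) (nat_lit 223)))))) (XT.nd (nat_lit 390) (nat_lit 0) (nat_lit 0) (XT.nd (nat_lit 156) (nat_lit 152) (nat_lit 0) (XT.nd (nat_lit 78) (nat_lit 0) (nat_lit 0) (XT.lf (nat_lit 0) (nat_lit 164279897107)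 (nat_lit 76) (nat_lit 28539035549) (nat_lit 76) (nat_lit 20883274537) (nat_lit 3) (nat_lit 4) (nat_lit 4) (nat_lit 5) (nat_lit 4) (nat_lit 4) (nat_lit 298) (nat_lit 260) (nat_lit 222)) (XT.lf (nat_lit 0) (nat_lit 207998693516) (nat_lit 76) (nat_lit 22001008765) (nat_lit 76) (nat_lit 14340293099) (nat_lit 3) (nat_lit 4) (nat_lit 4) (nat_lit 5) (nat_lit 4) (nat_lit 4) (nat_lit 299) (nat_lit 260) (nat_lit 221))) (XT.nd (nat_lit 78) (nat_lit 152) (nat_lit 0) (XT.lf (nat_lit 0) (nat_lit 258252551519) (nat_lit 76) (nat_lit 14493807704) (nat_lit 76) (nat_lit 6828783643) (nat_lit 3) (nat_lit 4) (nat_lit 4) (nat_lit 5) (nat_lit 4) (nat_lit 4) (nat_lit 300) (nat_lit 260) (nat_lit 220)) (XT.nd (nat_lit 78) (nat_lit 76) (nat_lit 0) (XT.lf (nat_lit 0) (nat_lit 1638128331) (nat_lit 152) (nat_lit 4146794579) (nat_lit 76) (nat_lit 314300941007) (nat_lit 2) (nat_lit 5) (nat_lit 4) (nat_lit 5) (nat_lit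 3) (nat_lit 4) (nat_lit 301) (nat_lit 260) (nat_lit 219)) (XT.lf (nat_lit 0) (nat_lit 11584079730) (nat_lit 152) (nat_lit 349991369062) (nat_lit 0) (nat_lit 4912750811) (nat_lit 1) (nat_lit 5) (nat_lit 3) (nat_lit 4) (nat_lit 1) (nat_lit 4) (nat_lit 302) (nat_lit 260) (nat_lit 218))))) (XT.nd (nat_lit 156) (nat_lit 0) (nat_lit 0) (XT.nd (nat_lit 78) (nat_lit 0) (nat_lit 0) (XT.lf (nat_lit 0) (nat_lit 23515664977) (nat_lit 152) (nat_lit 379419290694) (nat_lit 0) (nat_lit 16841872719) (nat_lit 1) (nat_lit 5) (nat_lit 3) (nat_lit 4) (nat_lit 1) (nat_lit 4) (nat_lit 303) (nat_lit 260) (nat_lit 217)) (XT.lf (nat_lit 0) (nat_lit 37229320401) (nat_lit 152) (nat_lit 413277198535) (nat_lit 0) (nat_lit 30553386108) (nat_lit 1) (nat_lit 5) (nat_lit 3) (nat_lit 4) (nat_lit 1) (nat_lit 4) (nat_lit 304) (nat_lit 260) (nat_lit 216))) (XT.nd (nat_lit 78) (nat_lit 0) (nat_lit 0) (XT.lf (nat_lit 0) (nat_lit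 52993356650) (nat_lit 152) (nat_lit 452227529911) (nat_lit 0) (nat_lit 46315559720) (nat_lit 1) (nat_lit 5) (nat_lit 3) (nat_lit 4) (nat_lit 1) (nat_lit 4) (nat_lit 305) (nat_lit 260) (nat_lit 215)) (XT.nd (nat_lit 78) (nat_lit 0) (nat_lit 0) (XT.lf (nat_lit 0) (nat_lit 71116200522) (nat_lit 152) (nat_lit 497032356525) (nat_lit 0) (nat_lit 64436783906) (nat_lit 1) (nat_lit 5) (nat_lit 3) (nat_lit 4) (nat_lit 1) (nat_lit 4) (nat_lit 306) (nat_lit 260) (nat_lit 214)) (XT.lf (nat_lit 0) (nat_lit 91952429396) (nat_lit 152) (nat_lit 548568294548) (nat_lit 0) (nat_lit 85271604358) (nat_lit 1) (nat_lit 5) (nat_lit 3) (nat_lit 4) (nat_lit 1) (nat_lit 4) (nat_lit 307) (nat_lit 260) (nat_lit 213))))))))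
noncomputable def xc49 : XT := (XT.nd (nat_lit 1482) (nat_lit 0) (nat_lit 0) (XT.nd (nat_lit 702) (nat_lit 0) (nat_lit 0) (XT.nd (nat_lit 312) (nat_lit 0) (nat_lit 0) (XT.nd (nat_lit 156) (nat_lit 0) (nat_lit 0) (XT.nd (nat_lit 78) (nat_lit 0) (nat_lit 0) (XT.lf (nat_lit 0) (nat_lit 115909708620) (nat_lit 152) (nat_lit 607843655811) (nat_lit 0) (nat_lit 109227658867) (nat_lit 1) (nat_lit 5) (nat_lit 3) (nat_lit 4) (nat_lit 1) (nat_lit 4) (nat_lit 308) (nat_lit 260) (nat_lit 212)) (XT.lf (nat_lit 0) (nat_lit 143456767569) (nat_lit 152) (nat_lit 676018175644) (nat_lit 0) (nat_lit 136773652847) (nat_lit 1) (nat_lit 5) (nat_lit 3) (nat_lit 4) (nat_lit 1) (nat_lit 4) (nat_lit 309) (nat_lit 260) (nat_lit 211))) (XT.nd (nat_lit 78) (nat_lit 0) (nat_lit 0) (XT.lf (nat_lit 0) (nat_lit 175132570442) (nat_lit 152) (nat_lit 754425703347) (nat_lit 0) (nat_lit 168448529660) (nat_lit 1) (nat_lit 5)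 (nat_lit 3) (nat_lit 4) (nat_lit 1) (nat_lit 4) (nat_lit 310) (nat_lit 260) (nat_lit 210)) (XT.lf (nat_lit 0) (nat_lit 211556861207) (nat_lit 152) (nat_lit 844600299246) (nat_lit 0) (nat_lit 204872015155) (nat_lit 1) (nat_lit 5) (nat_lit 3) (nat_lit 4) (nat_lit 1) (nat_lit 4) (nat_lit 311) (nat_lit 260) (nat_lit 209)))) (XT.nd (nat_lit 156) (nat_lit 0) (nat_lit 0) (XT.nd (nat_lit 78) (nat_lit 0) (nat_lit 0) (XT.lf (nat_lit 0) (nat_lit 253442289031) (nat_lit 152) (nat_lit 948306248912) (nat_lit 0) (nat_lit 246756742744) (nat_lit 1) (nat_lit 5) (nat_lit 3) (nat_lit 4) (nat_lit 1) (nat_lit 4) (nat_lit 312) (nat_lit 260) (nat_lit 208)) (XT.lf (nat_lit 0) (nat_lit 301608351415) (nat_lit 152) (nat_lit 1067572581795) (nat_lit 0) (nat_lit 294922196228) (nat_lit 1) (nat_lit 5) (nat_lit 3) (nat_lit 4) (nat_lit 1) (nat_lit 4) (nat_lit 313) (nat_lit 260) (nat_lit 207))) (XT.nd (nat_lit 78) (nat_lit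 0) (nat_lit 0) (XT.lf (nat_lit 0) (nat_lit 356997427840) (nat_lit 152) (nat_lit 1204732769626) (nat_lit 0) (nat_lit 350310743176) (nat_lit 1) (nat_lit 5) (nat_lit 3) (nat_lit 4) (nat_lit 1) (nat_lit 4) (nat_lit 314) (nat_lit 260) (nat_lit 206)) (XT.nd (nat_lit 78) (nat_lit 0) (nat_lit 0) (XT.lf (nat_lit 0) (nat_lit 420693217629) (nat_lit 152) (nat_lit 1362470381296) (nat_lit 0) (nat_lit 414006072548) (nat_lit 1) (nat_lit 5) (nat_lit 3) (nat_lit 4) (nat_lit 1) (nat_lit 4) (nat_lit 315) (nat_lit 260) (nat_lit 205)) (XT.lf (nat_lit 0) (nat_lit 493941942754) (nat_lit 152) (nat_lit 1543871587470) (nat_lit 0) (nat_lit 487254397313) (nat_lit 1) (nat_lit 5) (nat_lit 3) (nat_lit 4) (nat_lit 1) (nat_lit 4) (nat_lit 316) (nat_lit 260) (nat_lit 204)))))) (XT.nd (nat_lit 390) (nat_lit 0) (nat_lit 0) (XT.nd (nat_lit 156) (nat_lit 0) (nat_lit 0) (XT.nd (nat_lit 78) (nat_lit 0) (nat_lit 0) (XT.lf (nat_lit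 0) (nat_lit 578176730447) (nat_lit 152) (nat_lit 1752485542180) (nat_lit 0) (nat_lit 571488836865) (nat_lit 1) (nat_lit 5) (nat_lit 3) (nat_lit 4) (nat_lit 1) (nat_lit 4) (nat_lit 317) (nat_lit 260) (nat_lit 203)) (XT.lf (nat_lit 0) (nat_lit 675045652641) (nat_lit 152) (nat_lit 1992393822801) (nat_lit 0) (nat_lit 668357456329) (nat_lit 1) (nat_lit 5) (nat_lit 3) (nat_lit 4) (nat_lit 1) (nat_lit 4) (nat_lit 318) (nat_lit 260) (nat_lit 202))) (XT.nd (nat_lit 78) (nat_lit 0) (nat_lit 0) (XT.lf (nat_lit 0) (nat_lit 786443970857) (nat_lit 152) (nat_lit 2268290286999) (nat_lit 0) (nat_lit 779755511301) (nat_lit 1) (nat_lit 5) (nat_lit 3) (nat_lit 4) (nat_lit 1) (nat_lit 4) (nat_lit 319) (nat_lit 260) (nat_lit 201)) (XT.nd (nat_lit 78) (nat_lit 0) (nat_lit 0) (XT.lf (nat_lit 0) (nat_lit 914551217409) (nat_lit 152) (nat_lit 2585572909072) (nat_lit 0) (nat_lit 907862528944) (nat_lit 1) (nat_lit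 5) (nat_lit 3) (nat_lit 4) (nat_lit 1) (nat_lit 4) (nat_lit 320) (nat_lit 260) (nat_lit 200)) (XT.lf (nat_lit 0) (nat_lit 1061873838423) (nat_lit 152) (nat_lit 2950449392496) (nat_lit 0) (nat_lit 1055184950908) (nat_lit 1) (nat_lit 5) (nat_lit 3) (nat_lit 4) (nat_lit 1) (nat_lit 4) (nat_lit 321) (nat_lit 260) (nat_lit 199))))) (XT.nd (nat_lit 156) (nat_lit 0) (nat_lit 0) (XT.nd (nat_lit 78) (nat_lit 0) (nat_lit 0) (XT.lf (nat_lit 0) (nat_lit 1231294233007) (nat_lit 152) (nat_lit 3370058624989) (nat_lit 0) (nat_lit 1224605172405) (nat_lit 1) (nat_lit 5) (nat_lit 3) (nat_lit 4) (nat_lit 1) (nat_lit 4) (nat_lit 322) (nat_lit 260) (nat_lit 198)) (XT.lf (nat_lit 0) (nat_lit 1426127148012) (nat_lit 152) (nat_lit 3852610352406) (nat_lit 0) (nat_lit 1419437936899) (nat_lit 1) (nat_lit 5) (nat_lit 3) (nat_lit 4) (nat_lit 1) (nat_lit 4) (nat_lit 323) (nat_lit 260) (nat_lit 197))) (XT.nd (nat_lit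 78) (nat_lit 0) (nat_lit 0) (XT.lf (nat_lit 0) (nat_lit 1650184531774) (nat_lit 152) (nat_lit 4407545804195) (nat_lit 0) (nat_lit 1643495189782) (nat_lit 1) (nat_lit 5) (nat_lit 3) (nat_lit 4) (nat_lit 1) (nat_lit 4) (nat_lit 324) (nat_lit 260) (nat_lit 196)) (XT.nd (nat_lit 78) (nat_lit 0) (nat_lit 0) (XT.lf (nat_lit 0) (nat_lit 1907850115716) (nat_lit 152) (nat_lit 5045722413109) (nat_lit 0) (nat_lit 1901160659916) (nat_lit 1) (nat_lit 5) (nat_lit 3) (nat_lit 4) (nat_lit 1) (nat_lit 4) (nat_lit 325) (nat_lit 260) (nat_lit 195)) (XT.lf (nat_lit 0) (nat_lit 2204165183000) (nat_lit 152) (nat_lit 5779626243236) (nat_lit 0) (nat_lit 2197475628237) (nat_lit 1) (nat_lit 5) (nat_lit 3) (nat_lit 4) (nat_lit 1) (nat_lit 4) (nat_lit 326) (nat_lit 260) (nat_lit 194))))))) (XT.nd (nat_lit 780) (nat_lit 0) (nat_lit 0) (XT.nd (nat_lit 390) (nat_lit 0) (nat_lit 0) (XT.nd (nat_lit 156) (nat_lit 0) (nat_lit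 0) (XT.nd (nat_lit 78) (nat_lit 0) (nat_lit 0) (XT.lf (nat_lit 0) (nat_lit 2544927202335) (nat_lit 152) (nat_lit 6623616282555) (nat_lit 0) (nat_lit 2538237561517) (nat_lit 1) (nat_lit 5) (nat_lit 3) (nat_lit 4) (nat_lit 1) (nat_lit 4) (nat_lit 327) (nat_lit 260) (nat_lit 193)) (XT.lf (nat_lit 0) (nat_lit 2936803256708) (nat_lit 152) (nat_lit 7594205379663) (nat_lit 0) (nat_lit 2930113541060) (nat_lit 1) (nat_lit 5) (nat_lit 3) (nat_lit 4) (nat_lit 1) (nat_lit 4) (nat_lit 328) (nat_lit 260) (nat_lit 192))) (XT.nd (nat_lit 78) (nat_lit 0) (nat_lit 0) (XT.lf (nat_lit 0) (nat_lit 3387460486313) (nat_lit 152) (nat_lit 8710383321242) (nat_lit 0) (nat_lit 3380770705595) (nat_lit 1) (nat_lit 5) (nat_lit 3) (nat_lit 4) (nat_lit 1) (nat_lit 4) (nat_lit 329) (nat_lit 260) (nat_lit 191)) (XT.nd (nat_lit 78) (nat_lit 0) (nat_lit 0) (XT.lf (nat_lit 0) (nat_lit 3905716097817) (nat_lit 152) (nat_lit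 9993988371366) (nat_lit 0) (nat_lit 3899026260516) (nat_lit 1) (nat_lit 5) (nat_lit 3) (nat_lit 4) (nat_lit 1) (nat_lit 4) (nat_lit 330) (nat_lit 260) (nat_lit 190)) (XT.lf (nat_lit 0) (nat_lit 4501709874921) (nat_lit 152) (nat_lit 11470134541886) (nat_lit 0) (nat_lit 4495019988418) (nat_lit 1) (nat_lit 5) (nat_lit 3) (nat_lit 4) (nat_lit 1) (nat_lit 4) (nat_lit 331) (nat_lit 260) (nat_lit 189))))) (XT.nd (nat_lit 156) (nat_lit 0) (nat_lit 0) (XT.nd (nat_lit 78) (nat_lit 0) (nat_lit 0) (XT.lf (nat_lit 0) (nat_lit 5187102565441) (nat_lit 152) (nat_lit 13167702953529) (nat_lit 0) (nat_lit 5180412636153) (nat_lit 1) (nat_lit 5) (nat_lit 3) (nat_lit 4) (nat_lit 1) (nat_lit 4) (nat_lit 332) (nat_lit 260) (nat_lit 188)) (XT.lf (nat_lit 0) (nat_lit 5975304026363) (nat_lit 152) (nat_lit 15119906901306) (nat_lit 0) (nat_lit 5968614059872) (nat_lit 1) (nat_lit 5) (nat_lit 3) (nat_lit 4) (nat_lit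 1) (nat_lit 4) (nat_lit 333) (nat_lit 260) (nat_lit 187))) (XT.nd (nat_lit 78) (nat_lit 0) (nat_lit 0) (XT.lf (nat_lit 0) (nat_lit 6881735590619) (nat_lit 152) (nat_lit 17364941679846) (nat_lit 0) (nat_lit 6875045591777) (nat_lit 1) (nat_lit 5) (nat_lit 3) (nat_lit 4) (nat_lit 1) (nat_lit 4) (nat_lit 334) (nat_lit 260) (nat_lit 186)) (XT.nd (nat_lit 78) (nat_lit 0) (nat_lit 0) (XT.lf (nat_lit 0) (nat_lit 7924131788815) (nat_lit 152) (nat_lit 19946731882644) (nat_lit 0) (nat_lit 7917441761841) (nat_lit 1) (nat_lit 5) (nat_lit 3) (nat_lit 4) (nat_lit 1) (nat_lit 4) (nat_lit 335) (nat_lit 260) (nat_lit 185)) (XT.lf (nat_lit 0) (nat_lit 9122887329175) (nat_lit 152) (nat_lit 22915790796276) (nat_lit 0) (nat_lit 9116197277738) (nat_lit 1) (nat_lit 5) (nat_lit 3) (nat_lit 4) (nat_lit 1) (nat_lit 4) (nat_lit 336) (nat_lit 260) (nat_lit 184)))))) (XT.nd (nat_lit 1638) (nat_lit 0) (nat_lit 0) (XT.nd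 (nat_lit 156) (nat_lit 0) (nat_lit 0) (XT.nd (nat_lit 78) (nat_lit 0) (nat_lit 0) (XT.lf (nat_lit 0) (nat_lit 10501456124445) (nat_lit 152) (nat_lit 26330208703834) (nat_lit 0) (nat_lit 10494766051737) (nat_lit 1) (nat_lit 5) (nat_lit 3) (nat_lit 4) (nat_lit 1) (nat_lit 4) (nat_lit 337) (nat_lit 260) (nat_lit 183)) (XT.lf (nat_lit 0) (nat_lit 12086810172795) (nat_lit 152) (nat_lit 30256789433944) (nat_lit 0) (nat_lit 12080120081590) (nat_lit 1) (nat_lit 5) (nat_lit 3) (nat_lit 4) (nat_lit 1) (nat_lit 4) (nat_lit 338) (nat_lit 260) (nat_lit 182))) (XT.nd (nat_lit 78) (nat_lit 0) (nat_lit 0) (XT.lf (nat_lit 0) (nat_lit 13909967270822) (nat_lit 152) (nat_lit 34772357392197) (nat_lit 0) (nat_lit 13903277163533) (nat_lit 1) (nat_lit 5) (nat_lit 3) (nat_lit 4) (nat_lit 1) (nat_lit 4) (nat_lit 339) (nat_lit 260) (nat_lit 181)) (XT.nd (nat_lit 1326) (nat_lit 0) (nat_lit 0) (XT.lf (nat_lit 0)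 (nat_lit 16006597883488) (nat_lit 152) (nat_lit 39965260647339) (nat_lit 0) (nat_lit 15999907762212) (nat_lit 1) (nat_lit 5) (nat_lit 3) (nat_lit 4) (nat_lit 1) (nat_lit 4) (nat_lit 340) (nat_lit 260) (nat_lit 180)) (XT.lf (nat_lit 0) (nat_lit 172910785003410) (nat_lit 152) (nat_lit 428583246430801) (nat_lit 0) (nat_lit 172904094797555) (nat_lit 1) (nat_lit 5) (nat_lit 3) (nat_lit 4) (nat_lit 1) (nat_lit 4) (nat_lit 357) (nat_lit 260) (nat_lit 163))))) (XT.nd (nat_lit 156) (nat_lit 0) (nat_lit 0) (XT.nd (nat_lit 78) (nat_lit 0) (nat_lit 0) (XT.lf (nat_lit 0) (nat_lit 198857537969164) (nat_lit 152) (nat_lit 492847783673849) (nat_lit 0) (nat_lit 198850847762180) (nat_lit 1) (nat_lit 5) (nat_lit 3) (nat_lit 4) (nat_lit 1) (nat_lit 4) (nat_lit 358) (nat_lit 260) (nat_lit 162)) (XT.lf (nat_lit 0) (nat_lit 228696303876263) (nat_lit 152) (nat_lit 566752001510600) (nat_lit 0) (nat_lit 228689613668297)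 (nat_lit 1) (nat_lit 5) (nat_lit 3) (nat_lit 4) (nat_lit 1) (nat_lit 4) (nat_lit 359) (nat_lit 260) (nat_lit 161))) (XT.nd (nat_lit 32916) (nat_lit 0) (nat_lit 2204) (XT.lf (nat_lit 0) (nat_lit 263010884666370) (nat_lit 152) (nat_lit 651741852029167) (nat_lit 0) (nat_lit 263004194457548) (nat_lit 1) (nat_lit 5) (nat_lit 3) (nat_lit 4) (nat_lit 1) (nat_lit 4) (nat_lit 360) (nat_lit 260) (nat_lit 160)) (XT.nd (nat_lit 78) (nat_lit 228) (nat_lit 0) (XT.lf (nat_lit 0) (nat_lit 1404476586) (nat_lit 0) (nat_lit 1404476586) (nat_lit 76) (nat_lit 454236841) (nat_lit 33) (nat_lit 5) (nat_lit 33) (nat_lit 3) (nat_lit 34) (nat_lit 0) (nat_lit 261) (nat_lit 261) (nat_lit 258)) (XT.lf (nat_lit 0) (nat_lit 1445848943) (nat_lit 228) (nat_lit 576133774) (nat_lit 228) (nat_lit 4635981138) (nat_lit 30) (nat_lit 3) (nat_lit 33) (nat_lit 3) (nat_lit 33) (nat_lit 5) (nat_lit 262) (nat_lit 261) (nat_lit 257))))))))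
noncomputable def xc50 : XT := (XT.nd (nat_lit 1482) (nat_lit 456) (nat_lit 0) (XT.nd (nat_lit 702) (nat_lit 608) (nat_lit 0) (XT.nd (nat_lit 312) (nat_lit 608) (nat_lit 0) (XT.nd (nat_lit 156) (nat_lit 380) (nat_lit 0) (XT.nd (nat_lit 78) (nat_lit 0) (nat_lit 76) (XT.lf (nat_lit 76) (nat_lit 3021787144) (nat_lit 0) (nat_lit 747801030) (nat_lit 228) (nat_lit 3079243692) (nat_lit 31) (nat_lit 5) (nat_lit 30) (nat_lit 3) (nat_lit 33) (nat_lit 5) (nat_lit 263) (nat_lit 261) (nat_lit 256)) (XT.lf (nat_lit 0) (nat_lit 6137911314) (nat_lit 152) (nat_lit 163857709) (nat_lit 76) (nat_lit 814268474) (nat_lit 31) (nat_lit 5) (nat_lit 33) (nat_lit 5) (nat_lit 32) (nat_lit 4) (nat_lit 264) (nat_lit 261) (nat_lit 255))) (XT.nd (nat_lit 78) (nat_lit 228) (nat_lit 0) (XT.lf (nat_lit 0) (nat_lit 1192005820) (nat_lit 228) (nat_lit 3370343875) (nat_lit 76) (nat_lit 2871355475) (nat_lit 28) (nat_lit 5)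 (nat_lit 31) (nat_lit 5) (nat_lit 29) (nat_lit 5) (nat_lit 265) (nat_lit 261) (nat_lit 254)) (XT.lf (nat_lit 0) (nat_lit 904833604) (nat_lit 228) (nat_lit 2427794049) (nat_lit 304) (nat_lit 4499029929) (nat_lit 25) (nat_lit 5) (nat_lit 28) (nat_lit 5) (nat_lit 29) (nat_lit 5) (nat_lit 266) (nat_lit 261) (nat_lit 253)))) (XT.nd (nat_lit 156) (nat_lit 304) (nat_lit 0) (XT.nd (nat_lit 78) (nat_lit 304) (nat_lit 0) (XT.lf (nat_lit 0) (nat_lit 5707632233) (nat_lit 304) (nat_lit 2376532021) (nat_lit 76) (nat_lit 219352080) (nat_lit 25) (nat_lit 5) (nat_lit 29) (nat_lit 5) (nat_lit 26) (nat_lit 4) (nat_lit 267) (nat_lit 261) (nat_lit 252)) (XT.lf (nat_lit 0) (nat_lit 2718144218) (nat_lit 304) (nat_lit 5712041848) (nat_lit 380) (nat_lit 418322523) (nat_lit 21) (nat_lit 5) (nat_lit 25) (nat_lit 5) (nat_lit 26) (nat_lit 4) (nat_lit 268) (nat_lit 261) (nat_lit 251))) (XT.nd (nat_lit 78) (nat_lit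 228) (nat_lit 0) (XT.lf (nat_lit 0) (nat_lit 1802756512) (nat_lit 380) (nat_lit 980337303) (nat_lit 76) (nat_lit 6694606375) (nat_lit 20) (nat_lit 5) (nat_lit 25) (nat_lit 5) (nat_lit 21) (nat_lit 5) (nat_lit 269) (nat_lit 261) (nat_lit 250)) (XT.nd (nat_lit 78) (nat_lit 76) (nat_lit 0) (XT.lf (nat_lit 0) (nat_lit 4362726450) (nat_lit 228) (nat_lit 5090022741) (nat_lit 76) (nat_lit 738939772) (nat_lit 18) (nat_lit 5) (nat_lit 21) (nat_lit 5) (nat_lit 19) (nat_lit 4) (nat_lit 270) (nat_lit 261) (nat_lit 249)) (XT.lf (nat_lit 0) (nat_lit 890802486) (nat_lit 76) (nat_lit 6455496001) (nat_lit 152) (nat_lit 3661136615) (nat_lit 17) (nat_lit 5) (nat_lit 18) (nat_lit 5) (nat_lit 19) (nat_lit 4) (nat_lit 271) (nat_lit 261) (nat_lit 248)))))) (XT.nd (nat_lit 390) (nat_lit 304) (nat_lit 0) (XT.nd (nat_lit 156) (nat_lit 76) (nat_lit 0) (XT.nd (nat_lit 78) (nat_lit 228) (nat_lit 0) (XT.lf (nat_lit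 0) (nat_lit 8097781098) (nat_lit 76) (nat_lit 2776072519) (nat_lit 152) (nat_lit 1057744228) (nat_lit 17) (nat_lit 5) (nat_lit 18) (nat_lit 5) (nat_lit 19) (nat_lit 4) (nat_lit 272) (nat_lit 261) (nat_lit 247)) (XT.lf (nat_lit 0) (nat_lit 1816827221) (nat_lit 228) (nat_lit 9666917671) (nat_lit 76) (nat_lit 1491052779) (nat_lit 14) (nat_lit 5) (nat_lit 17) (nat_lit 5) (nat_lit 15) (nat_lit 4) (nat_lit 273) (nat_lit 261) (nat_lit 246))) (XT.nd (nat_lit 78) (nat_lit 76) (nat_lit 0) (XT.lf (nat_lit 0) (nat_lit 5209723549) (nat_lit 228) (nat_lit 2620248373) (nat_lit 76) (nat_lit 6307978508) (nat_lit 14) (nat_lit 5) (nat_lit 17) (nat_lit 5) (nat_lit 15) (nat_lit 4) (nat_lit 274) (nat_lit 261) (nat_lit 245)) (XT.nd (nat_lit 78) (nat_lit 0) (nat_lit 0) (XT.lf (nat_lit 0) (nat_lit 5794576557) (nat_lit 76) (nat_lit 3429345769) (nat_lit 152) (nat_lit 6235096902) (nat_lit 13) (nat_lit 5) (nat_lit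 14) (nat_lit 5) (nat_lit 15) (nat_lit 4) (nat_lit 275) (nat_lit 261) (nat_lit 244)) (XT.lf (nat_lit 0) (nat_lit 13929104666) (nat_lit 152) (nat_lit 1476034527) (nat_lit 0) (nat_lit 1560040505) (nat_lit 13) (nat_lit 5) (nat_lit 15) (nat_lit 4) (nat_lit 13) (nat_lit 4) (nat_lit 276) (nat_lit 261) (nat_lit 243))))) (XT.nd (nat_lit 156) (nat_lit 152) (nat_lit 0) (XT.nd (nat_lit 78) (nat_lit 0) (nat_lit 0) (XT.lf (nat_lit 0) (nat_lit 1006775308) (nat_lit 152) (nat_lit 10346325102) (nat_lit 76) (nat_lit 7277187179) (nat_lit 11) (nat_lit 5) (nat_lit 13) (nat_lit 5) (nat_lit 12) (nat_lit 4) (nat_lit 277) (nat_lit 261) (nat_lit 242)) (XT.lf (nat_lit 0) (nat_lit 5321503111) (nat_lit 152) (nat_lit 1192988897) (nat_lit 76) (nat_lit 14012711053) (nat_lit 11) (nat_lit 5) (nat_lit 13) (nat_lit 5) (nat_lit 12) (nat_lit 4) (nat_lit 278) (nat_lit 261) (nat_lit 241))) (XT.nd (nat_lit 78) (nat_lit 76) (nat_lit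 0) (XT.lf (nat_lit 0) (nat_lit 10068882522) (nat_lit 76) (nat_lit 540580428) (nat_lit 152) (nat_lit 12050437793) (nat_lit 10) (nat_lit 5) (nat_lit 11) (nat_lit 5) (nat_lit 12) (nat_lit 4) (nat_lit 279) (nat_lit 261) (nat_lit 240)) (XT.nd (nat_lit 78) (nat_lit 76) (nat_lit 0) (XT.lf (nat_lit 0) (nat_lit 16929804157) (nat_lit 152) (nat_lit 2377769055) (nat_lit 0) (nat_lit 5769180731) (nat_lit 10) (nat_lit 5) (nat_lit 12) (nat_lit 4) (nat_lit 10) (nat_lit 4) (nat_lit 280) (nat_lit 261) (nat_lit 239)) (XT.lf (nat_lit 0) (nat_lit 10098433436) (nat_lit 76) (nat_lit 14466937322) (nat_lit 76) (nat_lit 3235800386) (nat_lit 9) (nat_lit 4) (nat_lit 10) (nat_lit 5) (nat_lit 10) (nat_lit 4) (nat_lit 281) (nat_lit 261) (nat_lit 238))))))) (XT.nd (nat_lit 780) (nat_lit 76) (nat_lit 0) (XT.nd (nat_lit 390) (nat_lit 152) (nat_lit 0) (XT.nd (nat_lit 156) (nat_lit 76) (nat_lit 0) (XT.nd (nat_lit 78) (nat_lit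 76) (nat_lit 0) (XT.lf (nat_lit 0) (nat_lit 2251623610) (nat_lit 152) (nat_lit 6451462269) (nat_lit 76) (nat_lit 22208117797) (nat_lit 8) (nat_lit 5) (nat_lit 10) (nat_lit 5) (nat_lit 9) (nat_lit 4) (nat_lit 282) (nat_lit 261) (nat_lit 237)) (XT.lf (nat_lit 0) (nat_lit 6815527647) (nat_lit 76) (nat_lit 1631588177) (nat_lit 152) (nat_lit 25985150305) (nat_lit 7) (nat_lit 5) (nat_lit 8) (nat_lit 5) (nat_lit 9) (nat_lit 4) (nat_lit 283) (nat_lit 261) (nat_lit 236))) (XT.nd (nat_lit 78) (nat_lit 76) (nat_lit 0) (XT.lf (nat_lit 0) (nat_lit 16129757270) (nat_lit 152) (nat_lit 16044568205) (nat_lit 0) (nat_lit 6223552788) (nat_lit 7) (nat_lit 5) (nat_lit 9) (nat_lit 4) (nat_lit 7) (nat_lit 4) (nat_lit 284) (nat_lit 261) (nat_lit 235)) (XT.nd (nat_lit 78) (nat_lit 76) (nat_lit 0) (XT.lf (nat_lit 0) (nat_lit 24986275379) (nat_lit 152) (nat_lit 2923877312) (nat_lit 0) (nat_lit 15045013220) (nat_lit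 7) (nat_lit 5) (nat_lit 9) (nat_lit 4) (nat_lit 7) (nat_lit 4) (nat_lit 285) (nat_lit 261) (nat_lit 234)) (XT.lf (nat_lit 0) (nat_lit 13249133431) (nat_lit 76) (nat_lit 22421874195) (nat_lit 76) (nat_lit 12450127100) (nat_lit 6) (nat_lit 4) (nat_lit 7) (nat_lit 5) (nat_lit 7) (nat_lit 4) (nat_lit 286) (nat_lit 261) (nat_lit 233))))) (XT.nd (nat_lit 156) (nat_lit 76) (nat_lit 0) (XT.nd (nat_lit 78) (nat_lit 76) (nat_lit 0) (XT.lf (nat_lit 0) (nat_lit 32085718885) (nat_lit 76) (nat_lit 15979296513) (nat_lit 76) (nat_lit 5981040777) (nat_lit 6) (nat_lit 4) (nat_lit 7) (nat_lit 5) (nat_lit 7) (nat_lit 4) (nat_lit 287) (nat_lit 261) (nat_lit 232)) (XT.lf (nat_lit 0) (nat_lit 1286383704) (nat_lit 152) (nat_lit 7255581763) (nat_lit 76) (nat_lit 52315051893) (nat_lit 5) (nat_lit 5) (nat_lit 7) (nat_lit 5) (nat_lit 6) (nat_lit 4) (nat_lit 288) (nat_lit 261) (nat_lit 231))) (XT.nd (nat_lit 78)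 (nat_lit 0) (nat_lit 0) (XT.lf (nat_lit 0) (nat_lit 9450176099) (nat_lit 152) (nat_lit 58415396318) (nat_lit 0) (nat_lit 718566475) (nat_lit 4) (nat_lit 5) (nat_lit 6) (nat_lit 4) (nat_lit 4) (nat_lit 4) (nat_lit 289) (nat_lit 261) (nat_lit 230)) (XT.nd (nat_lit 78) (nat_lit 0) (nat_lit 0) (XT.lf (nat_lit 0) (nat_lit 19606443018) (nat_lit 152) (nat_lit 46889046898) (nat_lit 0) (nat_lit 10859676993) (nat_lit 4) (nat_lit 5) (nat_lit 6) (nat_lit 4) (nat_lit 4) (nat_lit 4) (nat_lit 290) (nat_lit 261) (nat_lit 229)) (XT.lf (nat_lit 0) (nat_lit 31254685564) (nat_lit 152) (nat_lit 33697164130) (nat_lit 0) (nat_lit 22494740059) (nat_lit 4) (nat_lit 5) (nat_lit 6) (nat_lit 4) (nat_lit 4) (nat_lit 4) (nat_lit 291) (nat_lit 261) (nat_lit 228)))))) (XT.nd (nat_lit 390) (nat_lit 0) (nat_lit 0) (XT.nd (nat_lit 156) (nat_lit 76) (nat_lit 0) (XT.nd (nat_lit 78) (nat_lit 0) (nat_lit 0) (XT.lf (nat_lit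 0) (nat_lit 44622804135) (nat_lit 152) (nat_lit 18581645958) (nat_lit 0) (nat_lit 35851398213) (nat_lit 4) (nat_lit 5) (nat_lit 6) (nat_lit 4) (nat_lit 4) (nat_lit 4) (nat_lit 292) (nat_lit 261) (nat_lit 227)) (XT.lf (nat_lit 0) (nat_lit 59972348876) (nat_lit 152) (nat_lit 1246753983) (nat_lit 0) (nat_lit 51190977374) (nat_lit 4) (nat_lit 5) (nat_lit 6) (nat_lit 4) (nat_lit 4) (nat_lit 4) (nat_lit 293) (nat_lit 261) (nat_lit 226))) (XT.nd (nat_lit 78) (nat_lit 0) (nat_lit 0) (XT.lf (nat_lit 0) (nat_lit 20468961194) (nat_lit 76) (nat_lit 57982251805) (nat_lit 76) (nat_lit 49192214583) (nat_lit 3) (nat_lit 4) (nat_lit 4) (nat_lit 5) (nat_lit 4) (nat_lit 4) (nat_lit 294) (nat_lit 261) (nat_lit 225)) (XT.nd (nat_lit 78) (nat_lit 0) (nat_lit 0) (XT.lf (nat_lit 0) (nat_lit 45542348143) (nat_lit 76) (nat_lit 54205091767) (nat_lit 76) (nat_lit 45407519134) (nat_lit 3) (nat_lit 4) (nat_lit 4)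 (nat_lit 5) (nat_lit 4) (nat_lit 4) (nat_lit 295) (nat_lit 261) (nat_lit 224)) (XT.lf (nat_lit 0) (nat_lit 74342131263) (nat_lit 76) (nat_lit 49878893016) (nat_lit 76) (nat_lit 41074767853) (nat_lit 3) (nat_lit 4) (nat_lit 4) (nat_lit 5) (nat_lit 4) (nat_lit 4) (nat_lit 296) (nat_lit 261) (nat_lit 223))))) (XT.nd (nat_lit 156) (nat_lit 0) (nat_lit 0) (XT.nd (nat_lit 78) (nat_lit 0) (nat_lit 0) (XT.lf (nat_lit 0) (nat_lit 107431784572) (nat_lit 76) (nat_lit 44919012535) (nat_lit 76) (nat_lit 36109189519) (nat_lit 3) (nat_lit 4) (nat_lit 4) (nat_lit 5) (nat_lit 4) (nat_lit 4) (nat_lit 297) (nat_lit 261) (nat_lit 222)) (XT.lf (nat_lit 0) (nat_lit 145458714330) (nat_lit 76) (nat_lit 39228409183) (nat_lit 76) (nat_lit 30413631513) (nat_lit 3) (nat_lit 4) (nat_lit 4) (nat_lit 5) (nat_lit 4) (nat_lit 4) (nat_lit 298) (nat_lit 261) (nat_lit 221))) (XT.nd (nat_lit 78) (nat_lit 0) (nat_lit 0) (XT.lf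 (nat_lit 0) (nat_lit 189166925684) (nat_lit 76) (nat_lit 32695745070) (nat_lit 76) (nat_lit 23876659004) (nat_lit 3) (nat_lit 4) (nat_lit 4) (nat_lit 5) (nat_lit 4) (nat_lit 4) (nat_lit 299) (nat_lit 261) (nat_lit 220)) (XT.nd (nat_lit 78) (nat_lit 0) (nat_lit 0) (XT.lf (nat_lit 0) (nat_lit 239411579292) (nat_lit 76) (nat_lit 25193207200) (nat_lit 76) (nat_lit 16370374704) (nat_lit 3) (nat_lit 4) (nat_lit 4) (nat_lit 5) (nat_lit 4) (nat_lit 4) (nat_lit 300) (nat_lit 261) (nat_lit 219)) (XT.lf (nat_lit 0) (nat_lit 297175722725) (nat_lit 76) (nat_lit 16574006791) (nat_lit 76) (nat_lit 7747916529) (nat_lit 3) (nat_lit 4) (nat_lit 4) (nat_lit 5) (nat_lit 4) (nat_lit 4) (nat_lit 301) (nat_lit 261) (nat_lit 218))))))))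
noncomputable def xc51 : XT := (XT.nd (nat_lit 1482) (nat_lit 0) (nat_lit 0) (XT.nd (nat_lit 702) (nat_lit 0) (nat_lit 0) (XT.nd (nat_lit 312) (nat_lit 0) (nat_lit 0) (XT.nd (nat_lit 156) (nat_lit 0) (nat_lit 0) (XT.nd (nat_lit 78) (nat_lit 76) (nat_lit 0) (XT.lf (nat_lit 0) (nat_lit 1967169663) (nat_lit 152) (nat_lit 4599508325) (nat_lit 76) (nat_lit 361519525018) (nat_lit 2) (nat_lit 5) (nat_lit 4) (nat_lit 5) (nat_lit 3) (nat_lit 4) (nat_lit 302) (nat_lit 261) (nat_lit 217)) (XT.lf (nat_lit 0) (nat_lit 13404252241) (nat_lit 152) (nat_lit 402319970765) (nat_lit 0) (nat_lit 5724785771) (nat_lit 1) (nat_lit 5) (nat_lit 3) (nat_lit 4) (nat_lit 1) (nat_lit 4) (nat_lit 303) (nat_lit 261) (nat_lit 216))) (XT.nd (nat_lit 78) (nat_lit 0) (nat_lit 0) (XT.lf (nat_lit 0) (nat_lit 27114806508) (nat_lit 152) (nat_lit 436184268076) (nat_lit 0) (nat_lit 19433477400) (nat_lit 1) (nat_lit 5) (nat_lit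 3) (nat_lit 4) (nat_lit 1) (nat_lit 4) (nat_lit 304) (nat_lit 261) (nat_lit 215)) (XT.lf (nat_lit 0) (nat_lit 42876146099) (nat_lit 152) (nat_lit 475140155513) (nat_lit 0) (nat_lit 35193197305) (nat_lit 1) (nat_lit 5) (nat_lit 3) (nat_lit 4) (nat_lit 1) (nat_lit 4) (nat_lit 305) (nat_lit 261) (nat_lit 214)))) (XT.nd (nat_lit 156) (nat_lit 0) (nat_lit 0) (XT.nd (nat_lit 78) (nat_lit 0) (nat_lit 0) (XT.lf (nat_lit 0) (nat_lit 60996645050) (nat_lit 152) (nat_lit 519949813483) (nat_lit 0) (nat_lit 53312287835) (nat_lit 1) (nat_lit 5) (nat_lit 3) (nat_lit 4) (nat_lit 1) (nat_lit 4) (nat_lit 306) (nat_lit 261) (nat_lit 213)) (XT.lf (nat_lit 0) (nat_lit 81830834863) (nat_lit 152) (nat_lit 571489952686) (nat_lit 0) (nat_lit 74145252933) (nat_lit 1) (nat_lit 5) (nat_lit 3) (nat_lit 4) (nat_lit 1) (nat_lit 4) (nat_lit 307) (nat_lit 261) (nat_lit 212))) (XT.nd (nat_lit 78) (nat_lit 0) (nat_lit 0)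 (XT.lf (nat_lit 0) (nat_lit 105786340990) (nat_lit 152) (nat_lit 630768967149) (nat_lit 0) (nat_lit 98099694091) (nat_lit 1) (nat_lit 5) (nat_lit 3) (nat_lit 4) (nat_lit 1) (nat_lit 4) (nat_lit 308) (nat_lit 261) (nat_lit 211)) (XT.nd (nat_lit 78) (nat_lit 0) (nat_lit 0) (XT.lf (nat_lit 0) (nat_lit 133331858117) (nat_lit 152) (nat_lit 698946663678) (nat_lit 0) (nat_lit 125644285157) (nat_lit 1) (nat_lit 5) (nat_lit 3) (nat_lit 4) (nat_lit 1) (nat_lit 4) (nat_lit 309) (nat_lit 261) (nat_lit 210)) (XT.lf (nat_lit 0) (nat_lit 165006320274) (nat_lit 152) (nat_lit 777356953725) (nat_lit 0) (nat_lit 157317942044) (nat_lit 1) (nat_lit 5) (nat_lit 3) (nat_lit 4) (nat_lit 1) (nat_lit 4) (nat_lit 310) (nat_lit 261) (nat_lit 209)))))) (XT.nd (nat_lit 390) (nat_lit 0) (nat_lit 0) (XT.nd (nat_lit 156) (nat_lit 0) (nat_lit 0) (XT.nd (nat_lit 78) (nat_lit 0) (nat_lit 0) (XT.lf (nat_lit 0) (nat_lit 201429445199)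 (nat_lit 152) (nat_lit 867533951662) (nat_lit 0) (nat_lit 193740366735) (nat_lit 1) (nat_lit 5) (nat_lit 3) (nat_lit 4) (nat_lit 1) (nat_lit 4) (nat_lit 311) (nat_lit 261) (nat_lit 208)) (XT.lf (nat_lit 0) (nat_lit 243313859249) (nat_lit 152) (nat_lit 971241990057) (nat_lit 0) (nat_lit 235624171885) (nat_lit 1) (nat_lit 5) (nat_lit 3) (nat_lit 4) (nat_lit 1) (nat_lit 4) (nat_lit 312) (nat_lit 261) (nat_lit 207))) (XT.nd (nat_lit 78) (nat_lit 0) (nat_lit 0) (XT.lf (nat_lit 0) (nat_lit 291479040091) (nat_lit 152) (nat_lit 1090510139227) (nat_lit 0) (nat_lit 283788823249) (nat_lit 1) (nat_lit 5) (nat_lit 3) (nat_lit 4) (nat_lit 1) (nat_lit 4) (nat_lit 313) (nat_lit 261) (nat_lit 206)) (XT.nd (nat_lit 78) (nat_lit 0) (nat_lit 0) (XT.lf (nat_lit 0) (nat_lit 346867349958) (nat_lit 152) (nat_lit 1227671906436) (nat_lit 0) (nat_lit 339176672700) (nat_lit 1) (nat_lit 5) (nat_lit 3) (nat_lit 4)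 (nat_lit 1) (nat_lit 4) (nat_lit 314) (nat_lit 261) (nat_lit 205)) (XT.lf (nat_lit 0) (nat_lit 410562473174) (nat_lit 152) (nat_lit 1385410891480) (nat_lit 0) (nat_lit 402871395554) (nat_lit 1) (nat_lit 5) (nat_lit 3) (nat_lit 4) (nat_lit 1) (nat_lit 4) (nat_lit 315) (nat_lit 261) (nat_lit 204))))) (XT.nd (nat_lit 156) (nat_lit 0) (nat_lit 0) (XT.nd (nat_lit 78) (nat_lit 0) (nat_lit 0) (XT.lf (nat_lit 0) (nat_lit 483810618671) (nat_lit 152) (nat_lit 1566813291891) (nat_lit 0) (nat_lit 476119192911) (nat_lit 1) (nat_lit 5) (nat_lit 3) (nat_lit 4) (nat_lit 1) (nat_lit 4) (nat_lit 316) (nat_lit 261) (nat_lit 203)) (XT.lf (nat_lit 0) (nat_lit 568044902339) (nat_lit 152) (nat_lit 1775428285069) (nat_lit 0) (nat_lit 560353173849) (nat_lit 1) (nat_lit 5) (nat_lit 3) (nat_lit 4) (nat_lit 1) (nat_lit 4) (nat_lit 317) (nat_lit 261) (nat_lit 202))) (XT.nd (nat_lit 78) (nat_lit 0) (nat_lit 0) (XT.lf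 (nat_lit 0) (nat_lit 664913386251) (nat_lit 152) (nat_lit 2015337468705) (nat_lit 0) (nat_lit 657221394516) (nat_lit 1) (nat_lit 5) (nat_lit 3) (nat_lit 4) (nat_lit 1) (nat_lit 4) (nat_lit 318) (nat_lit 261) (nat_lit 201)) (XT.nd (nat_lit 78) (nat_lit 0) (nat_lit 0) (XT.lf (nat_lit 0) (nat_lit 776311323352) (nat_lit 152) (nat_lit 2291234718134) (nat_lit 0) (nat_lit 768619102709) (nat_lit 1) (nat_lit 5) (nat_lit 3) (nat_lit 4) (nat_lit 1) (nat_lit 4) (nat_lit 319) (nat_lit 261) (nat_lit 200)) (XT.lf (nat_lit 0) (nat_lit 904418238499) (nat_lit 152) (nat_lit 2608518023016) (nat_lit 0) (nat_lit 896725818806) (nat_lit 1) (nat_lit 5) (nat_lit 3) (nat_lit 4) (nat_lit 1) (nat_lit 4) (nat_lit 320) (nat_lit 261) (nat_lit 199))))))) (XT.nd (nat_lit 780) (nat_lit 0) (nat_lit 0) (XT.nd (nat_lit 390) (nat_lit 0) (nat_lit 0) (XT.nd (nat_lit 156) (nat_lit 0) (nat_lit 0) (XT.nd (nat_lit 78) (nat_lit 0)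 (nat_lit 0) (XT.lf (nat_lit 0) (nat_lit 1051740571335) (nat_lit 152) (nat_lit 2973395100187) (nat_lit 0) (nat_lit 1044047978555) (nat_lit 1) (nat_lit 5) (nat_lit 3) (nat_lit 4) (nat_lit 1) (nat_lit 4) (nat_lit 321) (nat_lit 261) (nat_lit 198)) (XT.lf (nat_lit 0) (nat_lit 1221160715330) (nat_lit 152) (nat_lit 3393004848982) (nat_lit 0) (nat_lit 1213467972039) (nat_lit 1) (nat_lit 5) (nat_lit 3) (nat_lit 4) (nat_lit 1) (nat_lit 4) (nat_lit 322) (nat_lit 261) (nat_lit 197))) (XT.nd (nat_lit 78) (nat_lit 0) (nat_lit 0) (XT.lf (nat_lit 0) (nat_lit 1415993412431) (nat_lit 152) (nat_lit 3875557025357) (nat_lit 0) (nat_lit 1408300538261) (nat_lit 1) (nat_lit 5) (nat_lit 3) (nat_lit 4) (nat_lit 1) (nat_lit 4) (nat_lit 323) (nat_lit 261) (nat_lit 196)) (XT.nd (nat_lit 78) (nat_lit 0) (nat_lit 0) (XT.lf (nat_lit 0) (nat_lit 1640050606712) (nat_lit 152) (nat_lit 4430492867545) (nat_lit 0) (nat_lit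 1632357618734) (nat_lit 1) (nat_lit 5) (nat_lit 3) (nat_lit 4) (nat_lit 1) (nat_lit 4) (nat_lit 324) (nat_lit 261) (nat_lit 195)) (XT.lf (nat_lit 0) (nat_lit 1897716025886) (nat_lit 152) (nat_lit 5068669815935) (nat_lit 0) (nat_lit 1890022938946) (nat_lit 1) (nat_lit 5) (nat_lit 3) (nat_lit 4) (nat_lit 1) (nat_lit 4) (nat_lit 325) (nat_lit 261) (nat_lit 194))))) (XT.nd (nat_lit 156) (nat_lit 0) (nat_lit 0) (XT.nd (nat_lit 78) (nat_lit 0) (nat_lit 0) (XT.lf (nat_lit 0) (nat_lit 2194030949896) (nat_lit 152) (nat_lit 5802573941259) (nat_lit 0) (nat_lit 2186337776900) (nat_lit 1) (nat_lit 5) (nat_lit 3) (nat_lit 4) (nat_lit 1) (nat_lit 4) (nat_lit 326) (nat_lit 261) (nat_lit 193)) (XT.lf (nat_lit 0) (nat_lit 2534792844644) (nat_lit 152) (nat_lit 6646564237272) (nat_lit 0) (nat_lit 2527099596818) (nat_lit 1) (nat_lit 5) (nat_lit 3) (nat_lit 4) (nat_lit 1) (nat_lit 4) (nat_lit 327) (nat_lit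 261) (nat_lit 192))) (XT.nd (nat_lit 78) (nat_lit 0) (nat_lit 0) (XT.lf (nat_lit 0) (nat_lit 2926668790680) (nat_lit 152) (nat_lit 7617153557591) (nat_lit 0) (nat_lit 2918975477784) (nat_lit 1) (nat_lit 5) (nat_lit 3) (nat_lit 4) (nat_lit 1) (nat_lit 4) (nat_lit 328) (nat_lit 261) (nat_lit 191)) (XT.nd (nat_lit 78) (nat_lit 0) (nat_lit 0) (XT.lf (nat_lit 0) (nat_lit 3377325926079) (nat_lit 152) (nat_lit 8733331693267) (nat_lit 0) (nat_lit 3369632556601) (nat_lit 1) (nat_lit 5) (nat_lit 3) (nat_lit 4) (nat_lit 1) (nat_lit 4) (nat_lit 329) (nat_lit 261) (nat_lit 190)) (XT.lf (nat_lit 0) (nat_lit 3895581455664) (nat_lit 152) (nat_lit 10016936912171) (nat_lit 0) (nat_lit 3887888036984) (nat_lit 1) (nat_lit 5) (nat_lit 3) (nat_lit 4) (nat_lit 1) (nat_lit 4) (nat_lit 330) (nat_lit 261) (nat_lit 189)))))) (XT.nd (nat_lit 390) (nat_lit 0) (nat_lit 0) (XT.nd (nat_lit 156) (nat_lit 0) (nat_lit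 0) (XT.nd (nat_lit 78) (nat_lit 0) (nat_lit 0) (XT.lf (nat_lit 0) (nat_lit 4491575161536) (nat_lit 152) (nat_lit 11493083229456) (nat_lit 0) (nat_lit 4483881700071) (nat_lit 1) (nat_lit 5) (nat_lit 3) (nat_lit 4) (nat_lit 1) (nat_lit 4) (nat_lit 331) (nat_lit 261) (nat_lit 188)) (XT.lf (nat_lit 0) (nat_lit 5176967790114) (nat_lit 152) (nat_lit 13190651768721) (nat_lit 0) (nat_lit 5169274291445) (nat_lit 1) (nat_lit 5) (nat_lit 3) (nat_lit 4) (nat_lit 1) (nat_lit 4) (nat_lit 332) (nat_lit 261) (nat_lit 187))) (XT.nd (nat_lit 78) (nat_lit 0) (nat_lit 0) (XT.lf (nat_lit 0) (nat_lit 5965169197174) (nat_lit 152) (nat_lit 15142855827474) (nat_lit 0) (nat_lit 5957475666153) (nat_lit 1) (nat_lit 5) (nat_lit 3) (nat_lit 4) (nat_lit 1) (nat_lit 4) (nat_lit 333) (nat_lit 261) (nat_lit 186)) (XT.nd (nat_lit 78) (nat_lit 0) (nat_lit 0) (XT.lf (nat_lit 0) (nat_lit 6871600714593) (nat_lit 152) (nat_lit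 17387890702515) (nat_lit 0) (nat_lit 6863907155441) (nat_lit 1) (nat_lit 5) (nat_lit 3) (nat_lit 4) (nat_lit 1) (nat_lit 4) (nat_lit 334) (nat_lit 261) (nat_lit 185)) (XT.lf (nat_lit 0) (nat_lit 7913996872060) (nat_lit 152) (nat_lit 19969680989226) (nat_lit 0) (nat_lit 7906303288446) (nat_lit 1) (nat_lit 5) (nat_lit 3) (nat_lit 4) (nat_lit 1) (nat_lit 4) (nat_lit 335) (nat_lit 261) (nat_lit 184))))) (XT.nd (nat_lit 156) (nat_lit 0) (nat_lit 0) (XT.nd (nat_lit 78) (nat_lit 0) (nat_lit 0) (XT.lf (nat_lit 0) (nat_lit 9112752377005) (nat_lit 152) (nat_lit 22938739975826) (nat_lit 0) (nat_lit 9105058772119) (nat_lit 1) (nat_lit 5) (nat_lit 3) (nat_lit 4) (nat_lit 1) (nat_lit 4) (nat_lit 336) (nat_lit 261) (nat_lit 183)) (XT.lf (nat_lit 0) (nat_lit 10491321141480) (nat_lit 152) (nat_lit 26353157946834) (nat_lit 0) (nat_lit 10483627518097) (nat_lit 1) (nat_lit 5) (nat_lit 3) (nat_lit 4) (nat_lit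 1) (nat_lit 4) (nat_lit 337) (nat_lit 261) (nat_lit 182))) (XT.nd (nat_lit 78) (nat_lit 0) (nat_lit 0) (XT.lf (nat_lit 0) (nat_lit 12076675163050) (nat_lit 152) (nat_lit 30279738732120) (nat_lit 0) (nat_lit 12068981523583) (nat_lit 1) (nat_lit 5) (nat_lit 3) (nat_lit 4) (nat_lit 1) (nat_lit 4) (nat_lit 338) (nat_lit 261) (nat_lit 181)) (XT.nd (nat_lit 78) (nat_lit 0) (nat_lit 0) (XT.lf (nat_lit 0) (nat_lit 13899832237791) (nat_lit 152) (nat_lit 34795306738350) (nat_lit 0) (nat_lit 13892138584338) (nat_lit 1) (nat_lit 5) (nat_lit 3) (nat_lit 4) (nat_lit 1) (nat_lit 4) (nat_lit 339) (nat_lit 261) (nat_lit 180)) (XT.lf (nat_lit 0) (nat_lit 15996462830208) (nat_lit 152) (nat_lit 39988210035212) (nat_lit 0) (nat_lit 15988769164592) (nat_lit 1) (nat_lit 5) (nat_lit 3) (nat_lit 4) (nat_lit 1) (nat_lit 4) (nat_lit 340) (nat_lit 261) (nat_lit 179))))))))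
noncomputable def xc52 : XT := (XT.nd (nat_lit 34476) (nat_lit 0) (nat_lit 152) (XT.nd (nat_lit 33696) (nat_lit 0) (nat_lit 836) (XT.nd (nat_lit 33306) (nat_lit 0) (nat_lit 1824) (XT.nd (nat_lit 156) (nat_lit 0) (nat_lit 0) (XT.nd (nat_lit 78) (nat_lit 0) (nat_lit 0) (XT.lf (nat_lit 0) (nat_lit 172900649827681) (nat_lit 152) (nat_lit 428606196070960) (nat_lit 0) (nat_lit 172892956088520) (nat_lit 1) (nat_lit 5) (nat_lit 3) (nat_lit 4) (nat_lit 1) (nat_lit 4) (nat_lit 357) (nat_lit 261) (nat_lit 162)) (XT.lf (nat_lit 0) (nat_lit 198847402791798) (nat_lit 152) (nat_lit 492870733317379) (nat_lit 0) (nat_lit 198839709051655) (nat_lit 1) (nat_lit 5) (nat_lit 3) (nat_lit 4) (nat_lit 1) (nat_lit 4) (nat_lit 358) (nat_lit 261) (nat_lit 161))) (XT.nd (nat_lit 33072) (nat_lit 0) (nat_lit 2204) (XT.lf (nat_lit 0) (nat_lit 228686168697476) (nat_lit 152) (nat_lit 566774951157062) (nat_lit 0) (nat_lit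 228678474956477) (nat_lit 1) (nat_lit 5) (nat_lit 3) (nat_lit 4) (nat_lit 1) (nat_lit 4) (nat_lit 359) (nat_lit 261) (nat_lit 160)) (XT.lf (nat_lit 0) (nat_lit 1762937840) (nat_lit 228) (nat_lit 822042742) (nat_lit 228) (nat_lit 822042742) (nat_lit 30) (nat_lit 3) (nat_lit 33) (nat_lit 3) (nat_lit 33) (nat_lit 5) (nat_lit 262) (nat_lit 262) (nat_lit 256)))) (XT.nd (nat_lit 156) (nat_lit 152) (nat_lit 0) (XT.nd (nat_lit 78) (nat_lit 228) (nat_lit 0) (XT.lf (nat_lit 76) (nat_lit 1742768841) (nat_lit 0) (nat_lit 3885695713) (nat_lit 228) (nat_lit 1410604461) (nat_lit 31) (nat_lit 5) (nat_lit 30) (nat_lit 3) (nat_lit 33) (nat_lit 5) (nat_lit 263) (nat_lit 262) (nat_lit 255)) (XT.lf (nat_lit 0) (nat_lit 432245956) (nat_lit 228) (nat_lit 1731897589) (nat_lit 304) (nat_lit 5168103508) (nat_lit 27) (nat_lit 5) (nat_lit 30) (nat_lit 3) (nat_lit 31) (nat_lit 5) (nat_lit 264) (nat_lit 262) (nat_lit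 254))) (XT.nd (nat_lit 78) (nat_lit 228) (nat_lit 0) (XT.lf (nat_lit 0) (nat_lit 2210864305) (nat_lit 228) (nat_lit 5393497465) (nat_lit 76) (nat_lit 85788302) (nat_lit 28) (nat_lit 5) (nat_lit 31) (nat_lit 5) (nat_lit 29) (nat_lit 5) (nat_lit 265) (nat_lit 262) (nat_lit 253)) (XT.nd (nat_lit 78) (nat_lit 228) (nat_lit 0) (XT.lf (nat_lit 0) (nat_lit 4192146768) (nat_lit 228) (nat_lit 1309724257) (nat_lit 76) (nat_lit 2610693714) (nat_lit 28) (nat_lit 5) (nat_lit 31) (nat_lit 5) (nat_lit 29) (nat_lit 5) (nat_lit 266) (nat_lit 262) (nat_lit 252)) (XT.lf (nat_lit 0) (nat_lit 3490085699) (nat_lit 228) (nat_lit 2897204990) (nat_lit 304) (nat_lit 2224600027) (nat_lit 25) (nat_lit 5) (nat_lit 28) (nat_lit 5) (nat_lit 29) (nat_lit 5) (nat_lit 267) (nat_lit 262) (nat_lit 251)))))) (XT.nd (nat_lit 390) (nat_lit 380) (nat_lit 0) (XT.nd (nat_lit 156) (nat_lit 228) (nat_lit 0) (XT.nd (nat_lit 78)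 (nat_lit 380) (nat_lit 0) (XT.lf (nat_lit 0) (nat_lit 8781525805) (nat_lit 304) (nat_lit 256141913) (nat_lit 76) (nat_lit 168887520) (nat_lit 25) (nat_lit 5) (nat_lit 29) (nat_lit 5) (nat_lit 26) (nat_lit 4) (nat_lit 268) (nat_lit 262) (nat_lit 250)) (XT.lf (nat_lit 0) (nat_lit 1692412523) (nat_lit 380) (nat_lit 4450060828) (nat_lit 76) (nat_lit 3709271225) (nat_lit 20) (nat_lit 5) (nat_lit 25) (nat_lit 5) (nat_lit 21) (nat_lit 5) (nat_lit 269) (nat_lit 262) (nat_lit 249))) (XT.nd (nat_lit 78) (nat_lit 76) (nat_lit 0) (XT.lf (nat_lit 0) (nat_lit 1225103723) (nat_lit 152) (nat_lit 2751538821) (nat_lit 228) (nat_lit 6630730881) (nat_lit 18) (nat_lit 5) (nat_lit 20) (nat_lit 5) (nat_lit 21) (nat_lit 5) (nat_lit 270) (nat_lit 262) (nat_lit 248)) (XT.nd (nat_lit 78) (nat_lit 76) (nat_lit 0) (XT.lf (nat_lit 0) (nat_lit 6735179432) (nat_lit 228) (nat_lit 3469783943) (nat_lit 76) (nat_lit 1252154148)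 (nat_lit 18) (nat_lit 5) (nat_lit 21) (nat_lit 5) (nat_lit 19) (nat_lit 4) (nat_lit 271) (nat_lit 262) (nat_lit 247)) (XT.lf (nat_lit 0) (nat_lit 3299813148) (nat_lit 76) (nat_lit 6736600488) (nat_lit 152) (nat_lit 2379025799) (nat_lit 17) (nat_lit 5) (nat_lit 18) (nat_lit 5) (nat_lit 19) (nat_lit 4) (nat_lit 272) (nat_lit 262) (nat_lit 246))))) (XT.nd (nat_lit 156) (nat_lit 152) (nat_lit 0) (XT.nd (nat_lit 78) (nat_lit 152) (nat_lit 0) (XT.lf (nat_lit 0) (nat_lit 342537417) (nat_lit 152) (nat_lit 2234458080) (nat_lit 76) (nat_lit 10930605731) (nat_lit 16) (nat_lit 5) (nat_lit 18) (nat_lit 5) (nat_lit 17) (nat_lit 5) (nat_lit 273) (nat_lit 262) (nat_lit 245)) (XT.lf (nat_lit 0) (nat_lit 3462986785) (nat_lit 228) (nat_lit 8912665763) (nat_lit 76) (nat_lit 2336107239) (nat_lit 14) (nat_lit 5) (nat_lit 17) (nat_lit 5) (nat_lit 15) (nat_lit 4) (nat_lit 274) (nat_lit 262) (nat_lit 244))) (XT.nd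 (nat_lit 78) (nat_lit 152) (nat_lit 0) (XT.lf (nat_lit 0) (nat_lit 7185647717) (nat_lit 228) (nat_lit 1096512099) (nat_lit 76) (nat_lit 7794520104) (nat_lit 14) (nat_lit 5) (nat_lit 17) (nat_lit 5) (nat_lit 15) (nat_lit 4) (nat_lit 275) (nat_lit 262) (nat_lit 243)) (XT.nd (nat_lit 78) (nat_lit 76) (nat_lit 0) (XT.lf (nat_lit 0) (nat_lit 8493410501) (nat_lit 76) (nat_lit 3228527744) (nat_lit 152) (nat_lit 5886340837) (nat_lit 13) (nat_lit 5) (nat_lit 14) (nat_lit 5) (nat_lit 15) (nat_lit 4) (nat_lit 276) (nat_lit 262) (nat_lit 242)) (XT.lf (nat_lit 0) (nat_lit 16770502) (nat_lit 76) (nat_lit 16997214555) (nat_lit 76) (nat_lit 2344532309) (nat_lit 12) (nat_lit 4) (nat_lit 13) (nat_lit 5) (nat_lit 13) (nat_lit 4) (nat_lit 277) (nat_lit 262) (nat_lit 241))))))) (XT.nd (nat_lit 780) (nat_lit 228) (nat_lit 0) (XT.nd (nat_lit 390) (nat_lit 228) (nat_lit 0) (XT.nd (nat_lit 156) (nat_lit 76) (nat_lit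 0) (XT.nd (nat_lit 78) (nat_lit 76) (nat_lit 0) (XT.lf (nat_lit 0) (nat_lit 2136639140) (nat_lit 152) (nat_lit 10166150328) (nat_lit 76) (nat_lit 8973617093) (nat_lit 11) (nat_lit 5) (nat_lit 13) (nat_lit 5) (nat_lit 12) (nat_lit 4) (nat_lit 278) (nat_lit 262) (nat_lit 240)) (XT.lf (nat_lit 0) (nat_lit 147377735) (nat_lit 76) (nat_lit 6829625210) (nat_lit 152) (nat_lit 16499300691) (nat_lit 10) (nat_lit 5) (nat_lit 11) (nat_lit 5) (nat_lit 12) (nat_lit 4) (nat_lit 279) (nat_lit 262) (nat_lit 239))) (XT.nd (nat_lit 78) (nat_lit 76) (nat_lit 0) (XT.lf (nat_lit 0) (nat_lit 13001243426) (nat_lit 152) (nat_lit 12921458245) (nat_lit 0) (nat_lit 14922439) (nat_lit 10) (nat_lit 5) (nat_lit 12) (nat_lit 4) (nat_lit 10) (nat_lit 4) (nat_lit 280) (nat_lit 262) (nat_lit 238)) (XT.nd (nat_lit 78) (nat_lit 76) (nat_lit 0) (XT.lf (nat_lit 0) (nat_lit 20187625179) (nat_lit 152) (nat_lit 1401851122) (nat_lit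 0) (nat_lit 7139988096) (nat_lit 10) (nat_lit 5) (nat_lit 12) (nat_lit 4) (nat_lit 10) (nat_lit 4) (nat_lit 281) (nat_lit 262) (nat_lit 237)) (XT.lf (nat_lit 0) (nat_lit 12885209775) (nat_lit 76) (nat_lit 16042290394) (nat_lit 76) (nat_lit 2941334966) (nat_lit 9) (nat_lit 4) (nat_lit 10) (nat_lit 5) (nat_lit 10) (nat_lit 4) (nat_lit 282) (nat_lit 262) (nat_lit 236))))) (XT.nd (nat_lit 156) (nat_lit 76) (nat_lit 0) (XT.nd (nat_lit 78) (nat_lit 76) (nat_lit 0) (XT.lf (nat_lit 0) (nat_lit 3207114222) (nat_lit 152) (nat_lit 6252023627) (nat_lit 76) (nat_lit 25995393876) (nat_lit 8) (nat_lit 5) (nat_lit 10) (nat_lit 5) (nat_lit 9) (nat_lit 4) (nat_lit 283) (nat_lit 262) (nat_lit 235)) (XT.lf (nat_lit 0) (nat_lit 8951962142) (nat_lit 76) (nat_lit 1345525148) (nat_lit 152) (nat_lit 29211522759) (nat_lit 7) (nat_lit 5) (nat_lit 8) (nat_lit 5) (nat_lit 9) (nat_lit 4) (nat_lit 284) (nat_lit 262)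 (nat_lit 234))) (XT.nd (nat_lit 78) (nat_lit 76) (nat_lit 0) (XT.lf (nat_lit 0) (nat_lit 19075554287) (nat_lit 152) (nat_lit 17424973437) (nat_lit 0) (nat_lit 7577560191) (nat_lit 7) (nat_lit 5) (nat_lit 9) (nat_lit 4) (nat_lit 7) (nat_lit 4) (nat_lit 285) (nat_lit 262) (nat_lit 233)) (XT.nd (nat_lit 78) (nat_lit 76) (nat_lit 0) (XT.lf (nat_lit 0) (nat_lit 29191897925) (nat_lit 152) (nat_lit 2470041518) (nat_lit 0) (nat_lit 17667395189) (nat_lit 7) (nat_lit 5) (nat_lit 9) (nat_lit 4) (nat_lit 7) (nat_lit 4) (nat_lit 286) (nat_lit 262) (nat_lit 232)) (XT.lf (nat_lit 0) (nat_lit 16088356409) (nat_lit 76) (nat_lit 25366559463) (nat_lit 76) (nat_lit 13819005735) (nat_lit 6) (nat_lit 4) (nat_lit 7) (nat_lit 5) (nat_lit 7) (nat_lit 4) (nat_lit 287) (nat_lit 262) (nat_lit 231)))))) (XT.nd (nat_lit 390) (nat_lit 76) (nat_lit 0) (XT.nd (nat_lit 156) (nat_lit 76) (nat_lit 0) (XT.nd (nat_lit 78)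 (nat_lit 76) (nat_lit 0) (XT.lf (nat_lit 0) (nat_lit 37639318425) (nat_lit 76) (nat_lit 18012194588) (nat_lit 76) (nat_lit 6444596520) (nat_lit 6) (nat_lit 4) (nat_lit 7) (nat_lit 5) (nat_lit 7) (nat_lit 4) (nat_lit 288) (nat_lit 262) (nat_lit 230)) (XT.lf (nat_lit 0) (nat_lit 1822818016) (nat_lit 152) (nat_lit 7665969193) (nat_lit 76) (nat_lit 60445001677) (nat_lit 5) (nat_lit 5) (nat_lit 7) (nat_lit 5) (nat_lit 6) (nat_lit 4) (nat_lit 289) (nat_lit 262) (nat_lit 229))) (XT.nd (nat_lit 78) (nat_lit 0) (nat_lit 0) (XT.lf (nat_lit 0) (nat_lit 11206493730) (nat_lit 152) (nat_lit 66494844684) (nat_lit 0) (nat_lit 1119376921) (nat_lit 4) (nat_lit 5) (nat_lit 6) (nat_lit 4) (nat_lit 4) (nat_lit 4) (nat_lit 290) (nat_lit 262) (nat_lit 228)) (XT.nd (nat_lit 78) (nat_lit 0) (nat_lit 0) (XT.lf (nat_lit 0) (nat_lit 22842010529) (nat_lit 152) (nat_lit 53328611689) (nat_lit 0) (nat_lit 12743433302)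 (nat_lit 4) (nat_lit 5) (nat_lit 6) (nat_lit 4) (nat_lit 4) (nat_lit 4) (nat_lit 291) (nat_lit 262) (nat_lit 227)) (XT.lf (nat_lit 0) (nat_lit 36199063232) (nat_lit 152) (nat_lit 38235397667) (nat_lit 0) (nat_lit 26090520426) (nat_lit 4) (nat_lit 5) (nat_lit 6) (nat_lit 4) (nat_lit 4) (nat_lit 4) (nat_lit 292) (nat_lit 262) (nat_lit 226))))) (XT.nd (nat_lit 156) (nat_lit 76) (nat_lit 0) (XT.nd (nat_lit 78) (nat_lit 0) (nat_lit 0) (XT.lf (nat_lit 0) (nat_lit 51538985479) (nat_lit 152) (nat_lit 20919900606) (nat_lit 0) (nat_lit 41421776952) (nat_lit 4) (nat_lit 5) (nat_lit 6) (nat_lit 4) (nat_lit 4) (nat_lit 4) (nat_lit 293) (nat_lit 262) (nat_lit 225)) (XT.lf (nat_lit 0) (nat_lit 69161906185) (nat_lit 152) (nat_lit 1043339041) (nat_lit 0) (nat_lit 59037162247) (nat_lit 4) (nat_lit 5) (nat_lit 6) (nat_lit 4) (nat_lit 4) (nat_lit 4) (nat_lit 294) (nat_lit 262) (nat_lit 224))) (XT.nd (nat_lit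 78) (nat_lit 0) (nat_lit 0) (XT.lf (nat_lit 0) (nat_lit 23911986683) (nat_lit 76) (nat_lit 66490779315) (nat_lit 76) (nat_lit 56359482847) (nat_lit 3) (nat_lit 4) (nat_lit 4) (nat_lit 5) (nat_lit 4) (nat_lit 4) (nat_lit 295) (nat_lit 262) (nat_lit 223)) (XT.nd (nat_lit 78) (nat_lit 0) (nat_lit 0) (XT.lf (nat_lit 0) (nat_lit 52697771069) (nat_lit 76) (nat_lit 62171672696) (nat_lit 76) (nat_lit 52034678375) (nat_lit 3) (nat_lit 4) (nat_lit 4) (nat_lit 5) (nat_lit 4) (nat_lit 4) (nat_lit 296) (nat_lit 262) (nat_lit 222)) (XT.lf (nat_lit 0) (nat_lit 85775251565) (nat_lit 76) (nat_lit 57217959285) (nat_lit 76) (nat_lit 47076010310) (nat_lit 3) (nat_lit 4) (nat_lit 4) (nat_lit 5) (nat_lit 4) (nat_lit 4) (nat_lit 297) (nat_lit 262) (nat_lit 221))))))))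
noncomputable def xc53 : XT := (XT.nd (nat_lit 1482) (nat_lit 0) (nat_lit 0) (XT.nd (nat_lit 702) (nat_lit 0) (nat_lit 0) (XT.nd (nat_lit 312) (nat_lit 152) (nat_lit 0) (XT.nd (nat_lit 156) (nat_lit 0) (nat_lit 0) (XT.nd (nat_lit 78) (nat_lit 0) (nat_lit 0) (XT.lf (nat_lit 0) (nat_lit 123791596269) (nat_lit 76) (nat_lit 51532718604) (nat_lit 76) (nat_lit 41386461233) (nat_lit 3) (nat_lit 4) (nat_lit 4) (nat_lit 5) (nat_lit 4) (nat_lit 4) (nat_lit 298) (nat_lit 262) (nat_lit 220)) (XT.lf (nat_lit 0) (nat_lit 167490603228) (nat_lit 76) (nat_lit 45004717681) (nat_lit 76) (nat_lit 34854713881) (nat_lit 3) (nat_lit 4) (nat_lit 4) (nat_lit 5) (nat_lit 4) (nat_lit 4) (nat_lit 299) (nat_lit 262) (nat_lit 219))) (XT.nd (nat_lit 78) (nat_lit 0) (nat_lit 0) (XT.lf (nat_lit 0) (nat_lit 217727253014) (nat_lit 76) (nat_lit 37506234761) (nat_lit 76) (nat_lit 27352973194) (nat_lit 3) (nat_lit 4) (nat_lit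 4) (nat_lit 5) (nat_lit 4) (nat_lit 4) (nat_lit 300) (nat_lit 262) (nat_lit 218)) (XT.lf (nat_lit 0) (nat_lit 275484436601) (nat_lit 76) (nat_lit 28890560394) (nat_lit 76) (nat_lit 18734465988) (nat_lit 3) (nat_lit 4) (nat_lit 4) (nat_lit 5) (nat_lit 4) (nat_lit 4) (nat_lit 301) (nat_lit 262) (nat_lit 217)))) (XT.nd (nat_lit 156) (nat_lit 76) (nat_lit 0) (XT.nd (nat_lit 78) (nat_lit 76) (nat_lit 0) (XT.lf (nat_lit 0) (nat_lit 341892185842) (nat_lit 76) (nat_lit 18989127039) (nat_lit 76) (nat_lit 8830569294) (nat_lit 3) (nat_lit 4) (nat_lit 4) (nat_lit 5) (nat_lit 4) (nat_lit 4) (nat_lit 302) (nat_lit 262) (nat_lit 216)) (XT.lf (nat_lit 0) (nat_lit 2325248577) (nat_lit 152) (nat_lit 5161415337) (nat_lit 76) (nat_lit 415802987124) (nat_lit 2) (nat_lit 5) (nat_lit 4) (nat_lit 5) (nat_lit 3) (nat_lit 4) (nat_lit 303) (nat_lit 262) (nat_lit 215))) (XT.nd (nat_lit 78) (nat_lit 0) (nat_lit 0)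 (XT.lf (nat_lit 0) (nat_lit 15477317715) (nat_lit 152) (nat_lit 462539343578) (nat_lit 0) (nat_lit 6640306918) (nat_lit 1) (nat_lit 5) (nat_lit 3) (nat_lit 4) (nat_lit 1) (nat_lit 4) (nat_lit 304) (nat_lit 262) (nat_lit 214)) (XT.nd (nat_lit 78) (nat_lit 0) (nat_lit 0) (XT.lf (nat_lit 0) (nat_lit 31236312386) (nat_lit 152) (nat_lit 501500062372) (nat_lit 0) (nat_lit 22397893167) (nat_lit 1) (nat_lit 5) (nat_lit 3) (nat_lit 4) (nat_lit 1) (nat_lit 4) (nat_lit 305) (nat_lit 262) (nat_lit 213)) (XT.lf (nat_lit 0) (nat_lit 49354772277) (nat_lit 152) (nat_lit 546313921522) (nat_lit 0) (nat_lit 40515128342) (nat_lit 1) (nat_lit 5) (nat_lit 3) (nat_lit 4) (nat_lit 1) (nat_lit 4) (nat_lit 306) (nat_lit 262) (nat_lit 212)))))) (XT.nd (nat_lit 390) (nat_lit 0) (nat_lit 0) (XT.nd (nat_lit 156) (nat_lit 0) (nat_lit 0) (XT.nd (nat_lit 78) (nat_lit 0) (nat_lit 0) (XT.lf (nat_lit 0) (nat_lit 70187188993)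 (nat_lit 152) (nat_lit 597857713925) (nat_lit 0) (nat_lit 61346480089) (nat_lit 1) (nat_lit 5) (nat_lit 3) (nat_lit 4) (nat_lit 1) (nat_lit 4) (nat_lit 307) (nat_lit 262) (nat_lit 211)) (XT.lf (nat_lit 0) (nat_lit 94141153297) (nat_lit 152) (nat_lit 657139905084) (nat_lit 0) (nat_lit 85299518333) (nat_lit 1) (nat_lit 5) (nat_lit 3) (nat_lit 4) (nat_lit 1) (nat_lit 4) (nat_lit 308) (nat_lit 262) (nat_lit 210))) (XT.nd (nat_lit 78) (nat_lit 0) (nat_lit 0) (XT.lf (nat_lit 0) (nat_lit 121685329708) (nat_lit 152) (nat_lit 725320363957) (nat_lit 0) (nat_lit 112842889474) (nat_lit 1) (nat_lit 5) (nat_lit 3) (nat_lit 4) (nat_lit 1) (nat_lit 4) (nat_lit 309) (nat_lit 262) (nat_lit 209)) (XT.nd (nat_lit 78) (nat_lit 0) (nat_lit 0) (XT.lf (nat_lit 0) (nat_lit 153358626025) (nat_lit 152) (nat_lit 803733056043) (nat_lit 0) (nat_lit 144515485557) (nat_lit 1) (nat_lit 5) (nat_lit 3) (nat_lit 4) (nat_lit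 1) (nat_lit 4) (nat_lit 310) (nat_lit 262) (nat_lit 208)) (XT.lf (nat_lit 0) (nat_lit 189780737177) (nat_lit 152) (nat_lit 893912142709) (nat_lit 0) (nat_lit 180936987808) (nat_lit 1) (nat_lit 5) (nat_lit 3) (nat_lit 4) (nat_lit 1) (nat_lit 4) (nat_lit 311) (nat_lit 262) (nat_lit 207))))) (XT.nd (nat_lit 156) (nat_lit 0) (nat_lit 0) (XT.nd (nat_lit 78) (nat_lit 0) (nat_lit 0) (XT.lf (nat_lit 0) (nat_lit 231664269684) (nat_lit 152) (nat_lit 997621997390) (nat_lit 0) (nat_lit 222819990838) (nat_lit 1) (nat_lit 5) (nat_lit 3) (nat_lit 4) (nat_lit 1) (nat_lit 4) (nat_lit 312) (nat_lit 262) (nat_lit 206)) (XT.lf (nat_lit 0) (nat_lit 279828683968) (nat_lit 152) (nat_lit 1116891725938) (nat_lit 0) (nat_lit 270983944705) (nat_lit 1) (nat_lit 5) (nat_lit 3) (nat_lit 4) (nat_lit 1) (nat_lit 4) (nat_lit 313) (nat_lit 262) (nat_lit 205))) (XT.nd (nat_lit 78) (nat_lit 0) (nat_lit 0) (XT.lf (nat_lit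 0) (nat_lit 335216327262) (nat_lit 152) (nat_lit 1254054866521) (nat_lit 0) (nat_lit 326371187638) (nat_lit 1) (nat_lit 5) (nat_lit 3) (nat_lit 4) (nat_lit 1) (nat_lit 4) (nat_lit 314) (nat_lit 262) (nat_lit 204)) (XT.nd (nat_lit 78) (nat_lit 0) (nat_lit 0) (XT.lf (nat_lit 0) (nat_lit 398910870849) (nat_lit 152) (nat_lit 1411795045802) (nat_lit 0) (nat_lit 390065383085) (nat_lit 1) (nat_lit 5) (nat_lit 3) (nat_lit 4) (nat_lit 1) (nat_lit 4) (nat_lit 315) (nat_lit 262) (nat_lit 203)) (XT.lf (nat_lit 0) (nat_lit 472158512322) (nat_lit 152) (nat_lit 1593198484681) (nat_lit 0) (nat_lit 463312721827) (nat_lit 1) (nat_lit 5) (nat_lit 3) (nat_lit 4) (nat_lit 1) (nat_lit 4) (nat_lit 316) (nat_lit 262) (nat_lit 202))))))) (XT.nd (nat_lit 780) (nat_lit 0) (nat_lit 0) (XT.nd (nat_lit 390) (nat_lit 0) (nat_lit 0) (XT.nd (nat_lit 156) (nat_lit 0) (nat_lit 0) (XT.nd (nat_lit 78) (nat_lit 0) (nat_lit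 0) (XT.lf (nat_lit 0) (nat_lit 556392357708) (nat_lit 152) (nat_lit 1801814380873) (nat_lit 0) (nat_lit 547546303969) (nat_lit 1) (nat_lit 5) (nat_lit 3) (nat_lit 4) (nat_lit 1) (nat_lit 4) (nat_lit 317) (nat_lit 262) (nat_lit 201)) (XT.lf (nat_lit 0) (nat_lit 653260460504) (nat_lit 152) (nat_lit 2041724349741) (nat_lit 0) (nat_lit 644414177858) (nat_lit 1) (nat_lit 5) (nat_lit 3) (nat_lit 4) (nat_lit 1) (nat_lit 4) (nat_lit 318) (nat_lit 262) (nat_lit 200))) (XT.nd (nat_lit 78) (nat_lit 0) (nat_lit 0) (XT.lf (nat_lit 0) (nat_lit 764658066201) (nat_lit 152) (nat_lit 2317622281978) (nat_lit 0) (nat_lit 755811584504) (nat_lit 1) (nat_lit 5) (nat_lit 3) (nat_lit 4) (nat_lit 1) (nat_lit 4) (nat_lit 319) (nat_lit 262) (nat_lit 199)) (XT.nd (nat_lit 78) (nat_lit 0) (nat_lit 0) (XT.lf (nat_lit 0) (nat_lit 892764693170) (nat_lit 152) (nat_lit 2634906180608) (nat_lit 0) (nat_lit 883918038385)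 (nat_lit 1) (nat_lit 5) (nat_lit 3) (nat_lit 4) (nat_lit 1) (nat_lit 4) (nat_lit 320) (nat_lit 262) (nat_lit 198)) (XT.lf (nat_lit 0) (nat_lit 1040086775417) (nat_lit 152) (nat_lit 2999783774080) (nat_lit 0) (nat_lit 1031239970122) (nat_lit 1) (nat_lit 5) (nat_lit 3) (nat_lit 4) (nat_lit 1) (nat_lit 4) (nat_lit 321) (nat_lit 262) (nat_lit 197))))) (XT.nd (nat_lit 156) (nat_lit 0) (nat_lit 0) (XT.nd (nat_lit 78) (nat_lit 0) (nat_lit 0) (XT.lf (nat_lit 0) (nat_lit 1209506701508) (nat_lit 152) (nat_lit 3419393971834) (nat_lit 0) (nat_lit 1200659765334) (nat_lit 1) (nat_lit 5) (nat_lit 3) (nat_lit 4) (nat_lit 1) (nat_lit 4) (nat_lit 322) (nat_lit 262) (nat_lit 196)) (XT.lf (nat_lit 0) (nat_lit 1404339209128) (nat_lit 152) (nat_lit 3901946538607) (nat_lit 0) (nat_lit 1395492159146) (nat_lit 1) (nat_lit 5) (nat_lit 3) (nat_lit 4) (nat_lit 1) (nat_lit 4) (nat_lit 323) (nat_lit 262) (nat_lit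 195))) (XT.nd (nat_lit 78) (nat_lit 0) (nat_lit 0) (XT.lf (nat_lit 0) (nat_lit 1628396238642) (nat_lit 152) (nat_lit 4456882720272) (nat_lit 0) (nat_lit 1619549089697) (nat_lit 1) (nat_lit 5) (nat_lit 3) (nat_lit 4) (nat_lit 1) (nat_lit 4) (nat_lit 324) (nat_lit 262) (nat_lit 194)) (XT.nd (nat_lit 78) (nat_lit 0) (nat_lit 0) (XT.lf (nat_lit 0) (nat_lit 1886061514541) (nat_lit 152) (nat_lit 5095059963860) (nat_lit 0) (nat_lit 1877214279541) (nat_lit 1) (nat_lit 5) (nat_lit 3) (nat_lit 4) (nat_lit 1) (nat_lit 4) (nat_lit 325) (nat_lit 262) (nat_lit 193)) (XT.lf (nat_lit 0) (nat_lit 2182376313963) (nat_lit 152) (nat_lit 5828964345877) (nat_lit 0) (nat_lit 2173529004133) (nat_lit 1) (nat_lit 5) (nat_lit 3) (nat_lit 4) (nat_lit 1) (nat_lit 4) (nat_lit 326) (nat_lit 262) (nat_lit 192)))))) (XT.nd (nat_lit 390) (nat_lit 0) (nat_lit 0) (XT.nd (nat_lit 156) (nat_lit 0) (nat_lit 0) (XT.nd (nat_lit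 78) (nat_lit 0) (nat_lit 0) (XT.lf (nat_lit 0) (nat_lit 2523138100374) (nat_lit 152) (nat_lit 6672954865101) (nat_lit 0) (nat_lit 2514290725474) (nat_lit 1) (nat_lit 5) (nat_lit 3) (nat_lit 4) (nat_lit 1) (nat_lit 4) (nat_lit 327) (nat_lit 262) (nat_lit 191)) (XT.lf (nat_lit 0) (nat_lit 2915013952205) (nat_lit 152) (nat_lit 7643544379517) (nat_lit 0) (nat_lit 2906166520722) (nat_lit 1) (nat_lit 5) (nat_lit 3) (nat_lit 4) (nat_lit 1) (nat_lit 4) (nat_lit 328) (nat_lit 262) (nat_lit 190))) (XT.nd (nat_lit 78) (nat_lit 0) (nat_lit 0) (XT.lf (nat_lit 0) (nat_lit 3365671005686) (nat_lit 152) (nat_lit 8759722683973) (nat_lit 0) (nat_lit 3356823525001) (nat_lit 1) (nat_lit 5) (nat_lit 3) (nat_lit 4) (nat_lit 1) (nat_lit 4) (nat_lit 329) (nat_lit 262) (nat_lit 189)) (XT.nd (nat_lit 78) (nat_lit 0) (nat_lit 0) (XT.lf (nat_lit 0) (nat_lit 3883926464038) (nat_lit 152) (nat_lit 10043328049643) (nat_lit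 0) (nat_lit 3875078940569) (nat_lit 1) (nat_lit 5) (nat_lit 3) (nat_lit 4) (nat_lit 1) (nat_lit 4) (nat_lit 330) (nat_lit 262) (nat_lit 188)) (XT.lf (nat_lit 0) (nat_lit 4479920107968) (nat_lit 152) (nat_lit 11519474494550) (nat_lit 0) (nat_lit 4471072547295) (nat_lit 1) (nat_lit 5) (nat_lit 3) (nat_lit 4) (nat_lit 1) (nat_lit 4) (nat_lit 331) (nat_lit 262) (nat_lit 187))))) (XT.nd (nat_lit 156) (nat_lit 0) (nat_lit 0) (XT.nd (nat_lit 78) (nat_lit 0) (nat_lit 0) (XT.lf (nat_lit 0) (nat_lit 5165312682683) (nat_lit 152) (nat_lit 13217043144790) (nat_lit 0) (nat_lit 5156465089658) (nat_lit 1) (nat_lit 5) (nat_lit 3) (nat_lit 4) (nat_lit 1) (nat_lit 4) (nat_lit 332) (nat_lit 262) (nat_lit 186)) (XT.lf (nat_lit 0) (nat_lit 5953514042906) (nat_lit 152) (nat_lit 15169247300043) (nat_lit 0) (nat_lit 5944666421750) (nat_lit 1) (nat_lit 5) (nat_lit 3) (nat_lit 4) (nat_lit 1) (nat_lit 4) (nat_lit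 333) (nat_lit 262) (nat_lit 185))) (XT.nd (nat_lit 78) (nat_lit 0) (nat_lit 0) (XT.lf (nat_lit 0) (nat_lit 6859945519598) (nat_lit 152) (nat_lit 17414282258998) (nat_lit 0) (nat_lit 6851097873979) (nat_lit 1) (nat_lit 5) (nat_lit 3) (nat_lit 4) (nat_lit 1) (nat_lit 4) (nat_lit 334) (nat_lit 262) (nat_lit 184)) (XT.nd (nat_lit 78) (nat_lit 0) (nat_lit 0) (XT.lf (nat_lit 0) (nat_lit 7902341641650) (nat_lit 152) (nat_lit 19996072618677) (nat_lit 0) (nat_lit 7893493974760) (nat_lit 1) (nat_lit 5) (nat_lit 3) (nat_lit 4) (nat_lit 1) (nat_lit 4) (nat_lit 335) (nat_lit 262) (nat_lit 183)) (XT.lf (nat_lit 0) (nat_lit 9101097115798) (nat_lit 152) (nat_lit 22965131668728) (nat_lit 0) (nat_lit 9092249430411) (nat_lit 1) (nat_lit 5) (nat_lit 3) (nat_lit 4) (nat_lit 1) (nat_lit 4) (nat_lit 336) (nat_lit 262) (nat_lit 182))))))))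
noncomputable def xc54 : XT := (XT.nd (nat_lit 35958) (nat_lit 0) (nat_lit 152) (XT.nd (nat_lit 35178) (nat_lit 0) (nat_lit 912) (XT.nd (nat_lit 1638) (nat_lit 0) (nat_lit 0) (XT.nd (nat_lit 156) (nat_lit 0) (nat_lit 0) (XT.nd (nat_lit 78) (nat_lit 0) (nat_lit 0) (XT.lf (nat_lit 0) (nat_lit 10479665853494) (nat_lit 152) (nat_lit 26379549694911) (nat_lit 0) (nat_lit 10470818152022) (nat_lit 1) (nat_lit 5) (nat_lit 3) (nat_lit 4) (nat_lit 1) (nat_lit 4) (nat_lit 337) (nat_lit 262) (nat_lit 181)) (XT.lf (nat_lit 0) (nat_lit 12065019851778) (nat_lit 152) (nat_lit 30306130528173) (nat_lit 0) (nat_lit 12056172136320) (nat_lit 1) (nat_lit 5) (nat_lit 3) (nat_lit 4) (nat_lit 1) (nat_lit 4) (nat_lit 338) (nat_lit 262) (nat_lit 180))) (XT.nd (nat_lit 78) (nat_lit 0) (nat_lit 0) (XT.lf (nat_lit 0) (nat_lit 13888176906270) (nat_lit 152) (nat_lit 34821698576123) (nat_lit 0) (nat_lit 13879329178650)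 (nat_lit 1) (nat_lit 5) (nat_lit 3) (nat_lit 4) (nat_lit 1) (nat_lit 4) (nat_lit 339) (nat_lit 262) (nat_lit 179)) (XT.lf (nat_lit 0) (nat_lit 15984807481079) (nat_lit 152) (nat_lit 40014601909264) (nat_lit 0) (nat_lit 15975959742884) (nat_lit 1) (nat_lit 5) (nat_lit 3) (nat_lit 4) (nat_lit 1) (nat_lit 4) (nat_lit 340) (nat_lit 262) (nat_lit 178)))) (XT.nd (nat_lit 33306) (nat_lit 0) (nat_lit 1976) (XT.nd (nat_lit 33228) (nat_lit 0) (nat_lit 1976) (XT.lf (nat_lit 0) (nat_lit 198835747334771) (nat_lit 152) (nat_lit 492897125413742) (nat_lit 0) (nat_lit 198826899531768) (nat_lit 1) (nat_lit 5) (nat_lit 3) (nat_lit 4) (nat_lit 1) (nat_lit 4) (nat_lit 358) (nat_lit 262) (nat_lit 160)) (XT.lf (nat_lit 0) (nat_lit 31486011) (nat_lit 0) (nat_lit 31486011) (nat_lit 228) (nat_lit 3590453101) (nat_lit 27) (nat_lit 5) (nat_lit 27) (nat_lit 3) (nat_lit 30) (nat_lit 3) (nat_lit 263) (nat_lit 263)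 (nat_lit 254))) (XT.nd (nat_lit 78) (nat_lit 0) (nat_lit 0) (XT.lf (nat_lit 0) (nat_lit 1703198072) (nat_lit 228) (nat_lit 3830031655) (nat_lit 304) (nat_lit 2079684785) (nat_lit 27) (nat_lit 5) (nat_lit 30) (nat_lit 3) (nat_lit 31) (nat_lit 5) (nat_lit 264) (nat_lit 263) (nat_lit 253)) (XT.nd (nat_lit 78) (nat_lit 0) (nat_lit 0) (XT.lf (nat_lit 0) (nat_lit 3263147349) (nat_lit 228) (nat_lit 84254484) (nat_lit 304) (nat_lit 4656777406) (nat_lit 27) (nat_lit 5) (nat_lit 30) (nat_lit 3) (nat_lit 31) (nat_lit 5) (nat_lit 265) (nat_lit 263) (nat_lit 252)) (XT.lf (nat_lit 76) (nat_lit 4467034028) (nat_lit 0) (nat_lit 551641413) (nat_lit 304) (nat_lit 3442269748) (nat_lit 28) (nat_lit 5) (nat_lit 27) (nat_lit 5) (nat_lit 31) (nat_lit 5) (nat_lit 266) (nat_lit 263) (nat_lit 251)))))) (XT.nd (nat_lit 390) (nat_lit 380) (nat_lit 0) (XT.nd (nat_lit 156) (nat_lit 532) (nat_lit 0) (XT.nd (nat_lit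 78) (nat_lit 0) (nat_lit 0) (XT.lf (nat_lit 0) (nat_lit 476645483) (nat_lit 228) (nat_lit 6497398605) (nat_lit 304) (nat_lit 2022617831) (nat_lit 25) (nat_lit 5) (nat_lit 28) (nat_lit 5) (nat_lit 29) (nat_lit 5) (nat_lit 267) (nat_lit 263) (nat_lit 250)) (XT.lf (nat_lit 0) (nat_lit 5865792925) (nat_lit 228) (nat_lit 3411363684) (nat_lit 304) (nat_lit 328207316) (nat_lit 25) (nat_lit 5) (nat_lit 28) (nat_lit 5) (nat_lit 29) (nat_lit 5) (nat_lit 268) (nat_lit 263) (nat_lit 249))) (XT.nd (nat_lit 78) (nat_lit 152) (nat_lit 0) (XT.lf (nat_lit 0) (nat_lit 1393447873) (nat_lit 380) (nat_lit 8648595473) (nat_lit 76) (nat_lit 266262673) (nat_lit 20) (nat_lit 5) (nat_lit 25) (nat_lit 5) (nat_lit 21) (nat_lit 5) (nat_lit 269) (nat_lit 263) (nat_lit 248)) (XT.nd (nat_lit 78) (nat_lit 152) (nat_lit 0) (XT.lf (nat_lit 0) (nat_lit 3557355813) (nat_lit 380) (nat_lit 3166766111) (nat_lit 76) (nat_lit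 4358103944) (nat_lit 20) (nat_lit 5) (nat_lit 25) (nat_lit 5) (nat_lit 21) (nat_lit 5) (nat_lit 270) (nat_lit 263) (nat_lit 247)) (XT.lf (nat_lit 0) (nat_lit 3271000221) (nat_lit 152) (nat_lit 2780185934) (nat_lit 228) (nat_lit 5920700824) (nat_lit 18) (nat_lit 5) (nat_lit 20) (nat_lit 5) (nat_lit 21) (nat_lit 5) (nat_lit 271) (nat_lit 263) (nat_lit 246))))) (XT.nd (nat_lit 156) (nat_lit 304) (nat_lit 0) (XT.nd (nat_lit 78) (nat_lit 76) (nat_lit 0) (XT.lf (nat_lit 0) (nat_lit 9044544448) (nat_lit 228) (nat_lit 2187799960) (nat_lit 76) (nat_lit 1744229377) (nat_lit 18) (nat_lit 5) (nat_lit 21) (nat_lit 5) (nat_lit 19) (nat_lit 4) (nat_lit 272) (nat_lit 263) (nat_lit 245)) (XT.lf (nat_lit 0) (nat_lit 5515307079) (nat_lit 76) (nat_lit 7227453576) (nat_lit 152) (nat_lit 1351167905) (nat_lit 17) (nat_lit 5) (nat_lit 18) (nat_lit 5) (nat_lit 19) (nat_lit 4) (nat_lit 273) (nat_lit 263) (nat_lit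 244))) (XT.nd (nat_lit 78) (nat_lit 228) (nat_lit 0) (XT.lf (nat_lit 0) (nat_lit 1490818158) (nat_lit 152) (nat_lit 963530455) (nat_lit 76) (nat_lit 12912064552) (nat_lit 16) (nat_lit 5) (nat_lit 18) (nat_lit 5) (nat_lit 17) (nat_lit 5) (nat_lit 274) (nat_lit 263) (nat_lit 243)) (XT.nd (nat_lit 78) (nat_lit 76) (nat_lit 0) (XT.lf (nat_lit 0) (nat_lit 5021100573) (nat_lit 228) (nat_lit 8582806036) (nat_lit 76) (nat_lit 3156388386) (nat_lit 14) (nat_lit 5) (nat_lit 17) (nat_lit 5) (nat_lit 15) (nat_lit 4) (nat_lit 275) (nat_lit 263) (nat_lit 242)) (XT.lf (nat_lit 0) (nat_lit 206775869) (nat_lit 76) (nat_lit 8968468779) (nat_lit 152) (nat_lit 9174062712) (nat_lit 13) (nat_lit 5) (nat_lit 14) (nat_lit 5) (nat_lit 15) (nat_lit 4) (nat_lit 276) (nat_lit 263) (nat_lit 241))))))) (XT.nd (nat_lit 780) (nat_lit 304) (nat_lit 0) (XT.nd (nat_lit 390) (nat_lit 228) (nat_lit 0) (XT.nd (nat_lit 156)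 (nat_lit 152) (nat_lit 0) (XT.nd (nat_lit 78) (nat_lit 76) (nat_lit 0) (XT.lf (nat_lit 0) (nat_lit 11150898417) (nat_lit 76) (nat_lit 3171997914) (nat_lit 152) (nat_lit 5798387917) (nat_lit 13) (nat_lit 5) (nat_lit 14) (nat_lit 5) (nat_lit 15) (nat_lit 4) (nat_lit 277) (nat_lit 263) (nat_lit 240)) (XT.lf (nat_lit 0) (nat_lit 1440909035) (nat_lit 76) (nat_lit 18936267196) (nat_lit 76) (nat_lit 1761857690) (nat_lit 12) (nat_lit 4) (nat_lit 13) (nat_lit 5) (nat_lit 13) (nat_lit 4) (nat_lit 278) (nat_lit 263) (nat_lit 239))) (XT.nd (nat_lit 78) (nat_lit 76) (nat_lit 0) (XT.lf (nat_lit 0) (nat_lit 3197284376) (nat_lit 152) (nat_lit 10381338631) (nat_lit 76) (nat_lit 10777014542) (nat_lit 11) (nat_lit 5) (nat_lit 13) (nat_lit 5) (nat_lit 12) (nat_lit 4) (nat_lit 279) (nat_lit 263) (nat_lit 238)) (XT.nd (nat_lit 78) (nat_lit 0) (nat_lit 0) (XT.lf (nat_lit 0) (nat_lit 1419685266) (nat_lit 76)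 (nat_lit 7299244417) (nat_lit 152) (nat_lit 18173462977) (nat_lit 10) (nat_lit 5) (nat_lit 11) (nat_lit 5) (nat_lit 12) (nat_lit 4) (nat_lit 280) (nat_lit 263) (nat_lit 237)) (XT.lf (nat_lit 0) (nat_lit 15576082460) (nat_lit 152) (nat_lit 13700908902) (nat_lit 0) (nat_lit 456665374) (nat_lit 10) (nat_lit 5) (nat_lit 12) (nat_lit 4) (nat_lit 10) (nat_lit 4) (nat_lit 281) (nat_lit 263) (nat_lit 236))))) (XT.nd (nat_lit 156) (nat_lit 152) (nat_lit 0) (XT.nd (nat_lit 78) (nat_lit 76) (nat_lit 0) (XT.lf (nat_lit 0) (nat_lit 23758945060) (nat_lit 152) (nat_lit 604504374) (nat_lit 0) (nat_lit 8593164197) (nat_lit 10) (nat_lit 5) (nat_lit 12) (nat_lit 4) (nat_lit 10) (nat_lit 4) (nat_lit 282) (nat_lit 263) (nat_lit 235)) (XT.lf (nat_lit 0) (nat_lit 15779814548) (nat_lit 76) (nat_lit 17998964745) (nat_lit 76) (nat_lit 2792867554) (nat_lit 9) (nat_lit 4) (nat_lit 10) (nat_lit 5) (nat_lit 10) (nat_lit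 4) (nat_lit 283) (nat_lit 263) (nat_lit 234))) (XT.nd (nat_lit 78) (nat_lit 76) (nat_lit 0) (XT.lf (nat_lit 0) (nat_lit 4155286890) (nat_lit 152) (nat_lit 6307288054) (nat_lit 76) (nat_lit 30239548635) (nat_lit 8) (nat_lit 5) (nat_lit 10) (nat_lit 5) (nat_lit 9) (nat_lit 4) (nat_lit 284) (nat_lit 263) (nat_lit 233)) (XT.nd (nat_lit 78) (nat_lit 0) (nat_lit 0) (XT.lf (nat_lit 0) (nat_lit 11137180166) (nat_lit 76) (nat_lit 1145991913) (nat_lit 152) (nat_lit 33085576246) (nat_lit 7) (nat_lit 5) (nat_lit 8) (nat_lit 5) (nat_lit 9) (nat_lit 4) (nat_lit 285) (nat_lit 263) (nat_lit 232)) (XT.lf (nat_lit 0) (nat_lit 22334871117) (nat_lit 152) (nat_lit 19262704331) (nat_lit 0) (nat_lit 9032133338) (nat_lit 7) (nat_lit 5) (nat_lit 9) (nat_lit 4) (nat_lit 7) (nat_lit 4) (nat_lit 286) (nat_lit 263) (nat_lit 231)))))) (XT.nd (nat_lit 390) (nat_lit 76) (nat_lit 0) (XT.nd (nat_lit 156) (nat_lit 152)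 (nat_lit 0) (XT.nd (nat_lit 78) (nat_lit 76) (nat_lit 0) (XT.lf (nat_lit 0) (nat_lit 33916755386) (nat_lit 152) (nat_lit 2165751988) (nat_lit 0) (nat_lit 20593973266) (nat_lit 7) (nat_lit 5) (nat_lit 9) (nat_lit 4) (nat_lit 7) (nat_lit 4) (nat_lit 287) (nat_lit 263) (nat_lit 230)) (XT.lf (nat_lit 0) (nat_lit 19145733094) (nat_lit 76) (nat_lit 28855024772) (nat_lit 76) (nat_lit 15514812792) (nat_lit 6) (nat_lit 4) (nat_lit 7) (nat_lit 5) (nat_lit 7) (nat_lit 4) (nat_lit 288) (nat_lit 263) (nat_lit 229))) (XT.nd (nat_lit 78) (nat_lit 152) (nat_lit 0) (XT.lf (nat_lit 0) (nat_lit 43845323340) (nat_lit 76) (nat_lit 20438790202) (nat_lit 76) (nat_lit 7083421821) (nat_lit 6) (nat_lit 4) (nat_lit 7) (nat_lit 5) (nat_lit 7) (nat_lit 4) (nat_lit 289) (nat_lit 263) (nat_lit 228)) (XT.nd (nat_lit 78) (nat_lit 76) (nat_lit 0) (XT.lf (nat_lit 0) (nat_lit 2355958493) (nat_lit 152) (nat_lit 8303237099)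 (nat_lit 76) (nat_lit 69725507695) (nat_lit 5) (nat_lit 5) (nat_lit 7) (nat_lit 5) (nat_lit 6) (nat_lit 4) (nat_lit 290) (nat_lit 263) (nat_lit 227)) (XT.lf (nat_lit 0) (nat_lit 13143642623) (nat_lit 152) (nat_lit 75952730305) (nat_lit 0) (nat_lit 1508852816) (nat_lit 4) (nat_lit 5) (nat_lit 6) (nat_lit 4) (nat_lit 4) (nat_lit 4) (nat_lit 291) (nat_lit 263) (nat_lit 226))))) (XT.nd (nat_lit 156) (nat_lit 76) (nat_lit 0) (XT.nd (nat_lit 78) (nat_lit 0) (nat_lit 0) (XT.lf (nat_lit 0) (nat_lit 26491072832) (nat_lit 152) (nat_lit 60878911197) (nat_lit 0) (nat_lit 14847617304) (nat_lit 4) (nat_lit 5) (nat_lit 6) (nat_lit 4) (nat_lit 4) (nat_lit 4) (nat_lit 292) (nat_lit 263) (nat_lit 225)) (XT.lf (nat_lit 0) (nat_lit 41822627694) (nat_lit 152) (nat_lit 43580279278) (nat_lit 0) (nat_lit 30171636756) (nat_lit 4) (nat_lit 5) (nat_lit 6) (nat_lit 4) (nat_lit 4) (nat_lit 4) (nat_lit 293) (nat_lit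 263) (nat_lit 224))) (XT.nd (nat_lit 78) (nat_lit 76) (nat_lit 0) (XT.lf (nat_lit 0) (nat_lit 59438272412) (nat_lit 152) (nat_lit 23718383054) (nat_lit 0) (nat_lit 47780728943) (nat_lit 4) (nat_lit 5) (nat_lit 6) (nat_lit 4) (nat_lit 4) (nat_lit 4) (nat_lit 294) (nat_lit 263) (nat_lit 223)) (XT.nd (nat_lit 78) (nat_lit 76) (nat_lit 0) (XT.lf (nat_lit 0) (nat_lit 79682660905) (nat_lit 152) (nat_lit 904620208) (nat_lit 0) (nat_lit 68019419583) (nat_lit 4) (nat_lit 5) (nat_lit 6) (nat_lit 4) (nat_lit 4) (nat_lit 4) (nat_lit 295) (nat_lit 263) (nat_lit 222)) (XT.lf (nat_lit 0) (nat_lit 27780585299) (nat_lit 76) (nat_lit 76321628529) (nat_lit 76) (nat_lit 64653432554) (nat_lit 3) (nat_lit 4) (nat_lit 4) (nat_lit 5) (nat_lit 4) (nat_lit 4) (nat_lit 296) (nat_lit 263) (nat_lit 221))))))))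
noncomputable def xc55 : XT := (XT.nd (nat_lit 1482) (nat_lit 0) (nat_lit 0) (XT.nd (nat_lit 702) (nat_lit 0) (nat_lit 0) (XT.nd (nat_lit 312) (nat_lit 152) (nat_lit 0) (XT.nd (nat_lit 156) (nat_lit 0) (nat_lit 0) (XT.nd (nat_lit 78) (nat_lit 0) (nat_lit 0) (XT.lf (nat_lit 0) (nat_lit 60847480740) (nat_lit 76) (nat_lit 71373277789) (nat_lit 76) (nat_lit 59700773418) (nat_lit 3) (nat_lit 4) (nat_lit 4) (nat_lit 5) (nat_lit 4) (nat_lit 4) (nat_lit 297) (nat_lit 263) (nat_lit 220)) (XT.lf (nat_lit 0) (nat_lit 98854621049) (nat_lit 76) (nat_lit 65692700299) (nat_lit 76) (nat_lit 54016449497) (nat_lit 3) (nat_lit 4) (nat_lit 4) (nat_lit 5) (nat_lit 4) (nat_lit 4) (nat_lit 298) (nat_lit 263) (nat_lit 219))) (XT.nd (nat_lit 78) (nat_lit 0) (nat_lit 0) (XT.lf (nat_lit 0) (nat_lit 142545624186) (nat_lit 76) (nat_lit 59168754325) (nat_lit 76) (nat_lit 47489245758) (nat_lit 3) (nat_lit 4) (nat_lit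 4) (nat_lit 5) (nat_lit 4) (nat_lit 4) (nat_lit 299) (nat_lit 263) (nat_lit 218)) (XT.lf (nat_lit 0) (nat_lit 192775314127) (nat_lit 76) (nat_lit 51673797448) (nat_lit 76) (nat_lit 39991456040) (nat_lit 3) (nat_lit 4) (nat_lit 4) (nat_lit 5) (nat_lit 4) (nat_lit 4) (nat_lit 300) (nat_lit 263) (nat_lit 217)))) (XT.nd (nat_lit 156) (nat_lit 152) (nat_lit 0) (XT.nd (nat_lit 78) (nat_lit 0) (nat_lit 0) (XT.lf (nat_lit 0) (nat_lit 250526445675) (nat_lit 76) (nat_lit 43061189205) (nat_lit 76) (nat_lit 31376384459) (nat_lit 3) (nat_lit 4) (nat_lit 4) (nat_lit 5) (nat_lit 4) (nat_lit 4) (nat_lit 301) (nat_lit 263) (nat_lit 216)) (XT.lf (nat_lit 0) (nat_lit 316928932273) (nat_lit 76) (nat_lit 33162422044) (nat_lit 76) (nat_lit 21475475264) (nat_lit 3) (nat_lit 4) (nat_lit 4) (nat_lit 5) (nat_lit 4) (nat_lit 4) (nat_lit 302) (nat_lit 263) (nat_lit 215))) (XT.nd (nat_lit 78) (nat_lit 152) (nat_lit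 0) (XT.lf (nat_lit 0) (nat_lit 393281953007) (nat_lit 76) (nat_lit 21783824435) (nat_lit 76) (nat_lit 10095015017) (nat_lit 3) (nat_lit 4) (nat_lit 4) (nat_lit 5) (nat_lit 4) (nat_lit 4) (nat_lit 303) (nat_lit 263) (nat_lit 214)) (XT.nd (nat_lit 78) (nat_lit 76) (nat_lit 0) (XT.lf (nat_lit 0) (nat_lit 2721675535) (nat_lit 152) (nat_lit 5838826702) (nat_lit 76) (nat_lit 478215426387) (nat_lit 2) (nat_lit 5) (nat_lit 4) (nat_lit 5) (nat_lit 3) (nat_lit 4) (nat_lit 304) (nat_lit 263) (nat_lit 213)) (XT.lf (nat_lit 0) (nat_lit 17846119636) (nat_lit 152) (nat_lit 531822987797) (nat_lit 0) (nat_lit 7679304396) (nat_lit 1) (nat_lit 5) (nat_lit 3) (nat_lit 4) (nat_lit 1) (nat_lit 4) (nat_lit 305) (nat_lit 263) (nat_lit 212)))))) (XT.nd (nat_lit 390) (nat_lit 0) (nat_lit 0) (XT.nd (nat_lit 156) (nat_lit 0) (nat_lit 0) (XT.nd (nat_lit 78) (nat_lit 0) (nat_lit 0) (XT.lf (nat_lit 0) (nat_lit 35962806430)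 (nat_lit 152) (nat_lit 576640500147) (nat_lit 0) (nat_lit 25794926221) (nat_lit 1) (nat_lit 5) (nat_lit 3) (nat_lit 4) (nat_lit 1) (nat_lit 4) (nat_lit 306) (nat_lit 263) (nat_lit 211)) (XT.lf (nat_lit 0) (nat_lit 56793681323) (nat_lit 152) (nat_lit 628187469246) (nat_lit 0) (nat_lit 46624875054) (nat_lit 1) (nat_lit 5) (nat_lit 3) (nat_lit 4) (nat_lit 1) (nat_lit 4) (nat_lit 307) (nat_lit 263) (nat_lit 210))) (XT.nd (nat_lit 78) (nat_lit 0) (nat_lit 0) (XT.lf (nat_lit 0) (nat_lit 80746304911) (nat_lit 152) (nat_lit 687472422749) (nat_lit 0) (nat_lit 70576693372) (nat_lit 1) (nat_lit 5) (nat_lit 3) (nat_lit 4) (nat_lit 1) (nat_lit 4) (nat_lit 308) (nat_lit 263) (nat_lit 209)) (XT.nd (nat_lit 78) (nat_lit 0) (nat_lit 0) (XT.lf (nat_lit 0) (nat_lit 108289315483) (nat_lit 152) (nat_lit 755655283660) (nat_lit 0) (nat_lit 98119003709) (nat_lit 1) (nat_lit 5) (nat_lit 3) (nat_lit 4) (nat_lit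 1) (nat_lit 4) (nat_lit 309) (nat_lit 263) (nat_lit 208)) (XT.lf (nat_lit 0) (nat_lit 139961598026) (nat_lit 152) (nat_lit 834070064475) (nat_lit 0) (nat_lit 129790677353) (nat_lit 1) (nat_lit 5) (nat_lit 3) (nat_lit 4) (nat_lit 1) (nat_lit 4) (nat_lit 310) (nat_lit 263) (nat_lit 207))))) (XT.nd (nat_lit 156) (nat_lit 0) (nat_lit 0) (XT.nd (nat_lit 78) (nat_lit 0) (nat_lit 0) (XT.lf (nat_lit 0) (nat_lit 176382827635) (nat_lit 152) (nat_lit 924250967427) (nat_lit 0) (nat_lit 166211377483) (nat_lit 1) (nat_lit 5) (nat_lit 3) (nat_lit 4) (nat_lit 1) (nat_lit 4) (nat_lit 311) (nat_lit 263) (nat_lit 206)) (XT.lf (nat_lit 0) (nat_lit 218265593584) (nat_lit 152) (nat_lit 1027962401487) (nat_lit 0) (nat_lit 208093683017) (nat_lit 1) (nat_lit 5) (nat_lit 3) (nat_lit 4) (nat_lit 1) (nat_lit 4) (nat_lit 312) (nat_lit 263) (nat_lit 205))) (XT.nd (nat_lit 78) (nat_lit 0) (nat_lit 0) (XT.lf (nat_lit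 0) (nat_lit 266429341294) (nat_lit 152) (nat_lit 1147233503409) (nat_lit 0) (nat_lit 256257030366) (nat_lit 1) (nat_lit 5) (nat_lit 3) (nat_lit 4) (nat_lit 1) (nat_lit 4) (nat_lit 313) (nat_lit 263) (nat_lit 204)) (XT.nd (nat_lit 78) (nat_lit 0) (nat_lit 0) (XT.lf (nat_lit 0) (nat_lit 321816404960) (nat_lit 152) (nat_lit 1284397838229) (nat_lit 0) (nat_lit 311643745892) (nat_lit 1) (nat_lit 5) (nat_lit 3) (nat_lit 4) (nat_lit 1) (nat_lit 4) (nat_lit 314) (nat_lit 263) (nat_lit 203)) (XT.lf (nat_lit 0) (nat_lit 385510444523) (nat_lit 152) (nat_lit 1442139055978) (nat_lit 0) (nat_lit 375337482723) (nat_lit 1) (nat_lit 5) (nat_lit 3) (nat_lit 4) (nat_lit 1) (nat_lit 4) (nat_lit 315) (nat_lit 263) (nat_lit 202))))))) (XT.nd (nat_lit 780) (nat_lit 0) (nat_lit 0) (XT.nd (nat_lit 390) (nat_lit 0) (nat_lit 0) (XT.nd (nat_lit 156) (nat_lit 0) (nat_lit 0) (XT.nd (nat_lit 78) (nat_lit 0) (nat_lit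 0) (XT.lf (nat_lit 0) (nat_lit 458757647713) (nat_lit 152) (nat_lit 1623543397871) (nat_lit 0) (nat_lit 448584422669) (nat_lit 1) (nat_lit 5) (nat_lit 3) (nat_lit 4) (nat_lit 1) (nat_lit 4) (nat_lit 316) (nat_lit 263) (nat_lit 201)) (XT.lf (nat_lit 0) (nat_lit 542991111984) (nat_lit 152) (nat_lit 1832160079295) (nat_lit 0) (nat_lit 532817658032) (nat_lit 1) (nat_lit 5) (nat_lit 3) (nat_lit 4) (nat_lit 1) (nat_lit 4) (nat_lit 317) (nat_lit 263) (nat_lit 200))) (XT.nd (nat_lit 78) (nat_lit 0) (nat_lit 0) (XT.lf (nat_lit 0) (nat_lit 639858883376) (nat_lit 152) (nat_lit 2072070730971) (nat_lit 0) (nat_lit 629685230374) (nat_lit 1) (nat_lit 5) (nat_lit 3) (nat_lit 4) (nat_lit 1) (nat_lit 4) (nat_lit 318) (nat_lit 263) (nat_lit 199)) (XT.nd (nat_lit 78) (nat_lit 0) (nat_lit 0) (XT.lf (nat_lit 0) (nat_lit 751256200895) (nat_lit 152) (nat_lit 2347969256956) (nat_lit 0) (nat_lit 741082374806)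 (nat_lit 1) (nat_lit 5) (nat_lit 3) (nat_lit 4) (nat_lit 1) (nat_lit 4) (nat_lit 319) (nat_lit 263) (nat_lit 198)) (XT.lf (nat_lit 0) (nat_lit 879362577275) (nat_lit 152) (nat_lit 2665253671887) (nat_lit 0) (nat_lit 869188600675) (nat_lit 1) (nat_lit 5) (nat_lit 3) (nat_lit 4) (nat_lit 1) (nat_lit 4) (nat_lit 320) (nat_lit 263) (nat_lit 197))))) (XT.nd (nat_lit 156) (nat_lit 0) (nat_lit 0) (XT.nd (nat_lit 78) (nat_lit 0) (nat_lit 0) (XT.lf (nat_lit 0) (nat_lit 1026684441618) (nat_lit 152) (nat_lit 3030131714318) (nat_lit 0) (nat_lit 1016510334139) (nat_lit 1) (nat_lit 5) (nat_lit 3) (nat_lit 4) (nat_lit 1) (nat_lit 4) (nat_lit 321) (nat_lit 263) (nat_lit 196)) (XT.lf (nat_lit 0) (nat_lit 1196104178228) (nat_lit 152) (nat_lit 3449742302470) (nat_lit 0) (nat_lit 1185929956941) (nat_lit 1) (nat_lit 5) (nat_lit 3) (nat_lit 4) (nat_lit 1) (nat_lit 4) (nat_lit 322) (nat_lit 263) (nat_lit 195)))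 (XT.nd (nat_lit 78) (nat_lit 0) (nat_lit 0) (XT.lf (nat_lit 0) (nat_lit 1390936521081) (nat_lit 152) (nat_lit 3932295208720) (nat_lit 0) (nat_lit 1380762200831) (nat_lit 1) (nat_lit 5) (nat_lit 3) (nat_lit 4) (nat_lit 1) (nat_lit 4) (nat_lit 323) (nat_lit 263) (nat_lit 194)) (XT.nd (nat_lit 78) (nat_lit 0) (nat_lit 0) (XT.lf (nat_lit 0) (nat_lit 1614993407319) (nat_lit 152) (nat_lit 4487231685582) (nat_lit 0) (nat_lit 1604819001015) (nat_lit 1) (nat_lit 5) (nat_lit 3) (nat_lit 4) (nat_lit 1) (nat_lit 4) (nat_lit 324) (nat_lit 263) (nat_lit 193)) (XT.lf (nat_lit 0) (nat_lit 1872658558632) (nat_lit 152) (nat_lit 5125409185863) (nat_lit 0) (nat_lit 1862484077496) (nat_lit 1) (nat_lit 5) (nat_lit 3) (nat_lit 4) (nat_lit 1) (nat_lit 4) (nat_lit 325) (nat_lit 263) (nat_lit 192)))))) (XT.nd (nat_lit 390) (nat_lit 0) (nat_lit 0) (XT.nd (nat_lit 156) (nat_lit 0) (nat_lit 0) (XT.nd (nat_lit 78)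 (nat_lit 0) (nat_lit 0) (XT.lf (nat_lit 0) (nat_lit 2168973249717) (nat_lit 152) (nat_lit 5859313791092) (nat_lit 0) (nat_lit 2158798703512) (nat_lit 1) (nat_lit 5) (nat_lit 3) (nat_lit 4) (nat_lit 1) (nat_lit 4) (nat_lit 326) (nat_lit 263) (nat_lit 191)) (XT.lf (nat_lit 0) (nat_lit 2509734941922) (nat_lit 152) (nat_lit 6703304504413) (nat_lit 0) (nat_lit 2499560339135) (nat_lit 1) (nat_lit 5) (nat_lit 3) (nat_lit 4) (nat_lit 1) (nat_lit 4) (nat_lit 327) (nat_lit 263) (nat_lit 190))) (XT.nd (nat_lit 78) (nat_lit 0) (nat_lit 0) (XT.lf (nat_lit 0) (nat_lit 2901610711835) (nat_lit 152) (nat_lit 7673894187609) (nat_lit 0) (nat_lit 2891436059845) (nat_lit 1) (nat_lit 5) (nat_lit 3) (nat_lit 4) (nat_lit 1) (nat_lit 4) (nat_lit 328) (nat_lit 263) (nat_lit 189)) (XT.nd (nat_lit 78) (nat_lit 0) (nat_lit 0) (XT.lf (nat_lit 0) (nat_lit 3352267694083) (nat_lit 152) (nat_lit 8790072638830) (nat_lit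 0) (nat_lit 3342092999308) (nat_lit 1) (nat_lit 5) (nat_lit 3) (nat_lit 4) (nat_lit 1) (nat_lit 4) (nat_lit 329) (nat_lit 263) (nat_lit 188)) (XT.lf (nat_lit 0) (nat_lit 3870523090493) (nat_lit 152) (nat_lit 10073678132122) (nat_lit 0) (nat_lit 3860348358515) (nat_lit 1) (nat_lit 5) (nat_lit 3) (nat_lit 4) (nat_lit 1) (nat_lit 4) (nat_lit 330) (nat_lit 263) (nat_lit 187))))) (XT.nd (nat_lit 156) (nat_lit 0) (nat_lit 0) (XT.nd (nat_lit 78) (nat_lit 0) (nat_lit 0) (XT.lf (nat_lit 0) (nat_lit 4466516680561) (nat_lit 152) (nat_lit 11549824688004) (nat_lit 0) (nat_lit 4456341916231) (nat_lit 1) (nat_lit 5) (nat_lit 3) (nat_lit 4) (nat_lit 1) (nat_lit 4) (nat_lit 331) (nat_lit 263) (nat_lit 186)) (XT.lf (nat_lit 0) (nat_lit 5151909208439) (nat_lit 152) (nat_lit 13247393434745) (nat_lit 0) (nat_lit 5141734415977) (nat_lit 1) (nat_lit 5) (nat_lit 3) (nat_lit 4) (nat_lit 1) (nat_lit 4) (nat_lit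 332) (nat_lit 263) (nat_lit 185))) (XT.nd (nat_lit 78) (nat_lit 0) (nat_lit 0) (XT.lf (nat_lit 0) (nat_lit 5940110527934) (nat_lit 152) (nat_lit 15199597673912) (nat_lit 0) (nat_lit 5929935711010) (nat_lit 1) (nat_lit 5) (nat_lit 3) (nat_lit 4) (nat_lit 1) (nat_lit 4) (nat_lit 333) (nat_lit 263) (nat_lit 184)) (XT.nd (nat_lit 78) (nat_lit 0) (nat_lit 0) (XT.lf (nat_lit 0) (nat_lit 6846541969210) (nat_lit 152) (nat_lit 17444632705834) (nat_lit 0) (nat_lit 6836367131015) (nat_lit 1) (nat_lit 5) (nat_lit 3) (nat_lit 4) (nat_lit 1) (nat_lit 4) (nat_lit 334) (nat_lit 263) (nat_lit 183)) (XT.lf (nat_lit 0) (nat_lit 7888938060466) (nat_lit 152) (nat_lit 20026423128965) (nat_lit 0) (nat_lit 7878763203774) (nat_lit 1) (nat_lit 5) (nat_lit 3) (nat_lit 4) (nat_lit 1) (nat_lit 4) (nat_lit 335) (nat_lit 263) (nat_lit 182))))))))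
noncomputable def xc56 : XT := (XT.nd (nat_lit 36036) (nat_lit 0) (nat_lit 228) (XT.nd (nat_lit 35256) (nat_lit 0) (nat_lit 988) (XT.nd (nat_lit 312) (nat_lit 0) (nat_lit 0) (XT.nd (nat_lit 156) (nat_lit 0) (nat_lit 0) (XT.nd (nat_lit 78) (nat_lit 0) (nat_lit 0) (XT.lf (nat_lit 0) (nat_lit 9087693507835) (nat_lit 152) (nat_lit 22995482234190) (nat_lit 0) (nat_lit 9077518635059) (nat_lit 1) (nat_lit 5) (nat_lit 3) (nat_lit 4) (nat_lit 1) (nat_lit 4) (nat_lit 336) (nat_lit 263) (nat_lit 181)) (XT.lf (nat_lit 0) (nat_lit 10466262222244) (nat_lit 152) (nat_lit 26409900308350) (nat_lit 0) (nat_lit 10456087335482) (nat_lit 1) (nat_lit 5) (nat_lit 3) (nat_lit 4) (nat_lit 1) (nat_lit 4) (nat_lit 337) (nat_lit 263) (nat_lit 180))) (XT.nd (nat_lit 78) (nat_lit 0) (nat_lit 0) (XT.lf (nat_lit 0) (nat_lit 12051616200280) (nat_lit 152) (nat_lit 30336481183333) (nat_lit 0) (nat_lit 12041441301355) (nat_lit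 1) (nat_lit 5) (nat_lit 3) (nat_lit 4) (nat_lit 1) (nat_lit 4) (nat_lit 338) (nat_lit 263) (nat_lit 179)) (XT.lf (nat_lit 0) (nat_lit 13874773237164) (nat_lit 152) (nat_lit 34852049267561) (nat_lit 0) (nat_lit 13864598327664) (nat_lit 1) (nat_lit 5) (nat_lit 3) (nat_lit 4) (nat_lit 1) (nat_lit 4) (nat_lit 339) (nat_lit 263) (nat_lit 178)))) (XT.nd (nat_lit 34710) (nat_lit 0) (nat_lit 1976) (XT.nd (nat_lit 78) (nat_lit 0) (nat_lit 0) (XT.lf (nat_lit 0) (nat_lit 15971403796662) (nat_lit 152) (nat_lit 40044952632248) (nat_lit 0) (nat_lit 15961228877965) (nat_lit 1) (nat_lit 5) (nat_lit 3) (nat_lit 4) (nat_lit 1) (nat_lit 4) (nat_lit 340) (nat_lit 263) (nat_lit 177)) (XT.lf (nat_lit 0) (nat_lit 18382528911459) (nat_lit 152) (nat_lit 46016791560615) (nat_lit 0) (nat_lit 18372353984766) (nat_lit 1) (nat_lit 5) (nat_lit 3) (nat_lit 4) (nat_lit 1) (nat_lit 4) (nat_lit 341) (nat_lit 263) (nat_lit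 176))) (XT.nd (nat_lit 78) (nat_lit 0) (nat_lit 0) (XT.lf (nat_lit 0) (nat_lit 742344829) (nat_lit 0) (nat_lit 742344829) (nat_lit 228) (nat_lit 2498410860) (nat_lit 27) (nat_lit 5) (nat_lit 27) (nat_lit 3) (nat_lit 30) (nat_lit 3) (nat_lit 264) (nat_lit 264) (nat_lit 252)) (XT.nd (nat_lit 78) (nat_lit 0) (nat_lit 0) (XT.lf (nat_lit 0) (nat_lit 4363951261) (nat_lit 228) (nat_lit 2745903583) (nat_lit 304) (nat_lit 1272905652) (nat_lit 27) (nat_lit 5) (nat_lit 30) (nat_lit 3) (nat_lit 31) (nat_lit 5) (nat_lit 265) (nat_lit 264) (nat_lit 251)) (XT.lf (nat_lit 76) (nat_lit 1476878707) (nat_lit 0) (nat_lit 4428437298) (nat_lit 304) (nat_lit 2966759404) (nat_lit 28) (nat_lit 5) (nat_lit 27) (nat_lit 5) (nat_lit 31) (nat_lit 5) (nat_lit 266) (nat_lit 264) (nat_lit 250)))))) (XT.nd (nat_lit 390) (nat_lit 456) (nat_lit 0) (XT.nd (nat_lit 156) (nat_lit 380) (nat_lit 0) (XT.nd (nat_lit 78) (nat_lit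 152) (nat_lit 0) (XT.lf (nat_lit 76) (nat_lit 6513819932) (nat_lit 0) (nat_lit 1133396621) (nat_lit 304) (nat_lit 1792964894) (nat_lit 28) (nat_lit 5) (nat_lit 27) (nat_lit 5) (nat_lit 31) (nat_lit 5) (nat_lit 267) (nat_lit 264) (nat_lit 249)) (XT.lf (nat_lit 0) (nat_lit 2158746106) (nat_lit 228) (nat_lit 7541206609) (nat_lit 304) (nat_lit 386808145) (nat_lit 25) (nat_lit 5) (nat_lit 28) (nat_lit 5) (nat_lit 29) (nat_lit 5) (nat_lit 268) (nat_lit 264) (nat_lit 248))) (XT.nd (nat_lit 78) (nat_lit 304) (nat_lit 0) (XT.lf (nat_lit 0) (nat_lit 1192303900) (nat_lit 304) (nat_lit 2728611719) (nat_lit 76) (nat_lit 6891558030) (nat_lit 24) (nat_lit 5) (nat_lit 28) (nat_lit 5) (nat_lit 25) (nat_lit 5) (nat_lit 269) (nat_lit 264) (nat_lit 247)) (XT.nd (nat_lit 78) (nat_lit 0) (nat_lit 0) (XT.lf (nat_lit 0) (nat_lit 3003405412) (nat_lit 380) (nat_lit 8249533628) (nat_lit 76) (nat_lit 386586453)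 (nat_lit 20) (nat_lit 5) (nat_lit 25) (nat_lit 5) (nat_lit 21) (nat_lit 5) (nat_lit 270) (nat_lit 264) (nat_lit 246)) (XT.lf (nat_lit 0) (nat_lit 5309168192) (nat_lit 380) (nat_lit 2166693057) (nat_lit 76) (nat_lit 5081718995) (nat_lit 20) (nat_lit 5) (nat_lit 25) (nat_lit 5) (nat_lit 21) (nat_lit 5) (nat_lit 271) (nat_lit 264) (nat_lit 245))))) (XT.nd (nat_lit 156) (nat_lit 304) (nat_lit 0) (XT.nd (nat_lit 78) (nat_lit 0) (nat_lit 0) (XT.lf (nat_lit 0) (nat_lit 5169688771) (nat_lit 152) (nat_lit 2906791360) (nat_lit 228) (nat_lit 5519853442) (nat_lit 18) (nat_lit 5) (nat_lit 20) (nat_lit 5) (nat_lit 21) (nat_lit 5) (nat_lit 272) (nat_lit 264) (nat_lit 244)) (XT.lf (nat_lit 0) (nat_lit 11383523356) (nat_lit 228) (nat_lit 1153057610) (nat_lit 76) (nat_lit 2235922086) (nat_lit 18) (nat_lit 5) (nat_lit 21) (nat_lit 5) (nat_lit 19) (nat_lit 4) (nat_lit 273) (nat_lit 264) (nat_lit 243))) (XT.nd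 (nat_lit 78) (nat_lit 228) (nat_lit 0) (XT.lf (nat_lit 0) (nat_lit 7643564924) (nat_lit 76) (nat_lit 7918651396) (nat_lit 152) (nat_lit 506802059) (nat_lit 17) (nat_lit 5) (nat_lit 18) (nat_lit 5) (nat_lit 19) (nat_lit 4) (nat_lit 274) (nat_lit 264) (nat_lit 242)) (XT.nd (nat_lit 78) (nat_lit 0) (nat_lit 0) (XT.lf (nat_lit 0) (nat_lit 116775735) (nat_lit 152) (nat_lit 2431914667) (nat_lit 228) (nat_lit 14995435228) (nat_lit 14) (nat_lit 5) (nat_lit 16) (nat_lit 5) (nat_lit 17) (nat_lit 5) (nat_lit 275) (nat_lit 264) (nat_lit 241)) (XT.lf (nat_lit 0) (nat_lit 6559646204) (nat_lit 228) (nat_lit 8609917232) (nat_lit 76) (nat_lit 3985132134) (nat_lit 14) (nat_lit 5) (nat_lit 17) (nat_lit 5) (nat_lit 15) (nat_lit 4) (nat_lit 276) (nat_lit 264) (nat_lit 240))))))) (XT.nd (nat_lit 780) (nat_lit 228) (nat_lit 0) (XT.nd (nat_lit 390) (nat_lit 228) (nat_lit 0) (XT.nd (nat_lit 156) (nat_lit 228)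 (nat_lit 0) (XT.nd (nat_lit 78) (nat_lit 0) (nat_lit 0) (XT.lf (nat_lit 0) (nat_lit 1440815154) (nat_lit 76) (nat_lit 9843470408) (nat_lit 152) (nat_lit 9705907731) (nat_lit 13) (nat_lit 5) (nat_lit 14) (nat_lit 5) (nat_lit 15) (nat_lit 4) (nat_lit 277) (nat_lit 264) (nat_lit 239)) (XT.lf (nat_lit 0) (nat_lit 13869640053) (nat_lit 76) (nat_lit 3238868307) (nat_lit 152) (nat_lit 5934003159) (nat_lit 13) (nat_lit 5) (nat_lit 14) (nat_lit 5) (nat_lit 15) (nat_lit 4) (nat_lit 278) (nat_lit 264) (nat_lit 238))) (XT.nd (nat_lit 78) (nat_lit 152) (nat_lit 0) (XT.lf (nat_lit 0) (nat_lit 2731996588) (nat_lit 76) (nat_lit 21315059228) (nat_lit 76) (nat_lit 1319630132) (nat_lit 12) (nat_lit 4) (nat_lit 13) (nat_lit 5) (nat_lit 13) (nat_lit 4) (nat_lit 279) (nat_lit 264) (nat_lit 237)) (XT.nd (nat_lit 78) (nat_lit 76) (nat_lit 0) (XT.lf (nat_lit 0) (nat_lit 4236536288) (nat_lit 152) (nat_lit 10948192171)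 (nat_lit 76) (nat_lit 12739392724) (nat_lit 11) (nat_lit 5) (nat_lit 13) (nat_lit 5) (nat_lit 12) (nat_lit 4) (nat_lit 280) (nat_lit 264) (nat_lit 236)) (XT.lf (nat_lit 0) (nat_lit 2577969527) (nat_lit 76) (nat_lit 7974603990) (nat_lit 152) (nat_lit 20294013374) (nat_lit 10) (nat_lit 5) (nat_lit 11) (nat_lit 5) (nat_lit 12) (nat_lit 4) (nat_lit 281) (nat_lit 264) (nat_lit 235))))) (XT.nd (nat_lit 156) (nat_lit 152) (nat_lit 0) (XT.nd (nat_lit 78) (nat_lit 76) (nat_lit 0) (XT.lf (nat_lit 0) (nat_lit 18384821876) (nat_lit 152) (nat_lit 14879850093) (nat_lit 0) (nat_lit 857493777) (nat_lit 10) (nat_lit 5) (nat_lit 12) (nat_lit 4) (nat_lit 10) (nat_lit 4) (nat_lit 282) (nat_lit 264) (nat_lit 234)) (XT.lf (nat_lit 0) (nat_lit 73250013) (nat_lit 76) (nat_lit 27663289104) (nat_lit 76) (nat_lit 10100903328) (nat_lit 9) (nat_lit 4) (nat_lit 10) (nat_lit 5) (nat_lit 10) (nat_lit 4) (nat_lit 283)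 (nat_lit 264) (nat_lit 233))) (XT.nd (nat_lit 78) (nat_lit 152) (nat_lit 0) (XT.lf (nat_lit 0) (nat_lit 18874063333) (nat_lit 76) (nat_lit 20358794934) (nat_lit 76) (nat_lit 2765924221) (nat_lit 9) (nat_lit 4) (nat_lit 10) (nat_lit 5) (nat_lit 10) (nat_lit 4) (nat_lit 284) (nat_lit 264) (nat_lit 232)) (XT.nd (nat_lit 78) (nat_lit 76) (nat_lit 0) (XT.lf (nat_lit 0) (nat_lit 5131778816) (nat_lit 152) (nat_lit 6586054897) (nat_lit 76) (nat_lit 35036233805) (nat_lit 8) (nat_lit 5) (nat_lit 10) (nat_lit 5) (nat_lit 9) (nat_lit 4) (nat_lit 285) (nat_lit 264) (nat_lit 231)) (XT.lf (nat_lit 0) (nat_lit 13444750539) (nat_lit 76) (nat_lit 1014403359) (nat_lit 152) (nat_lit 37664537502) (nat_lit 7) (nat_lit 5) (nat_lit 8) (nat_lit 5) (nat_lit 9) (nat_lit 4) (nat_lit 286) (nat_lit 264) (nat_lit 230)))))) (XT.nd (nat_lit 390) (nat_lit 76) (nat_lit 0) (XT.nd (nat_lit 156) (nat_lit 152) (nat_lit 0)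 (XT.nd (nat_lit 78) (nat_lit 0) (nat_lit 0) (XT.lf (nat_lit 0) (nat_lit 25986034629) (nat_lit 152) (nat_lit 21565331060) (nat_lit 0) (nat_lit 10627360990) (nat_lit 7) (nat_lit 5) (nat_lit 9) (nat_lit 4) (nat_lit 7) (nat_lit 4) (nat_lit 287) (nat_lit 264) (nat_lit 229)) (XT.lf (nat_lit 0) (nat_lit 39265949428) (nat_lit 152) (nat_lit 1980372247) (nat_lit 0) (nat_lit 23892119388) (nat_lit 7) (nat_lit 5) (nat_lit 9) (nat_lit 4) (nat_lit 7) (nat_lit 4) (nat_lit 288) (nat_lit 264) (nat_lit 228))) (XT.nd (nat_lit 78) (nat_lit 76) (nat_lit 0) (XT.lf (nat_lit 0) (nat_lit 22504642755) (nat_lit 76) (nat_lit 32943944946) (nat_lit 76) (nat_lit 17556935426) (nat_lit 6) (nat_lit 4) (nat_lit 7) (nat_lit 5) (nat_lit 7) (nat_lit 4) (nat_lit 289) (nat_lit 264) (nat_lit 227)) (XT.nd (nat_lit 78) (nat_lit 76) (nat_lit 0) (XT.lf (nat_lit 0) (nat_lit 50845643316) (nat_lit 76) (nat_lit 23296492609) (nat_lit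 76) (nat_lit 7898022673) (nat_lit 6) (nat_lit 4) (nat_lit 7) (nat_lit 5) (nat_lit 7) (nat_lit 4) (nat_lit 290) (nat_lit 264) (nat_lit 226)) (XT.lf (nat_lit 0) (nat_lit 2905736218) (nat_lit 152) (nat_lit 9161102646) (nat_lit 76) (nat_lit 80345963918) (nat_lit 5) (nat_lit 5) (nat_lit 7) (nat_lit 5) (nat_lit 6) (nat_lit 4) (nat_lit 291) (nat_lit 264) (nat_lit 225))))) (XT.nd (nat_lit 156) (nat_lit 0) (nat_lit 0) (XT.nd (nat_lit 78) (nat_lit 0) (nat_lit 0) (XT.lf (nat_lit 0) (nat_lit 15308893994) (nat_lit 152) (nat_lit 86955211811) (nat_lit 0) (nat_lit 1902719005) (nat_lit 4) (nat_lit 5) (nat_lit 6) (nat_lit 4) (nat_lit 4) (nat_lit 4) (nat_lit 292) (nat_lit 264) (nat_lit 224)) (XT.lf (nat_lit 0) (nat_lit 30633172868) (nat_lit 152) (nat_lit 69671245233) (nat_lit 0) (nat_lit 17220445349) (nat_lit 4) (nat_lit 5) (nat_lit 6) (nat_lit 4) (nat_lit 4) (nat_lit 4) (nat_lit 293) (nat_lit 264) (nat_lit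 223))) (XT.nd (nat_lit 78) (nat_lit 0) (nat_lit 0) (XT.lf (nat_lit 0) (nat_lit 48242490641) (nat_lit 152) (nat_lit 49822101480) (nat_lit 0) (nat_lit 34824065268) (nat_lit 4) (nat_lit 5) (nat_lit 6) (nat_lit 4) (nat_lit 4) (nat_lit 4) (nat_lit 294) (nat_lit 264) (nat_lit 222)) (XT.nd (nat_lit 78) (nat_lit 0) (nat_lit 0) (XT.lf (nat_lit 0) (nat_lit 68481377441) (nat_lit 152) (nat_lit 27019427738) (nat_lit 0) (nat_lit 55057997415) (nat_lit 4) (nat_lit 5) (nat_lit 6) (nat_lit 4) (nat_lit 4) (nat_lit 4) (nat_lit 295) (nat_lit 264) (nat_lit 221)) (XT.lf (nat_lit 0) (nat_lit 91745811490) (nat_lit 152) (nat_lit 817084740) (nat_lit 0) (nat_lit 78318123068) (nat_lit 4) (nat_lit 5) (nat_lit 6) (nat_lit 4) (nat_lit 4) (nat_lit 4) (nat_lit 296) (nat_lit 264) (nat_lit 220))))))))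
noncomputable def xc57 : XT := (XT.nd (nat_lit 1482) (nat_lit 0) (nat_lit 0) (XT.nd (nat_lit 702) (nat_lit 76) (nat_lit 0) (XT.nd (nat_lit 312) (nat_lit 76) (nat_lit 0) (XT.nd (nat_lit 156) (nat_lit 0) (nat_lit 0) (XT.nd (nat_lit 78) (nat_lit 0) (nat_lit 0) (XT.lf (nat_lit 0) (nat_lit 32160754842) (nat_lit 76) (nat_lit 87661919929) (nat_lit 76) (nat_lit 74230485077) (nat_lit 3) (nat_lit 4) (nat_lit 4) (nat_lit 5) (nat_lit 4) (nat_lit 4) (nat_lit 297) (nat_lit 264) (nat_lit 219)) (XT.lf (nat_lit 0) (nat_lit 70159891329) (nat_lit 76) (nat_lit 81985397388) (nat_lit 76) (nat_lit 68550704770) (nat_lit 3) (nat_lit 4) (nat_lit 4) (nat_lit 5) (nat_lit 4) (nat_lit 4) (nat_lit 298) (nat_lit 264) (nat_lit 218))) (XT.nd (nat_lit 78) (nat_lit 0) (nat_lit 0) (XT.lf (nat_lit 0) (nat_lit 113843934621) (nat_lit 76) (nat_lit 75464977457) (nat_lit 76) (nat_lit 62027451999) (nat_lit 3) (nat_lit 4) (nat_lit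 4) (nat_lit 5) (nat_lit 4) (nat_lit 4) (nat_lit 299) (nat_lit 264) (nat_lit 217)) (XT.lf (nat_lit 0) (nat_lit 164067572523) (nat_lit 76) (nat_lit 67973086704) (nat_lit 76) (nat_lit 54533097907) (nat_lit 3) (nat_lit 4) (nat_lit 4) (nat_lit 5) (nat_lit 4) (nat_lit 4) (nat_lit 300) (nat_lit 264) (nat_lit 216)))) (XT.nd (nat_lit 156) (nat_lit 76) (nat_lit 0) (XT.nd (nat_lit 78) (nat_lit 0) (nat_lit 0) (XT.lf (nat_lit 0) (nat_lit 221813441428) (nat_lit 76) (nat_lit 59363144655) (nat_lit 76) (nat_lit 45921013825) (nat_lit 3) (nat_lit 4) (nat_lit 4) (nat_lit 5) (nat_lit 4) (nat_lit 4) (nat_lit 301) (nat_lit 264) (nat_lit 215)) (XT.lf (nat_lit 0) (nat_lit 288211351815) (nat_lit 76) (nat_lit 49466695925) (nat_lit 76) (nat_lit 36022702456) (nat_lit 3) (nat_lit 4) (nat_lit 4) (nat_lit 5) (nat_lit 4) (nat_lit 4) (nat_lit 302) (nat_lit 264) (nat_lit 214))) (XT.nd (nat_lit 78) (nat_lit 76) (nat_lit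 0) (XT.lf (nat_lit 0) (nat_lit 364560393234) (nat_lit 76) (nat_lit 38090114342) (nat_lit 76) (nat_lit 24644501188) (nat_lit 3) (nat_lit 4) (nat_lit 4) (nat_lit 5) (nat_lit 4) (nat_lit 4) (nat_lit 303) (nat_lit 264) (nat_lit 213)) (XT.nd (nat_lit 78) (nat_lit 76) (nat_lit 0) (XT.lf (nat_lit 0) (nat_lit 452354351280) (nat_lit 76) (nat_lit 25010814614) (nat_lit 76) (nat_lit 11563793038) (nat_lit 3) (nat_lit 4) (nat_lit 4) (nat_lit 5) (nat_lit 4) (nat_lit 4) (nat_lit 304) (nat_lit 264) (nat_lit 212)) (XT.lf (nat_lit 0) (nat_lit 3165949301) (nat_lit 152) (nat_lit 6641455293) (nat_lit 76) (nat_lit 549979491720) (nat_lit 2) (nat_lit 5) (nat_lit 4) (nat_lit 5) (nat_lit 3) (nat_lit 4) (nat_lit 305) (nat_lit 264) (nat_lit 211)))))) (XT.nd (nat_lit 390) (nat_lit 0) (nat_lit 0) (XT.nd (nat_lit 156) (nat_lit 0) (nat_lit 0) (XT.nd (nat_lit 78) (nat_lit 0) (nat_lit 0) (XT.lf (nat_lit 0) (nat_lit 20558730786)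 (nat_lit 152) (nat_lit 611522895462) (nat_lit 0) (nat_lit 8863677516) (nat_lit 1) (nat_lit 5) (nat_lit 3) (nat_lit 4) (nat_lit 1) (nat_lit 4) (nat_lit 306) (nat_lit 264) (nat_lit 210)) (XT.lf (nat_lit 0) (nat_lit 41388264963) (nat_lit 152) (nat_lit 663072626905) (nat_lit 0) (nat_lit 29692406424) (nat_lit 1) (nat_lit 5) (nat_lit 3) (nat_lit 4) (nat_lit 1) (nat_lit 4) (nat_lit 307) (nat_lit 264) (nat_lit 209))) (XT.nd (nat_lit 78) (nat_lit 0) (nat_lit 0) (XT.lf (nat_lit 0) (nat_lit 65339722712) (nat_lit 152) (nat_lit 722359982446) (nat_lit 0) (nat_lit 53643163938) (nat_lit 1) (nat_lit 5) (nat_lit 3) (nat_lit 4) (nat_lit 1) (nat_lit 4) (nat_lit 308) (nat_lit 264) (nat_lit 208)) (XT.nd (nat_lit 78) (nat_lit 0) (nat_lit 0) (XT.lf (nat_lit 0) (nat_lit 92881719509) (nat_lit 152) (nat_lit 790544932086) (nat_lit 0) (nat_lit 81184551835) (nat_lit 1) (nat_lit 5) (nat_lit 3) (nat_lit 4) (nat_lit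 1) (nat_lit 4) (nat_lit 309) (nat_lit 264) (nat_lit 207)) (XT.lf (nat_lit 0) (nat_lit 124553120511) (nat_lit 152) (nat_lit 868961529187) (nat_lit 0) (nat_lit 112855423358) (nat_lit 1) (nat_lit 5) (nat_lit 3) (nat_lit 4) (nat_lit 1) (nat_lit 4) (nat_lit 310) (nat_lit 264) (nat_lit 206))))) (XT.nd (nat_lit 156) (nat_lit 0) (nat_lit 0) (XT.nd (nat_lit 78) (nat_lit 0) (nat_lit 0) (XT.lf (nat_lit 0) (nat_lit 160973583561) (nat_lit 152) (nat_lit 959144011518) (nat_lit 0) (nat_lit 149275425993) (nat_lit 1) (nat_lit 5) (nat_lit 3) (nat_lit 4) (nat_lit 1) (nat_lit 4) (nat_lit 311) (nat_lit 264) (nat_lit 205)) (XT.lf (nat_lit 0) (nat_lit 202855682937) (nat_lit 152) (nat_lit 1062856818951) (nat_lit 0) (nat_lit 191157125008) (nat_lit 1) (nat_lit 5) (nat_lit 3) (nat_lit 4) (nat_lit 1) (nat_lit 4) (nat_lit 312) (nat_lit 264) (nat_lit 204))) (XT.nd (nat_lit 78) (nat_lit 0) (nat_lit 0) (XT.lf (nat_lit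 0) (nat_lit 251018851019) (nat_lit 152) (nat_lit 1182129115111) (nat_lit 0) (nat_lit 239319944950) (nat_lit 1) (nat_lit 5) (nat_lit 3) (nat_lit 4) (nat_lit 1) (nat_lit 4) (nat_lit 313) (nat_lit 264) (nat_lit 203)) (XT.nd (nat_lit 78) (nat_lit 0) (nat_lit 0) (XT.lf (nat_lit 0) (nat_lit 306405410661) (nat_lit 152) (nat_lit 1319294488399) (nat_lit 0) (nat_lit 294706201860) (nat_lit 1) (nat_lit 5) (nat_lit 3) (nat_lit 4) (nat_lit 1) (nat_lit 4) (nat_lit 314) (nat_lit 264) (nat_lit 202)) (XT.lf (nat_lit 0) (nat_lit 370099011941) (nat_lit 152) (nat_lit 1477036609162) (nat_lit 0) (nat_lit 358399539896) (nat_lit 1) (nat_lit 5) (nat_lit 3) (nat_lit 4) (nat_lit 1) (nat_lit 4) (nat_lit 315) (nat_lit 264) (nat_lit 201))))))) (XT.nd (nat_lit 780) (nat_lit 0) (nat_lit 0) (XT.nd (nat_lit 390) (nat_lit 0) (nat_lit 0) (XT.nd (nat_lit 156) (nat_lit 0) (nat_lit 0) (XT.nd (nat_lit 78) (nat_lit 0) (nat_lit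 0) (XT.lf (nat_lit 0) (nat_lit 443345834016) (nat_lit 152) (nat_lit 1658441736287) (nat_lit 0) (nat_lit 431646133063) (nat_lit 1) (nat_lit 5) (nat_lit 3) (nat_lit 4) (nat_lit 1) (nat_lit 4) (nat_lit 316) (nat_lit 264) (nat_lit 200)) (XT.lf (nat_lit 0) (nat_lit 527578966883) (nat_lit 152) (nat_lit 1867059100519) (nat_lit 0) (nat_lit 515879066880) (nat_lit 1) (nat_lit 5) (nat_lit 3) (nat_lit 4) (nat_lit 1) (nat_lit 4) (nat_lit 317) (nat_lit 264) (nat_lit 199))) (XT.nd (nat_lit 78) (nat_lit 0) (nat_lit 0) (XT.lf (nat_lit 0) (nat_lit 624446450097) (nat_lit 152) (nat_lit 2106970345943) (nat_lit 0) (nat_lit 612746377007) (nat_lit 1) (nat_lit 5) (nat_lit 3) (nat_lit 4) (nat_lit 1) (nat_lit 4) (nat_lit 318) (nat_lit 264) (nat_lit 198)) (XT.nd (nat_lit 78) (nat_lit 0) (nat_lit 0) (XT.lf (nat_lit 0) (nat_lit 735843517026) (nat_lit 152) (nat_lit 2382869388229) (nat_lit 0) (nat_lit 724143293426)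 (nat_lit 1) (nat_lit 5) (nat_lit 3) (nat_lit 4) (nat_lit 1) (nat_lit 4) (nat_lit 319) (nat_lit 264) (nat_lit 197)) (XT.lf (nat_lit 0) (nat_lit 863949675502) (nat_lit 152) (nat_lit 2700154252119) (nat_lit 0) (nat_lit 852249321023) (nat_lit 1) (nat_lit 5) (nat_lit 3) (nat_lit 4) (nat_lit 1) (nat_lit 4) (nat_lit 320) (nat_lit 264) (nat_lit 196))))) (XT.nd (nat_lit 156) (nat_lit 0) (nat_lit 0) (XT.nd (nat_lit 78) (nat_lit 0) (nat_lit 0) (XT.lf (nat_lit 0) (nat_lit 1011271350364) (nat_lit 152) (nat_lit 3065032684948) (nat_lit 0) (nat_lit 999570882077) (nat_lit 1) (nat_lit 5) (nat_lit 3) (nat_lit 4) (nat_lit 1) (nat_lit 4) (nat_lit 321) (nat_lit 264) (nat_lit 195)) (XT.lf (nat_lit 0) (nat_lit 1180690922207) (nat_lit 152) (nat_lit 3484643612577) (nat_lit 0) (nat_lit 1168990354956) (nat_lit 1) (nat_lit 5) (nat_lit 3) (nat_lit 4) (nat_lit 1) (nat_lit 4) (nat_lit 322) (nat_lit 264) (nat_lit 194)))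 (XT.nd (nat_lit 78) (nat_lit 0) (nat_lit 0) (XT.lf (nat_lit 0) (nat_lit 1375523121785) (nat_lit 152) (nat_lit 3967196814024) (nat_lit 0) (nat_lit 1363822468479) (nat_lit 1) (nat_lit 5) (nat_lit 3) (nat_lit 4) (nat_lit 1) (nat_lit 4) (nat_lit 323) (nat_lit 264) (nat_lit 193)) (XT.nd (nat_lit 78) (nat_lit 0) (nat_lit 0) (XT.lf (nat_lit 0) (nat_lit 1599579883436) (nat_lit 152) (nat_lit 4522133547579) (nat_lit 0) (nat_lit 1587879155300) (nat_lit 1) (nat_lit 5) (nat_lit 3) (nat_lit 4) (nat_lit 1) (nat_lit 4) (nat_lit 324) (nat_lit 264) (nat_lit 192)) (XT.lf (nat_lit 0) (nat_lit 1857244926412) (nat_lit 152) (nat_lit 5160311271072) (nat_lit 0) (nat_lit 1845544133206) (nat_lit 1) (nat_lit 5) (nat_lit 3) (nat_lit 4) (nat_lit 1) (nat_lit 4) (nat_lit 325) (nat_lit 264) (nat_lit 191)))))) (XT.nd (nat_lit 390) (nat_lit 0) (nat_lit 0) (XT.nd (nat_lit 156) (nat_lit 0) (nat_lit 0) (XT.nd (nat_lit 78)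 (nat_lit 0) (nat_lit 0) (XT.lf (nat_lit 0) (nat_lit 2153559523291) (nat_lit 152) (nat_lit 5894216070397) (nat_lit 0) (nat_lit 2141858673503) (nat_lit 1) (nat_lit 5) (nat_lit 3) (nat_lit 4) (nat_lit 1) (nat_lit 4) (nat_lit 326) (nat_lit 264) (nat_lit 190)) (XT.lf (nat_lit 0) (nat_lit 2494321133579) (nat_lit 152) (nat_lit 6738206952499) (nat_lit 0) (nat_lit 2482620234588) (nat_lit 1) (nat_lit 5) (nat_lit 3) (nat_lit 4) (nat_lit 1) (nat_lit 4) (nat_lit 327) (nat_lit 264) (nat_lit 189))) (XT.nd (nat_lit 78) (nat_lit 0) (nat_lit 0) (XT.lf (nat_lit 0) (nat_lit 2886196832258) (nat_lit 152) (nat_lit 7708796782460) (nat_lit 0) (nat_lit 2874495890483) (nat_lit 1) (nat_lit 5) (nat_lit 3) (nat_lit 4) (nat_lit 1) (nat_lit 4) (nat_lit 328) (nat_lit 264) (nat_lit 188)) (XT.nd (nat_lit 78) (nat_lit 0) (nat_lit 0) (XT.lf (nat_lit 0) (nat_lit 3336853752564) (nat_lit 152) (nat_lit 8824975361303) (nat_lit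 0) (nat_lit 3325152773585) (nat_lit 1) (nat_lit 5) (nat_lit 3) (nat_lit 4) (nat_lit 1) (nat_lit 4) (nat_lit 329) (nat_lit 264) (nat_lit 187)) (XT.lf (nat_lit 0) (nat_lit 3855109095112) (nat_lit 152) (nat_lit 10108580965570) (nat_lit 0) (nat_lit 3843408083781) (nat_lit 1) (nat_lit 5) (nat_lit 3) (nat_lit 4) (nat_lit 1) (nat_lit 4) (nat_lit 330) (nat_lit 264) (nat_lit 186))))) (XT.nd (nat_lit 156) (nat_lit 0) (nat_lit 0) (XT.nd (nat_lit 78) (nat_lit 0) (nat_lit 0) (XT.lf (nat_lit 0) (nat_lit 4451102638342) (nat_lit 152) (nat_lit 11584727617953) (nat_lit 0) (nat_lit 4439401598880) (nat_lit 1) (nat_lit 5) (nat_lit 3) (nat_lit 4) (nat_lit 1) (nat_lit 4) (nat_lit 331) (nat_lit 264) (nat_lit 185)) (XT.lf (nat_lit 0) (nat_lit 5136495125493) (nat_lit 152) (nat_lit 13282296448608) (nat_lit 0) (nat_lit 5124794061569) (nat_lit 1) (nat_lit 5) (nat_lit 3) (nat_lit 4) (nat_lit 1) (nat_lit 4) (nat_lit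 332) (nat_lit 264) (nat_lit 184))) (XT.nd (nat_lit 78) (nat_lit 0) (nat_lit 0) (XT.lf (nat_lit 0) (nat_lit 5924696409572) (nat_lit 152) (nat_lit 15234500760742) (nat_lit 0) (nat_lit 5912995324377) (nat_lit 1) (nat_lit 5) (nat_lit 3) (nat_lit 4) (nat_lit 1) (nat_lit 4) (nat_lit 333) (nat_lit 264) (nat_lit 183)) (XT.nd (nat_lit 78) (nat_lit 0) (nat_lit 0) (XT.lf (nat_lit 0) (nat_lit 6831127820052) (nat_lit 152) (nat_lit 17479535856116) (nat_lit 0) (nat_lit 6819426716360) (nat_lit 1) (nat_lit 5) (nat_lit 3) (nat_lit 4) (nat_lit 1) (nat_lit 4) (nat_lit 334) (nat_lit 264) (nat_lit 182)) (XT.lf (nat_lit 0) (nat_lit 7873523884529) (nat_lit 152) (nat_lit 20061326334421) (nat_lit 0) (nat_lit 7861822764752) (nat_lit 1) (nat_lit 5) (nat_lit 3) (nat_lit 4) (nat_lit 1) (nat_lit 4) (nat_lit 335) (nat_lit 264) (nat_lit 181))))))))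
noncomputable def xc58 : XT := (XT.nd (nat_lit 36114) (nat_lit 0) (nat_lit 228) (XT.nd (nat_lit 35334) (nat_lit 0) (nat_lit 988) (XT.nd (nat_lit 312) (nat_lit 0) (nat_lit 0) (XT.nd (nat_lit 156) (nat_lit 0) (nat_lit 0) (XT.nd (nat_lit 78) (nat_lit 0) (nat_lit 0) (XT.lf (nat_lit 0) (nat_lit 9072279308612) (nat_lit 152) (nat_lit 23030385487623) (nat_lit 0) (nat_lit 9060578174849) (nat_lit 1) (nat_lit 5) (nat_lit 3) (nat_lit 4) (nat_lit 1) (nat_lit 4) (nat_lit 336) (nat_lit 264) (nat_lit 180)) (XT.lf (nat_lit 0) (nat_lit 10450848002773) (nat_lit 152) (nat_lit 26444803603504) (nat_lit 0) (nat_lit 10439146856847) (nat_lit 1) (nat_lit 5) (nat_lit 3) (nat_lit 4) (nat_lit 1) (nat_lit 4) (nat_lit 337) (nat_lit 264) (nat_lit 179))) (XT.nd (nat_lit 78) (nat_lit 0) (nat_lit 0) (XT.lf (nat_lit 0) (nat_lit 12036201963200) (nat_lit 152) (nat_lit 30371384514765) (nat_lit 0) (nat_lit 12024500806699) (nat_lit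 1) (nat_lit 5) (nat_lit 3) (nat_lit 4) (nat_lit 1) (nat_lit 4) (nat_lit 338) (nat_lit 264) (nat_lit 178)) (XT.lf (nat_lit 0) (nat_lit 13859358984773) (nat_lit 152) (nat_lit 34886952630539) (nat_lit 0) (nat_lit 13847657819076) (nat_lit 1) (nat_lit 5) (nat_lit 3) (nat_lit 4) (nat_lit 1) (nat_lit 4) (nat_lit 339) (nat_lit 264) (nat_lit 177)))) (XT.nd (nat_lit 34788) (nat_lit 0) (nat_lit 1976) (XT.nd (nat_lit 78) (nat_lit 0) (nat_lit 0) (XT.lf (nat_lit 0) (nat_lit 15955989530957) (nat_lit 152) (nat_lit 40079856022657) (nat_lit 0) (nat_lit 15944288357263) (nat_lit 1) (nat_lit 5) (nat_lit 3) (nat_lit 4) (nat_lit 1) (nat_lit 4) (nat_lit 340) (nat_lit 264) (nat_lit 176)) (XT.lf (nat_lit 0) (nat_lit 18367114634178) (nat_lit 152) (nat_lit 46051694974878) (nat_lit 0) (nat_lit 18355413453530) (nat_lit 1) (nat_lit 5) (nat_lit 3) (nat_lit 4) (nat_lit 1) (nat_lit 4) (nat_lit 341) (nat_lit 264) (nat_lit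 175))) (XT.nd (nat_lit 78) (nat_lit 0) (nat_lit 0) (XT.lf (nat_lit 0) (nat_lit 1387636755) (nat_lit 0) (nat_lit 1387636755) (nat_lit 228) (nat_lit 1640196909) (nat_lit 27) (nat_lit 5) (nat_lit 27) (nat_lit 3) (nat_lit 30) (nat_lit 3) (nat_lit 265) (nat_lit 265) (nat_lit 250)) (XT.nd (nat_lit 78) (nat_lit 0) (nat_lit 0) (XT.lf (nat_lit 0) (nat_lit 6837276259) (nat_lit 228) (nat_lit 1903624417) (nat_lit 304) (nat_lit 617919496) (nat_lit 27) (nat_lit 5) (nat_lit 30) (nat_lit 3) (nat_lit 31) (nat_lit 5) (nat_lit 266) (nat_lit 265) (nat_lit 249)) (XT.lf (nat_lit 76) (nat_lit 2895567729) (nat_lit 0) (nat_lit 5526623759) (nat_lit 304) (nat_lit 1528603473) (nat_lit 28) (nat_lit 5) (nat_lit 27) (nat_lit 5) (nat_lit 31) (nat_lit 5) (nat_lit 267) (nat_lit 265) (nat_lit 248)))))) (XT.nd (nat_lit 390) (nat_lit 456) (nat_lit 0) (XT.nd (nat_lit 156) (nat_lit 304) (nat_lit 0) (XT.nd (nat_lit 78) (nat_lit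 228) (nat_lit 0) (XT.lf (nat_lit 76) (nat_lit 8531899197) (nat_lit 0) (nat_lit 1680728607) (nat_lit 304) (nat_lit 424370636) (nat_lit 28) (nat_lit 5) (nat_lit 27) (nat_lit 5) (nat_lit 31) (nat_lit 5) (nat_lit 268) (nat_lit 265) (nat_lit 247)) (XT.lf (nat_lit 0) (nat_lit 930546451) (nat_lit 304) (nat_lit 7745522739) (nat_lit 76) (nat_lit 2721217233) (nat_lit 24) (nat_lit 5) (nat_lit 28) (nat_lit 5) (nat_lit 25) (nat_lit 5) (nat_lit 269) (nat_lit 265) (nat_lit 246))) (XT.nd (nat_lit 78) (nat_lit 304) (nat_lit 0) (XT.lf (nat_lit 0) (nat_lit 2532692122) (nat_lit 304) (nat_lit 1961142788) (nat_lit 76) (nat_lit 7762030239) (nat_lit 24) (nat_lit 5) (nat_lit 28) (nat_lit 5) (nat_lit 25) (nat_lit 5) (nat_lit 270) (nat_lit 265) (nat_lit 245)) (XT.nd (nat_lit 78) (nat_lit 0) (nat_lit 0) (XT.lf (nat_lit 0) (nat_lit 4513228404) (nat_lit 380) (nat_lit 8204278481) (nat_lit 76) (nat_lit 505356560) (nat_lit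 20) (nat_lit 5) (nat_lit 25) (nat_lit 5) (nat_lit 21) (nat_lit 5) (nat_lit 271) (nat_lit 265) (nat_lit 244)) (XT.lf (nat_lit 0) (nat_lit 7026684447) (nat_lit 380) (nat_lit 1376318588) (nat_lit 76) (nat_lit 5896830879) (nat_lit 20) (nat_lit 5) (nat_lit 25) (nat_lit 5) (nat_lit 21) (nat_lit 5) (nat_lit 272) (nat_lit 265) (nat_lit 243))))) (XT.nd (nat_lit 156) (nat_lit 304) (nat_lit 0) (XT.nd (nat_lit 78) (nat_lit 0) (nat_lit 0) (XT.lf (nat_lit 0) (nat_lit 7009821495) (nat_lit 152) (nat_lit 3123208956) (nat_lit 228) (nat_lit 5373198183) (nat_lit 18) (nat_lit 5) (nat_lit 20) (nat_lit 5) (nat_lit 21) (nat_lit 5) (nat_lit 273) (nat_lit 265) (nat_lit 242)) (XT.lf (nat_lit 0) (nat_lit 13833809698) (nat_lit 228) (nat_lit 295458713) (nat_lit 76) (nat_lit 2745267529) (nat_lit 18) (nat_lit 5) (nat_lit 21) (nat_lit 5) (nat_lit 19) (nat_lit 4) (nat_lit 274) (nat_lit 265) (nat_lit 241))) (XT.nd (nat_lit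 78) (nat_lit 152) (nat_lit 0) (XT.lf (nat_lit 0) (nat_lit 190294148) (nat_lit 152) (nat_lit 8609103630) (nat_lit 76) (nat_lit 9573572334) (nat_lit 16) (nat_lit 5) (nat_lit 18) (nat_lit 5) (nat_lit 17) (nat_lit 5) (nat_lit 275) (nat_lit 265) (nat_lit 240)) (XT.nd (nat_lit 78) (nat_lit 0) (nat_lit 0) (XT.lf (nat_lit 0) (nat_lit 1142324944) (nat_lit 152) (nat_lit 2457565717) (nat_lit 228) (nat_lit 16473922271) (nat_lit 14) (nat_lit 5) (nat_lit 16) (nat_lit 5) (nat_lit 17) (nat_lit 5) (nat_lit 276) (nat_lit 265) (nat_lit 239)) (XT.lf (nat_lit 0) (nat_lit 8137453659) (nat_lit 228) (nat_lit 8948429611) (nat_lit 76) (nat_lit 4851548828) (nat_lit 14) (nat_lit 5) (nat_lit 17) (nat_lit 5) (nat_lit 15) (nat_lit 4) (nat_lit 277) (nat_lit 265) (nat_lit 238))))))) (XT.nd (nat_lit 780) (nat_lit 228) (nat_lit 0) (XT.nd (nat_lit 390) (nat_lit 228) (nat_lit 0) (XT.nd (nat_lit 156) (nat_lit 228) (nat_lit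 0) (XT.nd (nat_lit 78) (nat_lit 0) (nat_lit 0) (XT.lf (nat_lit 0) (nat_lit 2566595578) (nat_lit 76) (nat_lit 10964400279) (nat_lit 152) (nat_lit 10523408721) (nat_lit 13) (nat_lit 5) (nat_lit 14) (nat_lit 5) (nat_lit 15) (nat_lit 4) (nat_lit 278) (nat_lit 265) (nat_lit 237)) (XT.lf (nat_lit 0) (nat_lit 16741093149) (nat_lit 76) (nat_lit 3415489258) (nat_lit 152) (nat_lit 6268986094) (nat_lit 13) (nat_lit 5) (nat_lit 14) (nat_lit 5) (nat_lit 15) (nat_lit 4) (nat_lit 279) (nat_lit 265) (nat_lit 236))) (XT.nd (nat_lit 78) (nat_lit 152) (nat_lit 0) (XT.lf (nat_lit 0) (nat_lit 3954613616) (nat_lit 76) (nat_lit 24163245864) (nat_lit 76) (nat_lit 983354453) (nat_lit 12) (nat_lit 4) (nat_lit 13) (nat_lit 5) (nat_lit 13) (nat_lit 4) (nat_lit 280) (nat_lit 265) (nat_lit 235)) (XT.nd (nat_lit 78) (nat_lit 76) (nat_lit 0) (XT.lf (nat_lit 0) (nat_lit 5295199533) (nat_lit 152) (nat_lit 11841576190)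 (nat_lit 76) (nat_lit 14911795773) (nat_lit 11) (nat_lit 5) (nat_lit 13) (nat_lit 5) (nat_lit 12) (nat_lit 4) (nat_lit 281) (nat_lit 265) (nat_lit 234)) (XT.lf (nat_lit 0) (nat_lit 3679471362) (nat_lit 76) (nat_lit 8853571837) (nat_lit 152) (nat_lit 22880293792) (nat_lit 10) (nat_lit 5) (nat_lit 11) (nat_lit 5) (nat_lit 12) (nat_lit 4) (nat_lit 282) (nat_lit 265) (nat_lit 233))))) (XT.nd (nat_lit 156) (nat_lit 152) (nat_lit 0) (XT.nd (nat_lit 78) (nat_lit 76) (nat_lit 0) (XT.lf (nat_lit 0) (nat_lit 21499692264) (nat_lit 152) (nat_lit 16449298197) (nat_lit 0) (nat_lit 1237406008) (nat_lit 10) (nat_lit 5) (nat_lit 12) (nat_lit 4) (nat_lit 10) (nat_lit 4) (nat_lit 283) (nat_lit 265) (nat_lit 232)) (XT.lf (nat_lit 0) (nat_lit 716651953) (nat_lit 76) (nat_lit 31517117667) (nat_lit 76) (nat_lit 11228322771) (nat_lit 9) (nat_lit 4) (nat_lit 10) (nat_lit 5) (nat_lit 10) (nat_lit 4) (nat_lit 284)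 (nat_lit 265) (nat_lit 231))) (XT.nd (nat_lit 78) (nat_lit 152) (nat_lit 0) (XT.lf (nat_lit 0) (nat_lit 22255098430) (nat_lit 76) (nat_lit 23155514345) (nat_lit 76) (nat_lit 2843668457) (nat_lit 9) (nat_lit 4) (nat_lit 10) (nat_lit 5) (nat_lit 10) (nat_lit 4) (nat_lit 285) (nat_lit 265) (nat_lit 230)) (XT.nd (nat_lit 78) (nat_lit 76) (nat_lit 0) (XT.lf (nat_lit 0) (nat_lit 6168614744) (nat_lit 152) (nat_lit 7069368527) (nat_lit 76) (nat_lit 40488835512) (nat_lit 8) (nat_lit 5) (nat_lit 10) (nat_lit 5) (nat_lit 9) (nat_lit 4) (nat_lit 286) (nat_lit 265) (nat_lit 229)) (XT.lf (nat_lit 0) (nat_lit 15943121607) (nat_lit 76) (nat_lit 937083833) (nat_lit 152) (nat_lit 43023953340) (nat_lit 7) (nat_lit 5) (nat_lit 8) (nat_lit 5) (nat_lit 9) (nat_lit 4) (nat_lit 287) (nat_lit 265) (nat_lit 228)))))) (XT.nd (nat_lit 390) (nat_lit 76) (nat_lit 0) (XT.nd (nat_lit 156) (nat_lit 152) (nat_lit 0) (XT.nd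 (nat_lit 78) (nat_lit 0) (nat_lit 0) (XT.lf (nat_lit 0) (nat_lit 30111488288) (nat_lit 152) (nat_lit 24356441555) (nat_lit 0) (nat_lit 12403247862) (nat_lit 7) (nat_lit 5) (nat_lit 9) (nat_lit 4) (nat_lit 7) (nat_lit 4) (nat_lit 288) (nat_lit 265) (nat_lit 227)) (XT.lf (nat_lit 0) (nat_lit 45353710073) (nat_lit 152) (nat_lit 1891611419) (nat_lit 0) (nat_lit 27634009229) (nat_lit 7) (nat_lit 5) (nat_lit 9) (nat_lit 4) (nat_lit 7) (nat_lit 4) (nat_lit 289) (nat_lit 265) (nat_lit 226))) (XT.nd (nat_lit 78) (nat_lit 76) (nat_lit 0) (XT.lf (nat_lit 0) (nat_lit 26248618712) (nat_lit 76) (nat_lit 37704566145) (nat_lit 76) (nat_lit 19974899722) (nat_lit 6) (nat_lit 4) (nat_lit 7) (nat_lit 5) (nat_lit 7) (nat_lit 4) (nat_lit 290) (nat_lit 265) (nat_lit 225)) (XT.nd (nat_lit 78) (nat_lit 76) (nat_lit 0) (XT.lf (nat_lit 0) (nat_lit 58792732895) (nat_lit 76) (nat_lit 26633600811) (nat_lit 76) (nat_lit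 8895268666) (nat_lit 6) (nat_lit 4) (nat_lit 7) (nat_lit 5) (nat_lit 7) (nat_lit 4) (nat_lit 291) (nat_lit 265) (nat_lit 224)) (XT.lf (nat_lit 0) (nat_lit 3490091131) (nat_lit 152) (nat_lit 10242171621) (nat_lit 76) (nat_lit 92520074058) (nat_lit 5) (nat_lit 5) (nat_lit 7) (nat_lit 5) (nat_lit 6) (nat_lit 4) (nat_lit 292) (nat_lit 265) (nat_lit 223))))) (XT.nd (nat_lit 156) (nat_lit 0) (nat_lit 0) (XT.nd (nat_lit 78) (nat_lit 0) (nat_lit 0) (XT.lf (nat_lit 0) (nat_lit 17751696885) (nat_lit 152) (nat_lit 99703273893) (nat_lit 0) (nat_lit 2314809855) (nat_lit 4) (nat_lit 5) (nat_lit 6) (nat_lit 4) (nat_lit 4) (nat_lit 4) (nat_lit 293) (nat_lit 265) (nat_lit 222)) (XT.lf (nat_lit 0) (nat_lit 35355512966) (nat_lit 152) (nat_lit 79865219245) (nat_lit 0) (nat_lit 19913671281) (nat_lit 4) (nat_lit 5) (nat_lit 6) (nat_lit 4) (nat_lit 4) (nat_lit 4) (nat_lit 294) (nat_lit 265) (nat_lit 221)))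 (XT.nd (nat_lit 78) (nat_lit 0) (nat_lit 0) (XT.lf (nat_lit 0) (nat_lit 55589615687) (nat_lit 152) (nat_lit 57072188203) (nat_lit 0) (nat_lit 40143465606) (nat_lit 4) (nat_lit 5) (nat_lit 6) (nat_lit 4) (nat_lit 4) (nat_lit 4) (nat_lit 295) (nat_lit 265) (nat_lit 220)) (XT.nd (nat_lit 78) (nat_lit 0) (nat_lit 0) (XT.lf (nat_lit 0) (nat_lit 78849889666) (nat_lit 152) (nat_lit 30878230161) (nat_lit 0) (nat_lit 63399993155) (nat_lit 4) (nat_lit 5) (nat_lit 6) (nat_lit 4) (nat_lit 4) (nat_lit 4) (nat_lit 296) (nat_lit 265) (nat_lit 219)) (XT.lf (nat_lit 0) (nat_lit 105591427221) (nat_lit 152) (nat_lit 770854635) (nat_lit 0) (nat_lit 90138272944) (nat_lit 4) (nat_lit 5) (nat_lit 6) (nat_lit 4) (nat_lit 4) (nat_lit 4) (nat_lit 297) (nat_lit 265) (nat_lit 218))))))))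
noncomputable def xc59 : XT := (XT.nd (nat_lit 1482) (nat_lit 0) (nat_lit 0) (XT.nd (nat_lit 702) (nat_lit 76) (nat_lit 0) (XT.nd (nat_lit 312) (nat_lit 76) (nat_lit 0) (XT.nd (nat_lit 156) (nat_lit 0) (nat_lit 0) (XT.nd (nat_lit 78) (nat_lit 0) (nat_lit 0) (XT.lf (nat_lit 0) (nat_lit 37145988484) (nat_lit 76) (nat_lit 100729580033) (nat_lit 76) (nat_lit 85273592916) (nat_lit 3) (nat_lit 4) (nat_lit 4) (nat_lit 5) (nat_lit 4) (nat_lit 4) (nat_lit 298) (nat_lit 265) (nat_lit 217)) (XT.lf (nat_lit 0) (nat_lit 80823979737) (nat_lit 76) (nat_lit 94212226226) (nat_lit 76) (nat_lit 78753775771) (nat_lit 3) (nat_lit 4) (nat_lit 4) (nat_lit 5) (nat_lit 4) (nat_lit 4) (nat_lit 299) (nat_lit 265) (nat_lit 216))) (XT.nd (nat_lit 78) (nat_lit 0) (nat_lit 0) (XT.lf (nat_lit 0) (nat_lit 131042354996) (nat_lit 76) (nat_lit 86723001667) (nat_lit 76) (nat_lit 71262409178) (nat_lit 3) (nat_lit 4) (nat_lit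 4) (nat_lit 5) (nat_lit 4) (nat_lit 4) (nat_lit 300) (nat_lit 265) (nat_lit 215)) (XT.lf (nat_lit 0) (nat_lit 188783647690) (nat_lit 76) (nat_lit 78115378049) (nat_lit 76) (nat_lit 62652922922) (nat_lit 3) (nat_lit 4) (nat_lit 4) (nat_lit 5) (nat_lit 4) (nat_lit 4) (nat_lit 301) (nat_lit 265) (nat_lit 214)))) (XT.nd (nat_lit 156) (nat_lit 76) (nat_lit 0) (XT.nd (nat_lit 78) (nat_lit 0) (nat_lit 0) (XT.lf (nat_lit 0) (nat_lit 255177578762) (nat_lit 76) (nat_lit 68220945345) (nat_lit 76) (nat_lit 52756870532) (nat_lit 3) (nat_lit 4) (nat_lit 4) (nat_lit 5) (nat_lit 4) (nat_lit 4) (nat_lit 302) (nat_lit 265) (nat_lit 213)) (XT.lf (nat_lit 0) (nat_lit 331523159909) (nat_lit 76) (nat_lit 56846116828) (nat_lit 76) (nat_lit 41380633593) (nat_lit 3) (nat_lit 4) (nat_lit 4) (nat_lit 5) (nat_lit 4) (nat_lit 4) (nat_lit 303) (nat_lit 265) (nat_lit 212))) (XT.nd (nat_lit 78) (nat_lit 76) (nat_lit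 0) (XT.lf (nat_lit 0) (nat_lit 419314109021) (nat_lit 76) (nat_lit 43768341505) (nat_lit 76) (nat_lit 28301633556) (nat_lit 3) (nat_lit 4) (nat_lit 4) (nat_lit 5) (nat_lit 4) (nat_lit 4) (nat_lit 304) (nat_lit 265) (nat_lit 211)) (XT.nd (nat_lit 78) (nat_lit 76) (nat_lit 0) (XT.lf (nat_lit 0) (nat_lit 520268075104) (nat_lit 76) (nat_lit 28731749860) (nat_lit 76) (nat_lit 13263976941) (nat_lit 3) (nat_lit 4) (nat_lit 4) (nat_lit 5) (nat_lit 4) (nat_lit 4) (nat_lit 305) (nat_lit 265) (nat_lit 210)) (XT.lf (nat_lit 0) (nat_lit 3668079833) (nat_lit 152) (nat_lit 7582327338) (nat_lit 76) (nat_lit 632500424079) (nat_lit 2) (nat_lit 5) (nat_lit 4) (nat_lit 5) (nat_lit 3) (nat_lit 4) (nat_lit 306) (nat_lit 265) (nat_lit 209)))))) (XT.nd (nat_lit 390) (nat_lit 0) (nat_lit 0) (XT.nd (nat_lit 156) (nat_lit 0) (nat_lit 0) (XT.nd (nat_lit 78) (nat_lit 0) (nat_lit 0) (XT.lf (nat_lit 0) (nat_lit 23669529594)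 (nat_lit 152) (nat_lit 703195722594) (nat_lit 0) (nat_lit 10217786769) (nat_lit 1) (nat_lit 5) (nat_lit 3) (nat_lit 4) (nat_lit 1) (nat_lit 4) (nat_lit 307) (nat_lit 265) (nat_lit 208)) (XT.lf (nat_lit 0) (nat_lit 47619973569) (nat_lit 152) (nat_lit 762485166865) (nat_lit 0) (nat_lit 34167621844) (nat_lit 1) (nat_lit 5) (nat_lit 3) (nat_lit 4) (nat_lit 1) (nat_lit 4) (nat_lit 308) (nat_lit 265) (nat_lit 207))) (XT.nd (nat_lit 78) (nat_lit 0) (nat_lit 0) (XT.lf (nat_lit 0) (nat_lit 75161088824) (nat_lit 152) (nat_lit 830671932791) (nat_lit 0) (nat_lit 61708207622) (nat_lit 1) (nat_lit 5) (nat_lit 3) (nat_lit 4) (nat_lit 1) (nat_lit 4) (nat_lit 309) (nat_lit 265) (nat_lit 206)) (XT.nd (nat_lit 78) (nat_lit 0) (nat_lit 0) (XT.lf (nat_lit 0) (nat_lit 106831723267) (nat_lit 152) (nat_lit 909090109271) (nat_lit 0) (nat_lit 93378381648) (nat_lit 1) (nat_lit 5) (nat_lit 3) (nat_lit 4) (nat_lit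 1) (nat_lit 4) (nat_lit 310) (nat_lit 265) (nat_lit 205)) (XT.lf (nat_lit 0) (nat_lit 143251519745) (nat_lit 152) (nat_lit 999273964975) (nat_lit 0) (nat_lit 129797777765) (nat_lit 1) (nat_lit 5) (nat_lit 3) (nat_lit 4) (nat_lit 1) (nat_lit 4) (nat_lit 311) (nat_lit 265) (nat_lit 204))))) (XT.nd (nat_lit 156) (nat_lit 0) (nat_lit 0) (XT.nd (nat_lit 78) (nat_lit 0) (nat_lit 0) (XT.lf (nat_lit 0) (nat_lit 185133039493) (nat_lit 152) (nat_lit 1102987966646) (nat_lit 0) (nat_lit 171678949372) (nat_lit 1) (nat_lit 5) (nat_lit 3) (nat_lit 4) (nat_lit 1) (nat_lit 4) (nat_lit 312) (nat_lit 265) (nat_lit 203)) (XT.lf (nat_lit 0) (nat_lit 233295703550) (nat_lit 152) (nat_lit 1222261301273) (nat_lit 0) (nat_lit 219841310699) (nat_lit 1) (nat_lit 5) (nat_lit 3) (nat_lit 4) (nat_lit 1) (nat_lit 4) (nat_lit 313) (nat_lit 265) (nat_lit 202))) (XT.nd (nat_lit 78) (nat_lit 0) (nat_lit 0) (XT.lf (nat_lit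 0) (nat_lit 288681824909) (nat_lit 152) (nat_lit 1359427577576) (nat_lit 0) (nat_lit 275227168814) (nat_lit 1) (nat_lit 5) (nat_lit 3) (nat_lit 4) (nat_lit 1) (nat_lit 4) (nat_lit 314) (nat_lit 265) (nat_lit 201)) (XT.nd (nat_lit 78) (nat_lit 0) (nat_lit 0) (XT.lf (nat_lit 0) (nat_lit 352375045074) (nat_lit 152) (nat_lit 1517170483570) (nat_lit 0) (nat_lit 338920160071) (nat_lit 1) (nat_lit 5) (nat_lit 3) (nat_lit 4) (nat_lit 1) (nat_lit 4) (nat_lit 315) (nat_lit 265) (nat_lit 200)) (XT.lf (nat_lit 0) (nat_lit 425621535745) (nat_lit 152) (nat_lit 1698576293504) (nat_lit 0) (nat_lit 412166451691) (nat_lit 1) (nat_lit 5) (nat_lit 3) (nat_lit 4) (nat_lit 1) (nat_lit 4) (nat_lit 316) (nat_lit 265) (nat_lit 199))))))) (XT.nd (nat_lit 780) (nat_lit 0) (nat_lit 0) (XT.nd (nat_lit 390) (nat_lit 0) (nat_lit 0) (XT.nd (nat_lit 156) (nat_lit 0) (nat_lit 0) (XT.nd (nat_lit 78) (nat_lit 0) (nat_lit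 0) (XT.lf (nat_lit 0) (nat_lit 509854380433) (nat_lit 152) (nat_lit 1907194251483) (nat_lit 0) (nat_lit 496399123293) (nat_lit 1) (nat_lit 5) (nat_lit 3) (nat_lit 4) (nat_lit 1) (nat_lit 4) (nat_lit 317) (nat_lit 265) (nat_lit 198)) (XT.lf (nat_lit 0) (nat_lit 606721613059) (nat_lit 152) (nat_lit 2147106013209) (nat_lit 0) (nat_lit 593266205407) (nat_lit 1) (nat_lit 5) (nat_lit 3) (nat_lit 4) (nat_lit 1) (nat_lit 4) (nat_lit 318) (nat_lit 265) (nat_lit 197))) (XT.nd (nat_lit 78) (nat_lit 0) (nat_lit 0) (XT.lf (nat_lit 0) (nat_lit 718118462084) (nat_lit 152) (nat_lit 2423005504454) (nat_lit 0) (nat_lit 704662923554) (nat_lit 1) (nat_lit 5) (nat_lit 3) (nat_lit 4) (nat_lit 1) (nat_lit 4) (nat_lit 319) (nat_lit 265) (nat_lit 196)) (XT.nd (nat_lit 78) (nat_lit 0) (nat_lit 0) (XT.lf (nat_lit 0) (nat_lit 846224431079) (nat_lit 152) (nat_lit 2740290758741) (nat_lit 0) (nat_lit 832768778740)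 (nat_lit 1) (nat_lit 5) (nat_lit 3) (nat_lit 4) (nat_lit 1) (nat_lit 4) (nat_lit 320) (nat_lit 265) (nat_lit 195)) (XT.lf (nat_lit 0) (nat_lit 993545941174) (nat_lit 152) (nat_lit 3105169531047) (nat_lit 0) (nat_lit 980090189872) (nat_lit 1) (nat_lit 5) (nat_lit 3) (nat_lit 4) (nat_lit 1) (nat_lit 4) (nat_lit 321) (nat_lit 265) (nat_lit 194))))) (XT.nd (nat_lit 156) (nat_lit 0) (nat_lit 0) (XT.nd (nat_lit 78) (nat_lit 0) (nat_lit 0) (XT.lf (nat_lit 0) (nat_lit 1162965369741) (nat_lit 152) (nat_lit 3524780753873) (nat_lit 0) (nat_lit 1149509532385) (nat_lit 1) (nat_lit 5) (nat_lit 3) (nat_lit 4) (nat_lit 1) (nat_lit 4) (nat_lit 322) (nat_lit 265) (nat_lit 193)) (XT.lf (nat_lit 0) (nat_lit 1357797444732) (nat_lit 152) (nat_lit 4007334212014) (nat_lit 0) (nat_lit 1344341532545) (nat_lit 1) (nat_lit 5) (nat_lit 3) (nat_lit 4) (nat_lit 1) (nat_lit 4) (nat_lit 323) (nat_lit 265) (nat_lit 192)))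 (XT.nd (nat_lit 78) (nat_lit 0) (nat_lit 0) (XT.lf (nat_lit 0) (nat_lit 1581854098047) (nat_lit 152) (nat_lit 4562271168780) (nat_lit 0) (nat_lit 1568398120790) (nat_lit 1) (nat_lit 5) (nat_lit 3) (nat_lit 4) (nat_lit 1) (nat_lit 4) (nat_lit 324) (nat_lit 265) (nat_lit 191)) (XT.nd (nat_lit 78) (nat_lit 0) (nat_lit 0) (XT.lf (nat_lit 0) (nat_lit 1839519046817) (nat_lit 152) (nat_lit 5200449086370) (nat_lit 0) (nat_lit 1826063012977) (nat_lit 1) (nat_lit 5) (nat_lit 3) (nat_lit 4) (nat_lit 1) (nat_lit 4) (nat_lit 325) (nat_lit 265) (nat_lit 190)) (XT.lf (nat_lit 0) (nat_lit 2135833561778) (nat_lit 152) (nat_lit 5934354054476) (nat_lit 0) (nat_lit 2122377478736) (nat_lit 1) (nat_lit 5) (nat_lit 3) (nat_lit 4) (nat_lit 1) (nat_lit 4) (nat_lit 326) (nat_lit 265) (nat_lit 189)))))) (XT.nd (nat_lit 390) (nat_lit 0) (nat_lit 0) (XT.nd (nat_lit 156) (nat_lit 0) (nat_lit 0) (XT.nd (nat_lit 78)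 (nat_lit 0) (nat_lit 0) (XT.lf (nat_lit 0) (nat_lit 2476595100832) (nat_lit 152) (nat_lit 6778345083342) (nat_lit 0) (nat_lit 2463138975006) (nat_lit 1) (nat_lit 5) (nat_lit 3) (nat_lit 4) (nat_lit 1) (nat_lit 4) (nat_lit 327) (nat_lit 265) (nat_lit 188)) (XT.lf (nat_lit 0) (nat_lit 2868470737570) (nat_lit 152) (nat_lit 7748935040926) (nat_lit 0) (nat_lit 2855014574540) (nat_lit 1) (nat_lit 5) (nat_lit 3) (nat_lit 4) (nat_lit 1) (nat_lit 4) (nat_lit 328) (nat_lit 265) (nat_lit 187))) (XT.nd (nat_lit 78) (nat_lit 0) (nat_lit 0) (XT.lf (nat_lit 0) (nat_lit 3319127604013) (nat_lit 152) (nat_lit 8865113730744) (nat_lit 0) (nat_lit 3305671408632) (nat_lit 1) (nat_lit 5) (nat_lit 3) (nat_lit 4) (nat_lit 1) (nat_lit 4) (nat_lit 329) (nat_lit 265) (nat_lit 186)) (XT.nd (nat_lit 78) (nat_lit 0) (nat_lit 0) (XT.lf (nat_lit 0) (nat_lit 3837382899724) (nat_lit 152) (nat_lit 10148719431512) (nat_lit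 0) (nat_lit 3823926676211) (nat_lit 1) (nat_lit 5) (nat_lit 3) (nat_lit 4) (nat_lit 1) (nat_lit 4) (nat_lit 330) (nat_lit 265) (nat_lit 185)) (XT.lf (nat_lit 0) (nat_lit 4433376402227) (nat_lit 152) (nat_lit 11624866167809) (nat_lit 0) (nat_lit 4419920154252) (nat_lit 1) (nat_lit 5) (nat_lit 3) (nat_lit 4) (nat_lit 1) (nat_lit 4) (nat_lit 331) (nat_lit 265) (nat_lit 184))))) (XT.nd (nat_lit 156) (nat_lit 0) (nat_lit 0) (XT.nd (nat_lit 78) (nat_lit 0) (nat_lit 0) (XT.lf (nat_lit 0) (nat_lit 5118768853962) (nat_lit 152) (nat_lit 13322435071431) (nat_lit 0) (nat_lit 5105312584715) (nat_lit 1) (nat_lit 5) (nat_lit 3) (nat_lit 4) (nat_lit 1) (nat_lit 4) (nat_lit 332) (nat_lit 265) (nat_lit 183)) (XT.lf (nat_lit 0) (nat_lit 5906970107245) (nat_lit 152) (nat_lit 15274639447016) (nat_lit 0) (nat_lit 5893513819502) (nat_lit 1) (nat_lit 5) (nat_lit 3) (nat_lit 4) (nat_lit 1) (nat_lit 4) (nat_lit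 333) (nat_lit 265) (nat_lit 182))) (XT.nd (nat_lit 78) (nat_lit 0) (nat_lit 0) (XT.lf (nat_lit 0) (nat_lit 6813401490946) (nat_lit 152) (nat_lit 17519674597564) (nat_lit 0) (nat_lit 6799945187118) (nat_lit 1) (nat_lit 5) (nat_lit 3) (nat_lit 4) (nat_lit 1) (nat_lit 4) (nat_lit 334) (nat_lit 265) (nat_lit 181)) (XT.nd (nat_lit 78) (nat_lit 0) (nat_lit 0) (XT.lf (nat_lit 0) (nat_lit 7855797532137) (nat_lit 152) (nat_lit 20101465123847) (nat_lit 0) (nat_lit 7842341214323) (nat_lit 1) (nat_lit 5) (nat_lit 3) (nat_lit 4) (nat_lit 1) (nat_lit 4) (nat_lit 335) (nat_lit 265) (nat_lit 180)) (XT.lf (nat_lit 0) (nat_lit 9054552935971) (nat_lit 152) (nat_lit 23070524318770) (nat_lit 0) (nat_lit 9041096605995) (nat_lit 1) (nat_lit 5) (nat_lit 3) (nat_lit 4) (nat_lit 1) (nat_lit 4) (nat_lit 336) (nat_lit 265) (nat_lit 179))))))))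
noncomputable def xc60 : XT := (XT.nd (nat_lit 35802) (nat_lit 0) (nat_lit 228) (XT.nd (nat_lit 702) (nat_lit 0) (nat_lit 0) (XT.nd (nat_lit 312) (nat_lit 0) (nat_lit 0) (XT.nd (nat_lit 156) (nat_lit 0) (nat_lit 0) (XT.nd (nat_lit 78) (nat_lit 0) (nat_lit 0) (XT.lf (nat_lit 0) (nat_lit 10433121612523) (nat_lit 152) (nat_lit 26484942470928) (nat_lit 0) (nat_lit 10419665271972) (nat_lit 1) (nat_lit 5) (nat_lit 3) (nat_lit 4) (nat_lit 1) (nat_lit 4) (nat_lit 337) (nat_lit 265) (nat_lit 178)) (XT.lf (nat_lit 0) (nat_lit 12018475557640) (nat_lit 152) (nat_lit 30411523413735) (nat_lit 0) (nat_lit 12005019207892) (nat_lit 1) (nat_lit 5) (nat_lit 3) (nat_lit 4) (nat_lit 1) (nat_lit 4) (nat_lit 338) (nat_lit 265) (nat_lit 177))) (XT.nd (nat_lit 78) (nat_lit 0) (nat_lit 0) (XT.lf (nat_lit 0) (nat_lit 13841632565899) (nat_lit 152) (nat_lit 34927091556941) (nat_lit 0) (nat_lit 13828176208154) (nat_lit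 1) (nat_lit 5) (nat_lit 3) (nat_lit 4) (nat_lit 1) (nat_lit 4) (nat_lit 339) (nat_lit 265) (nat_lit 176)) (XT.lf (nat_lit 0) (nat_lit 15938263100506) (nat_lit 152) (nat_lit 40119994972912) (nat_lit 0) (nat_lit 15924806735807) (nat_lit 1) (nat_lit 5) (nat_lit 3) (nat_lit 4) (nat_lit 1) (nat_lit 4) (nat_lit 340) (nat_lit 265) (nat_lit 175)))) (XT.nd (nat_lit 156) (nat_lit 0) (nat_lit 0) (XT.nd (nat_lit 78) (nat_lit 0) (nat_lit 0) (XT.lf (nat_lit 0) (nat_lit 18349388193659) (nat_lit 152) (nat_lit 46091833945875) (nat_lit 0) (nat_lit 18335931822914) (nat_lit 1) (nat_lit 5) (nat_lit 3) (nat_lit 4) (nat_lit 1) (nat_lit 4) (nat_lit 341) (nat_lit 265) (nat_lit 174)) (XT.lf (nat_lit 0) (nat_lit 21122182031963) (nat_lit 152) (nat_lit 52959448803561) (nat_lit 0) (nat_lit 21108725655960) (nat_lit 1) (nat_lit 5) (nat_lit 3) (nat_lit 4) (nat_lit 1) (nat_lit 4) (nat_lit 342) (nat_lit 265) (nat_lit 173)))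 (XT.nd (nat_lit 78) (nat_lit 0) (nat_lit 0) (XT.lf (nat_lit 0) (nat_lit 24310894929646) (nat_lit 152) (nat_lit 60857205923621) (nat_lit 0) (nat_lit 24297438549071) (nat_lit 1) (nat_lit 5) (nat_lit 3) (nat_lit 4) (nat_lit 1) (nat_lit 4) (nat_lit 343) (nat_lit 265) (nat_lit 172)) (XT.nd (nat_lit 78) (nat_lit 0) (nat_lit 0) (XT.lf (nat_lit 0) (nat_lit 27977914747751) (nat_lit 152) (nat_lit 69939626641011) (nat_lit 0) (nat_lit 27964458363200) (nat_lit 1) (nat_lit 5) (nat_lit 3) (nat_lit 4) (nat_lit 1) (nat_lit 4) (nat_lit 344) (nat_lit 265) (nat_lit 171)) (XT.lf (nat_lit 0) (nat_lit 32194987526196) (nat_lit 152) (nat_lit 80384410491509) (nat_lit 0) (nat_lit 32181531138187) (nat_lit 1) (nat_lit 5) (nat_lit 3) (nat_lit 4) (nat_lit 1) (nat_lit 4) (nat_lit 345) (nat_lit 265) (nat_lit 170)))))) (XT.nd (nat_lit 34710) (nat_lit 0) (nat_lit 1292) (XT.nd (nat_lit 34476) (nat_lit 0) (nat_lit 1672)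 (XT.nd (nat_lit 34398) (nat_lit 0) (nat_lit 1976) (XT.lf (nat_lit 0) (nat_lit 37044621210646) (nat_lit 152) (nat_lit 92395911941752) (nat_lit 0) (nat_lit 37031164819631) (nat_lit 1) (nat_lit 5) (nat_lit 3) (nat_lit 4) (nat_lit 1) (nat_lit 4) (nat_lit 346) (nat_lit 265) (nat_lit 169)) (XT.lf (nat_lit 0) (nat_lit 1999517770) (nat_lit 0) (nat_lit 1999517770) (nat_lit 228) (nat_lit 953919768) (nat_lit 27) (nat_lit 5) (nat_lit 27) (nat_lit 3) (nat_lit 30) (nat_lit 3) (nat_lit 266) (nat_lit 266) (nat_lit 248))) (XT.nd (nat_lit 78) (nat_lit 304) (nat_lit 0) (XT.lf (nat_lit 0) (nat_lit 9238090616) (nat_lit 228) (nat_lit 1240839382) (nat_lit 304) (nat_lit 70968854) (nat_lit 27) (nat_lit 5) (nat_lit 30) (nat_lit 3) (nat_lit 31) (nat_lit 5) (nat_lit 267) (nat_lit 266) (nat_lit 247)) (XT.nd (nat_lit 78) (nat_lit 304) (nat_lit 0) (XT.lf (nat_lit 76) (nat_lit 4235125737) (nat_lit 0) (nat_lit 6683723837)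 (nat_lit 304) (nat_lit 333947045) (nat_lit 28) (nat_lit 5) (nat_lit 27) (nat_lit 5) (nat_lit 31) (nat_lit 5) (nat_lit 268) (nat_lit 266) (nat_lit 246)) (XT.lf (nat_lit 0) (nat_lit 683401538) (nat_lit 304) (nat_lit 1499023110) (nat_lit 380) (nat_lit 9879709579) (nat_lit 23) (nat_lit 5) (nat_lit 27) (nat_lit 5) (nat_lit 28) (nat_lit 5) (nat_lit 269) (nat_lit 266) (nat_lit 245))))) (XT.nd (nat_lit 156) (nat_lit 456) (nat_lit 0) (XT.nd (nat_lit 78) (nat_lit 0) (nat_lit 0) (XT.lf (nat_lit 0) (nat_lit 2080165494) (nat_lit 304) (nat_lit 7884080985) (nat_lit 76) (nat_lit 2987433300) (nat_lit 24) (nat_lit 5) (nat_lit 28) (nat_lit 5) (nat_lit 25) (nat_lit 5) (nat_lit 270) (nat_lit 266) (nat_lit 244)) (XT.lf (nat_lit 0) (nat_lit 3790889049) (nat_lit 304) (nat_lit 1365514063) (nat_lit 76) (nat_lit 8802885629) (nat_lit 24) (nat_lit 5) (nat_lit 28) (nat_lit 5) (nat_lit 25) (nat_lit 5) (nat_lit 271)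 (nat_lit 266) (nat_lit 243))) (XT.nd (nat_lit 78) (nat_lit 152) (nat_lit 0) (XT.lf (nat_lit 0) (nat_lit 5991204861) (nat_lit 380) (nat_lit 8465025968) (nat_lit 76) (nat_lit 627120074) (nat_lit 20) (nat_lit 5) (nat_lit 25) (nat_lit 5) (nat_lit 21) (nat_lit 5) (nat_lit 272) (nat_lit 266) (nat_lit 242)) (XT.nd (nat_lit 78) (nat_lit 152) (nat_lit 0) (XT.lf (nat_lit 0) (nat_lit 8777202067) (nat_lit 380) (nat_lit 739380042) (nat_lit 76) (nat_lit 6821320754) (nat_lit 20) (nat_lit 5) (nat_lit 25) (nat_lit 5) (nat_lit 21) (nat_lit 5) (nat_lit 273) (nat_lit 266) (nat_lit 241)) (XT.lf (nat_lit 0) (nat_lit 8866345311) (nat_lit 152) (nat_lit 3425640313) (nat_lit 228) (nat_lit 5442215132) (nat_lit 18) (nat_lit 5) (nat_lit 20) (nat_lit 5) (nat_lit 21) (nat_lit 5) (nat_lit 274) (nat_lit 266) (nat_lit 240))))))) (XT.nd (nat_lit 780) (nat_lit 456) (nat_lit 0) (XT.nd (nat_lit 390) (nat_lit 228) (nat_lit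 0) (XT.nd (nat_lit 156) (nat_lit 228) (nat_lit 0) (XT.nd (nat_lit 78) (nat_lit 76) (nat_lit 0) (XT.lf (nat_lit 0) (nat_lit 482420439) (nat_lit 76) (nat_lit 16008068351) (nat_lit 152) (nat_lit 2826149802) (nat_lit 17) (nat_lit 5) (nat_lit 18) (nat_lit 5) (nat_lit 19) (nat_lit 4) (nat_lit 275) (nat_lit 266) (nat_lit 239)) (XT.lf (nat_lit 0) (nat_lit 764191495) (nat_lit 152) (nat_lit 9101955441) (nat_lit 76) (nat_lit 11179576981) (nat_lit 16) (nat_lit 5) (nat_lit 18) (nat_lit 5) (nat_lit 17) (nat_lit 5) (nat_lit 276) (nat_lit 266) (nat_lit 238))) (XT.nd (nat_lit 78) (nat_lit 76) (nat_lit 0) (XT.lf (nat_lit 0) (nat_lit 2075891340) (nat_lit 152) (nat_lit 2569764923) (nat_lit 228) (nat_lit 18362153718) (nat_lit 14) (nat_lit 5) (nat_lit 16) (nat_lit 5) (nat_lit 17) (nat_lit 5) (nat_lit 277) (nat_lit 266) (nat_lit 237)) (XT.nd (nat_lit 78) (nat_lit 76) (nat_lit 0) (XT.lf (nat_lit 0) (nat_lit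 9807115583) (nat_lit 228) (nat_lit 9570107885) (nat_lit 76) (nat_lit 5782416784) (nat_lit 14) (nat_lit 5) (nat_lit 17) (nat_lit 5) (nat_lit 15) (nat_lit 4) (nat_lit 278) (nat_lit 266) (nat_lit 236)) (XT.lf (nat_lit 0) (nat_lit 3639417165) (nat_lit 76) (nat_lit 12340182672) (nat_lit 152) (nat_lit 11619209126) (nat_lit 13) (nat_lit 5) (nat_lit 14) (nat_lit 5) (nat_lit 15) (nat_lit 4) (nat_lit 279) (nat_lit 266) (nat_lit 235))))) (XT.nd (nat_lit 156) (nat_lit 152) (nat_lit 0) (XT.nd (nat_lit 78) (nat_lit 76) (nat_lit 0) (XT.lf (nat_lit 0) (nat_lit 19850372122) (nat_lit 76) (nat_lit 3694005995) (nat_lit 152) (nat_lit 6789585397) (nat_lit 13) (nat_lit 5) (nat_lit 14) (nat_lit 5) (nat_lit 15) (nat_lit 4) (nat_lit 280) (nat_lit 266) (nat_lit 234)) (XT.lf (nat_lit 0) (nat_lit 5162412495) (nat_lit 76) (nat_lit 27523783975) (nat_lit 76) (nat_lit 726910401) (nat_lit 12) (nat_lit 4) (nat_lit 13)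 (nat_lit 5) (nat_lit 13) (nat_lit 4) (nat_lit 281) (nat_lit 266) (nat_lit 233))) (XT.nd (nat_lit 78) (nat_lit 76) (nat_lit 0) (XT.lf (nat_lit 0) (nat_lit 6409466459) (nat_lit 152) (nat_lit 13051578361) (nat_lit 76) (nat_lit 17346292277) (nat_lit 11) (nat_lit 5) (nat_lit 13) (nat_lit 5) (nat_lit 12) (nat_lit 4) (nat_lit 282) (nat_lit 266) (nat_lit 232)) (XT.nd (nat_lit 78) (nat_lit 0) (nat_lit 0) (XT.lf (nat_lit 0) (nat_lit 4771888403) (nat_lit 76) (nat_lit 9941741638) (nat_lit 152) (nat_lit 25966158967) (nat_lit 10) (nat_lit 5) (nat_lit 11) (nat_lit 5) (nat_lit 12) (nat_lit 4) (nat_lit 283) (nat_lit 266) (nat_lit 231)) (XT.lf (nat_lit 0) (nat_lit 24994700626) (nat_lit 152) (nat_lit 18415725508) (nat_lit 0) (nat_lit 1613026863) (nat_lit 10) (nat_lit 5) (nat_lit 12) (nat_lit 4) (nat_lit 10) (nat_lit 4) (nat_lit 284) (nat_lit 266) (nat_lit 230)))))) (XT.nd (nat_lit 390) (nat_lit 228) (nat_lit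 0) (XT.nd (nat_lit 156) (nat_lit 152) (nat_lit 0) (XT.nd (nat_lit 78) (nat_lit 0) (nat_lit 0) (XT.lf (nat_lit 0) (nat_lit 1302345917) (nat_lit 76) (nat_lit 36021120248) (nat_lit 76) (nat_lit 12619402145) (nat_lit 9) (nat_lit 4) (nat_lit 10) (nat_lit 5) (nat_lit 10) (nat_lit 4) (nat_lit 285) (nat_lit 266) (nat_lit 229)) (XT.lf (nat_lit 0) (nat_lit 26009185953) (nat_lit 76) (nat_lit 26434437090) (nat_lit 76) (nat_lit 3015289125) (nat_lit 9) (nat_lit 4) (nat_lit 10) (nat_lit 5) (nat_lit 10) (nat_lit 4) (nat_lit 286) (nat_lit 266) (nat_lit 228))) (XT.nd (nat_lit 78) (nat_lit 76) (nat_lit 0) (XT.lf (nat_lit 0) (nat_lit 7295849569) (nat_lit 152) (nat_lit 7748227791) (nat_lit 76) (nat_lit 46711247141) (nat_lit 8) (nat_lit 5) (nat_lit 10) (nat_lit 5) (nat_lit 9) (nat_lit 4) (nat_lit 287) (nat_lit 266) (nat_lit 227)) (XT.nd (nat_lit 78) (nat_lit 0) (nat_lit 0) (XT.lf (nat_lit 0) (nat_lit 18698792862)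 (nat_lit 76) (nat_lit 904126536) (nat_lit 152) (nat_lit 49258064460) (nat_lit 7) (nat_lit 5) (nat_lit 8) (nat_lit 5) (nat_lit 9) (nat_lit 4) (nat_lit 288) (nat_lit 266) (nat_lit 226)) (XT.lf (nat_lit 0) (nat_lit 34800270862) (nat_lit 152) (nat_lit 27674415036) (nat_lit 0) (nat_lit 14401188896) (nat_lit 7) (nat_lit 5) (nat_lit 9) (nat_lit 4) (nat_lit 7) (nat_lit 4) (nat_lit 289) (nat_lit 266) (nat_lit 225))))) (XT.nd (nat_lit 156) (nat_lit 152) (nat_lit 0) (XT.nd (nat_lit 78) (nat_lit 76) (nat_lit 0) (XT.lf (nat_lit 0) (nat_lit 52306383393) (nat_lit 152) (nat_lit 1883620304) (nat_lit 0) (nat_lit 31898635705) (nat_lit 7) (nat_lit 5) (nat_lit 9) (nat_lit 4) (nat_lit 7) (nat_lit 4) (nat_lit 290) (nat_lit 266) (nat_lit 224)) (XT.lf (nat_lit 0) (nat_lit 30464383764) (nat_lit 76) (nat_lit 43223411337) (nat_lit 76) (nat_lit 22808128239) (nat_lit 6) (nat_lit 4) (nat_lit 7) (nat_lit 5) (nat_lit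 7) (nat_lit 4) (nat_lit 291) (nat_lit 266) (nat_lit 223))) (XT.nd (nat_lit 78) (nat_lit 152) (nat_lit 0) (XT.lf (nat_lit 0) (nat_lit 67853792607) (nat_lit 76) (nat_lit 30509649864) (nat_lit 76) (nat_lit 10087814235) (nat_lit 6) (nat_lit 4) (nat_lit 7) (nat_lit 5) (nat_lit 7) (nat_lit 4) (nat_lit 292) (nat_lit 266) (nat_lit 222)) (XT.nd (nat_lit 78) (nat_lit 76) (nat_lit 0) (XT.lf (nat_lit 0) (nat_lit 4125887962) (nat_lit 152) (nat_lit 11556874361) (nat_lit 76) (nat_lit 106490497683) (nat_lit 5) (nat_lit 5) (nat_lit 7) (nat_lit 5) (nat_lit 6) (nat_lit 4) (nat_lit 293) (nat_lit 266) (nat_lit 221)) (XT.lf (nat_lit 0) (nat_lit 20525202868) (nat_lit 152) (nat_lit 114435536479) (nat_lit 0) (nat_lit 2757821880) (nat_lit 4) (nat_lit 5) (nat_lit 6) (nat_lit 4) (nat_lit 4) (nat_lit 4) (nat_lit 294) (nat_lit 266) (nat_lit 220))))))))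
noncomputable def xc61 : XT := (XT.nd (nat_lit 1482) (nat_lit 0) (nat_lit 0) (XT.nd (nat_lit 702) (nat_lit 152) (nat_lit 0) (XT.nd (nat_lit 312) (nat_lit 76) (nat_lit 0) (XT.nd (nat_lit 156) (nat_lit 0) (nat_lit 0) (XT.nd (nat_lit 78) (nat_lit 0) (nat_lit 0) (XT.lf (nat_lit 0) (nat_lit 40755145519) (nat_lit 152) (nat_lit 91650890393) (nat_lit 0) (nat_lit 22984018101) (nat_lit 4) (nat_lit 5) (nat_lit 6) (nat_lit 4) (nat_lit 4) (nat_lit 4) (nat_lit 295) (nat_lit 266) (nat_lit 219)) (XT.lf (nat_lit 0) (nat_lit 64011802047) (nat_lit 152) (nat_lit 65464223618) (nat_lit 0) (nat_lit 46237416863) (nat_lit 4) (nat_lit 5) (nat_lit 6) (nat_lit 4) (nat_lit 4) (nat_lit 4) (nat_lit 296) (nat_lit 266) (nat_lit 218))) (XT.nd (nat_lit 78) (nat_lit 0) (nat_lit 0) (XT.lf (nat_lit 0) (nat_lit 90750193992) (nat_lit 152) (nat_lit 35363188324) (nat_lit 0) (nat_lit 72972975968) (nat_lit 4) (nat_lit 5) (nat_lit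 6) (nat_lit 4) (nat_lit 4) (nat_lit 4) (nat_lit 297) (nat_lit 266) (nat_lit 217)) (XT.lf (nat_lit 0) (nat_lit 121493463805) (nat_lit 152) (nat_lit 758851212) (nat_lit 0) (nat_lit 103713782443) (nat_lit 4) (nat_lit 5) (nat_lit 6) (nat_lit 4) (nat_lit 4) (nat_lit 4) (nat_lit 298) (nat_lit 266) (nat_lit 216)))) (XT.nd (nat_lit 156) (nat_lit 0) (nat_lit 0) (XT.nd (nat_lit 78) (nat_lit 0) (nat_lit 0) (XT.lf (nat_lit 0) (nat_lit 42839716938) (nat_lit 76) (nat_lit 115777294628) (nat_lit 76) (nat_lit 97995471232) (nat_lit 3) (nat_lit 4) (nat_lit 4) (nat_lit 5) (nat_lit 4) (nat_lit 4) (nat_lit 299) (nat_lit 266) (nat_lit 215)) (XT.lf (nat_lit 0) (nat_lit 93053515986) (nat_lit 76) (nat_lit 108290388500) (nat_lit 76) (nat_lit 90506702465) (nat_lit 3) (nat_lit 4) (nat_lit 4) (nat_lit 5) (nat_lit 4) (nat_lit 4) (nat_lit 300) (nat_lit 266) (nat_lit 214))) (XT.nd (nat_lit 78) (nat_lit 0) (nat_lit 0)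 (XT.lf (nat_lit 0) (nat_lit 150790829365) (nat_lit 76) (nat_lit 99684780908) (nat_lit 76) (nat_lit 81899475188) (nat_lit 3) (nat_lit 4) (nat_lit 4) (nat_lit 5) (nat_lit 4) (nat_lit 4) (nat_lit 301) (nat_lit 266) (nat_lit 213)) (XT.nd (nat_lit 78) (nat_lit 0) (nat_lit 0) (XT.lf (nat_lit 0) (nat_lit 217181300165) (nat_lit 76) (nat_lit 89792101270) (nat_lit 76) (nat_lit 72005387129) (nat_lit 3) (nat_lit 4) (nat_lit 4) (nat_lit 5) (nat_lit 4) (nat_lit 4) (nat_lit 302) (nat_lit 266) (nat_lit 212)) (XT.lf (nat_lit 0) (nat_lit 293523872378) (nat_lit 76) (nat_lit 78418797159) (nat_lit 76) (nat_lit 60630858302) (nat_lit 3) (nat_lit 4) (nat_lit 4) (nat_lit 5) (nat_lit 4) (nat_lit 4) (nat_lit 303) (nat_lit 266) (nat_lit 211)))))) (XT.nd (nat_lit 390) (nat_lit 0) (nat_lit 0) (XT.nd (nat_lit 156) (nat_lit 152) (nat_lit 0) (XT.nd (nat_lit 78) (nat_lit 0) (nat_lit 0) (XT.lf (nat_lit 0) (nat_lit 381312205027)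 (nat_lit 76) (nat_lit 65342347406) (nat_lit 76) (nat_lit 47553343580) (nat_lit 3) (nat_lit 4) (nat_lit 4) (nat_lit 5) (nat_lit 4) (nat_lit 4) (nat_lit 304) (nat_lit 266) (nat_lit 210)) (XT.lf (nat_lit 0) (nat_lit 482263895924) (nat_lit 76) (nat_lit 50306908431) (nat_lit 76) (nat_lit 32516978544) (nat_lit 3) (nat_lit 4) (nat_lit 4) (nat_lit 5) (nat_lit 4) (nat_lit 4) (nat_lit 305) (nat_lit 266) (nat_lit 209))) (XT.nd (nat_lit 78) (nat_lit 152) (nat_lit 0) (XT.lf (nat_lit 0) (nat_lit 598354086847) (nat_lit 76) (nat_lit 33018308599) (nat_lit 76) (nat_lit 15227573443) (nat_lit 3) (nat_lit 4) (nat_lit 4) (nat_lit 5) (nat_lit 4) (nat_lit 4) (nat_lit 306) (nat_lit 266) (nat_lit 208)) (XT.nd (nat_lit 78) (nat_lit 76) (nat_lit 0) (XT.lf (nat_lit 0) (nat_lit 4238887752) (nat_lit 152) (nat_lit 8677826723) (nat_lit 76) (nat_lit 727393641643) (nat_lit 2) (nat_lit 5) (nat_lit 4) (nat_lit 5) (nat_lit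 3) (nat_lit 4) (nat_lit 307) (nat_lit 266) (nat_lit 207)) (XT.lf (nat_lit 0) (nat_lit 27240366739) (nat_lit 152) (nat_lit 808633033961) (nat_lit 0) (nat_lit 11769023878) (nat_lit 1) (nat_lit 5) (nat_lit 3) (nat_lit 4) (nat_lit 1) (nat_lit 4) (nat_lit 308) (nat_lit 266) (nat_lit 206))))) (XT.nd (nat_lit 156) (nat_lit 0) (nat_lit 0) (XT.nd (nat_lit 78) (nat_lit 0) (nat_lit 0) (XT.lf (nat_lit 0) (nat_lit 54780715436) (nat_lit 152) (nat_lit 876821379266) (nat_lit 0) (nat_lit 39308912159) (nat_lit 1) (nat_lit 5) (nat_lit 3) (nat_lit 4) (nat_lit 1) (nat_lit 4) (nat_lit 309) (nat_lit 266) (nat_lit 205)) (XT.lf (nat_lit 0) (nat_lit 86450683305) (nat_lit 152) (nat_lit 955240929120) (nat_lit 0) (nat_lit 70978479667) (nat_lit 1) (nat_lit 5) (nat_lit 3) (nat_lit 4) (nat_lit 1) (nat_lit 4) (nat_lit 310) (nat_lit 266) (nat_lit 204))) (XT.nd (nat_lit 78) (nat_lit 0) (nat_lit 0) (XT.lf (nat_lit 0) (nat_lit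 122869900155) (nat_lit 152) (nat_lit 1045425979062) (nat_lit 0) (nat_lit 107397348376) (nat_lit 1) (nat_lit 5) (nat_lit 3) (nat_lit 4) (nat_lit 1) (nat_lit 4) (nat_lit 311) (nat_lit 266) (nat_lit 203)) (XT.nd (nat_lit 78) (nat_lit 0) (nat_lit 0) (XT.lf (nat_lit 0) (nat_lit 164750915878) (nat_lit 152) (nat_lit 1149141019200) (nat_lit 0) (nat_lit 149278061369) (nat_lit 1) (nat_lit 5) (nat_lit 3) (nat_lit 4) (nat_lit 1) (nat_lit 4) (nat_lit 312) (nat_lit 266) (nat_lit 202)) (XT.lf (nat_lit 0) (nat_lit 212913141653) (nat_lit 152) (nat_lit 1268415256842) (nat_lit 0) (nat_lit 197440023899) (nat_lit 1) (nat_lit 5) (nat_lit 3) (nat_lit 4) (nat_lit 1) (nat_lit 4) (nat_lit 313) (nat_lit 266) (nat_lit 201))))))) (XT.nd (nat_lit 780) (nat_lit 0) (nat_lit 0) (XT.nd (nat_lit 390) (nat_lit 0) (nat_lit 0) (XT.nd (nat_lit 156) (nat_lit 0) (nat_lit 0) (XT.nd (nat_lit 78) (nat_lit 0) (nat_lit 0) (XT.lf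 (nat_lit 0) (nat_lit 268298881897) (nat_lit 152) (nat_lit 1405582318376) (nat_lit 0) (nat_lit 252825535235) (nat_lit 1) (nat_lit 5) (nat_lit 3) (nat_lit 4) (nat_lit 1) (nat_lit 4) (nat_lit 314) (nat_lit 266) (nat_lit 200)) (XT.lf (nat_lit 0) (nat_lit 331991770658) (nat_lit 152) (nat_lit 1563325907179) (nat_lit 0) (nat_lit 316518224946) (nat_lit 1) (nat_lit 5) (nat_lit 3) (nat_lit 4) (nat_lit 1) (nat_lit 4) (nat_lit 315) (nat_lit 266) (nat_lit 199))) (XT.nd (nat_lit 78) (nat_lit 0) (nat_lit 0) (XT.lf (nat_lit 0) (nat_lit 405237973150) (nat_lit 152) (nat_lit 1744732310860) (nat_lit 0) (nat_lit 389764254351) (nat_lit 1) (nat_lit 5) (nat_lit 3) (nat_lit 4) (nat_lit 1) (nat_lit 4) (nat_lit 316) (nat_lit 266) (nat_lit 198)) (XT.nd (nat_lit 78) (nat_lit 0) (nat_lit 0) (XT.lf (nat_lit 0) (nat_lit 489470567250) (nat_lit 152) (nat_lit 1953350785141) (nat_lit 0) (nat_lit 473996697940) (nat_lit 1)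 (nat_lit 5) (nat_lit 3) (nat_lit 4) (nat_lit 1) (nat_lit 4) (nat_lit 317) (nat_lit 266) (nat_lit 197)) (XT.lf (nat_lit 0) (nat_lit 586337581971) (nat_lit 152) (nat_lit 2193262995825) (nat_lit 0) (nat_lit 570863581782) (nat_lit 1) (nat_lit 5) (nat_lit 3) (nat_lit 4) (nat_lit 1) (nat_lit 4) (nat_lit 318) (nat_lit 266) (nat_lit 196))))) (XT.nd (nat_lit 156) (nat_lit 0) (nat_lit 0) (XT.nd (nat_lit 78) (nat_lit 0) (nat_lit 0) (XT.lf (nat_lit 0) (nat_lit 697734241515) (nat_lit 152) (nat_lit 2469162877468) (nat_lit 0) (nat_lit 682260127519) (nat_lit 1) (nat_lit 5) (nat_lit 3) (nat_lit 4) (nat_lit 1) (nat_lit 4) (nat_lit 319) (nat_lit 266) (nat_lit 195)) (XT.lf (nat_lit 0) (nat_lit 825840045743) (nat_lit 152) (nat_lit 2786448471233) (nat_lit 0) (nat_lit 810365832783) (nat_lit 1) (nat_lit 5) (nat_lit 3) (nat_lit 4) (nat_lit 1) (nat_lit 4) (nat_lit 320) (nat_lit 266) (nat_lit 194))) (XT.nd (nat_lit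 78) (nat_lit 0) (nat_lit 0) (XT.lf (nat_lit 0) (nat_lit 973161412563) (nat_lit 152) (nat_lit 3151327538736) (nat_lit 0) (nat_lit 957687113548) (nat_lit 1) (nat_lit 5) (nat_lit 3) (nat_lit 4) (nat_lit 1) (nat_lit 4) (nat_lit 321) (nat_lit 266) (nat_lit 193)) (XT.nd (nat_lit 78) (nat_lit 0) (nat_lit 0) (XT.lf (nat_lit 0) (nat_lit 1142580716544) (nat_lit 152) (nat_lit 3570939018255) (nat_lit 0) (nat_lit 1127106342698) (nat_lit 1) (nat_lit 5) (nat_lit 3) (nat_lit 4) (nat_lit 1) (nat_lit 4) (nat_lit 322) (nat_lit 266) (nat_lit 192)) (XT.lf (nat_lit 0) (nat_lit 1337412683197) (nat_lit 152) (nat_lit 4053492699607) (nat_lit 0) (nat_lit 1321938244282) (nat_lit 1) (nat_lit 5) (nat_lit 3) (nat_lit 4) (nat_lit 1) (nat_lit 4) (nat_lit 323) (nat_lit 266) (nat_lit 191)))))) (XT.nd (nat_lit 390) (nat_lit 0) (nat_lit 0) (XT.nd (nat_lit 156) (nat_lit 0) (nat_lit 0) (XT.nd (nat_lit 78) (nat_lit 0) (nat_lit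 0) (XT.lf (nat_lit 0) (nat_lit 1561469242306) (nat_lit 152) (nat_lit 4608429850471) (nat_lit 0) (nat_lit 1545994746809) (nat_lit 1) (nat_lit 5) (nat_lit 3) (nat_lit 4) (nat_lit 1) (nat_lit 4) (nat_lit 324) (nat_lit 266) (nat_lit 190)) (XT.lf (nat_lit 0) (nat_lit 1819134109158) (nat_lit 152) (nat_lit 5246607936841) (nat_lit 0) (nat_lit 1803659564458) (nat_lit 1) (nat_lit 5) (nat_lit 3) (nat_lit 4) (nat_lit 1) (nat_lit 4) (nat_lit 325) (nat_lit 266) (nat_lit 189))) (XT.nd (nat_lit 78) (nat_lit 0) (nat_lit 0) (XT.lf (nat_lit 0) (nat_lit 2115448552886) (nat_lit 152) (nat_lit 5980513051711) (nat_lit 0) (nat_lit 2099973965402) (nat_lit 1) (nat_lit 5) (nat_lit 3) (nat_lit 4) (nat_lit 1) (nat_lit 4) (nat_lit 326) (nat_lit 266) (nat_lit 188)) (XT.nd (nat_lit 78) (nat_lit 0) (nat_lit 0) (XT.lf (nat_lit 0) (nat_lit 2456210029999) (nat_lit 152) (nat_lit 6824504208200) (nat_lit 0) (nat_lit 2440735405310)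 (nat_lit 1) (nat_lit 5) (nat_lit 3) (nat_lit 4) (nat_lit 1) (nat_lit 4) (nat_lit 327) (nat_lit 266) (nat_lit 187)) (XT.lf (nat_lit 0) (nat_lit 2848085612874) (nat_lit 152) (nat_lit 7795094276759) (nat_lit 0) (nat_lit 2832610955834) (nat_lit 1) (nat_lit 5) (nat_lit 3) (nat_lit 4) (nat_lit 1) (nat_lit 4) (nat_lit 328) (nat_lit 266) (nat_lit 186))))) (XT.nd (nat_lit 156) (nat_lit 0) (nat_lit 0) (XT.nd (nat_lit 78) (nat_lit 0) (nat_lit 0) (XT.lf (nat_lit 0) (nat_lit 3298742432480) (nat_lit 152) (nat_lit 8911273063078) (nat_lit 0) (nat_lit 3283267747309) (nat_lit 1) (nat_lit 5) (nat_lit 3) (nat_lit 4) (nat_lit 1) (nat_lit 4) (nat_lit 329) (nat_lit 266) (nat_lit 185)) (XT.lf (nat_lit 0) (nat_lit 3816997687463) (nat_lit 152) (nat_lit 10194878847759) (nat_lit 0) (nat_lit 3801522977830) (nat_lit 1) (nat_lit 5) (nat_lit 3) (nat_lit 4) (nat_lit 1) (nat_lit 4) (nat_lit 330) (nat_lit 266) (nat_lit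 184))) (XT.nd (nat_lit 78) (nat_lit 0) (nat_lit 0) (XT.lf (nat_lit 0) (nat_lit 4412991154551) (nat_lit 152) (nat_lit 11671025657024) (nat_lit 0) (nat_lit 4397516423646) (nat_lit 1) (nat_lit 5) (nat_lit 3) (nat_lit 4) (nat_lit 1) (nat_lit 4) (nat_lit 331) (nat_lit 266) (nat_lit 183)) (XT.nd (nat_lit 78) (nat_lit 0) (nat_lit 0) (XT.lf (nat_lit 0) (nat_lit 5098383575489) (nat_lit 152) (nat_lit 13368594624097) (nat_lit 0) (nat_lit 5082908826088) (nat_lit 1) (nat_lit 5) (nat_lit 3) (nat_lit 4) (nat_lit 1) (nat_lit 4) (nat_lit 332) (nat_lit 266) (nat_lit 182)) (XT.lf (nat_lit 0) (nat_lit 5886584801994) (nat_lit 152) (nat_lit 15320799054857) (nat_lit 0) (nat_lit 5871110036508) (nat_lit 1) (nat_lit 5) (nat_lit 3) (nat_lit 4) (nat_lit 1) (nat_lit 4) (nat_lit 333) (nat_lit 266) (nat_lit 181))))))))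
noncomputable def xc62 : XT := (XT.nd (nat_lit 35802) (nat_lit 0) (nat_lit 456) (XT.nd (nat_lit 702) (nat_lit 0) (nat_lit 0) (XT.nd (nat_lit 312) (nat_lit 0) (nat_lit 0) (XT.nd (nat_lit 156) (nat_lit 0) (nat_lit 0) (XT.nd (nat_lit 78) (nat_lit 0) (nat_lit 0) (XT.lf (nat_lit 0) (nat_lit 6793016162409) (nat_lit 152) (nat_lit 17565834253383) (nat_lit 0) (nat_lit 6777541382936) (nat_lit 1) (nat_lit 5) (nat_lit 3) (nat_lit 4) (nat_lit 1) (nat_lit 4) (nat_lit 334) (nat_lit 266) (nat_lit 180)) (XT.lf (nat_lit 0) (nat_lit 7835412183350) (nat_lit 152) (nat_lit 20147624821385) (nat_lit 0) (nat_lit 7819937391716) (nat_lit 1) (nat_lit 5) (nat_lit 3) (nat_lit 4) (nat_lit 1) (nat_lit 4) (nat_lit 335) (nat_lit 266) (nat_lit 179))) (XT.nd (nat_lit 78) (nat_lit 0) (nat_lit 0) (XT.lf (nat_lit 0) (nat_lit 9034167569577) (nat_lit 152) (nat_lit 23116684052586) (nat_lit 0) (nat_lit 9018692767366) (nat_lit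 1) (nat_lit 5) (nat_lit 3) (nat_lit 4) (nat_lit 1) (nat_lit 4) (nat_lit 336) (nat_lit 266) (nat_lit 178)) (XT.lf (nat_lit 0) (nat_lit 10412736230818) (nat_lit 152) (nat_lit 26531102236291) (nat_lit 0) (nat_lit 10397261419412) (nat_lit 1) (nat_lit 5) (nat_lit 3) (nat_lit 4) (nat_lit 1) (nat_lit 4) (nat_lit 337) (nat_lit 266) (nat_lit 177)))) (XT.nd (nat_lit 156) (nat_lit 0) (nat_lit 0) (XT.nd (nat_lit 78) (nat_lit 0) (nat_lit 0) (XT.lf (nat_lit 0) (nat_lit 11998090162621) (nat_lit 152) (nat_lit 30457683206529) (nat_lit 0) (nat_lit 11982615343218) (nat_lit 1) (nat_lit 5) (nat_lit 3) (nat_lit 4) (nat_lit 1) (nat_lit 4) (nat_lit 338) (nat_lit 266) (nat_lit 176)) (XT.lf (nat_lit 0) (nat_lit 13821247159302) (nat_lit 152) (nat_lit 34973251373588) (nat_lit 0) (nat_lit 13805772332946) (nat_lit 1) (nat_lit 5) (nat_lit 3) (nat_lit 4) (nat_lit 1) (nat_lit 4) (nat_lit 339) (nat_lit 266) (nat_lit 175)))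 (XT.nd (nat_lit 78) (nat_lit 0) (nat_lit 0) (XT.lf (nat_lit 0) (nat_lit 15917877683842) (nat_lit 152) (nat_lit 40166154810302) (nat_lit 0) (nat_lit 15902402851438) (nat_lit 1) (nat_lit 5) (nat_lit 3) (nat_lit 4) (nat_lit 1) (nat_lit 4) (nat_lit 340) (nat_lit 266) (nat_lit 174)) (XT.nd (nat_lit 78) (nat_lit 0) (nat_lit 0) (XT.lf (nat_lit 0) (nat_lit 18329002768240) (nat_lit 152) (nat_lit 46137993801301) (nat_lit 0) (nat_lit 18313527930579) (nat_lit 1) (nat_lit 5) (nat_lit 3) (nat_lit 4) (nat_lit 1) (nat_lit 4) (nat_lit 341) (nat_lit 266) (nat_lit 173)) (XT.lf (nat_lit 0) (nat_lit 21101796598933) (nat_lit 152) (nat_lit 53005608674671) (nat_lit 0) (nat_lit 21086321756699) (nat_lit 1) (nat_lit 5) (nat_lit 3) (nat_lit 4) (nat_lit 1) (nat_lit 4) (nat_lit 342) (nat_lit 266) (nat_lit 172)))))) (XT.nd (nat_lit 34710) (nat_lit 0) (nat_lit 1672) (XT.nd (nat_lit 156) (nat_lit 0) (nat_lit 0) (XT.nd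 (nat_lit 78) (nat_lit 0) (nat_lit 0) (XT.lf (nat_lit 0) (nat_lit 24290509489997) (nat_lit 152) (nat_lit 60903365808369) (nat_lit 0) (nat_lit 24275034643787) (nat_lit 1) (nat_lit 5) (nat_lit 3) (nat_lit 4) (nat_lit 1) (nat_lit 4) (nat_lit 343) (nat_lit 266) (nat_lit 171)) (XT.lf (nat_lit 0) (nat_lit 27957529302345) (nat_lit 152) (nat_lit 69985786537619) (nat_lit 0) (nat_lit 27942054452678) (nat_lit 1) (nat_lit 5) (nat_lit 3) (nat_lit 4) (nat_lit 1) (nat_lit 4) (nat_lit 344) (nat_lit 266) (nat_lit 170))) (XT.nd (nat_lit 78) (nat_lit 0) (nat_lit 0) (XT.lf (nat_lit 0) (nat_lit 32174602075784) (nat_lit 152) (nat_lit 80430570398429) (nat_lit 0) (nat_lit 32159127223112) (nat_lit 1) (nat_lit 5) (nat_lit 3) (nat_lit 4) (nat_lit 1) (nat_lit 4) (nat_lit 345) (nat_lit 266) (nat_lit 169)) (XT.nd (nat_lit 78) (nat_lit 0) (nat_lit 0) (XT.lf (nat_lit 0) (nat_lit 37024235755882) (nat_lit 152) (nat_lit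 92442071857640) (nat_lit 0) (nat_lit 37008760900595) (nat_lit 1) (nat_lit 5) (nat_lit 3) (nat_lit 4) (nat_lit 1) (nat_lit 4) (nat_lit 346) (nat_lit 266) (nat_lit 168)) (XT.lf (nat_lit 0) (nat_lit 42601314479858) (nat_lit 152) (nat_lit 106255298552497) (nat_lit 0) (nat_lit 42585839622297) (nat_lit 1) (nat_lit 5) (nat_lit 3) (nat_lit 4) (nat_lit 1) (nat_lit 4) (nat_lit 347) (nat_lit 266) (nat_lit 167))))) (XT.nd (nat_lit 156) (nat_lit 304) (nat_lit 0) (XT.nd (nat_lit 78) (nat_lit 0) (nat_lit 0) (XT.lf (nat_lit 0) (nat_lit 2604727479) (nat_lit 0) (nat_lit 2604727479) (nat_lit 228) (nat_lit 392049944) (nat_lit 27) (nat_lit 5) (nat_lit 27) (nat_lit 3) (nat_lit 30) (nat_lit 3) (nat_lit 267) (nat_lit 267) (nat_lit 246)) (XT.lf (nat_lit 0) (nat_lit 11240609879) (nat_lit 0) (nat_lit 441335178) (nat_lit 228) (nat_lit 286832120) (nat_lit 27) (nat_lit 5) (nat_lit 27) (nat_lit 3) (nat_lit 30) (nat_lit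 3) (nat_lit 268) (nat_lit 267) (nat_lit 245))) (XT.nd (nat_lit 78) (nat_lit 0) (nat_lit 0) (XT.lf (nat_lit 0) (nat_lit 631003149) (nat_lit 304) (nat_lit 7270390672) (nat_lit 380) (nat_lit 4890885717) (nat_lit 23) (nat_lit 5) (nat_lit 27) (nat_lit 5) (nat_lit 28) (nat_lit 5) (nat_lit 269) (nat_lit 267) (nat_lit 244)) (XT.nd (nat_lit 78) (nat_lit 0) (nat_lit 76) (XT.lf (nat_lit 0) (nat_lit 1638826930) (nat_lit 304) (nat_lit 1042112574) (nat_lit 380) (nat_lit 11059365370) (nat_lit 23) (nat_lit 5) (nat_lit 27) (nat_lit 5) (nat_lit 28) (nat_lit 5) (nat_lit 270) (nat_lit 267) (nat_lit 243)) (XT.lf (nat_lit 0) (nat_lit 3155923456) (nat_lit 304) (nat_lit 8292953878) (nat_lit 76) (nat_lit 3328201212) (nat_lit 24) (nat_lit 5) (nat_lit 28) (nat_lit 5) (nat_lit 25) (nat_lit 5) (nat_lit 271) (nat_lit 267) (nat_lit 242))))))) (XT.nd (nat_lit 780) (nat_lit 456) (nat_lit 0) (XT.nd (nat_lit 390) (nat_lit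 304) (nat_lit 0) (XT.nd (nat_lit 156) (nat_lit 228) (nat_lit 0) (XT.nd (nat_lit 78) (nat_lit 304) (nat_lit 0) (XT.lf (nat_lit 0) (nat_lit 5023638179) (nat_lit 304) (nat_lit 897524429) (nat_lit 76) (nat_lit 10029973183) (nat_lit 24) (nat_lit 5) (nat_lit 28) (nat_lit 5) (nat_lit 25) (nat_lit 5) (nat_lit 272) (nat_lit 267) (nat_lit 241)) (XT.lf (nat_lit 0) (nat_lit 7495550767) (nat_lit 380) (nat_lit 9001400442) (nat_lit 76) (nat_lit 755940470) (nat_lit 20) (nat_lit 5) (nat_lit 25) (nat_lit 5) (nat_lit 21) (nat_lit 5) (nat_lit 273) (nat_lit 267) (nat_lit 240))) (XT.nd (nat_lit 78) (nat_lit 228) (nat_lit 0) (XT.lf (nat_lit 0) (nat_lit 10620447749) (nat_lit 380) (nat_lit 212565813) (nat_lit 76) (nat_lit 7874738332) (nat_lit 20) (nat_lit 5) (nat_lit 25) (nat_lit 5) (nat_lit 21) (nat_lit 5) (nat_lit 274) (nat_lit 267) (nat_lit 239)) (XT.nd (nat_lit 78) (nat_lit 76) (nat_lit 0) (XT.lf (nat_lit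 0) (nat_lit 10805031015) (nat_lit 152) (nat_lit 3813928714) (nat_lit 228) (nat_lit 5701297664) (nat_lit 18) (nat_lit 5) (nat_lit 20) (nat_lit 5) (nat_lit 21) (nat_lit 5) (nat_lit 275) (nat_lit 267) (nat_lit 238)) (XT.lf (nat_lit 0) (nat_lit 1201591437) (nat_lit 76) (nat_lit 18213927813) (nat_lit 152) (nat_lit 2729507830) (nat_lit 17) (nat_lit 5) (nat_lit 18) (nat_lit 5) (nat_lit 19) (nat_lit 4) (nat_lit 276) (nat_lit 267) (nat_lit 237))))) (XT.nd (nat_lit 156) (nat_lit 76) (nat_lit 0) (XT.nd (nat_lit 78) (nat_lit 152) (nat_lit 0) (XT.lf (nat_lit 0) (nat_lit 1291185606) (nat_lit 152) (nat_lit 9863457654) (nat_lit 76) (nat_lit 12985034357) (nat_lit 16) (nat_lit 5) (nat_lit 18) (nat_lit 5) (nat_lit 17) (nat_lit 5) (nat_lit 277) (nat_lit 267) (nat_lit 236)) (XT.lf (nat_lit 0) (nat_lit 2963621094) (nat_lit 152) (nat_lit 2761327467) (nat_lit 228) (nat_lit 20675753226) (nat_lit 14) (nat_lit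 5) (nat_lit 16) (nat_lit 5) (nat_lit 17) (nat_lit 5) (nat_lit 278) (nat_lit 267) (nat_lit 235))) (XT.nd (nat_lit 78) (nat_lit 76) (nat_lit 0) (XT.lf (nat_lit 0) (nat_lit 11617724604) (nat_lit 228) (nat_lit 10460757401) (nat_lit 76) (nat_lit 6803379024) (nat_lit 14) (nat_lit 5) (nat_lit 17) (nat_lit 5) (nat_lit 15) (nat_lit 4) (nat_lit 279) (nat_lit 267) (nat_lit 234)) (XT.nd (nat_lit 78) (nat_lit 0) (nat_lit 0) (XT.lf (nat_lit 0) (nat_lit 4705429740) (nat_lit 76) (nat_lit 13987899942) (nat_lit 152) (nat_lit 12997091702) (nat_lit 13) (nat_lit 5) (nat_lit 14) (nat_lit 5) (nat_lit 15) (nat_lit 4) (nat_lit 280) (nat_lit 267) (nat_lit 233)) (XT.lf (nat_lit 0) (nat_lit 23280188810) (nat_lit 76) (nat_lit 4071315476) (nat_lit 152) (nat_lit 7490632952) (nat_lit 13) (nat_lit 5) (nat_lit 14) (nat_lit 5) (nat_lit 15) (nat_lit 4) (nat_lit 281) (nat_lit 267) (nat_lit 232)))))) (XT.nd (nat_lit 390)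 (nat_lit 152) (nat_lit 0) (XT.nd (nat_lit 156) (nat_lit 152) (nat_lit 0) (XT.nd (nat_lit 78) (nat_lit 76) (nat_lit 0) (XT.lf (nat_lit 0) (nat_lit 6401505436) (nat_lit 76) (nat_lit 31452768380) (nat_lit 76) (nat_lit 530504829) (nat_lit 12) (nat_lit 4) (nat_lit 13) (nat_lit 5) (nat_lit 13) (nat_lit 4) (nat_lit 282) (nat_lit 267) (nat_lit 231)) (XT.lf (nat_lit 0) (nat_lit 7612842569) (nat_lit 152) (nat_lit 14581160667) (nat_lit 76) (nat_lit 20097746242) (nat_lit 11) (nat_lit 5) (nat_lit 13) (nat_lit 5) (nat_lit 12) (nat_lit 4) (nat_lit 283) (nat_lit 267) (nat_lit 230))) (XT.nd (nat_lit 78) (nat_lit 76) (nat_lit 0) (XT.lf (nat_lit 0) (nat_lit 5896364546) (nat_lit 76) (nat_lit 11251629746) (nat_lit 152) (nat_lit 29599321833) (nat_lit 10) (nat_lit 5) (nat_lit 11) (nat_lit 5) (nat_lit 12) (nat_lit 4) (nat_lit 284) (nat_lit 267) (nat_lit 229)) (XT.nd (nat_lit 78) (nat_lit 76) (nat_lit 0) (XT.lf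 (nat_lit 0) (nat_lit 28948105737) (nat_lit 152) (nat_lit 20799280994) (nat_lit 0) (nat_lit 1998655716) (nat_lit 10) (nat_lit 5) (nat_lit 12) (nat_lit 4) (nat_lit 10) (nat_lit 4) (nat_lit 285) (nat_lit 267) (nat_lit 228)) (XT.lf (nat_lit 0) (nat_lit 1859282812) (nat_lit 76) (nat_lit 41255240975) (nat_lit 76) (nat_lit 14290634553) (nat_lit 9) (nat_lit 4) (nat_lit 10) (nat_lit 5) (nat_lit 10) (nat_lit 4) (nat_lit 286) (nat_lit 267) (nat_lit 227))))) (XT.nd (nat_lit 156) (nat_lit 76) (nat_lit 0) (XT.nd (nat_lit 78) (nat_lit 76) (nat_lit 0) (XT.lf (nat_lit 0) (nat_lit 30224985591) (nat_lit 76) (nat_lit 30252604992) (nat_lit 76) (nat_lit 3274819091) (nat_lit 9) (nat_lit 4) (nat_lit 10) (nat_lit 5) (nat_lit 10) (nat_lit 4) (nat_lit 287) (nat_lit 267) (nat_lit 226)) (XT.lf (nat_lit 0) (nat_lit 8542924632) (nat_lit 152) (nat_lit 8621958357) (nat_lit 76) (nat_lit 53830664876) (nat_lit 8) (nat_lit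 5) (nat_lit 10) (nat_lit 5) (nat_lit 9) (nat_lit 4) (nat_lit 288) (nat_lit 267) (nat_lit 225))) (XT.nd (nat_lit 78) (nat_lit 0) (nat_lit 0) (XT.lf (nat_lit 0) (nat_lit 21779001594) (nat_lit 76) (nat_lit 908539564) (nat_lit 152) (nat_lit 56480814294) (nat_lit 7) (nat_lit 5) (nat_lit 8) (nat_lit 5) (nat_lit 9) (nat_lit 4) (nat_lit 289) (nat_lit 267) (nat_lit 224)) (XT.nd (nat_lit 78) (nat_lit 0) (nat_lit 0) (XT.lf (nat_lit 0) (nat_lit 40150413065) (nat_lit 152) (nat_lit 31571896571) (nat_lit 0) (nat_lit 16665302092) (nat_lit 7) (nat_lit 5) (nat_lit 9) (nat_lit 4) (nat_lit 7) (nat_lit 4) (nat_lit 290) (nat_lit 267) (nat_lit 223)) (XT.lf (nat_lit 0) (nat_lit 60265472705) (nat_lit 152) (nat_lit 1945571419) (nat_lit 0) (nat_lit 36773809201) (nat_lit 7) (nat_lit 5) (nat_lit 9) (nat_lit 4) (nat_lit 7) (nat_lit 4) (nat_lit 291) (nat_lit 267) (nat_lit 222))))))))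
noncomputable def xc63 : XT := (XT.nd (nat_lit 1560) (nat_lit 0) (nat_lit 0) (XT.nd (nat_lit 780) (nat_lit 152) (nat_lit 0) (XT.nd (nat_lit 390) (nat_lit 76) (nat_lit 0) (XT.nd (nat_lit 156) (nat_lit 152) (nat_lit 0) (XT.nd (nat_lit 78) (nat_lit 0) (nat_lit 0) (XT.lf (nat_lit 0) (nat_lit 35244606353) (nat_lit 76) (nat_lit 49603452543) (nat_lit 76) (nat_lit 26106091187) (nat_lit 6) (nat_lit 4) (nat_lit 7) (nat_lit 5) (nat_lit 7) (nat_lit 4) (nat_lit 292) (nat_lit 267) (nat_lit 221)) (XT.lf (nat_lit 0) (nat_lit 78214961520) (nat_lit 76) (nat_lit 34996123000) (nat_lit 76) (nat_lit 11493806989) (nat_lit 6) (nat_lit 4) (nat_lit 7) (nat_lit 5) (nat_lit 7) (nat_lit 4) (nat_lit 293) (nat_lit 267) (nat_lit 220))) (XT.nd (nat_lit 78) (nat_lit 76) (nat_lit 0) (XT.lf (nat_lit 0) (nat_lit 4829673358) (nat_lit 152) (nat_lit 13122826684) (nat_lit 76) (nat_lit 122533949475) (nat_lit 5) (nat_lit 5) (nat_lit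 7) (nat_lit 5) (nat_lit 6) (nat_lit 4) (nat_lit 294) (nat_lit 267) (nat_lit 219)) (XT.nd (nat_lit 78) (nat_lit 0) (nat_lit 0) (XT.lf (nat_lit 0) (nat_lit 23687727306) (nat_lit 152) (nat_lit 131432074135) (nat_lit 0) (nat_lit 3243926579) (nat_lit 4) (nat_lit 5) (nat_lit 6) (nat_lit 4) (nat_lit 4) (nat_lit 4) (nat_lit 295) (nat_lit 267) (nat_lit 218)) (XT.lf (nat_lit 0) (nat_lit 46941238223) (nat_lit 152) (nat_lit 105251747591) (nat_lit 0) (nat_lit 26494604656) (nat_lit 4) (nat_lit 5) (nat_lit 6) (nat_lit 4) (nat_lit 4) (nat_lit 4) (nat_lit 296) (nat_lit 267) (nat_lit 217))))) (XT.nd (nat_lit 156) (nat_lit 76) (nat_lit 0) (XT.nd (nat_lit 78) (nat_lit 0) (nat_lit 0) (XT.lf (nat_lit 0) (nat_lit 73676894855) (nat_lit 152) (nat_lit 75156225542) (nat_lit 0) (nat_lit 53227797949) (nat_lit 4) (nat_lit 5) (nat_lit 6) (nat_lit 4) (nat_lit 4) (nat_lit 4) (nat_lit 297) (nat_lit 267) (nat_lit 216))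 (XT.lf (nat_lit 0) (nat_lit 104417786135) (nat_lit 152) (nat_lit 40556682556) (nat_lit 0) (nat_lit 83966547195) (nat_lit 4) (nat_lit 5) (nat_lit 6) (nat_lit 4) (nat_lit 4) (nat_lit 4) (nat_lit 298) (nat_lit 267) (nat_lit 215))) (XT.nd (nat_lit 78) (nat_lit 76) (nat_lit 0) (XT.lf (nat_lit 0) (nat_lit 139765364284) (nat_lit 152) (nat_lit 776171054) (nat_lit 0) (nat_lit 119312262706) (nat_lit 4) (nat_lit 5) (nat_lit 6) (nat_lit 4) (nat_lit 4) (nat_lit 4) (nat_lit 299) (nat_lit 267) (nat_lit 214)) (XT.nd (nat_lit 78) (nat_lit 0) (nat_lit 0) (XT.lf (nat_lit 0) (nat_lit 49357795599) (nat_lit 76) (nat_lit 133097217814) (nat_lit 76) (nat_lit 112642496551) (nat_lit 3) (nat_lit 4) (nat_lit 4) (nat_lit 5) (nat_lit 4) (nat_lit 4) (nat_lit 300) (nat_lit 267) (nat_lit 213)) (XT.lf (nat_lit 0) (nat_lit 107091648705) (nat_lit 76) (nat_lit 124493363289) (nat_lit 76) (nat_lit 104037233603) (nat_lit 3)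 (nat_lit 4) (nat_lit 4) (nat_lit 5) (nat_lit 4) (nat_lit 4) (nat_lit 301) (nat_lit 267) (nat_lit 212)))))) (XT.nd (nat_lit 390) (nat_lit 152) (nat_lit 0) (XT.nd (nat_lit 156) (nat_lit 0) (nat_lit 0) (XT.nd (nat_lit 78) (nat_lit 0) (nat_lit 0) (XT.lf (nat_lit 0) (nat_lit 173479110572) (nat_lit 76) (nat_lit 114602208056) (nat_lit 76) (nat_lit 94144853657) (nat_lit 3) (nat_lit 4) (nat_lit 4) (nat_lit 5) (nat_lit 4) (nat_lit 4) (nat_lit 302) (nat_lit 267) (nat_lit 211)) (XT.lf (nat_lit 0) (nat_lit 249819066322) (nat_lit 76) (nat_lit 103230229515) (nat_lit 76) (nat_lit 82771810146) (nat_lit 3) (nat_lit 4) (nat_lit 4) (nat_lit 5) (nat_lit 4) (nat_lit 4) (nat_lit 303) (nat_lit 267) (nat_lit 210))) (XT.nd (nat_lit 78) (nat_lit 0) (nat_lit 0) (XT.lf (nat_lit 0) (nat_lit 337605123785) (nat_lit 76) (nat_lit 90154932432) (nat_lit 76) (nat_lit 69695587002) (nat_lit 3) (nat_lit 4) (nat_lit 4) (nat_lit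 5) (nat_lit 4) (nat_lit 4) (nat_lit 304) (nat_lit 267) (nat_lit 209)) (XT.nd (nat_lit 78) (nat_lit 0) (nat_lit 0) (XT.lf (nat_lit 0) (nat_lit 438554836259) (nat_lit 76) (nat_lit 75120495778) (nat_lit 76) (nat_lit 54660345078) (nat_lit 3) (nat_lit 4) (nat_lit 4) (nat_lit 5) (nat_lit 4) (nat_lit 4) (nat_lit 305) (nat_lit 267) (nat_lit 208)) (XT.lf (nat_lit 0) (nat_lit 554643306815) (nat_lit 76) (nat_lit 57832767530) (nat_lit 76) (nat_lit 37371916596) (nat_lit 3) (nat_lit 4) (nat_lit 4) (nat_lit 5) (nat_lit 4) (nat_lit 4) (nat_lit 306) (nat_lit 267) (nat_lit 207))))) (XT.nd (nat_lit 156) (nat_lit 76) (nat_lit 0) (XT.nd (nat_lit 78) (nat_lit 76) (nat_lit 0) (XT.lf (nat_lit 0) (nat_lit 688141831615) (nat_lit 76) (nat_lit 37953509528) (nat_lit 76) (nat_lit 17492049694) (nat_lit 3) (nat_lit 4) (nat_lit 4) (nat_lit 5) (nat_lit 4) (nat_lit 4) (nat_lit 307) (nat_lit 267) (nat_lit 206)) (XT.lf (nat_lit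 0) (nat_lit 4890294408) (nat_lit 152) (nat_lit 9947856334) (nat_lit 76) (nat_lit 836516414885) (nat_lit 2) (nat_lit 5) (nat_lit 4) (nat_lit 5) (nat_lit 3) (nat_lit 4) (nat_lit 308) (nat_lit 267) (nat_lit 205))) (XT.nd (nat_lit 78) (nat_lit 0) (nat_lit 0) (XT.lf (nat_lit 0) (nat_lit 31341852907) (nat_lit 152) (nat_lit 929896195466) (nat_lit 0) (nat_lit 13548418362) (nat_lit 1) (nat_lit 5) (nat_lit 3) (nat_lit 4) (nat_lit 1) (nat_lit 4) (nat_lit 309) (nat_lit 267) (nat_lit 204)) (XT.nd (nat_lit 78) (nat_lit 0) (nat_lit 0) (XT.lf (nat_lit 0) (nat_lit 63011241149) (nat_lit 152) (nat_lit 1008316939557) (nat_lit 0) (nat_lit 45217458463) (nat_lit 1) (nat_lit 5) (nat_lit 3) (nat_lit 4) (nat_lit 1) (nat_lit 4) (nat_lit 310) (nat_lit 267) (nat_lit 203)) (XT.lf (nat_lit 0) (nat_lit 99429953973) (nat_lit 152) (nat_lit 1098503027966) (nat_lit 0) (nat_lit 81635868556) (nat_lit 1) (nat_lit 5) (nat_lit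 3) (nat_lit 4) (nat_lit 1) (nat_lit 4) (nat_lit 311) (nat_lit 267) (nat_lit 202))))))) (XT.nd (nat_lit 780) (nat_lit 0) (nat_lit 0) (XT.nd (nat_lit 390) (nat_lit 0) (nat_lit 0) (XT.nd (nat_lit 156) (nat_lit 0) (nat_lit 0) (XT.nd (nat_lit 78) (nat_lit 0) (nat_lit 0) (XT.lf (nat_lit 0) (nat_lit 141310531414) (nat_lit 152) (nat_lit 1202218971120) (nat_lit 0) (nat_lit 123516182753) (nat_lit 1) (nat_lit 5) (nat_lit 3) (nat_lit 4) (nat_lit 1) (nat_lit 4) (nat_lit 312) (nat_lit 267) (nat_lit 201)) (XT.lf (nat_lit 0) (nat_lit 189472376074) (nat_lit 152) (nat_lit 1321493993992) (nat_lit 0) (nat_lit 171677798505) (nat_lit 1) (nat_lit 5) (nat_lit 3) (nat_lit 4) (nat_lit 1) (nat_lit 4) (nat_lit 313) (nat_lit 267) (nat_lit 200))) (XT.nd (nat_lit 78) (nat_lit 0) (nat_lit 0) (XT.lf (nat_lit 0) (nat_lit 244857784914) (nat_lit 152) (nat_lit 1458661738335) (nat_lit 0) (nat_lit 227063008294) (nat_lit 1)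 (nat_lit 5) (nat_lit 3) (nat_lit 4) (nat_lit 1) (nat_lit 4) (nat_lit 314) (nat_lit 267) (nat_lit 199)) (XT.nd (nat_lit 78) (nat_lit 0) (nat_lit 0) (XT.lf (nat_lit 0) (nat_lit 308550385497) (nat_lit 152) (nat_lit 1616405920886) (nat_lit 0) (nat_lit 290755435790) (nat_lit 1) (nat_lit 5) (nat_lit 3) (nat_lit 4) (nat_lit 1) (nat_lit 4) (nat_lit 315) (nat_lit 267) (nat_lit 198)) (XT.lf (nat_lit 0) (nat_lit 381796337400) (nat_lit 152) (nat_lit 1797812840868) (nat_lit 0) (nat_lit 364001237183) (nat_lit 1) (nat_lit 5) (nat_lit 3) (nat_lit 4) (nat_lit 1) (nat_lit 4) (nat_lit 316) (nat_lit 267) (nat_lit 197))))) (XT.nd (nat_lit 156) (nat_lit 0) (nat_lit 0) (XT.nd (nat_lit 78) (nat_lit 0) (nat_lit 0) (XT.lf (nat_lit 0) (nat_lit 466028713596) (nat_lit 152) (nat_lit 2006431764108) (nat_lit 0) (nat_lit 448233482500) (nat_lit 1) (nat_lit 5) (nat_lit 3) (nat_lit 4) (nat_lit 1) (nat_lit 4) (nat_lit 317)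 (nat_lit 267) (nat_lit 196)) (XT.lf (nat_lit 0) (nat_lit 562895538836) (nat_lit 152) (nat_lit 2246344365190) (nat_lit 0) (nat_lit 545100193932) (nat_lit 1) (nat_lit 5) (nat_lit 3) (nat_lit 4) (nat_lit 1) (nat_lit 4) (nat_lit 318) (nat_lit 267) (nat_lit 195))) (XT.nd (nat_lit 78) (nat_lit 0) (nat_lit 0) (XT.lf (nat_lit 0) (nat_lit 674292033613) (nat_lit 152) (nat_lit 2522244586310) (nat_lit 0) (nat_lit 656496589746) (nat_lit 1) (nat_lit 5) (nat_lit 3) (nat_lit 4) (nat_lit 1) (nat_lit 4) (nat_lit 319) (nat_lit 267) (nat_lit 194)) (XT.nd (nat_lit 78) (nat_lit 0) (nat_lit 0) (XT.lf (nat_lit 0) (nat_lit 802397694566) (nat_lit 152) (nat_lit 2839530475272) (nat_lit 0) (nat_lit 784602164643) (nat_lit 1) (nat_lit 5) (nat_lit 3) (nat_lit 4) (nat_lit 1) (nat_lit 4) (nat_lit 320) (nat_lit 267) (nat_lit 193)) (XT.lf (nat_lit 0) (nat_lit 949718936798) (nat_lit 152) (nat_lit 3204409799468) (nat_lit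 0) (nat_lit 931923332046) (nat_lit 1) (nat_lit 5) (nat_lit 3) (nat_lit 4) (nat_lit 1) (nat_lit 4) (nat_lit 321) (nat_lit 267) (nat_lit 192)))))) (XT.nd (nat_lit 390) (nat_lit 0) (nat_lit 0) (XT.nd (nat_lit 156) (nat_lit 0) (nat_lit 0) (XT.nd (nat_lit 78) (nat_lit 0) (nat_lit 0) (XT.lf (nat_lit 0) (nat_lit 1119138132442) (nat_lit 152) (nat_lit 3624021502199) (nat_lit 0) (nat_lit 1101342462620) (nat_lit 1) (nat_lit 5) (nat_lit 3) (nat_lit 4) (nat_lit 1) (nat_lit 4) (nat_lit 322) (nat_lit 267) (nat_lit 191)) (XT.lf (nat_lit 0) (nat_lit 1313970004890) (nat_lit 152) (nat_lit 4106575377648) (nat_lit 0) (nat_lit 1296174278485) (nat_lit 1) (nat_lit 5) (nat_lit 3) (nat_lit 4) (nat_lit 1) (nat_lit 4) (nat_lit 323) (nat_lit 267) (nat_lit 190))) (XT.nd (nat_lit 78) (nat_lit 0) (nat_lit 0) (XT.lf (nat_lit 0) (nat_lit 1538026482081) (nat_lit 152) (nat_lit 4661512697292) (nat_lit 0) (nat_lit 1520230706474)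 (nat_lit 1) (nat_lit 5) (nat_lit 3) (nat_lit 4) (nat_lit 1) (nat_lit 4) (nat_lit 324) (nat_lit 267) (nat_lit 189)) (XT.nd (nat_lit 78) (nat_lit 0) (nat_lit 0) (XT.lf (nat_lit 0) (nat_lit 1795691277700) (nat_lit 152) (nat_lit 5299690930427) (nat_lit 0) (nat_lit 1777895459308) (nat_lit 1) (nat_lit 5) (nat_lit 3) (nat_lit 4) (nat_lit 1) (nat_lit 4) (nat_lit 325) (nat_lit 267) (nat_lit 188)) (XT.lf (nat_lit 0) (nat_lit 2092005659486) (nat_lit 152) (nat_lit 6033596172920) (nat_lit 0) (nat_lit 2074209803890) (nat_lit 1) (nat_lit 5) (nat_lit 3) (nat_lit 4) (nat_lit 1) (nat_lit 4) (nat_lit 326) (nat_lit 267) (nat_lit 187))))) (XT.nd (nat_lit 156) (nat_lit 0) (nat_lit 0) (XT.nd (nat_lit 78) (nat_lit 0) (nat_lit 0) (XT.lf (nat_lit 0) (nat_lit 2432767082736) (nat_lit 152) (nat_lit 6877587440383) (nat_lit 0) (nat_lit 2414971194789) (nat_lit 1) (nat_lit 5) (nat_lit 3) (nat_lit 4) (nat_lit 1) (nat_lit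 4) (nat_lit 327) (nat_lit 267) (nat_lit 186)) (XT.lf (nat_lit 0) (nat_lit 2824642618774) (nat_lit 152) (nat_lit 7848177605443) (nat_lit 0) (nat_lit 2806846702695) (nat_lit 1) (nat_lit 5) (nat_lit 3) (nat_lit 4) (nat_lit 1) (nat_lit 4) (nat_lit 328) (nat_lit 267) (nat_lit 185))) (XT.nd (nat_lit 78) (nat_lit 0) (nat_lit 0) (XT.lf (nat_lit 0) (nat_lit 3275299397653) (nat_lit 152) (nat_lit 8964356475676) (nat_lit 0) (nat_lit 3257503457112) (nat_lit 1) (nat_lit 5) (nat_lit 3) (nat_lit 4) (nat_lit 1) (nat_lit 4) (nat_lit 329) (nat_lit 267) (nat_lit 184)) (XT.nd (nat_lit 78) (nat_lit 0) (nat_lit 0) (XT.lf (nat_lit 0) (nat_lit 3793554617220) (nat_lit 152) (nat_lit 10247962333325) (nat_lit 0) (nat_lit 3775758655408) (nat_lit 1) (nat_lit 5) (nat_lit 3) (nat_lit 4) (nat_lit 1) (nat_lit 4) (nat_lit 330) (nat_lit 267) (nat_lit 183)) (XT.lf (nat_lit 0) (nat_lit 4389548053511) (nat_lit 152) (nat_lit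 11724109206040) (nat_lit 0) (nat_lit 4371752073202) (nat_lit 1) (nat_lit 5) (nat_lit 3) (nat_lit 4) (nat_lit 1) (nat_lit 4) (nat_lit 331) (nat_lit 267) (nat_lit 182))))))))
noncomputable def xc64 : XT := (XT.nd (nat_lit 35880) (nat_lit 0) (nat_lit 456) (XT.nd (nat_lit 702) (nat_lit 0) (nat_lit 0) (XT.nd (nat_lit 312) (nat_lit 0) (nat_lit 0) (XT.nd (nat_lit 156) (nat_lit 0) (nat_lit 0) (XT.nd (nat_lit 78) (nat_lit 0) (nat_lit 0) (XT.lf (nat_lit 0) (nat_lit 5074940447671) (nat_lit 152) (nat_lit 13421678228288) (nat_lit 0) (nat_lit 5057144451278) (nat_lit 1) (nat_lit 5) (nat_lit 3) (nat_lit 4) (nat_lit 1) (nat_lit 4) (nat_lit 332) (nat_lit 267) (nat_lit 181)) (XT.lf (nat_lit 0) (nat_lit 5863141650889) (nat_lit 152) (nat_lit 15373882707026) (nat_lit 0) (nat_lit 5845345640510) (nat_lit 1) (nat_lit 5) (nat_lit 3) (nat_lit 4) (nat_lit 1) (nat_lit 4) (nat_lit 333) (nat_lit 267) (nat_lit 180)))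 (XT.nd (nat_lit 78) (nat_lit 0) (nat_lit 0) (XT.lf (nat_lit 0) (nat_lit 6769572991055) (nat_lit 152) (nat_lit 17618917947271) (nat_lit 0) (nat_lit 6751776968513) (nat_lit 1) (nat_lit 5) (nat_lit 3) (nat_lit 4) (nat_lit 1) (nat_lit 4) (nat_lit 334) (nat_lit 267) (nat_lit 179)) (XT.lf (nat_lit 0) (nat_lit 7811968994389) (nat_lit 152) (nat_lit 20200708551552) (nat_lit 0) (nat_lit 7794172961272) (nat_lit 1) (nat_lit 5) (nat_lit 3) (nat_lit 4) (nat_lit 1) (nat_lit 4) (nat_lit 335) (nat_lit 267) (nat_lit 178)))) (XT.nd (nat_lit 156) (nat_lit 0) (nat_lit 0) (XT.nd (nat_lit 78) (nat_lit 0) (nat_lit 0) (XT.lf (nat_lit 0) (nat_lit 9010724365304) (nat_lit 152) (nat_lit 23169767814299) (nat_lit 0) (nat_lit 8992928322991) (nat_lit 1) (nat_lit 5) (nat_lit 3) (nat_lit 4) (nat_lit 1) (nat_lit 4) (nat_lit 336) (nat_lit 267) (nat_lit 177)) (XT.lf (nat_lit 0) (nat_lit 10389293013232) (nat_lit 152) (nat_lit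 26584186025435) (nat_lit 0) (nat_lit 10371496962922) (nat_lit 1) (nat_lit 5) (nat_lit 3) (nat_lit 4) (nat_lit 1) (nat_lit 4) (nat_lit 337) (nat_lit 267) (nat_lit 176))) (XT.nd (nat_lit 78) (nat_lit 0) (nat_lit 0) (XT.lf (nat_lit 0) (nat_lit 11974646933457) (nat_lit 152) (nat_lit 30510767019527) (nat_lit 0) (nat_lit 11956850876193) (nat_lit 1) (nat_lit 5) (nat_lit 3) (nat_lit 4) (nat_lit 1) (nat_lit 4) (nat_lit 338) (nat_lit 267) (nat_lit 175)) (XT.nd (nat_lit 78) (nat_lit 0) (nat_lit 0) (XT.lf (nat_lit 0) (nat_lit 13797803920072) (nat_lit 152) (nat_lit 35026335207328) (nat_lit 0) (nat_lit 13780007856761) (nat_lit 1) (nat_lit 5) (nat_lit 3) (nat_lit 4) (nat_lit 1) (nat_lit 4) (nat_lit 339) (nat_lit 267) (nat_lit 174)) (XT.lf (nat_lit 0) (nat_lit 15894434435857) (nat_lit 152) (nat_lit 40219238662079) (nat_lit 0) (nat_lit 15876638367288) (nat_lit 1) (nat_lit 5) (nat_lit 3) (nat_lit 4) (nat_lit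 1) (nat_lit 4) (nat_lit 340) (nat_lit 267) (nat_lit 173)))))) (XT.nd (nat_lit 390) (nat_lit 0) (nat_lit 0) (XT.nd (nat_lit 156) (nat_lit 0) (nat_lit 0) (XT.nd (nat_lit 78) (nat_lit 0) (nat_lit 0) (XT.lf (nat_lit 0) (nat_lit 18305559512643) (nat_lit 152) (nat_lit 46191077668762) (nat_lit 0) (nat_lit 18287763439502) (nat_lit 1) (nat_lit 5) (nat_lit 3) (nat_lit 4) (nat_lit 1) (nat_lit 4) (nat_lit 341) (nat_lit 267) (nat_lit 172)) (XT.lf (nat_lit 0) (nat_lit 21078353336716) (nat_lit 152) (nat_lit 53058692555770) (nat_lit 0) (nat_lit 21060557259599) (nat_lit 1) (nat_lit 5) (nat_lit 3) (nat_lit 4) (nat_lit 1) (nat_lit 4) (nat_lit 342) (nat_lit 267) (nat_lit 171))) (XT.nd (nat_lit 78) (nat_lit 0) (nat_lit 0) (XT.lf (nat_lit 0) (nat_lit 24267066222024) (nat_lit 152) (nat_lit 60956449701328) (nat_lit 0) (nat_lit 24249270141450) (nat_lit 1) (nat_lit 5) (nat_lit 3) (nat_lit 4) (nat_lit 1) (nat_lit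 4) (nat_lit 343) (nat_lit 267) (nat_lit 170)) (XT.nd (nat_lit 78) (nat_lit 0) (nat_lit 0) (XT.lf (nat_lit 0) (nat_lit 27934086029367) (nat_lit 152) (nat_lit 70038870440890) (nat_lit 0) (nat_lit 27916289945787) (nat_lit 1) (nat_lit 5) (nat_lit 3) (nat_lit 4) (nat_lit 1) (nat_lit 4) (nat_lit 344) (nat_lit 267) (nat_lit 169)) (XT.lf (nat_lit 0) (nat_lit 32151158798454) (nat_lit 152) (nat_lit 80483654310667) (nat_lit 0) (nat_lit 32133362712260) (nat_lit 1) (nat_lit 5) (nat_lit 3) (nat_lit 4) (nat_lit 1) (nat_lit 4) (nat_lit 345) (nat_lit 267) (nat_lit 168))))) (XT.nd (nat_lit 34554) (nat_lit 0) (nat_lit 1596) (XT.nd (nat_lit 78) (nat_lit 0) (nat_lit 0) (XT.lf (nat_lit 0) (nat_lit 37000792474767) (nat_lit 152) (nat_lit 92495155777676) (nat_lit 0) (nat_lit 36982996386300) (nat_lit 1) (nat_lit 5) (nat_lit 3) (nat_lit 4) (nat_lit 1) (nat_lit 4) (nat_lit 346) (nat_lit 267) (nat_lit 167)) (XT.lf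 (nat_lit 0) (nat_lit 42577871195451) (nat_lit 152) (nat_lit 106308382479314) (nat_lit 0) (nat_lit 42560075105007) (nat_lit 1) (nat_lit 5) (nat_lit 3) (nat_lit 4) (nat_lit 1) (nat_lit 4) (nat_lit 347) (nat_lit 267) (nat_lit 166))) (XT.nd (nat_lit 78) (nat_lit 0) (nat_lit 0) (XT.lf (nat_lit 0) (nat_lit 74874638) (nat_lit 380) (nat_lit 3147485144) (nat_lit 380) (nat_lit 3147485144) (nat_lit 22) (nat_lit 3) (nat_lit 27) (nat_lit 3) (nat_lit 27) (nat_lit 5) (nat_lit 268) (nat_lit 268) (nat_lit 244)) (XT.nd (nat_lit 78) (nat_lit 0) (nat_lit 76) (XT.lf (nat_lit 0) (nat_lit 544019864) (nat_lit 380) (nat_lit 336533986) (nat_lit 380) (nat_lit 12755699892) (nat_lit 22) (nat_lit 3) (nat_lit 27) (nat_lit 3) (nat_lit 27) (nat_lit 5) (nat_lit 269) (nat_lit 268) (nat_lit 243)) (XT.lf (nat_lit 0) (nat_lit 1467318979) (nat_lit 304) (nat_lit 7768111009) (nat_lit 380) (nat_lit 5361648448) (nat_lit 23) (nat_lit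 5) (nat_lit 27) (nat_lit 5) (nat_lit 28) (nat_lit 5) (nat_lit 270) (nat_lit 268) (nat_lit 242))))))) (XT.nd (nat_lit 780) (nat_lit 532) (nat_lit 0) (XT.nd (nat_lit 390) (nat_lit 304) (nat_lit 0) (XT.nd (nat_lit 156) (nat_lit 380) (nat_lit 0) (XT.nd (nat_lit 78) (nat_lit 0) (nat_lit 76) (XT.lf (nat_lit 0) (nat_lit 2529577367) (nat_lit 304) (nat_lit 682917927) (nat_lit 380) (nat_lit 12489687457) (nat_lit 23) (nat_lit 5) (nat_lit 27) (nat_lit 5) (nat_lit 28) (nat_lit 5) (nat_lit 271) (nat_lit 268) (nat_lit 241)) (XT.lf (nat_lit 0) (nat_lit 4206803951) (nat_lit 304) (nat_lit 8951838922) (nat_lit 76) (nat_lit 3746261577) (nat_lit 24) (nat_lit 5) (nat_lit 28) (nat_lit 5) (nat_lit 25) (nat_lit 5) (nat_lit 272) (nat_lit 268) (nat_lit 240))) (XT.nd (nat_lit 78) (nat_lit 456) (nat_lit 0) (XT.lf (nat_lit 0) (nat_lit 6279350842) (nat_lit 304) (nat_lit 523406974) (nat_lit 76) (nat_lit 11463886711)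 (nat_lit 24) (nat_lit 5) (nat_lit 28) (nat_lit 5) (nat_lit 25) (nat_lit 5) (nat_lit 273) (nat_lit 268) (nat_lit 239)) (XT.nd (nat_lit 78) (nat_lit 152) (nat_lit 0) (XT.lf (nat_lit 0) (nat_lit 9077853271) (nat_lit 380) (nat_lit 9797070303) (nat_lit 76) (nat_lit 895609336) (nat_lit 20) (nat_lit 5) (nat_lit 25) (nat_lit 5) (nat_lit 21) (nat_lit 5) (nat_lit 274) (nat_lit 268) (nat_lit 238)) (XT.lf (nat_lit 0) (nat_lit 260993648) (nat_lit 152) (nat_lit 12361563138) (nat_lit 228) (nat_lit 8828612881) (nat_lit 18) (nat_lit 5) (nat_lit 20) (nat_lit 5) (nat_lit 21) (nat_lit 5) (nat_lit 275) (nat_lit 268) (nat_lit 237))))) (XT.nd (nat_lit 156) (nat_lit 228) (nat_lit 0) (XT.nd (nat_lit 78) (nat_lit 76) (nat_lit 0) (XT.lf (nat_lit 0) (nat_lit 12886075956) (nat_lit 152) (nat_lit 4291078402) (nat_lit 228) (nat_lit 6135131453) (nat_lit 18) (nat_lit 5) (nat_lit 20) (nat_lit 5) (nat_lit 21) (nat_lit 5)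 (nat_lit 276) (nat_lit 268) (nat_lit 236)) (XT.lf (nat_lit 0) (nat_lit 1870909874) (nat_lit 76) (nat_lit 20798303722) (nat_lit 152) (nat_lit 2745312499) (nat_lit 17) (nat_lit 5) (nat_lit 18) (nat_lit 5) (nat_lit 19) (nat_lit 4) (nat_lit 277) (nat_lit 268) (nat_lit 235))) (XT.nd (nat_lit 78) (nat_lit 152) (nat_lit 0) (XT.lf (nat_lit 0) (nat_lit 1796670924) (nat_lit 152) (nat_lit 10886423484) (nat_lit 76) (nat_lit 15029969722) (nat_lit 16) (nat_lit 5) (nat_lit 18) (nat_lit 5) (nat_lit 17) (nat_lit 5) (nat_lit 278) (nat_lit 268) (nat_lit 234)) (XT.nd (nat_lit 78) (nat_lit 0) (nat_lit 0) (XT.lf (nat_lit 0) (nat_lit 3843964677) (nat_lit 152) (nat_lit 3028908671) (nat_lit 228) (nat_lit 23443865890) (nat_lit 14) (nat_lit 5) (nat_lit 16) (nat_lit 5) (nat_lit 17) (nat_lit 5) (nat_lit 279) (nat_lit 268) (nat_lit 233)) (XT.lf (nat_lit 0) (nat_lit 13617125587) (nat_lit 228) (nat_lit 11617873532)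 (nat_lit 76) (nat_lit 7940029335) (nat_lit 14) (nat_lit 5) (nat_lit 17) (nat_lit 5) (nat_lit 15) (nat_lit 4) (nat_lit 280) (nat_lit 268) (nat_lit 232)))))) (XT.nd (nat_lit 390) (nat_lit 228) (nat_lit 0) (XT.nd (nat_lit 156) (nat_lit 228) (nat_lit 0) (XT.nd (nat_lit 78) (nat_lit 0) (nat_lit 0) (XT.lf (nat_lit 0) (nat_lit 5804514523) (nat_lit 76) (nat_lit 15932353265) (nat_lit 152) (nat_lit 14670663931) (nat_lit 13) (nat_lit 5) (nat_lit 14) (nat_lit 5) (nat_lit 15) (nat_lit 4) (nat_lit 281) (nat_lit 268) (nat_lit 231)) (XT.lf (nat_lit 0) (nat_lit 27114191324) (nat_lit 76) (nat_lit 4548333086) (nat_lit 152) (nat_lit 8374235263) (nat_lit 13) (nat_lit 5) (nat_lit 14) (nat_lit 5) (nat_lit 15) (nat_lit 4) (nat_lit 282) (nat_lit 268) (nat_lit 230))) (XT.nd (nat_lit 78) (nat_lit 152) (nat_lit 0) (XT.lf (nat_lit 0) (nat_lit 7713134704) (nat_lit 76) (nat_lit 36019770072) (nat_lit 76) (nat_lit 379122420)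 (nat_lit 12) (nat_lit 4) (nat_lit 13) (nat_lit 5) (nat_lit 13) (nat_lit 4) (nat_lit 283) (nat_lit 268) (nat_lit 229)) (XT.nd (nat_lit 78) (nat_lit 76) (nat_lit 0) (XT.lf (nat_lit 0) (nat_lit 8937722557) (nat_lit 152) (nat_lit 16444588493) (nat_lit 76) (nat_lit 23225459311) (nat_lit 11) (nat_lit 5) (nat_lit 13) (nat_lit 5) (nat_lit 12) (nat_lit 4) (nat_lit 284) (nat_lit 268) (nat_lit 228)) (XT.lf (nat_lit 0) (nat_lit 7089849763) (nat_lit 76) (nat_lit 12802230058) (nat_lit 152) (nat_lit 33841291202) (nat_lit 10) (nat_lit 5) (nat_lit 11) (nat_lit 5) (nat_lit 12) (nat_lit 4) (nat_lit 285) (nat_lit 268) (nat_lit 227))))) (XT.nd (nat_lit 156) (nat_lit 152) (nat_lit 0) (XT.nd (nat_lit 78) (nat_lit 76) (nat_lit 0) (XT.lf (nat_lit 0) (nat_lit 33444726147) (nat_lit 152) (nat_lit 23632743396) (nat_lit 0) (nat_lit 2407092881) (nat_lit 10) (nat_lit 5) (nat_lit 12) (nat_lit 4) (nat_lit 10) (nat_lit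 4) (nat_lit 286) (nat_lit 268) (nat_lit 226)) (XT.lf (nat_lit 0) (nat_lit 2411585447) (nat_lit 76) (nat_lit 47315703068) (nat_lit 76) (nat_lit 16266609386) (nat_lit 9) (nat_lit 4) (nat_lit 10) (nat_lit 5) (nat_lit 10) (nat_lit 4) (nat_lit 287) (nat_lit 268) (nat_lit 225))) (XT.nd (nat_lit 78) (nat_lit 152) (nat_lit 0) (XT.lf (nat_lit 0) (nat_lit 34996481441) (nat_lit 76) (nat_lit 34679344389) (nat_lit 76) (nat_lit 3620285128) (nat_lit 9) (nat_lit 4) (nat_lit 10) (nat_lit 5) (nat_lit 10) (nat_lit 4) (nat_lit 288) (nat_lit 268) (nat_lit 224)) (XT.nd (nat_lit 78) (nat_lit 76) (nat_lit 0) (XT.lf (nat_lit 0) (nat_lit 9939824671) (nat_lit 152) (nat_lit 9697101938) (nat_lit 76) (nat_lit 61990505185) (nat_lit 8) (nat_lit 5) (nat_lit 10) (nat_lit 5) (nat_lit 9) (nat_lit 4) (nat_lit 289) (nat_lit 268) (nat_lit 223)) (XT.lf (nat_lit 0) (nat_lit 25254086089) (nat_lit 76) (nat_lit 945609949) (nat_lit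 152) (nat_lit 64827446961) (nat_lit 7) (nat_lit 5) (nat_lit 8) (nat_lit 5) (nat_lit 9) (nat_lit 4) (nat_lit 290) (nat_lit 268) (nat_lit 222))))))))
noncomputable def xc65 : XT := (XT.nd (nat_lit 1482) (nat_lit 76) (nat_lit 0) (XT.nd (nat_lit 702) (nat_lit 152) (nat_lit 0) (XT.nd (nat_lit 312) (nat_lit 152) (nat_lit 0) (XT.nd (nat_lit 156) (nat_lit 76) (nat_lit 0) (XT.nd (nat_lit 78) (nat_lit 0) (nat_lit 0) (XT.lf (nat_lit 0) (nat_lit 46271350505) (nat_lit 152) (nat_lit 36115861987) (nat_lit 0) (nat_lit 19243687093) (nat_lit 7) (nat_lit 5) (nat_lit 9) (nat_lit 4) (nat_lit 7) (nat_lit 4) (nat_lit 291) (nat_lit 268) (nat_lit 221)) (XT.lf (nat_lit 0) (nat_lit 69390837507) (nat_lit 152) (nat_lit 2070607941) (nat_lit 0) (nat_lit 42358219440) (nat_lit 7) (nat_lit 5) (nat_lit 9) (nat_lit 4) (nat_lit 7) (nat_lit 4) (nat_lit 292) (nat_lit 268) (nat_lit 220))) (XT.nd (nat_lit 78) (nat_lit 0) (nat_lit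 0) (XT.lf (nat_lit 0) (nat_lit 40690514716) (nat_lit 76) (nat_lit 56965731864) (nat_lit 76) (nat_lit 29928805403) (nat_lit 6) (nat_lit 4) (nat_lit 7) (nat_lit 5) (nat_lit 7) (nat_lit 4) (nat_lit 293) (nat_lit 268) (nat_lit 219)) (XT.lf (nat_lit 0) (nat_lit 90085655669) (nat_lit 76) (nat_lit 40177507919) (nat_lit 76) (nat_lit 13136835027) (nat_lit 6) (nat_lit 4) (nat_lit 7) (nat_lit 5) (nat_lit 7) (nat_lit 4) (nat_lit 294) (nat_lit 268) (nat_lit 218)))) (XT.nd (nat_lit 156) (nat_lit 0) (nat_lit 0) (XT.nd (nat_lit 78) (nat_lit 76) (nat_lit 0) (XT.lf (nat_lit 0) (nat_lit 5618322624) (nat_lit 152) (nat_lit 14964537016) (nat_lit 76) (nat_lit 140966879052) (nat_lit 5) (nat_lit 5) (nat_lit 7) (nat_lit 5) (nat_lit 6) (nat_lit 4) (nat_lit 295) (nat_lit 268) (nat_lit 217)) (XT.lf (nat_lit 0) (nat_lit 27304208902) (nat_lit 152) (nat_lit 151019253636) (nat_lit 0) (nat_lit 3785284122) (nat_lit 4)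 (nat_lit 5) (nat_lit 6) (nat_lit 4) (nat_lit 4) (nat_lit 4) (nat_lit 296) (nat_lit 268) (nat_lit 216))) (XT.nd (nat_lit 78) (nat_lit 0) (nat_lit 0) (XT.lf (nat_lit 0) (nat_lit 54037487001) (nat_lit 152) (nat_lit 120928525713) (nat_lit 0) (nat_lit 30516420186) (nat_lit 4) (nat_lit 5) (nat_lit 6) (nat_lit 4) (nat_lit 4) (nat_lit 4) (nat_lit 297) (nat_lit 268) (nat_lit 215)) (XT.nd (nat_lit 78) (nat_lit 0) (nat_lit 0) (XT.lf (nat_lit 0) (nat_lit 84776309991) (nat_lit 152) (nat_lit 86333151533) (nat_lit 0) (nat_lit 61253380539) (nat_lit 4) (nat_lit 5) (nat_lit 6) (nat_lit 4) (nat_lit 4) (nat_lit 4) (nat_lit 298) (nat_lit 268) (nat_lit 214)) (XT.lf (nat_lit 0) (nat_lit 120122089627) (nat_lit 152) (nat_lit 46556265079) (nat_lit 0) (nat_lit 96597540490) (nat_lit 4) (nat_lit 5) (nat_lit 6) (nat_lit 4) (nat_lit 4) (nat_lit 4) (nat_lit 299) (nat_lit 268) (nat_lit 213)))))) (XT.nd (nat_lit 390)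 (nat_lit 76) (nat_lit 0) (XT.nd (nat_lit 156) (nat_lit 0) (nat_lit 0) (XT.nd (nat_lit 78) (nat_lit 76) (nat_lit 0) (XT.lf (nat_lit 0) (nat_lit 160766373772) (nat_lit 152) (nat_lit 819622920) (nat_lit 0) (nat_lit 137240416212) (nat_lit 4) (nat_lit 5) (nat_lit 6) (nat_lit 4) (nat_lit 4) (nat_lit 4) (nat_lit 300) (nat_lit 268) (nat_lit 212)) (XT.lf (nat_lit 0) (nat_lit 56831121740) (nat_lit 76) (nat_lit 153026510498) (nat_lit 76) (nat_lit 129499328223) (nat_lit 3) (nat_lit 4) (nat_lit 4) (nat_lit 5) (nat_lit 4) (nat_lit 4) (nat_lit 301) (nat_lit 268) (nat_lit 211))) (XT.nd (nat_lit 78) (nat_lit 0) (nat_lit 0) (XT.lf (nat_lit 0) (nat_lit 123215967143) (nat_lit 76) (nat_lit 143136680836) (nat_lit 76) (nat_lit 119608433592) (nat_lit 3) (nat_lit 4) (nat_lit 4) (nat_lit 5) (nat_lit 4) (nat_lit 4) (nat_lit 302) (nat_lit 268) (nat_lit 210)) (XT.nd (nat_lit 78) (nat_lit 0) (nat_lit 0) (XT.lf (nat_lit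 0) (nat_lit 199553647707) (nat_lit 76) (nat_lit 131765854964) (nat_lit 76) (nat_lit 108236681660) (nat_lit 3) (nat_lit 4) (nat_lit 4) (nat_lit 5) (nat_lit 4) (nat_lit 4) (nat_lit 303) (nat_lit 268) (nat_lit 209)) (XT.lf (nat_lit 0) (nat_lit 287337726748) (nat_lit 76) (nat_lit 118691560203) (nat_lit 76) (nat_lit 95161581628) (nat_lit 3) (nat_lit 4) (nat_lit 4) (nat_lit 5) (nat_lit 4) (nat_lit 4) (nat_lit 304) (nat_lit 268) (nat_lit 208))))) (XT.nd (nat_lit 156) (nat_lit 76) (nat_lit 0) (XT.nd (nat_lit 78) (nat_lit 0) (nat_lit 0) (XT.lf (nat_lit 0) (nat_lit 388285718855) (nat_lit 76) (nat_lit 103657995132) (nat_lit 76) (nat_lit 80127316323) (nat_lit 3) (nat_lit 4) (nat_lit 4) (nat_lit 5) (nat_lit 4) (nat_lit 4) (nat_lit 305) (nat_lit 268) (nat_lit 207)) (XT.lf (nat_lit 0) (nat_lit 504372693439) (nat_lit 76) (nat_lit 86371024783) (nat_lit 76) (nat_lit 62839737075) (nat_lit 3) (nat_lit 4)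 (nat_lit 4) (nat_lit 5) (nat_lit 4) (nat_lit 4) (nat_lit 306) (nat_lit 268) (nat_lit 206))) (XT.nd (nat_lit 78) (nat_lit 76) (nat_lit 0) (XT.lf (nat_lit 0) (nat_lit 637869917395) (nat_lit 76) (nat_lit 66492425824) (nat_lit 76) (nat_lit 42960608637) (nat_lit 3) (nat_lit 4) (nat_lit 4) (nat_lit 5) (nat_lit 4) (nat_lit 4) (nat_lit 307) (nat_lit 268) (nat_lit 205)) (XT.nd (nat_lit 78) (nat_lit 76) (nat_lit 0) (XT.lf (nat_lit 0) (nat_lit 791389292930) (nat_lit 76) (nat_lit 43633269144) (nat_lit 76) (nat_lit 20100991542) (nat_lit 3) (nat_lit 4) (nat_lit 4) (nat_lit 5) (nat_lit 4) (nat_lit 4) (nat_lit 308) (nat_lit 268) (nat_lit 204)) (XT.lf (nat_lit 0) (nat_lit 5635614367) (nat_lit 152) (nat_lit 11416107073) (nat_lit 76) (nat_lit 962004256699) (nat_lit 2) (nat_lit 5) (nat_lit 4) (nat_lit 5) (nat_lit 3) (nat_lit 4) (nat_lit 309) (nat_lit 268) (nat_lit 203))))))) (XT.nd (nat_lit 780) (nat_lit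 0) (nat_lit 0) (XT.nd (nat_lit 390) (nat_lit 0) (nat_lit 0) (XT.nd (nat_lit 156) (nat_lit 0) (nat_lit 0) (XT.nd (nat_lit 78) (nat_lit 0) (nat_lit 0) (XT.lf (nat_lit 0) (nat_lit 36054799015) (nat_lit 152) (nat_lit 1069356584264) (nat_lit 0) (nat_lit 15591298055) (nat_lit 1) (nat_lit 5) (nat_lit 3) (nat_lit 4) (nat_lit 1) (nat_lit 4) (nat_lit 310) (nat_lit 268) (nat_lit 202)) (XT.lf (nat_lit 0) (nat_lit 72473073558) (nat_lit 152) (nat_lit 1159543575689) (nat_lit 0) (nat_lit 52009309353) (nat_lit 1) (nat_lit 5) (nat_lit 3) (nat_lit 4) (nat_lit 1) (nat_lit 4) (nat_lit 311) (nat_lit 268) (nat_lit 201))) (XT.nd (nat_lit 78) (nat_lit 0) (nat_lit 0) (XT.lf (nat_lit 0) (nat_lit 114353269884) (nat_lit 152) (nat_lit 1263260304073) (nat_lit 0) (nat_lit 93889276771) (nat_lit 1) (nat_lit 5) (nat_lit 3) (nat_lit 4) (nat_lit 1) (nat_lit 4) (nat_lit 312) (nat_lit 268) (nat_lit 200)) (XT.nd (nat_lit 78)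 (nat_lit 0) (nat_lit 0) (XT.lf (nat_lit 0) (nat_lit 162514783139) (nat_lit 152) (nat_lit 1382536009755) (nat_lit 0) (nat_lit 142050590976) (nat_lit 1) (nat_lit 5) (nat_lit 3) (nat_lit 4) (nat_lit 1) (nat_lit 4) (nat_lit 313) (nat_lit 268) (nat_lit 199)) (XT.lf (nat_lit 0) (nat_lit 217899903801) (nat_lit 152) (nat_lit 1519704347845) (nat_lit 0) (nat_lit 197435538551) (nat_lit 1) (nat_lit 5) (nat_lit 3) (nat_lit 4) (nat_lit 1) (nat_lit 4) (nat_lit 314) (nat_lit 268) (nat_lit 198))))) (XT.nd (nat_lit 156) (nat_lit 0) (nat_lit 0) (XT.nd (nat_lit 78) (nat_lit 0) (nat_lit 0) (XT.lf (nat_lit 0) (nat_lit 281592253794) (nat_lit 152) (nat_lit 1677449046698) (nat_lit 0) (nat_lit 261127738034) (nat_lit 1) (nat_lit 5) (nat_lit 3) (nat_lit 4) (nat_lit 1) (nat_lit 4) (nat_lit 315) (nat_lit 268) (nat_lit 197)) (XT.lf (nat_lit 0) (nat_lit 354837987794) (nat_lit 152) (nat_lit 1858856415638) (nat_lit 0)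 (nat_lit 334373341154) (nat_lit 1) (nat_lit 5) (nat_lit 3) (nat_lit 4) (nat_lit 1) (nat_lit 4) (nat_lit 316) (nat_lit 268) (nat_lit 196))) (XT.nd (nat_lit 78) (nat_lit 0) (nat_lit 0) (XT.lf (nat_lit 0) (nat_lit 439070174508) (nat_lit 152) (nat_lit 2067475729276) (nat_lit 0) (nat_lit 418605414061) (nat_lit 1) (nat_lit 5) (nat_lit 3) (nat_lit 4) (nat_lit 1) (nat_lit 4) (nat_lit 317) (nat_lit 268) (nat_lit 195)) (XT.nd (nat_lit 78) (nat_lit 0) (nat_lit 0) (XT.lf (nat_lit 0) (nat_lit 535936834981) (nat_lit 152) (nat_lit 2307388669835) (nat_lit 0) (nat_lit 515471975571) (nat_lit 1) (nat_lit 5) (nat_lit 3) (nat_lit 4) (nat_lit 1) (nat_lit 4) (nat_lit 318) (nat_lit 268) (nat_lit 194)) (XT.lf (nat_lit 0) (nat_lit 647333186484) (nat_lit 152) (nat_lit 2583289186152) (nat_lit 0) (nat_lit 626868241018) (nat_lit 1) (nat_lit 5) (nat_lit 3) (nat_lit 4) (nat_lit 1) (nat_lit 4) (nat_lit 319) (nat_lit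 268) (nat_lit 193)))))) (XT.nd (nat_lit 390) (nat_lit 0) (nat_lit 0) (XT.nd (nat_lit 156) (nat_lit 0) (nat_lit 0) (XT.nd (nat_lit 78) (nat_lit 0) (nat_lit 0) (XT.lf (nat_lit 0) (nat_lit 775438722849) (nat_lit 152) (nat_lit 2900575331807) (nat_lit 0) (nat_lit 754973702553) (nat_lit 1) (nat_lit 5) (nat_lit 3) (nat_lit 4) (nat_lit 1) (nat_lit 4) (nat_lit 320) (nat_lit 268) (nat_lit 192)) (XT.lf (nat_lit 0) (nat_lit 922759856745) (nat_lit 152) (nat_lit 3265454879215) (nat_lit 0) (nat_lit 902294771379) (nat_lit 1) (nat_lit 5) (nat_lit 3) (nat_lit 4) (nat_lit 1) (nat_lit 4) (nat_lit 321) (nat_lit 268) (nat_lit 191))) (XT.nd (nat_lit 78) (nat_lit 0) (nat_lit 0) (XT.lf (nat_lit 0) (nat_lit 1092178958183) (nat_lit 152) (nat_lit 3685066776043) (nat_lit 0) (nat_lit 1071713816235) (nat_lit 1) (nat_lit 5) (nat_lit 3) (nat_lit 4) (nat_lit 1) (nat_lit 4) (nat_lit 322) (nat_lit 268) (nat_lit 190)) (XT.nd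 (nat_lit 78) (nat_lit 0) (nat_lit 0) (XT.lf (nat_lit 0) (nat_lit 1287010748713) (nat_lit 152) (nat_lit 4167620820272) (nat_lit 0) (nat_lit 1266545557562) (nat_lit 1) (nat_lit 5) (nat_lit 3) (nat_lit 4) (nat_lit 1) (nat_lit 4) (nat_lit 323) (nat_lit 268) (nat_lit 189)) (XT.lf (nat_lit 0) (nat_lit 1511067154671) (nat_lit 152) (nat_lit 4722558286681) (nat_lit 0) (nat_lit 1490601920736) (nat_lit 1) (nat_lit 5) (nat_lit 3) (nat_lit 4) (nat_lit 1) (nat_lit 4) (nat_lit 324) (nat_lit 268) (nat_lit 188))))) (XT.nd (nat_lit 156) (nat_lit 0) (nat_lit 0) (XT.nd (nat_lit 78) (nat_lit 0) (nat_lit 0) (XT.lf (nat_lit 0) (nat_lit 1768731888347) (nat_lit 152) (nat_lit 5360736647438) (nat_lit 0) (nat_lit 1748266617208) (nat_lit 1) (nat_lit 5) (nat_lit 3) (nat_lit 4) (nat_lit 1) (nat_lit 4) (nat_lit 325) (nat_lit 268) (nat_lit 187)) (XT.lf (nat_lit 0) (nat_lit 2065046216271) (nat_lit 152) (nat_lit 6094642000906)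 (nat_lit 0) (nat_lit 2044580912781) (nat_lit 1) (nat_lit 5) (nat_lit 3) (nat_lit 4) (nat_lit 1) (nat_lit 4) (nat_lit 326) (nat_lit 268) (nat_lit 186))) (XT.nd (nat_lit 78) (nat_lit 0) (nat_lit 0) (XT.lf (nat_lit 0) (nat_lit 2405807592684) (nat_lit 152) (nat_lit 6938633364871) (nat_lit 0) (nat_lit 2385342261062) (nat_lit 1) (nat_lit 5) (nat_lit 3) (nat_lit 4) (nat_lit 1) (nat_lit 4) (nat_lit 327) (nat_lit 268) (nat_lit 185)) (XT.nd (nat_lit 78) (nat_lit 0) (nat_lit 0) (XT.lf (nat_lit 0) (nat_lit 2797683087994) (nat_lit 152) (nat_lit 7909223613844) (nat_lit 0) (nat_lit 2777217731910) (nat_lit 1) (nat_lit 5) (nat_lit 3) (nat_lit 4) (nat_lit 1) (nat_lit 4) (nat_lit 328) (nat_lit 268) (nat_lit 184)) (XT.lf (nat_lit 0) (nat_lit 3248339831458) (nat_lit 152) (nat_lit 9025402557045) (nat_lit 0) (nat_lit 3227874454102) (nat_lit 1) (nat_lit 5) (nat_lit 3) (nat_lit 4) (nat_lit 1) (nat_lit 4) (nat_lit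 329) (nat_lit 268) (nat_lit 183))))))))
noncomputable def xc66 : XT := (XT.nd (nat_lit 36036) (nat_lit 0) (nat_lit 532) (XT.nd (nat_lit 702) (nat_lit 0) (nat_lit 0) (XT.nd (nat_lit 312) (nat_lit 0) (nat_lit 0) (XT.nd (nat_lit 156) (nat_lit 0) (nat_lit 0) (XT.nd (nat_lit 78) (nat_lit 0) (nat_lit 0) (XT.lf (nat_lit 0) (nat_lit 3766595020229) (nat_lit 152) (nat_lit 10309008478145) (nat_lit 0) (nat_lit 3746129624377) (nat_lit 1) (nat_lit 5) (nat_lit 3) (nat_lit 4) (nat_lit 1) (nat_lit 4) (nat_lit 330) (nat_lit 268) (nat_lit 182)) (XT.lf (nat_lit 0) (nat_lit 4362588429741) (nat_lit 152) (nat_lit 11785155406035) (nat_lit 0) (nat_lit 4342123017805) (nat_lit 1) (nat_lit 5) (nat_lit 3) (nat_lit 4) (nat_lit 1) (nat_lit 4) (nat_lit 331) (nat_lit 268) (nat_lit 181))) (XT.nd (nat_lit 78) (nat_lit 0) (nat_lit 0) (XT.lf (nat_lit 0) (nat_lit 5047980800615) (nat_lit 152) (nat_lit 13482724476260) (nat_lit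 0) (nat_lit 5027515374692) (nat_lit 1) (nat_lit 5) (nat_lit 3) (nat_lit 4) (nat_lit 1) (nat_lit 4) (nat_lit 332) (nat_lit 268) (nat_lit 180)) (XT.lf (nat_lit 0) (nat_lit 5836181983584) (nat_lit 152) (nat_lit 15434928996718) (nat_lit 0) (nat_lit 5815716545499) (nat_lit 1) (nat_lit 5) (nat_lit 3) (nat_lit 4) (nat_lit 1) (nat_lit 4) (nat_lit 333) (nat_lit 268) (nat_lit 179)))) (XT.nd (nat_lit 156) (nat_lit 0) (nat_lit 0) (XT.nd (nat_lit 78) (nat_lit 0) (nat_lit 0) (XT.lf (nat_lit 0) (nat_lit 6742613306142) (nat_lit 152) (nat_lit 17679964273241) (nat_lit 0) (nat_lit 6722147857481) (nat_lit 1) (nat_lit 5) (nat_lit 3) (nat_lit 4) (nat_lit 1) (nat_lit 4) (nat_lit 334) (nat_lit 268) (nat_lit 178)) (XT.lf (nat_lit 0) (nat_lit 7785009294165) (nat_lit 152) (nat_lit 20261754909068) (nat_lit 0) (nat_lit 7764543836308) (nat_lit 1) (nat_lit 5) (nat_lit 3) (nat_lit 4) (nat_lit 1) (nat_lit 4) (nat_lit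 335) (nat_lit 268) (nat_lit 177))) (XT.nd (nat_lit 78) (nat_lit 0) (nat_lit 0) (XT.lf (nat_lit 0) (nat_lit 8983764651766) (nat_lit 152) (nat_lit 23230814199246) (nat_lit 0) (nat_lit 8963299185913) (nat_lit 1) (nat_lit 5) (nat_lit 3) (nat_lit 4) (nat_lit 1) (nat_lit 4) (nat_lit 336) (nat_lit 268) (nat_lit 176)) (XT.nd (nat_lit 78) (nat_lit 0) (nat_lit 0) (XT.lf (nat_lit 0) (nat_lit 10362333288116) (nat_lit 152) (nat_lit 26645232434236) (nat_lit 0) (nat_lit 10341867815309) (nat_lit 1) (nat_lit 5) (nat_lit 3) (nat_lit 4) (nat_lit 1) (nat_lit 4) (nat_lit 337) (nat_lit 268) (nat_lit 175)) (XT.lf (nat_lit 0) (nat_lit 11947687198274) (nat_lit 152) (nat_lit 30571813449070) (nat_lit 0) (nat_lit 11927221719420) (nat_lit 1) (nat_lit 5) (nat_lit 3) (nat_lit 4) (nat_lit 1) (nat_lit 4) (nat_lit 338) (nat_lit 268) (nat_lit 174)))))) (XT.nd (nat_lit 390) (nat_lit 0) (nat_lit 0) (XT.nd (nat_lit 156) (nat_lit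 0) (nat_lit 0) (XT.nd (nat_lit 78) (nat_lit 0) (nat_lit 0) (XT.lf (nat_lit 0) (nat_lit 13770844176135) (nat_lit 152) (nat_lit 35087381654908) (nat_lit 0) (nat_lit 13750378692023) (nat_lit 1) (nat_lit 5) (nat_lit 3) (nat_lit 4) (nat_lit 1) (nat_lit 4) (nat_lit 339) (nat_lit 268) (nat_lit 173)) (XT.lf (nat_lit 0) (nat_lit 15867474684307) (nat_lit 152) (nat_lit 40280285125342) (nat_lit 0) (nat_lit 15847009195623) (nat_lit 1) (nat_lit 5) (nat_lit 3) (nat_lit 4) (nat_lit 1) (nat_lit 4) (nat_lit 340) (nat_lit 268) (nat_lit 172))) (XT.nd (nat_lit 78) (nat_lit 0) (nat_lit 0) (XT.lf (nat_lit 0) (nat_lit 18278599754474) (nat_lit 152) (nat_lit 46252124145664) (nat_lit 0) (nat_lit 18258134261814) (nat_lit 1) (nat_lit 5) (nat_lit 3) (nat_lit 4) (nat_lit 1) (nat_lit 4) (nat_lit 341) (nat_lit 268) (nat_lit 171)) (XT.nd (nat_lit 78) (nat_lit 0) (nat_lit 0) (XT.lf (nat_lit 0) (nat_lit 21051393572791)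 (nat_lit 152) (nat_lit 53119739044532) (nat_lit 0) (nat_lit 21030928076674) (nat_lit 1) (nat_lit 5) (nat_lit 3) (nat_lit 4) (nat_lit 1) (nat_lit 4) (nat_lit 342) (nat_lit 268) (nat_lit 170)) (XT.lf (nat_lit 0) (nat_lit 24240106453094) (nat_lit 152) (nat_lit 61017496200401) (nat_lit 0) (nat_lit 24219640953971) (nat_lit 1) (nat_lit 5) (nat_lit 3) (nat_lit 4) (nat_lit 1) (nat_lit 4) (nat_lit 343) (nat_lit 268) (nat_lit 169))))) (XT.nd (nat_lit 156) (nat_lit 0) (nat_lit 0) (XT.nd (nat_lit 78) (nat_lit 0) (nat_lit 0) (XT.lf (nat_lit 0) (nat_lit 27907126256085) (nat_lit 152) (nat_lit 70099916948932) (nat_lit 0) (nat_lit 27886660754347) (nat_lit 1) (nat_lit 5) (nat_lit 3) (nat_lit 4) (nat_lit 1) (nat_lit 4) (nat_lit 344) (nat_lit 268) (nat_lit 168)) (XT.lf (nat_lit 0) (nat_lit 32124199021387) (nat_lit 152) (nat_lit 80544700826506) (nat_lit 0) (nat_lit 32103733517376) (nat_lit 1) (nat_lit 5)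 (nat_lit 3) (nat_lit 4) (nat_lit 1) (nat_lit 4) (nat_lit 345) (nat_lit 268) (nat_lit 167))) (XT.nd (nat_lit 34632) (nat_lit 0) (nat_lit 1596) (XT.lf (nat_lit 0) (nat_lit 36973832694409) (nat_lit 152) (nat_lit 92556202300295) (nat_lit 0) (nat_lit 36953367188422) (nat_lit 1) (nat_lit 5) (nat_lit 3) (nat_lit 4) (nat_lit 1) (nat_lit 4) (nat_lit 346) (nat_lit 268) (nat_lit 166)) (XT.nd (nat_lit 78) (nat_lit 0) (nat_lit 0) (XT.lf (nat_lit 0) (nat_lit 453284380) (nat_lit 380) (nat_lit 3407781944) (nat_lit 380) (nat_lit 3407781944) (nat_lit 22) (nat_lit 3) (nat_lit 27) (nat_lit 3) (nat_lit 27) (nat_lit 5) (nat_lit 269) (nat_lit 269) (nat_lit 242)) (XT.lf (nat_lit 0) (nat_lit 1264194228) (nat_lit 380) (nat_lit 18621090) (nat_lit 380) (nat_lit 14300661882) (nat_lit 22) (nat_lit 3) (nat_lit 27) (nat_lit 3) (nat_lit 27) (nat_lit 5) (nat_lit 270) (nat_lit 269) (nat_lit 241))))))) (XT.nd (nat_lit 780)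 (nat_lit 456) (nat_lit 0) (XT.nd (nat_lit 390) (nat_lit 456) (nat_lit 0) (XT.nd (nat_lit 156) (nat_lit 228) (nat_lit 0) (XT.nd (nat_lit 78) (nat_lit 0) (nat_lit 0) (XT.lf (nat_lit 0) (nat_lit 2248222389) (nat_lit 304) (nat_lit 8485056762) (nat_lit 380) (nat_lit 5967128133) (nat_lit 23) (nat_lit 5) (nat_lit 27) (nat_lit 5) (nat_lit 28) (nat_lit 5) (nat_lit 271) (nat_lit 269) (nat_lit 240)) (XT.lf (nat_lit 0) (nat_lit 3396670983) (nat_lit 304) (nat_lit 395554834) (nat_lit 380) (nat_lit 14190299200) (nat_lit 23) (nat_lit 5) (nat_lit 27) (nat_lit 5) (nat_lit 28) (nat_lit 5) (nat_lit 272) (nat_lit 269) (nat_lit 239))) (XT.nd (nat_lit 78) (nat_lit 304) (nat_lit 0) (XT.lf (nat_lit 0) (nat_lit 5274491444) (nat_lit 304) (nat_lit 9852226831) (nat_lit 76) (nat_lit 4246824770) (nat_lit 24) (nat_lit 5) (nat_lit 28) (nat_lit 5) (nat_lit 25) (nat_lit 5) (nat_lit 273) (nat_lit 269) (nat_lit 238)) (XT.nd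 (nat_lit 78) (nat_lit 304) (nat_lit 0) (XT.lf (nat_lit 0) (nat_lit 7600963816) (nat_lit 304) (nat_lit 217232863) (nat_lit 76) (nat_lit 13130099246) (nat_lit 24) (nat_lit 5) (nat_lit 28) (nat_lit 5) (nat_lit 25) (nat_lit 5) (nat_lit 274) (nat_lit 269) (nat_lit 237)) (XT.lf (nat_lit 0) (nat_lit 10785822292) (nat_lit 380) (nat_lit 10847318784) (nat_lit 76) (nat_lit 1049820526) (nat_lit 20) (nat_lit 5) (nat_lit 25) (nat_lit 5) (nat_lit 21) (nat_lit 5) (nat_lit 275) (nat_lit 269) (nat_lit 236))))) (XT.nd (nat_lit 156) (nat_lit 304) (nat_lit 0) (XT.nd (nat_lit 78) (nat_lit 0) (nat_lit 0) (XT.lf (nat_lit 0) (nat_lit 700395120) (nat_lit 152) (nat_lit 14133241419) (nat_lit 228) (nat_lit 9786504065) (nat_lit 18) (nat_lit 5) (nat_lit 20) (nat_lit 5) (nat_lit 21) (nat_lit 5) (nat_lit 276) (nat_lit 269) (nat_lit 235)) (XT.lf (nat_lit 0) (nat_lit 15167032937) (nat_lit 152) (nat_lit 4862952171) (nat_lit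 228) (nat_lit 6736791825) (nat_lit 18) (nat_lit 5) (nat_lit 20) (nat_lit 5) (nat_lit 21) (nat_lit 5) (nat_lit 277) (nat_lit 269) (nat_lit 234))) (XT.nd (nat_lit 78) (nat_lit 228) (nat_lit 0) (XT.lf (nat_lit 0) (nat_lit 2521360890) (nat_lit 76) (nat_lit 23806356832) (nat_lit 152) (nat_lit 2859474965) (nat_lit 17) (nat_lit 5) (nat_lit 18) (nat_lit 5) (nat_lit 19) (nat_lit 4) (nat_lit 278) (nat_lit 269) (nat_lit 233)) (XT.nd (nat_lit 78) (nat_lit 152) (nat_lit 0) (XT.lf (nat_lit 0) (nat_lit 2301942811) (nat_lit 152) (nat_lit 12174167483) (nat_lit 76) (nat_lit 17357947382) (nat_lit 16) (nat_lit 5) (nat_lit 18) (nat_lit 5) (nat_lit 17) (nat_lit 5) (nat_lit 279) (nat_lit 269) (nat_lit 232)) (XT.lf (nat_lit 0) (nat_lit 4750087105) (nat_lit 152) (nat_lit 3372380763) (nat_lit 228) (nat_lit 26708460654) (nat_lit 14) (nat_lit 5) (nat_lit 16) (nat_lit 5) (nat_lit 17) (nat_lit 5) (nat_lit 280) (nat_lit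 269) (nat_lit 231)))))) (XT.nd (nat_lit 390) (nat_lit 228) (nat_lit 0) (XT.nd (nat_lit 156) (nat_lit 152) (nat_lit 0) (XT.nd (nat_lit 78) (nat_lit 76) (nat_lit 0) (XT.lf (nat_lit 0) (nat_lit 15853828485) (nat_lit 228) (nat_lit 13049025276) (nat_lit 76) (nat_lit 9218854874) (nat_lit 14) (nat_lit 5) (nat_lit 17) (nat_lit 5) (nat_lit 15) (nat_lit 4) (nat_lit 281) (nat_lit 269) (nat_lit 230)) (XT.lf (nat_lit 0) (nat_lit 6972560565) (nat_lit 76) (nat_lit 18205963027) (nat_lit 152) (nat_lit 16662574277) (nat_lit 13) (nat_lit 5) (nat_lit 14) (nat_lit 5) (nat_lit 15) (nat_lit 4) (nat_lit 282) (nat_lit 269) (nat_lit 229))) (XT.nd (nat_lit 78) (nat_lit 152) (nat_lit 0) (XT.lf (nat_lit 0) (nat_lit 31439901643) (nat_lit 76) (nat_lit 5129501982) (nat_lit 152) (nat_lit 9448901645) (nat_lit 13) (nat_lit 5) (nat_lit 14) (nat_lit 5) (nat_lit 15) (nat_lit 4) (nat_lit 283) (nat_lit 269) (nat_lit 228)) (XT.nd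 (nat_lit 78) (nat_lit 76) (nat_lit 0) (XT.lf (nat_lit 0) (nat_lit 9135816406) (nat_lit 76) (nat_lit 41308623246) (nat_lit 76) (nat_lit 261353252) (nat_lit 12) (nat_lit 4) (nat_lit 13) (nat_lit 5) (nat_lit 13) (nat_lit 4) (nat_lit 284) (nat_lit 269) (nat_lit 227)) (XT.lf (nat_lit 0) (nat_lit 10416720149) (nat_lit 152) (nat_lit 18666478072) (nat_lit 76) (nat_lit 26794761106) (nat_lit 11) (nat_lit 5) (nat_lit 13) (nat_lit 5) (nat_lit 12) (nat_lit 4) (nat_lit 285) (nat_lit 269) (nat_lit 226))))) (XT.nd (nat_lit 156) (nat_lit 152) (nat_lit 0) (XT.nd (nat_lit 78) (nat_lit 0) (nat_lit 0) (XT.lf (nat_lit 0) (nat_lit 8386998709) (nat_lit 76) (nat_lit 14618863887) (nat_lit 152) (nat_lit 38767822193) (nat_lit 10) (nat_lit 5) (nat_lit 11) (nat_lit 5) (nat_lit 12) (nat_lit 4) (nat_lit 286) (nat_lit 269) (nat_lit 225)) (XT.lf (nat_lit 0) (nat_lit 38578187091) (nat_lit 152) (nat_lit 26961072866) (nat_lit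 0) (nat_lit 2850303360) (nat_lit 10) (nat_lit 5) (nat_lit 12) (nat_lit 4) (nat_lit 10) (nat_lit 4) (nat_lit 287) (nat_lit 269) (nat_lit 224))) (XT.nd (nat_lit 78) (nat_lit 76) (nat_lit 0) (XT.lf (nat_lit 0) (nat_lit 2980060665) (nat_lit 76) (nat_lit 54316405179) (nat_lit 76) (nat_lit 18579855727) (nat_lit 9) (nat_lit 4) (nat_lit 10) (nat_lit 5) (nat_lit 10) (nat_lit 4) (nat_lit 288) (nat_lit 269) (nat_lit 223)) (XT.nd (nat_lit 78) (nat_lit 76) (nat_lit 0) (XT.lf (nat_lit 0) (nat_lit 40425725311) (nat_lit 76) (nat_lit 39797199658) (nat_lit 76) (nat_lit 4053114795) (nat_lit 9) (nat_lit 4) (nat_lit 10) (nat_lit 5) (nat_lit 10) (nat_lit 4) (nat_lit 289) (nat_lit 269) (nat_lit 222)) (XT.lf (nat_lit 0) (nat_lit 11518103737) (nat_lit 152) (nat_lit 10986714358) (nat_lit 76) (nat_lit 71353535086) (nat_lit 8) (nat_lit 5) (nat_lit 10) (nat_lit 5) (nat_lit 9) (nat_lit 4) (nat_lit 290) (nat_lit 269)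 (nat_lit 221))))))))
noncomputable def xc67 : XT := (XT.nd (nat_lit 1482) (nat_lit 152) (nat_lit 0) (XT.nd (nat_lit 702) (nat_lit 76) (nat_lit 0) (XT.nd (nat_lit 312) (nat_lit 152) (nat_lit 0) (XT.nd (nat_lit 156) (nat_lit 76) (nat_lit 0) (XT.nd (nat_lit 78) (nat_lit 0) (nat_lit 0) (XT.lf (nat_lit 0) (nat_lit 29199654016) (nat_lit 76) (nat_lit 1012434012) (nat_lit 152) (nat_lit 74456675931) (nat_lit 7) (nat_lit 5) (nat_lit 8) (nat_lit 5) (nat_lit 9) (nat_lit 4) (nat_lit 291) (nat_lit 269) (nat_lit 220)) (XT.lf (nat_lit 0) (nat_lit 53286439078) (nat_lit 152) (nat_lit 41388198510) (nat_lit 0) (nat_lit 22189665252) (nat_lit 7) (nat_lit 5) (nat_lit 9) (nat_lit 4) (nat_lit 7) (nat_lit 4) (nat_lit 292) (nat_lit 269) (nat_lit 219))) (XT.nd (nat_lit 78) (nat_lit 76) (nat_lit 0) (XT.lf (nat_lit 0) (nat_lit 79864146608) (nat_lit 152) (nat_lit 2255074980) (nat_lit 0) (nat_lit 48763626351) (nat_lit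 7) (nat_lit 5) (nat_lit 9) (nat_lit 4) (nat_lit 7) (nat_lit 4) (nat_lit 293) (nat_lit 269) (nat_lit 218)) (XT.lf (nat_lit 0) (nat_lit 46914483160) (nat_lit 76) (nat_lit 65451432053) (nat_lit 76) (nat_lit 34347654030) (nat_lit 6) (nat_lit 4) (nat_lit 7) (nat_lit 5) (nat_lit 7) (nat_lit 4) (nat_lit 294) (nat_lit 269) (nat_lit 217)))) (XT.nd (nat_lit 156) (nat_lit 76) (nat_lit 0) (XT.nd (nat_lit 78) (nat_lit 76) (nat_lit 0) (XT.lf (nat_lit 0) (nat_lit 103703192051) (nat_lit 76) (nat_lit 46152690985) (nat_lit 76) (nat_lit 15046080122) (nat_lit 6) (nat_lit 4) (nat_lit 7) (nat_lit 5) (nat_lit 7) (nat_lit 4) (nat_lit 295) (nat_lit 269) (nat_lit 216)) (XT.lf (nat_lit 0) (nat_lit 6509614126) (nat_lit 152) (nat_lit 17113403828) (nat_lit 76) (nat_lit 162151863391) (nat_lit 5) (nat_lit 5) (nat_lit 7) (nat_lit 5) (nat_lit 6) (nat_lit 4) (nat_lit 296) (nat_lit 269) (nat_lit 215))) (XT.nd (nat_lit 78)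 (nat_lit 0) (nat_lit 0) (XT.lf (nat_lit 0) (nat_lit 31447721146) (nat_lit 152) (nat_lit 173575633842) (nat_lit 0) (nat_lit 4394489637) (nat_lit 4) (nat_lit 5) (nat_lit 6) (nat_lit 4) (nat_lit 4) (nat_lit 4) (nat_lit 297) (nat_lit 269) (nat_lit 214)) (XT.nd (nat_lit 78) (nat_lit 0) (nat_lit 0) (XT.lf (nat_lit 0) (nat_lit 62184745623) (nat_lit 152) (nat_lit 138983884709) (nat_lit 0) (nat_lit 35129894429) (nat_lit 4) (nat_lit 5) (nat_lit 6) (nat_lit 4) (nat_lit 4) (nat_lit 4) (nat_lit 298) (nat_lit 269) (nat_lit 213)) (XT.lf (nat_lit 0) (nat_lit 97528961335) (nat_lit 152) (nat_lit 99210150471) (nat_lit 0) (nat_lit 70472701719) (nat_lit 4) (nat_lit 5) (nat_lit 6) (nat_lit 4) (nat_lit 4) (nat_lit 4) (nat_lit 299) (nat_lit 269) (nat_lit 212)))))) (XT.nd (nat_lit 390) (nat_lit 0) (nat_lit 0) (XT.nd (nat_lit 156) (nat_lit 76) (nat_lit 0) (XT.nd (nat_lit 78) (nat_lit 0) (nat_lit 0) (XT.lf (nat_lit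 0) (nat_lit 138171885546) (nat_lit 152) (nat_lit 53476249369) (nat_lit 0) (nat_lit 111114401215) (nat_lit 4) (nat_lit 5) (nat_lit 6) (nat_lit 4) (nat_lit 4) (nat_lit 4) (nat_lit 300) (nat_lit 269) (nat_lit 211)) (XT.lf (nat_lit 0) (nat_lit 184908705903) (nat_lit 152) (nat_lit 887387687) (nat_lit 0) (nat_lit 157850156602) (nat_lit 4) (nat_lit 5) (nat_lit 6) (nat_lit 4) (nat_lit 4) (nat_lit 4) (nat_lit 301) (nat_lit 269) (nat_lit 210))) (XT.nd (nat_lit 78) (nat_lit 0) (nat_lit 0) (XT.lf (nat_lit 0) (nat_lit 65408460551) (nat_lit 76) (nat_lit 175953802772) (nat_lit 76) (nat_lit 148894327412) (nat_lit 3) (nat_lit 4) (nat_lit 4) (nat_lit 5) (nat_lit 4) (nat_lit 4) (nat_lit 302) (nat_lit 269) (nat_lit 209)) (XT.nd (nat_lit 78) (nat_lit 0) (nat_lit 0) (XT.lf (nat_lit 0) (nat_lit 141744162692) (nat_lit 76) (nat_lit 164583979222) (nat_lit 76) (nat_lit 137523698591) (nat_lit 3) (nat_lit 4) (nat_lit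 4) (nat_lit 5) (nat_lit 4) (nat_lit 4) (nat_lit 303) (nat_lit 269) (nat_lit 208)) (XT.lf (nat_lit 0) (nat_lit 229526521366) (nat_lit 76) (nat_lit 151510556044) (nat_lit 76) (nat_lit 124449575179) (nat_lit 3) (nat_lit 4) (nat_lit 4) (nat_lit 5) (nat_lit 4) (nat_lit 4) (nat_lit 304) (nat_lit 269) (nat_lit 207))))) (XT.nd (nat_lit 156) (nat_lit 0) (nat_lit 0) (XT.nd (nat_lit 78) (nat_lit 0) (nat_lit 0) (XT.lf (nat_lit 0) (nat_lit 330473017501) (nat_lit 76) (nat_lit 136477748872) (nat_lit 76) (nat_lit 109416159107) (nat_lit 3) (nat_lit 4) (nat_lit 4) (nat_lit 5) (nat_lit 4) (nat_lit 4) (nat_lit 305) (nat_lit 269) (nat_lit 206)) (XT.lf (nat_lit 0) (nat_lit 446558691241) (nat_lit 76) (nat_lit 119191437566) (nat_lit 76) (nat_lit 92129318324) (nat_lit 3) (nat_lit 4) (nat_lit 4) (nat_lit 5) (nat_lit 4) (nat_lit 4) (nat_lit 306) (nat_lit 269) (nat_lit 205))) (XT.nd (nat_lit 78) (nat_lit 0) (nat_lit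 0) (XT.lf (nat_lit 0) (nat_lit 580054784027) (nat_lit 76) (nat_lit 99313411687) (nat_lit 76) (nat_lit 72250832029) (nat_lit 3) (nat_lit 4) (nat_lit 4) (nat_lit 5) (nat_lit 4) (nat_lit 4) (nat_lit 307) (nat_lit 269) (nat_lit 204)) (XT.nd (nat_lit 78) (nat_lit 0) (nat_lit 0) (XT.lf (nat_lit 0) (nat_lit 733573175936) (nat_lit 76) (nat_lit 76454753338) (nat_lit 76) (nat_lit 49391773318) (nat_lit 3) (nat_lit 4) (nat_lit 4) (nat_lit 5) (nat_lit 4) (nat_lit 4) (nat_lit 308) (nat_lit 269) (nat_lit 203)) (XT.lf (nat_lit 0) (nat_lit 910117487679) (nat_lit 76) (nat_lit 50168227899) (nat_lit 76) (nat_lit 23104899739) (nat_lit 3) (nat_lit 4) (nat_lit 4) (nat_lit 5) (nat_lit 4) (nat_lit 4) (nat_lit 309) (nat_lit 269) (nat_lit 202))))))) (XT.nd (nat_lit 780) (nat_lit 0) (nat_lit 0) (XT.nd (nat_lit 390) (nat_lit 0) (nat_lit 0) (XT.nd (nat_lit 156) (nat_lit 0) (nat_lit 0) (XT.nd (nat_lit 78) (nat_lit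 76) (nat_lit 0) (XT.lf (nat_lit 0) (nat_lit 6489860717) (nat_lit 152) (nat_lit 13110430347) (nat_lit 76) (nat_lit 1106312743658) (nat_lit 2) (nat_lit 5) (nat_lit 4) (nat_lit 5) (nat_lit 3) (nat_lit 4) (nat_lit 310) (nat_lit 269) (nat_lit 201)) (XT.lf (nat_lit 0) (nat_lit 41471841682) (nat_lit 152) (nat_lit 1229741893816) (nat_lit 0) (nat_lit 17938020695) (nat_lit 1) (nat_lit 5) (nat_lit 3) (nat_lit 4) (nat_lit 1) (nat_lit 4) (nat_lit 311) (nat_lit 269) (nat_lit 200))) (XT.nd (nat_lit 78) (nat_lit 0) (nat_lit 0) (XT.lf (nat_lit 0) (nat_lit 83351706604) (nat_lit 152) (nat_lit 1333459305010) (nat_lit 0) (nat_lit 59817686566) (nat_lit 1) (nat_lit 5) (nat_lit 3) (nat_lit 4) (nat_lit 1) (nat_lit 4) (nat_lit 312) (nat_lit 269) (nat_lit 199)) (XT.nd (nat_lit 78) (nat_lit 0) (nat_lit 0) (XT.lf (nat_lit 0) (nat_lit 131512931681) (nat_lit 152) (nat_lit 1452735604438) (nat_lit 0) (nat_lit 107978738557)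 (nat_lit 1) (nat_lit 5) (nat_lit 3) (nat_lit 4) (nat_lit 1) (nat_lit 4) (nat_lit 313) (nat_lit 269) (nat_lit 198)) (XT.lf (nat_lit 0) (nat_lit 186897801754) (nat_lit 152) (nat_lit 1589904458830) (nat_lit 0) (nat_lit 163363458118) (nat_lit 1) (nat_lit 5) (nat_lit 3) (nat_lit 4) (nat_lit 1) (nat_lit 4) (nat_lit 314) (nat_lit 269) (nat_lit 197))))) (XT.nd (nat_lit 156) (nat_lit 0) (nat_lit 0) (XT.nd (nat_lit 78) (nat_lit 0) (nat_lit 0) (XT.lf (nat_lit 0) (nat_lit 250589933844) (nat_lit 152) (nat_lit 1747649606641) (nat_lit 0) (nat_lit 227055459329) (nat_lit 1) (nat_lit 5) (nat_lit 3) (nat_lit 4) (nat_lit 1) (nat_lit 4) (nat_lit 315) (nat_lit 269) (nat_lit 196)) (XT.lf (nat_lit 0) (nat_lit 323835478362) (nat_lit 152) (nat_lit 1929057365980) (nat_lit 0) (nat_lit 300300890040) (nat_lit 1) (nat_lit 5) (nat_lit 3) (nat_lit 4) (nat_lit 1) (nat_lit 4) (nat_lit 316) (nat_lit 269) (nat_lit 195)))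 (XT.nd (nat_lit 78) (nat_lit 0) (nat_lit 0) (XT.lf (nat_lit 0) (nat_lit 408067500309) (nat_lit 152) (nat_lit 2137677019095) (nat_lit 0) (nat_lit 384532813024) (nat_lit 1) (nat_lit 5) (nat_lit 3) (nat_lit 4) (nat_lit 1) (nat_lit 4) (nat_lit 317) (nat_lit 269) (nat_lit 194)) (XT.nd (nat_lit 78) (nat_lit 0) (nat_lit 0) (XT.lf (nat_lit 0) (nat_lit 504934017507) (nat_lit 152) (nat_lit 2377590254851) (nat_lit 0) (nat_lit 481399244167) (nat_lit 1) (nat_lit 5) (nat_lit 3) (nat_lit 4) (nat_lit 1) (nat_lit 4) (nat_lit 318) (nat_lit 269) (nat_lit 193)) (XT.lf (nat_lit 0) (nat_lit 616330244422) (nat_lit 152) (nat_lit 2653491027861) (nat_lit 0) (nat_lit 592795396252) (nat_lit 1) (nat_lit 5) (nat_lit 3) (nat_lit 4) (nat_lit 1) (nat_lit 4) (nat_lit 319) (nat_lit 269) (nat_lit 192)))))) (XT.nd (nat_lit 390) (nat_lit 0) (nat_lit 0) (XT.nd (nat_lit 156) (nat_lit 0) (nat_lit 0) (XT.nd (nat_lit 78) (nat_lit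 0) (nat_lit 0) (XT.lf (nat_lit 0) (nat_lit 744435672451) (nat_lit 152) (nat_lit 2970777396728) (nat_lit 0) (nat_lit 720900759210) (nat_lit 1) (nat_lit 5) (nat_lit 3) (nat_lit 4) (nat_lit 1) (nat_lit 4) (nat_lit 320) (nat_lit 269) (nat_lit 191)) (XT.lf (nat_lit 0) (nat_lit 891756712141) (nat_lit 152) (nat_lit 3335657138233) (nat_lit 0) (nat_lit 868221742318) (nat_lit 1) (nat_lit 5) (nat_lit 3) (nat_lit 4) (nat_lit 1) (nat_lit 4) (nat_lit 321) (nat_lit 269) (nat_lit 190))) (XT.nd (nat_lit 78) (nat_lit 0) (nat_lit 0) (XT.lf (nat_lit 0) (nat_lit 1061175731661) (nat_lit 152) (nat_lit 3755269203841) (nat_lit 0) (nat_lit 1037640712636) (nat_lit 1) (nat_lit 5) (nat_lit 3) (nat_lit 4) (nat_lit 1) (nat_lit 4) (nat_lit 322) (nat_lit 269) (nat_lit 189)) (XT.nd (nat_lit 78) (nat_lit 0) (nat_lit 0) (XT.lf (nat_lit 0) (nat_lit 1256007450957) (nat_lit 152) (nat_lit 4237823394835) (nat_lit 0) (nat_lit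 1232472389148) (nat_lit 1) (nat_lit 5) (nat_lit 3) (nat_lit 4) (nat_lit 1) (nat_lit 4) (nat_lit 323) (nat_lit 269) (nat_lit 188)) (XT.lf (nat_lit 0) (nat_lit 1480063794974) (nat_lit 152) (nat_lit 4792760988866) (nat_lit 0) (nat_lit 1456528695960) (nat_lit 1) (nat_lit 5) (nat_lit 3) (nat_lit 4) (nat_lit 1) (nat_lit 4) (nat_lit 324) (nat_lit 269) (nat_lit 187))))) (XT.nd (nat_lit 156) (nat_lit 0) (nat_lit 0) (XT.nd (nat_lit 78) (nat_lit 0) (nat_lit 0) (XT.lf (nat_lit 0) (nat_lit 1737728474788) (nat_lit 152) (nat_lit 5430939460598) (nat_lit 0) (nat_lit 1714193343423) (nat_lit 1) (nat_lit 5) (nat_lit 3) (nat_lit 4) (nat_lit 1) (nat_lit 4) (nat_lit 325) (nat_lit 269) (nat_lit 186)) (XT.lf (nat_lit 0) (nat_lit 2034042755875) (nat_lit 152) (nat_lit 6164844910567) (nat_lit 0) (nat_lit 2010507596378) (nat_lit 1) (nat_lit 5) (nat_lit 3) (nat_lit 4) (nat_lit 1) (nat_lit 4) (nat_lit 326) (nat_lit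 269) (nat_lit 185))) (XT.nd (nat_lit 78) (nat_lit 0) (nat_lit 0) (XT.lf (nat_lit 0) (nat_lit 2374804091560) (nat_lit 152) (nat_lit 7008836358445) (nat_lit 0) (nat_lit 2351268907601) (nat_lit 1) (nat_lit 5) (nat_lit 3) (nat_lit 4) (nat_lit 1) (nat_lit 4) (nat_lit 327) (nat_lit 269) (nat_lit 184)) (XT.nd (nat_lit 78) (nat_lit 0) (nat_lit 0) (XT.lf (nat_lit 0) (nat_lit 2766679551455) (nat_lit 152) (nat_lit 7979426680386) (nat_lit 0) (nat_lit 2743144346224) (nat_lit 1) (nat_lit 5) (nat_lit 3) (nat_lit 4) (nat_lit 1) (nat_lit 4) (nat_lit 328) (nat_lit 269) (nat_lit 183)) (XT.lf (nat_lit 0) (nat_lit 3217336264122) (nat_lit 152) (nat_lit 9095605687038) (nat_lit 0) (nat_lit 3193801040395) (nat_lit 1) (nat_lit 5) (nat_lit 3) (nat_lit 4) (nat_lit 1) (nat_lit 4) (nat_lit 329) (nat_lit 269) (nat_lit 182))))))))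
noncomputable def xc68 : XT := (XT.nd (nat_lit 36192) (nat_lit 0) (nat_lit 456) (XT.nd (nat_lit 702) (nat_lit 0) (nat_lit 0) (XT.nd (nat_lit 312) (nat_lit 0) (nat_lit 0) (XT.nd (nat_lit 156) (nat_lit 0) (nat_lit 0) (XT.nd (nat_lit 78) (nat_lit 0) (nat_lit 0) (XT.lf (nat_lit 0) (nat_lit 3735591426114) (nat_lit 152) (nat_lit 10379211663312) (nat_lit 0) (nat_lit 3712056186303) (nat_lit 1) (nat_lit 5) (nat_lit 3) (nat_lit 4) (nat_lit 1) (nat_lit 4) (nat_lit 330) (nat_lit 269) (nat_lit 181)) (XT.lf (nat_lit 0) (nat_lit 4331584812340) (nat_lit 152) (nat_lit 11855358639180) (nat_lit 0) (nat_lit 4308049558542) (nat_lit 1) (nat_lit 5) (nat_lit 3) (nat_lit 4) (nat_lit 1) (nat_lit 4) (nat_lit 331) (nat_lit 269) (nat_lit 180))) (XT.nd (nat_lit 78) (nat_lit 0) (nat_lit 0) (XT.lf (nat_lit 0) (nat_lit 5016977162965) (nat_lit 152) (nat_lit 13552927751126) (nat_lit 0) (nat_lit 4993441897005) (nat_lit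 1) (nat_lit 5) (nat_lit 3) (nat_lit 4) (nat_lit 1) (nat_lit 4) (nat_lit 332) (nat_lit 269) (nat_lit 179)) (XT.lf (nat_lit 0) (nat_lit 5805178328326) (nat_lit 152) (nat_lit 15505132307861) (nat_lit 0) (nat_lit 5781643051791) (nat_lit 1) (nat_lit 5) (nat_lit 3) (nat_lit 4) (nat_lit 1) (nat_lit 4) (nat_lit 333) (nat_lit 269) (nat_lit 178)))) (XT.nd (nat_lit 156) (nat_lit 0) (nat_lit 0) (XT.nd (nat_lit 78) (nat_lit 0) (nat_lit 0) (XT.lf (nat_lit 0) (nat_lit 6711609635573) (nat_lit 152) (nat_lit 17750167615931) (nat_lit 0) (nat_lit 6688074349841) (nat_lit 1) (nat_lit 5) (nat_lit 3) (nat_lit 4) (nat_lit 1) (nat_lit 4) (nat_lit 334) (nat_lit 269) (nat_lit 177)) (XT.lf (nat_lit 0) (nat_lit 7754005610282) (nat_lit 152) (nat_lit 20331958279189) (nat_lit 0) (nat_lit 7730470316554) (nat_lit 1) (nat_lit 5) (nat_lit 3) (nat_lit 4) (nat_lit 1) (nat_lit 4) (nat_lit 335) (nat_lit 269) (nat_lit 176)))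 (XT.nd (nat_lit 78) (nat_lit 0) (nat_lit 0) (XT.lf (nat_lit 0) (nat_lit 8952760956306) (nat_lit 152) (nat_lit 23301017593221) (nat_lit 0) (nat_lit 8929225655624) (nat_lit 1) (nat_lit 5) (nat_lit 3) (nat_lit 4) (nat_lit 1) (nat_lit 4) (nat_lit 336) (nat_lit 269) (nat_lit 175)) (XT.nd (nat_lit 78) (nat_lit 0) (nat_lit 0) (XT.lf (nat_lit 0) (nat_lit 10331329582589) (nat_lit 152) (nat_lit 26715435848953) (nat_lit 0) (nat_lit 10307794275860) (nat_lit 1) (nat_lit 5) (nat_lit 3) (nat_lit 4) (nat_lit 1) (nat_lit 4) (nat_lit 337) (nat_lit 269) (nat_lit 174)) (XT.lf (nat_lit 0) (nat_lit 11916683483993) (nat_lit 152) (nat_lit 30642016881824) (nat_lit 0) (nat_lit 11893148172006) (nat_lit 1) (nat_lit 5) (nat_lit 3) (nat_lit 4) (nat_lit 1) (nat_lit 4) (nat_lit 338) (nat_lit 269) (nat_lit 173)))))) (XT.nd (nat_lit 390) (nat_lit 0) (nat_lit 0) (XT.nd (nat_lit 156) (nat_lit 0) (nat_lit 0) (XT.nd (nat_lit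 78) (nat_lit 0) (nat_lit 0) (XT.lf (nat_lit 0) (nat_lit 13739840454241) (nat_lit 152) (nat_lit 35157585103346) (nat_lit 0) (nat_lit 13716305137682) (nat_lit 1) (nat_lit 5) (nat_lit 3) (nat_lit 4) (nat_lit 1) (nat_lit 4) (nat_lit 339) (nat_lit 269) (nat_lit 172)) (XT.lf (nat_lit 0) (nat_lit 15836470955794) (nat_lit 152) (nat_lit 40350488587418) (nat_lit 0) (nat_lit 15812935635259) (nat_lit 1) (nat_lit 5) (nat_lit 3) (nat_lit 4) (nat_lit 1) (nat_lit 4) (nat_lit 340) (nat_lit 269) (nat_lit 171))) (XT.nd (nat_lit 78) (nat_lit 0) (nat_lit 0) (XT.lf (nat_lit 0) (nat_lit 18247596020205) (nat_lit 152) (nat_lit 46322327619599) (nat_lit 0) (nat_lit 18224060696213) (nat_lit 1) (nat_lit 5) (nat_lit 3) (nat_lit 4) (nat_lit 1) (nat_lit 4) (nat_lit 341) (nat_lit 269) (nat_lit 170)) (XT.nd (nat_lit 78) (nat_lit 0) (nat_lit 0) (XT.lf (nat_lit 0) (nat_lit 21020389833517) (nat_lit 152) (nat_lit 53189942528779)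 (nat_lit 0) (nat_lit 20996854506518) (nat_lit 1) (nat_lit 5) (nat_lit 3) (nat_lit 4) (nat_lit 1) (nat_lit 4) (nat_lit 342) (nat_lit 269) (nat_lit 169)) (XT.lf (nat_lit 0) (nat_lit 24209102709467) (nat_lit 152) (nat_lit 61087699693616) (nat_lit 0) (nat_lit 24185567379855) (nat_lit 1) (nat_lit 5) (nat_lit 3) (nat_lit 4) (nat_lit 1) (nat_lit 4) (nat_lit 343) (nat_lit 269) (nat_lit 168))))) (XT.nd (nat_lit 34866) (nat_lit 0) (nat_lit 1596) (XT.nd (nat_lit 78) (nat_lit 0) (nat_lit 0) (XT.lf (nat_lit 0) (nat_lit 27876122508673) (nat_lit 152) (nat_lit 70170120449944) (nat_lit 0) (nat_lit 27852587176788) (nat_lit 1) (nat_lit 5) (nat_lit 3) (nat_lit 4) (nat_lit 1) (nat_lit 4) (nat_lit 344) (nat_lit 269) (nat_lit 167)) (XT.lf (nat_lit 0) (nat_lit 32093195270684) (nat_lit 152) (nat_lit 80614904334299) (nat_lit 0) (nat_lit 32069659936822) (nat_lit 1) (nat_lit 5) (nat_lit 3) (nat_lit 4) (nat_lit 1)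 (nat_lit 4) (nat_lit 345) (nat_lit 269) (nat_lit 166))) (XT.nd (nat_lit 78) (nat_lit 0) (nat_lit 0) (XT.lf (nat_lit 0) (nat_lit 798916770) (nat_lit 380) (nat_lit 3758778369) (nat_lit 380) (nat_lit 3758778369) (nat_lit 22) (nat_lit 3) (nat_lit 27) (nat_lit 3) (nat_lit 27) (nat_lit 5) (nat_lit 270) (nat_lit 270) (nat_lit 240)) (XT.nd (nat_lit 78) (nat_lit 0) (nat_lit 76) (XT.lf (nat_lit 76) (nat_lit 282273734) (nat_lit 0) (nat_lit 1666089690) (nat_lit 380) (nat_lit 15896617754) (nat_lit 23) (nat_lit 5) (nat_lit 22) (nat_lit 3) (nat_lit 27) (nat_lit 5) (nat_lit 271) (nat_lit 270) (nat_lit 239)) (XT.lf (nat_lit 0) (nat_lit 3009505322) (nat_lit 304) (nat_lit 9418858075) (nat_lit 380) (nat_lit 6711900505) (nat_lit 23) (nat_lit 5) (nat_lit 27) (nat_lit 5) (nat_lit 28) (nat_lit 5) (nat_lit 272) (nat_lit 270) (nat_lit 238))))))) (XT.nd (nat_lit 780) (nat_lit 532) (nat_lit 0) (XT.nd (nat_lit 390)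 (nat_lit 304) (nat_lit 0) (XT.nd (nat_lit 156) (nat_lit 380) (nat_lit 0) (XT.nd (nat_lit 78) (nat_lit 0) (nat_lit 76) (XT.lf (nat_lit 0) (nat_lit 4274910392) (nat_lit 304) (nat_lit 160142667) (nat_lit 380) (nat_lit 16188151168) (nat_lit 23) (nat_lit 5) (nat_lit 27) (nat_lit 5) (nat_lit 28) (nat_lit 5) (nat_lit 273) (nat_lit 270) (nat_lit 237)) (XT.lf (nat_lit 0) (nat_lit 6395848072) (nat_lit 304) (nat_lit 10995552023) (nat_lit 76) (nat_lit 4837439379) (nat_lit 24) (nat_lit 5) (nat_lit 28) (nat_lit 5) (nat_lit 25) (nat_lit 5) (nat_lit 274) (nat_lit 270) (nat_lit 236))) (XT.nd (nat_lit 78) (nat_lit 152) (nat_lit 0) (XT.lf (nat_lit 0) (nat_lit 45072080) (nat_lit 304) (nat_lit 8985018223) (nat_lit 380) (nat_lit 15016052646) (nat_lit 20) (nat_lit 5) (nat_lit 24) (nat_lit 5) (nat_lit 25) (nat_lit 5) (nat_lit 275) (nat_lit 270) (nat_lit 235)) (XT.nd (nat_lit 78) (nat_lit 152) (nat_lit 0) (XT.lf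 (nat_lit 0) (nat_lit 12665541406) (nat_lit 380) (nat_lit 12157356440) (nat_lit 76) (nat_lit 1222318020) (nat_lit 20) (nat_lit 5) (nat_lit 25) (nat_lit 5) (nat_lit 21) (nat_lit 5) (nat_lit 276) (nat_lit 270) (nat_lit 234)) (XT.lf (nat_lit 0) (nat_lit 1108102725) (nat_lit 152) (nat_lit 16190803291) (nat_lit 228) (nat_lit 10977428070) (nat_lit 18) (nat_lit 5) (nat_lit 20) (nat_lit 5) (nat_lit 21) (nat_lit 5) (nat_lit 277) (nat_lit 270) (nat_lit 233))))) (XT.nd (nat_lit 156) (nat_lit 228) (nat_lit 0) (XT.nd (nat_lit 78) (nat_lit 76) (nat_lit 0) (XT.lf (nat_lit 0) (nat_lit 17705260344) (nat_lit 152) (nat_lit 5538112961) (nat_lit 228) (nat_lit 7506396159) (nat_lit 18) (nat_lit 5) (nat_lit 20) (nat_lit 5) (nat_lit 21) (nat_lit 5) (nat_lit 278) (nat_lit 270) (nat_lit 232)) (XT.lf (nat_lit 0) (nat_lit 3179197942) (nat_lit 76) (nat_lit 27292854820) (nat_lit 152) (nat_lit 3063341836) (nat_lit 17)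 (nat_lit 5) (nat_lit 18) (nat_lit 5) (nat_lit 19) (nat_lit 4) (nat_lit 279) (nat_lit 270) (nat_lit 231))) (XT.nd (nat_lit 78) (nat_lit 152) (nat_lit 0) (XT.lf (nat_lit 0) (nat_lit 2825511169) (nat_lit 152) (nat_lit 13739257050) (nat_lit 76) (nat_lit 20017202591) (nat_lit 16) (nat_lit 5) (nat_lit 18) (nat_lit 5) (nat_lit 17) (nat_lit 5) (nat_lit 280) (nat_lit 270) (nat_lit 230)) (XT.nd (nat_lit 78) (nat_lit 0) (nat_lit 0) (XT.lf (nat_lit 0) (nat_lit 5711770474) (nat_lit 152) (nat_lit 3794408608) (nat_lit 228) (nat_lit 30524192799) (nat_lit 14) (nat_lit 5) (nat_lit 16) (nat_lit 5) (nat_lit 17) (nat_lit 5) (nat_lit 281) (nat_lit 270) (nat_lit 229)) (XT.lf (nat_lit 0) (nat_lit 18378695997) (nat_lit 228) (nat_lit 14770818171) (nat_lit 76) (nat_lit 10668088504) (nat_lit 14) (nat_lit 5) (nat_lit 17) (nat_lit 5) (nat_lit 15) (nat_lit 4) (nat_lit 282) (nat_lit 270) (nat_lit 228)))))) (XT.nd (nat_lit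 390) (nat_lit 228) (nat_lit 0) (XT.nd (nat_lit 156) (nat_lit 228) (nat_lit 0) (XT.nd (nat_lit 78) (nat_lit 0) (nat_lit 0) (XT.lf (nat_lit 0) (nat_lit 8243298232) (nat_lit 76) (nat_lit 20848960901) (nat_lit 152) (nat_lit 19004161367) (nat_lit 13) (nat_lit 5) (nat_lit 14) (nat_lit 5) (nat_lit 15) (nat_lit 4) (nat_lit 283) (nat_lit 270) (nat_lit 227)) (XT.lf (nat_lit 0) (nat_lit 36351411744) (nat_lit 76) (nat_lit 5822495470) (nat_lit 152) (nat_lit 10729020326) (nat_lit 13) (nat_lit 5) (nat_lit 14) (nat_lit 5) (nat_lit 15) (nat_lit 4) (nat_lit 284) (nat_lit 270) (nat_lit 226))) (XT.nd (nat_lit 78) (nat_lit 152) (nat_lit 0) (XT.lf (nat_lit 0) (nat_lit 10707104932) (nat_lit 76) (nat_lit 47418631412) (nat_lit 76) (nat_lit 168505178) (nat_lit 12) (nat_lit 4) (nat_lit 13) (nat_lit 5) (nat_lit 13) (nat_lit 4) (nat_lit 285) (nat_lit 270) (nat_lit 225)) (XT.nd (nat_lit 78) (nat_lit 76) (nat_lit 0)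 (XT.lf (nat_lit 0) (nat_lit 12083832488) (nat_lit 152) (nat_lit 21281346799) (nat_lit 76) (nat_lit 30878612624) (nat_lit 11) (nat_lit 5) (nat_lit 13) (nat_lit 5) (nat_lit 12) (nat_lit 4) (nat_lit 286) (nat_lit 270) (nat_lit 224)) (XT.lf (nat_lit 0) (nat_lit 9821737727) (nat_lit 76) (nat_lit 16733280857) (nat_lit 152) (nat_lit 44469829027) (nat_lit 10) (nat_lit 5) (nat_lit 11) (nat_lit 5) (nat_lit 12) (nat_lit 4) (nat_lit 287) (nat_lit 270) (nat_lit 223))))) (XT.nd (nat_lit 156) (nat_lit 152) (nat_lit 0) (XT.nd (nat_lit 78) (nat_lit 76) (nat_lit 0) (XT.lf (nat_lit 0) (nat_lit 44453196457) (nat_lit 152) (nat_lit 30841466659) (nat_lit 0) (nat_lit 3339963455) (nat_lit 10) (nat_lit 5) (nat_lit 12) (nat_lit 4) (nat_lit 10) (nat_lit 4) (nat_lit 288) (nat_lit 270) (nat_lit 222)) (XT.lf (nat_lit 0) (nat_lit 3583392941) (nat_lit 76) (nat_lit 62390782139) (nat_lit 76) (nat_lit 21270996606) (nat_lit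 9) (nat_lit 4) (nat_lit 10) (nat_lit 5) (nat_lit 10) (nat_lit 4) (nat_lit 289) (nat_lit 270) (nat_lit 221))) (XT.nd (nat_lit 78) (nat_lit 152) (nat_lit 0) (XT.lf (nat_lit 0) (nat_lit 46625517305) (nat_lit 76) (nat_lit 45703228461) (nat_lit 76) (nat_lit 4577745076) (nat_lit 9) (nat_lit 4) (nat_lit 10) (nat_lit 5) (nat_lit 10) (nat_lit 4) (nat_lit 290) (nat_lit 270) (nat_lit 220)) (XT.nd (nat_lit 78) (nat_lit 76) (nat_lit 0) (XT.lf (nat_lit 0) (nat_lit 13311834696) (nat_lit 152) (nat_lit 12509993442) (nat_lit 76) (nat_lit 82105301925) (nat_lit 8) (nat_lit 5) (nat_lit 10) (nat_lit 5) (nat_lit 9) (nat_lit 4) (nat_lit 291) (nat_lit 270) (nat_lit 219)) (XT.lf (nat_lit 0) (nat_lit 33698660730) (nat_lit 76) (nat_lit 1107575160) (nat_lit 152) (nat_lit 85553428305) (nat_lit 7) (nat_lit 5) (nat_lit 8) (nat_lit 5) (nat_lit 9) (nat_lit 4) (nat_lit 292) (nat_lit 270) (nat_lit 218))))))))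
noncomputable def xc69 : XT := (XT.nd (nat_lit 1482) (nat_lit 76) (nat_lit 0) (XT.nd (nat_lit 702) (nat_lit 152) (nat_lit 0) (XT.nd (nat_lit 312) (nat_lit 152) (nat_lit 0) (XT.nd (nat_lit 156) (nat_lit 76) (nat_lit 0) (XT.nd (nat_lit 78) (nat_lit 0) (nat_lit 0) (XT.lf (nat_lit 0) (nat_lit 61335651440) (nat_lit 152) (nat_lit 47486755111) (nat_lit 0) (nat_lit 25563048949) (nat_lit 7) (nat_lit 5) (nat_lit 9) (nat_lit 4) (nat_lit 7) (nat_lit 4) (nat_lit 293) (nat_lit 270) (nat_lit 217)) (XT.lf (nat_lit 0) (nat_lit 91892678600) (nat_lit 152) (nat_lit 2497968248) (nat_lit 0) (nat_lit 56117243269) (nat_lit 7) (nat_lit 5) (nat_lit 9) (nat_lit 4) (nat_lit 7) (nat_lit 4) (nat_lit 294) (nat_lit 270) (nat_lit 216))) (XT.nd (nat_lit 78) (nat_lit 0) (nat_lit 0) (XT.lf (nat_lit 0) (nat_lit 54042688704) (nat_lit 76) (nat_lit 75224413710) (nat_lit 76) (nat_lit 39446515040) (nat_lit 6) (nat_lit 4) (nat_lit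 7) (nat_lit 5) (nat_lit 7) (nat_lit 4) (nat_lit 295) (nat_lit 270) (nat_lit 215)) (XT.lf (nat_lit 0) (nat_lit 119337830051) (nat_lit 76) (nat_lit 53036696241) (nat_lit 76) (nat_lit 17256655537) (nat_lit 6) (nat_lit 4) (nat_lit 7) (nat_lit 5) (nat_lit 7) (nat_lit 4) (nat_lit 296) (nat_lit 270) (nat_lit 214)))) (XT.nd (nat_lit 156) (nat_lit 0) (nat_lit 0) (XT.nd (nat_lit 78) (nat_lit 76) (nat_lit 0) (XT.lf (nat_lit 0) (nat_lit 7522761810) (nat_lit 152) (nat_lit 19607965449) (nat_lit 76) (nat_lit 186504852715) (nat_lit 5) (nat_lit 5) (nat_lit 7) (nat_lit 5) (nat_lit 6) (nat_lit 4) (nat_lit 297) (nat_lit 270) (nat_lit 213)) (XT.lf (nat_lit 0) (nat_lit 36201084163) (nat_lit 152) (nat_lit 199539005126) (nat_lit 0) (nat_lit 5084977183) (nat_lit 4) (nat_lit 5) (nat_lit 6) (nat_lit 4) (nat_lit 4) (nat_lit 4) (nat_lit 298) (nat_lit 270) (nat_lit 212))) (XT.nd (nat_lit 78) (nat_lit 0) (nat_lit 0)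 (XT.lf (nat_lit 0) (nat_lit 71543939941) (nat_lit 152) (nat_lit 159768011944) (nat_lit 0) (nat_lit 40426608246) (nat_lit 4) (nat_lit 5) (nat_lit 6) (nat_lit 4) (nat_lit 4) (nat_lit 4) (nat_lit 299) (nat_lit 270) (nat_lit 211)) (XT.nd (nat_lit 78) (nat_lit 0) (nat_lit 0) (XT.lf (nat_lit 0) (nat_lit 112185681600) (nat_lit 152) (nat_lit 114036494371) (nat_lit 0) (nat_lit 81067284936) (nat_lit 4) (nat_lit 5) (nat_lit 6) (nat_lit 4) (nat_lit 4) (nat_lit 4) (nat_lit 300) (nat_lit 270) (nat_lit 210)) (XT.lf (nat_lit 0) (nat_lit 158921473651) (nat_lit 152) (nat_lit 61449705321) (nat_lit 0) (nat_lit 127802150927) (nat_lit 4) (nat_lit 5) (nat_lit 6) (nat_lit 4) (nat_lit 4) (nat_lit 4) (nat_lit 301) (nat_lit 270) (nat_lit 209)))))) (XT.nd (nat_lit 390) (nat_lit 76) (nat_lit 0) (XT.nd (nat_lit 156) (nat_lit 0) (nat_lit 0) (XT.nd (nat_lit 78) (nat_lit 76) (nat_lit 0) (XT.lf (nat_lit 0) (nat_lit 212665712026)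 (nat_lit 152) (nat_lit 978772838) (nat_lit 0) (nat_lit 181545584031) (nat_lit 4) (nat_lit 5) (nat_lit 6) (nat_lit 4) (nat_lit 4) (nat_lit 4) (nat_lit 302) (nat_lit 270) (nat_lit 208)) (XT.lf (nat_lit 0) (nat_lit 75259556136) (nat_lit 76) (nat_lit 202326696023) (nat_lit 76) (nat_lit 171205867794) (nat_lit 3) (nat_lit 4) (nat_lit 4) (nat_lit 5) (nat_lit 4) (nat_lit 4) (nat_lit 303) (nat_lit 270) (nat_lit 207))) (XT.nd (nat_lit 78) (nat_lit 0) (nat_lit 0) (XT.lf (nat_lit 0) (nat_lit 163040418838) (nat_lit 76) (nat_lit 189254030744) (nat_lit 76) (nat_lit 158132593615) (nat_lit 3) (nat_lit 4) (nat_lit 4) (nat_lit 5) (nat_lit 4) (nat_lit 4) (nat_lit 304) (nat_lit 270) (nat_lit 206)) (XT.nd (nat_lit 78) (nat_lit 0) (nat_lit 0) (XT.lf (nat_lit 0) (nat_lit 263985614128) (nat_lit 76) (nat_lit 174221882615) (nat_lit 76) (nat_lit 143099916008) (nat_lit 3) (nat_lit 4) (nat_lit 4) (nat_lit 5) (nat_lit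 4) (nat_lit 4) (nat_lit 305) (nat_lit 270) (nat_lit 205)) (XT.lf (nat_lit 0) (nat_lit 380070156698) (nat_lit 76) (nat_lit 156936144389) (nat_lit 76) (nat_lit 125813717367) (nat_lit 3) (nat_lit 4) (nat_lit 4) (nat_lit 5) (nat_lit 4) (nat_lit 4) (nat_lit 306) (nat_lit 270) (nat_lit 204))))) (XT.nd (nat_lit 156) (nat_lit 76) (nat_lit 0) (XT.nd (nat_lit 78) (nat_lit 0) (nat_lit 0) (XT.lf (nat_lit 0) (nat_lit 513565265859) (nat_lit 76) (nat_lit 137058616842) (nat_lit 76) (nat_lit 105935789457) (nat_lit 3) (nat_lit 4) (nat_lit 4) (nat_lit 5) (nat_lit 4) (nat_lit 4) (nat_lit 307) (nat_lit 270) (nat_lit 203)) (XT.lf (nat_lit 0) (nat_lit 667082802442) (nat_lit 76) (nat_lit 114200391824) (nat_lit 76) (nat_lit 83077216299) (nat_lit 3) (nat_lit 4) (nat_lit 4) (nat_lit 5) (nat_lit 4) (nat_lit 4) (nat_lit 308) (nat_lit 270) (nat_lit 202))) (XT.nd (nat_lit 78) (nat_lit 76) (nat_lit 0) (XT.lf (nat_lit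 0) (nat_lit 843626370423) (nat_lit 76) (nat_lit 87914243194) (nat_lit 76) (nat_lit 56790764938) (nat_lit 3) (nat_lit 4) (nat_lit 4) (nat_lit 5) (nat_lit 4) (nat_lit 4) (nat_lit 309) (nat_lit 270) (nat_lit 201)) (XT.nd (nat_lit 78) (nat_lit 76) (nat_lit 0) (XT.lf (nat_lit 0) (nat_lit 1046650083089) (nat_lit 76) (nat_lit 57685876740) (nat_lit 76) (nat_lit 26562135240) (nat_lit 3) (nat_lit 4) (nat_lit 4) (nat_lit 5) (nat_lit 4) (nat_lit 4) (nat_lit 310) (nat_lit 270) (nat_lit 200)) (XT.lf (nat_lit 0) (nat_lit 7470072676) (nat_lit 152) (nat_lit 15063314153) (nat_lit 76) (nat_lit 1272265589766) (nat_lit 2) (nat_lit 5) (nat_lit 4) (nat_lit 5) (nat_lit 3) (nat_lit 4) (nat_lit 311) (nat_lit 270) (nat_lit 199))))))) (XT.nd (nat_lit 780) (nat_lit 0) (nat_lit 0) (XT.nd (nat_lit 390) (nat_lit 0) (nat_lit 0) (XT.nd (nat_lit 156) (nat_lit 0) (nat_lit 0) (XT.nd (nat_lit 78) (nat_lit 0) (nat_lit 0) (XT.lf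 (nat_lit 0) (nat_lit 47699289250) (nat_lit 152) (nat_lit 1414189432643) (nat_lit 0) (nat_lit 20634794069) (nat_lit 1) (nat_lit 5) (nat_lit 3) (nat_lit 4) (nat_lit 1) (nat_lit 4) (nat_lit 312) (nat_lit 270) (nat_lit 198)) (XT.lf (nat_lit 0) (nat_lit 95860263738) (nat_lit 152) (nat_lit 1533466248373) (nat_lit 0) (nat_lit 68795618047) (nat_lit 1) (nat_lit 5) (nat_lit 3) (nat_lit 4) (nat_lit 1) (nat_lit 4) (nat_lit 313) (nat_lit 270) (nat_lit 197))) (XT.nd (nat_lit 78) (nat_lit 0) (nat_lit 0) (XT.lf (nat_lit 0) (nat_lit 151244915906) (nat_lit 152) (nat_lit 1670635551723) (nat_lit 0) (nat_lit 124180139336) (nat_lit 1) (nat_lit 5) (nat_lit 3) (nat_lit 4) (nat_lit 1) (nat_lit 4) (nat_lit 314) (nat_lit 270) (nat_lit 196)) (XT.nd (nat_lit 78) (nat_lit 0) (nat_lit 0) (XT.lf (nat_lit 0) (nat_lit 214936858515) (nat_lit 152) (nat_lit 1828381089932) (nat_lit 0) (nat_lit 187871968137) (nat_lit 1) (nat_lit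 5) (nat_lit 3) (nat_lit 4) (nat_lit 1) (nat_lit 4) (nat_lit 315) (nat_lit 270) (nat_lit 195)) (XT.lf (nat_lit 0) (nat_lit 288182238266) (nat_lit 152) (nat_lit 2009789188748) (nat_lit 0) (nat_lit 261117248925) (nat_lit 1) (nat_lit 5) (nat_lit 3) (nat_lit 4) (nat_lit 1) (nat_lit 4) (nat_lit 316) (nat_lit 270) (nat_lit 194))))) (XT.nd (nat_lit 156) (nat_lit 0) (nat_lit 0) (XT.nd (nat_lit 78) (nat_lit 0) (nat_lit 0) (XT.lf (nat_lit 0) (nat_lit 372414116939) (nat_lit 152) (nat_lit 2218409137060) (nat_lit 0) (nat_lit 345349041542) (nat_lit 1) (nat_lit 5) (nat_lit 3) (nat_lit 4) (nat_lit 1) (nat_lit 4) (nat_lit 317) (nat_lit 270) (nat_lit 193)) (XT.lf (nat_lit 0) (nat_lit 469280509549) (nat_lit 152) (nat_lit 2458322629510) (nat_lit 0) (nat_lit 442215359323) (nat_lit 1) (nat_lit 5) (nat_lit 3) (nat_lit 4) (nat_lit 1) (nat_lit 4) (nat_lit 318) (nat_lit 270) (nat_lit 192))) (XT.nd (nat_lit 78)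 (nat_lit 0) (nat_lit 0) (XT.lf (nat_lit 0) (nat_lit 580676628128) (nat_lit 152) (nat_lit 2734223625732) (nat_lit 0) (nat_lit 553611412831) (nat_lit 1) (nat_lit 5) (nat_lit 3) (nat_lit 4) (nat_lit 1) (nat_lit 4) (nat_lit 319) (nat_lit 270) (nat_lit 191)) (XT.nd (nat_lit 78) (nat_lit 0) (nat_lit 0) (XT.lf (nat_lit 0) (nat_lit 708781961950) (nat_lit 152) (nat_lit 3051510188695) (nat_lit 0) (nat_lit 681716690071) (nat_lit 1) (nat_lit 5) (nat_lit 3) (nat_lit 4) (nat_lit 1) (nat_lit 4) (nat_lit 320) (nat_lit 270) (nat_lit 190)) (XT.lf (nat_lit 0) (nat_lit 856102919723) (nat_lit 152) (nat_lit 3416390098980) (nat_lit 0) (nat_lit 829037598641) (nat_lit 1) (nat_lit 5) (nat_lit 3) (nat_lit 4) (nat_lit 1) (nat_lit 4) (nat_lit 321) (nat_lit 270) (nat_lit 189)))))) (XT.nd (nat_lit 390) (nat_lit 0) (nat_lit 0) (XT.nd (nat_lit 156) (nat_lit 0) (nat_lit 0) (XT.nd (nat_lit 78) (nat_lit 0) (nat_lit 0) (XT.lf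 (nat_lit 0) (nat_lit 1025521868009) (nat_lit 152) (nat_lit 3836002311353) (nat_lit 0) (nat_lit 998456504143) (nat_lit 1) (nat_lit 5) (nat_lit 3) (nat_lit 4) (nat_lit 1) (nat_lit 4) (nat_lit 322) (nat_lit 270) (nat_lit 188)) (XT.lf (nat_lit 0) (nat_lit 1220353525364) (nat_lit 152) (nat_lit 4318556629970) (nat_lit 0) (nat_lit 1193288124294) (nat_lit 1) (nat_lit 5) (nat_lit 3) (nat_lit 4) (nat_lit 1) (nat_lit 4) (nat_lit 323) (nat_lit 270) (nat_lit 187))) (XT.nd (nat_lit 78) (nat_lit 0) (nat_lit 0) (XT.lf (nat_lit 0) (nat_lit 1444409815518) (nat_lit 152) (nat_lit 4873494334976) (nat_lit 0) (nat_lit 1417344382097) (nat_lit 1) (nat_lit 5) (nat_lit 3) (nat_lit 4) (nat_lit 1) (nat_lit 4) (nat_lit 324) (nat_lit 270) (nat_lit 186)) (XT.nd (nat_lit 78) (nat_lit 0) (nat_lit 0) (XT.lf (nat_lit 0) (nat_lit 1702074448495) (nat_lit 152) (nat_lit 5511672903209) (nat_lit 0) (nat_lit 1675008986942) (nat_lit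 1) (nat_lit 5) (nat_lit 3) (nat_lit 4) (nat_lit 1) (nat_lit 4) (nat_lit 325) (nat_lit 270) (nat_lit 185)) (XT.lf (nat_lit 0) (nat_lit 1998388688854) (nat_lit 152) (nat_lit 6245578437091) (nat_lit 0) (nat_lit 1971323202839) (nat_lit 1) (nat_lit 5) (nat_lit 3) (nat_lit 4) (nat_lit 1) (nat_lit 4) (nat_lit 326) (nat_lit 270) (nat_lit 184))))) (XT.nd (nat_lit 156) (nat_lit 0) (nat_lit 0) (XT.nd (nat_lit 78) (nat_lit 0) (nat_lit 0) (XT.lf (nat_lit 0) (nat_lit 2339149989124) (nat_lit 152) (nat_lit 7089569957937) (nat_lit 0) (nat_lit 2312084481838) (nat_lit 1) (nat_lit 5) (nat_lit 3) (nat_lit 4) (nat_lit 1) (nat_lit 4) (nat_lit 327) (nat_lit 270) (nat_lit 183)) (XT.lf (nat_lit 0) (nat_lit 2731025418222) (nat_lit 152) (nat_lit 8060160343329) (nat_lit 0) (nat_lit 2703959892439) (nat_lit 1) (nat_lit 5) (nat_lit 3) (nat_lit 4) (nat_lit 1) (nat_lit 4) (nat_lit 328) (nat_lit 270) (nat_lit 182))) (XT.nd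 (nat_lit 78) (nat_lit 0) (nat_lit 0) (XT.lf (nat_lit 0) (nat_lit 3181682104111) (nat_lit 152) (nat_lit 9176339405155) (nat_lit 0) (nat_lit 3154616562243) (nat_lit 1) (nat_lit 5) (nat_lit 3) (nat_lit 4) (nat_lit 1) (nat_lit 4) (nat_lit 329) (nat_lit 270) (nat_lit 181)) (XT.nd (nat_lit 78) (nat_lit 0) (nat_lit 0) (XT.lf (nat_lit 0) (nat_lit 3699937242817) (nat_lit 152) (nat_lit 10459945429407) (nat_lit 0) (nat_lit 3672871686963) (nat_lit 1) (nat_lit 5) (nat_lit 3) (nat_lit 4) (nat_lit 1) (nat_lit 4) (nat_lit 330) (nat_lit 270) (nat_lit 180)) (XT.lf (nat_lit 0) (nat_lit 4295930608794) (nat_lit 152) (nat_lit 11936092446995) (nat_lit 0) (nat_lit 4268865040778) (nat_lit 1) (nat_lit 5) (nat_lit 3) (nat_lit 4) (nat_lit 1) (nat_lit 4) (nat_lit 331) (nat_lit 270) (nat_lit 179))))))))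
noncomputable def xc70 : XT := (XT.nd (nat_lit 36348) (nat_lit 0) (nat_lit 380) (XT.nd (nat_lit 702) (nat_lit 0) (nat_lit 0) (XT.nd (nat_lit 312) (nat_lit 0) (nat_lit 0) (XT.nd (nat_lit 156) (nat_lit 0) (nat_lit 0) (XT.nd (nat_lit 78) (nat_lit 0) (nat_lit 0) (XT.lf (nat_lit 0) (nat_lit 4981322941810) (nat_lit 152) (nat_lit 13633661595219) (nat_lit 0) (nat_lit 4954257363219) (nat_lit 1) (nat_lit 5) (nat_lit 3) (nat_lit 4) (nat_lit 1) (nat_lit 4) (nat_lit 332) (nat_lit 270) (nat_lit 178)) (XT.lf (nat_lit 0) (nat_lit 5769524091861) (nat_lit 152) (nat_lit 15585866183500) (nat_lit 0) (nat_lit 5742458504073) (nat_lit 1) (nat_lit 5) (nat_lit 3) (nat_lit 4) (nat_lit 1) (nat_lit 4) (nat_lit 333) (nat_lit 270) (nat_lit 177))) (XT.nd (nat_lit 78) (nat_lit 0) (nat_lit 0) (XT.lf (nat_lit 0) (nat_lit 6675955385794) (nat_lit 152) (nat_lit 17830901519002) (nat_lit 0) (nat_lit 6648889790009) (nat_lit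 1) (nat_lit 5) (nat_lit 3) (nat_lit 4) (nat_lit 1) (nat_lit 4) (nat_lit 334) (nat_lit 270) (nat_lit 176)) (XT.lf (nat_lit 0) (nat_lit 7718351348925) (nat_lit 152) (nat_lit 20412692206113) (nat_lit 0) (nat_lit 7691285746187) (nat_lit 1) (nat_lit 5) (nat_lit 3) (nat_lit 4) (nat_lit 1) (nat_lit 4) (nat_lit 335) (nat_lit 270) (nat_lit 175)))) (XT.nd (nat_lit 156) (nat_lit 0) (nat_lit 0) (XT.nd (nat_lit 78) (nat_lit 0) (nat_lit 0) (XT.lf (nat_lit 0) (nat_lit 8917106684882) (nat_lit 152) (nat_lit 23381751540887) (nat_lit 0) (nat_lit 8890041076097) (nat_lit 1) (nat_lit 5) (nat_lit 3) (nat_lit 4) (nat_lit 1) (nat_lit 4) (nat_lit 336) (nat_lit 270) (nat_lit 174)) (XT.lf (nat_lit 0) (nat_lit 10295675302411) (nat_lit 152) (nat_lit 26796169814656) (nat_lit 0) (nat_lit 10268609688368) (nat_lit 1) (nat_lit 5) (nat_lit 3) (nat_lit 4) (nat_lit 1) (nat_lit 4) (nat_lit 337) (nat_lit 270) (nat_lit 173)))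 (XT.nd (nat_lit 78) (nat_lit 0) (nat_lit 0) (XT.lf (nat_lit 0) (nat_lit 11881029196202) (nat_lit 152) (nat_lit 30722750863211) (nat_lit 0) (nat_lit 11853963577587) (nat_lit 1) (nat_lit 5) (nat_lit 3) (nat_lit 4) (nat_lit 1) (nat_lit 4) (nat_lit 338) (nat_lit 270) (nat_lit 172)) (XT.nd (nat_lit 78) (nat_lit 0) (nat_lit 0) (XT.lf (nat_lit 0) (nat_lit 13704186159831) (nat_lit 152) (nat_lit 35238319098371) (nat_lit 0) (nat_lit 13677120537240) (nat_lit 1) (nat_lit 5) (nat_lit 3) (nat_lit 4) (nat_lit 1) (nat_lit 4) (nat_lit 339) (nat_lit 270) (nat_lit 171)) (XT.lf (nat_lit 0) (nat_lit 15800816655628) (nat_lit 152) (nat_lit 40431222594303) (nat_lit 0) (nat_lit 15773751029580) (nat_lit 1) (nat_lit 5) (nat_lit 3) (nat_lit 4) (nat_lit 1) (nat_lit 4) (nat_lit 340) (nat_lit 270) (nat_lit 170)))))) (XT.nd (nat_lit 35256) (nat_lit 0) (nat_lit 1444) (XT.nd (nat_lit 156) (nat_lit 0) (nat_lit 0) (XT.nd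 (nat_lit 78) (nat_lit 0) (nat_lit 0) (XT.lf (nat_lit 0) (nat_lit 18211941715034) (nat_lit 152) (nat_lit 46403061636796) (nat_lit 0) (nat_lit 18184876085980) (nat_lit 1) (nat_lit 5) (nat_lit 3) (nat_lit 4) (nat_lit 1) (nat_lit 4) (nat_lit 341) (nat_lit 270) (nat_lit 169)) (XT.lf (nat_lit 0) (nat_lit 20984735523993) (nat_lit 152) (nat_lit 53270676554944) (nat_lit 0) (nat_lit 20957669892325) (nat_lit 1) (nat_lit 5) (nat_lit 3) (nat_lit 4) (nat_lit 1) (nat_lit 4) (nat_lit 342) (nat_lit 270) (nat_lit 168))) (XT.nd (nat_lit 78) (nat_lit 0) (nat_lit 0) (XT.lf (nat_lit 0) (nat_lit 24173448396159) (nat_lit 152) (nat_lit 61168433727579) (nat_lit 0) (nat_lit 24146382762217) (nat_lit 1) (nat_lit 5) (nat_lit 3) (nat_lit 4) (nat_lit 1) (nat_lit 4) (nat_lit 343) (nat_lit 270) (nat_lit 167)) (XT.nd (nat_lit 34944) (nat_lit 0) (nat_lit 1596) (XT.lf (nat_lit 0) (nat_lit 27840468192074) (nat_lit 152) (nat_lit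 70250854490687) (nat_lit 0) (nat_lit 27813402556156) (nat_lit 1) (nat_lit 5) (nat_lit 3) (nat_lit 4) (nat_lit 1) (nat_lit 4) (nat_lit 344) (nat_lit 270) (nat_lit 166)) (XT.lf (nat_lit 0) (nat_lit 1128689812) (nat_lit 380) (nat_lit 4201482938) (nat_lit 380) (nat_lit 4201482938) (nat_lit 22) (nat_lit 3) (nat_lit 27) (nat_lit 3) (nat_lit 27) (nat_lit 5) (nat_lit 271) (nat_lit 271) (nat_lit 238))))) (XT.nd (nat_lit 156) (nat_lit 152) (nat_lit 0) (XT.nd (nat_lit 78) (nat_lit 0) (nat_lit 76) (XT.lf (nat_lit 76) (nat_lit 555828969) (nat_lit 0) (nat_lit 2059468317) (nat_lit 380) (nat_lit 17848840438) (nat_lit 23) (nat_lit 5) (nat_lit 22) (nat_lit 3) (nat_lit 27) (nat_lit 5) (nat_lit 272) (nat_lit 271) (nat_lit 237)) (XT.lf (nat_lit 0) (nat_lit 3781573521) (nat_lit 304) (nat_lit 10575386445) (nat_lit 380) (nat_lit 7605039571) (nat_lit 23) (nat_lit 5) (nat_lit 27) (nat_lit 5) (nat_lit 28) (nat_lit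 5) (nat_lit 273) (nat_lit 271) (nat_lit 236))) (XT.nd (nat_lit 78) (nat_lit 228) (nat_lit 0) (XT.lf (nat_lit 76) (nat_lit 42488405) (nat_lit 0) (nat_lit 5154237378) (nat_lit 380) (nat_lit 18476822175) (nat_lit 24) (nat_lit 5) (nat_lit 23) (nat_lit 5) (nat_lit 28) (nat_lit 5) (nat_lit 274) (nat_lit 271) (nat_lit 235)) (XT.nd (nat_lit 78) (nat_lit 304) (nat_lit 0) (XT.lf (nat_lit 0) (nat_lit 7604891001) (nat_lit 304) (nat_lit 12391948092) (nat_lit 76) (nat_lit 5527963334) (nat_lit 24) (nat_lit 5) (nat_lit 28) (nat_lit 5) (nat_lit 25) (nat_lit 5) (nat_lit 275) (nat_lit 271) (nat_lit 234)) (XT.lf (nat_lit 0) (nat_lit 293272502) (nat_lit 304) (nat_lit 10318429469) (nat_lit 380) (nat_lit 17006503691) (nat_lit 20) (nat_lit 5) (nat_lit 24) (nat_lit 5) (nat_lit 25) (nat_lit 5) (nat_lit 276) (nat_lit 271) (nat_lit 233))))))) (XT.nd (nat_lit 780) (nat_lit 456) (nat_lit 0) (XT.nd (nat_lit 390) (nat_lit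 304) (nat_lit 0) (XT.nd (nat_lit 156) (nat_lit 152) (nat_lit 0) (XT.nd (nat_lit 78) (nat_lit 152) (nat_lit 0) (XT.lf (nat_lit 0) (nat_lit 14763365638) (nat_lit 380) (nat_lit 13741216872) (nat_lit 76) (nat_lit 1417026339) (nat_lit 20) (nat_lit 5) (nat_lit 25) (nat_lit 5) (nat_lit 21) (nat_lit 5) (nat_lit 277) (nat_lit 271) (nat_lit 232)) (XT.lf (nat_lit 0) (nat_lit 1503163757) (nat_lit 152) (nat_lit 18572222015) (nat_lit 228) (nat_lit 12414551463) (nat_lit 18) (nat_lit 5) (nat_lit 20) (nat_lit 5) (nat_lit 21) (nat_lit 5) (nat_lit 278) (nat_lit 271) (nat_lit 231))) (XT.nd (nat_lit 78) (nat_lit 152) (nat_lit 0) (XT.lf (nat_lit 0) (nat_lit 20560045590) (nat_lit 152) (nat_lit 6327784888) (nat_lit 228) (nat_lit 8450189655) (nat_lit 18) (nat_lit 5) (nat_lit 20) (nat_lit 5) (nat_lit 21) (nat_lit 5) (nat_lit 279) (nat_lit 271) (nat_lit 230)) (XT.nd (nat_lit 78) (nat_lit 76) (nat_lit 0) (XT.lf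 (nat_lit 0) (nat_lit 3867520294) (nat_lit 76) (nat_lit 31322922523) (nat_lit 152) (nat_lit 3352669672) (nat_lit 17) (nat_lit 5) (nat_lit 18) (nat_lit 5) (nat_lit 19) (nat_lit 4) (nat_lit 280) (nat_lit 271) (nat_lit 229)) (XT.lf (nat_lit 0) (nat_lit 3384140821) (nat_lit 152) (nat_lit 15602765225) (nat_lit 76) (nat_lit 23061796666) (nat_lit 16) (nat_lit 5) (nat_lit 18) (nat_lit 5) (nat_lit 17) (nat_lit 5) (nat_lit 281) (nat_lit 271) (nat_lit 228))))) (XT.nd (nat_lit 156) (nat_lit 152) (nat_lit 0) (XT.nd (nat_lit 78) (nat_lit 0) (nat_lit 0) (XT.lf (nat_lit 0) (nat_lit 6756944592) (nat_lit 152) (nat_lit 4300182928) (nat_lit 228) (nat_lit 34958748410) (nat_lit 14) (nat_lit 5) (nat_lit 16) (nat_lit 5) (nat_lit 17) (nat_lit 5) (nat_lit 282) (nat_lit 271) (nat_lit 227)) (XT.lf (nat_lit 0) (nat_lit 21246497175) (nat_lit 228) (nat_lit 16808323017) (nat_lit 76) (nat_lit 12318513801) (nat_lit 14)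 (nat_lit 5) (nat_lit 17) (nat_lit 5) (nat_lit 15) (nat_lit 4) (nat_lit 283) (nat_lit 271) (nat_lit 226))) (XT.nd (nat_lit 78) (nat_lit 76) (nat_lit 0) (XT.lf (nat_lit 0) (nat_lit 9649814580) (nat_lit 76) (nat_lit 23909842594) (nat_lit 152) (nat_lit 21735466820) (nat_lit 13) (nat_lit 5) (nat_lit 14) (nat_lit 5) (nat_lit 15) (nat_lit 4) (nat_lit 284) (nat_lit 271) (nat_lit 225)) (XT.nd (nat_lit 78) (nat_lit 76) (nat_lit 0) (XT.lf (nat_lit 0) (nat_lit 41951968387) (nat_lit 76) (nat_lit 6638076362) (nat_lit 152) (nat_lit 12234617937) (nat_lit 13) (nat_lit 5) (nat_lit 14) (nat_lit 5) (nat_lit 15) (nat_lit 4) (nat_lit 285) (nat_lit 271) (nat_lit 224)) (XT.lf (nat_lit 0) (nat_lit 12465092082) (nat_lit 76) (nat_lit 54466182024) (nat_lit 76) (nat_lit 93931379) (nat_lit 12) (nat_lit 4) (nat_lit 13) (nat_lit 5) (nat_lit 13) (nat_lit 4) (nat_lit 286) (nat_lit 271) (nat_lit 223)))))) (XT.nd (nat_lit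 390) (nat_lit 228) (nat_lit 0) (XT.nd (nat_lit 156) (nat_lit 76) (nat_lit 0) (XT.nd (nat_lit 78) (nat_lit 76) (nat_lit 0) (XT.lf (nat_lit 0) (nat_lit 13975503253) (nat_lit 152) (nat_lit 24333584371) (nat_lit 76) (nat_lit 35559279643) (nat_lit 11) (nat_lit 5) (nat_lit 13) (nat_lit 5) (nat_lit 12) (nat_lit 4) (nat_lit 287) (nat_lit 271) (nat_lit 222)) (XT.lf (nat_lit 0) (nat_lit 11428600814) (nat_lit 76) (nat_lit 19183981785) (nat_lit 152) (nat_lit 51054733253) (nat_lit 10) (nat_lit 5) (nat_lit 11) (nat_lit 5) (nat_lit 12) (nat_lit 4) (nat_lit 288) (nat_lit 271) (nat_lit 221))) (XT.nd (nat_lit 78) (nat_lit 76) (nat_lit 0) (XT.lf (nat_lit 0) (nat_lit 51187929274) (nat_lit 152) (nat_lit 35343855174) (nat_lit 0) (nat_lit 3887925528) (nat_lit 10) (nat_lit 5) (nat_lit 12) (nat_lit 4) (nat_lit 10) (nat_lit 4) (nat_lit 289) (nat_lit 271) (nat_lit 220)) (XT.nd (nat_lit 78) (nat_lit 0) (nat_lit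 0) (XT.lf (nat_lit 0) (nat_lit 4239104663) (nat_lit 76) (nat_lit 71694137594) (nat_lit 76) (nat_lit 24389179194) (nat_lit 9) (nat_lit 4) (nat_lit 10) (nat_lit 5) (nat_lit 10) (nat_lit 4) (nat_lit 290) (nat_lit 271) (nat_lit 219)) (XT.lf (nat_lit 0) (nat_lit 53722129927) (nat_lit 76) (nat_lit 52510658934) (nat_lit 76) (nat_lit 5201392139) (nat_lit 9) (nat_lit 4) (nat_lit 10) (nat_lit 5) (nat_lit 10) (nat_lit 4) (nat_lit 291) (nat_lit 271) (nat_lit 218))))) (XT.nd (nat_lit 156) (nat_lit 76) (nat_lit 0) (XT.nd (nat_lit 78) (nat_lit 76) (nat_lit 0) (XT.lf (nat_lit 0) (nat_lit 15358527025) (nat_lit 152) (nat_lit 14292180119) (nat_lit 76) (nat_lit 94457949068) (nat_lit 8) (nat_lit 5) (nat_lit 10) (nat_lit 5) (nat_lit 9) (nat_lit 4) (nat_lit 292) (nat_lit 271) (nat_lit 217)) (XT.lf (nat_lit 0) (nat_lit 38843485254) (nat_lit 76) (nat_lit 1230819975) (nat_lit 152) (nat_lit 98332189986) (nat_lit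 7) (nat_lit 5) (nat_lit 8) (nat_lit 5) (nat_lit 9) (nat_lit 4) (nat_lit 293) (nat_lit 271) (nat_lit 216))) (XT.nd (nat_lit 78) (nat_lit 76) (nat_lit 0) (XT.lf (nat_lit 0) (nat_lit 70578529591) (nat_lit 152) (nat_lit 54526839701) (nat_lit 0) (nat_lit 29431482782) (nat_lit 7) (nat_lit 5) (nat_lit 9) (nat_lit 4) (nat_lit 7) (nat_lit 4) (nat_lit 294) (nat_lit 271) (nat_lit 215)) (XT.nd (nat_lit 78) (nat_lit 76) (nat_lit 0) (XT.lf (nat_lit 0) (nat_lit 105713563377) (nat_lit 152) (nat_lit 2800551592) (nat_lit 0) (nat_lit 64564374533) (nat_lit 7) (nat_lit 5) (nat_lit 9) (nat_lit 4) (nat_lit 7) (nat_lit 4) (nat_lit 295) (nat_lit 271) (nat_lit 214)) (XT.lf (nat_lit 0) (nat_lit 62217926090) (nat_lit 76) (nat_lit 86474251079) (nat_lit 76) (nat_lit 45323199597) (nat_lit 6) (nat_lit 4) (nat_lit 7) (nat_lit 5) (nat_lit 7) (nat_lit 4) (nat_lit 296) (nat_lit 271) (nat_lit 213))))))))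
noncomputable def xc71 : XT := (XT.nd (nat_lit 1482) (nat_lit 0) (nat_lit 0) (XT.nd (nat_lit 702) (nat_lit 152) (nat_lit 0) (XT.nd (nat_lit 312) (nat_lit 76) (nat_lit 0) (XT.nd (nat_lit 156) (nat_lit 76) (nat_lit 0) (XT.nd (nat_lit 78) (nat_lit 76) (nat_lit 0) (XT.lf (nat_lit 0) (nat_lit 137298360281) (nat_lit 76) (nat_lit 60962787904) (nat_lit 76) (nat_lit 19810116738) (nat_lit 6) (nat_lit 4) (nat_lit 7) (nat_lit 5) (nat_lit 7) (nat_lit 4) (nat_lit 297) (nat_lit 271) (nat_lit 212)) (XT.lf (nat_lit 0) (nat_lit 8678930762) (nat_lit 152) (nat_lit 22494378450) (nat_lit 76) (nat_lit 214503423583) (nat_lit 5) (nat_lit 5) (nat_lit 7) (nat_lit 5) (nat_lit 6) (nat_lit 4) (nat_lit 298) (nat_lit 271) (nat_lit 211))) (XT.nd (nat_lit 78) (nat_lit 0) (nat_lit 0) (XT.lf (nat_lit 0) (nat_lit 41658622852) (nat_lit 152) (nat_lit 229414677224) (nat_lit 0) (nat_lit 5871401719) (nat_lit 4) (nat_lit 5) (nat_lit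 6) (nat_lit 4) (nat_lit 4) (nat_lit 4) (nat_lit 299) (nat_lit 271) (nat_lit 210)) (XT.lf (nat_lit 0) (nat_lit 82299336206) (nat_lit 152) (nat_lit 183685232283) (nat_lit 0) (nat_lit 46511189012) (nat_lit 4) (nat_lit 5) (nat_lit 6) (nat_lit 4) (nat_lit 4) (nat_lit 4) (nat_lit 300) (nat_lit 271) (nat_lit 209)))) (XT.nd (nat_lit 156) (nat_lit 76) (nat_lit 0) (XT.nd (nat_lit 78) (nat_lit 0) (nat_lit 0) (XT.lf (nat_lit 0) (nat_lit 129034234078) (nat_lit 152) (nat_lit 131100245524) (nat_lit 0) (nat_lit 93245281614) (nat_lit 4) (nat_lit 5) (nat_lit 6) (nat_lit 4) (nat_lit 4) (nat_lit 4) (nat_lit 301) (nat_lit 271) (nat_lit 208)) (XT.lf (nat_lit 0) (nat_lit 182777694906) (nat_lit 152) (nat_lit 70630880248) (nat_lit 0) (nat_lit 146988042208) (nat_lit 4) (nat_lit 5) (nat_lit 6) (nat_lit 4) (nat_lit 4) (nat_lit 4) (nat_lit 302) (nat_lit 271) (nat_lit 207))) (XT.nd (nat_lit 78) (nat_lit 76) (nat_lit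 0) (XT.lf (nat_lit 0) (nat_lit 244581221184) (nat_lit 152) (nat_lit 1094040179) (nat_lit 0) (nat_lit 208790959585) (nat_lit 4) (nat_lit 5) (nat_lit 6) (nat_lit 4) (nat_lit 4) (nat_lit 4) (nat_lit 303) (nat_lit 271) (nat_lit 206)) (XT.nd (nat_lit 78) (nat_lit 0) (nat_lit 0) (XT.lf (nat_lit 0) (nat_lit 86578604114) (nat_lit 76) (nat_lit 232660443591) (nat_lit 76) (nat_lit 196869652515) (nat_lit 3) (nat_lit 4) (nat_lit 4) (nat_lit 5) (nat_lit 4) (nat_lit 4) (nat_lit 304) (nat_lit 271) (nat_lit 205)) (XT.lf (nat_lit 0) (nat_lit 187522668235) (nat_lit 76) (nat_lit 217628868542) (nat_lit 76) (nat_lit 181837617050) (nat_lit 3) (nat_lit 4) (nat_lit 4) (nat_lit 5) (nat_lit 4) (nat_lit 4) (nat_lit 305) (nat_lit 271) (nat_lit 204)))))) (XT.nd (nat_lit 390) (nat_lit 152) (nat_lit 0) (XT.nd (nat_lit 156) (nat_lit 0) (nat_lit 0) (XT.nd (nat_lit 78) (nat_lit 0) (nat_lit 0) (XT.lf (nat_lit 0) (nat_lit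 303606227180) (nat_lit 76) (nat_lit 200343628648) (nat_lit 76) (nat_lit 164551976794) (nat_lit 3) (nat_lit 4) (nat_lit 4) (nat_lit 5) (nat_lit 4) (nat_lit 4) (nat_lit 306) (nat_lit 271) (nat_lit 203)) (XT.lf (nat_lit 0) (nat_lit 437100481014) (nat_lit 76) (nat_lit 180466534431) (nat_lit 76) (nat_lit 144674534437) (nat_lit 3) (nat_lit 4) (nat_lit 4) (nat_lit 5) (nat_lit 4) (nat_lit 4) (nat_lit 307) (nat_lit 271) (nat_lit 202))) (XT.nd (nat_lit 78) (nat_lit 0) (nat_lit 0) (XT.lf (nat_lit 0) (nat_lit 590617273834) (nat_lit 76) (nat_lit 157608686223) (nat_lit 76) (nat_lit 121816383498) (nat_lit 3) (nat_lit 4) (nat_lit 4) (nat_lit 5) (nat_lit 4) (nat_lit 4) (nat_lit 308) (nat_lit 271) (nat_lit 201)) (XT.nd (nat_lit 78) (nat_lit 0) (nat_lit 0) (XT.lf (nat_lit 0) (nat_lit 767160195065) (nat_lit 76) (nat_lit 131322865253) (nat_lit 76) (nat_lit 95530299285) (nat_lit 3) (nat_lit 4) (nat_lit 4)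 (nat_lit 5) (nat_lit 4) (nat_lit 4) (nat_lit 309) (nat_lit 271) (nat_lit 200)) (XT.lf (nat_lit 0) (nat_lit 970183345340) (nat_lit 76) (nat_lit 101094783722) (nat_lit 76) (nat_lit 65301988845) (nat_lit 3) (nat_lit 4) (nat_lit 4) (nat_lit 5) (nat_lit 4) (nat_lit 4) (nat_lit 310) (nat_lit 271) (nat_lit 199))))) (XT.nd (nat_lit 156) (nat_lit 76) (nat_lit 0) (XT.nd (nat_lit 78) (nat_lit 76) (nat_lit 0) (XT.lf (nat_lit 0) (nat_lit 1203658916730) (nat_lit 76) (nat_lit 66333022641) (nat_lit 76) (nat_lit 30540028714) (nat_lit 3) (nat_lit 4) (nat_lit 4) (nat_lit 5) (nat_lit 4) (nat_lit 4) (nat_lit 311) (nat_lit 271) (nat_lit 198)) (XT.lf (nat_lit 0) (nat_lit 8595674580) (nat_lit 152) (nat_lit 17312466666) (nat_lit 76) (nat_lit 1463109915610) (nat_lit 2) (nat_lit 5) (nat_lit 4) (nat_lit 5) (nat_lit 3) (nat_lit 4) (nat_lit 312) (nat_lit 271) (nat_lit 197))) (XT.nd (nat_lit 78) (nat_lit 0) (nat_lit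 0) (XT.lf (nat_lit 0) (nat_lit 54859227110) (nat_lit 152) (nat_lit 1626307454158) (nat_lit 0) (nat_lit 23734603175) (nat_lit 1) (nat_lit 5) (nat_lit 3) (nat_lit 4) (nat_lit 1) (nat_lit 4) (nat_lit 313) (nat_lit 271) (nat_lit 196)) (XT.nd (nat_lit 78) (nat_lit 0) (nat_lit 0) (XT.lf (nat_lit 0) (nat_lit 110243689797) (nat_lit 152) (nat_lit 1763477147907) (nat_lit 0) (nat_lit 79118952054) (nat_lit 1) (nat_lit 5) (nat_lit 3) (nat_lit 4) (nat_lit 1) (nat_lit 4) (nat_lit 314) (nat_lit 271) (nat_lit 195)) (XT.lf (nat_lit 0) (nat_lit 173935467639) (nat_lit 152) (nat_lit 1921223025593) (nat_lit 0) (nat_lit 142810630933) (nat_lit 1) (nat_lit 5) (nat_lit 3) (nat_lit 4) (nat_lit 1) (nat_lit 4) (nat_lit 315) (nat_lit 271) (nat_lit 194))))))) (XT.nd (nat_lit 780) (nat_lit 0) (nat_lit 0) (XT.nd (nat_lit 390) (nat_lit 0) (nat_lit 0) (XT.nd (nat_lit 156) (nat_lit 0) (nat_lit 0) (XT.nd (nat_lit 78) (nat_lit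 0) (nat_lit 0) (XT.lf (nat_lit 0) (nat_lit 247180704115) (nat_lit 152) (nat_lit 2102631419606) (nat_lit 0) (nat_lit 216055781354) (nat_lit 1) (nat_lit 5) (nat_lit 3) (nat_lit 4) (nat_lit 1) (nat_lit 4) (nat_lit 316) (nat_lit 271) (nat_lit 193)) (XT.lf (nat_lit 0) (nat_lit 331412458200) (nat_lit 152) (nat_lit 2311251624611) (nat_lit 0) (nat_lit 300287460609) (nat_lit 1) (nat_lit 5) (nat_lit 3) (nat_lit 4) (nat_lit 1) (nat_lit 4) (nat_lit 317) (nat_lit 271) (nat_lit 192))) (XT.nd (nat_lit 78) (nat_lit 0) (nat_lit 0) (XT.lf (nat_lit 0) (nat_lit 428278742474) (nat_lit 152) (nat_lit 2551165340272) (nat_lit 0) (nat_lit 397153679813) (nat_lit 1) (nat_lit 5) (nat_lit 3) (nat_lit 4) (nat_lit 1) (nat_lit 4) (nat_lit 318) (nat_lit 271) (nat_lit 191)) (XT.nd (nat_lit 78) (nat_lit 0) (nat_lit 0) (XT.lf (nat_lit 0) (nat_lit 539674766846) (nat_lit 152) (nat_lit 2827066530591) (nat_lit 0) (nat_lit 508549647603)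 (nat_lit 1) (nat_lit 5) (nat_lit 3) (nat_lit 4) (nat_lit 1) (nat_lit 4) (nat_lit 319) (nat_lit 271) (nat_lit 190)) (XT.lf (nat_lit 0) (nat_lit 667780018751) (nat_lit 152) (nat_lit 3144353262335) (nat_lit 0) (nat_lit 636654850305) (nat_lit 1) (nat_lit 5) (nat_lit 3) (nat_lit 4) (nat_lit 1) (nat_lit 4) (nat_lit 320) (nat_lit 271) (nat_lit 189))))) (XT.nd (nat_lit 156) (nat_lit 0) (nat_lit 0) (XT.nd (nat_lit 78) (nat_lit 0) (nat_lit 0) (XT.lf (nat_lit 0) (nat_lit 815100905290) (nat_lit 152) (nat_lit 3509233319385) (nat_lit 0) (nat_lit 783975694060) (nat_lit 1) (nat_lit 5) (nat_lit 3) (nat_lit 4) (nat_lit 1) (nat_lit 4) (nat_lit 321) (nat_lit 271) (nat_lit 188)) (XT.lf (nat_lit 0) (nat_lit 984519791635) (nat_lit 152) (nat_lit 3928845659380) (nat_lit 0) (nat_lit 953394543201) (nat_lit 1) (nat_lit 5) (nat_lit 3) (nat_lit 4) (nat_lit 1) (nat_lit 4) (nat_lit 322) (nat_lit 271) (nat_lit 187)))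 (XT.nd (nat_lit 78) (nat_lit 0) (nat_lit 0) (XT.lf (nat_lit 0) (nat_lit 1179351395127) (nat_lit 152) (nat_lit 4411400088972) (nat_lit 0) (nat_lit 1148226114342) (nat_lit 1) (nat_lit 5) (nat_lit 3) (nat_lit 4) (nat_lit 1) (nat_lit 4) (nat_lit 323) (nat_lit 271) (nat_lit 186)) (XT.nd (nat_lit 78) (nat_lit 0) (nat_lit 0) (XT.lf (nat_lit 0) (nat_lit 1403407638444) (nat_lit 152) (nat_lit 4966337890478) (nat_lit 0) (nat_lit 1372282329527) (nat_lit 1) (nat_lit 5) (nat_lit 3) (nat_lit 4) (nat_lit 1) (nat_lit 4) (nat_lit 324) (nat_lit 271) (nat_lit 185)) (XT.lf (nat_lit 0) (nat_lit 1661072230693) (nat_lit 152) (nat_lit 5604516542625) (nat_lit 0) (nat_lit 1629946897314) (nat_lit 1) (nat_lit 5) (nat_lit 3) (nat_lit 4) (nat_lit 1) (nat_lit 4) (nat_lit 325) (nat_lit 271) (nat_lit 184)))))) (XT.nd (nat_lit 390) (nat_lit 0) (nat_lit 0) (XT.nd (nat_lit 156) (nat_lit 0) (nat_lit 0) (XT.nd (nat_lit 78)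 (nat_lit 0) (nat_lit 0) (XT.lf (nat_lit 0) (nat_lit 1957386435637) (nat_lit 152) (nat_lit 6338422149475) (nat_lit 0) (nat_lit 1926261080986) (nat_lit 1) (nat_lit 5) (nat_lit 3) (nat_lit 4) (nat_lit 1) (nat_lit 4) (nat_lit 326) (nat_lit 271) (nat_lit 183)) (XT.lf (nat_lit 0) (nat_lit 2298147705111) (nat_lit 152) (nat_lit 7182413733772) (nat_lit 0) (nat_lit 2267022331963) (nat_lit 1) (nat_lit 5) (nat_lit 3) (nat_lit 4) (nat_lit 1) (nat_lit 4) (nat_lit 327) (nat_lit 271) (nat_lit 182))) (XT.nd (nat_lit 78) (nat_lit 0) (nat_lit 0) (XT.lf (nat_lit 0) (nat_lit 2690023107430) (nat_lit 152) (nat_lit 8153004174339) (nat_lit 0) (nat_lit 2658897718198) (nat_lit 1) (nat_lit 5) (nat_lit 3) (nat_lit 4) (nat_lit 1) (nat_lit 4) (nat_lit 328) (nat_lit 271) (nat_lit 181)) (XT.nd (nat_lit 78) (nat_lit 0) (nat_lit 0) (XT.lf (nat_lit 0) (nat_lit 3140679770032) (nat_lit 152) (nat_lit 9269183284143) (nat_lit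 0) (nat_lit 3109554366814) (nat_lit 1) (nat_lit 5) (nat_lit 3) (nat_lit 4) (nat_lit 1) (nat_lit 4) (nat_lit 329) (nat_lit 271) (nat_lit 180)) (XT.lf (nat_lit 0) (nat_lit 3658934888489) (nat_lit 152) (nat_lit 10552789350115) (nat_lit 0) (nat_lit 3627809473109) (nat_lit 1) (nat_lit 5) (nat_lit 3) (nat_lit 4) (nat_lit 1) (nat_lit 4) (nat_lit 330) (nat_lit 271) (nat_lit 179))))) (XT.nd (nat_lit 156) (nat_lit 0) (nat_lit 0) (XT.nd (nat_lit 78) (nat_lit 0) (nat_lit 0) (XT.lf (nat_lit 0) (nat_lit 4254928236859) (nat_lit 152) (nat_lit 12028936403980) (nat_lit 0) (nat_lit 4223802810903) (nat_lit 1) (nat_lit 5) (nat_lit 3) (nat_lit 4) (nat_lit 1) (nat_lit 4) (nat_lit 331) (nat_lit 271) (nat_lit 178)) (XT.lf (nat_lit 0) (nat_lit 4940320554564) (nat_lit 152) (nat_lit 13726505583750) (nat_lit 0) (nat_lit 4909195119412) (nat_lit 1) (nat_lit 5) (nat_lit 3) (nat_lit 4) (nat_lit 1) (nat_lit 4) (nat_lit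 332) (nat_lit 271) (nat_lit 177))) (XT.nd (nat_lit 78) (nat_lit 0) (nat_lit 0) (XT.lf (nat_lit 0) (nat_lit 5728521691301) (nat_lit 152) (nat_lit 15678710199463) (nat_lit 0) (nat_lit 5697396248152) (nat_lit 1) (nat_lit 5) (nat_lit 3) (nat_lit 4) (nat_lit 1) (nat_lit 4) (nat_lit 333) (nat_lit 271) (nat_lit 176)) (XT.nd (nat_lit 78) (nat_lit 0) (nat_lit 0) (XT.lf (nat_lit 0) (nat_lit 6634952973656) (nat_lit 152) (nat_lit 17923745558818) (nat_lit 0) (nat_lit 6603827523554) (nat_lit 1) (nat_lit 5) (nat_lit 3) (nat_lit 4) (nat_lit 1) (nat_lit 4) (nat_lit 334) (nat_lit 271) (nat_lit 175)) (XT.lf (nat_lit 0) (nat_lit 7677348926721) (nat_lit 152) (nat_lit 20505536266672) (nat_lit 0) (nat_lit 7646223470571) (nat_lit 1) (nat_lit 5) (nat_lit 3) (nat_lit 4) (nat_lit 1) (nat_lit 4) (nat_lit 335) (nat_lit 271) (nat_lit 174))))))))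
noncomputable def xc72 : XT := (XT.nd (nat_lit 36504) (nat_lit 0) (nat_lit 228) (XT.nd (nat_lit 35724) (nat_lit 0) (nat_lit 1140) (XT.nd (nat_lit 312) (nat_lit 0) (nat_lit 0) (XT.nd (nat_lit 156) (nat_lit 0) (nat_lit 0) (XT.nd (nat_lit 78) (nat_lit 0) (nat_lit 0) (XT.lf (nat_lit 0) (nat_lit 8876104253923) (nat_lit 152) (nat_lit 23474595619482) (nat_lit 0) (nat_lit 8844978792516) (nat_lit 1) (nat_lit 5) (nat_lit 3) (nat_lit 4) (nat_lit 1) (nat_lit 4) (nat_lit 336) (nat_lit 271) (nat_lit 173)) (XT.lf (nat_lit 0) (nat_lit 10254672863839) (nat_lit 152) (nat_lit 26889013908935) (nat_lit 0) (nat_lit 10223547397860) (nat_lit 1) (nat_lit 5) (nat_lit 3) (nat_lit 4) (nat_lit 1) (nat_lit 4) (nat_lit 337) (nat_lit 271) (nat_lit 172))) (XT.nd (nat_lit 78) (nat_lit 0) (nat_lit 0) (XT.lf (nat_lit 0) (nat_lit 11840026751012) (nat_lit 152) (nat_lit 30815594971128) (nat_lit 0) (nat_lit 11808901281056)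 (nat_lit 1) (nat_lit 5) (nat_lit 3) (nat_lit 4) (nat_lit 1) (nat_lit 4) (nat_lit 338) (nat_lit 271) (nat_lit 171)) (XT.lf (nat_lit 0) (nat_lit 13663183708884) (nat_lit 152) (nat_lit 35331163218148) (nat_lit 0) (nat_lit 13632058235472) (nat_lit 1) (nat_lit 5) (nat_lit 3) (nat_lit 4) (nat_lit 1) (nat_lit 4) (nat_lit 339) (nat_lit 271) (nat_lit 170)))) (XT.nd (nat_lit 156) (nat_lit 0) (nat_lit 0) (XT.nd (nat_lit 78) (nat_lit 0) (nat_lit 0) (XT.lf (nat_lit 0) (nat_lit 15759814199676) (nat_lit 152) (nat_lit 40524066724392) (nat_lit 0) (nat_lit 15728688723258) (nat_lit 1) (nat_lit 5) (nat_lit 3) (nat_lit 4) (nat_lit 1) (nat_lit 4) (nat_lit 340) (nat_lit 271) (nat_lit 169)) (XT.lf (nat_lit 0) (nat_lit 18170939254730) (nat_lit 152) (nat_lit 46495905775853) (nat_lit 0) (nat_lit 18139813775697) (nat_lit 1) (nat_lit 5) (nat_lit 3) (nat_lit 4) (nat_lit 1) (nat_lit 4) (nat_lit 341) (nat_lit 271) (nat_lit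 168))) (XT.nd (nat_lit 78) (nat_lit 0) (nat_lit 0) (XT.lf (nat_lit 0) (nat_lit 20943733059904) (nat_lit 152) (nat_lit 53363520701798) (nat_lit 0) (nat_lit 20912607578598) (nat_lit 1) (nat_lit 5) (nat_lit 3) (nat_lit 4) (nat_lit 1) (nat_lit 4) (nat_lit 342) (nat_lit 271) (nat_lit 167)) (XT.nd (nat_lit 35100) (nat_lit 0) (nat_lit 1596) (XT.lf (nat_lit 0) (nat_lit 24132445928779) (nat_lit 152) (nat_lit 61261277881214) (nat_lit 0) (nat_lit 24101320445496) (nat_lit 1) (nat_lit 5) (nat_lit 3) (nat_lit 4) (nat_lit 1) (nat_lit 4) (nat_lit 343) (nat_lit 271) (nat_lit 166)) (XT.lf (nat_lit 0) (nat_lit 1456734702) (nat_lit 380) (nat_lit 4740127166) (nat_lit 380) (nat_lit 4740127166) (nat_lit 22) (nat_lit 3) (nat_lit 27) (nat_lit 3) (nat_lit 27) (nat_lit 5) (nat_lit 272) (nat_lit 272) (nat_lit 236)))))) (XT.nd (nat_lit 390) (nat_lit 304) (nat_lit 0) (XT.nd (nat_lit 156) (nat_lit 152) (nat_lit 0)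 (XT.nd (nat_lit 78) (nat_lit 0) (nat_lit 76) (XT.lf (nat_lit 76) (nat_lit 814034449) (nat_lit 0) (nat_lit 2476868847) (nat_lit 380) (nat_lit 20199308297) (nat_lit 23) (nat_lit 5) (nat_lit 22) (nat_lit 3) (nat_lit 27) (nat_lit 5) (nat_lit 273) (nat_lit 272) (nat_lit 235)) (XT.lf (nat_lit 0) (nat_lit 4591261271) (nat_lit 304) (nat_lit 11967894532) (nat_lit 380) (nat_lit 8659862796) (nat_lit 23) (nat_lit 5) (nat_lit 27) (nat_lit 5) (nat_lit 28) (nat_lit 5) (nat_lit 274) (nat_lit 272) (nat_lit 234))) (XT.nd (nat_lit 78) (nat_lit 228) (nat_lit 0) (XT.lf (nat_lit 76) (nat_lit 233852461) (nat_lit 0) (nat_lit 5960869848) (nat_lit 380) (nat_lit 20996290685) (nat_lit 24) (nat_lit 5) (nat_lit 23) (nat_lit 5) (nat_lit 28) (nat_lit 5) (nat_lit 275) (nat_lit 272) (nat_lit 233)) (XT.nd (nat_lit 78) (nat_lit 304) (nat_lit 0) (XT.lf (nat_lit 0) (nat_lit 8934407803) (nat_lit 304) (nat_lit 14059483795)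 (nat_lit 76) (nat_lit 6330623277) (nat_lit 24) (nat_lit 5) (nat_lit 28) (nat_lit 5) (nat_lit 25) (nat_lit 5) (nat_lit 276) (nat_lit 272) (nat_lit 232)) (XT.lf (nat_lit 0) (nat_lit 519826411) (nat_lit 304) (nat_lit 11855349665) (nat_lit 380) (nat_lit 19359402230) (nat_lit 20) (nat_lit 5) (nat_lit 24) (nat_lit 5) (nat_lit 25) (nat_lit 5) (nat_lit 277) (nat_lit 272) (nat_lit 231))))) (XT.nd (nat_lit 156) (nat_lit 152) (nat_lit 0) (XT.nd (nat_lit 78) (nat_lit 152) (nat_lit 0) (XT.lf (nat_lit 0) (nat_lit 17127581652) (nat_lit 380) (nat_lit 15621119226) (nat_lit 76) (nat_lit 1638170549) (nat_lit 20) (nat_lit 5) (nat_lit 25) (nat_lit 5) (nat_lit 21) (nat_lit 5) (nat_lit 278) (nat_lit 272) (nat_lit 230)) (XT.lf (nat_lit 0) (nat_lit 1901678489) (nat_lit 152) (nat_lit 21322363998) (nat_lit 228) (nat_lit 14118329028) (nat_lit 18) (nat_lit 5) (nat_lit 20) (nat_lit 5) (nat_lit 21) (nat_lit 5) (nat_lit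 279) (nat_lit 272) (nat_lit 229))) (XT.nd (nat_lit 78) (nat_lit 152) (nat_lit 0) (XT.lf (nat_lit 0) (nat_lit 23794522140) (nat_lit 152) (nat_lit 7245916691) (nat_lit 228) (nat_lit 9579974491) (nat_lit 18) (nat_lit 5) (nat_lit 20) (nat_lit 5) (nat_lit 21) (nat_lit 5) (nat_lit 280) (nat_lit 272) (nat_lit 228)) (XT.nd (nat_lit 78) (nat_lit 76) (nat_lit 0) (XT.lf (nat_lit 0) (nat_lit 4607529366) (nat_lit 76) (nat_lit 35973073174) (nat_lit 152) (nat_lit 3726894554) (nat_lit 17) (nat_lit 5) (nat_lit 18) (nat_lit 5) (nat_lit 19) (nat_lit 4) (nat_lit 281) (nat_lit 272) (nat_lit 227)) (XT.lf (nat_lit 0) (nat_lit 3993692361) (nat_lit 152) (nat_lit 17793932082) (nat_lit 76) (nat_lit 26552834550) (nat_lit 16) (nat_lit 5) (nat_lit 18) (nat_lit 5) (nat_lit 17) (nat_lit 5) (nat_lit 282) (nat_lit 272) (nat_lit 226))))))) (XT.nd (nat_lit 780) (nat_lit 380) (nat_lit 0) (XT.nd (nat_lit 390) (nat_lit 228)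 (nat_lit 0) (XT.nd (nat_lit 156) (nat_lit 152) (nat_lit 0) (XT.nd (nat_lit 78) (nat_lit 0) (nat_lit 0) (XT.lf (nat_lit 0) (nat_lit 7912950211) (nat_lit 152) (nat_lit 4897280710) (nat_lit 228) (nat_lit 40093620550) (nat_lit 14) (nat_lit 5) (nat_lit 16) (nat_lit 5) (nat_lit 17) (nat_lit 5) (nat_lit 283) (nat_lit 272) (nat_lit 225)) (XT.lf (nat_lit 0) (nat_lit 24517401262) (nat_lit 228) (nat_lit 19194888763) (nat_lit 76) (nat_lit 14204258374) (nat_lit 14) (nat_lit 5) (nat_lit 17) (nat_lit 5) (nat_lit 15) (nat_lit 4) (nat_lit 284) (nat_lit 272) (nat_lit 224))) (XT.nd (nat_lit 78) (nat_lit 76) (nat_lit 0) (XT.lf (nat_lit 0) (nat_lit 11225847533) (nat_lit 76) (nat_lit 27446063828) (nat_lit 152) (nat_lit 24905564724) (nat_lit 13) (nat_lit 5) (nat_lit 14) (nat_lit 5) (nat_lit 15) (nat_lit 4) (nat_lit 285) (nat_lit 272) (nat_lit 223)) (XT.nd (nat_lit 78) (nat_lit 76) (nat_lit 0) (XT.lf (nat_lit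 0) (nat_lit 48356555615) (nat_lit 76) (nat_lit 7590087682) (nat_lit 152) (nat_lit 13991356611) (nat_lit 13) (nat_lit 5) (nat_lit 14) (nat_lit 5) (nat_lit 15) (nat_lit 4) (nat_lit 286) (nat_lit 272) (nat_lit 222)) (XT.lf (nat_lit 0) (nat_lit 14449730306) (nat_lit 76) (nat_lit 62586775416) (nat_lit 76) (nat_lit 32520463) (nat_lit 12) (nat_lit 4) (nat_lit 13) (nat_lit 5) (nat_lit 13) (nat_lit 4) (nat_lit 287) (nat_lit 272) (nat_lit 221))))) (XT.nd (nat_lit 156) (nat_lit 76) (nat_lit 0) (XT.nd (nat_lit 78) (nat_lit 76) (nat_lit 0) (XT.lf (nat_lit 0) (nat_lit 16131636599) (nat_lit 152) (nat_lit 27877788795) (nat_lit 76) (nat_lit 40930128205) (nat_lit 11) (nat_lit 5) (nat_lit 13) (nat_lit 5) (nat_lit 12) (nat_lit 4) (nat_lit 288) (nat_lit 272) (nat_lit 220)) (XT.lf (nat_lit 0) (nat_lit 13243913566) (nat_lit 76) (nat_lit 22016746388) (nat_lit 152) (nat_lit 58648239931) (nat_lit 10) (nat_lit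 5) (nat_lit 11) (nat_lit 5) (nat_lit 12) (nat_lit 4) (nat_lit 289) (nat_lit 272) (nat_lit 219))) (XT.nd (nat_lit 78) (nat_lit 76) (nat_lit 0) (XT.lf (nat_lit 0) (nat_lit 58916593786) (nat_lit 152) (nat_lit 40551799057) (nat_lit 0) (nat_lit 4506628577) (nat_lit 10) (nat_lit 5) (nat_lit 12) (nat_lit 4) (nat_lit 10) (nat_lit 4) (nat_lit 290) (nat_lit 272) (nat_lit 218)) (XT.nd (nat_lit 78) (nat_lit 0) (nat_lit 0) (XT.lf (nat_lit 0) (nat_lit 4964348646) (nat_lit 76) (nat_lit 82406472323) (nat_lit 76) (nat_lit 27992760683) (nat_lit 9) (nat_lit 4) (nat_lit 10) (nat_lit 5) (nat_lit 10) (nat_lit 4) (nat_lit 291) (nat_lit 272) (nat_lit 217)) (XT.lf (nat_lit 0) (nat_lit 61858169662) (nat_lit 76) (nat_lit 60350922200) (nat_lit 76) (nat_lit 5933952795) (nat_lit 9) (nat_lit 4) (nat_lit 10) (nat_lit 5) (nat_lit 10) (nat_lit 4) (nat_lit 292) (nat_lit 272) (nat_lit 216)))))) (XT.nd (nat_lit 390) (nat_lit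 152) (nat_lit 0) (XT.nd (nat_lit 156) (nat_lit 76) (nat_lit 0) (XT.nd (nat_lit 78) (nat_lit 76) (nat_lit 0) (XT.lf (nat_lit 0) (nat_lit 17700050598) (nat_lit 152) (nat_lit 16364693459) (nat_lit 76) (nat_lit 108654506725) (nat_lit 8) (nat_lit 5) (nat_lit 10) (nat_lit 5) (nat_lit 9) (nat_lit 4) (nat_lit 293) (nat_lit 272) (nat_lit 215)) (XT.lf (nat_lit 0) (nat_lit 44738080190) (nat_lit 76) (nat_lit 1383010867) (nat_lit 152) (nat_lit 113040995752) (nat_lit 7) (nat_lit 5) (nat_lit 8) (nat_lit 5) (nat_lit 9) (nat_lit 4) (nat_lit 294) (nat_lit 272) (nat_lit 214))) (XT.nd (nat_lit 78) (nat_lit 76) (nat_lit 0) (XT.lf (nat_lit 0) (nat_lit 81197468149) (nat_lit 152) (nat_lit 62643159662) (nat_lit 0) (nat_lit 33871896308) (nat_lit 7) (nat_lit 5) (nat_lit 9) (nat_lit 4) (nat_lit 7) (nat_lit 4) (nat_lit 295) (nat_lit 272) (nat_lit 213)) (XT.nd (nat_lit 78) (nat_lit 76) (nat_lit 0) (XT.lf (nat_lit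 0) (nat_lit 121598562335) (nat_lit 152) (nat_lit 3166107379) (nat_lit 0) (nat_lit 74271370808) (nat_lit 7) (nat_lit 5) (nat_lit 9) (nat_lit 4) (nat_lit 7) (nat_lit 4) (nat_lit 296) (nat_lit 272) (nat_lit 212)) (XT.lf (nat_lit 0) (nat_lit 71602663457) (nat_lit 76) (nat_lit 99419812417) (nat_lit 76) (nat_lit 52091212467) (nat_lit 6) (nat_lit 4) (nat_lit 7) (nat_lit 5) (nat_lit 7) (nat_lit 4) (nat_lit 297) (nat_lit 272) (nat_lit 211))))) (XT.nd (nat_lit 156) (nat_lit 76) (nat_lit 0) (XT.nd (nat_lit 78) (nat_lit 76) (nat_lit 0) (XT.lf (nat_lit 0) (nat_lit 157938373848) (nat_lit 76) (nat_lit 70084965808) (nat_lit 76) (nat_lit 22755141144) (nat_lit 6) (nat_lit 4) (nat_lit 7) (nat_lit 5) (nat_lit 7) (nat_lit 4) (nat_lit 298) (nat_lit 272) (nat_lit 210)) (XT.lf (nat_lit 0) (nat_lit 10001756901) (nat_lit 152) (nat_lit 25827112294) (nat_lit 76) (nat_lit 246696209681) (nat_lit 5) (nat_lit 5) (nat_lit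 7) (nat_lit 5) (nat_lit 6) (nat_lit 4) (nat_lit 299) (nat_lit 272) (nat_lit 209))) (XT.nd (nat_lit 78) (nat_lit 0) (nat_lit 0) (XT.lf (nat_lit 0) (nat_lit 47928116518) (nat_lit 152) (nat_lit 263785155805) (nat_lit 0) (nat_lit 6770015915) (nat_lit 4) (nat_lit 5) (nat_lit 6) (nat_lit 4) (nat_lit 4) (nat_lit 4) (nat_lit 300) (nat_lit 272) (nat_lit 208)) (XT.nd (nat_lit 78) (nat_lit 0) (nat_lit 0) (XT.lf (nat_lit 0) (nat_lit 94662236844) (nat_lit 152) (nat_lit 211201736254) (nat_lit 0) (nat_lit 53503436006) (nat_lit 4) (nat_lit 5) (nat_lit 6) (nat_lit 4) (nat_lit 4) (nat_lit 4) (nat_lit 301) (nat_lit 272) (nat_lit 207)) (XT.lf (nat_lit 0) (nat_lit 148405021544) (nat_lit 152) (nat_lit 150733733768) (nat_lit 0) (nat_lit 107245611806) (nat_lit 4) (nat_lit 5) (nat_lit 6) (nat_lit 4) (nat_lit 4) (nat_lit 4) (nat_lit 302) (nat_lit 272) (nat_lit 206))))))))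
noncomputable def xc73 : XT := (XT.nd (nat_lit 1482) (nat_lit 0) (nat_lit 0) (XT.nd (nat_lit 702) (nat_lit 152) (nat_lit 0) (XT.nd (nat_lit 312) (nat_lit 0) (nat_lit 0) (XT.nd (nat_lit 156) (nat_lit 76) (nat_lit 0) (XT.nd (nat_lit 78) (nat_lit 0) (nat_lit 0) (XT.lf (nat_lit 0) (nat_lit 210207959884) (nat_lit 152) (nat_lit 81198078734) (nat_lit 0) (nat_lit 169048020669) (nat_lit 4) (nat_lit 5) (nat_lit 6) (nat_lit 4) (nat_lit 4) (nat_lit 4) (nat_lit 303) (nat_lit 272) (nat_lit 205)) (XT.lf (nat_lit 0) (nat_lit 281280239789) (nat_lit 152) (nat_lit 1234290944) (nat_lit 0) (nat_lit 240119840158) (nat_lit 4) (nat_lit 5) (nat_lit 6) (nat_lit 4) (nat_lit 4) (nat_lit 4) (nat_lit 304) (nat_lit 272) (nat_lit 204))) (XT.nd (nat_lit 78) (nat_lit 0) (nat_lit 0) (XT.lf (nat_lit 0) (nat_lit 99588165663) (nat_lit 76) (nat_lit 267547973770) (nat_lit 76) (nat_lit 226387173777) (nat_lit 3) (nat_lit 4) (nat_lit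 4) (nat_lit 5) (nat_lit 4) (nat_lit 4) (nat_lit 305) (nat_lit 272) (nat_lit 203)) (XT.lf (nat_lit 0) (nat_lit 215670869281) (nat_lit 76) (nat_lit 250263167206) (nat_lit 76) (nat_lit 209102019073) (nat_lit 3) (nat_lit 4) (nat_lit 4) (nat_lit 5) (nat_lit 4) (nat_lit 4) (nat_lit 306) (nat_lit 272) (nat_lit 202)))) (XT.nd (nat_lit 156) (nat_lit 0) (nat_lit 0) (XT.nd (nat_lit 78) (nat_lit 0) (nat_lit 0) (XT.lf (nat_lit 0) (nat_lit 349164379353) (nat_lit 76) (nat_lit 230386449800) (nat_lit 76) (nat_lit 189224998936) (nat_lit 3) (nat_lit 4) (nat_lit 4) (nat_lit 5) (nat_lit 4) (nat_lit 4) (nat_lit 307) (nat_lit 272) (nat_lit 201)) (XT.lf (nat_lit 0) (nat_lit 502680525423) (nat_lit 76) (nat_lit 207528929252) (nat_lit 76) (nat_lit 166367215144) (nat_lit 3) (nat_lit 4) (nat_lit 4) (nat_lit 5) (nat_lit 4) (nat_lit 4) (nat_lit 308) (nat_lit 272) (nat_lit 200))) (XT.nd (nat_lit 78) (nat_lit 0) (nat_lit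 0) (XT.lf (nat_lit 0) (nat_lit 679222884263) (nat_lit 76) (nat_lit 181243393205) (nat_lit 76) (nat_lit 140081450189) (nat_lit 3) (nat_lit 4) (nat_lit 4) (nat_lit 5) (nat_lit 4) (nat_lit 4) (nat_lit 309) (nat_lit 272) (nat_lit 199)) (XT.nd (nat_lit 78) (nat_lit 0) (nat_lit 0) (XT.lf (nat_lit 0) (nat_lit 882245545503) (nat_lit 76) (nat_lit 151015559432) (nat_lit 76) (nat_lit 109853417366) (nat_lit 3) (nat_lit 4) (nat_lit 4) (nat_lit 5) (nat_lit 4) (nat_lit 4) (nat_lit 310) (nat_lit 272) (nat_lit 198)) (XT.lf (nat_lit 0) (nat_lit 1115720691644) (nat_lit 76) (nat_lit 116254013794) (nat_lit 76) (nat_lit 75091698640) (nat_lit 3) (nat_lit 4) (nat_lit 4) (nat_lit 5) (nat_lit 4) (nat_lit 4) (nat_lit 311) (nat_lit 272) (nat_lit 197)))))) (XT.nd (nat_lit 390) (nat_lit 0) (nat_lit 0) (XT.nd (nat_lit 156) (nat_lit 76) (nat_lit 0) (XT.nd (nat_lit 78) (nat_lit 76) (nat_lit 0) (XT.lf (nat_lit 0) (nat_lit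 1384216314676) (nat_lit 76) (nat_lit 76278639093) (nat_lit 76) (nat_lit 35116173428) (nat_lit 3) (nat_lit 4) (nat_lit 4) (nat_lit 5) (nat_lit 4) (nat_lit 4) (nat_lit 312) (nat_lit 272) (nat_lit 196)) (XT.lf (nat_lit 0) (nat_lit 9888875296) (nat_lit 152) (nat_lit 19901514655) (nat_lit 76) (nat_lit 1682579796055) (nat_lit 2) (nat_lit 5) (nat_lit 4) (nat_lit 5) (nat_lit 3) (nat_lit 4) (nat_lit 313) (nat_lit 272) (nat_lit 195))) (XT.nd (nat_lit 78) (nat_lit 0) (nat_lit 0) (XT.lf (nat_lit 0) (nat_lit 63091925523) (nat_lit 152) (nat_lit 1870245713393) (nat_lit 0) (nat_lit 27298264348) (nat_lit 1) (nat_lit 5) (nat_lit 3) (nat_lit 4) (nat_lit 1) (nat_lit 4) (nat_lit 314) (nat_lit 272) (nat_lit 194)) (XT.nd (nat_lit 78) (nat_lit 0) (nat_lit 0) (XT.lf (nat_lit 0) (nat_lit 126783560089) (nat_lit 152) (nat_lit 2027991886276) (nat_lit 0) (nat_lit 90989812859) (nat_lit 1) (nat_lit 5) (nat_lit 3) (nat_lit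 4) (nat_lit 1) (nat_lit 4) (nat_lit 315) (nat_lit 272) (nat_lit 193)) (XT.lf (nat_lit 0) (nat_lit 200028671978) (nat_lit 152) (nat_lit 2209400536982) (nat_lit 0) (nat_lit 164234849918) (nat_lit 1) (nat_lit 5) (nat_lit 3) (nat_lit 4) (nat_lit 1) (nat_lit 4) (nat_lit 316) (nat_lit 272) (nat_lit 192))))) (XT.nd (nat_lit 156) (nat_lit 0) (nat_lit 0) (XT.nd (nat_lit 78) (nat_lit 0) (nat_lit 0) (XT.lf (nat_lit 0) (nat_lit 284260317726) (nat_lit 152) (nat_lit 2418020965199) (nat_lit 0) (nat_lit 248466430596) (nat_lit 1) (nat_lit 5) (nat_lit 3) (nat_lit 4) (nat_lit 1) (nat_lit 4) (nat_lit 317) (nat_lit 272) (nat_lit 191)) (XT.lf (nat_lit 0) (nat_lit 381126507795) (nat_lit 152) (nat_lit 2657934874957) (nat_lit 0) (nat_lit 345332564082) (nat_lit 1) (nat_lit 5) (nat_lit 3) (nat_lit 4) (nat_lit 1) (nat_lit 4) (nat_lit 318) (nat_lit 272) (nat_lit 190))) (XT.nd (nat_lit 78) (nat_lit 0) (nat_lit 0)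 (XT.lf (nat_lit 0) (nat_lit 492522450249) (nat_lit 152) (nat_lit 2933836234056) (nat_lit 0) (nat_lit 456728457334) (nat_lit 1) (nat_lit 5) (nat_lit 3) (nat_lit 4) (nat_lit 1) (nat_lit 4) (nat_lit 319) (nat_lit 272) (nat_lit 189)) (XT.nd (nat_lit 78) (nat_lit 0) (nat_lit 0) (XT.lf (nat_lit 0) (nat_lit 620627630921) (nat_lit 152) (nat_lit 3251123112565) (nat_lit 0) (nat_lit 584833595221) (nat_lit 1) (nat_lit 5) (nat_lit 3) (nat_lit 4) (nat_lit 1) (nat_lit 4) (nat_lit 320) (nat_lit 272) (nat_lit 188)) (XT.lf (nat_lit 0) (nat_lit 767948455518) (nat_lit 152) (nat_lit 3616003297237) (nat_lit 0) (nat_lit 732154382615) (nat_lit 1) (nat_lit 5) (nat_lit 3) (nat_lit 4) (nat_lit 1) (nat_lit 4) (nat_lit 321) (nat_lit 272) (nat_lit 187))))))) (XT.nd (nat_lit 780) (nat_lit 0) (nat_lit 0) (XT.nd (nat_lit 390) (nat_lit 0) (nat_lit 0) (XT.nd (nat_lit 156) (nat_lit 0) (nat_lit 0) (XT.nd (nat_lit 78) (nat_lit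 0) (nat_lit 0) (XT.lf (nat_lit 0) (nat_lit 937367288000) (nat_lit 152) (nat_lit 4035615748208) (nat_lit 0) (nat_lit 901573182746) (nat_lit 1) (nat_lit 5) (nat_lit 3) (nat_lit 4) (nat_lit 1) (nat_lit 4) (nat_lit 322) (nat_lit 272) (nat_lit 186)) (XT.lf (nat_lit 0) (nat_lit 1132198844655) (nat_lit 152) (nat_lit 4518170274300) (nat_lit 0) (nat_lit 1096404711269) (nat_lit 1) (nat_lit 5) (nat_lit 3) (nat_lit 4) (nat_lit 1) (nat_lit 4) (nat_lit 323) (nat_lit 272) (nat_lit 185))) (XT.nd (nat_lit 78) (nat_lit 0) (nat_lit 0) (XT.lf (nat_lit 0) (nat_lit 1356255047244) (nat_lit 152) (nat_lit 5073108159720) (nat_lit 0) (nat_lit 1320460889396) (nat_lit 1) (nat_lit 5) (nat_lit 3) (nat_lit 4) (nat_lit 1) (nat_lit 4) (nat_lit 324) (nat_lit 272) (nat_lit 184)) (XT.nd (nat_lit 78) (nat_lit 0) (nat_lit 0) (XT.lf (nat_lit 0) (nat_lit 1613919604078) (nat_lit 152) (nat_lit 5711286884835) (nat_lit 0) (nat_lit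 1578125424959) (nat_lit 1) (nat_lit 5) (nat_lit 3) (nat_lit 4) (nat_lit 1) (nat_lit 4) (nat_lit 325) (nat_lit 272) (nat_lit 183)) (XT.lf (nat_lit 0) (nat_lit 1910233778226) (nat_lit 152) (nat_lit 6445192555136) (nat_lit 0) (nat_lit 1874439580609) (nat_lit 1) (nat_lit 5) (nat_lit 3) (nat_lit 4) (nat_lit 1) (nat_lit 4) (nat_lit 326) (nat_lit 272) (nat_lit 182))))) (XT.nd (nat_lit 156) (nat_lit 0) (nat_lit 0) (XT.nd (nat_lit 78) (nat_lit 0) (nat_lit 0) (XT.lf (nat_lit 0) (nat_lit 2250995020921) (nat_lit 152) (nat_lit 7289184194608) (nat_lit 0) (nat_lit 2215200807220) (nat_lit 1) (nat_lit 5) (nat_lit 3) (nat_lit 4) (nat_lit 1) (nat_lit 4) (nat_lit 327) (nat_lit 272) (nat_lit 181)) (XT.lf (nat_lit 0) (nat_lit 2642870399954) (nat_lit 152) (nat_lit 8259774683152) (nat_lit 0) (nat_lit 2607076172267) (nat_lit 1) (nat_lit 5) (nat_lit 3) (nat_lit 4) (nat_lit 1) (nat_lit 4) (nat_lit 328) (nat_lit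 272) (nat_lit 180))) (XT.nd (nat_lit 78) (nat_lit 0) (nat_lit 0) (XT.lf (nat_lit 0) (nat_lit 3093527042307) (nat_lit 152) (nat_lit 9375953834676) (nat_lit 0) (nat_lit 3057732802458) (nat_lit 1) (nat_lit 5) (nat_lit 3) (nat_lit 4) (nat_lit 1) (nat_lit 4) (nat_lit 329) (nat_lit 272) (nat_lit 179)) (XT.nd (nat_lit 78) (nat_lit 0) (nat_lit 0) (XT.lf (nat_lit 0) (nat_lit 3611782143156) (nat_lit 152) (nat_lit 10659559936926) (nat_lit 0) (nat_lit 3575987892731) (nat_lit 1) (nat_lit 5) (nat_lit 3) (nat_lit 4) (nat_lit 1) (nat_lit 4) (nat_lit 330) (nat_lit 272) (nat_lit 178)) (XT.lf (nat_lit 0) (nat_lit 4207775476214) (nat_lit 152) (nat_lit 12135707022338) (nat_lit 0) (nat_lit 4171981216593) (nat_lit 1) (nat_lit 5) (nat_lit 3) (nat_lit 4) (nat_lit 1) (nat_lit 4) (nat_lit 331) (nat_lit 272) (nat_lit 177)))))) (XT.nd (nat_lit 390) (nat_lit 0) (nat_lit 0) (XT.nd (nat_lit 156) (nat_lit 0) (nat_lit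 0) (XT.nd (nat_lit 78) (nat_lit 0) (nat_lit 0) (XT.lf (nat_lit 0) (nat_lit 4893167780606) (nat_lit 152) (nat_lit 13833276229539) (nat_lit 0) (nat_lit 4857373512988) (nat_lit 1) (nat_lit 5) (nat_lit 3) (nat_lit 4) (nat_lit 1) (nat_lit 4) (nat_lit 332) (nat_lit 272) (nat_lit 176)) (XT.lf (nat_lit 0) (nat_lit 5681368905765) (nat_lit 152) (nat_lit 15785480869105) (nat_lit 0) (nat_lit 5645574631194) (nat_lit 1) (nat_lit 5) (nat_lit 3) (nat_lit 4) (nat_lit 1) (nat_lit 4) (nat_lit 333) (nat_lit 272) (nat_lit 175))) (XT.nd (nat_lit 78) (nat_lit 0) (nat_lit 0) (XT.lf (nat_lit 0) (nat_lit 6587800178054) (nat_lit 152) (nat_lit 18030516249202) (nat_lit 0) (nat_lit 6552005897435) (nat_lit 1) (nat_lit 5) (nat_lit 3) (nat_lit 4) (nat_lit 1) (nat_lit 4) (nat_lit 334) (nat_lit 272) (nat_lit 174)) (XT.nd (nat_lit 78) (nat_lit 0) (nat_lit 0) (XT.lf (nat_lit 0) (nat_lit 7630196122364) (nat_lit 152) (nat_lit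 20612306975093) (nat_lit 0) (nat_lit 7594401836487) (nat_lit 1) (nat_lit 5) (nat_lit 3) (nat_lit 4) (nat_lit 1) (nat_lit 4) (nat_lit 335) (nat_lit 272) (nat_lit 173)) (XT.lf (nat_lit 0) (nat_lit 8828951441954) (nat_lit 152) (nat_lit 23581366343587) (nat_lit 0) (nat_lit 8793157151505) (nat_lit 1) (nat_lit 5) (nat_lit 3) (nat_lit 4) (nat_lit 1) (nat_lit 4) (nat_lit 336) (nat_lit 272) (nat_lit 172))))) (XT.nd (nat_lit 156) (nat_lit 0) (nat_lit 0) (XT.nd (nat_lit 78) (nat_lit 0) (nat_lit 0) (XT.lf (nat_lit 0) (nat_lit 10207520045251) (nat_lit 152) (nat_lit 26995784646678) (nat_lit 0) (nat_lit 10171725750827) (nat_lit 1) (nat_lit 5) (nat_lit 3) (nat_lit 4) (nat_lit 1) (nat_lit 4) (nat_lit 337) (nat_lit 272) (nat_lit 171)) (XT.lf (nat_lit 0) (nat_lit 11792873926667) (nat_lit 152) (nat_lit 30922365720731) (nat_lit 0) (nat_lit 11757079628786) (nat_lit 1) (nat_lit 5) (nat_lit 3) (nat_lit 4) (nat_lit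 1) (nat_lit 4) (nat_lit 338) (nat_lit 272) (nat_lit 170))) (XT.nd (nat_lit 78) (nat_lit 0) (nat_lit 0) (XT.lf (nat_lit 0) (nat_lit 13616030879534) (nat_lit 152) (nat_lit 35437933978063) (nat_lit 0) (nat_lit 13580236578647) (nat_lit 1) (nat_lit 5) (nat_lit 3) (nat_lit 4) (nat_lit 1) (nat_lit 4) (nat_lit 339) (nat_lit 272) (nat_lit 169)) (XT.nd (nat_lit 78) (nat_lit 0) (nat_lit 0) (XT.lf (nat_lit 0) (nat_lit 15712661365974) (nat_lit 152) (nat_lit 40630837493275) (nat_lit 0) (nat_lit 15676867062472) (nat_lit 1) (nat_lit 5) (nat_lit 3) (nat_lit 4) (nat_lit 1) (nat_lit 4) (nat_lit 340) (nat_lit 272) (nat_lit 168)) (XT.lf (nat_lit 0) (nat_lit 18123786417243) (nat_lit 152) (nat_lit 46602676552533) (nat_lit 0) (nat_lit 18087992111468) (nat_lit 1) (nat_lit 5) (nat_lit 3) (nat_lit 4) (nat_lit 1) (nat_lit 4) (nat_lit 341) (nat_lit 272) (nat_lit 167))))))))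
noncomputable def xc74 : XT := (XT.nd (nat_lit 36660) (nat_lit 0) (nat_lit 152) (XT.nd (nat_lit 35880) (nat_lit 0) (nat_lit 684) (XT.nd (nat_lit 35490) (nat_lit 0) (nat_lit 1292) (XT.nd (nat_lit 35334) (nat_lit 0) (nat_lit 1596) (XT.nd (nat_lit 35256) (nat_lit 0) (nat_lit 1596) (XT.lf (nat_lit 0) (nat_lit 20896580219126) (nat_lit 152) (nat_lit 53470291485259) (nat_lit 0) (nat_lit 20860785911375) (nat_lit 1) (nat_lit 5) (nat_lit 3) (nat_lit 4) (nat_lit 1) (nat_lit 4) (nat_lit 342) (nat_lit 272) (nat_lit 166)) (XT.lf (nat_lit 0) (nat_lit 1795276225) (nat_lit 380) (nat_lit 5381899955) (nat_lit 380) (nat_lit 5381899955) (nat_lit 22) (nat_lit 3) (nat_lit 27) (nat_lit 3) (nat_lit 27) (nat_lit 5) (nat_lit 273) (nat_lit 273) (nat_lit 234))) (XT.nd (nat_lit 78) (nat_lit 0) (nat_lit 76) (XT.lf (nat_lit 76) (nat_lit 1068337071) (nat_lit 0) (nat_lit 2930425852) (nat_lit 380) (nat_lit 22982052778)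 (nat_lit 23) (nat_lit 5) (nat_lit 22) (nat_lit 3) (nat_lit 27) (nat_lit 5) (nat_lit 274) (nat_lit 273) (nat_lit 233)) (XT.lf (nat_lit 0) (nat_lit 5463278795) (nat_lit 304) (nat_lit 13616538160) (nat_lit 380) (nat_lit 9893864741) (nat_lit 23) (nat_lit 5) (nat_lit 27) (nat_lit 5) (nat_lit 28) (nat_lit 5) (nat_lit 275) (nat_lit 273) (nat_lit 232)))) (XT.nd (nat_lit 156) (nat_lit 380) (nat_lit 0) (XT.nd (nat_lit 78) (nat_lit 0) (nat_lit 76) (XT.lf (nat_lit 76) (nat_lit 408809948) (nat_lit 0) (nat_lit 6880328766) (nat_lit 380) (nat_lit 23955144634) (nat_lit 24) (nat_lit 5) (nat_lit 23) (nat_lit 5) (nat_lit 28) (nat_lit 5) (nat_lit 276) (nat_lit 273) (nat_lit 231)) (XT.lf (nat_lit 0) (nat_lit 10417316157) (nat_lit 304) (nat_lit 16023788966) (nat_lit 76) (nat_lit 7260152831) (nat_lit 24) (nat_lit 5) (nat_lit 28) (nat_lit 5) (nat_lit 25) (nat_lit 5) (nat_lit 277) (nat_lit 273) (nat_lit 230)))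 (XT.nd (nat_lit 78) (nat_lit 152) (nat_lit 0) (XT.lf (nat_lit 0) (nat_lit 735844253) (nat_lit 304) (nat_lit 13625452323) (nat_lit 380) (nat_lit 22113537884) (nat_lit 20) (nat_lit 5) (nat_lit 24) (nat_lit 5) (nat_lit 25) (nat_lit 5) (nat_lit 278) (nat_lit 273) (nat_lit 229)) (XT.nd (nat_lit 78) (nat_lit 152) (nat_lit 0) (XT.lf (nat_lit 0) (nat_lit 19809922052) (nat_lit 380) (nat_lit 17827213253) (nat_lit 76) (nat_lit 1890391600) (nat_lit 20) (nat_lit 5) (nat_lit 25) (nat_lit 5) (nat_lit 21) (nat_lit 5) (nat_lit 279) (nat_lit 273) (nat_lit 228)) (XT.lf (nat_lit 0) (nat_lit 2317773491) (nat_lit 152) (nat_lit 24493730833) (nat_lit 228) (nat_lit 16116301328) (nat_lit 18) (nat_lit 5) (nat_lit 20) (nat_lit 5) (nat_lit 21) (nat_lit 5) (nat_lit 280) (nat_lit 273) (nat_lit 227)))))) (XT.nd (nat_lit 390) (nat_lit 304) (nat_lit 0) (XT.nd (nat_lit 156) (nat_lit 228) (nat_lit 0) (XT.nd (nat_lit 78)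 (nat_lit 76) (nat_lit 0) (XT.lf (nat_lit 0) (nat_lit 27477477181) (nat_lit 152) (nat_lit 8309336573) (nat_lit 228) (nat_lit 10912816704) (nat_lit 18) (nat_lit 5) (nat_lit 20) (nat_lit 5) (nat_lit 21) (nat_lit 5) (nat_lit 281) (nat_lit 273) (nat_lit 226)) (XT.lf (nat_lit 0) (nat_lit 5419551799) (nat_lit 76) (nat_lit 41332521691) (nat_lit 152) (nat_lit 4188631521) (nat_lit 17) (nat_lit 5) (nat_lit 18) (nat_lit 5) (nat_lit 19) (nat_lit 4) (nat_lit 282) (nat_lit 273) (nat_lit 225))) (XT.nd (nat_lit 78) (nat_lit 152) (nat_lit 0) (XT.lf (nat_lit 0) (nat_lit 4669820255) (nat_lit 152) (nat_lit 20350169020) (nat_lit 76) (nat_lit 30559781194) (nat_lit 16) (nat_lit 5) (nat_lit 18) (nat_lit 5) (nat_lit 17) (nat_lit 5) (nat_lit 283) (nat_lit 273) (nat_lit 224)) (XT.nd (nat_lit 78) (nat_lit 0) (nat_lit 0) (XT.lf (nat_lit 0) (nat_lit 9207615940) (nat_lit 152) (nat_lit 5595631110) (nat_lit 228) (nat_lit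 46025289250) (nat_lit 14) (nat_lit 5) (nat_lit 16) (nat_lit 5) (nat_lit 17) (nat_lit 5) (nat_lit 284) (nat_lit 273) (nat_lit 223)) (XT.lf (nat_lit 0) (nat_lit 28258474220) (nat_lit 228) (nat_lit 21972282602) (nat_lit 76) (nat_lit 16363606016) (nat_lit 14) (nat_lit 5) (nat_lit 17) (nat_lit 5) (nat_lit 15) (nat_lit 4) (nat_lit 285) (nat_lit 273) (nat_lit 222))))) (XT.nd (nat_lit 156) (nat_lit 228) (nat_lit 0) (XT.nd (nat_lit 78) (nat_lit 0) (nat_lit 0) (XT.lf (nat_lit 0) (nat_lit 13006935072) (nat_lit 76) (nat_lit 31524973285) (nat_lit 152) (nat_lit 28573178548) (nat_lit 13) (nat_lit 5) (nat_lit 14) (nat_lit 5) (nat_lit 15) (nat_lit 4) (nat_lit 286) (nat_lit 273) (nat_lit 221)) (XT.lf (nat_lit 0) (nat_lit 55694569748) (nat_lit 76) (nat_lit 8695557254) (nat_lit 152) (nat_lit 16030737595) (nat_lit 13) (nat_lit 5) (nat_lit 14) (nat_lit 5) (nat_lit 15) (nat_lit 4) (nat_lit 287) (nat_lit 273)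 (nat_lit 220))) (XT.nd (nat_lit 78) (nat_lit 76) (nat_lit 0) (XT.lf (nat_lit 0) (nat_lit 17937775) (nat_lit 152) (nat_lit 71918612771) (nat_lit 76) (nat_lit 16685175979) (nat_lit 11) (nat_lit 5) (nat_lit 13) (nat_lit 5) (nat_lit 12) (nat_lit 4) (nat_lit 288) (nat_lit 273) (nat_lit 219)) (XT.nd (nat_lit 78) (nat_lit 76) (nat_lit 0) (XT.lf (nat_lit 0) (nat_lit 18596605421) (nat_lit 152) (nat_lit 31979431986) (nat_lit 76) (nat_lit 47097591947) (nat_lit 11) (nat_lit 5) (nat_lit 13) (nat_lit 5) (nat_lit 12) (nat_lit 4) (nat_lit 289) (nat_lit 273) (nat_lit 218)) (XT.lf (nat_lit 0) (nat_lit 15306888223) (nat_lit 76) (nat_lit 25285358410) (nat_lit 152) (nat_lit 67396550922) (nat_lit 10) (nat_lit 5) (nat_lit 11) (nat_lit 5) (nat_lit 12) (nat_lit 4) (nat_lit 290) (nat_lit 273) (nat_lit 217))))))) (XT.nd (nat_lit 780) (nat_lit 152) (nat_lit 0) (XT.nd (nat_lit 390) (nat_lit 152) (nat_lit 0) (XT.nd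 (nat_lit 156) (nat_lit 152) (nat_lit 0) (XT.nd (nat_lit 78) (nat_lit 76) (nat_lit 0) (XT.lf (nat_lit 0) (nat_lit 67792249297) (nat_lit 152) (nat_lit 46563767863) (nat_lit 0) (nat_lit 5209476715) (nat_lit 10) (nat_lit 5) (nat_lit 12) (nat_lit 4) (nat_lit 10) (nat_lit 4) (nat_lit 291) (nat_lit 273) (nat_lit 216)) (XT.lf (nat_lit 0) (nat_lit 5776583766) (nat_lit 76) (nat_lit 94735847021) (nat_lit 76) (nat_lit 32150241599) (nat_lit 9) (nat_lit 4) (nat_lit 10) (nat_lit 5) (nat_lit 10) (nat_lit 4) (nat_lit 292) (nat_lit 273) (nat_lit 215))) (XT.nd (nat_lit 78) (nat_lit 152) (nat_lit 0) (XT.lf (nat_lit 0) (nat_lit 71195662784) (nat_lit 76) (nat_lit 69376085616) (nat_lit 76) (nat_lit 6788016856) (nat_lit 9) (nat_lit 4) (nat_lit 10) (nat_lit 5) (nat_lit 10) (nat_lit 4) (nat_lit 293) (nat_lit 273) (nat_lit 214)) (XT.nd (nat_lit 78) (nat_lit 76) (nat_lit 0) (XT.lf (nat_lit 0) (nat_lit 20383598466)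 (nat_lit 152) (nat_lit 18765474091) (nat_lit 76) (nat_lit 124973752900) (nat_lit 8) (nat_lit 5) (nat_lit 10) (nat_lit 5) (nat_lit 9) (nat_lit 4) (nat_lit 294) (nat_lit 273) (nat_lit 213)) (XT.lf (nat_lit 0) (nat_lit 51500264542) (nat_lit 76) (nat_lit 1565939166) (nat_lit 152) (nat_lit 129966126035) (nat_lit 7) (nat_lit 5) (nat_lit 8) (nat_lit 5) (nat_lit 9) (nat_lit 4) (nat_lit 295) (nat_lit 273) (nat_lit 212))))) (XT.nd (nat_lit 156) (nat_lit 152) (nat_lit 0) (XT.nd (nat_lit 78) (nat_lit 0) (nat_lit 0) (XT.lf (nat_lit 0) (nat_lit 93401405286) (nat_lit 152) (nat_lit 71992218871) (nat_lit 0) (nat_lit 38972106923) (nat_lit 7) (nat_lit 5) (nat_lit 9) (nat_lit 4) (nat_lit 7) (nat_lit 4) (nat_lit 296) (nat_lit 273) (nat_lit 211)) (XT.lf (nat_lit 0) (nat_lit 139859491828) (nat_lit 152) (nat_lit 3599793277) (nat_lit 0) (nat_lit 85428968750) (nat_lit 7) (nat_lit 5) (nat_lit 9) (nat_lit 4) (nat_lit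 7) (nat_lit 4) (nat_lit 297) (nat_lit 273) (nat_lit 210))) (XT.nd (nat_lit 78) (nat_lit 76) (nat_lit 0) (XT.lf (nat_lit 0) (nat_lit 82382419085) (nat_lit 76) (nat_lit 114313444904) (nat_lit 76) (nat_lit 59881856856) (nat_lit 6) (nat_lit 4) (nat_lit 7) (nat_lit 5) (nat_lit 7) (nat_lit 4) (nat_lit 298) (nat_lit 273) (nat_lit 209)) (XT.nd (nat_lit 78) (nat_lit 76) (nat_lit 0) (XT.lf (nat_lit 0) (nat_lit 181663352628) (nat_lit 76) (nat_lit 80580893832) (nat_lit 76) (nat_lit 26148379723) (nat_lit 6) (nat_lit 4) (nat_lit 7) (nat_lit 5) (nat_lit 7) (nat_lit 4) (nat_lit 299) (nat_lit 273) (nat_lit 208)) (XT.lf (nat_lit 0) (nat_lit 11517889265) (nat_lit 152) (nat_lit 29669857456) (nat_lit 76) (nat_lit 283713701670) (nat_lit 5) (nat_lit 5) (nat_lit 7) (nat_lit 5) (nat_lit 6) (nat_lit 4) (nat_lit 300) (nat_lit 273) (nat_lit 207)))))) (XT.nd (nat_lit 390) (nat_lit 76) (nat_lit 0) (XT.nd (nat_lit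 156) (nat_lit 0) (nat_lit 0) (XT.nd (nat_lit 78) (nat_lit 0) (nat_lit 0) (XT.lf (nat_lit 0) (nat_lit 55132986350) (nat_lit 152) (nat_lit 303321380592) (nat_lit 0) (nat_lit 7799056252) (nat_lit 4) (nat_lit 5) (nat_lit 6) (nat_lit 4) (nat_lit 4) (nat_lit 4) (nat_lit 301) (nat_lit 273) (nat_lit 206)) (XT.lf (nat_lit 0) (nat_lit 108875183113) (nat_lit 152) (nat_lit 242854563141) (nat_lit 0) (nat_lit 61540723537) (nat_lit 4) (nat_lit 5) (nat_lit 6) (nat_lit 4) (nat_lit 4) (nat_lit 4) (nat_lit 302) (nat_lit 273) (nat_lit 205))) (XT.nd (nat_lit 78) (nat_lit 0) (nat_lit 0) (XT.lf (nat_lit 0) (nat_lit 170677610204) (nat_lit 152) (nat_lit 173319938571) (nat_lit 0) (nat_lit 123342690212) (nat_lit 4) (nat_lit 5) (nat_lit 6) (nat_lit 4) (nat_lit 4) (nat_lit 4) (nat_lit 303) (nat_lit 273) (nat_lit 204)) (XT.nd (nat_lit 78) (nat_lit 0) (nat_lit 0) (XT.lf (nat_lit 0) (nat_lit 241749445544) (nat_lit 152)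 (nat_lit 93357046838) (nat_lit 0) (nat_lit 194414125191) (nat_lit 4) (nat_lit 5) (nat_lit 6) (nat_lit 4) (nat_lit 4) (nat_lit 4) (nat_lit 304) (nat_lit 273) (nat_lit 203)) (XT.lf (nat_lit 0) (nat_lit 323481225042) (nat_lit 152) (nat_lit 1401396580) (nat_lit 0) (nat_lit 276145556548) (nat_lit 4) (nat_lit 5) (nat_lit 6) (nat_lit 4) (nat_lit 4) (nat_lit 4) (nat_lit 305) (nat_lit 273) (nat_lit 202))))) (XT.nd (nat_lit 156) (nat_lit 0) (nat_lit 0) (XT.nd (nat_lit 78) (nat_lit 0) (nat_lit 0) (XT.lf (nat_lit 0) (nat_lit 114543608609) (nat_lit 76) (nat_lit 307671446690) (nat_lit 76) (nat_lit 260335475466) (nat_lit 3) (nat_lit 4) (nat_lit 4) (nat_lit 5) (nat_lit 4) (nat_lit 4) (nat_lit 306) (nat_lit 273) (nat_lit 201)) (XT.lf (nat_lit 0) (nat_lit 248036471931) (nat_lit 76) (nat_lit 287795056944) (nat_lit 76) (nat_lit 240458822476) (nat_lit 3) (nat_lit 4) (nat_lit 4) (nat_lit 5) (nat_lit 4) (nat_lit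 4) (nat_lit 307) (nat_lit 273) (nat_lit 200))) (XT.nd (nat_lit 78) (nat_lit 0) (nat_lit 0) (XT.lf (nat_lit 0) (nat_lit 401552055610) (nat_lit 76) (nat_lit 264937821318) (nat_lit 76) (nat_lit 217601357942) (nat_lit 3) (nat_lit 4) (nat_lit 4) (nat_lit 5) (nat_lit 4) (nat_lit 4) (nat_lit 308) (nat_lit 273) (nat_lit 199)) (XT.nd (nat_lit 78) (nat_lit 0) (nat_lit 0) (XT.lf (nat_lit 0) (nat_lit 578093925414) (nat_lit 76) (nat_lit 238652533030) (nat_lit 76) (nat_lit 191315870603) (nat_lit 3) (nat_lit 4) (nat_lit 4) (nat_lit 5) (nat_lit 4) (nat_lit 4) (nat_lit 309) (nat_lit 273) (nat_lit 198)) (XT.lf (nat_lit 0) (nat_lit 781116161405) (nat_lit 76) (nat_lit 208424914699) (nat_lit 76) (nat_lit 161088079185) (nat_lit 3) (nat_lit 4) (nat_lit 4) (nat_lit 5) (nat_lit 4) (nat_lit 4) (nat_lit 310) (nat_lit 273) (nat_lit 197))))))))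
noncomputable def xc75 : XT := (XT.nd (nat_lit 1482) (nat_lit 0) (nat_lit 0) (XT.nd (nat_lit 702) (nat_lit 0) (nat_lit 0) (XT.nd (nat_lit 312) (nat_lit 76) (nat_lit 0) (XT.nd (nat_lit 156) (nat_lit 76) (nat_lit 0) (XT.nd (nat_lit 78) (nat_lit 0) (nat_lit 0) (XT.lf (nat_lit 0) (nat_lit 1014590937765) (nat_lit 76) (nat_lit 173663556402) (nat_lit 76) (nat_lit 126326570377) (nat_lit 3) (nat_lit 4) (nat_lit 4) (nat_lit 5) (nat_lit 4) (nat_lit 4) (nat_lit 311) (nat_lit 273) (nat_lit 196)) (XT.lf (nat_lit 0) (nat_lit 1283086239249) (nat_lit 76) (nat_lit 133688344606) (nat_lit 76) (nat_lit 86351227703) (nat_lit 3) (nat_lit 4) (nat_lit 4) (nat_lit 5) (nat_lit 4) (nat_lit 4) (nat_lit 312) (nat_lit 273) (nat_lit 195))) (XT.nd (nat_lit 78) (nat_lit 76) (nat_lit 0) (XT.lf (nat_lit 0) (nat_lit 1591855234798) (nat_lit 76) (nat_lit 87717155603) (nat_lit 76) (nat_lit 40379924892) (nat_lit 3) (nat_lit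 4) (nat_lit 4) (nat_lit 5) (nat_lit 4) (nat_lit 4) (nat_lit 313) (nat_lit 273) (nat_lit 194)) (XT.lf (nat_lit 0) (nat_lit 11375117388) (nat_lit 152) (nat_lit 22880827289) (nat_lit 76) (nat_lit 1934969331137) (nat_lit 2) (nat_lit 5) (nat_lit 4) (nat_lit 5) (nat_lit 3) (nat_lit 4) (nat_lit 314) (nat_lit 273) (nat_lit 193)))) (XT.nd (nat_lit 156) (nat_lit 0) (nat_lit 0) (XT.nd (nat_lit 78) (nat_lit 0) (nat_lit 0) (XT.lf (nat_lit 0) (nat_lit 72558598545) (nat_lit 152) (nat_lit 2150776627953) (nat_lit 0) (nat_lit 31395628345) (nat_lit 1) (nat_lit 5) (nat_lit 3) (nat_lit 4) (nat_lit 1) (nat_lit 4) (nat_lit 315) (nat_lit 273) (nat_lit 192)) (XT.lf (nat_lit 0) (nat_lit 145803602097) (nat_lit 152) (nat_lit 2332185501870) (nat_lit 0) (nat_lit 104640566828) (nat_lit 1) (nat_lit 5) (nat_lit 3) (nat_lit 4) (nat_lit 1) (nat_lit 4) (nat_lit 316) (nat_lit 273) (nat_lit 191))) (XT.nd (nat_lit 78) (nat_lit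 0) (nat_lit 0) (XT.lf (nat_lit 0) (nat_lit 230035153640) (nat_lit 152) (nat_lit 2540806124184) (nat_lit 0) (nat_lit 188872061788) (nat_lit 1) (nat_lit 5) (nat_lit 3) (nat_lit 4) (nat_lit 1) (nat_lit 4) (nat_lit 317) (nat_lit 273) (nat_lit 190)) (XT.nd (nat_lit 78) (nat_lit 0) (nat_lit 0) (XT.lf (nat_lit 0) (nat_lit 326901261790) (nat_lit 152) (nat_lit 2780720202722) (nat_lit 0) (nat_lit 285738120735) (nat_lit 1) (nat_lit 5) (nat_lit 3) (nat_lit 4) (nat_lit 1) (nat_lit 4) (nat_lit 318) (nat_lit 273) (nat_lit 189)) (XT.lf (nat_lit 0) (nat_lit 438297133011) (nat_lit 152) (nat_lit 3056621708586) (nat_lit 0) (nat_lit 397133949172) (nat_lit 1) (nat_lit 5) (nat_lit 3) (nat_lit 4) (nat_lit 1) (nat_lit 4) (nat_lit 319) (nat_lit 273) (nat_lit 188)))))) (XT.nd (nat_lit 390) (nat_lit 0) (nat_lit 0) (XT.nd (nat_lit 156) (nat_lit 0) (nat_lit 0) (XT.nd (nat_lit 78) (nat_lit 0) (nat_lit 0) (XT.lf (nat_lit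 0) (nat_lit 566402251741) (nat_lit 152) (nat_lit 3373908714717) (nat_lit 0) (nat_lit 525239030698) (nat_lit 1) (nat_lit 5) (nat_lit 3) (nat_lit 4) (nat_lit 1) (nat_lit 4) (nat_lit 320) (nat_lit 273) (nat_lit 187)) (XT.lf (nat_lit 0) (nat_lit 713723022475) (nat_lit 152) (nat_lit 3738789010365) (nat_lit 0) (nat_lit 672559769081) (nat_lit 1) (nat_lit 5) (nat_lit 3) (nat_lit 4) (nat_lit 1) (nat_lit 4) (nat_lit 321) (nat_lit 273) (nat_lit 186))) (XT.nd (nat_lit 78) (nat_lit 0) (nat_lit 0) (XT.lf (nat_lit 0) (nat_lit 883141808121) (nat_lit 152) (nat_lit 4158401557836) (nat_lit 0) (nat_lit 841978526595) (nat_lit 1) (nat_lit 5) (nat_lit 3) (nat_lit 4) (nat_lit 1) (nat_lit 4) (nat_lit 322) (nat_lit 273) (nat_lit 185)) (XT.nd (nat_lit 78) (nat_lit 0) (nat_lit 0) (XT.lf (nat_lit 0) (nat_lit 1077973324048) (nat_lit 152) (nat_lit 4640956167842) (nat_lit 0) (nat_lit 1036810018061) (nat_lit 1) (nat_lit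 5) (nat_lit 3) (nat_lit 4) (nat_lit 1) (nat_lit 4) (nat_lit 323) (nat_lit 273) (nat_lit 184)) (XT.lf (nat_lit 0) (nat_lit 1302029491222) (nat_lit 152) (nat_lit 5195894126230) (nat_lit 0) (nat_lit 1260866163963) (nat_lit 1) (nat_lit 5) (nat_lit 3) (nat_lit 4) (nat_lit 1) (nat_lit 4) (nat_lit 324) (nat_lit 273) (nat_lit 183))))) (XT.nd (nat_lit 156) (nat_lit 0) (nat_lit 0) (XT.nd (nat_lit 78) (nat_lit 0) (nat_lit 0) (XT.lf (nat_lit 0) (nat_lit 1559694017260) (nat_lit 152) (nat_lit 5834072914796) (nat_lit 0) (nat_lit 1518530671504) (nat_lit 1) (nat_lit 5) (nat_lit 3) (nat_lit 4) (nat_lit 1) (nat_lit 4) (nat_lit 325) (nat_lit 273) (nat_lit 182)) (XT.lf (nat_lit 0) (nat_lit 1856008164628) (nat_lit 152) (nat_lit 6567978640271) (nat_lit 0) (nat_lit 1814844802788) (nat_lit 1) (nat_lit 5) (nat_lit 3) (nat_lit 4) (nat_lit 1) (nat_lit 4) (nat_lit 326) (nat_lit 273) (nat_lit 181))) (XT.nd (nat_lit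 78) (nat_lit 0) (nat_lit 0) (XT.lf (nat_lit 0) (nat_lit 2196769384036) (nat_lit 152) (nat_lit 7411970327721) (nat_lit 0) (nat_lit 2155606008210) (nat_lit 1) (nat_lit 5) (nat_lit 3) (nat_lit 4) (nat_lit 1) (nat_lit 4) (nat_lit 327) (nat_lit 273) (nat_lit 180)) (XT.nd (nat_lit 78) (nat_lit 0) (nat_lit 0) (XT.lf (nat_lit 0) (nat_lit 2588644742821) (nat_lit 152) (nat_lit 8382560857985) (nat_lit 0) (nat_lit 2547481354832) (nat_lit 1) (nat_lit 5) (nat_lit 3) (nat_lit 4) (nat_lit 1) (nat_lit 4) (nat_lit 328) (nat_lit 273) (nat_lit 179)) (XT.lf (nat_lit 0) (nat_lit 3039301367566) (nat_lit 152) (nat_lit 9498740045786) (nat_lit 0) (nat_lit 2998137969002) (nat_lit 1) (nat_lit 5) (nat_lit 3) (nat_lit 4) (nat_lit 1) (nat_lit 4) (nat_lit 329) (nat_lit 273) (nat_lit 178))))))) (XT.nd (nat_lit 780) (nat_lit 0) (nat_lit 0) (XT.nd (nat_lit 390) (nat_lit 0) (nat_lit 0) (XT.nd (nat_lit 156) (nat_lit 0) (nat_lit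 0) (XT.nd (nat_lit 78) (nat_lit 0) (nat_lit 0) (XT.lf (nat_lit 0) (nat_lit 3557556453105) (nat_lit 152) (nat_lit 10782346179583) (nat_lit 0) (nat_lit 3516393045344) (nat_lit 1) (nat_lit 5) (nat_lit 3) (nat_lit 4) (nat_lit 1) (nat_lit 4) (nat_lit 330) (nat_lit 273) (nat_lit 177)) (XT.lf (nat_lit 0) (nat_lit 4153549772849) (nat_lit 152) (nat_lit 12258493292426) (nat_lit 0) (nat_lit 4112386357091) (nat_lit 1) (nat_lit 5) (nat_lit 3) (nat_lit 4) (nat_lit 1) (nat_lit 4) (nat_lit 331) (nat_lit 273) (nat_lit 176))) (XT.nd (nat_lit 78) (nat_lit 0) (nat_lit 0) (XT.lf (nat_lit 0) (nat_lit 4838942065663) (nat_lit 152) (nat_lit 13956062523481) (nat_lit 0) (nat_lit 4797778642952) (nat_lit 1) (nat_lit 5) (nat_lit 3) (nat_lit 4) (nat_lit 1) (nat_lit 4) (nat_lit 332) (nat_lit 273) (nat_lit 175)) (XT.nd (nat_lit 78) (nat_lit 0) (nat_lit 0) (XT.lf (nat_lit 0) (nat_lit 5627143180755) (nat_lit 152) (nat_lit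 15908267183790) (nat_lit 0) (nat_lit 5585979751997) (nat_lit 1) (nat_lit 5) (nat_lit 3) (nat_lit 4) (nat_lit 1) (nat_lit 4) (nat_lit 333) (nat_lit 273) (nat_lit 174)) (XT.lf (nat_lit 0) (nat_lit 6533574444289) (nat_lit 152) (nat_lit 18153302581923) (nat_lit 0) (nat_lit 6492411010273) (nat_lit 1) (nat_lit 5) (nat_lit 3) (nat_lit 4) (nat_lit 1) (nat_lit 4) (nat_lit 334) (nat_lit 273) (nat_lit 173))))) (XT.nd (nat_lit 156) (nat_lit 0) (nat_lit 0) (XT.nd (nat_lit 78) (nat_lit 0) (nat_lit 0) (XT.lf (nat_lit 0) (nat_lit 7575970380987) (nat_lit 152) (nat_lit 20735093323498) (nat_lit 0) (nat_lit 7534806942399) (nat_lit 1) (nat_lit 5) (nat_lit 3) (nat_lit 4) (nat_lit 1) (nat_lit 4) (nat_lit 335) (nat_lit 273) (nat_lit 172)) (XT.lf (nat_lit 0) (nat_lit 8774725693957) (nat_lit 152) (nat_lit 23704152705630) (nat_lit 0) (nat_lit 8733562251394) (nat_lit 1) (nat_lit 5) (nat_lit 3) (nat_lit 4) (nat_lit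 1) (nat_lit 4) (nat_lit 336) (nat_lit 273) (nat_lit 171))) (XT.nd (nat_lit 78) (nat_lit 0) (nat_lit 0) (XT.lf (nat_lit 0) (nat_lit 10153294291498) (nat_lit 152) (nat_lit 27118571020581) (nat_lit 0) (nat_lit 10112130845478) (nat_lit 1) (nat_lit 5) (nat_lit 3) (nat_lit 4) (nat_lit 1) (nat_lit 4) (nat_lit 337) (nat_lit 273) (nat_lit 170)) (XT.nd (nat_lit 78) (nat_lit 0) (nat_lit 0) (XT.lf (nat_lit 0) (nat_lit 11738648167909) (nat_lit 152) (nat_lit 31045152104946) (nat_lit 0) (nat_lit 11697484718882) (nat_lit 1) (nat_lit 5) (nat_lit 3) (nat_lit 4) (nat_lit 1) (nat_lit 4) (nat_lit 338) (nat_lit 273) (nat_lit 169)) (XT.lf (nat_lit 0) (nat_lit 13561805116424) (nat_lit 152) (nat_lit 35560720371245) (nat_lit 0) (nat_lit 13520641664783) (nat_lit 1) (nat_lit 5) (nat_lit 3) (nat_lit 4) (nat_lit 1) (nat_lit 4) (nat_lit 339) (nat_lit 273) (nat_lit 168)))))) (XT.nd (nat_lit 35724) (nat_lit 0) (nat_lit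 1292) (XT.nd (nat_lit 35490) (nat_lit 0) (nat_lit 1596) (XT.nd (nat_lit 78) (nat_lit 0) (nat_lit 0) (XT.lf (nat_lit 0) (nat_lit 15658435599079) (nat_lit 152) (nat_lit 40753623894255) (nat_lit 0) (nat_lit 15617272145165) (nat_lit 1) (nat_lit 5) (nat_lit 3) (nat_lit 4) (nat_lit 1) (nat_lit 4) (nat_lit 340) (nat_lit 273) (nat_lit 167)) (XT.lf (nat_lit 0) (nat_lit 18069560647057) (nat_lit 152) (nat_lit 46725462960294) (nat_lit 0) (nat_lit 18028397191166) (nat_lit 1) (nat_lit 5) (nat_lit 3) (nat_lit 4) (nat_lit 1) (nat_lit 4) (nat_lit 341) (nat_lit 273) (nat_lit 166))) (XT.nd (nat_lit 78) (nat_lit 0) (nat_lit 0) (XT.lf (nat_lit 0) (nat_lit 2155328580) (nat_lit 380) (nat_lit 6136824808) (nat_lit 380) (nat_lit 6136824808) (nat_lit 22) (nat_lit 3) (nat_lit 27) (nat_lit 3) (nat_lit 27) (nat_lit 5) (nat_lit 274) (nat_lit 274) (nat_lit 232)) (XT.nd (nat_lit 78) (nat_lit 0) (nat_lit 76) (XT.lf (nat_lit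 76) (nat_lit 1328547900) (nat_lit 0) (nat_lit 3432013684) (nat_lit 380) (nat_lit 26242478454) (nat_lit 23) (nat_lit 5) (nat_lit 22) (nat_lit 3) (nat_lit 27) (nat_lit 5) (nat_lit 275) (nat_lit 274) (nat_lit 231)) (XT.lf (nat_lit 0) (nat_lit 6421393172) (nat_lit 304) (nat_lit 15548213174) (nat_lit 380) (nat_lit 11328812146) (nat_lit 23) (nat_lit 5) (nat_lit 27) (nat_lit 5) (nat_lit 28) (nat_lit 5) (nat_lit 276) (nat_lit 274) (nat_lit 230))))) (XT.nd (nat_lit 156) (nat_lit 380) (nat_lit 0) (XT.nd (nat_lit 78) (nat_lit 0) (nat_lit 76) (XT.lf (nat_lit 76) (nat_lit 575900527) (nat_lit 0) (nat_lit 7931530022) (nat_lit 380) (nat_lit 27404303170) (nat_lit 24) (nat_lit 5) (nat_lit 23) (nat_lit 5) (nat_lit 28) (nat_lit 5) (nat_lit 277) (nat_lit 274) (nat_lit 229)) (XT.lf (nat_lit 0) (nat_lit 12087850961) (nat_lit 304) (nat_lit 18318005780) (nat_lit 76) (nat_lit 8334004537) (nat_lit 24) (nat_lit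 5) (nat_lit 28) (nat_lit 5) (nat_lit 25) (nat_lit 5) (nat_lit 278) (nat_lit 274) (nat_lit 228))) (XT.nd (nat_lit 78) (nat_lit 152) (nat_lit 0) (XT.lf (nat_lit 0) (nat_lit 950601898) (nat_lit 304) (nat_lit 15663069950) (nat_lit 380) (nat_lit 25317317391) (nat_lit 20) (nat_lit 5) (nat_lit 24) (nat_lit 5) (nat_lit 25) (nat_lit 5) (nat_lit 279) (nat_lit 274) (nat_lit 227)) (XT.nd (nat_lit 78) (nat_lit 152) (nat_lit 0) (XT.lf (nat_lit 0) (nat_lit 22867008207) (nat_lit 380) (nat_lit 20397647711) (nat_lit 76) (nat_lit 2178861848) (nat_lit 20) (nat_lit 5) (nat_lit 25) (nat_lit 5) (nat_lit 21) (nat_lit 5) (nat_lit 280) (nat_lit 274) (nat_lit 226)) (XT.lf (nat_lit 0) (nat_lit 2764375792) (nat_lit 152) (nat_lit 28147383830) (nat_lit 228) (nat_lit 18443177865) (nat_lit 18) (nat_lit 5) (nat_lit 20) (nat_lit 5) (nat_lit 21) (nat_lit 5) (nat_lit 281) (nat_lit 274) (nat_lit 225))))))))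
noncomputable def xc76 : XT := (XT.nd (nat_lit 1482) (nat_lit 380) (nat_lit 0) (XT.nd (nat_lit 702) (nat_lit 380) (nat_lit 0) (XT.nd (nat_lit 312) (nat_lit 228) (nat_lit 0) (XT.nd (nat_lit 156) (nat_lit 228) (nat_lit 0) (XT.nd (nat_lit 78) (nat_lit 76) (nat_lit 0) (XT.lf (nat_lit 0) (nat_lit 31685130305) (nat_lit 152) (nat_lit 9537992166) (nat_lit 228) (nat_lit 12470983852) (nat_lit 18) (nat_lit 5) (nat_lit 20) (nat_lit 5) (nat_lit 21) (nat_lit 5) (nat_lit 282) (nat_lit 274) (nat_lit 224)) (XT.lf (nat_lit 0) (nat_lit 6323897065) (nat_lit 76) (nat_lit 47504791279) (nat_lit 152) (nat_lit 4743355575) (nat_lit 17) (nat_lit 5) (nat_lit 18) (nat_lit 5) (nat_lit 19) (nat_lit 4) (nat_lit 283) (nat_lit 274) (nat_lit 223))) (XT.nd (nat_lit 78) (nat_lit 152) (nat_lit 0) (XT.lf (nat_lit 0) (nat_lit 5428572340) (nat_lit 152) (nat_lit 23317361387) (nat_lit 76) (nat_lit 35161912050) (nat_lit 16) (nat_lit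 5) (nat_lit 18) (nat_lit 5) (nat_lit 17) (nat_lit 5) (nat_lit 284) (nat_lit 274) (nat_lit 222)) (XT.lf (nat_lit 0) (nat_lit 10670212546) (nat_lit 152) (nat_lit 6407571840) (nat_lit 228) (nat_lit 52866795770) (nat_lit 14) (nat_lit 5) (nat_lit 16) (nat_lit 5) (nat_lit 17) (nat_lit 5) (nat_lit 285) (nat_lit 274) (nat_lit 221)))) (XT.nd (nat_lit 156) (nat_lit 152) (nat_lit 0) (XT.nd (nat_lit 78) (nat_lit 76) (nat_lit 0) (XT.lf (nat_lit 0) (nat_lit 32545232323) (nat_lit 228) (nat_lit 25191119717) (nat_lit 76) (nat_lit 18839854961) (nat_lit 14) (nat_lit 5) (nat_lit 17) (nat_lit 5) (nat_lit 15) (nat_lit 4) (nat_lit 286) (nat_lit 274) (nat_lit 220)) (XT.lf (nat_lit 0) (nat_lit 15031480368) (nat_lit 76) (nat_lit 36224985730) (nat_lit 152) (nat_lit 32807570541) (nat_lit 13) (nat_lit 5) (nat_lit 14) (nat_lit 5) (nat_lit 15) (nat_lit 4) (nat_lit 287) (nat_lit 274) (nat_lit 219))) (XT.nd (nat_lit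 78) (nat_lit 152) (nat_lit 0) (XT.lf (nat_lit 0) (nat_lit 64112672632) (nat_lit 76) (nat_lit 9974905148) (nat_lit 152) (nat_lit 18390491895) (nat_lit 13) (nat_lit 5) (nat_lit 14) (nat_lit 5) (nat_lit 15) (nat_lit 4) (nat_lit 288) (nat_lit 274) (nat_lit 218)) (XT.nd (nat_lit 78) (nat_lit 0) (nat_lit 0) (XT.lf (nat_lit 0) (nat_lit 59953079) (nat_lit 152) (nat_lit 82636817619) (nat_lit 76) (nat_lit 19212251951) (nat_lit 11) (nat_lit 5) (nat_lit 13) (nat_lit 5) (nat_lit 12) (nat_lit 4) (nat_lit 289) (nat_lit 274) (nat_lit 217)) (XT.lf (nat_lit 0) (nat_lit 21420291571) (nat_lit 152) (nat_lit 36715836291) (nat_lit 76) (nat_lit 54183360804) (nat_lit 11) (nat_lit 5) (nat_lit 13) (nat_lit 5) (nat_lit 12) (nat_lit 4) (nat_lit 290) (nat_lit 274) (nat_lit 216)))))) (XT.nd (nat_lit 390) (nat_lit 152) (nat_lit 0) (XT.nd (nat_lit 156) (nat_lit 152) (nat_lit 0) (XT.nd (nat_lit 78) (nat_lit 0) (nat_lit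 0) (XT.lf (nat_lit 0) (nat_lit 17660681473) (nat_lit 76) (nat_lit 29052528949) (nat_lit 152) (nat_lit 77469039232) (nat_lit 10) (nat_lit 5) (nat_lit 11) (nat_lit 5) (nat_lit 12) (nat_lit 4) (nat_lit 291) (nat_lit 274) (nat_lit 215)) (XT.lf (nat_lit 0) (nat_lit 77989946006) (nat_lit 152) (nat_lit 53494797275) (nat_lit 0) (nat_lit 6011203592) (nat_lit 10) (nat_lit 5) (nat_lit 12) (nat_lit 4) (nat_lit 10) (nat_lit 4) (nat_lit 292) (nat_lit 274) (nat_lit 214))) (XT.nd (nat_lit 78) (nat_lit 76) (nat_lit 0) (XT.lf (nat_lit 0) (nat_lit 6694173655) (nat_lit 76) (nat_lit 108922332844) (nat_lit 76) (nat_lit 36941448397) (nat_lit 9) (nat_lit 4) (nat_lit 10) (nat_lit 5) (nat_lit 10) (nat_lit 4) (nat_lit 293) (nat_lit 274) (nat_lit 213)) (XT.nd (nat_lit 78) (nat_lit 76) (nat_lit 0) (XT.lf (nat_lit 0) (nat_lit 81919449005) (nat_lit 76) (nat_lit 79761723477) (nat_lit 76) (nat_lit 7778976391) (nat_lit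 9) (nat_lit 4) (nat_lit 10) (nat_lit 5) (nat_lit 10) (nat_lit 4) (nat_lit 294) (nat_lit 274) (nat_lit 212)) (XT.lf (nat_lit 0) (nat_lit 23462718787) (nat_lit 152) (nat_lit 21539521378) (nat_lit 76) (nat_lit 143735747909) (nat_lit 8) (nat_lit 5) (nat_lit 10) (nat_lit 5) (nat_lit 9) (nat_lit 4) (nat_lit 295) (nat_lit 274) (nat_lit 211))))) (XT.nd (nat_lit 156) (nat_lit 76) (nat_lit 0) (XT.nd (nat_lit 78) (nat_lit 0) (nat_lit 0) (XT.lf (nat_lit 0) (nat_lit 59264224695) (nat_lit 76) (nat_lit 1782286880) (nat_lit 152) (nat_lit 149437590059) (nat_lit 7) (nat_lit 5) (nat_lit 8) (nat_lit 5) (nat_lit 9) (nat_lit 4) (nat_lit 296) (nat_lit 274) (nat_lit 210)) (XT.lf (nat_lit 0) (nat_lit 107430003160) (nat_lit 152) (nat_lit 82755199346) (nat_lit 0) (nat_lit 44832611936) (nat_lit 7) (nat_lit 5) (nat_lit 9) (nat_lit 4) (nat_lit 7) (nat_lit 4) (nat_lit 297) (nat_lit 274) (nat_lit 209))) (XT.nd (nat_lit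 78) (nat_lit 76) (nat_lit 0) (XT.lf (nat_lit 0) (nat_lit 160854404368) (nat_lit 152) (nat_lit 4108586307) (nat_lit 0) (nat_lit 98256087084) (nat_lit 7) (nat_lit 5) (nat_lit 9) (nat_lit 4) (nat_lit 7) (nat_lit 4) (nat_lit 298) (nat_lit 274) (nat_lit 208)) (XT.nd (nat_lit 78) (nat_lit 0) (nat_lit 0) (XT.lf (nat_lit 0) (nat_lit 94769540820) (nat_lit 76) (nat_lit 131445838293) (nat_lit 76) (nat_lit 68846715739) (nat_lit 6) (nat_lit 4) (nat_lit 7) (nat_lit 5) (nat_lit 7) (nat_lit 4) (nat_lit 299) (nat_lit 274) (nat_lit 207)) (XT.lf (nat_lit 0) (nat_lit 208938732803) (nat_lit 76) (nat_lit 92655311953) (nat_lit 76) (nat_lit 30055489164) (nat_lit 6) (nat_lit 4) (nat_lit 7) (nat_lit 5) (nat_lit 7) (nat_lit 4) (nat_lit 300) (nat_lit 274) (nat_lit 206))))))) (XT.nd (nat_lit 780) (nat_lit 152) (nat_lit 0) (XT.nd (nat_lit 390) (nat_lit 76) (nat_lit 0) (XT.nd (nat_lit 156) (nat_lit 0) (nat_lit 0) (XT.nd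 (nat_lit 78) (nat_lit 76) (nat_lit 0) (XT.lf (nat_lit 0) (nat_lit 13257571769) (nat_lit 152) (nat_lit 34096652383) (nat_lit 76) (nat_lit 326280632563) (nat_lit 5) (nat_lit 5) (nat_lit 7) (nat_lit 5) (nat_lit 6) (nat_lit 4) (nat_lit 301) (nat_lit 274) (nat_lit 205)) (XT.lf (nat_lit 0) (nat_lit 63414769730) (nat_lit 152) (nat_lit 348795732419) (nat_lit 0) (nat_lit 8979151324) (nat_lit 4) (nat_lit 5) (nat_lit 6) (nat_lit 4) (nat_lit 4) (nat_lit 4) (nat_lit 302) (nat_lit 274) (nat_lit 204))) (XT.nd (nat_lit 78) (nat_lit 0) (nat_lit 0) (XT.lf (nat_lit 0) (nat_lit 125216752256) (nat_lit 152) (nat_lit 279262003906) (nat_lit 0) (nat_lit 70780733489) (nat_lit 4) (nat_lit 5) (nat_lit 6) (nat_lit 4) (nat_lit 4) (nat_lit 4) (nat_lit 303) (nat_lit 274) (nat_lit 203)) (XT.nd (nat_lit 78) (nat_lit 0) (nat_lit 0) (XT.lf (nat_lit 0) (nat_lit 196288201018) (nat_lit 152) (nat_lit 199299891352) (nat_lit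 0) (nat_lit 141851834111) (nat_lit 4) (nat_lit 5) (nat_lit 6) (nat_lit 4) (nat_lit 4) (nat_lit 4) (nat_lit 304) (nat_lit 274) (nat_lit 202)) (XT.lf (nat_lit 0) (nat_lit 278019644361) (nat_lit 152) (nat_lit 107344918641) (nat_lit 0) (nat_lit 223582974723) (nat_lit 4) (nat_lit 5) (nat_lit 6) (nat_lit 4) (nat_lit 4) (nat_lit 4) (nat_lit 305) (nat_lit 274) (nat_lit 201))))) (XT.nd (nat_lit 156) (nat_lit 0) (nat_lit 0) (XT.nd (nat_lit 78) (nat_lit 76) (nat_lit 0) (XT.lf (nat_lit 0) (nat_lit 372010175743) (nat_lit 152) (nat_lit 1597966744) (nat_lit 0) (nat_lit 317573242860) (nat_lit 4) (nat_lit 5) (nat_lit 6) (nat_lit 4) (nat_lit 4) (nat_lit 4) (nat_lit 306) (nat_lit 274) (nat_lit 200)) (XT.lf (nat_lit 0) (nat_lit 131738169254) (nat_lit 76) (nat_lit 353815567743) (nat_lit 76) (nat_lit 299378405952) (nat_lit 3) (nat_lit 4) (nat_lit 4) (nat_lit 5) (nat_lit 4) (nat_lit 4) (nat_lit 307) (nat_lit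 274) (nat_lit 199))) (XT.nd (nat_lit 78) (nat_lit 0) (nat_lit 0) (XT.lf (nat_lit 0) (nat_lit 285253263898) (nat_lit 76) (nat_lit 330958579876) (nat_lit 76) (nat_lit 276521219035) (nat_lit 3) (nat_lit 4) (nat_lit 4) (nat_lit 5) (nat_lit 4) (nat_lit 4) (nat_lit 308) (nat_lit 274) (nat_lit 198)) (XT.nd (nat_lit 78) (nat_lit 0) (nat_lit 0) (XT.lf (nat_lit 0) (nat_lit 461794708454) (nat_lit 76) (nat_lit 304673507030) (nat_lit 76) (nat_lit 250235973101) (nat_lit 3) (nat_lit 4) (nat_lit 4) (nat_lit 5) (nat_lit 4) (nat_lit 4) (nat_lit 309) (nat_lit 274) (nat_lit 197)) (XT.lf (nat_lit 0) (nat_lit 664816574664) (nat_lit 76) (nat_lit 274446076040) (nat_lit 76) (nat_lit 220008391601) (nat_lit 3) (nat_lit 4) (nat_lit 4) (nat_lit 5) (nat_lit 4) (nat_lit 4) (nat_lit 310) (nat_lit 274) (nat_lit 196)))))) (XT.nd (nat_lit 390) (nat_lit 76) (nat_lit 0) (XT.nd (nat_lit 156) (nat_lit 76) (nat_lit 0) (XT.nd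 (nat_lit 78) (nat_lit 0) (nat_lit 0) (XT.lf (nat_lit 0) (nat_lit 898291029474) (nat_lit 76) (nat_lit 239684880648) (nat_lit 76) (nat_lit 185247065330) (nat_lit 3) (nat_lit 4) (nat_lit 4) (nat_lit 5) (nat_lit 4) (nat_lit 4) (nat_lit 311) (nat_lit 274) (nat_lit 195)) (XT.lf (nat_lit 0) (nat_lit 1166786051350) (nat_lit 76) (nat_lit 199709810509) (nat_lit 76) (nat_lit 145271881383) (nat_lit 3) (nat_lit 4) (nat_lit 4) (nat_lit 5) (nat_lit 4) (nat_lit 4) (nat_lit 312) (nat_lit 274) (nat_lit 194))) (XT.nd (nat_lit 78) (nat_lit 76) (nat_lit 0) (XT.lf (nat_lit 0) (nat_lit 1475554803762) (nat_lit 76) (nat_lit 153738744686) (nat_lit 76) (nat_lit 99300716597) (nat_lit 3) (nat_lit 4) (nat_lit 4) (nat_lit 5) (nat_lit 4) (nat_lit 4) (nat_lit 313) (nat_lit 274) (nat_lit 193)) (XT.nd (nat_lit 78) (nat_lit 76) (nat_lit 0) (XT.lf (nat_lit 0) (nat_lit 1830638414475) (nat_lit 76) (nat_lit 100872249282) (nat_lit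 76) (nat_lit 46434135138) (nat_lit 3) (nat_lit 4) (nat_lit 4) (nat_lit 5) (nat_lit 4) (nat_lit 4) (nat_lit 314) (nat_lit 274) (nat_lit 192)) (XT.lf (nat_lit 0) (nat_lit 13083585977) (nat_lit 152) (nat_lit 26308479122) (nat_lit 76) (nat_lit 2225216670826) (nat_lit 2) (nat_lit 5) (nat_lit 4) (nat_lit 5) (nat_lit 3) (nat_lit 4) (nat_lit 315) (nat_lit 274) (nat_lit 191))))) (XT.nd (nat_lit 156) (nat_lit 0) (nat_lit 0) (XT.nd (nat_lit 78) (nat_lit 0) (nat_lit 0) (XT.lf (nat_lit 0) (nat_lit 83444569191) (nat_lit 152) (nat_lit 2473388628800) (nat_lit 0) (nat_lit 36106956979) (nat_lit 1) (nat_lit 5) (nat_lit 3) (nat_lit 4) (nat_lit 1) (nat_lit 4) (nat_lit 316) (nat_lit 274) (nat_lit 190)) (XT.lf (nat_lit 0) (nat_lit 167676038816) (nat_lit 152) (nat_lit 2682009419894) (nat_lit 0) (nat_lit 120338377401) (nat_lit 1) (nat_lit 5) (nat_lit 3) (nat_lit 4) (nat_lit 1) (nat_lit 4) (nat_lit 317) (nat_lit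 274) (nat_lit 189))) (XT.nd (nat_lit 78) (nat_lit 0) (nat_lit 0) (XT.lf (nat_lit 0) (nat_lit 264542075733) (nat_lit 152) (nat_lit 2921923645197) (nat_lit 0) (nat_lit 217204371534) (nat_lit 1) (nat_lit 5) (nat_lit 3) (nat_lit 4) (nat_lit 1) (nat_lit 4) (nat_lit 318) (nat_lit 274) (nat_lit 188)) (XT.nd (nat_lit 78) (nat_lit 0) (nat_lit 0) (XT.lf (nat_lit 0) (nat_lit 375937885012) (nat_lit 152) (nat_lit 3197825278683) (nat_lit 0) (nat_lit 328600143609) (nat_lit 1) (nat_lit 5) (nat_lit 3) (nat_lit 4) (nat_lit 1) (nat_lit 4) (nat_lit 319) (nat_lit 274) (nat_lit 187)) (XT.lf (nat_lit 0) (nat_lit 504042949879) (nat_lit 152) (nat_lit 3515112395790) (nat_lit 0) (nat_lit 456705176125) (nat_lit 1) (nat_lit 5) (nat_lit 3) (nat_lit 4) (nat_lit 1) (nat_lit 4) (nat_lit 320) (nat_lit 274) (nat_lit 186))))))))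
noncomputable def xc77 : XT := (XT.nd (nat_lit 1482) (nat_lit 0) (nat_lit 0) (XT.nd (nat_lit 702) (nat_lit 0) (nat_lit 0) (XT.nd (nat_lit 312) (nat_lit 0) (nat_lit 0) (XT.nd (nat_lit 156) (nat_lit 0) (nat_lit 0) (XT.nd (nat_lit 78) (nat_lit 0) (nat_lit 0) (XT.lf (nat_lit 0) (nat_lit 651363673777) (nat_lit 152) (nat_lit 3879992787938) (nat_lit 0) (nat_lit 604025871891) (nat_lit 1) (nat_lit 5) (nat_lit 3) (nat_lit 4) (nat_lit 1) (nat_lit 4) (nat_lit 321) (nat_lit 274) (nat_lit 185)) (XT.lf (nat_lit 0) (nat_lit 820782418695) (nat_lit 152) (nat_lit 4299605419323) (nat_lit 0) (nat_lit 773444592347) (nat_lit 1) (nat_lit 5) (nat_lit 3) (nat_lit 4) (nat_lit 1) (nat_lit 4) (nat_lit 322) (nat_lit 274) (nat_lit 184))) (XT.nd (nat_lit 78) (nat_lit 0) (nat_lit 0) (XT.lf (nat_lit 0) (nat_lit 1015613899207) (nat_lit 152) (nat_lit 4782160102297) (nat_lit 0) (nat_lit 968276051587) (nat_lit 1) (nat_lit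 5) (nat_lit 3) (nat_lit 4) (nat_lit 1) (nat_lit 4) (nat_lit 323) (nat_lit 274) (nat_lit 183)) (XT.lf (nat_lit 0) (nat_lit 1239670035584) (nat_lit 152) (nat_lit 5337098124136) (nat_lit 0) (nat_lit 1192332169468) (nat_lit 1) (nat_lit 5) (nat_lit 3) (nat_lit 4) (nat_lit 1) (nat_lit 4) (nat_lit 324) (nat_lit 274) (nat_lit 182)))) (XT.nd (nat_lit 156) (nat_lit 0) (nat_lit 0) (XT.nd (nat_lit 78) (nat_lit 0) (nat_lit 0) (XT.lf (nat_lit 0) (nat_lit 1497334534843) (nat_lit 152) (nat_lit 5975276967876) (nat_lit 0) (nat_lit 1449996652642) (nat_lit 1) (nat_lit 5) (nat_lit 3) (nat_lit 4) (nat_lit 1) (nat_lit 4) (nat_lit 325) (nat_lit 274) (nat_lit 181)) (XT.lf (nat_lit 0) (nat_lit 1793648658925) (nat_lit 152) (nat_lit 6709182741329) (nat_lit 0) (nat_lit 1746310762738) (nat_lit 1) (nat_lit 5) (nat_lit 3) (nat_lit 4) (nat_lit 1) (nat_lit 4) (nat_lit 326) (nat_lit 274) (nat_lit 180))) (XT.nd (nat_lit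 78) (nat_lit 0) (nat_lit 0) (XT.lf (nat_lit 0) (nat_lit 2134409858085) (nat_lit 152) (nat_lit 7553174470498) (nat_lit 0) (nat_lit 2087071949735) (nat_lit 1) (nat_lit 5) (nat_lit 3) (nat_lit 4) (nat_lit 1) (nat_lit 4) (nat_lit 327) (nat_lit 274) (nat_lit 179)) (XT.nd (nat_lit 78) (nat_lit 0) (nat_lit 0) (XT.lf (nat_lit 0) (nat_lit 2526285199261) (nat_lit 152) (nat_lit 8523765037040) (nat_lit 0) (nat_lit 2478947280336) (nat_lit 1) (nat_lit 5) (nat_lit 3) (nat_lit 4) (nat_lit 1) (nat_lit 4) (nat_lit 328) (nat_lit 274) (nat_lit 178)) (XT.lf (nat_lit 0) (nat_lit 2976941808695) (nat_lit 152) (nat_lit 9639944256388) (nat_lit 0) (nat_lit 2929603880575) (nat_lit 1) (nat_lit 5) (nat_lit 3) (nat_lit 4) (nat_lit 1) (nat_lit 4) (nat_lit 329) (nat_lit 274) (nat_lit 177)))))) (XT.nd (nat_lit 390) (nat_lit 0) (nat_lit 0) (XT.nd (nat_lit 156) (nat_lit 0) (nat_lit 0) (XT.nd (nat_lit 78) (nat_lit 0) (nat_lit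 0) (XT.lf (nat_lit 0) (nat_lit 3495196880920) (nat_lit 152) (nat_lit 10923550417616) (nat_lit 0) (nat_lit 3447858944802) (nat_lit 1) (nat_lit 5) (nat_lit 3) (nat_lit 4) (nat_lit 1) (nat_lit 4) (nat_lit 330) (nat_lit 274) (nat_lit 176)) (XT.lf (nat_lit 0) (nat_lit 4091190189087) (nat_lit 152) (nat_lit 12399697554313) (nat_lit 0) (nat_lit 4043852246015) (nat_lit 1) (nat_lit 5) (nat_lit 3) (nat_lit 4) (nat_lit 1) (nat_lit 4) (nat_lit 331) (nat_lit 274) (nat_lit 175))) (XT.nd (nat_lit 78) (nat_lit 0) (nat_lit 0) (XT.lf (nat_lit 0) (nat_lit 4776582471834) (nat_lit 152) (nat_lit 14097266806110) (nat_lit 0) (nat_lit 4729244522716) (nat_lit 1) (nat_lit 5) (nat_lit 3) (nat_lit 4) (nat_lit 1) (nat_lit 4) (nat_lit 332) (nat_lit 274) (nat_lit 174)) (XT.nd (nat_lit 78) (nat_lit 0) (nat_lit 0) (XT.lf (nat_lit 0) (nat_lit 5564783578171) (nat_lit 152) (nat_lit 16049471484455) (nat_lit 0) (nat_lit 5517445623795)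 (nat_lit 1) (nat_lit 5) (nat_lit 3) (nat_lit 4) (nat_lit 1) (nat_lit 4) (nat_lit 333) (nat_lit 274) (nat_lit 173)) (XT.lf (nat_lit 0) (nat_lit 6471214834093) (nat_lit 152) (nat_lit 18294506898273) (nat_lit 0) (nat_lit 6423876875145) (nat_lit 1) (nat_lit 5) (nat_lit 3) (nat_lit 4) (nat_lit 1) (nat_lit 4) (nat_lit 334) (nat_lit 274) (nat_lit 172))))) (XT.nd (nat_lit 156) (nat_lit 0) (nat_lit 0) (XT.nd (nat_lit 78) (nat_lit 0) (nat_lit 0) (XT.lf (nat_lit 0) (nat_lit 7513610764171) (nat_lit 152) (nat_lit 20876297653485) (nat_lit 0) (nat_lit 7466272801248) (nat_lit 1) (nat_lit 5) (nat_lit 3) (nat_lit 4) (nat_lit 1) (nat_lit 4) (nat_lit 335) (nat_lit 274) (nat_lit 171)) (XT.lf (nat_lit 0) (nat_lit 8712366071386) (nat_lit 152) (nat_lit 23845357047478) (nat_lit 0) (nat_lit 8665028105005) (nat_lit 1) (nat_lit 5) (nat_lit 3) (nat_lit 4) (nat_lit 1) (nat_lit 4) (nat_lit 336) (nat_lit 274) (nat_lit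 170))) (XT.nd (nat_lit 78) (nat_lit 0) (nat_lit 0) (XT.lf (nat_lit 0) (nat_lit 10090934663922) (nat_lit 152) (nat_lit 27259775372741) (nat_lit 0) (nat_lit 10043596694535) (nat_lit 1) (nat_lit 5) (nat_lit 3) (nat_lit 4) (nat_lit 1) (nat_lit 4) (nat_lit 337) (nat_lit 274) (nat_lit 169)) (XT.nd (nat_lit 78) (nat_lit 0) (nat_lit 0) (XT.lf (nat_lit 0) (nat_lit 11676288535981) (nat_lit 152) (nat_lit 31186356466073) (nat_lit 0) (nat_lit 11628950563979) (nat_lit 1) (nat_lit 5) (nat_lit 3) (nat_lit 4) (nat_lit 1) (nat_lit 4) (nat_lit 338) (nat_lit 274) (nat_lit 168)) (XT.lf (nat_lit 0) (nat_lit 13499445480711) (nat_lit 152) (nat_lit 35701924740170) (nat_lit 0) (nat_lit 13452107506436) (nat_lit 1) (nat_lit 5) (nat_lit 3) (nat_lit 4) (nat_lit 1) (nat_lit 4) (nat_lit 339) (nat_lit 274) (nat_lit 167))))))) (XT.nd (nat_lit 35880) (nat_lit 0) (nat_lit 912) (XT.nd (nat_lit 1014) (nat_lit 0) (nat_lit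 0) (XT.nd (nat_lit 780) (nat_lit 0) (nat_lit 0) (XT.nd (nat_lit 702) (nat_lit 0) (nat_lit 0) (XT.lf (nat_lit 0) (nat_lit 15596075960075) (nat_lit 152) (nat_lit 40894828269960) (nat_lit 0) (nat_lit 15548737983824) (nat_lit 1) (nat_lit 5) (nat_lit 3) (nat_lit 4) (nat_lit 1) (nat_lit 4) (nat_lit 340) (nat_lit 274) (nat_lit 166)) (XT.lf (nat_lit 0) (nat_lit 56068839664197) (nat_lit 152) (nat_lit 141137175503334) (nat_lit 0) (nat_lit 56021501678514) (nat_lit 1) (nat_lit 5) (nat_lit 3) (nat_lit 4) (nat_lit 1) (nat_lit 4) (nat_lit 349) (nat_lit 274) (nat_lit 157))) (XT.nd (nat_lit 78) (nat_lit 0) (nat_lit 0) (XT.lf (nat_lit 0) (nat_lit 64550879235574) (nat_lit 152) (nat_lit 162145366720765) (nat_lit 0) (nat_lit 64503541249402) (nat_lit 1) (nat_lit 5) (nat_lit 3) (nat_lit 4) (nat_lit 1) (nat_lit 4) (nat_lit 350) (nat_lit 274) (nat_lit 156)) (XT.nd (nat_lit 78) (nat_lit 0) (nat_lit 0) (XT.lf (nat_lit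 0) (nat_lit 74305224741135) (nat_lit 152) (nat_lit 186304786623943) (nat_lit 0) (nat_lit 74257886754538) (nat_lit 1) (nat_lit 5) (nat_lit 3) (nat_lit 4) (nat_lit 1) (nat_lit 4) (nat_lit 351) (nat_lit 274) (nat_lit 155)) (XT.lf (nat_lit 0) (nat_lit 85522722071208) (nat_lit 152) (nat_lit 214088119515323) (nat_lit 0) (nat_lit 85475384084242) (nat_lit 1) (nat_lit 5) (nat_lit 3) (nat_lit 4) (nat_lit 1) (nat_lit 4) (nat_lit 352) (nat_lit 274) (nat_lit 154))))) (XT.nd (nat_lit 34632) (nat_lit 0) (nat_lit 1596) (XT.nd (nat_lit 34554) (nat_lit 0) (nat_lit 1596) (XT.lf (nat_lit 0) (nat_lit 98422843999642) (nat_lit 152) (nat_lit 246038952342780) (nat_lit 0) (nat_lit 98375506012355) (nat_lit 1) (nat_lit 5) (nat_lit 3) (nat_lit 4) (nat_lit 1) (nat_lit 4) (nat_lit 353) (nat_lit 274) (nat_lit 153)) (XT.lf (nat_lit 0) (nat_lit 2547256163) (nat_lit 380) (nat_lit 7017756740) (nat_lit 380) (nat_lit 7017756740)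 (nat_lit 22) (nat_lit 3) (nat_lit 27) (nat_lit 3) (nat_lit 27) (nat_lit 5) (nat_lit 275) (nat_lit 275) (nat_lit 230))) (XT.nd (nat_lit 78) (nat_lit 0) (nat_lit 76) (XT.lf (nat_lit 76) (nat_lit 1603414409) (nat_lit 0) (nat_lit 3993714756) (nat_lit 380) (nat_lit 30037540400) (nat_lit 23) (nat_lit 5) (nat_lit 22) (nat_lit 3) (nat_lit 27) (nat_lit 5) (nat_lit 276) (nat_lit 275) (nat_lit 229)) (XT.nd (nat_lit 78) (nat_lit 0) (nat_lit 0) (XT.lf (nat_lit 0) (nat_lit 7489420718) (nat_lit 304) (nat_lit 17796660114) (nat_lit 380) (nat_lit 12990982885) (nat_lit 23) (nat_lit 5) (nat_lit 27) (nat_lit 5) (nat_lit 28) (nat_lit 5) (nat_lit 277) (nat_lit 275) (nat_lit 228)) (XT.lf (nat_lit 76) (nat_lit 742262232) (nat_lit 0) (nat_lit 9135741143) (nat_lit 380) (nat_lit 31405978393) (nat_lit 24) (nat_lit 5) (nat_lit 23) (nat_lit 5) (nat_lit 28) (nat_lit 5) (nat_lit 278) (nat_lit 275) (nat_lit 227))))))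 (XT.nd (nat_lit 390) (nat_lit 380) (nat_lit 0) (XT.nd (nat_lit 156) (nat_lit 152) (nat_lit 0) (XT.nd (nat_lit 78) (nat_lit 304) (nat_lit 0) (XT.lf (nat_lit 0) (nat_lit 13982644771) (nat_lit 304) (nat_lit 20983021180) (nat_lit 76) (nat_lit 9572633596) (nat_lit 24) (nat_lit 5) (nat_lit 28) (nat_lit 5) (nat_lit 25) (nat_lit 5) (nat_lit 279) (nat_lit 275) (nat_lit 226)) (XT.lf (nat_lit 0) (nat_lit 1172119219) (nat_lit 304) (nat_lit 18007842185) (nat_lit 380) (nat_lit 29029280840) (nat_lit 20) (nat_lit 5) (nat_lit 24) (nat_lit 5) (nat_lit 25) (nat_lit 5) (nat_lit 280) (nat_lit 275) (nat_lit 225))) (XT.nd (nat_lit 78) (nat_lit 152) (nat_lit 0) (XT.lf (nat_lit 0) (nat_lit 26361783707) (nat_lit 380) (nat_lit 23378922445) (nat_lit 76) (nat_lit 2509404931) (nat_lit 20) (nat_lit 5) (nat_lit 25) (nat_lit 5) (nat_lit 21) (nat_lit 5) (nat_lit 281) (nat_lit 275) (nat_lit 224)) (XT.nd (nat_lit 78) (nat_lit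 0) (nat_lit 0) (XT.lf (nat_lit 0) (nat_lit 3253842201) (nat_lit 152) (nat_lit 32354061063) (nat_lit 228) (nat_lit 21141171626) (nat_lit 18) (nat_lit 5) (nat_lit 20) (nat_lit 5) (nat_lit 21) (nat_lit 5) (nat_lit 282) (nat_lit 275) (nat_lit 223)) (XT.lf (nat_lit 0) (nat_lit 36502952059) (nat_lit 152) (nat_lit 10955273302) (nat_lit 228) (nat_lit 14282081065) (nat_lit 18) (nat_lit 5) (nat_lit 20) (nat_lit 5) (nat_lit 21) (nat_lit 5) (nat_lit 283) (nat_lit 275) (nat_lit 222))))) (XT.nd (nat_lit 156) (nat_lit 228) (nat_lit 0) (XT.nd (nat_lit 78) (nat_lit 76) (nat_lit 0) (XT.lf (nat_lit 0) (nat_lit 7341602606) (nat_lit 76) (nat_lit 54609633854) (nat_lit 152) (nat_lit 5399228913) (nat_lit 17) (nat_lit 5) (nat_lit 18) (nat_lit 5) (nat_lit 19) (nat_lit 4) (nat_lit 284) (nat_lit 275) (nat_lit 221)) (XT.lf (nat_lit 0) (nat_lit 6286925523) (nat_lit 152) (nat_lit 26750441598) (nat_lit 76) (nat_lit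 40449933206) (nat_lit 16) (nat_lit 5) (nat_lit 18) (nat_lit 5) (nat_lit 17) (nat_lit 5) (nat_lit 285) (nat_lit 275) (nat_lit 220))) (XT.nd (nat_lit 78) (nat_lit 76) (nat_lit 0) (XT.lf (nat_lit 0) (nat_lit 12332335516) (nat_lit 152) (nat_lit 7347986303) (nat_lit 228) (nat_lit 60749717315) (nat_lit 14) (nat_lit 5) (nat_lit 16) (nat_lit 5) (nat_lit 17) (nat_lit 5) (nat_lit 286) (nat_lit 275) (nat_lit 219)) (XT.nd (nat_lit 78) (nat_lit 76) (nat_lit 0) (XT.lf (nat_lit 0) (nat_lit 37463302215) (nat_lit 228) (nat_lit 28911560624) (nat_lit 76) (nat_lit 21682247604) (nat_lit 14) (nat_lit 5) (nat_lit 17) (nat_lit 5) (nat_lit 15) (nat_lit 4) (nat_lit 287) (nat_lit 275) (nat_lit 218)) (XT.lf (nat_lit 0) (nat_lit 17341782789) (nat_lit 76) (nat_lit 41637006899) (nat_lit 152) (nat_lit 37689700610) (nat_lit 13) (nat_lit 5) (nat_lit 14) (nat_lit 5) (nat_lit 15) (nat_lit 4) (nat_lit 288) (nat_lit 275)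 (nat_lit 217))))))))
noncomputable def xc78 : XT := (XT.nd (nat_lit 1482) (nat_lit 228) (nat_lit 0) (XT.nd (nat_lit 702) (nat_lit 228) (nat_lit 0) (XT.nd (nat_lit 312) (nat_lit 228) (nat_lit 0) (XT.nd (nat_lit 156) (nat_lit 76) (nat_lit 0) (XT.nd (nat_lit 78) (nat_lit 152) (nat_lit 0) (XT.lf (nat_lit 0) (nat_lit 73777904280) (nat_lit 76) (nat_lit 11452248146) (nat_lit 152) (nat_lit 21115147843) (nat_lit 13) (nat_lit 5) (nat_lit 14) (nat_lit 5) (nat_lit 15) (nat_lit 4) (nat_lit 289) (nat_lit 275) (nat_lit 216)) (XT.lf (nat_lit 0) (nat_lit 98681116) (nat_lit 152) (nat_lit 94979722441) (nat_lit 76) (nat_lit 22112463713) (nat_lit 11) (nat_lit 5) (nat_lit 13) (nat_lit 5) (nat_lit 12) (nat_lit 4) (nat_lit 290) (nat_lit 275) (nat_lit 215))) (XT.nd (nat_lit 78) (nat_lit 76) (nat_lit 0) (XT.lf (nat_lit 0) (nat_lit 24659191894) (nat_lit 152) (nat_lit 42177457108) (nat_lit 76) (nat_lit 62326842290)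 (nat_lit 11) (nat_lit 5) (nat_lit 13) (nat_lit 5) (nat_lit 12) (nat_lit 4) (nat_lit 291) (nat_lit 275) (nat_lit 214)) (XT.lf (nat_lit 0) (nat_lit 20353458565) (nat_lit 76) (nat_lit 33391025893) (nat_lit 152) (nat_lit 89061422091) (nat_lit 10) (nat_lit 5) (nat_lit 11) (nat_lit 5) (nat_lit 12) (nat_lit 4) (nat_lit 292) (nat_lit 275) (nat_lit 213)))) (XT.nd (nat_lit 156) (nat_lit 152) (nat_lit 0) (XT.nd (nat_lit 78) (nat_lit 76) (nat_lit 0) (XT.lf (nat_lit 0) (nat_lit 89710259695) (nat_lit 152) (nat_lit 61478536135) (nat_lit 0) (nat_lit 6928237908) (nat_lit 10) (nat_lit 5) (nat_lit 12) (nat_lit 4) (nat_lit 10) (nat_lit 4) (nat_lit 293) (nat_lit 275) (nat_lit 212)) (XT.lf (nat_lit 0) (nat_lit 7736940402) (nat_lit 76) (nat_lit 125242617569) (nat_lit 76) (nat_lit 42458976097) (nat_lit 9) (nat_lit 4) (nat_lit 10) (nat_lit 5) (nat_lit 10) (nat_lit 4) (nat_lit 294) (nat_lit 275) (nat_lit 211)))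 (XT.nd (nat_lit 78) (nat_lit 152) (nat_lit 0) (XT.lf (nat_lit 0) (nat_lit 94240966963) (nat_lit 76) (nat_lit 91710273127) (nat_lit 76) (nat_lit 8925223233) (nat_lit 9) (nat_lit 4) (nat_lit 10) (nat_lit 5) (nat_lit 10) (nat_lit 4) (nat_lit 295) (nat_lit 275) (nat_lit 210)) (XT.nd (nat_lit 78) (nat_lit 76) (nat_lit 0) (XT.lf (nat_lit 0) (nat_lit 26998444602) (nat_lit 152) (nat_lit 24739618714) (nat_lit 76) (nat_lit 165308157032) (nat_lit 8) (nat_lit 5) (nat_lit 10) (nat_lit 5) (nat_lit 9) (nat_lit 4) (nat_lit 296) (nat_lit 275) (nat_lit 209)) (XT.lf (nat_lit 0) (nat_lit 68183287867) (nat_lit 76) (nat_lit 2035608619) (nat_lit 152) (nat_lit 171835493309) (nat_lit 7) (nat_lit 5) (nat_lit 8) (nat_lit 5) (nat_lit 9) (nat_lit 4) (nat_lit 297) (nat_lit 275) (nat_lit 208)))))) (XT.nd (nat_lit 390) (nat_lit 76) (nat_lit 0) (XT.nd (nat_lit 156) (nat_lit 152) (nat_lit 0) (XT.nd (nat_lit 78) (nat_lit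 0) (nat_lit 0) (XT.lf (nat_lit 0) (nat_lit 123558406909) (nat_lit 152) (nat_lit 95141369716) (nat_lit 0) (nat_lit 51568610701) (nat_lit 7) (nat_lit 5) (nat_lit 9) (nat_lit 4) (nat_lit 7) (nat_lit 4) (nat_lit 298) (nat_lit 275) (nat_lit 207)) (XT.lf (nat_lit 0) (nat_lit 184994654828) (nat_lit 152) (nat_lit 4701300748) (nat_lit 0) (nat_lit 113004158385) (nat_lit 7) (nat_lit 5) (nat_lit 9) (nat_lit 4) (nat_lit 7) (nat_lit 4) (nat_lit 299) (nat_lit 275) (nat_lit 206))) (XT.nd (nat_lit 78) (nat_lit 76) (nat_lit 0) (XT.lf (nat_lit 0) (nat_lit 109007473926) (nat_lit 76) (nat_lit 151151656687) (nat_lit 76) (nat_lit 79160551345) (nat_lit 6) (nat_lit 4) (nat_lit 7) (nat_lit 5) (nat_lit 7) (nat_lit 4) (nat_lit 300) (nat_lit 275) (nat_lit 205)) (XT.nd (nat_lit 78) (nat_lit 76) (nat_lit 0) (XT.lf (nat_lit 0) (nat_lit 240299109665) (nat_lit 76) (nat_lit 106543993659) (nat_lit 76) (nat_lit 34552358839)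 (nat_lit 6) (nat_lit 4) (nat_lit 7) (nat_lit 5) (nat_lit 7) (nat_lit 4) (nat_lit 301) (nat_lit 275) (nat_lit 204)) (XT.lf (nat_lit 0) (nat_lit 15255280589) (nat_lit 152) (nat_lit 39193241968) (nat_lit 76) (nat_lit 375230194851) (nat_lit 5) (nat_lit 5) (nat_lit 7) (nat_lit 5) (nat_lit 6) (nat_lit 4) (nat_lit 302) (nat_lit 275) (nat_lit 203))))) (XT.nd (nat_lit 156) (nat_lit 0) (nat_lit 0) (XT.nd (nat_lit 78) (nat_lit 0) (nat_lit 0) (XT.lf (nat_lit 0) (nat_lit 72935934474) (nat_lit 152) (nat_lit 401097054276) (nat_lit 0) (nat_lit 10333764390) (nat_lit 4) (nat_lit 5) (nat_lit 6) (nat_lit 4) (nat_lit 4) (nat_lit 4) (nat_lit 303) (nat_lit 275) (nat_lit 202)) (XT.lf (nat_lit 0) (nat_lit 144007047081) (nat_lit 152) (nat_lit 321135619270) (nat_lit 0) (nat_lit 81404574266) (nat_lit 4) (nat_lit 5) (nat_lit 6) (nat_lit 4) (nat_lit 4) (nat_lit 4) (nat_lit 304) (nat_lit 275) (nat_lit 201))) (XT.nd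 (nat_lit 78) (nat_lit 0) (nat_lit 0) (XT.lf (nat_lit 0) (nat_lit 225738198116) (nat_lit 152) (nat_lit 229181235731) (nat_lit 0) (nat_lit 163135462056) (nat_lit 4) (nat_lit 5) (nat_lit 6) (nat_lit 4) (nat_lit 4) (nat_lit 4) (nat_lit 305) (nat_lit 275) (nat_lit 200)) (XT.nd (nat_lit 78) (nat_lit 0) (nat_lit 0) (XT.lf (nat_lit 0) (nat_lit 319728475315) (nat_lit 152) (nat_lit 123434796156) (nat_lit 0) (nat_lit 257125510348) (nat_lit 4) (nat_lit 5) (nat_lit 6) (nat_lit 4) (nat_lit 4) (nat_lit 4) (nat_lit 306) (nat_lit 275) (nat_lit 199)) (XT.lf (nat_lit 0) (nat_lit 427816818886) (nat_lit 152) (nat_lit 1827348467) (nat_lit 0) (nat_lit 365213654869) (nat_lit 4) (nat_lit 5) (nat_lit 6) (nat_lit 4) (nat_lit 4) (nat_lit 4) (nat_lit 307) (nat_lit 275) (nat_lit 198))))))) (XT.nd (nat_lit 780) (nat_lit 0) (nat_lit 0) (XT.nd (nat_lit 390) (nat_lit 152) (nat_lit 0) (XT.nd (nat_lit 156) (nat_lit 0) (nat_lit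 0) (XT.nd (nat_lit 78) (nat_lit 0) (nat_lit 0) (XT.lf (nat_lit 0) (nat_lit 151508739145) (nat_lit 76) (nat_lit 406882915418) (nat_lit 76) (nat_lit 344279578313) (nat_lit 3) (nat_lit 4) (nat_lit 4) (nat_lit 5) (nat_lit 4) (nat_lit 4) (nat_lit 308) (nat_lit 275) (nat_lit 197)) (XT.lf (nat_lit 0) (nat_lit 328049813920) (nat_lit 76) (nat_lit 380598029912) (nat_lit 76) (nat_lit 317994542297) (nat_lit 3) (nat_lit 4) (nat_lit 4) (nat_lit 5) (nat_lit 4) (nat_lit 4) (nat_lit 309) (nat_lit 275) (nat_lit 196))) (XT.nd (nat_lit 78) (nat_lit 0) (nat_lit 0) (XT.lf (nat_lit 0) (nat_lit 531071358580) (nat_lit 76) (nat_lit 350370761828) (nat_lit 76) (nat_lit 287767143333) (nat_lit 3) (nat_lit 4) (nat_lit 4) (nat_lit 5) (nat_lit 4) (nat_lit 4) (nat_lit 310) (nat_lit 275) (nat_lit 195)) (XT.nd (nat_lit 78) (nat_lit 0) (nat_lit 0) (XT.lf (nat_lit 0) (nat_lit 764545533783) (nat_lit 76) (nat_lit 315609708092)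 (nat_lit 76) (nat_lit 253005975790) (nat_lit 3) (nat_lit 4) (nat_lit 4) (nat_lit 5) (nat_lit 4) (nat_lit 4) (nat_lit 311) (nat_lit 275) (nat_lit 194)) (XT.lf (nat_lit 0) (nat_lit 1033040312522) (nat_lit 76) (nat_lit 275634761133) (nat_lit 76) (nat_lit 213030929868) (nat_lit 3) (nat_lit 4) (nat_lit 4) (nat_lit 5) (nat_lit 4) (nat_lit 4) (nat_lit 312) (nat_lit 275) (nat_lit 193))))) (XT.nd (nat_lit 156) (nat_lit 152) (nat_lit 0) (XT.nd (nat_lit 78) (nat_lit 0) (nat_lit 0) (XT.lf (nat_lit 0) (nat_lit 1341808853510) (nat_lit 76) (nat_lit 229663802423) (nat_lit 76) (nat_lit 167059885103) (nat_lit 3) (nat_lit 4) (nat_lit 4) (nat_lit 5) (nat_lit 4) (nat_lit 4) (nat_lit 313) (nat_lit 275) (nat_lit 192)) (XT.lf (nat_lit 0) (nat_lit 1696892280377) (nat_lit 76) (nat_lit 176797400160) (nat_lit 76) (nat_lit 114193408010) (nat_lit 3) (nat_lit 4) (nat_lit 4) (nat_lit 5) (nat_lit 4) (nat_lit 4) (nat_lit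 314) (nat_lit 275) (nat_lit 191))) (XT.nd (nat_lit 78) (nat_lit 152) (nat_lit 0) (XT.lf (nat_lit 0) (nat_lit 2105237877560) (nat_lit 76) (nat_lit 116001211693) (nat_lit 76) (nat_lit 53397154472) (nat_lit 3) (nat_lit 4) (nat_lit 4) (nat_lit 5) (nat_lit 4) (nat_lit 4) (nat_lit 315) (nat_lit 275) (nat_lit 190)) (XT.nd (nat_lit 78) (nat_lit 76) (nat_lit 0) (XT.lf (nat_lit 0) (nat_lit 15047788131) (nat_lit 152) (nat_lit 30251369320) (nat_lit 76) (nat_lit 2559000638382) (nat_lit 2) (nat_lit 5) (nat_lit 4) (nat_lit 5) (nat_lit 3) (nat_lit 4) (nat_lit 316) (nat_lit 275) (nat_lit 189)) (XT.lf (nat_lit 0) (nat_lit 95962903617) (nat_lit 152) (nat_lit 2844393525506) (nat_lit 0) (nat_lit 41524501004) (nat_lit 1) (nat_lit 5) (nat_lit 3) (nat_lit 4) (nat_lit 1) (nat_lit 4) (nat_lit 317) (nat_lit 275) (nat_lit 188)))))) (XT.nd (nat_lit 390) (nat_lit 0) (nat_lit 0) (XT.nd (nat_lit 156) (nat_lit 0) (nat_lit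 0) (XT.nd (nat_lit 78) (nat_lit 0) (nat_lit 0) (XT.lf (nat_lit 0) (nat_lit 192828878592) (nat_lit 152) (nat_lit 3084307878431) (nat_lit 0) (nat_lit 138390438775) (nat_lit 1) (nat_lit 5) (nat_lit 3) (nat_lit 4) (nat_lit 1) (nat_lit 4) (nat_lit 318) (nat_lit 275) (nat_lit 187)) (XT.lf (nat_lit 0) (nat_lit 304224634009) (nat_lit 152) (nat_lit 3360209622892) (nat_lit 0) (nat_lit 249786161841) (nat_lit 1) (nat_lit 5) (nat_lit 3) (nat_lit 4) (nat_lit 1) (nat_lit 4) (nat_lit 319) (nat_lit 275) (nat_lit 186))) (XT.nd (nat_lit 78) (nat_lit 0) (nat_lit 0) (XT.lf (nat_lit 0) (nat_lit 432329652039) (nat_lit 152) (nat_lit 3677496836499) (nat_lit 0) (nat_lit 377891151739) (nat_lit 1) (nat_lit 5) (nat_lit 3) (nat_lit 4) (nat_lit 1) (nat_lit 4) (nat_lit 320) (nat_lit 275) (nat_lit 185)) (XT.nd (nat_lit 78) (nat_lit 0) (nat_lit 0) (XT.lf (nat_lit 0) (nat_lit 579650335209) (nat_lit 152) (nat_lit 4042377312561)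 (nat_lit 0) (nat_lit 525211810447) (nat_lit 1) (nat_lit 5) (nat_lit 3) (nat_lit 4) (nat_lit 1) (nat_lit 4) (nat_lit 321) (nat_lit 275) (nat_lit 184)) (XT.lf (nat_lit 0) (nat_lit 749069044711) (nat_lit 152) (nat_lit 4461990016914) (nat_lit 0) (nat_lit 694630498678) (nat_lit 1) (nat_lit 5) (nat_lit 3) (nat_lit 4) (nat_lit 1) (nat_lit 4) (nat_lit 322) (nat_lit 275) (nat_lit 183))))) (XT.nd (nat_lit 156) (nat_lit 0) (nat_lit 0) (XT.nd (nat_lit 78) (nat_lit 0) (nat_lit 0) (XT.lf (nat_lit 0) (nat_lit 943900494427) (nat_lit 152) (nat_lit 4944544763339) (nat_lit 0) (nat_lit 889461929897) (nat_lit 1) (nat_lit 5) (nat_lit 3) (nat_lit 4) (nat_lit 1) (nat_lit 4) (nat_lit 323) (nat_lit 275) (nat_lit 182)) (XT.lf (nat_lit 0) (nat_lit 1167956604026) (nat_lit 152) (nat_lit 5499482840352) (nat_lit 0) (nat_lit 1113518023411) (nat_lit 1) (nat_lit 5) (nat_lit 3) (nat_lit 4) (nat_lit 1) (nat_lit 4) (nat_lit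 324) (nat_lit 275) (nat_lit 181))) (XT.nd (nat_lit 78) (nat_lit 0) (nat_lit 0) (XT.lf (nat_lit 0) (nat_lit 1425621079998) (nat_lit 152) (nat_lit 6137661732070) (nat_lit 0) (nat_lit 1371182485397) (nat_lit 1) (nat_lit 5) (nat_lit 3) (nat_lit 4) (nat_lit 1) (nat_lit 4) (nat_lit 325) (nat_lit 275) (nat_lit 180)) (XT.nd (nat_lit 78) (nat_lit 0) (nat_lit 0) (XT.lf (nat_lit 0) (nat_lit 1721935183832) (nat_lit 152) (nat_lit 6871567547243) (nat_lit 0) (nat_lit 1667496577068) (nat_lit 1) (nat_lit 5) (nat_lit 3) (nat_lit 4) (nat_lit 1) (nat_lit 4) (nat_lit 326) (nat_lit 275) (nat_lit 179)) (XT.lf (nat_lit 0) (nat_lit 2062696365383) (nat_lit 152) (nat_lit 7715559312690) (nat_lit 0) (nat_lit 2008257748044) (nat_lit 1) (nat_lit 5) (nat_lit 3) (nat_lit 4) (nat_lit 1) (nat_lit 4) (nat_lit 327) (nat_lit 275) (nat_lit 178))))))))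
noncomputable def xc79 : XT := (XT.nd (nat_lit 36582) (nat_lit 0) (nat_lit 608) (XT.nd (nat_lit 702) (nat_lit 0) (nat_lit 0) (XT.nd (nat_lit 312) (nat_lit 0) (nat_lit 0) (XT.nd (nat_lit 156) (nat_lit 0) (nat_lit 0) (XT.nd (nat_lit 78) (nat_lit 0) (nat_lit 0) (XT.lf (nat_lit 0) (nat_lit 2454571691249) (nat_lit 152) (nat_lit 8686149910779) (nat_lit 0) (nat_lit 2400133064713) (nat_lit 1) (nat_lit 5) (nat_lit 3) (nat_lit 4) (nat_lit 1) (nat_lit 4) (nat_lit 328) (nat_lit 275) (nat_lit 177)) (XT.lf (nat_lit 0) (nat_lit 2905228287369) (nat_lit 152) (nat_lit 9802329157558) (nat_lit 0) (nat_lit 2850789652837) (nat_lit 1) (nat_lit 5) (nat_lit 3) (nat_lit 4) (nat_lit 1) (nat_lit 4) (nat_lit 329) (nat_lit 275) (nat_lit 176))) (XT.nd (nat_lit 78) (nat_lit 0) (nat_lit 0) (XT.lf (nat_lit 0) (nat_lit 3423483348016) (nat_lit 152) (nat_lit 11085935342639) (nat_lit 0) (nat_lit 3369044706530) (nat_lit 1)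 (nat_lit 5) (nat_lit 3) (nat_lit 4) (nat_lit 1) (nat_lit 4) (nat_lit 330) (nat_lit 275) (nat_lit 175)) (XT.lf (nat_lit 0) (nat_lit 4019476646116) (nat_lit 152) (nat_lit 12562082500078) (nat_lit 0) (nat_lit 3965037998583) (nat_lit 1) (nat_lit 5) (nat_lit 3) (nat_lit 4) (nat_lit 1) (nat_lit 4) (nat_lit 331) (nat_lit 275) (nat_lit 174)))) (XT.nd (nat_lit 156) (nat_lit 0) (nat_lit 0) (XT.nd (nat_lit 78) (nat_lit 0) (nat_lit 0) (XT.lf (nat_lit 0) (nat_lit 4704868920108) (nat_lit 152) (nat_lit 14259651769912) (nat_lit 0) (nat_lit 4650430267318) (nat_lit 1) (nat_lit 5) (nat_lit 3) (nat_lit 4) (nat_lit 1) (nat_lit 4) (nat_lit 332) (nat_lit 275) (nat_lit 173)) (XT.lf (nat_lit 0) (nat_lit 5493070018834) (nat_lit 152) (nat_lit 16211856463941) (nat_lit 0) (nat_lit 5438631361471) (nat_lit 1) (nat_lit 5) (nat_lit 3) (nat_lit 4) (nat_lit 1) (nat_lit 4) (nat_lit 333) (nat_lit 275) (nat_lit 172))) (XT.nd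 (nat_lit 78) (nat_lit 0) (nat_lit 0) (XT.lf (nat_lit 0) (nat_lit 6399501268136) (nat_lit 152) (nat_lit 18456891891397) (nat_lit 0) (nat_lit 6345062606798) (nat_lit 1) (nat_lit 5) (nat_lit 3) (nat_lit 4) (nat_lit 1) (nat_lit 4) (nat_lit 334) (nat_lit 275) (nat_lit 171)) (XT.nd (nat_lit 78) (nat_lit 0) (nat_lit 0) (XT.lf (nat_lit 0) (nat_lit 7441897192459) (nat_lit 152) (nat_lit 21038682658469) (nat_lit 0) (nat_lit 7387458527663) (nat_lit 1) (nat_lit 5) (nat_lit 3) (nat_lit 4) (nat_lit 1) (nat_lit 4) (nat_lit 335) (nat_lit 275) (nat_lit 170)) (XT.lf (nat_lit 0) (nat_lit 8640652494668) (nat_lit 152) (nat_lit 24007742062774) (nat_lit 0) (nat_lit 8586213826866) (nat_lit 1) (nat_lit 5) (nat_lit 3) (nat_lit 4) (nat_lit 1) (nat_lit 4) (nat_lit 336) (nat_lit 275) (nat_lit 169)))))) (XT.nd (nat_lit 1014) (nat_lit 0) (nat_lit 0) (XT.nd (nat_lit 156) (nat_lit 0) (nat_lit 0) (XT.nd (nat_lit 78) (nat_lit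 0) (nat_lit 0) (XT.lf (nat_lit 0) (nat_lit 10019221082851) (nat_lit 152) (nat_lit 27422160397004) (nat_lit 0) (nat_lit 9964782412435) (nat_lit 1) (nat_lit 5) (nat_lit 3) (nat_lit 4) (nat_lit 1) (nat_lit 4) (nat_lit 337) (nat_lit 275) (nat_lit 168)) (XT.lf (nat_lit 0) (nat_lit 11604574951125) (nat_lit 152) (nat_lit 31348741498134) (nat_lit 0) (nat_lit 11550136278436) (nat_lit 1) (nat_lit 5) (nat_lit 3) (nat_lit 4) (nat_lit 1) (nat_lit 4) (nat_lit 338) (nat_lit 275) (nat_lit 167))) (XT.nd (nat_lit 78) (nat_lit 0) (nat_lit 0) (XT.lf (nat_lit 0) (nat_lit 13427731892565) (nat_lit 152) (nat_lit 35864309779012) (nat_lit 0) (nat_lit 13373293217899) (nat_lit 1) (nat_lit 5) (nat_lit 3) (nat_lit 4) (nat_lit 1) (nat_lit 4) (nat_lit 339) (nat_lit 275) (nat_lit 166)) (XT.nd (nat_lit 702) (nat_lit 0) (nat_lit 0) (XT.lf (nat_lit 0) (nat_lit 15524362369067) (nat_lit 152) (nat_lit 41057213314698) (nat_lit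 0) (nat_lit 15469923692682) (nat_lit 1) (nat_lit 5) (nat_lit 3) (nat_lit 4) (nat_lit 1) (nat_lit 4) (nat_lit 340) (nat_lit 275) (nat_lit 165)) (XT.lf (nat_lit 0) (nat_lit 55997126059535) (nat_lit 152) (nat_lit 141299560576207) (nat_lit 0) (nat_lit 55942687374948) (nat_lit 1) (nat_lit 5) (nat_lit 3) (nat_lit 4) (nat_lit 1) (nat_lit 4) (nat_lit 349) (nat_lit 275) (nat_lit 156))))) (XT.nd (nat_lit 156) (nat_lit 0) (nat_lit 0) (XT.nd (nat_lit 78) (nat_lit 0) (nat_lit 0) (XT.lf (nat_lit 0) (nat_lit 64479165630203) (nat_lit 152) (nat_lit 162307751795095) (nat_lit 0) (nat_lit 64424726945192) (nat_lit 1) (nat_lit 5) (nat_lit 3) (nat_lit 4) (nat_lit 1) (nat_lit 4) (nat_lit 350) (nat_lit 275) (nat_lit 155)) (XT.lf (nat_lit 0) (nat_lit 74233511135149) (nat_lit 152) (nat_lit 186467171699540) (nat_lit 0) (nat_lit 74179072449769) (nat_lit 1) (nat_lit 5) (nat_lit 3) (nat_lit 4) (nat_lit 1) (nat_lit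 4) (nat_lit 351) (nat_lit 275) (nat_lit 154))) (XT.nd (nat_lit 78) (nat_lit 0) (nat_lit 0) (XT.lf (nat_lit 0) (nat_lit 85451008464688) (nat_lit 152) (nat_lit 214250504592022) (nat_lit 0) (nat_lit 85396569778986) (nat_lit 1) (nat_lit 5) (nat_lit 3) (nat_lit 4) (nat_lit 1) (nat_lit 4) (nat_lit 352) (nat_lit 275) (nat_lit 153)) (XT.nd (nat_lit 78) (nat_lit 0) (nat_lit 0) (XT.lf (nat_lit 0) (nat_lit 98351130392657) (nat_lit 152) (nat_lit 246201337420437) (nat_lit 0) (nat_lit 98296691706676) (nat_lit 1) (nat_lit 5) (nat_lit 3) (nat_lit 4) (nat_lit 1) (nat_lit 4) (nat_lit 353) (nat_lit 275) (nat_lit 152)) (XT.lf (nat_lit 0) (nat_lit 113186270608952) (nat_lit 152) (nat_lit 282944795174905) (nat_lit 0) (nat_lit 113131831922728) (nat_lit 1) (nat_lit 5) (nat_lit 3) (nat_lit 4) (nat_lit 1) (nat_lit 4) (nat_lit 354) (nat_lit 275) (nat_lit 151))))))) (XT.nd (nat_lit 780) (nat_lit 608) (nat_lit 0)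 (XT.nd (nat_lit 390) (nat_lit 380) (nat_lit 0) (XT.nd (nat_lit 156) (nat_lit 0) (nat_lit 76) (XT.nd (nat_lit 78) (nat_lit 0) (nat_lit 0) (XT.lf (nat_lit 0) (nat_lit 2981237439) (nat_lit 380) (nat_lit 8040483171) (nat_lit 380) (nat_lit 8040483171) (nat_lit 22) (nat_lit 3) (nat_lit 27) (nat_lit 3) (nat_lit 27) (nat_lit 5) (nat_lit 276) (nat_lit 276) (nat_lit 228)) (XT.lf (nat_lit 76) (nat_lit 1901079178) (nat_lit 0) (nat_lit 4628234366) (nat_lit 380) (nat_lit 34436320932) (nat_lit 23) (nat_lit 5) (nat_lit 22) (nat_lit 3) (nat_lit 27) (nat_lit 5) (nat_lit 277) (nat_lit 276) (nat_lit 227))) (XT.nd (nat_lit 78) (nat_lit 0) (nat_lit 0) (XT.lf (nat_lit 0) (nat_lit 8692091723) (nat_lit 304) (nat_lit 20402805607) (nat_lit 380) (nat_lit 14911538763) (nat_lit 23) (nat_lit 5) (nat_lit 27) (nat_lit 5) (nat_lit 28) (nat_lit 5) (nat_lit 278) (nat_lit 276) (nat_lit 226)) (XT.nd (nat_lit 78) (nat_lit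 0) (nat_lit 76) (XT.lf (nat_lit 76) (nat_lit 914075385) (nat_lit 0) (nat_lit 10517052499) (nat_lit 380) (nat_lit 36034477985) (nat_lit 24) (nat_lit 5) (nat_lit 23) (nat_lit 5) (nat_lit 28) (nat_lit 5) (nat_lit 279) (nat_lit 276) (nat_lit 225)) (XT.lf (nat_lit 0) (nat_lit 16141755033) (nat_lit 304) (nat_lit 24067952264) (nat_lit 76) (nat_lit 10999854442) (nat_lit 24) (nat_lit 5) (nat_lit 28) (nat_lit 5) (nat_lit 25) (nat_lit 5) (nat_lit 280) (nat_lit 276) (nat_lit 224))))) (XT.nd (nat_lit 156) (nat_lit 228) (nat_lit 0) (XT.nd (nat_lit 78) (nat_lit 0) (nat_lit 0) (XT.lf (nat_lit 0) (nat_lit 1407617281) (nat_lit 304) (nat_lit 20705473517) (nat_lit 380) (nat_lit 33318921239) (nat_lit 20) (nat_lit 5) (nat_lit 24) (nat_lit 5) (nat_lit 25) (nat_lit 5) (nat_lit 281) (nat_lit 276) (nat_lit 223)) (XT.lf (nat_lit 0) (nat_lit 30364992110) (nat_lit 380) (nat_lit 26826500001) (nat_lit 76) (nat_lit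 2888623842) (nat_lit 20) (nat_lit 5) (nat_lit 25) (nat_lit 5) (nat_lit 21) (nat_lit 5) (nat_lit 282) (nat_lit 276) (nat_lit 222))) (XT.nd (nat_lit 78) (nat_lit 76) (nat_lit 0) (XT.lf (nat_lit 0) (nat_lit 3798485670) (nat_lit 152) (nat_lit 37195502667) (nat_lit 228) (nat_lit 24260564444) (nat_lit 18) (nat_lit 5) (nat_lit 20) (nat_lit 5) (nat_lit 21) (nat_lit 5) (nat_lit 283) (nat_lit 276) (nat_lit 221)) (XT.nd (nat_lit 78) (nat_lit 76) (nat_lit 0) (XT.lf (nat_lit 0) (nat_lit 42027583684) (nat_lit 152) (nat_lit 12588418597) (nat_lit 228) (nat_lit 16379364593) (nat_lit 18) (nat_lit 5) (nat_lit 20) (nat_lit 5) (nat_lit 21) (nat_lit 5) (nat_lit 284) (nat_lit 276) (nat_lit 220)) (XT.lf (nat_lit 0) (nat_lit 8495108389) (nat_lit 76) (nat_lit 62785293588) (nat_lit 152) (nat_lit 6167048978) (nat_lit 17) (nat_lit 5) (nat_lit 18) (nat_lit 5) (nat_lit 19) (nat_lit 4) (nat_lit 285) (nat_lit 276) (nat_lit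 219)))))) (XT.nd (nat_lit 390) (nat_lit 304) (nat_lit 0) (XT.nd (nat_lit 156) (nat_lit 76) (nat_lit 0) (XT.nd (nat_lit 78) (nat_lit 152) (nat_lit 0) (XT.lf (nat_lit 0) (nat_lit 7263285586) (nat_lit 152) (nat_lit 30714218426) (nat_lit 76) (nat_lit 46527808328) (nat_lit 16) (nat_lit 5) (nat_lit 18) (nat_lit 5) (nat_lit 17) (nat_lit 5) (nat_lit 286) (nat_lit 276) (nat_lit 218)) (XT.lf (nat_lit 0) (nat_lit 14228757555) (nat_lit 152) (nat_lit 8434515959) (nat_lit 228) (nat_lit 69826562193) (nat_lit 14) (nat_lit 5) (nat_lit 16) (nat_lit 5) (nat_lit 17) (nat_lit 5) (nat_lit 287) (nat_lit 276) (nat_lit 217))) (XT.nd (nat_lit 78) (nat_lit 76) (nat_lit 0) (XT.lf (nat_lit 0) (nat_lit 43110234254) (nat_lit 228) (nat_lit 33204266702) (nat_lit 76) (nat_lit 24946996388) (nat_lit 14) (nat_lit 5) (nat_lit 17) (nat_lit 5) (nat_lit 15) (nat_lit 4) (nat_lit 288) (nat_lit 276) (nat_lit 216)) (XT.nd (nat_lit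 78) (nat_lit 0) (nat_lit 0) (XT.lf (nat_lit 0) (nat_lit 19985076950) (nat_lit 76) (nat_lit 47866129435) (nat_lit 152) (nat_lit 43313661931) (nat_lit 13) (nat_lit 5) (nat_lit 14) (nat_lit 5) (nat_lit 15) (nat_lit 4) (nat_lit 289) (nat_lit 276) (nat_lit 215)) (XT.lf (nat_lit 0) (nat_lit 84881134916) (nat_lit 76) (nat_lit 13155799717) (nat_lit 152) (nat_lit 24256773263) (nat_lit 13) (nat_lit 5) (nat_lit 14) (nat_lit 5) (nat_lit 15) (nat_lit 4) (nat_lit 290) (nat_lit 276) (nat_lit 214))))) (XT.nd (nat_lit 156) (nat_lit 152) (nat_lit 0) (XT.nd (nat_lit 78) (nat_lit 0) (nat_lit 0) (XT.lf (nat_lit 0) (nat_lit 135967272) (nat_lit 152) (nat_lit 109186894176) (nat_lit 76) (nat_lit 25443226631) (nat_lit 11) (nat_lit 5) (nat_lit 13) (nat_lit 5) (nat_lit 12) (nat_lit 4) (nat_lit 291) (nat_lit 276) (nat_lit 213)) (XT.lf (nat_lit 0) (nat_lit 28377621973) (nat_lit 152) (nat_lit 48469478603) (nat_lit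 76) (nat_lit 71687949817) (nat_lit 11) (nat_lit 5) (nat_lit 13) (nat_lit 5) (nat_lit 12) (nat_lit 4) (nat_lit 292) (nat_lit 276) (nat_lit 212))) (XT.nd (nat_lit 78) (nat_lit 76) (nat_lit 0) (XT.lf (nat_lit 0) (nat_lit 23439501827) (nat_lit 76) (nat_lit 38385023899) (nat_lit 152) (nat_lit 102399483777) (nat_lit 10) (nat_lit 5) (nat_lit 11) (nat_lit 5) (nat_lit 12) (nat_lit 4) (nat_lit 293) (nat_lit 276) (nat_lit 211)) (XT.nd (nat_lit 78) (nat_lit 76) (nat_lit 0) (XT.lf (nat_lit 0) (nat_lit 103183299056) (nat_lit 152) (nat_lit 70669707306) (nat_lit 0) (nat_lit 7979083256) (nat_lit 10) (nat_lit 5) (nat_lit 12) (nat_lit 4) (nat_lit 10) (nat_lit 4) (nat_lit 294) (nat_lit 276) (nat_lit 210)) (XT.lf (nat_lit 0) (nat_lit 8926699382) (nat_lit 76) (nat_lit 144015350316) (nat_lit 76) (nat_lit 48809909801) (nat_lit 9) (nat_lit 4) (nat_lit 10) (nat_lit 5) (nat_lit 10) (nat_lit 4) (nat_lit 295) (nat_lit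 276) (nat_lit 209))))))))
noncomputable def xc80 : XT := (XT.nd (nat_lit 1482) (nat_lit 152) (nat_lit 0) (XT.nd (nat_lit 702) (nat_lit 76) (nat_lit 0) (XT.nd (nat_lit 312) (nat_lit 228) (nat_lit 0) (XT.nd (nat_lit 156) (nat_lit 76) (nat_lit 0) (XT.nd (nat_lit 78) (nat_lit 76) (nat_lit 0) (XT.lf (nat_lit 0) (nat_lit 108402518894) (nat_lit 76) (nat_lit 105454935933) (nat_lit 76) (nat_lit 10248430448) (nat_lit 9) (nat_lit 4) (nat_lit 10) (nat_lit 5) (nat_lit 10) (nat_lit 4) (nat_lit 296) (nat_lit 276) (nat_lit 208)) (XT.lf (nat_lit 0) (nat_lit 31060550042) (nat_lit 152) (nat_lit 28427248953) (nat_lit 76) (nat_lit 190113489801) (nat_lit 8) (nat_lit 5) (nat_lit 10) (nat_lit 5) (nat_lit 9) (nat_lit 4) (nat_lit 297) (nat_lit 276) (nat_lit 207))) (XT.nd (nat_lit 78) (nat_lit 0) (nat_lit 0) (XT.lf (nat_lit 0) (nat_lit 78433033952) (nat_lit 76) (nat_lit 2330347799) (nat_lit 152) (nat_lit 197597406901)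 (nat_lit 7) (nat_lit 5) (nat_lit 8) (nat_lit 5) (nat_lit 9) (nat_lit 4) (nat_lit 298) (nat_lit 276) (nat_lit 206)) (XT.lf (nat_lit 0) (nat_lit 142102680818) (nat_lit 152) (nat_lit 109392076473) (nat_lit 0) (nat_lit 59312300775) (nat_lit 7) (nat_lit 5) (nat_lit 9) (nat_lit 4) (nat_lit 7) (nat_lit 4) (nat_lit 299) (nat_lit 276) (nat_lit 205)))) (XT.nd (nat_lit 156) (nat_lit 152) (nat_lit 0) (XT.nd (nat_lit 78) (nat_lit 76) (nat_lit 0) (XT.lf (nat_lit 0) (nat_lit 212752994681) (nat_lit 152) (nat_lit 5388670903) (nat_lit 0) (nat_lit 129962085160) (nat_lit 7) (nat_lit 5) (nat_lit 9) (nat_lit 4) (nat_lit 7) (nat_lit 4) (nat_lit 300) (nat_lit 276) (nat_lit 204)) (XT.lf (nat_lit 0) (nat_lit 125375609747) (nat_lit 76) (nat_lit 173816044244) (nat_lit 76) (nat_lit 91024674308) (nat_lit 6) (nat_lit 4) (nat_lit 7) (nat_lit 5) (nat_lit 7) (nat_lit 4) (nat_lit 301) (nat_lit 276) (nat_lit 203))) (XT.nd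 (nat_lit 78) (nat_lit 152) (nat_lit 0) (XT.lf (nat_lit 0) (nat_lit 276358771534) (nat_lit 76) (nat_lit 122518322320) (nat_lit 76) (nat_lit 39726552022) (nat_lit 6) (nat_lit 4) (nat_lit 7) (nat_lit 5) (nat_lit 7) (nat_lit 4) (nat_lit 302) (nat_lit 276) (nat_lit 202)) (XT.nd (nat_lit 78) (nat_lit 76) (nat_lit 0) (XT.lf (nat_lit 0) (nat_lit 17550433210) (nat_lit 152) (nat_lit 45058687036) (nat_lit 76) (nat_lit 431520370510) (nat_lit 5) (nat_lit 5) (nat_lit 7) (nat_lit 5) (nat_lit 6) (nat_lit 4) (nat_lit 303) (nat_lit 276) (nat_lit 201)) (XT.lf (nat_lit 0) (nat_lit 83883091590) (nat_lit 152) (nat_lit 461247973094) (nat_lit 0) (nat_lit 11889681877) (nat_lit 4) (nat_lit 5) (nat_lit 6) (nat_lit 4) (nat_lit 4) (nat_lit 4) (nat_lit 304) (nat_lit 276) (nat_lit 200)))))) (XT.nd (nat_lit 390) (nat_lit 0) (nat_lit 0) (XT.nd (nat_lit 156) (nat_lit 76) (nat_lit 0) (XT.nd (nat_lit 78) (nat_lit 0) (nat_lit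 0) (XT.lf (nat_lit 0) (nat_lit 165613988443) (nat_lit 152) (nat_lit 369294101879) (nat_lit 0) (nat_lit 93620349823) (nat_lit 4) (nat_lit 5) (nat_lit 6) (nat_lit 4) (nat_lit 4) (nat_lit 4) (nat_lit 305) (nat_lit 276) (nat_lit 199)) (XT.lf (nat_lit 0) (nat_lit 259604044615) (nat_lit 152) (nat_lit 263548107803) (nat_lit 0) (nat_lit 187610206945) (nat_lit 4) (nat_lit 5) (nat_lit 6) (nat_lit 4) (nat_lit 4) (nat_lit 4) (nat_lit 306) (nat_lit 276) (nat_lit 198))) (XT.nd (nat_lit 78) (nat_lit 76) (nat_lit 0) (XT.lf (nat_lit 0) (nat_lit 367692195989) (nat_lit 152) (nat_lit 141941047503) (nat_lit 0) (nat_lit 295698185231) (nat_lit 4) (nat_lit 5) (nat_lit 6) (nat_lit 4) (nat_lit 4) (nat_lit 4) (nat_lit 307) (nat_lit 276) (nat_lit 197)) (XT.nd (nat_lit 78) (nat_lit 76) (nat_lit 0) (XT.lf (nat_lit 0) (nat_lit 491993210742) (nat_lit 152) (nat_lit 2093652410) (nat_lit 0) (nat_lit 419999049473) (nat_lit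 4) (nat_lit 5) (nat_lit 6) (nat_lit 4) (nat_lit 4) (nat_lit 4) (nat_lit 308) (nat_lit 276) (nat_lit 196)) (XT.lf (nat_lit 0) (nat_lit 174242493875) (nat_lit 76) (nat_lit 467911581474) (nat_lit 76) (nat_lit 395917289326) (nat_lit 3) (nat_lit 4) (nat_lit 4) (nat_lit 5) (nat_lit 4) (nat_lit 4) (nat_lit 309) (nat_lit 276) (nat_lit 195))))) (XT.nd (nat_lit 156) (nat_lit 0) (nat_lit 0) (XT.nd (nat_lit 78) (nat_lit 0) (nat_lit 0) (XT.lf (nat_lit 0) (nat_lit 377263758928) (nat_lit 76) (nat_lit 437684455046) (nat_lit 76) (nat_lit 365690049091) (nat_lit 3) (nat_lit 4) (nat_lit 4) (nat_lit 5) (nat_lit 4) (nat_lit 4) (nat_lit 310) (nat_lit 276) (nat_lit 194)) (XT.lf (nat_lit 0) (nat_lit 610737690993) (nat_lit 76) (nat_lit 402923524490) (nat_lit 76) (nat_lit 330929019572) (nat_lit 3) (nat_lit 4) (nat_lit 4) (nat_lit 5) (nat_lit 4) (nat_lit 4) (nat_lit 311) (nat_lit 276) (nat_lit 193))) (XT.nd (nat_lit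 78) (nat_lit 0) (nat_lit 0) (XT.lf (nat_lit 0) (nat_lit 879232258308) (nat_lit 76) (nat_lit 362948684644) (nat_lit 76) (nat_lit 290954093671) (nat_lit 3) (nat_lit 4) (nat_lit 4) (nat_lit 5) (nat_lit 4) (nat_lit 4) (nat_lit 312) (nat_lit 276) (nat_lit 192)) (XT.nd (nat_lit 78) (nat_lit 0) (nat_lit 0) (XT.lf (nat_lit 0) (nat_lit 1188000615450) (nat_lit 76) (nat_lit 316977819075) (nat_lit 76) (nat_lit 244983153272) (nat_lit 3) (nat_lit 4) (nat_lit 4) (nat_lit 5) (nat_lit 4) (nat_lit 4) (nat_lit 313) (nat_lit 276) (nat_lit 191)) (XT.lf (nat_lit 0) (nat_lit 1543083882450) (nat_lit 76) (nat_lit 264111497806) (nat_lit 76) (nat_lit 192116766932) (nat_lit 3) (nat_lit 4) (nat_lit 4) (nat_lit 5) (nat_lit 4) (nat_lit 4) (nat_lit 314) (nat_lit 276) (nat_lit 190))))))) (XT.nd (nat_lit 780) (nat_lit 0) (nat_lit 0) (XT.nd (nat_lit 390) (nat_lit 0) (nat_lit 0) (XT.nd (nat_lit 156) (nat_lit 152) (nat_lit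 0) (XT.nd (nat_lit 78) (nat_lit 0) (nat_lit 0) (XT.lf (nat_lit 0) (nat_lit 1951429340618) (nat_lit 76) (nat_lit 203315379766) (nat_lit 76) (nat_lit 131320592310) (nat_lit 3) (nat_lit 4) (nat_lit 4) (nat_lit 5) (nat_lit 4) (nat_lit 4) (nat_lit 315) (nat_lit 276) (nat_lit 189)) (XT.lf (nat_lit 0) (nat_lit 2421026357616) (nat_lit 76) (nat_lit 133399975692) (nat_lit 76) (nat_lit 61405139033) (nat_lit 3) (nat_lit 4) (nat_lit 4) (nat_lit 5) (nat_lit 4) (nat_lit 4) (nat_lit 316) (nat_lit 276) (nat_lit 188))) (XT.nd (nat_lit 78) (nat_lit 76) (nat_lit 0) (XT.lf (nat_lit 0) (nat_lit 17306214769) (nat_lit 152) (nat_lit 34786517688) (nat_lit 76) (nat_lit 2942851843351) (nat_lit 2) (nat_lit 5) (nat_lit 4) (nat_lit 5) (nat_lit 3) (nat_lit 4) (nat_lit 317) (nat_lit 276) (nat_lit 187)) (XT.nd (nat_lit 78) (nat_lit 0) (nat_lit 0) (XT.lf (nat_lit 0) (nat_lit 110358586076) (nat_lit 152) (nat_lit 3271049985247)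 (nat_lit 0) (nat_lit 47754310731) (nat_lit 1) (nat_lit 5) (nat_lit 3) (nat_lit 4) (nat_lit 1) (nat_lit 4) (nat_lit 318) (nat_lit 276) (nat_lit 186)) (XT.lf (nat_lit 0) (nat_lit 221754294656) (nat_lit 152) (nat_lit 3546951826209) (nat_lit 0) (nat_lit 159149991180) (nat_lit 1) (nat_lit 5) (nat_lit 3) (nat_lit 4) (nat_lit 1) (nat_lit 4) (nat_lit 319) (nat_lit 276) (nat_lit 185))))) (XT.nd (nat_lit 156) (nat_lit 0) (nat_lit 0) (XT.nd (nat_lit 78) (nat_lit 0) (nat_lit 0) (XT.lf (nat_lit 0) (nat_lit 349859271959) (nat_lit 152) (nat_lit 3864239123729) (nat_lit 0) (nat_lit 287254944020) (nat_lit 1) (nat_lit 5) (nat_lit 3) (nat_lit 4) (nat_lit 1) (nat_lit 4) (nat_lit 320) (nat_lit 276) (nat_lit 184)) (XT.lf (nat_lit 0) (nat_lit 497179919713) (nat_lit 152) (nat_lit 4229119672759) (nat_lit 0) (nat_lit 434575570503) (nat_lit 1) (nat_lit 5) (nat_lit 3) (nat_lit 4) (nat_lit 1) (nat_lit 4) (nat_lit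 321) (nat_lit 276) (nat_lit 183))) (XT.nd (nat_lit 78) (nat_lit 0) (nat_lit 0) (XT.lf (nat_lit 0) (nat_lit 666598598419) (nat_lit 152) (nat_lit 4648732440563) (nat_lit 0) (nat_lit 603994230712) (nat_lit 1) (nat_lit 5) (nat_lit 3) (nat_lit 4) (nat_lit 1) (nat_lit 4) (nat_lit 322) (nat_lit 276) (nat_lit 182)) (XT.nd (nat_lit 78) (nat_lit 0) (nat_lit 0) (XT.lf (nat_lit 0) (nat_lit 861430021356) (nat_lit 152) (nat_lit 5131287242162) (nat_lit 0) (nat_lit 798825637565) (nat_lit 1) (nat_lit 5) (nat_lit 3) (nat_lit 4) (nat_lit 1) (nat_lit 4) (nat_lit 323) (nat_lit 276) (nat_lit 181)) (XT.lf (nat_lit 0) (nat_lit 1085486107668) (nat_lit 152) (nat_lit 5686225367153) (nat_lit 0) (nat_lit 1022881709890) (nat_lit 1) (nat_lit 5) (nat_lit 3) (nat_lit 4) (nat_lit 1) (nat_lit 4) (nat_lit 324) (nat_lit 276) (nat_lit 180)))))) (XT.nd (nat_lit 390) (nat_lit 0) (nat_lit 0) (XT.nd (nat_lit 156) (nat_lit 0)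 (nat_lit 0) (XT.nd (nat_lit 78) (nat_lit 0) (nat_lit 0) (XT.lf (nat_lit 0) (nat_lit 1343150563392) (nat_lit 152) (nat_lit 6324404300591) (nat_lit 0) (nat_lit 1280546153452) (nat_lit 1) (nat_lit 5) (nat_lit 3) (nat_lit 4) (nat_lit 1) (nat_lit 4) (nat_lit 325) (nat_lit 276) (nat_lit 179)) (XT.lf (nat_lit 0) (nat_lit 1639464649617) (nat_lit 152) (nat_lit 7058310152042) (nat_lit 0) (nat_lit 1576860229102) (nat_lit 1) (nat_lit 5) (nat_lit 3) (nat_lit 4) (nat_lit 1) (nat_lit 4) (nat_lit 326) (nat_lit 276) (nat_lit 178))) (XT.nd (nat_lit 78) (nat_lit 0) (nat_lit 0) (XT.lf (nat_lit 0) (nat_lit 1980225815858) (nat_lit 152) (nat_lit 7902301949035) (nat_lit 0) (nat_lit 1917621386146) (nat_lit 1) (nat_lit 5) (nat_lit 3) (nat_lit 4) (nat_lit 1) (nat_lit 4) (nat_lit 327) (nat_lit 276) (nat_lit 177)) (XT.nd (nat_lit 78) (nat_lit 0) (nat_lit 0) (XT.lf (nat_lit 0) (nat_lit 2372101128409) (nat_lit 152)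 (nat_lit 8872892574555) (nat_lit 0) (nat_lit 2309496690701) (nat_lit 1) (nat_lit 5) (nat_lit 3) (nat_lit 4) (nat_lit 1) (nat_lit 4) (nat_lit 328) (nat_lit 276) (nat_lit 176)) (XT.lf (nat_lit 0) (nat_lit 2822757712952) (nat_lit 152) (nat_lit 9989071845188) (nat_lit 0) (nat_lit 2760153268290) (nat_lit 1) (nat_lit 5) (nat_lit 3) (nat_lit 4) (nat_lit 1) (nat_lit 4) (nat_lit 329) (nat_lit 276) (nat_lit 175))))) (XT.nd (nat_lit 156) (nat_lit 0) (nat_lit 0) (XT.nd (nat_lit 78) (nat_lit 0) (nat_lit 0) (XT.lf (nat_lit 0) (nat_lit 3341012763532) (nat_lit 152) (nat_lit 11272678051012) (nat_lit 0) (nat_lit 3278408312823) (nat_lit 1) (nat_lit 5) (nat_lit 3) (nat_lit 4) (nat_lit 1) (nat_lit 4) (nat_lit 330) (nat_lit 276) (nat_lit 174)) (XT.lf (nat_lit 0) (nat_lit 3937006052877) (nat_lit 152) (nat_lit 12748825226487) (nat_lit 0) (nat_lit 3874401596910) (nat_lit 1) (nat_lit 5) (nat_lit 3) (nat_lit 4)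 (nat_lit 1) (nat_lit 4) (nat_lit 331) (nat_lit 276) (nat_lit 173))) (XT.nd (nat_lit 78) (nat_lit 0) (nat_lit 0) (XT.lf (nat_lit 0) (nat_lit 4622398319258) (nat_lit 152) (nat_lit 14446394512005) (nat_lit 0) (nat_lit 4559793858719) (nat_lit 1) (nat_lit 5) (nat_lit 3) (nat_lit 4) (nat_lit 1) (nat_lit 4) (nat_lit 332) (nat_lit 276) (nat_lit 172)) (XT.nd (nat_lit 78) (nat_lit 0) (nat_lit 0) (XT.lf (nat_lit 0) (nat_lit 5410599411364) (nat_lit 152) (nat_lit 16398599219672) (nat_lit 0) (nat_lit 5347994946849) (nat_lit 1) (nat_lit 5) (nat_lit 3) (nat_lit 4) (nat_lit 1) (nat_lit 4) (nat_lit 333) (nat_lit 276) (nat_lit 171)) (XT.lf (nat_lit 0) (nat_lit 6317030654910) (nat_lit 152) (nat_lit 18643634658988) (nat_lit 0) (nat_lit 6254426186938) (nat_lit 1) (nat_lit 5) (nat_lit 3) (nat_lit 4) (nat_lit 1) (nat_lit 4) (nat_lit 334) (nat_lit 276) (nat_lit 170))))))))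
noncomputable def xc81 : XT := (XT.nd (nat_lit 36738) (nat_lit 0) (nat_lit 304) (XT.nd (nat_lit 1326) (nat_lit 0) (nat_lit 0) (XT.nd (nat_lit 312) (nat_lit 0) (nat_lit 0) (XT.nd (nat_lit 156) (nat_lit 0) (nat_lit 0) (XT.nd (nat_lit 78) (nat_lit 0) (nat_lit 0) (XT.lf (nat_lit 0) (nat_lit 7359426574228) (nat_lit 152) (nat_lit 21225425436372) (nat_lit 0) (nat_lit 7296822103249) (nat_lit 1) (nat_lit 5) (nat_lit 3) (nat_lit 4) (nat_lit 1) (nat_lit 4) (nat_lit 335) (nat_lit 276) (nat_lit 169)) (XT.lf (nat_lit 0) (nat_lit 8558181872085) (nat_lit 152) (nat_lit 24194484849644) (nat_lit 0) (nat_lit 8495577398492) (nat_lit 1) (nat_lit 5) (nat_lit 3) (nat_lit 4) (nat_lit 1) (nat_lit 4) (nat_lit 336) (nat_lit 276) (nat_lit 168))) (XT.nd (nat_lit 78) (nat_lit 0) (nat_lit 0) (XT.lf (nat_lit 0) (nat_lit 9936750456483) (nat_lit 152) (nat_lit 27608903191672) (nat_lit 0) (nat_lit 9874145980618) (nat_lit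 1) (nat_lit 5) (nat_lit 3) (nat_lit 4) (nat_lit 1) (nat_lit 4) (nat_lit 337) (nat_lit 276) (nat_lit 167)) (XT.lf (nat_lit 0) (nat_lit 11522104321466) (nat_lit 152) (nat_lit 31535484299583) (nat_lit 0) (nat_lit 11459499843624) (nat_lit 1) (nat_lit 5) (nat_lit 3) (nat_lit 4) (nat_lit 1) (nat_lit 4) (nat_lit 338) (nat_lit 276) (nat_lit 166)))) (XT.nd (nat_lit 780) (nat_lit 0) (nat_lit 0) (XT.nd (nat_lit 702) (nat_lit 0) (nat_lit 0) (XT.lf (nat_lit 0) (nat_lit 13345261260044) (nat_lit 152) (nat_lit 36051052586357) (nat_lit 0) (nat_lit 13282656780483) (nat_lit 1) (nat_lit 5) (nat_lit 3) (nat_lit 4) (nat_lit 1) (nat_lit 4) (nat_lit 339) (nat_lit 276) (nat_lit 165)) (XT.lf (nat_lit 0) (nat_lit 48538968828846) (nat_lit 152) (nat_lit 123218311050160) (nat_lit 0) (nat_lit 48476364341083) (nat_lit 1) (nat_lit 5) (nat_lit 3) (nat_lit 4) (nat_lit 1) (nat_lit 4) (nat_lit 348) (nat_lit 276) (nat_lit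 156))) (XT.nd (nat_lit 78) (nat_lit 0) (nat_lit 0) (XT.lf (nat_lit 0) (nat_lit 55914655412651) (nat_lit 152) (nat_lit 141486303413143) (nat_lit 0) (nat_lit 55852050924463) (nat_lit 1) (nat_lit 5) (nat_lit 3) (nat_lit 4) (nat_lit 1) (nat_lit 4) (nat_lit 349) (nat_lit 276) (nat_lit 155)) (XT.nd (nat_lit 78) (nat_lit 0) (nat_lit 0) (XT.lf (nat_lit 0) (nat_lit 64396694982704) (nat_lit 152) (nat_lit 162494494633299) (nat_lit 0) (nat_lit 64334090494148) (nat_lit 1) (nat_lit 5) (nat_lit 3) (nat_lit 4) (nat_lit 1) (nat_lit 4) (nat_lit 350) (nat_lit 276) (nat_lit 154)) (XT.lf (nat_lit 0) (nat_lit 74151040487116) (nat_lit 152) (nat_lit 186653914538846) (nat_lit 0) (nat_lit 74088435998238) (nat_lit 1) (nat_lit 5) (nat_lit 3) (nat_lit 4) (nat_lit 1) (nat_lit 4) (nat_lit 351) (nat_lit 276) (nat_lit 153)))))) (XT.nd (nat_lit 35022) (nat_lit 0) (nat_lit 1292) (XT.nd (nat_lit 34788) (nat_lit 0) (nat_lit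 1596) (XT.nd (nat_lit 78) (nat_lit 0) (nat_lit 0) (XT.lf (nat_lit 0) (nat_lit 85368537816189) (nat_lit 152) (nat_lit 214437247432287) (nat_lit 0) (nat_lit 85305933327031) (nat_lit 1) (nat_lit 5) (nat_lit 3) (nat_lit 4) (nat_lit 1) (nat_lit 4) (nat_lit 352) (nat_lit 276) (nat_lit 152)) (XT.lf (nat_lit 0) (nat_lit 98268659743754) (nat_lit 152) (nat_lit 246388080261535) (nat_lit 0) (nat_lit 98206055254353) (nat_lit 1) (nat_lit 5) (nat_lit 3) (nat_lit 4) (nat_lit 1) (nat_lit 4) (nat_lit 353) (nat_lit 276) (nat_lit 151))) (XT.nd (nat_lit 78) (nat_lit 0) (nat_lit 0) (XT.lf (nat_lit 0) (nat_lit 3467661505) (nat_lit 380) (nat_lit 9223918913) (nat_lit 380) (nat_lit 9223918913) (nat_lit 22) (nat_lit 3) (nat_lit 27) (nat_lit 3) (nat_lit 27) (nat_lit 5) (nat_lit 277) (nat_lit 277) (nat_lit 226)) (XT.nd (nat_lit 78) (nat_lit 0) (nat_lit 76) (XT.lf (nat_lit 76) (nat_lit 2229456637) (nat_lit 0) (nat_lit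 5349284188) (nat_lit 380) (nat_lit 39520974722) (nat_lit 23) (nat_lit 5) (nat_lit 22) (nat_lit 3) (nat_lit 27) (nat_lit 5) (nat_lit 278) (nat_lit 277) (nat_lit 225)) (XT.lf (nat_lit 0) (nat_lit 10055835839) (nat_lit 304) (nat_lit 23415322081) (nat_lit 380) (nat_lit 17127028325) (nat_lit 23) (nat_lit 5) (nat_lit 27) (nat_lit 5) (nat_lit 28) (nat_lit 5) (nat_lit 279) (nat_lit 277) (nat_lit 224))))) (XT.nd (nat_lit 156) (nat_lit 380) (nat_lit 0) (XT.nd (nat_lit 78) (nat_lit 0) (nat_lit 76) (XT.lf (nat_lit 76) (nat_lit 1096913589) (nat_lit 0) (nat_lit 12102890286) (nat_lit 380) (nat_lit 41377345587) (nat_lit 24) (nat_lit 5) (nat_lit 23) (nat_lit 5) (nat_lit 28) (nat_lit 5) (nat_lit 280) (nat_lit 277) (nat_lit 223)) (XT.lf (nat_lit 0) (nat_lit 18609682596) (nat_lit 304) (nat_lit 27630869420) (nat_lit 76) (nat_lit 12643273672) (nat_lit 24) (nat_lit 5) (nat_lit 28) (nat_lit 5) (nat_lit 25) (nat_lit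 5) (nat_lit 281) (nat_lit 277) (nat_lit 222))) (XT.nd (nat_lit 78) (nat_lit 152) (nat_lit 0) (XT.lf (nat_lit 0) (nat_lit 1663886663) (nat_lit 304) (nat_lit 23808614018) (nat_lit 380) (nat_lit 38267797816) (nat_lit 20) (nat_lit 5) (nat_lit 24) (nat_lit 5) (nat_lit 25) (nat_lit 5) (nat_lit 282) (nat_lit 277) (nat_lit 221)) (XT.nd (nat_lit 78) (nat_lit 152) (nat_lit 0) (XT.lf (nat_lit 0) (nat_lit 34956747238) (nat_lit 380) (nat_lit 30805665314) (nat_lit 76) (nat_lit 3324040798) (nat_lit 20) (nat_lit 5) (nat_lit 25) (nat_lit 5) (nat_lit 21) (nat_lit 5) (nat_lit 283) (nat_lit 277) (nat_lit 220)) (XT.lf (nat_lit 0) (nat_lit 4411031403) (nat_lit 152) (nat_lit 42766005718) (nat_lit 228) (nat_lit 27860493779) (nat_lit 18) (nat_lit 5) (nat_lit 20) (nat_lit 5) (nat_lit 21) (nat_lit 5) (nat_lit 284) (nat_lit 277) (nat_lit 219))))))) (XT.nd (nat_lit 780) (nat_lit 380) (nat_lit 0) (XT.nd (nat_lit 390)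 (nat_lit 304) (nat_lit 0) (XT.nd (nat_lit 156) (nat_lit 228) (nat_lit 0) (XT.nd (nat_lit 78) (nat_lit 76) (nat_lit 0) (XT.lf (nat_lit 0) (nat_lit 48368915048) (nat_lit 152) (nat_lit 14469009779) (nat_lit 228) (nat_lit 18802221168) (nat_lit 18) (nat_lit 5) (nat_lit 20) (nat_lit 5) (nat_lit 21) (nat_lit 5) (nat_lit 285) (nat_lit 277) (nat_lit 218)) (XT.lf (nat_lit 0) (nat_lit 9808894792) (nat_lit 76) (nat_lit 72191151639) (nat_lit 152) (nat_lit 7060299692) (nat_lit 17) (nat_lit 5) (nat_lit 18) (nat_lit 5) (nat_lit 19) (nat_lit 4) (nat_lit 286) (nat_lit 277) (nat_lit 217))) (XT.nd (nat_lit 78) (nat_lit 152) (nat_lit 0) (XT.lf (nat_lit 0) (nat_lit 8377974064) (nat_lit 152) (nat_lit 35284459385) (nat_lit 76) (nat_lit 53514832236) (nat_lit 16) (nat_lit 5) (nat_lit 18) (nat_lit 5) (nat_lit 17) (nat_lit 5) (nat_lit 287) (nat_lit 277) (nat_lit 216)) (XT.nd (nat_lit 78) (nat_lit 0) (nat_lit 0)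 (XT.lf (nat_lit 0) (nat_lit 16398286093) (nat_lit 152) (nat_lit 9687845874) (nat_lit 228) (nat_lit 80273618191) (nat_lit 14) (nat_lit 5) (nat_lit 16) (nat_lit 5) (nat_lit 17) (nat_lit 5) (nat_lit 288) (nat_lit 277) (nat_lit 215)) (XT.lf (nat_lit 0) (nat_lit 49597515483) (nat_lit 228) (nat_lit 38151615202) (nat_lit 76) (nat_lit 28698430833) (nat_lit 14) (nat_lit 5) (nat_lit 17) (nat_lit 5) (nat_lit 15) (nat_lit 4) (nat_lit 289) (nat_lit 277) (nat_lit 214))))) (XT.nd (nat_lit 156) (nat_lit 228) (nat_lit 0) (XT.nd (nat_lit 78) (nat_lit 0) (nat_lit 0) (XT.lf (nat_lit 0) (nat_lit 23014616748) (nat_lit 76) (nat_lit 55033626544) (nat_lit 152) (nat_lit 49788409692) (nat_lit 13) (nat_lit 5) (nat_lit 14) (nat_lit 5) (nat_lit 15) (nat_lit 4) (nat_lit 290) (nat_lit 277) (nat_lit 213)) (XT.lf (nat_lit 0) (nat_lit 97640938418) (nat_lit 76) (nat_lit 15118367669) (nat_lit 152) (nat_lit 27875896619) (nat_lit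 13) (nat_lit 5) (nat_lit 14) (nat_lit 5) (nat_lit 15) (nat_lit 4) (nat_lit 291) (nat_lit 277) (nat_lit 212))) (XT.nd (nat_lit 78) (nat_lit 76) (nat_lit 0) (XT.lf (nat_lit 0) (nat_lit 173363489) (nat_lit 152) (nat_lit 125534843893) (nat_lit 76) (nat_lit 29270216003) (nat_lit 11) (nat_lit 5) (nat_lit 13) (nat_lit 5) (nat_lit 12) (nat_lit 4) (nat_lit 292) (nat_lit 277) (nat_lit 211)) (XT.nd (nat_lit 78) (nat_lit 76) (nat_lit 0) (XT.lf (nat_lit 0) (nat_lit 32649048857) (nat_lit 152) (nat_lit 55713740038) (nat_lit 76) (nat_lit 82450277400) (nat_lit 11) (nat_lit 5) (nat_lit 13) (nat_lit 5) (nat_lit 12) (nat_lit 4) (nat_lit 293) (nat_lit 277) (nat_lit 210)) (XT.lf (nat_lit 0) (nat_lit 26980398350) (nat_lit 76) (nat_lit 44131695534) (nat_lit 152) (nat_lit 117743412675) (nat_lit 10) (nat_lit 5) (nat_lit 11) (nat_lit 5) (nat_lit 12) (nat_lit 4) (nat_lit 294) (nat_lit 277) (nat_lit 209)))))) (XT.nd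 (nat_lit 390) (nat_lit 152) (nat_lit 0) (XT.nd (nat_lit 156) (nat_lit 152) (nat_lit 0) (XT.nd (nat_lit 78) (nat_lit 76) (nat_lit 0) (XT.lf (nat_lit 0) (nat_lit 118673270592) (nat_lit 152) (nat_lit 81247018412) (nat_lit 0) (nat_lit 9184724316) (nat_lit 10) (nat_lit 5) (nat_lit 12) (nat_lit 4) (nat_lit 10) (nat_lit 4) (nat_lit 295) (nat_lit 277) (nat_lit 208)) (XT.lf (nat_lit 0) (nat_lit 10287797234) (nat_lit 76) (nat_lit 165607324026) (nat_lit 76) (nat_lit 56117851689) (nat_lit 9) (nat_lit 4) (nat_lit 10) (nat_lit 5) (nat_lit 10) (nat_lit 4) (nat_lit 296) (nat_lit 277) (nat_lit 207))) (XT.nd (nat_lit 78) (nat_lit 152) (nat_lit 0) (XT.lf (nat_lit 0) (nat_lit 124682107985) (nat_lit 76) (nat_lit 121264194724) (nat_lit 76) (nat_lit 11773917118) (nat_lit 9) (nat_lit 4) (nat_lit 10) (nat_lit 5) (nat_lit 10) (nat_lit 4) (nat_lit 297) (nat_lit 277) (nat_lit 206)) (XT.nd (nat_lit 78) (nat_lit 76)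 (nat_lit 0) (XT.lf (nat_lit 0) (nat_lit 35728962416) (nat_lit 152) (nat_lit 32673708646) (nat_lit 76) (nat_lit 218637401147) (nat_lit 8) (nat_lit 5) (nat_lit 10) (nat_lit 5) (nat_lit 9) (nat_lit 4) (nat_lit 298) (nat_lit 277) (nat_lit 205)) (XT.lf (nat_lit 0) (nat_lit 90214815439) (nat_lit 76) (nat_lit 2671883248) (nat_lit 152) (nat_lit 227226877744) (nat_lit 7) (nat_lit 5) (nat_lit 8) (nat_lit 5) (nat_lit 9) (nat_lit 4) (nat_lit 299) (nat_lit 277) (nat_lit 204))))) (XT.nd (nat_lit 156) (nat_lit 152) (nat_lit 0) (XT.nd (nat_lit 78) (nat_lit 0) (nat_lit 0) (XT.lf (nat_lit 0) (nat_lit 163426032183) (nat_lit 152) (nat_lit 125785387981) (nat_lit 0) (nat_lit 68215496341) (nat_lit 7) (nat_lit 5) (nat_lit 9) (nat_lit 4) (nat_lit 7) (nat_lit 4) (nat_lit 300) (nat_lit 277) (nat_lit 203)) (XT.lf (nat_lit 0) (nat_lit 244672856267) (nat_lit 152) (nat_lit 6183493310) (nat_lit 0) (nat_lit 149461920063)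 (nat_lit 7) (nat_lit 5) (nat_lit 9) (nat_lit 4) (nat_lit 7) (nat_lit 4) (nat_lit 301) (nat_lit 277) (nat_lit 202))) (XT.nd (nat_lit 78) (nat_lit 76) (nat_lit 0) (XT.lf (nat_lit 0) (nat_lit 144194816790) (nat_lit 76) (nat_lit 199882128805) (nat_lit 76) (nat_lit 104670844460) (nat_lit 6) (nat_lit 4) (nat_lit 7) (nat_lit 5) (nat_lit 7) (nat_lit 4) (nat_lit 302) (nat_lit 277) (nat_lit 201)) (XT.nd (nat_lit 78) (nat_lit 76) (nat_lit 0) (XT.lf (nat_lit 0) (nat_lit 317823774726) (nat_lit 76) (nat_lit 140890573211) (nat_lit 76) (nat_lit 45678986135) (nat_lit 6) (nat_lit 4) (nat_lit 7) (nat_lit 5) (nat_lit 7) (nat_lit 4) (nat_lit 303) (nat_lit 277) (nat_lit 200)) (XT.lf (nat_lit 0) (nat_lit 20188185740) (nat_lit 152) (nat_lit 51807250978) (nat_lit 76) (nat_lit 496252695599) (nat_lit 5) (nat_lit 5) (nat_lit 7) (nat_lit 5) (nat_lit 6) (nat_lit 4) (nat_lit 304) (nat_lit 277) (nat_lit 199))))))))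
noncomputable def xc82 : XT := (XT.nd (nat_lit 1482) (nat_lit 0) (nat_lit 0) (XT.nd (nat_lit 702) (nat_lit 152) (nat_lit 0) (XT.nd (nat_lit 312) (nat_lit 76) (nat_lit 0) (XT.nd (nat_lit 156) (nat_lit 0) (nat_lit 0) (XT.nd (nat_lit 78) (nat_lit 0) (nat_lit 0) (XT.lf (nat_lit 0) (nat_lit 96470672110) (nat_lit 152) (nat_lit 530424855770) (nat_lit 0) (nat_lit 13677559739) (nat_lit 4) (nat_lit 5) (nat_lit 6) (nat_lit 4) (nat_lit 4) (nat_lit 4) (nat_lit 305) (nat_lit 277) (nat_lit 198)) (XT.lf (nat_lit 0) (nat_lit 190460536085) (nat_lit 152) (nat_lit 424679249084) (nat_lit 0) (nat_lit 107667250626) (nat_lit 4) (nat_lit 5) (nat_lit 6) (nat_lit 4) (nat_lit 4) (nat_lit 4) (nat_lit 306) (nat_lit 277) (nat_lit 197))) (XT.nd (nat_lit 78) (nat_lit 0) (nat_lit 0) (XT.lf (nat_lit 0) (nat_lit 298548520330) (nat_lit 152) (nat_lit 303072525646) (nat_lit 0) (nat_lit 215755084360) (nat_lit 4) (nat_lit 5)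 (nat_lit 6) (nat_lit 4) (nat_lit 4) (nat_lit 4) (nat_lit 307) (nat_lit 277) (nat_lit 196)) (XT.lf (nat_lit 0) (nat_lit 422849389754) (nat_lit 152) (nat_lit 163225423475) (nat_lit 0) (nat_lit 340055822906) (nat_lit 4) (nat_lit 5) (nat_lit 6) (nat_lit 4) (nat_lit 4) (nat_lit 4) (nat_lit 308) (nat_lit 277) (nat_lit 195)))) (XT.nd (nat_lit 156) (nat_lit 0) (nat_lit 0) (XT.nd (nat_lit 78) (nat_lit 76) (nat_lit 0) (XT.lf (nat_lit 0) (nat_lit 565795117890) (nat_lit 152) (nat_lit 2401803616) (nat_lit 0) (nat_lit 483001437234) (nat_lit 4) (nat_lit 5) (nat_lit 6) (nat_lit 4) (nat_lit 4) (nat_lit 4) (nat_lit 309) (nat_lit 277) (nat_lit 194)) (XT.lf (nat_lit 0) (nat_lit 200384496582) (nat_lit 76) (nat_lit 538095467083) (nat_lit 76) (nat_lit 455301687464) (nat_lit 3) (nat_lit 4) (nat_lit 4) (nat_lit 5) (nat_lit 4) (nat_lit 4) (nat_lit 310) (nat_lit 277) (nat_lit 193))) (XT.nd (nat_lit 78) (nat_lit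 0) (nat_lit 0) (XT.lf (nat_lit 0) (nat_lit 433858217224) (nat_lit 76) (nat_lit 503334643641) (nat_lit 76) (nat_lit 420540777966) (nat_lit 3) (nat_lit 4) (nat_lit 4) (nat_lit 5) (nat_lit 4) (nat_lit 4) (nat_lit 311) (nat_lit 277) (nat_lit 192)) (XT.nd (nat_lit 78) (nat_lit 0) (nat_lit 0) (XT.lf (nat_lit 0) (nat_lit 702352600692) (nat_lit 76) (nat_lit 463359896936) (nat_lit 76) (nat_lit 380565956431) (nat_lit 3) (nat_lit 4) (nat_lit 4) (nat_lit 5) (nat_lit 4) (nat_lit 4) (nat_lit 312) (nat_lit 277) (nat_lit 191)) (XT.lf (nat_lit 0) (nat_lit 1011120797968) (nat_lit 76) (nat_lit 417389112360) (nat_lit 76) (nat_lit 334595106785) (nat_lit 3) (nat_lit 4) (nat_lit 4) (nat_lit 5) (nat_lit 4) (nat_lit 4) (nat_lit 313) (nat_lit 277) (nat_lit 190)))))) (XT.nd (nat_lit 390) (nat_lit 76) (nat_lit 0) (XT.nd (nat_lit 156) (nat_lit 76) (nat_lit 0) (XT.nd (nat_lit 78) (nat_lit 0) (nat_lit 0) (XT.lf (nat_lit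 0) (nat_lit 1366203925953) (nat_lit 76) (nat_lit 364522861518) (nat_lit 76) (nat_lit 281728799361) (nat_lit 3) (nat_lit 4) (nat_lit 4) (nat_lit 5) (nat_lit 4) (nat_lit 4) (nat_lit 314) (nat_lit 277) (nat_lit 189)) (XT.lf (nat_lit 0) (nat_lit 1774549263239) (nat_lit 76) (nat_lit 303726804721) (nat_lit 76) (nat_lit 220932693362) (nat_lit 3) (nat_lit 4) (nat_lit 4) (nat_lit 5) (nat_lit 4) (nat_lit 4) (nat_lit 315) (nat_lit 277) (nat_lit 188))) (XT.nd (nat_lit 78) (nat_lit 76) (nat_lit 0) (XT.lf (nat_lit 0) (nat_lit 2244146175122) (nat_lit 76) (nat_lit 233811453901) (nat_lit 76) (nat_lit 151017299757) (nat_lit 3) (nat_lit 4) (nat_lit 4) (nat_lit 5) (nat_lit 4) (nat_lit 4) (nat_lit 316) (nat_lit 277) (nat_lit 187)) (XT.nd (nat_lit 78) (nat_lit 76) (nat_lit 0) (XT.lf (nat_lit 0) (nat_lit 2784182427267) (nat_lit 76) (nat_lit 153408900019) (nat_lit 76) (nat_lit 70614708671) (nat_lit 3) (nat_lit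 4) (nat_lit 4) (nat_lit 5) (nat_lit 4) (nat_lit 4) (nat_lit 317) (nat_lit 277) (nat_lit 186)) (XT.lf (nat_lit 0) (nat_lit 19903098529) (nat_lit 152) (nat_lit 40002561860) (nat_lit 76) (nat_lit 3384280458577) (nat_lit 2) (nat_lit 5) (nat_lit 4) (nat_lit 5) (nat_lit 3) (nat_lit 4) (nat_lit 318) (nat_lit 277) (nat_lit 185))))) (XT.nd (nat_lit 156) (nat_lit 0) (nat_lit 0) (XT.nd (nat_lit 78) (nat_lit 0) (nat_lit 0) (XT.lf (nat_lit 0) (nat_lit 126913316836) (nat_lit 152) (nat_lit 3761705540437) (nat_lit 0) (nat_lit 54918315244) (nat_lit 1) (nat_lit 5) (nat_lit 3) (nat_lit 4) (nat_lit 1) (nat_lit 4) (nat_lit 319) (nat_lit 277) (nat_lit 184)) (XT.lf (nat_lit 0) (nat_lit 255018258723) (nat_lit 152) (nat_lit 4078992910925) (nat_lit 0) (nat_lit 183023235859) (nat_lit 1) (nat_lit 5) (nat_lit 3) (nat_lit 4) (nat_lit 1) (nat_lit 4) (nat_lit 320) (nat_lit 277) (nat_lit 183))) (XT.nd (nat_lit 78) (nat_lit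 0) (nat_lit 0) (XT.lf (nat_lit 0) (nat_lit 402338875681) (nat_lit 152) (nat_lit 4443873523406) (nat_lit 0) (nat_lit 330343834321) (nat_lit 1) (nat_lit 5) (nat_lit 3) (nat_lit 4) (nat_lit 1) (nat_lit 4) (nat_lit 321) (nat_lit 277) (nat_lit 182)) (XT.nd (nat_lit 78) (nat_lit 0) (nat_lit 0) (XT.lf (nat_lit 0) (nat_lit 571757527608) (nat_lit 152) (nat_lit 4863486346384) (nat_lit 0) (nat_lit 499762470163) (nat_lit 1) (nat_lit 5) (nat_lit 3) (nat_lit 4) (nat_lit 1) (nat_lit 4) (nat_lit 322) (nat_lit 277) (nat_lit 181)) (XT.lf (nat_lit 0) (nat_lit 766588927259) (nat_lit 152) (nat_lit 5346041195961) (nat_lit 0) (nat_lit 694593855828) (nat_lit 1) (nat_lit 5) (nat_lit 3) (nat_lit 4) (nat_lit 1) (nat_lit 4) (nat_lit 323) (nat_lit 277) (nat_lit 180))))))) (XT.nd (nat_lit 780) (nat_lit 0) (nat_lit 0) (XT.nd (nat_lit 390) (nat_lit 0) (nat_lit 0) (XT.nd (nat_lit 156) (nat_lit 0) (nat_lit 0) (XT.nd (nat_lit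 78) (nat_lit 0) (nat_lit 0) (XT.lf (nat_lit 0) (nat_lit 990644993322) (nat_lit 152) (nat_lit 5900979362672) (nat_lit 0) (nat_lit 918649909729) (nat_lit 1) (nat_lit 5) (nat_lit 3) (nat_lit 4) (nat_lit 1) (nat_lit 4) (nat_lit 324) (nat_lit 277) (nat_lit 179)) (XT.lf (nat_lit 0) (nat_lit 1248309431438) (nat_lit 152) (nat_lit 6539158332388) (nat_lit 0) (nat_lit 1176314337269) (nat_lit 1) (nat_lit 5) (nat_lit 3) (nat_lit 4) (nat_lit 1) (nat_lit 4) (nat_lit 325) (nat_lit 277) (nat_lit 178))) (XT.nd (nat_lit 78) (nat_lit 0) (nat_lit 0) (XT.lf (nat_lit 0) (nat_lit 1544623502352) (nat_lit 152) (nat_lit 7273064215385) (nat_lit 0) (nat_lit 1472628398987) (nat_lit 1) (nat_lit 5) (nat_lit 3) (nat_lit 4) (nat_lit 1) (nat_lit 4) (nat_lit 326) (nat_lit 277) (nat_lit 177)) (XT.nd (nat_lit 78) (nat_lit 0) (nat_lit 0) (XT.lf (nat_lit 0) (nat_lit 1885384655279) (nat_lit 152) (nat_lit 8117056039810) (nat_lit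 0) (nat_lit 1813389543917) (nat_lit 1) (nat_lit 5) (nat_lit 3) (nat_lit 4) (nat_lit 1) (nat_lit 4) (nat_lit 327) (nat_lit 277) (nat_lit 176)) (XT.lf (nat_lit 0) (nat_lit 2277259956253) (nat_lit 152) (nat_lit 9087646689184) (nat_lit 0) (nat_lit 2205264837938) (nat_lit 1) (nat_lit 5) (nat_lit 3) (nat_lit 4) (nat_lit 1) (nat_lit 4) (nat_lit 328) (nat_lit 277) (nat_lit 175))))) (XT.nd (nat_lit 156) (nat_lit 0) (nat_lit 0) (XT.nd (nat_lit 78) (nat_lit 0) (nat_lit 0) (XT.lf (nat_lit 0) (nat_lit 2727916530729) (nat_lit 152) (nat_lit 10203825980558) (nat_lit 0) (nat_lit 2655921406367) (nat_lit 1) (nat_lit 5) (nat_lit 3) (nat_lit 4) (nat_lit 1) (nat_lit 4) (nat_lit 329) (nat_lit 277) (nat_lit 174)) (XT.lf (nat_lit 0) (nat_lit 3246171572554) (nat_lit 152) (nat_lit 11487432204418) (nat_lit 0) (nat_lit 3174176442934) (nat_lit 1) (nat_lit 5) (nat_lit 3) (nat_lit 4) (nat_lit 1) (nat_lit 4) (nat_lit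 330) (nat_lit 277) (nat_lit 173))) (XT.nd (nat_lit 78) (nat_lit 0) (nat_lit 0) (XT.lf (nat_lit 0) (nat_lit 3842164854287) (nat_lit 152) (nat_lit 12963579395578) (nat_lit 0) (nat_lit 3770169720095) (nat_lit 1) (nat_lit 5) (nat_lit 3) (nat_lit 4) (nat_lit 1) (nat_lit 4) (nat_lit 331) (nat_lit 277) (nat_lit 172)) (XT.nd (nat_lit 78) (nat_lit 0) (nat_lit 0) (XT.lf (nat_lit 0) (nat_lit 4527557114048) (nat_lit 152) (nat_lit 14661148694734) (nat_lit 0) (nat_lit 4455561975880) (nat_lit 1) (nat_lit 5) (nat_lit 3) (nat_lit 4) (nat_lit 1) (nat_lit 4) (nat_lit 332) (nat_lit 277) (nat_lit 171)) (XT.lf (nat_lit 0) (nat_lit 5315758200398) (nat_lit 152) (nat_lit 16613353414261) (nat_lit 0) (nat_lit 5243763058773) (nat_lit 1) (nat_lit 5) (nat_lit 3) (nat_lit 4) (nat_lit 1) (nat_lit 4) (nat_lit 333) (nat_lit 277) (nat_lit 170)))))) (XT.nd (nat_lit 390) (nat_lit 0) (nat_lit 0) (XT.nd (nat_lit 156) (nat_lit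 0) (nat_lit 0) (XT.nd (nat_lit 78) (nat_lit 0) (nat_lit 0) (XT.lf (nat_lit 0) (nat_lit 6222189438939) (nat_lit 152) (nat_lit 18858388863889) (nat_lit 0) (nat_lit 6150194294308) (nat_lit 1) (nat_lit 5) (nat_lit 3) (nat_lit 4) (nat_lit 1) (nat_lit 4) (nat_lit 334) (nat_lit 277) (nat_lit 169)) (XT.lf (nat_lit 0) (nat_lit 7264585353904) (nat_lit 152) (nat_lit 21440179650241) (nat_lit 0) (nat_lit 7192590206659) (nat_lit 1) (nat_lit 5) (nat_lit 3) (nat_lit 4) (nat_lit 1) (nat_lit 4) (nat_lit 335) (nat_lit 277) (nat_lit 168))) (XT.nd (nat_lit 78) (nat_lit 0) (nat_lit 0) (XT.lf (nat_lit 0) (nat_lit 8463340647977) (nat_lit 152) (nat_lit 24409239071310) (nat_lit 0) (nat_lit 8391345498458) (nat_lit 1) (nat_lit 5) (nat_lit 3) (nat_lit 4) (nat_lit 1) (nat_lit 4) (nat_lit 336) (nat_lit 277) (nat_lit 167)) (XT.nd (nat_lit 78) (nat_lit 0) (nat_lit 0) (XT.lf (nat_lit 0) (nat_lit 9841909229084) (nat_lit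 152) (nat_lit 27823657420119) (nat_lit 0) (nat_lit 9769914077589) (nat_lit 1) (nat_lit 5) (nat_lit 3) (nat_lit 4) (nat_lit 1) (nat_lit 4) (nat_lit 337) (nat_lit 277) (nat_lit 166)) (XT.lf (nat_lit 0) (nat_lit 11427263091205) (nat_lit 152) (nat_lit 31750238533926) (nat_lit 0) (nat_lit 11355267937991) (nat_lit 1) (nat_lit 5) (nat_lit 3) (nat_lit 4) (nat_lit 1) (nat_lit 4) (nat_lit 338) (nat_lit 277) (nat_lit 165))))) (XT.nd (nat_lit 780) (nat_lit 0) (nat_lit 0) (XT.nd (nat_lit 702) (nat_lit 0) (nat_lit 0) (XT.lf (nat_lit 0) (nat_lit 13250420027295) (nat_lit 152) (nat_lit 36265806825827) (nat_lit 0) (nat_lit 13178424872586) (nat_lit 1) (nat_lit 5) (nat_lit 3) (nat_lit 4) (nat_lit 1) (nat_lit 4) (nat_lit 339) (nat_lit 277) (nat_lit 164)) (XT.lf (nat_lit 0) (nat_lit 48444127584223) (nat_lit 152) (nat_lit 123433065314095) (nat_lit 0) (nat_lit 48372132422382) (nat_lit 1) (nat_lit 5) (nat_lit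 3) (nat_lit 4) (nat_lit 1) (nat_lit 4) (nat_lit 348) (nat_lit 277) (nat_lit 155))) (XT.nd (nat_lit 78) (nat_lit 0) (nat_lit 0) (XT.lf (nat_lit 0) (nat_lit 55819814167413) (nat_lit 152) (nat_lit 141701057678345) (nat_lit 0) (nat_lit 55747819005203) (nat_lit 1) (nat_lit 5) (nat_lit 3) (nat_lit 4) (nat_lit 1) (nat_lit 4) (nat_lit 349) (nat_lit 277) (nat_lit 154)) (XT.nd (nat_lit 78) (nat_lit 0) (nat_lit 0) (XT.lf (nat_lit 0) (nat_lit 64301853736932) (nat_lit 152) (nat_lit 162709248899603) (nat_lit 0) (nat_lit 64229858574400) (nat_lit 1) (nat_lit 5) (nat_lit 3) (nat_lit 4) (nat_lit 1) (nat_lit 4) (nat_lit 350) (nat_lit 277) (nat_lit 153)) (XT.lf (nat_lit 0) (nat_lit 74056199240878) (nat_lit 152) (nat_lit 186868668806109) (nat_lit 0) (nat_lit 73984204078067) (nat_lit 1) (nat_lit 5) (nat_lit 3) (nat_lit 4) (nat_lit 1) (nat_lit 4) (nat_lit 351) (nat_lit 277) (nat_lit 152))))))))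
noncomputable def xc83 : XT := (XT.nd (nat_lit 36192) (nat_lit 0) (nat_lit 152) (XT.nd (nat_lit 35412) (nat_lit 0) (nat_lit 760) (XT.nd (nat_lit 35022) (nat_lit 0) (nat_lit 1444) (XT.nd (nat_lit 34866) (nat_lit 0) (nat_lit 1596) (XT.nd (nat_lit 78) (nat_lit 0) (nat_lit 0) (XT.lf (nat_lit 0) (nat_lit 85273696569547) (nat_lit 152) (nat_lit 214652001700382) (nat_lit 0) (nat_lit 85201701406493) (nat_lit 1) (nat_lit 5) (nat_lit 3) (nat_lit 4) (nat_lit 1) (nat_lit 4) (nat_lit 352) (nat_lit 277) (nat_lit 151)) (XT.lf (nat_lit 0) (nat_lit 98173818496759) (nat_lit 152) (nat_lit 246602834530355) (nat_lit 0) (nat_lit 98101823333494) (nat_lit 1) (nat_lit 5) (nat_lit 3) (nat_lit 4) (nat_lit 1) (nat_lit 4) (nat_lit 353) (nat_lit 277) (nat_lit 150))) (XT.nd (nat_lit 78) (nat_lit 0) (nat_lit 0) (XT.lf (nat_lit 0) (nat_lit 4017480637) (nat_lit 380) (nat_lit 10590390127) (nat_lit 380) (nat_lit 10590390127)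 (nat_lit 22) (nat_lit 3) (nat_lit 27) (nat_lit 3) (nat_lit 27) (nat_lit 5) (nat_lit 278) (nat_lit 278) (nat_lit 224)) (XT.lf (nat_lit 76) (nat_lit 2596552322) (nat_lit 0) (nat_lit 6171952556) (nat_lit 380) (nat_lit 45388028795) (nat_lit 23) (nat_lit 5) (nat_lit 22) (nat_lit 3) (nat_lit 27) (nat_lit 5) (nat_lit 279) (nat_lit 278) (nat_lit 223)))) (XT.nd (nat_lit 156) (nat_lit 228) (nat_lit 0) (XT.nd (nat_lit 78) (nat_lit 0) (nat_lit 0) (XT.lf (nat_lit 0) (nat_lit 11609527175) (nat_lit 304) (nat_lit 26891397810) (nat_lit 380) (nat_lit 19680021136) (nat_lit 23) (nat_lit 5) (nat_lit 27) (nat_lit 5) (nat_lit 28) (nat_lit 5) (nat_lit 280) (nat_lit 278) (nat_lit 222)) (XT.lf (nat_lit 76) (nat_lit 1296026729) (nat_lit 0) (nat_lit 13924584632) (nat_lit 380) (nat_lit 47536836578) (nat_lit 24) (nat_lit 5) (nat_lit 23) (nat_lit 5) (nat_lit 28) (nat_lit 5) (nat_lit 281) (nat_lit 278) (nat_lit 221)))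 (XT.nd (nat_lit 78) (nat_lit 304) (nat_lit 0) (XT.lf (nat_lit 0) (nat_lit 21436419907) (nat_lit 304) (nat_lit 31739752624) (nat_lit 76) (nat_lit 14534805224) (nat_lit 24) (nat_lit 5) (nat_lit 28) (nat_lit 5) (nat_lit 25) (nat_lit 5) (nat_lit 282) (nat_lit 278) (nat_lit 220)) (XT.nd (nat_lit 78) (nat_lit 0) (nat_lit 0) (XT.lf (nat_lit 0) (nat_lit 1947591999) (nat_lit 304) (nat_lit 27377879258) (nat_lit 380) (nat_lit 43970945478) (nat_lit 20) (nat_lit 5) (nat_lit 24) (nat_lit 5) (nat_lit 25) (nat_lit 5) (nat_lit 283) (nat_lit 278) (nat_lit 219)) (XT.lf (nat_lit 0) (nat_lit 40228241412) (nat_lit 380) (nat_lit 35392632550) (nat_lit 76) (nat_lit 3824252499) (nat_lit 20) (nat_lit 5) (nat_lit 25) (nat_lit 5) (nat_lit 21) (nat_lit 5) (nat_lit 284) (nat_lit 278) (nat_lit 218)))))) (XT.nd (nat_lit 390) (nat_lit 228) (nat_lit 0) (XT.nd (nat_lit 156) (nat_lit 304) (nat_lit 0) (XT.nd (nat_lit 78)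 (nat_lit 0) (nat_lit 0) (XT.lf (nat_lit 0) (nat_lit 5105028559) (nat_lit 152) (nat_lit 49174235614) (nat_lit 228) (nat_lit 32009960789) (nat_lit 18) (nat_lit 5) (nat_lit 20) (nat_lit 5) (nat_lit 21) (nat_lit 5) (nat_lit 285) (nat_lit 278) (nat_lit 217)) (XT.lf (nat_lit 0) (nat_lit 55652376171) (nat_lit 152) (nat_lit 16633560409) (nat_lit 228) (nat_lit 21596809077) (nat_lit 18) (nat_lit 5) (nat_lit 20) (nat_lit 5) (nat_lit 21) (nat_lit 5) (nat_lit 286) (nat_lit 278) (nat_lit 216))) (XT.nd (nat_lit 78) (nat_lit 228) (nat_lit 0) (XT.lf (nat_lit 0) (nat_lit 11310111919) (nat_lit 76) (nat_lit 83010799063) (nat_lit 152) (nat_lit 8095294262) (nat_lit 17) (nat_lit 5) (nat_lit 18) (nat_lit 5) (nat_lit 19) (nat_lit 4) (nat_lit 287) (nat_lit 278) (nat_lit 215)) (XT.nd (nat_lit 78) (nat_lit 152) (nat_lit 0) (XT.lf (nat_lit 0) (nat_lit 9653721698) (nat_lit 152) (nat_lit 40549232788) (nat_lit 76) (nat_lit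 61547994810) (nat_lit 16) (nat_lit 5) (nat_lit 18) (nat_lit 5) (nat_lit 17) (nat_lit 5) (nat_lit 288) (nat_lit 278) (nat_lit 214)) (XT.lf (nat_lit 0) (nat_lit 18884656534) (nat_lit 152) (nat_lit 11132064360) (nat_lit 228) (nat_lit 92294299232) (nat_lit 14) (nat_lit 5) (nat_lit 16) (nat_lit 5) (nat_lit 17) (nat_lit 5) (nat_lit 289) (nat_lit 278) (nat_lit 213))))) (XT.nd (nat_lit 156) (nat_lit 152) (nat_lit 0) (XT.nd (nat_lit 78) (nat_lit 76) (nat_lit 0) (XT.lf (nat_lit 0) (nat_lit 57052829832) (nat_lit 228) (nat_lit 43849184321) (nat_lit 76) (nat_lit 33010291855) (nat_lit 14) (nat_lit 5) (nat_lit 17) (nat_lit 5) (nat_lit 15) (nat_lit 4) (nat_lit 290) (nat_lit 278) (nat_lit 212)) (XT.lf (nat_lit 0) (nat_lit 26490838187) (nat_lit 76) (nat_lit 63279277478) (nat_lit 152) (nat_lit 57239807987) (nat_lit 13) (nat_lit 5) (nat_lit 14) (nat_lit 5) (nat_lit 15) (nat_lit 4) (nat_lit 291) (nat_lit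 278) (nat_lit 211))) (XT.nd (nat_lit 78) (nat_lit 152) (nat_lit 0) (XT.lf (nat_lit 0) (nat_lit 112307973900) (nat_lit 76) (nat_lit 17377954952) (nat_lit 152) (nat_lit 32042617495) (nat_lit 13) (nat_lit 5) (nat_lit 14) (nat_lit 5) (nat_lit 15) (nat_lit 4) (nat_lit 292) (nat_lit 278) (nat_lit 210)) (XT.nd (nat_lit 78) (nat_lit 0) (nat_lit 0) (XT.lf (nat_lit 0) (nat_lit 212223306) (nat_lit 152) (nat_lit 144342322341) (nat_lit 76) (nat_lit 33668691977) (nat_lit 11) (nat_lit 5) (nat_lit 13) (nat_lit 5) (nat_lit 12) (nat_lit 4) (nat_lit 293) (nat_lit 278) (nat_lit 209)) (XT.lf (nat_lit 0) (nat_lit 37557584701) (nat_lit 152) (nat_lit 64051020056) (nat_lit 76) (nat_lit 94824726465) (nat_lit 11) (nat_lit 5) (nat_lit 13) (nat_lit 5) (nat_lit 12) (nat_lit 4) (nat_lit 294) (nat_lit 278) (nat_lit 208))))))) (XT.nd (nat_lit 780) (nat_lit 228) (nat_lit 0) (XT.nd (nat_lit 390) (nat_lit 152) (nat_lit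 0) (XT.nd (nat_lit 156) (nat_lit 152) (nat_lit 0) (XT.nd (nat_lit 78) (nat_lit 0) (nat_lit 0) (XT.lf (nat_lit 0) (nat_lit 31046339955) (nat_lit 76) (nat_lit 50743070319) (nat_lit 152) (nat_lit 135392831065) (nat_lit 10) (nat_lit 5) (nat_lit 11) (nat_lit 5) (nat_lit 12) (nat_lit 4) (nat_lit 295) (nat_lit 278) (nat_lit 207)) (XT.lf (nat_lit 0) (nat_lit 136483695342) (nat_lit 152) (nat_lit 93416570236) (nat_lit 0) (nat_lit 10569070825) (nat_lit 10) (nat_lit 5) (nat_lit 12) (nat_lit 4) (nat_lit 10) (nat_lit 4) (nat_lit 296) (nat_lit 278) (nat_lit 206))) (XT.nd (nat_lit 78) (nat_lit 76) (nat_lit 0) (XT.lf (nat_lit 0) (nat_lit 11847672259) (nat_lit 76) (nat_lit 190440612545) (nat_lit 76) (nat_lit 64525287793) (nat_lit 9) (nat_lit 4) (nat_lit 10) (nat_lit 5) (nat_lit 10) (nat_lit 4) (nat_lit 297) (nat_lit 278) (nat_lit 205)) (XT.nd (nat_lit 78) (nat_lit 76) (nat_lit 0) (XT.lf (nat_lit 0) (nat_lit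 143398950652) (nat_lit 76) (nat_lit 139447032555) (nat_lit 76) (nat_lit 13531098903) (nat_lit 9) (nat_lit 4) (nat_lit 10) (nat_lit 5) (nat_lit 10) (nat_lit 4) (nat_lit 298) (nat_lit 278) (nat_lit 204)) (XT.lf (nat_lit 0) (nat_lit 41095361499) (nat_lit 152) (nat_lit 37561435906) (nat_lit 76) (nat_lit 251438219542) (nat_lit 8) (nat_lit 5) (nat_lit 10) (nat_lit 5) (nat_lit 9) (nat_lit 4) (nat_lit 299) (nat_lit 278) (nat_lit 203))))) (XT.nd (nat_lit 156) (nat_lit 76) (nat_lit 0) (XT.nd (nat_lit 78) (nat_lit 0) (nat_lit 0) (XT.lf (nat_lit 0) (nat_lit 103759760926) (nat_lit 76) (nat_lit 3066603944) (nat_lit 152) (nat_lit 261303241964) (nat_lit 7) (nat_lit 5) (nat_lit 8) (nat_lit 5) (nat_lit 9) (nat_lit 4) (nat_lit 300) (nat_lit 278) (nat_lit 202)) (XT.lf (nat_lit 0) (nat_lit 187945947780) (nat_lit 152) (nat_lit 144641475979) (nat_lit 0) (nat_lit 78452622644) (nat_lit 7) (nat_lit 5) (nat_lit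 9) (nat_lit 4) (nat_lit 7) (nat_lit 4) (nat_lit 301) (nat_lit 278) (nat_lit 201))) (XT.nd (nat_lit 78) (nat_lit 76) (nat_lit 0) (XT.lf (nat_lit 0) (nat_lit 281379011463) (nat_lit 152) (nat_lit 7100825829) (nat_lit 0) (nat_lit 171885383596) (nat_lit 7) (nat_lit 5) (nat_lit 9) (nat_lit 4) (nat_lit 7) (nat_lit 4) (nat_lit 302) (nat_lit 278) (nat_lit 200)) (XT.nd (nat_lit 78) (nat_lit 0) (nat_lit 0) (XT.lf (nat_lit 0) (nat_lit 165833767537) (nat_lit 76) (nat_lit 229859667728) (nat_lit 76) (nat_lit 120365776616) (nat_lit 6) (nat_lit 4) (nat_lit 7) (nat_lit 5) (nat_lit 7) (nat_lit 4) (nat_lit 303) (nat_lit 278) (nat_lit 199)) (XT.lf (nat_lit 0) (nat_lit 365505800264) (nat_lit 76) (nat_lit 162020002325) (nat_lit 76) (nat_lit 52525882305) (nat_lit 6) (nat_lit 4) (nat_lit 7) (nat_lit 5) (nat_lit 7) (nat_lit 4) (nat_lit 304) (nat_lit 278) (nat_lit 198)))))) (XT.nd (nat_lit 390) (nat_lit 76) (nat_lit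 0) (XT.nd (nat_lit 156) (nat_lit 0) (nat_lit 0) (XT.nd (nat_lit 78) (nat_lit 76) (nat_lit 0) (XT.lf (nat_lit 0) (nat_lit 23220336132) (nat_lit 152) (nat_lit 59570596384) (nat_lit 76) (nat_lit 570693828304) (nat_lit 5) (nat_lit 5) (nat_lit 7) (nat_lit 5) (nat_lit 6) (nat_lit 4) (nat_lit 305) (nat_lit 278) (nat_lit 197)) (XT.lf (nat_lit 0) (nat_lit 110945141949) (nat_lit 152) (nat_lit 609980785808) (nat_lit 0) (nat_lit 15732540074) (nat_lit 4) (nat_lit 5) (nat_lit 6) (nat_lit 4) (nat_lit 4) (nat_lit 4) (nat_lit 306) (nat_lit 278) (nat_lit 196))) (XT.nd (nat_lit 78) (nat_lit 0) (nat_lit 0) (XT.lf (nat_lit 0) (nat_lit 219032980865) (nat_lit 152) (nat_lit 488374355292) (nat_lit 0) (nat_lit 123820248111) (nat_lit 4) (nat_lit 5) (nat_lit 6) (nat_lit 4) (nat_lit 4) (nat_lit 4) (nat_lit 307) (nat_lit 278) (nat_lit 195)) (XT.nd (nat_lit 78) (nat_lit 0) (nat_lit 0) (XT.lf (nat_lit 0) (nat_lit 343333723916)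 (nat_lit 152) (nat_lit 348527507836) (nat_lit 0) (nat_lit 248120877354) (nat_lit 4) (nat_lit 5) (nat_lit 6) (nat_lit 4) (nat_lit 4) (nat_lit 4) (nat_lit 308) (nat_lit 278) (nat_lit 194)) (XT.lf (nat_lit 0) (nat_lit 486279342163) (nat_lit 152) (nat_lit 187704109469) (nat_lit 0) (nat_lit 391066396637) (nat_lit 4) (nat_lit 5) (nat_lit 6) (nat_lit 4) (nat_lit 4) (nat_lit 4) (nat_lit 309) (nat_lit 278) (nat_lit 193))))) (XT.nd (nat_lit 156) (nat_lit 0) (nat_lit 0) (XT.nd (nat_lit 78) (nat_lit 76) (nat_lit 0) (XT.lf (nat_lit 0) (nat_lit 650666597700) (nat_lit 152) (nat_lit 2757615439) (nat_lit 0) (nat_lit 555453566119) (nat_lit 4) (nat_lit 5) (nat_lit 6) (nat_lit 4) (nat_lit 4) (nat_lit 4) (nat_lit 310) (nat_lit 278) (nat_lit 192)) (XT.lf (nat_lit 0) (nat_lit 230446427120) (nat_lit 76) (nat_lit 618807630918) (nat_lit 76) (nat_lit 523594524507) (nat_lit 3) (nat_lit 4) (nat_lit 4) (nat_lit 5)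 (nat_lit 4) (nat_lit 4) (nat_lit 311) (nat_lit 278) (nat_lit 191))) (XT.nd (nat_lit 78) (nat_lit 0) (nat_lit 0) (XT.lf (nat_lit 0) (nat_lit 498940650721) (nat_lit 76) (nat_lit 578832965206) (nat_lit 76) (nat_lit 483619793725) (nat_lit 3) (nat_lit 4) (nat_lit 4) (nat_lit 5) (nat_lit 4) (nat_lit 4) (nat_lit 312) (nat_lit 278) (nat_lit 190)) (XT.nd (nat_lit 78) (nat_lit 0) (nat_lit 0) (XT.lf (nat_lit 0) (nat_lit 807708708982) (nat_lit 76) (nat_lit 532862251058) (nat_lit 76) (nat_lit 437649022995) (nat_lit 3) (nat_lit 4) (nat_lit 4) (nat_lit 5) (nat_lit 4) (nat_lit 4) (nat_lit 313) (nat_lit 278) (nat_lit 189)) (XT.lf (nat_lit 0) (nat_lit 1162791716085) (nat_lit 76) (nat_lit 479996061459) (nat_lit 76) (nat_lit 384782784193) (nat_lit 3) (nat_lit 4) (nat_lit 4) (nat_lit 5) (nat_lit 4) (nat_lit 4) (nat_lit 314) (nat_lit 278) (nat_lit 188))))))))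
noncomputable def xc84 : XT := (XT.nd (nat_lit 1482) (nat_lit 0) (nat_lit 0) (XT.nd (nat_lit 702) (nat_lit 0) (nat_lit 0) (XT.nd (nat_lit 312) (nat_lit 152) (nat_lit 0) (XT.nd (nat_lit 156) (nat_lit 0) (nat_lit 0) (XT.nd (nat_lit 78) (nat_lit 0) (nat_lit 0) (XT.lf (nat_lit 0) (nat_lit 1571136948256) (nat_lit 76) (nat_lit 419200057916) (nat_lit 76) (nat_lit 323986737866) (nat_lit 3) (nat_lit 4) (nat_lit 4) (nat_lit 5) (nat_lit 4) (nat_lit 4) (nat_lit 315) (nat_lit 278) (nat_lit 187)) (XT.lf (nat_lit 0) (nat_lit 2040733768734) (nat_lit 76) (nat_lit 349284753403) (nat_lit 76) (nat_lit 254071396149) (nat_lit 3) (nat_lit 4) (nat_lit 4) (nat_lit 5) (nat_lit 4) (nat_lit 4) (nat_lit 316) (nat_lit 278) (nat_lit 186))) (XT.nd (nat_lit 78) (nat_lit 0) (nat_lit 0) (XT.lf (nat_lit 0) (nat_lit 2580769941398) (nat_lit 76) (nat_lit 268882239789) (nat_lit 76) (nat_lit 173668850184) (nat_lit 3) (nat_lit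 4) (nat_lit 4) (nat_lit 5) (nat_lit 4) (nat_lit 4) (nat_lit 317) (nat_lit 278) (nat_lit 185)) (XT.lf (nat_lit 0) (nat_lit 3201811391364) (nat_lit 76) (nat_lit 176419424416) (nat_lit 76) (nat_lit 81206006679) (nat_lit 3) (nat_lit 4) (nat_lit 4) (nat_lit 5) (nat_lit 4) (nat_lit 4) (nat_lit 318) (nat_lit 278) (nat_lit 184)))) (XT.nd (nat_lit 156) (nat_lit 0) (nat_lit 0) (XT.nd (nat_lit 78) (nat_lit 76) (nat_lit 0) (XT.lf (nat_lit 0) (nat_lit 22889282813) (nat_lit 152) (nat_lit 46001484149) (nat_lit 76) (nat_lit 3891923161559) (nat_lit 2) (nat_lit 5) (nat_lit 4) (nat_lit 5) (nat_lit 3) (nat_lit 4) (nat_lit 319) (nat_lit 278) (nat_lit 183)) (XT.lf (nat_lit 0) (nat_lit 145951027290) (nat_lit 152) (nat_lit 4325959902620) (nat_lit 0) (nat_lit 63156711228) (nat_lit 1) (nat_lit 5) (nat_lit 3) (nat_lit 4) (nat_lit 1) (nat_lit 4) (nat_lit 320) (nat_lit 278) (nat_lit 182))) (XT.nd (nat_lit 78) (nat_lit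 0) (nat_lit 0) (XT.lf (nat_lit 0) (nat_lit 293271617469) (nat_lit 152) (nat_lit 4690840570275) (nat_lit 0) (nat_lit 210477285323) (nat_lit 1) (nat_lit 5) (nat_lit 3) (nat_lit 4) (nat_lit 1) (nat_lit 4) (nat_lit 321) (nat_lit 278) (nat_lit 181)) (XT.nd (nat_lit 78) (nat_lit 0) (nat_lit 0) (XT.lf (nat_lit 0) (nat_lit 462690246110) (nat_lit 152) (nat_lit 5110453441231) (nat_lit 0) (nat_lit 379895899978) (nat_lit 1) (nat_lit 5) (nat_lit 3) (nat_lit 4) (nat_lit 1) (nat_lit 4) (nat_lit 322) (nat_lit 278) (nat_lit 180)) (XT.lf (nat_lit 0) (nat_lit 657521625511) (nat_lit 152) (nat_lit 5593008332528) (nat_lit 0) (nat_lit 574727267217) (nat_lit 1) (nat_lit 5) (nat_lit 3) (nat_lit 4) (nat_lit 1) (nat_lit 4) (nat_lit 323) (nat_lit 278) (nat_lit 179)))))) (XT.nd (nat_lit 390) (nat_lit 0) (nat_lit 0) (XT.nd (nat_lit 156) (nat_lit 0) (nat_lit 0) (XT.nd (nat_lit 78) (nat_lit 0) (nat_lit 0) (XT.lf (nat_lit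 0) (nat_lit 881577673967) (nat_lit 152) (nat_lit 6147946535517) (nat_lit 0) (nat_lit 798783305097) (nat_lit 1) (nat_lit 5) (nat_lit 3) (nat_lit 4) (nat_lit 1) (nat_lit 4) (nat_lit 324) (nat_lit 278) (nat_lit 178)) (XT.lf (nat_lit 0) (nat_lit 1139242096772) (nat_lit 152) (nat_lit 6786125536779) (nat_lit 0) (nat_lit 1056447718706) (nat_lit 1) (nat_lit 5) (nat_lit 3) (nat_lit 4) (nat_lit 1) (nat_lit 4) (nat_lit 325) (nat_lit 278) (nat_lit 177))) (XT.nd (nat_lit 78) (nat_lit 0) (nat_lit 0) (XT.lf (nat_lit 0) (nat_lit 1435556154372) (nat_lit 152) (nat_lit 7520031447208) (nat_lit 0) (nat_lit 1352761768309) (nat_lit 1) (nat_lit 5) (nat_lit 3) (nat_lit 4) (nat_lit 1) (nat_lit 4) (nat_lit 326) (nat_lit 278) (nat_lit 176)) (XT.nd (nat_lit 78) (nat_lit 0) (nat_lit 0) (XT.lf (nat_lit 0) (nat_lit 1776317295721) (nat_lit 152) (nat_lit 8364023295486) (nat_lit 0) (nat_lit 1693522902705) (nat_lit 1) (nat_lit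 5) (nat_lit 3) (nat_lit 4) (nat_lit 1) (nat_lit 4) (nat_lit 327) (nat_lit 278) (nat_lit 175)) (XT.lf (nat_lit 0) (nat_lit 2168192586628) (nat_lit 152) (nat_lit 9334613965601) (nat_lit 0) (nat_lit 2085398187565) (nat_lit 1) (nat_lit 5) (nat_lit 3) (nat_lit 4) (nat_lit 1) (nat_lit 4) (nat_lit 328) (nat_lit 278) (nat_lit 174))))) (XT.nd (nat_lit 156) (nat_lit 0) (nat_lit 0) (XT.nd (nat_lit 78) (nat_lit 0) (nat_lit 0) (XT.lf (nat_lit 0) (nat_lit 2618849152350) (nat_lit 152) (nat_lit 10450793275013) (nat_lit 0) (nat_lit 2536054748029) (nat_lit 1) (nat_lit 5) (nat_lit 3) (nat_lit 4) (nat_lit 1) (nat_lit 4) (nat_lit 329) (nat_lit 278) (nat_lit 173)) (XT.lf (nat_lit 0) (nat_lit 3137104186563) (nat_lit 152) (nat_lit 11734399514557) (nat_lit 0) (nat_lit 3054309777670) (nat_lit 1) (nat_lit 5) (nat_lit 3) (nat_lit 4) (nat_lit 1) (nat_lit 4) (nat_lit 330) (nat_lit 278) (nat_lit 172))) (XT.nd (nat_lit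 78) (nat_lit 0) (nat_lit 0) (XT.lf (nat_lit 0) (nat_lit 3733097461676) (nat_lit 152) (nat_lit 13210546719355) (nat_lit 0) (nat_lit 3650303048808) (nat_lit 1) (nat_lit 5) (nat_lit 3) (nat_lit 4) (nat_lit 1) (nat_lit 4) (nat_lit 331) (nat_lit 278) (nat_lit 171)) (XT.nd (nat_lit 78) (nat_lit 0) (nat_lit 0) (XT.lf (nat_lit 0) (nat_lit 4418489715682) (nat_lit 152) (nat_lit 14908116030370) (nat_lit 0) (nat_lit 4335695299356) (nat_lit 1) (nat_lit 5) (nat_lit 3) (nat_lit 4) (nat_lit 1) (nat_lit 4) (nat_lit 332) (nat_lit 278) (nat_lit 170)) (XT.lf (nat_lit 0) (nat_lit 5206690797026) (nat_lit 152) (nat_lit 16860320760210) (nat_lit 0) (nat_lit 5123896377694) (nat_lit 1) (nat_lit 5) (nat_lit 3) (nat_lit 4) (nat_lit 1) (nat_lit 4) (nat_lit 333) (nat_lit 278) (nat_lit 169))))))) (XT.nd (nat_lit 36348) (nat_lit 0) (nat_lit 1216) (XT.nd (nat_lit 1092) (nat_lit 0) (nat_lit 0) (XT.nd (nat_lit 156) (nat_lit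 0) (nat_lit 0) (XT.nd (nat_lit 78) (nat_lit 0) (nat_lit 0) (XT.lf (nat_lit 0) (nat_lit 6113122031215) (nat_lit 152) (nat_lit 19105356218805) (nat_lit 0) (nat_lit 6030327609269) (nat_lit 1) (nat_lit 5) (nat_lit 3) (nat_lit 4) (nat_lit 1) (nat_lit 4) (nat_lit 334) (nat_lit 278) (nat_lit 168)) (XT.lf (nat_lit 0) (nat_lit 7155517942395) (nat_lit 152) (nat_lit 21687147012955) (nat_lit 0) (nat_lit 7072723518176) (nat_lit 1) (nat_lit 5) (nat_lit 3) (nat_lit 4) (nat_lit 1) (nat_lit 4) (nat_lit 335) (nat_lit 278) (nat_lit 167))) (XT.nd (nat_lit 78) (nat_lit 0) (nat_lit 0) (XT.lf (nat_lit 0) (nat_lit 8354273233177) (nat_lit 152) (nat_lit 24656206440805) (nat_lit 0) (nat_lit 8271478806980) (nat_lit 1) (nat_lit 5) (nat_lit 3) (nat_lit 4) (nat_lit 1) (nat_lit 4) (nat_lit 336) (nat_lit 278) (nat_lit 166)) (XT.nd (nat_lit 78) (nat_lit 0) (nat_lit 0) (XT.lf (nat_lit 0) (nat_lit 9732841811423) (nat_lit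 152) (nat_lit 28070624795510) (nat_lit 0) (nat_lit 9650047383508) (nat_lit 1) (nat_lit 5) (nat_lit 3) (nat_lit 4) (nat_lit 1) (nat_lit 4) (nat_lit 337) (nat_lit 278) (nat_lit 165)) (XT.lf (nat_lit 0) (nat_lit 11318195671055) (nat_lit 152) (nat_lit 31997205914444) (nat_lit 0) (nat_lit 11235401241646) (nat_lit 1) (nat_lit 5) (nat_lit 3) (nat_lit 4) (nat_lit 1) (nat_lit 4) (nat_lit 338) (nat_lit 278) (nat_lit 164))))) (XT.nd (nat_lit 156) (nat_lit 0) (nat_lit 0) (XT.nd (nat_lit 78) (nat_lit 0) (nat_lit 0) (XT.lf (nat_lit 0) (nat_lit 48335060151584) (nat_lit 152) (nat_lit 123680032720345) (nat_lit 0) (nat_lit 48252265714672) (nat_lit 1) (nat_lit 5) (nat_lit 3) (nat_lit 4) (nat_lit 1) (nat_lit 4) (nat_lit 348) (nat_lit 278) (nat_lit 154)) (XT.lf (nat_lit 0) (nat_lit 55710746734239) (nat_lit 152) (nat_lit 141948025085697) (nat_lit 0) (nat_lit 55627952297006) (nat_lit 1) (nat_lit 5) (nat_lit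 3) (nat_lit 4) (nat_lit 1) (nat_lit 4) (nat_lit 349) (nat_lit 278) (nat_lit 153))) (XT.nd (nat_lit 78) (nat_lit 0) (nat_lit 0) (XT.lf (nat_lit 0) (nat_lit 64192786303292) (nat_lit 152) (nat_lit 162956216307913) (nat_lit 0) (nat_lit 64109991865780) (nat_lit 1) (nat_lit 5) (nat_lit 3) (nat_lit 4) (nat_lit 1) (nat_lit 4) (nat_lit 350) (nat_lit 278) (nat_lit 152)) (XT.nd (nat_lit 78) (nat_lit 0) (nat_lit 0) (XT.lf (nat_lit 0) (nat_lit 73947131806834) (nat_lit 152) (nat_lit 187115636215252) (nat_lit 0) (nat_lit 73864337369080) (nat_lit 1) (nat_lit 5) (nat_lit 3) (nat_lit 4) (nat_lit 1) (nat_lit 4) (nat_lit 351) (nat_lit 278) (nat_lit 151)) (XT.lf (nat_lit 0) (nat_lit 85164629135151) (nat_lit 152) (nat_lit 214898969110250) (nat_lit 0) (nat_lit 85081834697185) (nat_lit 1) (nat_lit 5) (nat_lit 3) (nat_lit 4) (nat_lit 1) (nat_lit 4) (nat_lit 352) (nat_lit 278) (nat_lit 150)))))) (XT.nd (nat_lit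 390) (nat_lit 380) (nat_lit 0) (XT.nd (nat_lit 156) (nat_lit 0) (nat_lit 76) (XT.nd (nat_lit 78) (nat_lit 0) (nat_lit 0) (XT.lf (nat_lit 0) (nat_lit 4642537444) (nat_lit 380) (nat_lit 12166006020) (nat_lit 380) (nat_lit 12166006020) (nat_lit 22) (nat_lit 3) (nat_lit 27) (nat_lit 3) (nat_lit 27) (nat_lit 5) (nat_lit 279) (nat_lit 279) (nat_lit 222)) (XT.lf (nat_lit 76) (nat_lit 3010743820) (nat_lit 0) (nat_lit 7113076812) (nat_lit 380) (nat_lit 52150038682) (nat_lit 23) (nat_lit 5) (nat_lit 22) (nat_lit 3) (nat_lit 27) (nat_lit 5) (nat_lit 280) (nat_lit 279) (nat_lit 221))) (XT.nd (nat_lit 78) (nat_lit 0) (nat_lit 0) (XT.lf (nat_lit 0) (nat_lit 13385221628) (nat_lit 304) (nat_lit 30897718005) (nat_lit 380) (nat_lit 22619879552) (nat_lit 23) (nat_lit 5) (nat_lit 27) (nat_lit 5) (nat_lit 28) (nat_lit 5) (nat_lit 281) (nat_lit 279) (nat_lit 220)) (XT.nd (nat_lit 78) (nat_lit 0) (nat_lit 76)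 (XT.lf (nat_lit 76) (nat_lit 1516575239) (nat_lit 0) (nat_lit 16018006394) (nat_lit 380) (nat_lit 54631739495) (nat_lit 24) (nat_lit 5) (nat_lit 23) (nat_lit 5) (nat_lit 28) (nat_lit 5) (nat_lit 282) (nat_lit 279) (nat_lit 219)) (XT.lf (nat_lit 0) (nat_lit 24678563362) (nat_lit 304) (nat_lit 36473685491) (nat_lit 76) (nat_lit 16711275914) (nat_lit 24) (nat_lit 5) (nat_lit 28) (nat_lit 5) (nat_lit 25) (nat_lit 5) (nat_lit 283) (nat_lit 279) (nat_lit 218))))) (XT.nd (nat_lit 156) (nat_lit 228) (nat_lit 0) (XT.nd (nat_lit 78) (nat_lit 0) (nat_lit 0) (XT.lf (nat_lit 0) (nat_lit 2265532187) (nat_lit 304) (nat_lit 31483028547) (nat_lit 380) (nat_lit 50538593341) (nat_lit 20) (nat_lit 5) (nat_lit 24) (nat_lit 5) (nat_lit 25) (nat_lit 5) (nat_lit 284) (nat_lit 279) (nat_lit 217)) (XT.lf (nat_lit 0) (nat_lit 46283636102) (nat_lit 380) (nat_lit 40675907348) (nat_lit 76) (nat_lit 4399104423) (nat_lit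 20) (nat_lit 5) (nat_lit 25) (nat_lit 5) (nat_lit 21) (nat_lit 5) (nat_lit 285) (nat_lit 279) (nat_lit 216))) (XT.nd (nat_lit 78) (nat_lit 76) (nat_lit 0) (XT.lf (nat_lit 0) (nat_lit 5895238378) (nat_lit 152) (nat_lit 56545326749) (nat_lit 228) (nat_lit 36789067720) (nat_lit 18) (nat_lit 5) (nat_lit 20) (nat_lit 5) (nat_lit 21) (nat_lit 5) (nat_lit 286) (nat_lit 279) (nat_lit 215)) (XT.nd (nat_lit 78) (nat_lit 76) (nat_lit 0) (XT.lf (nat_lit 0) (nat_lit 64021498279) (nat_lit 152) (nat_lit 19124208204) (nat_lit 228) (nat_lit 24816863319) (nat_lit 18) (nat_lit 5) (nat_lit 20) (nat_lit 5) (nat_lit 21) (nat_lit 5) (nat_lit 287) (nat_lit 279) (nat_lit 214)) (XT.lf (nat_lit 0) (nat_lit 13029224478) (nat_lit 76) (nat_lit 95455594483) (nat_lit 152) (nat_lit 9291402856) (nat_lit 17) (nat_lit 5) (nat_lit 18) (nat_lit 5) (nat_lit 19) (nat_lit 4) (nat_lit 288) (nat_lit 279) (nat_lit 213))))))))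
noncomputable def xc85 : XT := (XT.nd (nat_lit 1482) (nat_lit 228) (nat_lit 0) (XT.nd (nat_lit 702) (nat_lit 456) (nat_lit 0) (XT.nd (nat_lit 312) (nat_lit 228) (nat_lit 0) (XT.nd (nat_lit 156) (nat_lit 76) (nat_lit 0) (XT.nd (nat_lit 78) (nat_lit 152) (nat_lit 0) (XT.lf (nat_lit 0) (nat_lit 11116185641) (nat_lit 152) (nat_lit 46610524698) (nat_lit 76) (nat_lit 70784683814) (nat_lit 16) (nat_lit 5) (nat_lit 18) (nat_lit 5) (nat_lit 17) (nat_lit 5) (nat_lit 289) (nat_lit 279) (nat_lit 212)) (XT.lf (nat_lit 0) (nat_lit 21737489250) (nat_lit 152) (nat_lit 12795100180) (nat_lit 228) (nat_lit 106123047756) (nat_lit 14) (nat_lit 5) (nat_lit 16) (nat_lit 5) (nat_lit 17) (nat_lit 5) (nat_lit 290) (nat_lit 279) (nat_lit 211))) (XT.nd (nat_lit 78) (nat_lit 76) (nat_lit 0) (XT.lf (nat_lit 0) (nat_lit 65622615952) (nat_lit 228) (nat_lit 50407527443) (nat_lit 76) (nat_lit 37967201530) (nat_lit 14)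 (nat_lit 5) (nat_lit 17) (nat_lit 5) (nat_lit 15) (nat_lit 4) (nat_lit 291) (nat_lit 279) (nat_lit 210)) (XT.lf (nat_lit 0) (nat_lit 30482633235) (nat_lit 76) (nat_lit 72764066607) (nat_lit 152) (nat_lit 65813028214) (nat_lit 13) (nat_lit 5) (nat_lit 14) (nat_lit 5) (nat_lit 15) (nat_lit 4) (nat_lit 292) (nat_lit 279) (nat_lit 209)))) (XT.nd (nat_lit 156) (nat_lit 76) (nat_lit 0) (XT.nd (nat_lit 78) (nat_lit 152) (nat_lit 0) (XT.lf (nat_lit 0) (nat_lit 129169969394) (nat_lit 76) (nat_lit 19978472113) (nat_lit 152) (nat_lit 36837922319) (nat_lit 13) (nat_lit 5) (nat_lit 14) (nat_lit 5) (nat_lit 15) (nat_lit 4) (nat_lit 293) (nat_lit 279) (nat_lit 208)) (XT.lf (nat_lit 0) (nat_lit 253777251) (nat_lit 152) (nat_lit 165976469833) (nat_lit 76) (nat_lit 38725002257) (nat_lit 11) (nat_lit 5) (nat_lit 13) (nat_lit 5) (nat_lit 12) (nat_lit 4) (nat_lit 294) (nat_lit 279) (nat_lit 207))) (XT.nd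 (nat_lit 78) (nat_lit 76) (nat_lit 0) (XT.lf (nat_lit 0) (nat_lit 43199674971) (nat_lit 152) (nat_lit 73643715796) (nat_lit 76) (nat_lit 109053658464) (nat_lit 11) (nat_lit 5) (nat_lit 13) (nat_lit 5) (nat_lit 12) (nat_lit 4) (nat_lit 295) (nat_lit 279) (nat_lit 206)) (XT.nd (nat_lit 78) (nat_lit 0) (nat_lit 0) (XT.lf (nat_lit 0) (nat_lit 35717568341) (nat_lit 76) (nat_lit 58348194726) (nat_lit 152) (nat_lit 155692611293) (nat_lit 10) (nat_lit 5) (nat_lit 11) (nat_lit 5) (nat_lit 12) (nat_lit 4) (nat_lit 296) (nat_lit 279) (nat_lit 205)) (XT.lf (nat_lit 0) (nat_lit 156963383225) (nat_lit 152) (nat_lit 107415822549) (nat_lit 0) (nat_lit 12159450626) (nat_lit 10) (nat_lit 5) (nat_lit 12) (nat_lit 4) (nat_lit 10) (nat_lit 4) (nat_lit 297) (nat_lit 279) (nat_lit 204)))))) (XT.nd (nat_lit 390) (nat_lit 228) (nat_lit 0) (XT.nd (nat_lit 156) (nat_lit 152) (nat_lit 0) (XT.nd (nat_lit 78) (nat_lit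 0) (nat_lit 0) (XT.lf (nat_lit 0) (nat_lit 13637454811) (nat_lit 76) (nat_lit 219000798880) (nat_lit 76) (nat_lit 74196336803) (nat_lit 9) (nat_lit 4) (nat_lit 10) (nat_lit 5) (nat_lit 10) (nat_lit 4) (nat_lit 298) (nat_lit 279) (nat_lit 203)) (XT.lf (nat_lit 0) (nat_lit 164919777348) (nat_lit 76) (nat_lit 160358952180) (nat_lit 76) (nat_lit 15554029687) (nat_lit 9) (nat_lit 4) (nat_lit 10) (nat_lit 5) (nat_lit 10) (nat_lit 4) (nat_lit 299) (nat_lit 279) (nat_lit 202))) (XT.nd (nat_lit 78) (nat_lit 76) (nat_lit 0) (XT.lf (nat_lit 0) (nat_lit 47265000106) (nat_lit 152) (nat_lit 43185572626) (nat_lit 76) (nat_lit 289157890638) (nat_lit 8) (nat_lit 5) (nat_lit 10) (nat_lit 5) (nat_lit 9) (nat_lit 4) (nat_lit 300) (nat_lit 279) (nat_lit 201)) (XT.nd (nat_lit 78) (nat_lit 0) (nat_lit 0) (XT.lf (nat_lit 0) (nat_lit 119333345611) (nat_lit 76) (nat_lit 3522010949) (nat_lit 152) (nat_lit 300492930571)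 (nat_lit 7) (nat_lit 5) (nat_lit 8) (nat_lit 5) (nat_lit 9) (nat_lit 4) (nat_lit 301) (nat_lit 279) (nat_lit 200)) (XT.lf (nat_lit 0) (nat_lit 216142384952) (nat_lit 152) (nat_lit 166328835222) (nat_lit 0) (nat_lit 90224146930) (nat_lit 7) (nat_lit 5) (nat_lit 9) (nat_lit 4) (nat_lit 7) (nat_lit 4) (nat_lit 302) (nat_lit 279) (nat_lit 199))))) (XT.nd (nat_lit 156) (nat_lit 152) (nat_lit 0) (XT.nd (nat_lit 78) (nat_lit 76) (nat_lit 0) (XT.lf (nat_lit 0) (nat_lit 323589815361) (nat_lit 152) (nat_lit 8158243483) (nat_lit 0) (nat_lit 197671348431) (nat_lit 7) (nat_lit 5) (nat_lit 9) (nat_lit 4) (nat_lit 7) (nat_lit 4) (nat_lit 303) (nat_lit 279) (nat_lit 198)) (XT.lf (nat_lit 0) (nat_lit 190716188606) (nat_lit 76) (nat_lit 264335003219) (nat_lit 76) (nat_lit 138416337239) (nat_lit 6) (nat_lit 4) (nat_lit 7) (nat_lit 5) (nat_lit 7) (nat_lit 4) (nat_lit 304) (nat_lit 279) (nat_lit 197))) (XT.nd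 (nat_lit 78) (nat_lit 152) (nat_lit 0) (XT.lf (nat_lit 0) (nat_lit 420338066771) (nat_lit 76) (nat_lit 186319859484) (nat_lit 76) (nat_lit 60401020416) (nat_lit 6) (nat_lit 4) (nat_lit 7) (nat_lit 5) (nat_lit 7) (nat_lit 4) (nat_lit 305) (nat_lit 279) (nat_lit 196)) (XT.nd (nat_lit 78) (nat_lit 76) (nat_lit 0) (XT.lf (nat_lit 0) (nat_lit 26706352550) (nat_lit 152) (nat_lit 68500331595) (nat_lit 76) (nat_lit 656300343657) (nat_lit 5) (nat_lit 5) (nat_lit 7) (nat_lit 5) (nat_lit 6) (nat_lit 4) (nat_lit 306) (nat_lit 279) (nat_lit 195)) (XT.lf (nat_lit 0) (nat_lit 127589838779) (nat_lit 152) (nat_lit 701472007024) (nat_lit 0) (nat_lit 18094951424) (nat_lit 4) (nat_lit 5) (nat_lit 6) (nat_lit 4) (nat_lit 4) (nat_lit 4) (nat_lit 307) (nat_lit 279) (nat_lit 194))))))) (XT.nd (nat_lit 780) (nat_lit 152) (nat_lit 0) (XT.nd (nat_lit 390) (nat_lit 0) (nat_lit 0) (XT.nd (nat_lit 156) (nat_lit 76)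 (nat_lit 0) (XT.nd (nat_lit 78) (nat_lit 0) (nat_lit 0) (XT.lf (nat_lit 0) (nat_lit 251890471940) (nat_lit 152) (nat_lit 561625381059) (nat_lit 0) (nat_lit 142395485623) (nat_lit 4) (nat_lit 5) (nat_lit 6) (nat_lit 4) (nat_lit 4) (nat_lit 4) (nat_lit 308) (nat_lit 279) (nat_lit 193)) (XT.lf (nat_lit 0) (nat_lit 394835994630) (nat_lit 152) (nat_lit 400802175293) (nat_lit 0) (nat_lit 285340922258) (nat_lit 4) (nat_lit 5) (nat_lit 6) (nat_lit 4) (nat_lit 4) (nat_lit 4) (nat_lit 309) (nat_lit 279) (nat_lit 192))) (XT.nd (nat_lit 78) (nat_lit 76) (nat_lit 0) (XT.lf (nat_lit 0) (nat_lit 559223167075) (nat_lit 152) (nat_lit 215855848742) (nat_lit 0) (nat_lit 449728019872) (nat_lit 4) (nat_lit 5) (nat_lit 6) (nat_lit 4) (nat_lit 4) (nat_lit 4) (nat_lit 310) (nat_lit 279) (nat_lit 191)) (XT.nd (nat_lit 78) (nat_lit 76) (nat_lit 0) (XT.lf (nat_lit 0) (nat_lit 748268260040) (nat_lit 152) (nat_lit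 3167886323) (nat_lit 0) (nat_lit 638773047767) (nat_lit 4) (nat_lit 5) (nat_lit 6) (nat_lit 4) (nat_lit 4) (nat_lit 4) (nat_lit 311) (nat_lit 279) (nat_lit 190)) (XT.lf (nat_lit 0) (nat_lit 265016609373) (nat_lit 76) (nat_lit 711627145137) (nat_lit 76) (nat_lit 602131876282) (nat_lit 3) (nat_lit 4) (nat_lit 4) (nat_lit 5) (nat_lit 4) (nat_lit 4) (nat_lit 312) (nat_lit 279) (nat_lit 189))))) (XT.nd (nat_lit 156) (nat_lit 0) (nat_lit 0) (XT.nd (nat_lit 78) (nat_lit 0) (nat_lit 0) (XT.lf (nat_lit 0) (nat_lit 573784546751) (nat_lit 76) (nat_lit 665656492232) (nat_lit 76) (nat_lit 556161174174) (nat_lit 3) (nat_lit 4) (nat_lit 4) (nat_lit 5) (nat_lit 4) (nat_lit 4) (nat_lit 313) (nat_lit 279) (nat_lit 188)) (XT.lf (nat_lit 0) (nat_lit 928867448739) (nat_lit 76) (nat_lit 612790355887) (nat_lit 76) (nat_lit 503294995044) (nat_lit 3) (nat_lit 4) (nat_lit 4) (nat_lit 5) (nat_lit 4) (nat_lit 4)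 (nat_lit 314) (nat_lit 279) (nat_lit 187))) (XT.nd (nat_lit 78) (nat_lit 0) (nat_lit 0) (XT.lf (nat_lit 0) (nat_lit 1337212589507) (nat_lit 76) (nat_lit 551994398651) (nat_lit 76) (nat_lit 442499000605) (nat_lit 3) (nat_lit 4) (nat_lit 4) (nat_lit 5) (nat_lit 4) (nat_lit 4) (nat_lit 315) (nat_lit 279) (nat_lit 186)) (XT.nd (nat_lit 78) (nat_lit 0) (nat_lit 0) (XT.lf (nat_lit 0) (nat_lit 1806809330503) (nat_lit 76) (nat_lit 482079134406) (nat_lit 76) (nat_lit 372583704009) (nat_lit 3) (nat_lit 4) (nat_lit 4) (nat_lit 5) (nat_lit 4) (nat_lit 4) (nat_lit 316) (nat_lit 279) (nat_lit 185)) (XT.lf (nat_lit 0) (nat_lit 2346845434051) (nat_lit 76) (nat_lit 401676655808) (nat_lit 76) (nat_lit 292181197279) (nat_lit 3) (nat_lit 4) (nat_lit 4) (nat_lit 5) (nat_lit 4) (nat_lit 4) (nat_lit 317) (nat_lit 279) (nat_lit 184)))))) (XT.nd (nat_lit 390) (nat_lit 0) (nat_lit 0) (XT.nd (nat_lit 156) (nat_lit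 152) (nat_lit 0) (XT.nd (nat_lit 78) (nat_lit 0) (nat_lit 0) (XT.lf (nat_lit 0) (nat_lit 2967886823918) (nat_lit 76) (nat_lit 309213870883) (nat_lit 76) (nat_lit 199718387892) (nat_lit 3) (nat_lit 4) (nat_lit 4) (nat_lit 5) (nat_lit 4) (nat_lit 4) (nat_lit 318) (nat_lit 279) (nat_lit 183)) (XT.lf (nat_lit 0) (nat_lit 3682084309904) (nat_lit 76) (nat_lit 202881725144) (nat_lit 76) (nat_lit 93386220882) (nat_lit 3) (nat_lit 4) (nat_lit 4) (nat_lit 5) (nat_lit 4) (nat_lit 4) (nat_lit 319) (nat_lit 279) (nat_lit 182))) (XT.nd (nat_lit 78) (nat_lit 76) (nat_lit 0) (XT.lf (nat_lit 0) (nat_lit 26323219284) (nat_lit 152) (nat_lit 52900601298) (nat_lit 76) (nat_lit 4475712115336) (nat_lit 2) (nat_lit 5) (nat_lit 4) (nat_lit 5) (nat_lit 3) (nat_lit 4) (nat_lit 320) (nat_lit 279) (nat_lit 181)) (XT.nd (nat_lit 78) (nat_lit 0) (nat_lit 0) (XT.lf (nat_lit 0) (nat_lit 167844220460) (nat_lit 152) (nat_lit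 4974852777326) (nat_lit 0) (nat_lit 72630708421) (nat_lit 1) (nat_lit 5) (nat_lit 3) (nat_lit 4) (nat_lit 1) (nat_lit 4) (nat_lit 321) (nat_lit 279) (nat_lit 180)) (XT.lf (nat_lit 0) (nat_lit 337262828851) (nat_lit 152) (nat_lit 5394465690002) (nat_lit 0) (nat_lit 242049304651) (nat_lit 1) (nat_lit 5) (nat_lit 3) (nat_lit 4) (nat_lit 1) (nat_lit 4) (nat_lit 322) (nat_lit 279) (nat_lit 179))))) (XT.nd (nat_lit 156) (nat_lit 0) (nat_lit 0) (XT.nd (nat_lit 78) (nat_lit 0) (nat_lit 0) (XT.lf (nat_lit 0) (nat_lit 532094190645) (nat_lit 152) (nat_lit 5877020617577) (nat_lit 0) (nat_lit 436880655870) (nat_lit 1) (nat_lit 5) (nat_lit 3) (nat_lit 4) (nat_lit 1) (nat_lit 4) (nat_lit 323) (nat_lit 279) (nat_lit 178)) (XT.lf (nat_lit 0) (nat_lit 756150223790) (nat_lit 152) (nat_lit 6431958852113) (nat_lit 0) (nat_lit 660936679818) (nat_lit 1) (nat_lit 5) (nat_lit 3) (nat_lit 4) (nat_lit 1) (nat_lit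 4) (nat_lit 324) (nat_lit 279) (nat_lit 177))) (XT.nd (nat_lit 78) (nat_lit 0) (nat_lit 0) (XT.lf (nat_lit 0) (nat_lit 1013814633280) (nat_lit 152) (nat_lit 7070137880806) (nat_lit 0) (nat_lit 918601081312) (nat_lit 1) (nat_lit 5) (nat_lit 3) (nat_lit 4) (nat_lit 1) (nat_lit 4) (nat_lit 325) (nat_lit 279) (nat_lit 176)) (XT.nd (nat_lit 78) (nat_lit 0) (nat_lit 0) (XT.lf (nat_lit 0) (nat_lit 1310128679304) (nat_lit 152) (nat_lit 7804043815088) (nat_lit 0) (nat_lit 1214915120381) (nat_lit 1) (nat_lit 5) (nat_lit 3) (nat_lit 4) (nat_lit 1) (nat_lit 4) (nat_lit 326) (nat_lit 279) (nat_lit 175)) (XT.lf (nat_lit 0) (nat_lit 1650889810586) (nat_lit 152) (nat_lit 8648035684109) (nat_lit 0) (nat_lit 1555676245616) (nat_lit 1) (nat_lit 5) (nat_lit 3) (nat_lit 4) (nat_lit 1) (nat_lit 4) (nat_lit 327) (nat_lit 279) (nat_lit 174))))))))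
noncomputable def xc86 : XT := (XT.nd (nat_lit 37206) (nat_lit 0) (nat_lit 456) (XT.nd (nat_lit 702) (nat_lit 0) (nat_lit 0) (XT.nd (nat_lit 312) (nat_lit 0) (nat_lit 0) (XT.nd (nat_lit 156) (nat_lit 0) (nat_lit 0) (XT.nd (nat_lit 78) (nat_lit 0) (nat_lit 0) (XT.lf (nat_lit 0) (nat_lit 2042765092738) (nat_lit 152) (nat_lit 9618626372261) (nat_lit 0) (nat_lit 1947551522511) (nat_lit 1) (nat_lit 5) (nat_lit 3) (nat_lit 4) (nat_lit 1) (nat_lit 4) (nat_lit 328) (nat_lit 279) (nat_lit 173)) (XT.lf (nat_lit 0) (nat_lit 2493421650847) (nat_lit 152) (nat_lit 10734805697356) (nat_lit 0) (nat_lit 2398208076048) (nat_lit 1) (nat_lit 5) (nat_lit 3) (nat_lit 4) (nat_lit 1) (nat_lit 4) (nat_lit 329) (nat_lit 279) (nat_lit 172))) (XT.nd (nat_lit 78) (nat_lit 0) (nat_lit 0) (XT.lf (nat_lit 0) (nat_lit 3011676678441) (nat_lit 152) (nat_lit 12018411950539) (nat_lit 0) (nat_lit 2916463099666) (nat_lit 1)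 (nat_lit 5) (nat_lit 3) (nat_lit 4) (nat_lit 1) (nat_lit 4) (nat_lit 330) (nat_lit 279) (nat_lit 171)) (XT.lf (nat_lit 0) (nat_lit 3607669947799) (nat_lit 152) (nat_lit 13494559167196) (nat_lit 0) (nat_lit 3512456365567) (nat_lit 1) (nat_lit 5) (nat_lit 3) (nat_lit 4) (nat_lit 1) (nat_lit 4) (nat_lit 331) (nat_lit 279) (nat_lit 170)))) (XT.nd (nat_lit 156) (nat_lit 0) (nat_lit 0) (XT.nd (nat_lit 78) (nat_lit 0) (nat_lit 0) (XT.lf (nat_lit 0) (nat_lit 4293062196799) (nat_lit 152) (nat_lit 15192128488524) (nat_lit 0) (nat_lit 4197848611560) (nat_lit 1) (nat_lit 5) (nat_lit 3) (nat_lit 4) (nat_lit 1) (nat_lit 4) (nat_lit 332) (nat_lit 279) (nat_lit 169)) (XT.lf (nat_lit 0) (nat_lit 5081263273791) (nat_lit 152) (nat_lit 17144333227331) (nat_lit 0) (nat_lit 4986049685939) (nat_lit 1) (nat_lit 5) (nat_lit 3) (nat_lit 4) (nat_lit 1) (nat_lit 4) (nat_lit 333) (nat_lit 279) (nat_lit 168))) (XT.nd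 (nat_lit 78) (nat_lit 0) (nat_lit 0) (XT.lf (nat_lit 0) (nat_lit 5987694504195) (nat_lit 152) (nat_lit 19389368693724) (nat_lit 0) (nat_lit 5892480914070) (nat_lit 1) (nat_lit 5) (nat_lit 3) (nat_lit 4) (nat_lit 1) (nat_lit 4) (nat_lit 334) (nat_lit 279) (nat_lit 167)) (XT.nd (nat_lit 78) (nat_lit 0) (nat_lit 0) (XT.lf (nat_lit 0) (nat_lit 7030090412085) (nat_lit 152) (nat_lit 21971159494654) (nat_lit 0) (nat_lit 6934876819982) (nat_lit 1) (nat_lit 5) (nat_lit 3) (nat_lit 4) (nat_lit 1) (nat_lit 4) (nat_lit 335) (nat_lit 279) (nat_lit 166)) (XT.lf (nat_lit 0) (nat_lit 8228845700004) (nat_lit 152) (nat_lit 24940218928401) (nat_lit 0) (nat_lit 8133632106183) (nat_lit 1) (nat_lit 5) (nat_lit 3) (nat_lit 4) (nat_lit 1) (nat_lit 4) (nat_lit 336) (nat_lit 279) (nat_lit 165)))))) (XT.nd (nat_lit 1092) (nat_lit 0) (nat_lit 0) (XT.nd (nat_lit 858) (nat_lit 0) (nat_lit 0) (XT.nd (nat_lit 78) (nat_lit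 0) (nat_lit 0) (XT.lf (nat_lit 0) (nat_lit 9607414275762) (nat_lit 152) (nat_lit 28354637288233) (nat_lit 0) (nat_lit 9512200680446) (nat_lit 1) (nat_lit 5) (nat_lit 3) (nat_lit 4) (nat_lit 1) (nat_lit 4) (nat_lit 337) (nat_lit 279) (nat_lit 164)) (XT.lf (nat_lit 0) (nat_lit 11192768133230) (nat_lit 152) (nat_lit 32281218411625) (nat_lit 0) (nat_lit 11097554536615) (nat_lit 1) (nat_lit 5) (nat_lit 3) (nat_lit 4) (nat_lit 1) (nat_lit 4) (nat_lit 338) (nat_lit 279) (nat_lit 163))) (XT.nd (nat_lit 78) (nat_lit 0) (nat_lit 0) (XT.lf (nat_lit 0) (nat_lit 48209632602899) (nat_lit 152) (nat_lit 123964045239902) (nat_lit 0) (nat_lit 48114418999760) (nat_lit 1) (nat_lit 5) (nat_lit 3) (nat_lit 4) (nat_lit 1) (nat_lit 4) (nat_lit 348) (nat_lit 279) (nat_lit 153)) (XT.nd (nat_lit 78) (nat_lit 0) (nat_lit 0) (XT.lf (nat_lit 0) (nat_lit 55585319185089) (nat_lit 152) (nat_lit 142232037606212) (nat_lit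 0) (nat_lit 55490105581671) (nat_lit 1) (nat_lit 5) (nat_lit 3) (nat_lit 4) (nat_lit 1) (nat_lit 4) (nat_lit 349) (nat_lit 279) (nat_lit 152)) (XT.lf (nat_lit 0) (nat_lit 64067358753738) (nat_lit 152) (nat_lit 163240228829261) (nat_lit 0) (nat_lit 63972145150077) (nat_lit 1) (nat_lit 5) (nat_lit 3) (nat_lit 4) (nat_lit 1) (nat_lit 4) (nat_lit 350) (nat_lit 279) (nat_lit 151))))) (XT.nd (nat_lit 35178) (nat_lit 0) (nat_lit 1596) (XT.nd (nat_lit 35100) (nat_lit 0) (nat_lit 1596) (XT.lf (nat_lit 0) (nat_lit 73821704256928) (nat_lit 152) (nat_lit 187399648737325) (nat_lit 0) (nat_lit 73726490653055) (nat_lit 1) (nat_lit 5) (nat_lit 3) (nat_lit 4) (nat_lit 1) (nat_lit 4) (nat_lit 351) (nat_lit 279) (nat_lit 150)) (XT.lf (nat_lit 0) (nat_lit 5355881926) (nat_lit 380) (nat_lit 13981120439) (nat_lit 380) (nat_lit 13981120439) (nat_lit 22) (nat_lit 3) (nat_lit 27) (nat_lit 3) (nat_lit 27) (nat_lit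 5) (nat_lit 280) (nat_lit 280) (nat_lit 220))) (XT.nd (nat_lit 78) (nat_lit 0) (nat_lit 76) (XT.lf (nat_lit 76) (nat_lit 3481038682) (nat_lit 0) (nat_lit 8191631055) (nat_lit 380) (nat_lit 59937614858) (nat_lit 23) (nat_lit 5) (nat_lit 22) (nat_lit 3) (nat_lit 27) (nat_lit 5) (nat_lit 281) (nat_lit 280) (nat_lit 219)) (XT.nd (nat_lit 78) (nat_lit 0) (nat_lit 0) (XT.lf (nat_lit 0) (nat_lit 15418914420) (nat_lit 304) (nat_lit 35511665326) (nat_lit 380) (nat_lit 26003678305) (nat_lit 23) (nat_lit 5) (nat_lit 27) (nat_lit 5) (nat_lit 28) (nat_lit 5) (nat_lit 282) (nat_lit 280) (nat_lit 218)) (XT.lf (nat_lit 76) (nat_lit 1763830524) (nat_lit 0) (nat_lit 18424286987) (nat_lit 380) (nat_lit 62799564640) (nat_lit 24) (nat_lit 5) (nat_lit 23) (nat_lit 5) (nat_lit 28) (nat_lit 5) (nat_lit 283) (nat_lit 280) (nat_lit 217))))))) (XT.nd (nat_lit 780) (nat_lit 456) (nat_lit 0) (XT.nd (nat_lit 390)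 (nat_lit 380) (nat_lit 0) (XT.nd (nat_lit 156) (nat_lit 152) (nat_lit 0) (XT.nd (nat_lit 78) (nat_lit 304) (nat_lit 0) (XT.lf (nat_lit 0) (nat_lit 28400522135) (nat_lit 304) (nat_lit 41924299732) (nat_lit 76) (nat_lit 19215131692) (nat_lit 24) (nat_lit 5) (nat_lit 28) (nat_lit 5) (nat_lit 25) (nat_lit 5) (nat_lit 284) (nat_lit 280) (nat_lit 216)) (XT.lf (nat_lit 0) (nat_lit 2624871572) (nat_lit 304) (nat_lit 36204323963) (nat_lit 380) (nat_lit 58098214888) (nat_lit 20) (nat_lit 5) (nat_lit 24) (nat_lit 5) (nat_lit 25) (nat_lit 5) (nat_lit 285) (nat_lit 280) (nat_lit 215))) (XT.nd (nat_lit 78) (nat_lit 152) (nat_lit 0) (XT.lf (nat_lit 0) (nat_lit 53242180367) (nat_lit 380) (nat_lit 46757920986) (nat_lit 76) (nat_lit 5059888083) (nat_lit 20) (nat_lit 5) (nat_lit 25) (nat_lit 5) (nat_lit 21) (nat_lit 5) (nat_lit 286) (nat_lit 280) (nat_lit 214)) (XT.nd (nat_lit 78) (nat_lit 0) (nat_lit 0)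 (XT.lf (nat_lit 0) (nat_lit 6798016032) (nat_lit 152) (nat_lit 65023311617) (nat_lit 228) (nat_lit 42290499948) (nat_lit 18) (nat_lit 5) (nat_lit 20) (nat_lit 5) (nat_lit 21) (nat_lit 5) (nat_lit 287) (nat_lit 280) (nat_lit 213)) (XT.lf (nat_lit 0) (nat_lit 73640802932) (nat_lit 152) (nat_lit 21989522787) (nat_lit 228) (nat_lit 28524672877) (nat_lit 18) (nat_lit 5) (nat_lit 20) (nat_lit 5) (nat_lit 21) (nat_lit 5) (nat_lit 288) (nat_lit 280) (nat_lit 212))))) (XT.nd (nat_lit 156) (nat_lit 228) (nat_lit 0) (XT.nd (nat_lit 78) (nat_lit 76) (nat_lit 0) (XT.lf (nat_lit 0) (nat_lit 15000693799) (nat_lit 76) (nat_lit 109768773399) (nat_lit 152) (nat_lit 10671362400) (nat_lit 17) (nat_lit 5) (nat_lit 18) (nat_lit 5) (nat_lit 19) (nat_lit 4) (nat_lit 289) (nat_lit 280) (nat_lit 211)) (XT.lf (nat_lit 0) (nat_lit 12794506258) (nat_lit 152) (nat_lit 53586154057) (nat_lit 76) (nat_lit 81405781307)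 (nat_lit 16) (nat_lit 5) (nat_lit 18) (nat_lit 5) (nat_lit 17) (nat_lit 5) (nat_lit 290) (nat_lit 280) (nat_lit 210))) (XT.nd (nat_lit 78) (nat_lit 76) (nat_lit 0) (XT.lf (nat_lit 0) (nat_lit 25013337013) (nat_lit 152) (nat_lit 14709243215) (nat_lit 228) (nat_lit 122029863058) (nat_lit 14) (nat_lit 5) (nat_lit 16) (nat_lit 5) (nat_lit 17) (nat_lit 5) (nat_lit 291) (nat_lit 280) (nat_lit 209)) (XT.nd (nat_lit 78) (nat_lit 76) (nat_lit 0) (XT.lf (nat_lit 0) (nat_lit 75474977453) (nat_lit 228) (nat_lit 57954263723) (nat_lit 76) (nat_lit 43666339148) (nat_lit 14) (nat_lit 5) (nat_lit 17) (nat_lit 5) (nat_lit 15) (nat_lit 4) (nat_lit 292) (nat_lit 280) (nat_lit 208)) (XT.lf (nat_lit 0) (nat_lit 35068766837) (nat_lit 76) (nat_lit 83673306092) (nat_lit 152) (nat_lit 75675340880) (nat_lit 13) (nat_lit 5) (nat_lit 14) (nat_lit 5) (nat_lit 15) (nat_lit 4) (nat_lit 293) (nat_lit 280) (nat_lit 207))))))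 (XT.nd (nat_lit 390) (nat_lit 228) (nat_lit 0) (XT.nd (nat_lit 156) (nat_lit 76) (nat_lit 0) (XT.nd (nat_lit 78) (nat_lit 152) (nat_lit 0) (XT.lf (nat_lit 0) (nat_lit 148557411426) (nat_lit 76) (nat_lit 22970572926) (nat_lit 152) (nat_lit 42355226696) (nat_lit 13) (nat_lit 5) (nat_lit 14) (nat_lit 5) (nat_lit 15) (nat_lit 4) (nat_lit 294) (nat_lit 280) (nat_lit 206)) (XT.lf (nat_lit 0) (nat_lit 299193895) (nat_lit 152) (nat_lit 190859933987) (nat_lit 76) (nat_lit 44538294360) (nat_lit 11) (nat_lit 5) (nat_lit 13) (nat_lit 5) (nat_lit 12) (nat_lit 4) (nat_lit 295) (nat_lit 280) (nat_lit 205))) (XT.nd (nat_lit 78) (nat_lit 76) (nat_lit 0) (XT.lf (nat_lit 0) (nat_lit 49686017570) (nat_lit 152) (nat_lit 84678963321) (nat_lit 76) (nat_lit 125415656594) (nat_lit 11) (nat_lit 5) (nat_lit 13) (nat_lit 5) (nat_lit 12) (nat_lit 4) (nat_lit 296) (nat_lit 280) (nat_lit 204)) (XT.nd (nat_lit 78) (nat_lit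 0) (nat_lit 0) (XT.lf (nat_lit 0) (nat_lit 41085999352) (nat_lit 76) (nat_lit 67095632903) (nat_lit 152) (nat_lit 179039588482) (nat_lit 10) (nat_lit 5) (nat_lit 11) (nat_lit 5) (nat_lit 12) (nat_lit 4) (nat_lit 297) (nat_lit 280) (nat_lit 203)) (XT.lf (nat_lit 0) (nat_lit 180513284721) (nat_lit 152) (nat_lit 123518189714) (nat_lit 0) (nat_lit 13987163438) (nat_lit 10) (nat_lit 5) (nat_lit 12) (nat_lit 4) (nat_lit 10) (nat_lit 4) (nat_lit 298) (nat_lit 280) (nat_lit 202))))) (XT.nd (nat_lit 156) (nat_lit 152) (nat_lit 0) (XT.nd (nat_lit 78) (nat_lit 0) (nat_lit 0) (XT.lf (nat_lit 0) (nat_lit 15692624423) (nat_lit 76) (nat_lit 251846453271) (nat_lit 76) (nat_lit 85319931627) (nat_lit 9) (nat_lit 4) (nat_lit 10) (nat_lit 5) (nat_lit 10) (nat_lit 4) (nat_lit 299) (nat_lit 280) (nat_lit 201)) (XT.lf (nat_lit 0) (nat_lit 189666049507) (nat_lit 76) (nat_lit 184408912014) (nat_lit 76) (nat_lit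 17882042230) (nat_lit 9) (nat_lit 4) (nat_lit 10) (nat_lit 5) (nat_lit 10) (nat_lit 4) (nat_lit 300) (nat_lit 280) (nat_lit 200))) (XT.nd (nat_lit 78) (nat_lit 76) (nat_lit 0) (XT.lf (nat_lit 0) (nat_lit 54358783681) (nat_lit 152) (nat_lit 49655787600) (nat_lit 76) (nat_lit 332534552052) (nat_lit 8) (nat_lit 5) (nat_lit 10) (nat_lit 5) (nat_lit 9) (nat_lit 4) (nat_lit 301) (nat_lit 280) (nat_lit 199)) (XT.nd (nat_lit 78) (nat_lit 0) (nat_lit 0) (XT.lf (nat_lit 0) (nat_lit 137240621967) (nat_lit 76) (nat_lit 4046846742) (nat_lit 152) (nat_lit 345562486272) (nat_lit 7) (nat_lit 5) (nat_lit 8) (nat_lit 5) (nat_lit 9) (nat_lit 4) (nat_lit 302) (nat_lit 280) (nat_lit 198)) (XT.lf (nat_lit 0) (nat_lit 248567179372) (nat_lit 152) (nat_lit 191271459444) (nat_lit 0) (nat_lit 103760514444) (nat_lit 7) (nat_lit 5) (nat_lit 9) (nat_lit 4) (nat_lit 7) (nat_lit 4) (nat_lit 303) (nat_lit 280) (nat_lit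 197))))))))
noncomputable def xc87 : XT := (XT.nd (nat_lit 1482) (nat_lit 0) (nat_lit 0) (XT.nd (nat_lit 702) (nat_lit 228) (nat_lit 0) (XT.nd (nat_lit 312) (nat_lit 76) (nat_lit 0) (XT.nd (nat_lit 156) (nat_lit 76) (nat_lit 0) (XT.nd (nat_lit 78) (nat_lit 76) (nat_lit 0) (XT.lf (nat_lit 0) (nat_lit 372131276080) (nat_lit 152) (nat_lit 9376152995) (nat_lit 0) (nat_lit 227324438065) (nat_lit 7) (nat_lit 5) (nat_lit 9) (nat_lit 4) (nat_lit 7) (nat_lit 4) (nat_lit 304) (nat_lit 280) (nat_lit 196)) (XT.lf (nat_lit 0) (nat_lit 219329179043) (nat_lit 76) (nat_lit 303982520494) (nat_lit 76) (nat_lit 159175531968) (nat_lit 6) (nat_lit 4) (nat_lit 7) (nat_lit 5) (nat_lit 7) (nat_lit 4) (nat_lit 305) (nat_lit 280) (nat_lit 195))) (XT.nd (nat_lit 78) (nat_lit 76) (nat_lit 0) (XT.lf (nat_lit 0) (nat_lit 483393613436) (nat_lit 76) (nat_lit 214265461704) (nat_lit 76) (nat_lit 69458342299) (nat_lit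 6) (nat_lit 4) (nat_lit 7) (nat_lit 5) (nat_lit 7) (nat_lit 4) (nat_lit 306) (nat_lit 280) (nat_lit 194)) (XT.lf (nat_lit 0) (nat_lit 30714548152) (nat_lit 152) (nat_lit 78770954683) (nat_lit 76) (nat_lit 754747241034) (nat_lit 5) (nat_lit 5) (nat_lit 7) (nat_lit 5) (nat_lit 6) (nat_lit 4) (nat_lit 307) (nat_lit 280) (nat_lit 193)))) (XT.nd (nat_lit 156) (nat_lit 0) (nat_lit 0) (XT.nd (nat_lit 78) (nat_lit 0) (nat_lit 0) (XT.lf (nat_lit 0) (nat_lit 146730526722) (nat_lit 152) (nat_lit 806688349358) (nat_lit 0) (nat_lit 20811107438) (nat_lit 4) (nat_lit 5) (nat_lit 6) (nat_lit 4) (nat_lit 4) (nat_lit 4) (nat_lit 308) (nat_lit 280) (nat_lit 192)) (XT.lf (nat_lit 0) (nat_lit 289675966319) (nat_lit 152) (nat_lit 645865311071) (nat_lit 0) (nat_lit 163756472205) (nat_lit 4) (nat_lit 5) (nat_lit 6) (nat_lit 4) (nat_lit 4) (nat_lit 4) (nat_lit 309) (nat_lit 280) (nat_lit 191))) (XT.nd (nat_lit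 78) (nat_lit 0) (nat_lit 0) (XT.lf (nat_lit 0) (nat_lit 454063066510) (nat_lit 152) (nat_lit 460919130155) (nat_lit 0) (nat_lit 328143507326) (nat_lit 4) (nat_lit 5) (nat_lit 6) (nat_lit 4) (nat_lit 4) (nat_lit 4) (nat_lit 310) (nat_lit 280) (nat_lit 190)) (XT.nd (nat_lit 78) (nat_lit 0) (nat_lit 0) (XT.lf (nat_lit 0) (nat_lit 643108096645) (nat_lit 152) (nat_lit 248231294374) (nat_lit 0) (nat_lit 517188480879) (nat_lit 4) (nat_lit 5) (nat_lit 6) (nat_lit 4) (nat_lit 4) (nat_lit 4) (nat_lit 311) (nat_lit 280) (nat_lit 189)) (XT.lf (nat_lit 0) (nat_lit 860509763836) (nat_lit 152) (nat_lit 3640519984) (nat_lit 0) (nat_lit 734590098868) (nat_lit 4) (nat_lit 5) (nat_lit 6) (nat_lit 4) (nat_lit 4) (nat_lit 4) (nat_lit 312) (nat_lit 280) (nat_lit 188)))))) (XT.nd (nat_lit 390) (nat_lit 152) (nat_lit 0) (XT.nd (nat_lit 156) (nat_lit 0) (nat_lit 0) (XT.nd (nat_lit 78) (nat_lit 0) (nat_lit 0)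 (XT.lf (nat_lit 0) (nat_lit 304771534189) (nat_lit 76) (nat_lit 818369984078) (nat_lit 76) (nat_lit 692450276325) (nat_lit 3) (nat_lit 4) (nat_lit 4) (nat_lit 5) (nat_lit 4) (nat_lit 4) (nat_lit 313) (nat_lit 280) (nat_lit 187)) (XT.lf (nat_lit 0) (nat_lit 659854344773) (nat_lit 76) (nat_lit 765503894040) (nat_lit 76) (nat_lit 639584149083) (nat_lit 3) (nat_lit 4) (nat_lit 4) (nat_lit 5) (nat_lit 4) (nat_lit 4) (nat_lit 314) (nat_lit 280) (nat_lit 186))) (XT.nd (nat_lit 78) (nat_lit 0) (nat_lit 0) (XT.lf (nat_lit 0) (nat_lit 1068199406058) (nat_lit 76) (nat_lit 704707977073) (nat_lit 76) (nat_lit 578788199764) (nat_lit 3) (nat_lit 4) (nat_lit 4) (nat_lit 5) (nat_lit 4) (nat_lit 4) (nat_lit 315) (nat_lit 280) (nat_lit 185)) (XT.nd (nat_lit 78) (nat_lit 0) (nat_lit 0) (XT.lf (nat_lit 0) (nat_lit 1537796077940) (nat_lit 76) (nat_lit 634792747843) (nat_lit 76) (nat_lit 508872942403) (nat_lit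 3) (nat_lit 4) (nat_lit 4) (nat_lit 5) (nat_lit 4) (nat_lit 4) (nat_lit 316) (nat_lit 280) (nat_lit 184)) (XT.lf (nat_lit 0) (nat_lit 2077832121388) (nat_lit 76) (nat_lit 554390299693) (nat_lit 76) (nat_lit 428470469791) (nat_lit 3) (nat_lit 4) (nat_lit 4) (nat_lit 5) (nat_lit 4) (nat_lit 4) (nat_lit 317) (nat_lit 280) (nat_lit 183))))) (XT.nd (nat_lit 156) (nat_lit 152) (nat_lit 0) (XT.nd (nat_lit 78) (nat_lit 0) (nat_lit 0) (XT.lf (nat_lit 0) (nat_lit 2698873458994) (nat_lit 76) (nat_lit 461927541245) (nat_lit 76) (nat_lit 336007690071) (nat_lit 3) (nat_lit 4) (nat_lit 4) (nat_lit 5) (nat_lit 4) (nat_lit 4) (nat_lit 318) (nat_lit 280) (nat_lit 182)) (XT.lf (nat_lit 0) (nat_lit 3413070899536) (nat_lit 76) (nat_lit 355595418529) (nat_lit 76) (nat_lit 229675548859) (nat_lit 3) (nat_lit 4) (nat_lit 4) (nat_lit 5) (nat_lit 4) (nat_lit 4) (nat_lit 319) (nat_lit 280) (nat_lit 181))) (XT.nd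 (nat_lit 78) (nat_lit 152) (nat_lit 0) (XT.lf (nat_lit 0) (nat_lit 4234397871198) (nat_lit 76) (nat_lit 233313520449) (nat_lit 76) (nat_lit 107393634695) (nat_lit 3) (nat_lit 4) (nat_lit 4) (nat_lit 5) (nat_lit 4) (nat_lit 4) (nat_lit 320) (nat_lit 280) (nat_lit 180)) (XT.nd (nat_lit 78) (nat_lit 76) (nat_lit 0) (XT.lf (nat_lit 0) (nat_lit 30272113556) (nat_lit 152) (nat_lit 60834855595) (nat_lit 76) (nat_lit 5147069295239) (nat_lit 2) (nat_lit 5) (nat_lit 4) (nat_lit 5) (nat_lit 3) (nat_lit 4) (nat_lit 321) (nat_lit 280) (nat_lit 179)) (XT.lf (nat_lit 0) (nat_lit 193021261148) (nat_lit 152) (nat_lit 5721079854087) (nat_lit 0) (nat_lit 83525685580) (nat_lit 1) (nat_lit 5) (nat_lit 3) (nat_lit 4) (nat_lit 1) (nat_lit 4) (nat_lit 322) (nat_lit 280) (nat_lit 178))))))) (XT.nd (nat_lit 780) (nat_lit 0) (nat_lit 0) (XT.nd (nat_lit 390) (nat_lit 0) (nat_lit 0) (XT.nd (nat_lit 156) (nat_lit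 0) (nat_lit 0) (XT.nd (nat_lit 78) (nat_lit 0) (nat_lit 0) (XT.lf (nat_lit 0) (nat_lit 387852607631) (nat_lit 152) (nat_lit 6203634813208) (nat_lit 0) (nat_lit 278357022867) (nat_lit 1) (nat_lit 5) (nat_lit 3) (nat_lit 4) (nat_lit 1) (nat_lit 4) (nat_lit 323) (nat_lit 280) (nat_lit 177)) (XT.lf (nat_lit 0) (nat_lit 611908627461) (nat_lit 152) (nat_lit 6758573075175) (nat_lit 0) (nat_lit 502413034700) (nat_lit 1) (nat_lit 5) (nat_lit 3) (nat_lit 4) (nat_lit 1) (nat_lit 4) (nat_lit 324) (nat_lit 280) (nat_lit 176))) (XT.nd (nat_lit 78) (nat_lit 0) (nat_lit 0) (XT.lf (nat_lit 0) (nat_lit 869573025374) (nat_lit 152) (nat_lit 7396752127722) (nat_lit 0) (nat_lit 760077425660) (nat_lit 1) (nat_lit 5) (nat_lit 3) (nat_lit 4) (nat_lit 1) (nat_lit 4) (nat_lit 325) (nat_lit 280) (nat_lit 175)) (XT.nd (nat_lit 78) (nat_lit 0) (nat_lit 0) (XT.lf (nat_lit 0) (nat_lit 1165887061330) (nat_lit 152) (nat_lit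 8130658082747) (nat_lit 0) (nat_lit 1056391455569) (nat_lit 1) (nat_lit 5) (nat_lit 3) (nat_lit 4) (nat_lit 1) (nat_lit 4) (nat_lit 326) (nat_lit 280) (nat_lit 174)) (XT.lf (nat_lit 0) (nat_lit 1506648183858) (nat_lit 152) (nat_lit 8974649969804) (nat_lit 0) (nat_lit 1397152572839) (nat_lit 1) (nat_lit 5) (nat_lit 3) (nat_lit 4) (nat_lit 1) (nat_lit 4) (nat_lit 327) (nat_lit 280) (nat_lit 173))))) (XT.nd (nat_lit 156) (nat_lit 0) (nat_lit 0) (XT.nd (nat_lit 78) (nat_lit 0) (nat_lit 0) (XT.lf (nat_lit 0) (nat_lit 1898523458398) (nat_lit 152) (nat_lit 9945240673640) (nat_lit 0) (nat_lit 1789027842807) (nat_lit 1) (nat_lit 5) (nat_lit 3) (nat_lit 4) (nat_lit 1) (nat_lit 4) (nat_lit 328) (nat_lit 280) (nat_lit 172)) (XT.lf (nat_lit 0) (nat_lit 2349180009888) (nat_lit 152) (nat_lit 11061420012374) (nat_lit 0) (nat_lit 2239684390321) (nat_lit 1) (nat_lit 5) (nat_lit 3) (nat_lit 4) (nat_lit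 1) (nat_lit 4) (nat_lit 329) (nat_lit 280) (nat_lit 171))) (XT.nd (nat_lit 78) (nat_lit 0) (nat_lit 0) (XT.lf (nat_lit 0) (nat_lit 2867435031726) (nat_lit 152) (nat_lit 12345026277415) (nat_lit 0) (nat_lit 2757939408702) (nat_lit 1) (nat_lit 5) (nat_lit 3) (nat_lit 4) (nat_lit 1) (nat_lit 4) (nat_lit 330) (nat_lit 280) (nat_lit 170)) (XT.nd (nat_lit 78) (nat_lit 0) (nat_lit 0) (XT.lf (nat_lit 0) (nat_lit 3463428296078) (nat_lit 152) (nat_lit 13821173504385) (nat_lit 0) (nat_lit 3353932670048) (nat_lit 1) (nat_lit 5) (nat_lit 3) (nat_lit 4) (nat_lit 1) (nat_lit 4) (nat_lit 331) (nat_lit 280) (nat_lit 169)) (XT.lf (nat_lit 0) (nat_lit 4148820540726) (nat_lit 152) (nat_lit 15518742834680) (nat_lit 0) (nat_lit 4039324912081) (nat_lit 1) (nat_lit 5) (nat_lit 3) (nat_lit 4) (nat_lit 1) (nat_lit 4) (nat_lit 332) (nat_lit 280) (nat_lit 168)))))) (XT.nd (nat_lit 1248) (nat_lit 0) (nat_lit 0) (XT.nd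 (nat_lit 156) (nat_lit 0) (nat_lit 0) (XT.nd (nat_lit 78) (nat_lit 0) (nat_lit 0) (XT.lf (nat_lit 0) (nat_lit 4937021613934) (nat_lit 152) (nat_lit 17470947581285) (nat_lit 0) (nat_lit 4827525983016) (nat_lit 1) (nat_lit 5) (nat_lit 3) (nat_lit 4) (nat_lit 1) (nat_lit 4) (nat_lit 333) (nat_lit 280) (nat_lit 167)) (XT.lf (nat_lit 0) (nat_lit 5843452841047) (nat_lit 152) (nat_lit 19715983054458) (nat_lit 0) (nat_lit 5733957208152) (nat_lit 1) (nat_lit 5) (nat_lit 3) (nat_lit 4) (nat_lit 1) (nat_lit 4) (nat_lit 334) (nat_lit 280) (nat_lit 166))) (XT.nd (nat_lit 78) (nat_lit 0) (nat_lit 0) (XT.lf (nat_lit 0) (nat_lit 6885848746074) (nat_lit 152) (nat_lit 22297773861285) (nat_lit 0) (nat_lit 6776353111461) (nat_lit 1) (nat_lit 5) (nat_lit 3) (nat_lit 4) (nat_lit 1) (nat_lit 4) (nat_lit 335) (nat_lit 280) (nat_lit 165)) (XT.nd (nat_lit 78) (nat_lit 0) (nat_lit 0) (XT.lf (nat_lit 0) (nat_lit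 8084604031506) (nat_lit 152) (nat_lit 25266833300159) (nat_lit 0) (nat_lit 7975108395398) (nat_lit 1) (nat_lit 5) (nat_lit 3) (nat_lit 4) (nat_lit 1) (nat_lit 4) (nat_lit 336) (nat_lit 280) (nat_lit 164)) (XT.lf (nat_lit 0) (nat_lit 9463172605099) (nat_lit 152) (nat_lit 28681251664449) (nat_lit 0) (nat_lit 9353676967691) (nat_lit 1) (nat_lit 5) (nat_lit 3) (nat_lit 4) (nat_lit 1) (nat_lit 4) (nat_lit 337) (nat_lit 280) (nat_lit 163))))) (XT.nd (nat_lit 35412) (nat_lit 0) (nat_lit 1596) (XT.nd (nat_lit 35334) (nat_lit 0) (nat_lit 1596) (XT.lf (nat_lit 0) (nat_lit 55441077502696) (nat_lit 152) (nat_lit 142558652006596) (nat_lit 0) (nat_lit 55331581858243) (nat_lit 1) (nat_lit 5) (nat_lit 3) (nat_lit 4) (nat_lit 1) (nat_lit 4) (nat_lit 349) (nat_lit 280) (nat_lit 151)) (XT.lf (nat_lit 0) (nat_lit 6172091335) (nat_lit 380) (nat_lit 16070888516) (nat_lit 380) (nat_lit 16070888516) (nat_lit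 22) (nat_lit 3) (nat_lit 27) (nat_lit 3) (nat_lit 27) (nat_lit 5) (nat_lit 281) (nat_lit 281) (nat_lit 218))) (XT.nd (nat_lit 78) (nat_lit 0) (nat_lit 76) (XT.lf (nat_lit 76) (nat_lit 4017321735) (nat_lit 0) (nat_lit 9429141475) (nat_lit 380) (nat_lit 68901845270) (nat_lit 23) (nat_lit 5) (nat_lit 22) (nat_lit 3) (nat_lit 27) (nat_lit 5) (nat_lit 282) (nat_lit 281) (nat_lit 217)) (XT.nd (nat_lit 78) (nat_lit 0) (nat_lit 0) (XT.lf (nat_lit 0) (nat_lit 17751342923) (nat_lit 304) (nat_lit 40822755103) (nat_lit 380) (nat_lit 29897286248) (nat_lit 23) (nat_lit 5) (nat_lit 27) (nat_lit 5) (nat_lit 28) (nat_lit 5) (nat_lit 283) (nat_lit 281) (nat_lit 216)) (XT.lf (nat_lit 76) (nat_lit 2043353306) (nat_lit 0) (nat_lit 21190636754) (nat_lit 380) (nat_lit 72199132017) (nat_lit 24) (nat_lit 5) (nat_lit 23) (nat_lit 5) (nat_lit 28) (nat_lit 5) (nat_lit 284) (nat_lit 281) (nat_lit 215))))))))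
noncomputable def xc88 : XT := (XT.nd (nat_lit 1482) (nat_lit 456) (nat_lit 0) (XT.nd (nat_lit 702) (nat_lit 532) (nat_lit 0) (XT.nd (nat_lit 312) (nat_lit 304) (nat_lit 0) (XT.nd (nat_lit 156) (nat_lit 152) (nat_lit 0) (XT.nd (nat_lit 78) (nat_lit 304) (nat_lit 0) (XT.lf (nat_lit 0) (nat_lit 32675855100) (nat_lit 304) (nat_lit 48197490187) (nat_lit 76) (nat_lit 22095257318) (nat_lit 24) (nat_lit 5) (nat_lit 28) (nat_lit 5) (nat_lit 25) (nat_lit 5) (nat_lit 285) (nat_lit 281) (nat_lit 214)) (XT.lf (nat_lit 0) (nat_lit 3033354335) (nat_lit 304) (nat_lit 41634096289) (nat_lit 380) (nat_lit 66796941484) (nat_lit 20) (nat_lit 5) (nat_lit 24) (nat_lit 5) (nat_lit 25) (nat_lit 5) (nat_lit 286) (nat_lit 281) (nat_lit 213))) (XT.nd (nat_lit 78) (nat_lit 152) (nat_lit 0) (XT.lf (nat_lit 0) (nat_lit 61240604851) (nat_lit 380) (nat_lit 53756960768) (nat_lit 76) (nat_lit 5819565432) (nat_lit 20)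 (nat_lit 5) (nat_lit 25) (nat_lit 5) (nat_lit 21) (nat_lit 5) (nat_lit 287) (nat_lit 281) (nat_lit 212)) (XT.lf (nat_lit 0) (nat_lit 7831700968) (nat_lit 152) (nat_lit 74773924319) (nat_lit 228) (nat_lit 48621274992) (nat_lit 18) (nat_lit 5) (nat_lit 20) (nat_lit 5) (nat_lit 21) (nat_lit 5) (nat_lit 288) (nat_lit 281) (nat_lit 211)))) (XT.nd (nat_lit 156) (nat_lit 228) (nat_lit 0) (XT.nd (nat_lit 78) (nat_lit 76) (nat_lit 0) (XT.lf (nat_lit 0) (nat_lit 84699082095) (nat_lit 152) (nat_lit 25285443343) (nat_lit 228) (nat_lit 32792243420) (nat_lit 18) (nat_lit 5) (nat_lit 20) (nat_lit 5) (nat_lit 21) (nat_lit 5) (nat_lit 289) (nat_lit 281) (nat_lit 210)) (XT.lf (nat_lit 0) (nat_lit 17263717074) (nat_lit 76) (nat_lit 126230187513) (nat_lit 152) (nat_lit 12261669115) (nat_lit 17) (nat_lit 5) (nat_lit 18) (nat_lit 5) (nat_lit 19) (nat_lit 4) (nat_lit 290) (nat_lit 281) (nat_lit 209))) (XT.nd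 (nat_lit 78) (nat_lit 152) (nat_lit 0) (XT.lf (nat_lit 0) (nat_lit 14721918697) (nat_lit 152) (nat_lit 61612017169) (nat_lit 76) (nat_lit 93619215552) (nat_lit 16) (nat_lit 5) (nat_lit 18) (nat_lit 5) (nat_lit 17) (nat_lit 5) (nat_lit 291) (nat_lit 281) (nat_lit 208)) (XT.nd (nat_lit 78) (nat_lit 0) (nat_lit 0) (XT.lf (nat_lit 0) (nat_lit 28776849379) (nat_lit 152) (nat_lit 16911756736) (nat_lit 228) (nat_lit 140325539597) (nat_lit 14) (nat_lit 5) (nat_lit 16) (nat_lit 5) (nat_lit 17) (nat_lit 5) (nat_lit 292) (nat_lit 281) (nat_lit 207)) (XT.lf (nat_lit 0) (nat_lit 86803006005) (nat_lit 228) (nat_lit 66636520229) (nat_lit 76) (nat_lit 50219357988) (nat_lit 14) (nat_lit 5) (nat_lit 17) (nat_lit 5) (nat_lit 15) (nat_lit 4) (nat_lit 293) (nat_lit 281) (nat_lit 206)))))) (XT.nd (nat_lit 390) (nat_lit 228) (nat_lit 0) (XT.nd (nat_lit 156) (nat_lit 228) (nat_lit 0) (XT.nd (nat_lit 78) (nat_lit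 0) (nat_lit 0) (XT.lf (nat_lit 0) (nat_lit 40339470231) (nat_lit 76) (nat_lit 96220241132) (nat_lit 152) (nat_lit 87019351603) (nat_lit 13) (nat_lit 5) (nat_lit 14) (nat_lit 5) (nat_lit 15) (nat_lit 4) (nat_lit 294) (nat_lit 281) (nat_lit 205)) (XT.lf (nat_lit 0) (nat_lit 170850056504) (nat_lit 76) (nat_lit 26412627670) (nat_lit 152) (nat_lit 48702171214) (nat_lit 13) (nat_lit 5) (nat_lit 14) (nat_lit 5) (nat_lit 15) (nat_lit 4) (nat_lit 295) (nat_lit 281) (nat_lit 204))) (XT.nd (nat_lit 78) (nat_lit 76) (nat_lit 0) (XT.lf (nat_lit 0) (nat_lit 349630677) (nat_lit 152) (nat_lit 219479089439) (nat_lit 76) (nat_lit 51222472741) (nat_lit 11) (nat_lit 5) (nat_lit 13) (nat_lit 5) (nat_lit 12) (nat_lit 4) (nat_lit 296) (nat_lit 281) (nat_lit 203)) (XT.nd (nat_lit 78) (nat_lit 76) (nat_lit 0) (XT.lf (nat_lit 0) (nat_lit 57143752986) (nat_lit 152) (nat_lit 97372255952) (nat_lit 76) (nat_lit 144230991367)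 (nat_lit 11) (nat_lit 5) (nat_lit 13) (nat_lit 5) (nat_lit 12) (nat_lit 4) (nat_lit 297) (nat_lit 281) (nat_lit 202)) (XT.lf (nat_lit 0) (nat_lit 47257062401) (nat_lit 76) (nat_lit 77156355129) (nat_lit 152) (nat_lit 205890298396) (nat_lit 10) (nat_lit 5) (nat_lit 11) (nat_lit 5) (nat_lit 12) (nat_lit 4) (nat_lit 298) (nat_lit 281) (nat_lit 201))))) (XT.nd (nat_lit 156) (nat_lit 152) (nat_lit 0) (XT.nd (nat_lit 78) (nat_lit 76) (nat_lit 0) (XT.lf (nat_lit 0) (nat_lit 207594356077) (nat_lit 152) (nat_lit 142038352032) (nat_lit 0) (nat_lit 16088107685) (nat_lit 10) (nat_lit 5) (nat_lit 12) (nat_lit 4) (nat_lit 10) (nat_lit 4) (nat_lit 299) (nat_lit 281) (nat_lit 200)) (XT.lf (nat_lit 0) (nat_lit 18053740309) (nat_lit 76) (nat_lit 289620044746) (nat_lit 76) (nat_lit 98113493623) (nat_lit 9) (nat_lit 4) (nat_lit 10) (nat_lit 5) (nat_lit 10) (nat_lit 4) (nat_lit 300) (nat_lit 281) (nat_lit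 199))) (XT.nd (nat_lit 78) (nat_lit 152) (nat_lit 0) (XT.lf (nat_lit 0) (nat_lit 218122237127) (nat_lit 76) (nat_lit 212067312716) (nat_lit 76) (nat_lit 20560498349) (nat_lit 9) (nat_lit 4) (nat_lit 10) (nat_lit 5) (nat_lit 10) (nat_lit 4) (nat_lit 301) (nat_lit 281) (nat_lit 198)) (XT.nd (nat_lit 78) (nat_lit 76) (nat_lit 0) (XT.lf (nat_lit 0) (nat_lit 62515651183) (nat_lit 152) (nat_lit 57098393230) (nat_lit 76) (nat_lit 382416986519) (nat_lit 8) (nat_lit 5) (nat_lit 10) (nat_lit 5) (nat_lit 9) (nat_lit 4) (nat_lit 302) (nat_lit 281) (nat_lit 197)) (XT.lf (nat_lit 0) (nat_lit 157832215840) (nat_lit 76) (nat_lit 4651253074) (nat_lit 152) (nat_lit 397393544366) (nat_lit 7) (nat_lit 5) (nat_lit 8) (nat_lit 5) (nat_lit 9) (nat_lit 4) (nat_lit 303) (nat_lit 281) (nat_lit 196))))))) (XT.nd (nat_lit 780) (nat_lit 228) (nat_lit 0) (XT.nd (nat_lit 390) (nat_lit 76) (nat_lit 0) (XT.nd (nat_lit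 156) (nat_lit 152) (nat_lit 0) (XT.nd (nat_lit 78) (nat_lit 0) (nat_lit 0) (XT.lf (nat_lit 0) (nat_lit 285854854900) (nat_lit 152) (nat_lit 219957111395) (nat_lit 0) (nat_lit 119326667584) (nat_lit 7) (nat_lit 5) (nat_lit 9) (nat_lit 4) (nat_lit 7) (nat_lit 4) (nat_lit 304) (nat_lit 281) (nat_lit 195)) (XT.lf (nat_lit 0) (nat_lit 427953227163) (nat_lit 152) (nat_lit 10778169887) (nat_lit 0) (nat_lit 261424908969) (nat_lit 7) (nat_lit 5) (nat_lit 9) (nat_lit 4) (nat_lit 7) (nat_lit 4) (nat_lit 305) (nat_lit 281) (nat_lit 194))) (XT.nd (nat_lit 78) (nat_lit 76) (nat_lit 0) (XT.lf (nat_lit 0) (nat_lit 252232761681) (nat_lit 76) (nat_lit 349577831871) (nat_lit 76) (nat_lit 183049399868) (nat_lit 6) (nat_lit 4) (nat_lit 7) (nat_lit 5) (nat_lit 7) (nat_lit 4) (nat_lit 306) (nat_lit 281) (nat_lit 193)) (XT.nd (nat_lit 78) (nat_lit 76) (nat_lit 0) (XT.lf (nat_lit 0) (nat_lit 555906312653) (nat_lit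 76) (nat_lit 246403483831) (nat_lit 76) (nat_lit 79874952866) (nat_lit 6) (nat_lit 4) (nat_lit 7) (nat_lit 5) (nat_lit 7) (nat_lit 4) (nat_lit 307) (nat_lit 281) (nat_lit 192)) (XT.lf (nat_lit 0) (nat_lit 35323426194) (nat_lit 152) (nat_lit 90583250702) (nat_lit 76) (nat_lit 867960722901) (nat_lit 5) (nat_lit 5) (nat_lit 7) (nat_lit 5) (nat_lit 6) (nat_lit 4) (nat_lit 308) (nat_lit 281) (nat_lit 191))))) (XT.nd (nat_lit 156) (nat_lit 0) (nat_lit 0) (XT.nd (nat_lit 78) (nat_lit 0) (nat_lit 0) (XT.lf (nat_lit 0) (nat_lit 168741778415) (nat_lit 152) (nat_lit 927688230330) (nat_lit 0) (nat_lit 23934220284) (nat_lit 4) (nat_lit 5) (nat_lit 6) (nat_lit 4) (nat_lit 4) (nat_lit 4) (nat_lit 309) (nat_lit 281) (nat_lit 190)) (XT.lf (nat_lit 0) (nat_lit 333128815776) (nat_lit 152) (nat_lit 742742176052) (nat_lit 0) (nat_lit 188321201062) (nat_lit 4) (nat_lit 5) (nat_lit 6) (nat_lit 4) (nat_lit 4)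 (nat_lit 4) (nat_lit 310) (nat_lit 281) (nat_lit 189))) (XT.nd (nat_lit 78) (nat_lit 0) (nat_lit 0) (XT.lf (nat_lit 0) (nat_lit 522173791277) (nat_lit 152) (nat_lit 530054450391) (nat_lit 0) (nat_lit 377366127361) (nat_lit 4) (nat_lit 5) (nat_lit 6) (nat_lit 4) (nat_lit 4) (nat_lit 4) (nat_lit 311) (nat_lit 281) (nat_lit 188)) (XT.nd (nat_lit 78) (nat_lit 0) (nat_lit 0) (XT.lf (nat_lit 0) (nat_lit 739575410960) (nat_lit 152) (nat_lit 285463771758) (nat_lit 0) (nat_lit 594767704259) (nat_lit 4) (nat_lit 5) (nat_lit 6) (nat_lit 4) (nat_lit 4) (nat_lit 4) (nat_lit 312) (nat_lit 281) (nat_lit 187)) (XT.lf (nat_lit 0) (nat_lit 989587184775) (nat_lit 152) (nat_lit 4184670354) (nat_lit 0) (nat_lit 844779440871) (nat_lit 4) (nat_lit 5) (nat_lit 6) (nat_lit 4) (nat_lit 4) (nat_lit 4) (nat_lit 313) (nat_lit 281) (nat_lit 186)))))) (XT.nd (nat_lit 390) (nat_lit 152) (nat_lit 0) (XT.nd (nat_lit 156)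 (nat_lit 0) (nat_lit 0) (XT.nd (nat_lit 78) (nat_lit 0) (nat_lit 0) (XT.lf (nat_lit 0) (nat_lit 350489104326) (nat_lit 76) (nat_lit 941124549492) (nat_lit 76) (nat_lit 796316773237) (nat_lit 3) (nat_lit 4) (nat_lit 4) (nat_lit 5) (nat_lit 4) (nat_lit 4) (nat_lit 314) (nat_lit 281) (nat_lit 185)) (XT.lf (nat_lit 0) (nat_lit 758834096496) (nat_lit 76) (nat_lit 880328667540) (nat_lit 76) (nat_lit 735520863153) (nat_lit 3) (nat_lit 4) (nat_lit 4) (nat_lit 5) (nat_lit 4) (nat_lit 4) (nat_lit 315) (nat_lit 281) (nat_lit 184))) (XT.nd (nat_lit 78) (nat_lit 0) (nat_lit 0) (XT.lf (nat_lit 0) (nat_lit 1228430708277) (nat_lit 76) (nat_lit 810413468759) (nat_lit 76) (nat_lit 665605639909) (nat_lit 3) (nat_lit 4) (nat_lit 4) (nat_lit 5) (nat_lit 4) (nat_lit 4) (nat_lit 316) (nat_lit 281) (nat_lit 183)) (XT.nd (nat_lit 78) (nat_lit 0) (nat_lit 0) (XT.lf (nat_lit 0) (nat_lit 1768466699466) (nat_lit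 76) (nat_lit 730011047085) (nat_lit 76) (nat_lit 585203196964) (nat_lit 3) (nat_lit 4) (nat_lit 4) (nat_lit 5) (nat_lit 4) (nat_lit 4) (nat_lit 317) (nat_lit 281) (nat_lit 182)) (XT.lf (nat_lit 0) (nat_lit 2389507991627) (nat_lit 76) (nat_lit 637548311660) (nat_lit 76) (nat_lit 492740443042) (nat_lit 3) (nat_lit 4) (nat_lit 4) (nat_lit 5) (nat_lit 4) (nat_lit 4) (nat_lit 318) (nat_lit 281) (nat_lit 181))))) (XT.nd (nat_lit 156) (nat_lit 152) (nat_lit 0) (XT.nd (nat_lit 78) (nat_lit 0) (nat_lit 0) (XT.lf (nat_lit 0) (nat_lit 3103705392653) (nat_lit 76) (nat_lit 531216208965) (nat_lit 76) (nat_lit 386408324263) (nat_lit 3) (nat_lit 4) (nat_lit 4) (nat_lit 5) (nat_lit 4) (nat_lit 4) (nat_lit 319) (nat_lit 281) (nat_lit 180)) (XT.lf (nat_lit 0) (nat_lit 3925032329953) (nat_lit 76) (nat_lit 408934328294) (nat_lit 76) (nat_lit 264126429605) (nat_lit 3) (nat_lit 4) (nat_lit 4) (nat_lit 5) (nat_lit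 4) (nat_lit 4) (nat_lit 320) (nat_lit 281) (nat_lit 179))) (XT.nd (nat_lit 78) (nat_lit 152) (nat_lit 0) (XT.lf (nat_lit 0) (nat_lit 4869558243605) (nat_lit 76) (nat_lit 268310198069) (nat_lit 76) (nat_lit 123502287219) (nat_lit 3) (nat_lit 4) (nat_lit 4) (nat_lit 5) (nat_lit 4) (nat_lit 4) (nat_lit 321) (nat_lit 281) (nat_lit 178)) (XT.nd (nat_lit 78) (nat_lit 76) (nat_lit 0) (XT.lf (nat_lit 0) (nat_lit 34813241651) (nat_lit 152) (nat_lit 69959451876) (nat_lit 76) (nat_lit 5919129963705) (nat_lit 2) (nat_lit 5) (nat_lit 4) (nat_lit 5) (nat_lit 3) (nat_lit 4) (nat_lit 322) (nat_lit 281) (nat_lit 177)) (XT.lf (nat_lit 0) (nat_lit 221974758539) (nat_lit 152) (nat_lit 6579241197162) (nat_lit 0) (nat_lit 96054818867) (nat_lit 1) (nat_lit 5) (nat_lit 3) (nat_lit 4) (nat_lit 1) (nat_lit 4) (nat_lit 323) (nat_lit 281) (nat_lit 176))))))))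
noncomputable def xc89 : XT := (XT.nd (nat_lit 37752) (nat_lit 0) (nat_lit 456) (XT.nd (nat_lit 702) (nat_lit 0) (nat_lit 0) (XT.nd (nat_lit 312) (nat_lit 0) (nat_lit 0) (XT.nd (nat_lit 156) (nat_lit 0) (nat_lit 0) (XT.nd (nat_lit 78) (nat_lit 0) (nat_lit 0) (XT.lf (nat_lit 0) (nat_lit 446030766792) (nat_lit 152) (nat_lit 7134179482982) (nat_lit 0) (nat_lit 320110820166) (nat_lit 1) (nat_lit 5) (nat_lit 3) (nat_lit 4) (nat_lit 1) (nat_lit 4) (nat_lit 324) (nat_lit 281) (nat_lit 175)) (XT.lf (nat_lit 0) (nat_lit 703695154638) (nat_lit 152) (nat_lit 7772358556271) (nat_lit 0) (nat_lit 577775201966) (nat_lit 1) (nat_lit 5) (nat_lit 3) (nat_lit 4) (nat_lit 1) (nat_lit 4) (nat_lit 325) (nat_lit 281) (nat_lit 174))) (XT.nd (nat_lit 78) (nat_lit 0) (nat_lit 0) (XT.lf (nat_lit 0) (nat_lit 1000009181839) (nat_lit 152) (nat_lit 8506264529332) (nat_lit 0) (nat_lit 874089223909) (nat_lit 1) (nat_lit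 5) (nat_lit 3) (nat_lit 4) (nat_lit 1) (nat_lit 4) (nat_lit 326) (nat_lit 281) (nat_lit 173)) (XT.lf (nat_lit 0) (nat_lit 1340770296755) (nat_lit 152) (nat_lit 9350256432073) (nat_lit 0) (nat_lit 1214850334253) (nat_lit 1) (nat_lit 5) (nat_lit 3) (nat_lit 4) (nat_lit 1) (nat_lit 4) (nat_lit 327) (nat_lit 281) (nat_lit 172)))) (XT.nd (nat_lit 156) (nat_lit 0) (nat_lit 0) (XT.nd (nat_lit 78) (nat_lit 0) (nat_lit 0) (XT.lf (nat_lit 0) (nat_lit 1732645564676) (nat_lit 152) (nat_lit 10320847149548) (nat_lit 0) (nat_lit 1606725598198) (nat_lit 1) (nat_lit 5) (nat_lit 3) (nat_lit 4) (nat_lit 1) (nat_lit 4) (nat_lit 328) (nat_lit 281) (nat_lit 171)) (XT.lf (nat_lit 0) (nat_lit 2183302110410) (nat_lit 152) (nat_lit 11437026500141) (nat_lit 0) (nat_lit 2057382140475) (nat_lit 1) (nat_lit 5) (nat_lit 3) (nat_lit 4) (nat_lit 1) (nat_lit 4) (nat_lit 329) (nat_lit 281) (nat_lit 170))) (XT.nd (nat_lit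 78) (nat_lit 0) (nat_lit 0) (XT.lf (nat_lit 0) (nat_lit 2701557127242) (nat_lit 152) (nat_lit 12720632775495) (nat_lit 0) (nat_lit 2575637154301) (nat_lit 1) (nat_lit 5) (nat_lit 3) (nat_lit 4) (nat_lit 1) (nat_lit 4) (nat_lit 330) (nat_lit 281) (nat_lit 169)) (XT.nd (nat_lit 78) (nat_lit 0) (nat_lit 0) (XT.lf (nat_lit 0) (nat_lit 3297550387242) (nat_lit 152) (nat_lit 14196780011432) (nat_lit 0) (nat_lit 3171630411687) (nat_lit 1) (nat_lit 5) (nat_lit 3) (nat_lit 4) (nat_lit 1) (nat_lit 4) (nat_lit 331) (nat_lit 281) (nat_lit 168)) (XT.lf (nat_lit 0) (nat_lit 3982942628105) (nat_lit 152) (nat_lit 15894349349525) (nat_lit 0) (nat_lit 3857022650276) (nat_lit 1) (nat_lit 5) (nat_lit 3) (nat_lit 4) (nat_lit 1) (nat_lit 4) (nat_lit 332) (nat_lit 281) (nat_lit 167)))))) (XT.nd (nat_lit 36660) (nat_lit 0) (nat_lit 1596) (XT.nd (nat_lit 156) (nat_lit 0) (nat_lit 0) (XT.nd (nat_lit 78) (nat_lit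 0) (nat_lit 0) (XT.lf (nat_lit 0) (nat_lit 4771143698022) (nat_lit 152) (nat_lit 17846554102911) (nat_lit 0) (nat_lit 4645223718217) (nat_lit 1) (nat_lit 5) (nat_lit 3) (nat_lit 4) (nat_lit 1) (nat_lit 4) (nat_lit 333) (nat_lit 281) (nat_lit 166)) (XT.lf (nat_lit 0) (nat_lit 5677574922273) (nat_lit 152) (nat_lit 20091589581980) (nat_lit 0) (nat_lit 5551654940749) (nat_lit 1) (nat_lit 5) (nat_lit 3) (nat_lit 4) (nat_lit 1) (nat_lit 4) (nat_lit 334) (nat_lit 281) (nat_lit 165))) (XT.nd (nat_lit 78) (nat_lit 0) (nat_lit 0) (XT.lf (nat_lit 0) (nat_lit 6719970824812) (nat_lit 152) (nat_lit 22673380393934) (nat_lit 0) (nat_lit 6594050841793) (nat_lit 1) (nat_lit 5) (nat_lit 3) (nat_lit 4) (nat_lit 1) (nat_lit 4) (nat_lit 335) (nat_lit 281) (nat_lit 164)) (XT.nd (nat_lit 78) (nat_lit 0) (nat_lit 0) (XT.lf (nat_lit 0) (nat_lit 7918726108080) (nat_lit 152) (nat_lit 25642439837266) (nat_lit 0)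 (nat_lit 7792806123761) (nat_lit 1) (nat_lit 5) (nat_lit 3) (nat_lit 4) (nat_lit 1) (nat_lit 4) (nat_lit 336) (nat_lit 281) (nat_lit 163)) (XT.lf (nat_lit 0) (nat_lit 9297294679792) (nat_lit 152) (nat_lit 29056858205434) (nat_lit 0) (nat_lit 9171374694343) (nat_lit 1) (nat_lit 5) (nat_lit 3) (nat_lit 4) (nat_lit 1) (nat_lit 4) (nat_lit 337) (nat_lit 281) (nat_lit 162))))) (XT.nd (nat_lit 156) (nat_lit 0) (nat_lit 76) (XT.nd (nat_lit 78) (nat_lit 0) (nat_lit 0) (XT.lf (nat_lit 0) (nat_lit 7107604180) (nat_lit 380) (nat_lit 18475926340) (nat_lit 380) (nat_lit 18475926340) (nat_lit 22) (nat_lit 3) (nat_lit 27) (nat_lit 3) (nat_lit 27) (nat_lit 5) (nat_lit 282) (nat_lit 282) (nat_lit 216)) (XT.lf (nat_lit 76) (nat_lit 4630602226) (nat_lit 0) (nat_lit 10850140872) (nat_lit 380) (nat_lit 79217150933) (nat_lit 23) (nat_lit 5) (nat_lit 22) (nat_lit 3) (nat_lit 27) (nat_lit 5) (nat_lit 283) (nat_lit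 282) (nat_lit 215))) (XT.nd (nat_lit 78) (nat_lit 0) (nat_lit 0) (XT.lf (nat_lit 0) (nat_lit 20428858229) (nat_lit 304) (nat_lit 46934327142) (nat_lit 380) (nat_lit 34376628673) (nat_lit 23) (nat_lit 5) (nat_lit 27) (nat_lit 5) (nat_lit 28) (nat_lit 5) (nat_lit 284) (nat_lit 282) (nat_lit 214)) (XT.nd (nat_lit 78) (nat_lit 0) (nat_lit 76) (XT.lf (nat_lit 76) (nat_lit 2361159291) (nat_lit 0) (nat_lit 24371278934) (nat_lit 380) (nat_lit 83013601200) (nat_lit 24) (nat_lit 5) (nat_lit 23) (nat_lit 5) (nat_lit 28) (nat_lit 5) (nat_lit 285) (nat_lit 282) (nat_lit 213)) (XT.lf (nat_lit 0) (nat_lit 37588768068) (nat_lit 304) (nat_lit 55415427889) (nat_lit 76) (nat_lit 25407924647) (nat_lit 24) (nat_lit 5) (nat_lit 28) (nat_lit 5) (nat_lit 25) (nat_lit 5) (nat_lit 286) (nat_lit 282) (nat_lit 212))))))) (XT.nd (nat_lit 780) (nat_lit 456) (nat_lit 0) (XT.nd (nat_lit 390) (nat_lit 304) (nat_lit 0)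 (XT.nd (nat_lit 156) (nat_lit 228) (nat_lit 0) (XT.nd (nat_lit 78) (nat_lit 0) (nat_lit 0) (XT.lf (nat_lit 0) (nat_lit 3499512138) (nat_lit 304) (nat_lit 47878548147) (nat_lit 380) (nat_lit 76804380146) (nat_lit 20) (nat_lit 5) (nat_lit 24) (nat_lit 5) (nat_lit 25) (nat_lit 5) (nat_lit 287) (nat_lit 282) (nat_lit 211)) (XT.lf (nat_lit 0) (nat_lit 70435842973) (nat_lit 380) (nat_lit 61809428613) (nat_lit 76) (nat_lit 6693025114) (nat_lit 20) (nat_lit 5) (nat_lit 25) (nat_lit 5) (nat_lit 21) (nat_lit 5) (nat_lit 288) (nat_lit 282) (nat_lit 210))) (XT.nd (nat_lit 78) (nat_lit 76) (nat_lit 0) (XT.lf (nat_lit 0) (nat_lit 9017028916) (nat_lit 152) (nat_lit 85987832217) (nat_lit 228) (nat_lit 55904787642) (nat_lit 18) (nat_lit 5) (nat_lit 20) (nat_lit 5) (nat_lit 21) (nat_lit 5) (nat_lit 289) (nat_lit 282) (nat_lit 209)) (XT.nd (nat_lit 78) (nat_lit 76) (nat_lit 0) (XT.lf (nat_lit 0) (nat_lit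 97413138150) (nat_lit 152) (nat_lit 29076363541) (nat_lit 228) (nat_lit 37702663760) (nat_lit 18) (nat_lit 5) (nat_lit 20) (nat_lit 5) (nat_lit 21) (nat_lit 5) (nat_lit 290) (nat_lit 282) (nat_lit 208)) (XT.lf (nat_lit 0) (nat_lit 19863043411) (nat_lit 76) (nat_lit 145161765246) (nat_lit 152) (nat_lit 14093057369) (nat_lit 17) (nat_lit 5) (nat_lit 18) (nat_lit 5) (nat_lit 19) (nat_lit 4) (nat_lit 291) (nat_lit 282) (nat_lit 207))))) (XT.nd (nat_lit 156) (nat_lit 76) (nat_lit 0) (XT.nd (nat_lit 78) (nat_lit 152) (nat_lit 0) (XT.lf (nat_lit 0) (nat_lit 16936434478) (nat_lit 152) (nat_lit 70844700655) (nat_lit 76) (nat_lit 107664038941) (nat_lit 16) (nat_lit 5) (nat_lit 18) (nat_lit 5) (nat_lit 17) (nat_lit 5) (nat_lit 292) (nat_lit 282) (nat_lit 206)) (XT.lf (nat_lit 0) (nat_lit 33102081372) (nat_lit 152) (nat_lit 19445591731) (nat_lit 228) (nat_lit 161367714265) (nat_lit 14) (nat_lit 5)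 (nat_lit 16) (nat_lit 5) (nat_lit 17) (nat_lit 5) (nat_lit 293) (nat_lit 282) (nat_lit 205))) (XT.nd (nat_lit 78) (nat_lit 76) (nat_lit 0) (XT.lf (nat_lit 0) (nat_lit 99828585022) (nat_lit 228) (nat_lit 76623769113) (nat_lit 76) (nat_lit 57754581512) (nat_lit 14) (nat_lit 5) (nat_lit 17) (nat_lit 5) (nat_lit 15) (nat_lit 4) (nat_lit 294) (nat_lit 282) (nat_lit 204)) (XT.nd (nat_lit 78) (nat_lit 0) (nat_lit 0) (XT.lf (nat_lit 0) (nat_lit 46398245864) (nat_lit 76) (nat_lit 110650206698) (nat_lit 152) (nat_lit 100066741747) (nat_lit 13) (nat_lit 5) (nat_lit 14) (nat_lit 5) (nat_lit 15) (nat_lit 4) (nat_lit 295) (nat_lit 282) (nat_lit 203)) (XT.lf (nat_lit 0) (nat_lit 196484395500) (nat_lit 76) (nat_lit 30371851730) (nat_lit 152) (nat_lit 56002703334) (nat_lit 13) (nat_lit 5) (nat_lit 14) (nat_lit 5) (nat_lit 15) (nat_lit 4) (nat_lit 296) (nat_lit 282) (nat_lit 202)))))) (XT.nd (nat_lit 390)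 (nat_lit 152) (nat_lit 0) (XT.nd (nat_lit 156) (nat_lit 152) (nat_lit 0) (XT.nd (nat_lit 78) (nat_lit 0) (nat_lit 0) (XT.lf (nat_lit 0) (nat_lit 406277697) (nat_lit 152) (nat_lit 252393516449) (nat_lit 76) (nat_lit 58908440420) (nat_lit 11) (nat_lit 5) (nat_lit 13) (nat_lit 5) (nat_lit 12) (nat_lit 4) (nat_lit 297) (nat_lit 282) (nat_lit 201)) (XT.lf (nat_lit 0) (nat_lit 65718970211) (nat_lit 152) (nat_lit 111971627905) (nat_lit 76) (nat_lit 165867898132) (nat_lit 11) (nat_lit 5) (nat_lit 13) (nat_lit 5) (nat_lit 12) (nat_lit 4) (nat_lit 298) (nat_lit 282) (nat_lit 200))) (XT.nd (nat_lit 78) (nat_lit 76) (nat_lit 0) (XT.lf (nat_lit 0) (nat_lit 54351794272) (nat_lit 76) (nat_lit 88727069110) (nat_lit 152) (nat_lit 236769889765) (nat_lit 10) (nat_lit 5) (nat_lit 11) (nat_lit 5) (nat_lit 12) (nat_lit 4) (nat_lit 299) (nat_lit 282) (nat_lit 199)) (XT.nd (nat_lit 78) (nat_lit 76) (nat_lit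 0) (XT.lf (nat_lit 0) (nat_lit 238736593533) (nat_lit 152) (nat_lit 163338383750) (nat_lit 0) (nat_lit 18503493766) (nat_lit 10) (nat_lit 5) (nat_lit 12) (nat_lit 4) (nat_lit 10) (nat_lit 4) (nat_lit 300) (nat_lit 282) (nat_lit 198)) (XT.lf (nat_lit 0) (nat_lit 20767262394) (nat_lit 76) (nat_lit 333060498327) (nat_lit 76) (nat_lit 112827169652) (nat_lit 9) (nat_lit 4) (nat_lit 10) (nat_lit 5) (nat_lit 10) (nat_lit 4) (nat_lit 301) (nat_lit 282) (nat_lit 197))))) (XT.nd (nat_lit 156) (nat_lit 76) (nat_lit 0) (XT.nd (nat_lit 78) (nat_lit 76) (nat_lit 0) (XT.lf (nat_lit 0) (nat_lit 250845321425) (nat_lit 76) (nat_lit 243875189510) (nat_lit 76) (nat_lit 23641661785) (nat_lit 9) (nat_lit 4) (nat_lit 10) (nat_lit 5) (nat_lit 10) (nat_lit 4) (nat_lit 302) (nat_lit 282) (nat_lit 196)) (XT.lf (nat_lit 0) (nat_lit 71895305062) (nat_lit 152) (nat_lit 65658794928) (nat_lit 76) (nat_lit 439781237074)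 (nat_lit 8) (nat_lit 5) (nat_lit 10) (nat_lit 5) (nat_lit 9) (nat_lit 4) (nat_lit 303) (nat_lit 282) (nat_lit 195))) (XT.nd (nat_lit 78) (nat_lit 0) (nat_lit 0) (XT.lf (nat_lit 0) (nat_lit 181511207443) (nat_lit 76) (nat_lit 5346959424) (nat_lit 152) (nat_lit 457000069520) (nat_lit 7) (nat_lit 5) (nat_lit 8) (nat_lit 5) (nat_lit 9) (nat_lit 4) (nat_lit 304) (nat_lit 282) (nat_lit 194)) (XT.nd (nat_lit 78) (nat_lit 0) (nat_lit 0) (XT.lf (nat_lit 0) (nat_lit 328735048066) (nat_lit 152) (nat_lit 252946846751) (nat_lit 0) (nat_lit 137227237455) (nat_lit 7) (nat_lit 5) (nat_lit 9) (nat_lit 4) (nat_lit 7) (nat_lit 4) (nat_lit 305) (nat_lit 282) (nat_lit 193)) (XT.lf (nat_lit 0) (nat_lit 492147919874) (nat_lit 152) (nat_lit 12391563759) (nat_lit 0) (nat_lit 300640010300) (nat_lit 7) (nat_lit 5) (nat_lit 9) (nat_lit 4) (nat_lit 7) (nat_lit 4) (nat_lit 306) (nat_lit 282) (nat_lit 192))))))))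
noncomputable def xc90 : XT := (XT.nd (nat_lit 1482) (nat_lit 0) (nat_lit 0) (XT.nd (nat_lit 702) (nat_lit 152) (nat_lit 0) (XT.nd (nat_lit 312) (nat_lit 76) (nat_lit 0) (XT.nd (nat_lit 156) (nat_lit 152) (nat_lit 0) (XT.nd (nat_lit 78) (nat_lit 0) (nat_lit 0) (XT.lf (nat_lit 0) (nat_lit 290070856108) (nat_lit 76) (nat_lit 402012943931) (nat_lit 76) (nat_lit 210504948302) (nat_lit 6) (nat_lit 4) (nat_lit 7) (nat_lit 5) (nat_lit 7) (nat_lit 4) (nat_lit 307) (nat_lit 282) (nat_lit 191)) (XT.lf (nat_lit 0) (nat_lit 639295024920) (nat_lit 76) (nat_lit 283362647519) (nat_lit 76) (nat_lit 91854577060) (nat_lit 6) (nat_lit 4) (nat_lit 7) (nat_lit 5) (nat_lit 7) (nat_lit 4) (nat_lit 308) (nat_lit 282) (nat_lit 190))) (XT.nd (nat_lit 78) (nat_lit 76) (nat_lit 0) (XT.lf (nat_lit 0) (nat_lit 40623222406) (nat_lit 152) (nat_lit 104168207355) (nat_lit 76) (nat_lit 998155886694) (nat_lit 5) (nat_lit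 5) (nat_lit 7) (nat_lit 5) (nat_lit 6) (nat_lit 4) (nat_lit 309) (nat_lit 282) (nat_lit 189)) (XT.lf (nat_lit 0) (nat_lit 194054309968) (nat_lit 152) (nat_lit 1066838915592) (nat_lit 0) (nat_lit 27525447262) (nat_lit 4) (nat_lit 5) (nat_lit 6) (nat_lit 4) (nat_lit 4) (nat_lit 4) (nat_lit 310) (nat_lit 282) (nat_lit 188)))) (XT.nd (nat_lit 156) (nat_lit 76) (nat_lit 0) (XT.nd (nat_lit 78) (nat_lit 0) (nat_lit 0) (XT.lf (nat_lit 0) (nat_lit 383099237960) (nat_lit 152) (nat_lit 854151285688) (nat_lit 0) (nat_lit 216570332470) (nat_lit 4) (nat_lit 5) (nat_lit 6) (nat_lit 4) (nat_lit 4) (nat_lit 4) (nat_lit 311) (nat_lit 282) (nat_lit 187)) (XT.lf (nat_lit 0) (nat_lit 600500816331) (nat_lit 152) (nat_lit 609560690322) (nat_lit 0) (nat_lit 433971873637) (nat_lit 4) (nat_lit 5) (nat_lit 6) (nat_lit 4) (nat_lit 4) (nat_lit 4) (nat_lit 312) (nat_lit 282) (nat_lit 186))) (XT.nd (nat_lit 78) (nat_lit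 76) (nat_lit 0) (XT.lf (nat_lit 0) (nat_lit 850512554224) (nat_lit 152) (nat_lit 328281661324) (nat_lit 0) (nat_lit 683983579178) (nat_lit 4) (nat_lit 5) (nat_lit 6) (nat_lit 4) (nat_lit 4) (nat_lit 4) (nat_lit 313) (nat_lit 282) (nat_lit 185)) (XT.nd (nat_lit 78) (nat_lit 76) (nat_lit 0) (XT.lf (nat_lit 0) (nat_lit 1138025985639) (nat_lit 152) (nat_lit 4810913344) (nat_lit 0) (nat_lit 971496982462) (nat_lit 4) (nat_lit 5) (nat_lit 6) (nat_lit 4) (nat_lit 4) (nat_lit 4) (nat_lit 314) (nat_lit 282) (nat_lit 184)) (XT.lf (nat_lit 0) (nat_lit 403063861285) (nat_lit 76) (nat_lit 1082292527041) (nat_lit 76) (nat_lit 915763499402) (nat_lit 3) (nat_lit 4) (nat_lit 4) (nat_lit 5) (nat_lit 4) (nat_lit 4) (nat_lit 315) (nat_lit 282) (nat_lit 183)))))) (XT.nd (nat_lit 390) (nat_lit 152) (nat_lit 0) (XT.nd (nat_lit 156) (nat_lit 0) (nat_lit 0) (XT.nd (nat_lit 78) (nat_lit 0) (nat_lit 0) (XT.lf (nat_lit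 0) (nat_lit 872660420805) (nat_lit 76) (nat_lit 1012377354737) (nat_lit 76) (nat_lit 845848305826) (nat_lit 3) (nat_lit 4) (nat_lit 4) (nat_lit 5) (nat_lit 4) (nat_lit 4) (nat_lit 316) (nat_lit 282) (nat_lit 182)) (XT.lf (nat_lit 0) (nat_lit 1412696366550) (nat_lit 76) (nat_lit 931974956086) (nat_lit 76) (nat_lit 765445888679) (nat_lit 3) (nat_lit 4) (nat_lit 4) (nat_lit 5) (nat_lit 4) (nat_lit 4) (nat_lit 317) (nat_lit 282) (nat_lit 181))) (XT.nd (nat_lit 78) (nat_lit 0) (nat_lit 0) (XT.lf (nat_lit 0) (nat_lit 2033737619195) (nat_lit 76) (nat_lit 839512240681) (nat_lit 76) (nat_lit 672983157190) (nat_lit 3) (nat_lit 4) (nat_lit 4) (nat_lit 5) (nat_lit 4) (nat_lit 4) (nat_lit 318) (nat_lit 282) (nat_lit 180)) (XT.nd (nat_lit 78) (nat_lit 0) (nat_lit 0) (XT.lf (nat_lit 0) (nat_lit 2747934985858) (nat_lit 76) (nat_lit 733180155395) (nat_lit 76) (nat_lit 566651057917) (nat_lit 3) (nat_lit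 4) (nat_lit 4) (nat_lit 5) (nat_lit 4) (nat_lit 4) (nat_lit 319) (nat_lit 282) (nat_lit 179)) (XT.lf (nat_lit 0) (nat_lit 3569261893278) (nat_lit 76) (nat_lit 610898289862) (nat_lit 76) (nat_lit 444369180222) (nat_lit 3) (nat_lit 4) (nat_lit 4) (nat_lit 5) (nat_lit 4) (nat_lit 4) (nat_lit 320) (nat_lit 282) (nat_lit 178))))) (XT.nd (nat_lit 156) (nat_lit 152) (nat_lit 0) (XT.nd (nat_lit 78) (nat_lit 0) (nat_lit 0) (XT.lf (nat_lit 0) (nat_lit 4513787780947) (nat_lit 76) (nat_lit 470274172801) (nat_lit 76) (nat_lit 303745052585) (nat_lit 3) (nat_lit 4) (nat_lit 4) (nat_lit 5) (nat_lit 4) (nat_lit 4) (nat_lit 321) (nat_lit 282) (nat_lit 177)) (XT.lf (nat_lit 0) (nat_lit 5599992503191) (nat_lit 76) (nat_lit 308556462791) (nat_lit 76) (nat_lit 142027333379) (nat_lit 3) (nat_lit 4) (nat_lit 4) (nat_lit 5) (nat_lit 4) (nat_lit 4) (nat_lit 322) (nat_lit 282) (nat_lit 176))) (XT.nd (nat_lit 78)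 (nat_lit 76) (nat_lit 0) (XT.lf (nat_lit 0) (nat_lit 40035463106) (nat_lit 152) (nat_lit 80452891730) (nat_lit 76) (nat_lit 6806999665581) (nat_lit 2) (nat_lit 5) (nat_lit 4) (nat_lit 5) (nat_lit 3) (nat_lit 4) (nat_lit 323) (nat_lit 282) (nat_lit 175)) (XT.nd (nat_lit 78) (nat_lit 0) (nat_lit 0) (XT.lf (nat_lit 0) (nat_lit 255271205377) (nat_lit 152) (nat_lit 7566126896556) (nat_lit 0) (nat_lit 110463253758) (nat_lit 1) (nat_lit 5) (nat_lit 3) (nat_lit 4) (nat_lit 1) (nat_lit 4) (nat_lit 324) (nat_lit 282) (nat_lit 174)) (XT.lf (nat_lit 0) (nat_lit 512935584469) (nat_lit 152) (nat_lit 8204305987882) (nat_lit 0) (nat_lit 368127627592) (nat_lit 1) (nat_lit 5) (nat_lit 3) (nat_lit 4) (nat_lit 1) (nat_lit 4) (nat_lit 325) (nat_lit 282) (nat_lit 173))))))) (XT.nd (nat_lit 780) (nat_lit 0) (nat_lit 0) (XT.nd (nat_lit 390) (nat_lit 0) (nat_lit 0) (XT.nd (nat_lit 156) (nat_lit 0) (nat_lit 0)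 (XT.nd (nat_lit 78) (nat_lit 0) (nat_lit 0) (XT.lf (nat_lit 0) (nat_lit 809249604059) (nat_lit 152) (nat_lit 8938211976627) (nat_lit 0) (nat_lit 664441642609) (nat_lit 1) (nat_lit 5) (nat_lit 3) (nat_lit 4) (nat_lit 1) (nat_lit 4) (nat_lit 326) (nat_lit 282) (nat_lit 172)) (XT.lf (nat_lit 0) (nat_lit 1150010712355) (nat_lit 152) (nat_lit 9782203893006) (nat_lit 0) (nat_lit 1005202746929) (nat_lit 1) (nat_lit 5) (nat_lit 3) (nat_lit 4) (nat_lit 1) (nat_lit 4) (nat_lit 327) (nat_lit 282) (nat_lit 171))) (XT.nd (nat_lit 78) (nat_lit 0) (nat_lit 0) (XT.lf (nat_lit 0) (nat_lit 1541885974520) (nat_lit 152) (nat_lit 10752794622340) (nat_lit 0) (nat_lit 1397078005637) (nat_lit 1) (nat_lit 5) (nat_lit 3) (nat_lit 4) (nat_lit 1) (nat_lit 4) (nat_lit 328) (nat_lit 282) (nat_lit 170)) (XT.nd (nat_lit 78) (nat_lit 0) (nat_lit 0) (XT.lf (nat_lit 0) (nat_lit 1992542515248) (nat_lit 152) (nat_lit 11868973983246)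 (nat_lit 0) (nat_lit 1847734543359) (nat_lit 1) (nat_lit 5) (nat_lit 3) (nat_lit 4) (nat_lit 1) (nat_lit 4) (nat_lit 329) (nat_lit 282) (nat_lit 169)) (XT.lf (nat_lit 0) (nat_lit 2510797527729) (nat_lit 152) (nat_lit 13152580267567) (nat_lit 0) (nat_lit 2365989553225) (nat_lit 1) (nat_lit 5) (nat_lit 3) (nat_lit 4) (nat_lit 1) (nat_lit 4) (nat_lit 330) (nat_lit 282) (nat_lit 168))))) (XT.nd (nat_lit 156) (nat_lit 0) (nat_lit 0) (XT.nd (nat_lit 78) (nat_lit 0) (nat_lit 0) (XT.lf (nat_lit 0) (nat_lit 3106790783944) (nat_lit 152) (nat_lit 14628727511302) (nat_lit 0) (nat_lit 2961982807168) (nat_lit 1) (nat_lit 5) (nat_lit 3) (nat_lit 4) (nat_lit 1) (nat_lit 4) (nat_lit 331) (nat_lit 282) (nat_lit 167)) (XT.lf (nat_lit 0) (nat_lit 3792183021516) (nat_lit 152) (nat_lit 16326296856176) (nat_lit 0) (nat_lit 3647375042763) (nat_lit 1) (nat_lit 5) (nat_lit 3) (nat_lit 4) (nat_lit 1) (nat_lit 4)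 (nat_lit 332) (nat_lit 282) (nat_lit 166))) (XT.nd (nat_lit 78) (nat_lit 0) (nat_lit 0) (XT.lf (nat_lit 0) (nat_lit 4580384088571) (nat_lit 152) (nat_lit 18278501615457) (nat_lit 0) (nat_lit 4435576108099) (nat_lit 1) (nat_lit 5) (nat_lit 3) (nat_lit 4) (nat_lit 1) (nat_lit 4) (nat_lit 333) (nat_lit 282) (nat_lit 165)) (XT.nd (nat_lit 78) (nat_lit 0) (nat_lit 0) (XT.lf (nat_lit 0) (nat_lit 5486815310334) (nat_lit 152) (nat_lit 20523537099654) (nat_lit 0) (nat_lit 5342007328367) (nat_lit 1) (nat_lit 5) (nat_lit 3) (nat_lit 4) (nat_lit 1) (nat_lit 4) (nat_lit 334) (nat_lit 282) (nat_lit 164)) (XT.lf (nat_lit 0) (nat_lit 6529211210709) (nat_lit 152) (nat_lit 23105327916066) (nat_lit 0) (nat_lit 6384403227442) (nat_lit 1) (nat_lit 5) (nat_lit 3) (nat_lit 4) (nat_lit 1) (nat_lit 4) (nat_lit 335) (nat_lit 282) (nat_lit 163)))))) (XT.nd (nat_lit 36582) (nat_lit 0) (nat_lit 1444) (XT.nd (nat_lit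 156) (nat_lit 0) (nat_lit 0) (XT.nd (nat_lit 78) (nat_lit 0) (nat_lit 0) (XT.lf (nat_lit 0) (nat_lit 7727966492094) (nat_lit 152) (nat_lit 26074387363275) (nat_lit 0) (nat_lit 7583158507698) (nat_lit 1) (nat_lit 5) (nat_lit 3) (nat_lit 4) (nat_lit 1) (nat_lit 4) (nat_lit 336) (nat_lit 282) (nat_lit 162)) (XT.lf (nat_lit 0) (nat_lit 9106535062170) (nat_lit 152) (nat_lit 29488805734814) (nat_lit 0) (nat_lit 8961727076791) (nat_lit 1) (nat_lit 5) (nat_lit 3) (nat_lit 4) (nat_lit 1) (nat_lit 4) (nat_lit 337) (nat_lit 282) (nat_lit 161))) (XT.nd (nat_lit 78) (nat_lit 0) (nat_lit 0) (XT.lf (nat_lit 0) (nat_lit 10691888914698) (nat_lit 152) (nat_lit 33415386868385) (nat_lit 0) (nat_lit 10547080928465) (nat_lit 1) (nat_lit 5) (nat_lit 3) (nat_lit 4) (nat_lit 1) (nat_lit 4) (nat_lit 338) (nat_lit 282) (nat_lit 160)) (XT.nd (nat_lit 36270) (nat_lit 0) (nat_lit 1596) (XT.lf (nat_lit 0) (nat_lit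 12515045842445) (nat_lit 152) (nat_lit 37930955177474) (nat_lit 0) (nat_lit 12370237855469) (nat_lit 1) (nat_lit 5) (nat_lit 3) (nat_lit 4) (nat_lit 1) (nat_lit 4) (nat_lit 339) (nat_lit 282) (nat_lit 159)) (XT.lf (nat_lit 0) (nat_lit 8181078754) (nat_lit 380) (nat_lit 21243084323) (nat_lit 380) (nat_lit 21243084323) (nat_lit 22) (nat_lit 3) (nat_lit 27) (nat_lit 3) (nat_lit 27) (nat_lit 5) (nat_lit 283) (nat_lit 283) (nat_lit 214))))) (XT.nd (nat_lit 156) (nat_lit 152) (nat_lit 0) (XT.nd (nat_lit 78) (nat_lit 0) (nat_lit 76) (XT.lf (nat_lit 76) (nat_lit 5333269862) (nat_lit 0) (nat_lit 12482673856) (nat_lit 380) (nat_lit 91084622531) (nat_lit 23) (nat_lit 5) (nat_lit 22) (nat_lit 3) (nat_lit 27) (nat_lit 5) (nat_lit 284) (nat_lit 283) (nat_lit 213)) (XT.lf (nat_lit 0) (nat_lit 23504388376) (nat_lit 304) (nat_lit 53965522545) (nat_lit 380) (nat_lit 39529152832) (nat_lit 23) (nat_lit 5)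 (nat_lit 27) (nat_lit 5) (nat_lit 28) (nat_lit 5) (nat_lit 285) (nat_lit 283) (nat_lit 212))) (XT.nd (nat_lit 78) (nat_lit 228) (nat_lit 0) (XT.lf (nat_lit 76) (nat_lit 2723879868) (nat_lit 0) (nat_lit 28028518350) (nat_lit 380) (nat_lit 95453996299) (nat_lit 24) (nat_lit 5) (nat_lit 23) (nat_lit 5) (nat_lit 28) (nat_lit 5) (nat_lit 286) (nat_lit 283) (nat_lit 211)) (XT.nd (nat_lit 78) (nat_lit 304) (nat_lit 0) (XT.lf (nat_lit 0) (nat_lit 43235805171) (nat_lit 304) (nat_lit 63718905909) (nat_lit 76) (nat_lit 29217887432) (nat_lit 24) (nat_lit 5) (nat_lit 28) (nat_lit 5) (nat_lit 25) (nat_lit 5) (nat_lit 287) (nat_lit 283) (nat_lit 210)) (XT.lf (nat_lit 0) (nat_lit 4032873479) (nat_lit 304) (nat_lit 55059829360) (nat_lit 380) (nat_lit 88315885893) (nat_lit 20) (nat_lit 5) (nat_lit 24) (nat_lit 5) (nat_lit 25) (nat_lit 5) (nat_lit 288) (nat_lit 283) (nat_lit 209))))))))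
noncomputable def xc91 : XT := (XT.nd (nat_lit 1482) (nat_lit 456) (nat_lit 0) (XT.nd (nat_lit 702) (nat_lit 456) (nat_lit 0) (XT.nd (nat_lit 312) (nat_lit 304) (nat_lit 0) (XT.nd (nat_lit 156) (nat_lit 76) (nat_lit 0) (XT.nd (nat_lit 78) (nat_lit 152) (nat_lit 0) (XT.lf (nat_lit 0) (nat_lit 81008136163) (nat_lit 380) (nat_lit 71072467655) (nat_lit 76) (nat_lit 7697375756) (nat_lit 20) (nat_lit 5) (nat_lit 25) (nat_lit 5) (nat_lit 21) (nat_lit 5) (nat_lit 289) (nat_lit 283) (nat_lit 208)) (XT.lf (nat_lit 0) (nat_lit 10377577811) (nat_lit 152) (nat_lit 98884358090) (nat_lit 228) (nat_lit 64283187377) (nat_lit 18) (nat_lit 5) (nat_lit 20) (nat_lit 5) (nat_lit 21) (nat_lit 5) (nat_lit 290) (nat_lit 283) (nat_lit 207))) (XT.nd (nat_lit 78) (nat_lit 76) (nat_lit 0) (XT.lf (nat_lit 0) (nat_lit 112032060662) (nat_lit 152) (nat_lit 33436384194) (nat_lit 228) (nat_lit 43351699488) (nat_lit 18)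 (nat_lit 5) (nat_lit 20) (nat_lit 5) (nat_lit 21) (nat_lit 5) (nat_lit 291) (nat_lit 283) (nat_lit 206)) (XT.lf (nat_lit 0) (nat_lit 22849886520) (nat_lit 76) (nat_lit 166933799112) (nat_lit 152) (nat_lit 16201071088) (nat_lit 17) (nat_lit 5) (nat_lit 18) (nat_lit 5) (nat_lit 19) (nat_lit 4) (nat_lit 292) (nat_lit 283) (nat_lit 205)))) (XT.nd (nat_lit 156) (nat_lit 76) (nat_lit 0) (XT.nd (nat_lit 78) (nat_lit 152) (nat_lit 0) (XT.lf (nat_lit 0) (nat_lit 19481608895) (nat_lit 152) (nat_lit 81464510411) (nat_lit 76) (nat_lit 123815112501) (nat_lit 16) (nat_lit 5) (nat_lit 18) (nat_lit 5) (nat_lit 17) (nat_lit 5) (nat_lit 293) (nat_lit 283) (nat_lit 204)) (XT.lf (nat_lit 0) (nat_lit 38073975496) (nat_lit 152) (nat_lit 22360216113) (nat_lit 228) (nat_lit 185567838308) (nat_lit 14) (nat_lit 5) (nat_lit 16) (nat_lit 5) (nat_lit 17) (nat_lit 5) (nat_lit 294) (nat_lit 283) (nat_lit 203))) (XT.nd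 (nat_lit 78) (nat_lit 76) (nat_lit 0) (XT.lf (nat_lit 0) (nat_lit 114806750368) (nat_lit 228) (nat_lit 88111112060) (nat_lit 76) (nat_lit 66419522859) (nat_lit 14) (nat_lit 5) (nat_lit 17) (nat_lit 5) (nat_lit 15) (nat_lit 4) (nat_lit 295) (nat_lit 283) (nat_lit 202)) (XT.nd (nat_lit 78) (nat_lit 0) (nat_lit 0) (XT.lf (nat_lit 0) (nat_lit 53363922327) (nat_lit 76) (nat_lit 127245415885) (nat_lit 152) (nat_lit 115072584694) (nat_lit 13) (nat_lit 5) (nat_lit 14) (nat_lit 5) (nat_lit 15) (nat_lit 4) (nat_lit 296) (nat_lit 283) (nat_lit 201)) (XT.lf (nat_lit 0) (nat_lit 225962219680) (nat_lit 76) (nat_lit 34925610518) (nat_lit 152) (nat_lit 64399484213) (nat_lit 13) (nat_lit 5) (nat_lit 14) (nat_lit 5) (nat_lit 15) (nat_lit 4) (nat_lit 297) (nat_lit 283) (nat_lit 200)))))) (XT.nd (nat_lit 390) (nat_lit 152) (nat_lit 0) (XT.nd (nat_lit 156) (nat_lit 152) (nat_lit 0) (XT.nd (nat_lit 78) (nat_lit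 0) (nat_lit 0) (XT.lf (nat_lit 0) (nat_lit 470396984) (nat_lit 152) (nat_lit 290246920925) (nat_lit 76) (nat_lit 67746670013) (nat_lit 11) (nat_lit 5) (nat_lit 13) (nat_lit 5) (nat_lit 12) (nat_lit 4) (nat_lit 298) (nat_lit 283) (nat_lit 199)) (XT.lf (nat_lit 0) (nat_lit 75579578901) (nat_lit 152) (nat_lit 128762482534) (nat_lit 76) (nat_lit 190749790269) (nat_lit 11) (nat_lit 5) (nat_lit 13) (nat_lit 5) (nat_lit 12) (nat_lit 4) (nat_lit 299) (nat_lit 283) (nat_lit 198))) (XT.nd (nat_lit 78) (nat_lit 76) (nat_lit 0) (XT.lf (nat_lit 0) (nat_lit 62509230717) (nat_lit 76) (nat_lit 102034058181) (nat_lit 152) (nat_lit 272282383899) (nat_lit 10) (nat_lit 5) (nat_lit 11) (nat_lit 5) (nat_lit 12) (nat_lit 4) (nat_lit 300) (nat_lit 283) (nat_lit 197)) (XT.nd (nat_lit 78) (nat_lit 76) (nat_lit 0) (XT.lf (nat_lit 0) (nat_lit 274549414543) (nat_lit 152) (nat_lit 187834815348) (nat_lit 0) (nat_lit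 21280658609) (nat_lit 10) (nat_lit 5) (nat_lit 12) (nat_lit 4) (nat_lit 10) (nat_lit 4) (nat_lit 301) (nat_lit 283) (nat_lit 196)) (XT.lf (nat_lit 0) (nat_lit 23886481082) (nat_lit 76) (nat_lit 383017642543) (nat_lit 76) (nat_lit 129748713521) (nat_lit 9) (nat_lit 4) (nat_lit 10) (nat_lit 5) (nat_lit 10) (nat_lit 4) (nat_lit 302) (nat_lit 283) (nat_lit 195))))) (XT.nd (nat_lit 156) (nat_lit 76) (nat_lit 0) (XT.nd (nat_lit 78) (nat_lit 76) (nat_lit 0) (XT.lf (nat_lit 0) (nat_lit 288475710360) (nat_lit 76) (nat_lit 280454789212) (nat_lit 76) (nat_lit 27185709680) (nat_lit 9) (nat_lit 4) (nat_lit 10) (nat_lit 5) (nat_lit 10) (nat_lit 4) (nat_lit 303) (nat_lit 283) (nat_lit 194)) (XT.lf (nat_lit 0) (nat_lit 82681344640) (nat_lit 152) (nat_lit 75504319434) (nat_lit 76) (nat_lit 505749710028) (nat_lit 8) (nat_lit 5) (nat_lit 10) (nat_lit 5) (nat_lit 9) (nat_lit 4) (nat_lit 304) (nat_lit 283)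 (nat_lit 193))) (XT.nd (nat_lit 78) (nat_lit 0) (nat_lit 0) (XT.lf (nat_lit 0) (nat_lit 208741033533) (nat_lit 76) (nat_lit 6147504956) (nat_lit 152) (nat_lit 525548184674) (nat_lit 7) (nat_lit 5) (nat_lit 8) (nat_lit 5) (nat_lit 9) (nat_lit 4) (nat_lit 305) (nat_lit 283) (nat_lit 192)) (XT.nd (nat_lit 78) (nat_lit 0) (nat_lit 0) (XT.lf (nat_lit 0) (nat_lit 378046791046) (nat_lit 152) (nat_lit 290885976710) (nat_lit 0) (nat_lit 157812510018) (nat_lit 7) (nat_lit 5) (nat_lit 9) (nat_lit 4) (nat_lit 7) (nat_lit 4) (nat_lit 306) (nat_lit 283) (nat_lit 191)) (XT.lf (nat_lit 0) (nat_lit 565971399829) (nat_lit 152) (nat_lit 14247779145) (nat_lit 0) (nat_lit 345737043971) (nat_lit 7) (nat_lit 5) (nat_lit 9) (nat_lit 4) (nat_lit 7) (nat_lit 4) (nat_lit 307) (nat_lit 283) (nat_lit 190))))))) (XT.nd (nat_lit 780) (nat_lit 152) (nat_lit 0) (XT.nd (nat_lit 390) (nat_lit 76) (nat_lit 0) (XT.nd (nat_lit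 156) (nat_lit 152) (nat_lit 0) (XT.nd (nat_lit 78) (nat_lit 0) (nat_lit 0) (XT.lf (nat_lit 0) (nat_lit 333583889194) (nat_lit 76) (nat_lit 462313703879) (nat_lit 76) (nat_lit 242079282951) (nat_lit 6) (nat_lit 4) (nat_lit 7) (nat_lit 5) (nat_lit 7) (nat_lit 4) (nat_lit 308) (nat_lit 283) (nat_lit 189)) (XT.lf (nat_lit 0) (nat_lit 735191369675) (nat_lit 76) (nat_lit 325866017132) (nat_lit 76) (nat_lit 105631539622) (nat_lit 6) (nat_lit 4) (nat_lit 7) (nat_lit 5) (nat_lit 7) (nat_lit 4) (nat_lit 309) (nat_lit 283) (nat_lit 188))) (XT.nd (nat_lit 78) (nat_lit 76) (nat_lit 0) (XT.lf (nat_lit 0) (nat_lit 46717675357) (nat_lit 152) (nat_lit 119791524695) (nat_lit 76) (nat_lit 1147880067701) (nat_lit 5) (nat_lit 5) (nat_lit 7) (nat_lit 5) (nat_lit 6) (nat_lit 4) (nat_lit 310) (nat_lit 283) (nat_lit 187)) (XT.nd (nat_lit 78) (nat_lit 0) (nat_lit 0) (XT.lf (nat_lit 0) (nat_lit 223163412826) (nat_lit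 152) (nat_lit 1226862825304) (nat_lit 0) (nat_lit 31655091524) (nat_lit 4) (nat_lit 5) (nat_lit 6) (nat_lit 4) (nat_lit 4) (nat_lit 4) (nat_lit 311) (nat_lit 283) (nat_lit 186)) (XT.lf (nat_lit 0) (nat_lit 440564955274) (nat_lit 152) (nat_lit 982272302344) (nat_lit 0) (nat_lit 249056601621) (nat_lit 4) (nat_lit 5) (nat_lit 6) (nat_lit 4) (nat_lit 4) (nat_lit 4) (nat_lit 312) (nat_lit 283) (nat_lit 185))))) (XT.nd (nat_lit 156) (nat_lit 76) (nat_lit 0) (XT.nd (nat_lit 78) (nat_lit 0) (nat_lit 0) (XT.lf (nat_lit 0) (nat_lit 690576661929) (nat_lit 152) (nat_lit 700993336308) (nat_lit 0) (nat_lit 499068280144) (nat_lit 4) (nat_lit 5) (nat_lit 6) (nat_lit 4) (nat_lit 4) (nat_lit 4) (nat_lit 313) (nat_lit 283) (nat_lit 184)) (XT.lf (nat_lit 0) (nat_lit 978090066182) (nat_lit 152) (nat_lit 377522643077) (nat_lit 0) (nat_lit 786581659935) (nat_lit 4) (nat_lit 5) (nat_lit 6) (nat_lit 4) (nat_lit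 4) (nat_lit 4) (nat_lit 314) (nat_lit 283) (nat_lit 183))) (XT.nd (nat_lit 78) (nat_lit 76) (nat_lit 0) (XT.lf (nat_lit 0) (nat_lit 1308730430289) (nat_lit 152) (nat_lit 5531448219) (nat_lit 0) (nat_lit 1117222002770) (nat_lit 4) (nat_lit 5) (nat_lit 6) (nat_lit 4) (nat_lit 4) (nat_lit 4) (nat_lit 315) (nat_lit 283) (nat_lit 182)) (XT.nd (nat_lit 78) (nat_lit 0) (nat_lit 0) (XT.lf (nat_lit 0) (nat_lit 463524492508) (nat_lit 76) (nat_lit 1244635873111) (nat_lit 76) (nat_lit 1053127427096) (nat_lit 3) (nat_lit 4) (nat_lit 4) (nat_lit 5) (nat_lit 4) (nat_lit 4) (nat_lit 316) (nat_lit 283) (nat_lit 181)) (XT.lf (nat_lit 0) (nat_lit 1003560398735) (nat_lit 76) (nat_lit 1164233494481) (nat_lit 76) (nat_lit 972725032381) (nat_lit 3) (nat_lit 4) (nat_lit 4) (nat_lit 5) (nat_lit 4) (nat_lit 4) (nat_lit 317) (nat_lit 283) (nat_lit 180)))))) (XT.nd (nat_lit 390) (nat_lit 152) (nat_lit 0) (XT.nd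 (nat_lit 156) (nat_lit 0) (nat_lit 0) (XT.nd (nat_lit 78) (nat_lit 0) (nat_lit 0) (XT.lf (nat_lit 0) (nat_lit 1624601617018) (nat_lit 76) (nat_lit 1071770796485) (nat_lit 76) (nat_lit 880262320399) (nat_lit 3) (nat_lit 4) (nat_lit 4) (nat_lit 5) (nat_lit 4) (nat_lit 4) (nat_lit 318) (nat_lit 283) (nat_lit 179)) (XT.lf (nat_lit 0) (nat_lit 2338798953801) (nat_lit 76) (nat_lit 965438726336) (nat_lit 76) (nat_lit 773930238088) (nat_lit 3) (nat_lit 4) (nat_lit 4) (nat_lit 5) (nat_lit 4) (nat_lit 4) (nat_lit 319) (nat_lit 283) (nat_lit 178))) (XT.nd (nat_lit 78) (nat_lit 0) (nat_lit 0) (XT.lf (nat_lit 0) (nat_lit 3160125835238) (nat_lit 76) (nat_lit 843156873967) (nat_lit 76) (nat_lit 651648375143) (nat_lit 3) (nat_lit 4) (nat_lit 4) (nat_lit 5) (nat_lit 4) (nat_lit 4) (nat_lit 320) (nat_lit 283) (nat_lit 177)) (XT.nd (nat_lit 78) (nat_lit 0) (nat_lit 0) (XT.lf (nat_lit 0) (nat_lit 4104651700314)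 (nat_lit 76) (nat_lit 702532768353) (nat_lit 76) (nat_lit 511024260333) (nat_lit 3) (nat_lit 4) (nat_lit 4) (nat_lit 5) (nat_lit 4) (nat_lit 4) (nat_lit 321) (nat_lit 283) (nat_lit 176)) (XT.lf (nat_lit 0) (nat_lit 5190856402911) (nat_lit 76) (nat_lit 540815068297) (nat_lit 76) (nat_lit 349306552280) (nat_lit 3) (nat_lit 4) (nat_lit 4) (nat_lit 5) (nat_lit 4) (nat_lit 4) (nat_lit 322) (nat_lit 283) (nat_lit 175))))) (XT.nd (nat_lit 156) (nat_lit 76) (nat_lit 0) (XT.nd (nat_lit 78) (nat_lit 76) (nat_lit 0) (XT.lf (nat_lit 0) (nat_lit 6439991774167) (nat_lit 76) (nat_lit 354839731841) (nat_lit 76) (nat_lit 163331208870) (nat_lit 3) (nat_lit 4) (nat_lit 4) (nat_lit 5) (nat_lit 4) (nat_lit 4) (nat_lit 323) (nat_lit 283) (nat_lit 174)) (XT.lf (nat_lit 0) (nat_lit 46040960422) (nat_lit 152) (nat_lit 92520464108) (nat_lit 76) (nat_lit 7828049772181) (nat_lit 2) (nat_lit 5) (nat_lit 4) (nat_lit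 5) (nat_lit 3) (nat_lit 4) (nat_lit 324) (nat_lit 283) (nat_lit 173))) (XT.nd (nat_lit 78) (nat_lit 0) (nat_lit 0) (XT.lf (nat_lit 0) (nat_lit 293562062409) (nat_lit 152) (nat_lit 8701045567954) (nat_lit 0) (nat_lit 127032902170) (nat_lit 1) (nat_lit 5) (nat_lit 3) (nat_lit 4) (nat_lit 1) (nat_lit 4) (nat_lit 325) (nat_lit 283) (nat_lit 172)) (XT.nd (nat_lit 78) (nat_lit 0) (nat_lit 0) (XT.lf (nat_lit 0) (nat_lit 589876075379) (nat_lit 152) (nat_lit 9434951570337) (nat_lit 0) (nat_lit 423346911164) (nat_lit 1) (nat_lit 5) (nat_lit 3) (nat_lit 4) (nat_lit 1) (nat_lit 4) (nat_lit 326) (nat_lit 283) (nat_lit 171)) (XT.lf (nat_lit 0) (nat_lit 930637177919) (nat_lit 152) (nat_lit 10278943498576) (nat_lit 0) (nat_lit 764108010247) (nat_lit 1) (nat_lit 5) (nat_lit 3) (nat_lit 4) (nat_lit 1) (nat_lit 4) (nat_lit 327) (nat_lit 283) (nat_lit 170))))))))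
noncomputable def xc92 : XT := (XT.nd (nat_lit 37752) (nat_lit 0) (nat_lit 380) (XT.nd (nat_lit 702) (nat_lit 0) (nat_lit 0) (XT.nd (nat_lit 312) (nat_lit 0) (nat_lit 0) (XT.nd (nat_lit 156) (nat_lit 0) (nat_lit 0) (XT.nd (nat_lit 78) (nat_lit 0) (nat_lit 0) (XT.lf (nat_lit 0) (nat_lit 1322512435079) (nat_lit 152) (nat_lit 11249534238222) (nat_lit 0) (nat_lit 1155983264400) (nat_lit 1) (nat_lit 5) (nat_lit 3) (nat_lit 4) (nat_lit 1) (nat_lit 4) (nat_lit 328) (nat_lit 283) (nat_lit 169)) (XT.lf (nat_lit 0) (nat_lit 1773168971455) (nat_lit 152) (nat_lit 12365713608096) (nat_lit 0) (nat_lit 1606639798162) (nat_lit 1) (nat_lit 5) (nat_lit 3) (nat_lit 4) (nat_lit 1) (nat_lit 4) (nat_lit 329) (nat_lit 283) (nat_lit 168))) (XT.nd (nat_lit 78) (nat_lit 0) (nat_lit 0) (XT.lf (nat_lit 0) (nat_lit 2291423980151) (nat_lit 152) (nat_lit 13649319900215) (nat_lit 0) (nat_lit 2124894804585) (nat_lit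 1) (nat_lit 5) (nat_lit 3) (nat_lit 4) (nat_lit 1) (nat_lit 4) (nat_lit 330) (nat_lit 283) (nat_lit 167)) (XT.lf (nat_lit 0) (nat_lit 2887417233075) (nat_lit 152) (nat_lit 15125467150730) (nat_lit 0) (nat_lit 2720888055532) (nat_lit 1) (nat_lit 5) (nat_lit 3) (nat_lit 4) (nat_lit 1) (nat_lit 4) (nat_lit 331) (nat_lit 283) (nat_lit 166)))) (XT.nd (nat_lit 156) (nat_lit 0) (nat_lit 0) (XT.nd (nat_lit 78) (nat_lit 0) (nat_lit 0) (XT.lf (nat_lit 0) (nat_lit 3572809467785) (nat_lit 152) (nat_lit 16823036501500) (nat_lit 0) (nat_lit 3406280288524) (nat_lit 1) (nat_lit 5) (nat_lit 3) (nat_lit 4) (nat_lit 1) (nat_lit 4) (nat_lit 332) (nat_lit 283) (nat_lit 165)) (XT.lf (nat_lit 0) (nat_lit 4361010532351) (nat_lit 152) (nat_lit 18775241265909) (nat_lit 0) (nat_lit 4194481351595) (nat_lit 1) (nat_lit 5) (nat_lit 3) (nat_lit 4) (nat_lit 1) (nat_lit 4) (nat_lit 333) (nat_lit 283) (nat_lit 164)))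 (XT.nd (nat_lit 78) (nat_lit 0) (nat_lit 0) (XT.lf (nat_lit 0) (nat_lit 5267441751950) (nat_lit 152) (nat_lit 21020276754564) (nat_lit 0) (nat_lit 5100912569895) (nat_lit 1) (nat_lit 5) (nat_lit 3) (nat_lit 4) (nat_lit 1) (nat_lit 4) (nat_lit 334) (nat_lit 283) (nat_lit 163)) (XT.nd (nat_lit 78) (nat_lit 0) (nat_lit 0) (XT.lf (nat_lit 0) (nat_lit 6309837650444) (nat_lit 152) (nat_lit 23602067574853) (nat_lit 0) (nat_lit 6143308467258) (nat_lit 1) (nat_lit 5) (nat_lit 3) (nat_lit 4) (nat_lit 1) (nat_lit 4) (nat_lit 335) (nat_lit 283) (nat_lit 162)) (XT.lf (nat_lit 0) (nat_lit 7508592930193) (nat_lit 152) (nat_lit 26571127025433) (nat_lit 0) (nat_lit 7342063746025) (nat_lit 1) (nat_lit 5) (nat_lit 3) (nat_lit 4) (nat_lit 1) (nat_lit 4) (nat_lit 336) (nat_lit 283) (nat_lit 161)))))) (XT.nd (nat_lit 36660) (nat_lit 0) (nat_lit 1444) (XT.nd (nat_lit 156) (nat_lit 0) (nat_lit 0) (XT.nd (nat_lit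 78) (nat_lit 0) (nat_lit 0) (XT.lf (nat_lit 0) (nat_lit 8887161498846) (nat_lit 152) (nat_lit 29985545399903) (nat_lit 0) (nat_lit 8720632313823) (nat_lit 1) (nat_lit 5) (nat_lit 3) (nat_lit 4) (nat_lit 1) (nat_lit 4) (nat_lit 337) (nat_lit 283) (nat_lit 160)) (XT.lf (nat_lit 0) (nat_lit 10472515350137) (nat_lit 152) (nat_lit 33912126536024) (nat_lit 0) (nat_lit 10305986164371) (nat_lit 1) (nat_lit 5) (nat_lit 3) (nat_lit 4) (nat_lit 1) (nat_lit 4) (nat_lit 338) (nat_lit 283) (nat_lit 159))) (XT.nd (nat_lit 36348) (nat_lit 0) (nat_lit 1596) (XT.lf (nat_lit 0) (nat_lit 12295672276809) (nat_lit 152) (nat_lit 38427694847329) (nat_lit 0) (nat_lit 12129143090396) (nat_lit 1) (nat_lit 5) (nat_lit 3) (nat_lit 4) (nat_lit 1) (nat_lit 4) (nat_lit 339) (nat_lit 283) (nat_lit 158)) (XT.nd (nat_lit 78) (nat_lit 0) (nat_lit 0) (XT.lf (nat_lit 0) (nat_lit 9413786085) (nat_lit 380) (nat_lit 24426347753)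 (nat_lit 380) (nat_lit 24426347753) (nat_lit 22) (nat_lit 3) (nat_lit 27) (nat_lit 3) (nat_lit 27) (nat_lit 5) (nat_lit 284) (nat_lit 284) (nat_lit 212)) (XT.lf (nat_lit 76) (nat_lit 6139367941) (nat_lit 0) (nat_lit 14358864615) (nat_lit 380) (nat_lit 104735897354) (nat_lit 23) (nat_lit 5) (nat_lit 22) (nat_lit 3) (nat_lit 27) (nat_lit 5) (nat_lit 285) (nat_lit 284) (nat_lit 211))))) (XT.nd (nat_lit 156) (nat_lit 228) (nat_lit 0) (XT.nd (nat_lit 78) (nat_lit 0) (nat_lit 0) (XT.lf (nat_lit 0) (nat_lit 27038516509) (nat_lit 304) (nat_lit 62053580666) (nat_lit 380) (nat_lit 45455523759) (nat_lit 23) (nat_lit 5) (nat_lit 27) (nat_lit 5) (nat_lit 28) (nat_lit 5) (nat_lit 286) (nat_lit 284) (nat_lit 210)) (XT.lf (nat_lit 76) (nat_lit 3138924369) (nat_lit 0) (nat_lit 32233966291) (nat_lit 380) (nat_lit 109763290389) (nat_lit 24) (nat_lit 5) (nat_lit 23) (nat_lit 5) (nat_lit 28) (nat_lit 5) (nat_lit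 287) (nat_lit 284) (nat_lit 209))) (XT.nd (nat_lit 78) (nat_lit 304) (nat_lit 0) (XT.lf (nat_lit 0) (nat_lit 49727770951) (nat_lit 304) (nat_lit 73270060386) (nat_lit 76) (nat_lit 33599643581) (nat_lit 24) (nat_lit 5) (nat_lit 28) (nat_lit 5) (nat_lit 25) (nat_lit 5) (nat_lit 288) (nat_lit 284) (nat_lit 208)) (XT.nd (nat_lit 78) (nat_lit 0) (nat_lit 0) (XT.lf (nat_lit 0) (nat_lit 4644182209) (nat_lit 304) (nat_lit 63318424929) (nat_lit 380) (nat_lit 101556349099) (nat_lit 20) (nat_lit 5) (nat_lit 24) (nat_lit 5) (nat_lit 25) (nat_lit 5) (nat_lit 289) (nat_lit 284) (nat_lit 207)) (XT.lf (nat_lit 0) (nat_lit 93164586640) (nat_lit 380) (nat_lit 81727004910) (nat_lit 76) (nat_lit 8852282214) (nat_lit 20) (nat_lit 5) (nat_lit 25) (nat_lit 5) (nat_lit 21) (nat_lit 5) (nat_lit 290) (nat_lit 284) (nat_lit 206))))))) (XT.nd (nat_lit 780) (nat_lit 380) (nat_lit 0) (XT.nd (nat_lit 390) (nat_lit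 228) (nat_lit 0) (XT.nd (nat_lit 156) (nat_lit 304) (nat_lit 0) (XT.nd (nat_lit 78) (nat_lit 0) (nat_lit 0) (XT.lf (nat_lit 0) (nat_lit 11940259517) (nat_lit 152) (nat_lit 113715764952) (nat_lit 228) (nat_lit 73920131713) (nat_lit 18) (nat_lit 5) (nat_lit 20) (nat_lit 5) (nat_lit 21) (nat_lit 5) (nat_lit 291) (nat_lit 284) (nat_lit 205)) (XT.lf (nat_lit 0) (nat_lit 128842126313) (nat_lit 152) (nat_lit 38450757605) (nat_lit 228) (nat_lit 49849642437) (nat_lit 18) (nat_lit 5) (nat_lit 20) (nat_lit 5) (nat_lit 21) (nat_lit 5) (nat_lit 292) (nat_lit 284) (nat_lit 204))) (XT.nd (nat_lit 78) (nat_lit 228) (nat_lit 0) (XT.lf (nat_lit 0) (nat_lit 26282954827) (nat_lit 76) (nat_lit 191972182082) (nat_lit 152) (nat_lit 18626736562) (nat_lit 17) (nat_lit 5) (nat_lit 18) (nat_lit 5) (nat_lit 19) (nat_lit 4) (nat_lit 293) (nat_lit 284) (nat_lit 203)) (XT.nd (nat_lit 78) (nat_lit 152) (nat_lit 0) (XT.lf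 (nat_lit 0) (nat_lit 22407411095) (nat_lit 152) (nat_lit 93678973103) (nat_lit 76) (nat_lit 142388489182) (nat_lit 16) (nat_lit 5) (nat_lit 18) (nat_lit 5) (nat_lit 17) (nat_lit 5) (nat_lit 294) (nat_lit 284) (nat_lit 202)) (XT.lf (nat_lit 0) (nat_lit 43790048695) (nat_lit 152) (nat_lit 25712574141) (nat_lit 228) (nat_lit 213399208309) (nat_lit 14) (nat_lit 5) (nat_lit 16) (nat_lit 5) (nat_lit 17) (nat_lit 5) (nat_lit 295) (nat_lit 284) (nat_lit 201))))) (XT.nd (nat_lit 156) (nat_lit 152) (nat_lit 0) (XT.nd (nat_lit 78) (nat_lit 76) (nat_lit 0) (XT.lf (nat_lit 0) (nat_lit 132030694941) (nat_lit 228) (nat_lit 101323073825) (nat_lit 76) (nat_lit 76383777656) (nat_lit 14) (nat_lit 5) (nat_lit 17) (nat_lit 5) (nat_lit 15) (nat_lit 4) (nat_lit 296) (nat_lit 284) (nat_lit 200)) (XT.lf (nat_lit 0) (nat_lit 61373001854) (nat_lit 76) (nat_lit 146330472640) (nat_lit 152) (nat_lit 132330320553)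 (nat_lit 13) (nat_lit 5) (nat_lit 14) (nat_lit 5) (nat_lit 15) (nat_lit 4) (nat_lit 297) (nat_lit 284) (nat_lit 199))) (XT.nd (nat_lit 78) (nat_lit 152) (nat_lit 0) (XT.lf (nat_lit 0) (nat_lit 259860458004) (nat_lit 76) (nat_lit 40162925462) (nat_lit 152) (nat_lit 74056666110) (nat_lit 13) (nat_lit 5) (nat_lit 14) (nat_lit 5) (nat_lit 15) (nat_lit 4) (nat_lit 298) (nat_lit 284) (nat_lit 198)) (XT.nd (nat_lit 78) (nat_lit 0) (nat_lit 0) (XT.lf (nat_lit 0) (nat_lit 543359278) (nat_lit 152) (nat_lit 333779707274) (nat_lit 76) (nat_lit 77910155226) (nat_lit 11) (nat_lit 5) (nat_lit 13) (nat_lit 5) (nat_lit 12) (nat_lit 4) (nat_lit 299) (nat_lit 284) (nat_lit 197)) (XT.lf (nat_lit 0) (nat_lit 86918605081) (nat_lit 152) (nat_lit 148073157706) (nat_lit 76) (nat_lit 219363549862) (nat_lit 11) (nat_lit 5) (nat_lit 13) (nat_lit 5) (nat_lit 12) (nat_lit 4) (nat_lit 300) (nat_lit 284) (nat_lit 196))))))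 (XT.nd (nat_lit 390) (nat_lit 152) (nat_lit 0) (XT.nd (nat_lit 156) (nat_lit 152) (nat_lit 0) (XT.nd (nat_lit 78) (nat_lit 0) (nat_lit 0) (XT.lf (nat_lit 0) (nat_lit 71889144478) (nat_lit 76) (nat_lit 117337600711) (nat_lit 152) (nat_lit 313122481120) (nat_lit 10) (nat_lit 5) (nat_lit 11) (nat_lit 5) (nat_lit 12) (nat_lit 4) (nat_lit 301) (nat_lit 284) (nat_lit 195)) (XT.lf (nat_lit 0) (nat_lit 315733590037) (nat_lit 152) (nat_lit 216006766600) (nat_lit 0) (nat_lit 24473998064) (nat_lit 10) (nat_lit 5) (nat_lit 12) (nat_lit 4) (nat_lit 10) (nat_lit 4) (nat_lit 302) (nat_lit 284) (nat_lit 194))) (XT.nd (nat_lit 78) (nat_lit 76) (nat_lit 0) (XT.lf (nat_lit 0) (nat_lit 27472575611) (nat_lit 76) (nat_lit 440468829163) (nat_lit 76) (nat_lit 149209106312) (nat_lit 9) (nat_lit 4) (nat_lit 10) (nat_lit 5) (nat_lit 10) (nat_lit 4) (nat_lit 303) (nat_lit 284) (nat_lit 193)) (XT.nd (nat_lit 78)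 (nat_lit 76) (nat_lit 0) (XT.lf (nat_lit 0) (nat_lit 331749782015) (nat_lit 76) (nat_lit 322521738236) (nat_lit 76) (nat_lit 31261901577) (nat_lit 9) (nat_lit 4) (nat_lit 10) (nat_lit 5) (nat_lit 10) (nat_lit 4) (nat_lit 304) (nat_lit 284) (nat_lit 192)) (XT.lf (nat_lit 0) (nat_lit 95084864914) (nat_lit 152) (nat_lit 86827476057) (nat_lit 76) (nat_lit 581613139986) (nat_lit 8) (nat_lit 5) (nat_lit 10) (nat_lit 5) (nat_lit 9) (nat_lit 4) (nat_lit 305) (nat_lit 284) (nat_lit 191))))) (XT.nd (nat_lit 156) (nat_lit 76) (nat_lit 0) (XT.nd (nat_lit 78) (nat_lit 0) (nat_lit 0) (XT.lf (nat_lit 0) (nat_lit 240054566614) (nat_lit 76) (nat_lit 7068497707) (nat_lit 152) (nat_lit 604378979275) (nat_lit 7) (nat_lit 5) (nat_lit 8) (nat_lit 5) (nat_lit 9) (nat_lit 4) (nat_lit 306) (nat_lit 284) (nat_lit 190)) (XT.lf (nat_lit 0) (nat_lit 434754933159) (nat_lit 152) (nat_lit 334516682627) (nat_lit 0) (nat_lit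 181485284021) (nat_lit 7) (nat_lit 5) (nat_lit 9) (nat_lit 4) (nat_lit 7) (nat_lit 4) (nat_lit 307) (nat_lit 284) (nat_lit 189))) (XT.nd (nat_lit 78) (nat_lit 76) (nat_lit 0) (XT.lf (nat_lit 0) (nat_lit 650868086722) (nat_lit 152) (nat_lit 16383041157) (nat_lit 0) (nat_lit 397598381002) (nat_lit 7) (nat_lit 5) (nat_lit 9) (nat_lit 4) (nat_lit 7) (nat_lit 4) (nat_lit 308) (nat_lit 284) (nat_lit 188)) (XT.nd (nat_lit 78) (nat_lit 0) (nat_lit 0) (XT.lf (nat_lit 0) (nat_lit 383623290848) (nat_lit 76) (nat_lit 531659865971) (nat_lit 76) (nat_lit 278390111049) (nat_lit 6) (nat_lit 4) (nat_lit 7) (nat_lit 5) (nat_lit 7) (nat_lit 4) (nat_lit 309) (nat_lit 284) (nat_lit 187)) (XT.lf (nat_lit 0) (nat_lit 845471656235) (nat_lit 76) (nat_lit 374745142754) (nat_lit 76) (nat_lit 121475345048) (nat_lit 6) (nat_lit 4) (nat_lit 7) (nat_lit 5) (nat_lit 7) (nat_lit 4) (nat_lit 310) (nat_lit 284) (nat_lit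 186))))))))
noncomputable def xc93 : XT := (XT.nd (nat_lit 1482) (nat_lit 0) (nat_lit 0) (XT.nd (nat_lit 702) (nat_lit 152) (nat_lit 0) (XT.nd (nat_lit 312) (nat_lit 76) (nat_lit 0) (XT.nd (nat_lit 156) (nat_lit 0) (nat_lit 0) (XT.nd (nat_lit 78) (nat_lit 76) (nat_lit 0) (XT.lf (nat_lit 0) (nat_lit 53726059809) (nat_lit 152) (nat_lit 137758806319) (nat_lit 76) (nat_lit 1320062681260) (nat_lit 5) (nat_lit 5) (nat_lit 7) (nat_lit 5) (nat_lit 6) (nat_lit 4) (nat_lit 311) (nat_lit 284) (nat_lit 185)) (XT.lf (nat_lit 0) (nat_lit 256638647898) (nat_lit 152) (nat_lit 1410890791536) (nat_lit 0) (nat_lit 36403980714) (nat_lit 4) (nat_lit 5) (nat_lit 6) (nat_lit 4) (nat_lit 4) (nat_lit 4) (nat_lit 312) (nat_lit 284) (nat_lit 184))) (XT.nd (nat_lit 78) (nat_lit 0) (nat_lit 0) (XT.lf (nat_lit 0) (nat_lit 506650327390) (nat_lit 152) (nat_lit 1129611880249) (nat_lit 0) (nat_lit 286415635744) (nat_lit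 4) (nat_lit 5) (nat_lit 6) (nat_lit 4) (nat_lit 4) (nat_lit 4) (nat_lit 313) (nat_lit 284) (nat_lit 183)) (XT.lf (nat_lit 0) (nat_lit 794163708022) (nat_lit 152) (nat_lit 806141234627) (nat_lit 0) (nat_lit 573928995105) (nat_lit 4) (nat_lit 5) (nat_lit 6) (nat_lit 4) (nat_lit 4) (nat_lit 4) (nat_lit 314) (nat_lit 284) (nat_lit 182)))) (XT.nd (nat_lit 156) (nat_lit 76) (nat_lit 0) (XT.nd (nat_lit 78) (nat_lit 0) (nat_lit 0) (XT.lf (nat_lit 0) (nat_lit 1124804051591) (nat_lit 152) (nat_lit 434150081167) (nat_lit 0) (nat_lit 904569320176) (nat_lit 4) (nat_lit 5) (nat_lit 6) (nat_lit 4) (nat_lit 4) (nat_lit 4) (nat_lit 315) (nat_lit 284) (nat_lit 181)) (XT.lf (nat_lit 0) (nat_lit 1505040408295) (nat_lit 152) (nat_lit 6360332085) (nat_lit 0) (nat_lit 1284805660796) (nat_lit 4) (nat_lit 5) (nat_lit 6) (nat_lit 4) (nat_lit 4) (nat_lit 4) (nat_lit 316) (nat_lit 284) (nat_lit 180))) (XT.nd (nat_lit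 78) (nat_lit 0) (nat_lit 0) (XT.lf (nat_lit 0) (nat_lit 533053961870) (nat_lit 76) (nat_lit 1431330851063) (nat_lit 76) (nat_lit 1211096089578) (nat_lit 3) (nat_lit 4) (nat_lit 4) (nat_lit 5) (nat_lit 4) (nat_lit 4) (nat_lit 317) (nat_lit 284) (nat_lit 179)) (XT.nd (nat_lit 78) (nat_lit 0) (nat_lit 0) (XT.lf (nat_lit 0) (nat_lit 1154095150273) (nat_lit 76) (nat_lit 1338868168206) (nat_lit 76) (nat_lit 1118633394558) (nat_lit 3) (nat_lit 4) (nat_lit 4) (nat_lit 5) (nat_lit 4) (nat_lit 4) (nat_lit 318) (nat_lit 284) (nat_lit 178)) (XT.lf (nat_lit 0) (nat_lit 1868292461073) (nat_lit 76) (nat_lit 1232536111221) (nat_lit 76) (nat_lit 1012301326998) (nat_lit 3) (nat_lit 4) (nat_lit 4) (nat_lit 5) (nat_lit 4) (nat_lit 4) (nat_lit 319) (nat_lit 284) (nat_lit 177)))))) (XT.nd (nat_lit 390) (nat_lit 152) (nat_lit 0) (XT.nd (nat_lit 156) (nat_lit 0) (nat_lit 0) (XT.nd (nat_lit 78) (nat_lit 0) (nat_lit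 0) (XT.lf (nat_lit 0) (nat_lit 2689619319916) (nat_lit 76) (nat_lit 1110254270298) (nat_lit 76) (nat_lit 890019476879) (nat_lit 3) (nat_lit 4) (nat_lit 4) (nat_lit 5) (nat_lit 4) (nat_lit 4) (nat_lit 320) (nat_lit 284) (nat_lit 176)) (XT.lf (nat_lit 0) (nat_lit 3634145165346) (nat_lit 76) (nat_lit 969630174637) (nat_lit 76) (nat_lit 749395373221) (nat_lit 3) (nat_lit 4) (nat_lit 4) (nat_lit 5) (nat_lit 4) (nat_lit 4) (nat_lit 321) (nat_lit 284) (nat_lit 175))) (XT.nd (nat_lit 78) (nat_lit 0) (nat_lit 0) (XT.lf (nat_lit 0) (nat_lit 4720349850859) (nat_lit 76) (nat_lit 807912483237) (nat_lit 76) (nat_lit 587677674867) (nat_lit 3) (nat_lit 4) (nat_lit 4) (nat_lit 5) (nat_lit 4) (nat_lit 4) (nat_lit 322) (nat_lit 284) (nat_lit 174)) (XT.nd (nat_lit 78) (nat_lit 0) (nat_lit 0) (XT.lf (nat_lit 0) (nat_lit 5969485207259) (nat_lit 76) (nat_lit 621937154307) (nat_lit 76) (nat_lit 401702339891)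 (nat_lit 3) (nat_lit 4) (nat_lit 4) (nat_lit 5) (nat_lit 4) (nat_lit 4) (nat_lit 323) (nat_lit 284) (nat_lit 173)) (XT.lf (nat_lit 0) (nat_lit 7405990839345) (nat_lit 76) (nat_lit 408065540109) (nat_lit 76) (nat_lit 187830720435) (nat_lit 3) (nat_lit 4) (nat_lit 4) (nat_lit 5) (nat_lit 4) (nat_lit 4) (nat_lit 324) (nat_lit 284) (nat_lit 172))))) (XT.nd (nat_lit 156) (nat_lit 0) (nat_lit 0) (XT.nd (nat_lit 78) (nat_lit 76) (nat_lit 0) (XT.lf (nat_lit 0) (nat_lit 52947238966) (nat_lit 152) (nat_lit 106398260468) (nat_lit 76) (nat_lit 9002257356544) (nat_lit 2) (nat_lit 5) (nat_lit 4) (nat_lit 5) (nat_lit 3) (nat_lit 4) (nat_lit 325) (nat_lit 284) (nat_lit 171)) (XT.lf (nat_lit 0) (nat_lit 337596505022) (nat_lit 152) (nat_lit 10006202128603) (nat_lit 0) (nat_lit 146087958741) (nat_lit 1) (nat_lit 5) (nat_lit 3) (nat_lit 4) (nat_lit 1) (nat_lit 4) (nat_lit 326) (nat_lit 284) (nat_lit 170)))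 (XT.nd (nat_lit 78) (nat_lit 0) (nat_lit 0) (XT.lf (nat_lit 0) (nat_lit 678357602557) (nat_lit 152) (nat_lit 10850194067154) (nat_lit 0) (nat_lit 486849053270) (nat_lit 1) (nat_lit 5) (nat_lit 3) (nat_lit 4) (nat_lit 1) (nat_lit 4) (nat_lit 327) (nat_lit 284) (nat_lit 169)) (XT.nd (nat_lit 78) (nat_lit 0) (nat_lit 0) (XT.lf (nat_lit 0) (nat_lit 1070232855364) (nat_lit 152) (nat_lit 11820784815767) (nat_lit 0) (nat_lit 878724303463) (nat_lit 1) (nat_lit 5) (nat_lit 3) (nat_lit 4) (nat_lit 1) (nat_lit 4) (nat_lit 328) (nat_lit 284) (nat_lit 168)) (XT.lf (nat_lit 0) (nat_lit 1520889387956) (nat_lit 152) (nat_lit 12936964193438) (nat_lit 0) (nat_lit 1329380833782) (nat_lit 1) (nat_lit 5) (nat_lit 3) (nat_lit 4) (nat_lit 1) (nat_lit 4) (nat_lit 329) (nat_lit 284) (nat_lit 167))))))) (XT.nd (nat_lit 37206) (nat_lit 0) (nat_lit 1140) (XT.nd (nat_lit 390) (nat_lit 0) (nat_lit 0) (XT.nd (nat_lit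 156) (nat_lit 0) (nat_lit 0) (XT.nd (nat_lit 78) (nat_lit 0) (nat_lit 0) (XT.lf (nat_lit 0) (nat_lit 2039144393360) (nat_lit 152) (nat_lit 14220570492338) (nat_lit 0) (nat_lit 1847635837210) (nat_lit 1) (nat_lit 5) (nat_lit 3) (nat_lit 4) (nat_lit 1) (nat_lit 4) (nat_lit 330) (nat_lit 284) (nat_lit 166)) (XT.lf (nat_lit 0) (nat_lit 2635137643423) (nat_lit 152) (nat_lit 15696717748750) (nat_lit 0) (nat_lit 2443629085553) (nat_lit 1) (nat_lit 5) (nat_lit 3) (nat_lit 4) (nat_lit 1) (nat_lit 4) (nat_lit 331) (nat_lit 284) (nat_lit 165))) (XT.nd (nat_lit 78) (nat_lit 0) (nat_lit 0) (XT.lf (nat_lit 0) (nat_lit 3320529875644) (nat_lit 152) (nat_lit 17394287104647) (nat_lit 0) (nat_lit 3129021316280) (nat_lit 1) (nat_lit 5) (nat_lit 3) (nat_lit 4) (nat_lit 1) (nat_lit 4) (nat_lit 332) (nat_lit 284) (nat_lit 164)) (XT.nd (nat_lit 78) (nat_lit 0) (nat_lit 0) (XT.lf (nat_lit 0) (nat_lit 4108730938047)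 (nat_lit 152) (nat_lit 19346491873514) (nat_lit 0) (nat_lit 3917222377383) (nat_lit 1) (nat_lit 5) (nat_lit 3) (nat_lit 4) (nat_lit 1) (nat_lit 4) (nat_lit 333) (nat_lit 284) (nat_lit 163)) (XT.lf (nat_lit 0) (nat_lit 5015162155764) (nat_lit 152) (nat_lit 21591527366046) (nat_lit 0) (nat_lit 4823653593970) (nat_lit 1) (nat_lit 5) (nat_lit 3) (nat_lit 4) (nat_lit 1) (nat_lit 4) (nat_lit 334) (nat_lit 284) (nat_lit 162))))) (XT.nd (nat_lit 156) (nat_lit 0) (nat_lit 0) (XT.nd (nat_lit 78) (nat_lit 0) (nat_lit 0) (XT.lf (nat_lit 0) (nat_lit 6057558052621) (nat_lit 152) (nat_lit 24173318189706) (nat_lit 0) (nat_lit 5866049489845) (nat_lit 1) (nat_lit 5) (nat_lit 3) (nat_lit 4) (nat_lit 1) (nat_lit 4) (nat_lit 335) (nat_lit 284) (nat_lit 161)) (XT.lf (nat_lit 0) (nat_lit 7256313330948) (nat_lit 152) (nat_lit 27142377643218) (nat_lit 0) (nat_lit 7064804767317) (nat_lit 1) (nat_lit 5) (nat_lit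 3) (nat_lit 4) (nat_lit 1) (nat_lit 4) (nat_lit 336) (nat_lit 284) (nat_lit 160))) (XT.nd (nat_lit 78) (nat_lit 0) (nat_lit 0) (XT.lf (nat_lit 0) (nat_lit 8634881898364) (nat_lit 152) (nat_lit 30556796020237) (nat_lit 0) (nat_lit 8443373333990) (nat_lit 1) (nat_lit 5) (nat_lit 3) (nat_lit 4) (nat_lit 1) (nat_lit 4) (nat_lit 337) (nat_lit 284) (nat_lit 159)) (XT.nd (nat_lit 36504) (nat_lit 0) (nat_lit 1596) (XT.lf (nat_lit 0) (nat_lit 10220235748579) (nat_lit 152) (nat_lit 34483377158574) (nat_lit 0) (nat_lit 10028727183558) (nat_lit 1) (nat_lit 5) (nat_lit 3) (nat_lit 4) (nat_lit 1) (nat_lit 4) (nat_lit 338) (nat_lit 284) (nat_lit 158)) (XT.lf (nat_lit 0) (nat_lit 10830047205) (nat_lit 380) (nat_lit 28087880846) (nat_lit 380) (nat_lit 28087880846) (nat_lit 22) (nat_lit 3) (nat_lit 27) (nat_lit 3) (nat_lit 27) (nat_lit 5) (nat_lit 285) (nat_lit 285) (nat_lit 210)))))) (XT.nd (nat_lit 390)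 (nat_lit 304) (nat_lit 0) (XT.nd (nat_lit 156) (nat_lit 152) (nat_lit 0) (XT.nd (nat_lit 78) (nat_lit 0) (nat_lit 76) (XT.lf (nat_lit 76) (nat_lit 7064891356) (nat_lit 0) (nat_lit 16515559851) (nat_lit 380) (nat_lit 120437647888) (nat_lit 23) (nat_lit 5) (nat_lit 22) (nat_lit 3) (nat_lit 27) (nat_lit 5) (nat_lit 286) (nat_lit 285) (nat_lit 209)) (XT.lf (nat_lit 0) (nat_lit 31100698430) (nat_lit 304) (nat_lit 71356498477) (nat_lit 380) (nat_lit 52271582382) (nat_lit 23) (nat_lit 5) (nat_lit 27) (nat_lit 5) (nat_lit 28) (nat_lit 5) (nat_lit 287) (nat_lit 285) (nat_lit 208))) (XT.nd (nat_lit 78) (nat_lit 228) (nat_lit 0) (XT.lf (nat_lit 76) (nat_lit 3614649619) (nat_lit 0) (nat_lit 37069946066) (nat_lit 380) (nat_lit 126221125835) (nat_lit 24) (nat_lit 5) (nat_lit 23) (nat_lit 5) (nat_lit 28) (nat_lit 5) (nat_lit 288) (nat_lit 285) (nat_lit 207)) (XT.nd (nat_lit 78) (nat_lit 304) (nat_lit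 0) (XT.lf (nat_lit 0) (nat_lit 57191923364) (nat_lit 304) (nat_lit 84255517339) (nat_lit 76) (nat_lit 38638889199) (nat_lit 24) (nat_lit 5) (nat_lit 28) (nat_lit 5) (nat_lit 25) (nat_lit 5) (nat_lit 289) (nat_lit 285) (nat_lit 206)) (XT.lf (nat_lit 0) (nat_lit 5345632004) (nat_lit 304) (nat_lit 72815902214) (nat_lit 380) (nat_lit 116784569193) (nat_lit 20) (nat_lit 5) (nat_lit 24) (nat_lit 5) (nat_lit 25) (nat_lit 5) (nat_lit 290) (nat_lit 285) (nat_lit 205))))) (XT.nd (nat_lit 156) (nat_lit 152) (nat_lit 0) (XT.nd (nat_lit 78) (nat_lit 152) (nat_lit 0) (XT.lf (nat_lit 0) (nat_lit 107143229307) (nat_lit 380) (nat_lit 93981267069) (nat_lit 76) (nat_lit 10180351461) (nat_lit 20) (nat_lit 5) (nat_lit 25) (nat_lit 5) (nat_lit 21) (nat_lit 5) (nat_lit 291) (nat_lit 285) (nat_lit 204)) (XT.lf (nat_lit 0) (nat_lit 13735869359) (nat_lit 152) (nat_lit 130772186897) (nat_lit 228) (nat_lit 85003967145)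 (nat_lit 18) (nat_lit 5) (nat_lit 20) (nat_lit 5) (nat_lit 21) (nat_lit 5) (nat_lit 292) (nat_lit 285) (nat_lit 203))) (XT.nd (nat_lit 78) (nat_lit 152) (nat_lit 0) (XT.lf (nat_lit 0) (nat_lit 148172419968) (nat_lit 152) (nat_lit 44217551421) (nat_lit 228) (nat_lit 57323450258) (nat_lit 18) (nat_lit 5) (nat_lit 20) (nat_lit 5) (nat_lit 21) (nat_lit 5) (nat_lit 293) (nat_lit 285) (nat_lit 202)) (XT.nd (nat_lit 78) (nat_lit 76) (nat_lit 0) (XT.lf (nat_lit 0) (nat_lit 30229621363) (nat_lit 76) (nat_lit 220766733857) (nat_lit 152) (nat_lit 21417348038) (nat_lit 17) (nat_lit 5) (nat_lit 18) (nat_lit 5) (nat_lit 19) (nat_lit 4) (nat_lit 294) (nat_lit 285) (nat_lit 201)) (XT.lf (nat_lit 0) (nat_lit 25771215286) (nat_lit 152) (nat_lit 107726876635) (nat_lit 76) (nat_lit 163747601731) (nat_lit 16) (nat_lit 5) (nat_lit 18) (nat_lit 5) (nat_lit 17) (nat_lit 5) (nat_lit 295) (nat_lit 285) (nat_lit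 200))))))))
noncomputable def xc94 : XT := (XT.nd (nat_lit 1482) (nat_lit 228) (nat_lit 0) (XT.nd (nat_lit 702) (nat_lit 380) (nat_lit 0) (XT.nd (nat_lit 312) (nat_lit 304) (nat_lit 0) (XT.nd (nat_lit 156) (nat_lit 76) (nat_lit 0) (XT.nd (nat_lit 78) (nat_lit 0) (nat_lit 0) (XT.lf (nat_lit 0) (nat_lit 50362319232) (nat_lit 152) (nat_lit 29568194185) (nat_lit 228) (nat_lit 245406211865) (nat_lit 14) (nat_lit 5) (nat_lit 16) (nat_lit 5) (nat_lit 17) (nat_lit 5) (nat_lit 296) (nat_lit 285) (nat_lit 199)) (XT.lf (nat_lit 0) (nat_lit 151837516208) (nat_lit 228) (nat_lit 116517977210) (nat_lit 76) (nat_lit 87842347229) (nat_lit 14) (nat_lit 5) (nat_lit 17) (nat_lit 5) (nat_lit 15) (nat_lit 4) (nat_lit 297) (nat_lit 285) (nat_lit 198))) (XT.nd (nat_lit 78) (nat_lit 0) (nat_lit 0) (XT.lf (nat_lit 0) (nat_lit 70582348108) (nat_lit 76) (nat_lit 168278716029) (nat_lit 152) (nat_lit 152177485388)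 (nat_lit 13) (nat_lit 5) (nat_lit 14) (nat_lit 5) (nat_lit 15) (nat_lit 4) (nat_lit 298) (nat_lit 285) (nat_lit 197)) (XT.lf (nat_lit 0) (nat_lit 298842479727) (nat_lit 76) (nat_lit 46186209928) (nat_lit 152) (nat_lit 85163093637) (nat_lit 13) (nat_lit 5) (nat_lit 14) (nat_lit 5) (nat_lit 15) (nat_lit 4) (nat_lit 299) (nat_lit 285) (nat_lit 196)))) (XT.nd (nat_lit 156) (nat_lit 152) (nat_lit 0) (XT.nd (nat_lit 78) (nat_lit 0) (nat_lit 0) (XT.lf (nat_lit 0) (nat_lit 626679991) (nat_lit 152) (nat_lit 383843448402) (nat_lit 76) (nat_lit 89597801165) (nat_lit 11) (nat_lit 5) (nat_lit 13) (nat_lit 5) (nat_lit 12) (nat_lit 4) (nat_lit 300) (nat_lit 285) (nat_lit 195)) (XT.lf (nat_lit 0) (nat_lit 99957975688) (nat_lit 152) (nat_lit 170281335741) (nat_lit 76) (nat_lit 252269058563) (nat_lit 11) (nat_lit 5) (nat_lit 13) (nat_lit 5) (nat_lit 12) (nat_lit 4) (nat_lit 301) (nat_lit 285) (nat_lit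 194))) (XT.nd (nat_lit 78) (nat_lit 76) (nat_lit 0) (XT.lf (nat_lit 0) (nat_lit 82675184697) (nat_lit 76) (nat_lit 134937056548) (nat_lit 152) (nat_lit 360089144129) (nat_lit 10) (nat_lit 5) (nat_lit 11) (nat_lit 5) (nat_lit 12) (nat_lit 4) (nat_lit 302) (nat_lit 285) (nat_lit 193)) (XT.nd (nat_lit 78) (nat_lit 76) (nat_lit 0) (XT.lf (nat_lit 0) (nat_lit 363094961860) (nat_lit 152) (nat_lit 248405308206) (nat_lit 0) (nat_lit 28146035894) (nat_lit 10) (nat_lit 5) (nat_lit 12) (nat_lit 4) (nat_lit 10) (nat_lit 4) (nat_lit 303) (nat_lit 285) (nat_lit 192)) (XT.lf (nat_lit 0) (nat_lit 31595822910) (nat_lit 76) (nat_lit 506538049749) (nat_lit 76) (nat_lit 171589024820) (nat_lit 9) (nat_lit 4) (nat_lit 10) (nat_lit 5) (nat_lit 10) (nat_lit 4) (nat_lit 304) (nat_lit 285) (nat_lit 191)))))) (XT.nd (nat_lit 390) (nat_lit 228) (nat_lit 0) (XT.nd (nat_lit 156) (nat_lit 76) (nat_lit 0) (XT.nd (nat_lit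 78) (nat_lit 76) (nat_lit 0) (XT.lf (nat_lit 0) (nat_lit 381514302324) (nat_lit 76) (nat_lit 370899039155) (nat_lit 76) (nat_lit 35949928171) (nat_lit 9) (nat_lit 4) (nat_lit 10) (nat_lit 5) (nat_lit 10) (nat_lit 4) (nat_lit 305) (nat_lit 285) (nat_lit 190)) (XT.lf (nat_lit 0) (nat_lit 109348591685) (nat_lit 152) (nat_lit 99849713691) (nat_lit 76) (nat_lit 668855847056) (nat_lit 8) (nat_lit 5) (nat_lit 10) (nat_lit 5) (nat_lit 9) (nat_lit 4) (nat_lit 306) (nat_lit 285) (nat_lit 189))) (XT.nd (nat_lit 78) (nat_lit 0) (nat_lit 0) (XT.lf (nat_lit 0) (nat_lit 276064549755) (nat_lit 76) (nat_lit 8127915658) (nat_lit 152) (nat_lit 695034742537) (nat_lit 7) (nat_lit 5) (nat_lit 8) (nat_lit 5) (nat_lit 9) (nat_lit 4) (nat_lit 307) (nat_lit 285) (nat_lit 188)) (XT.nd (nat_lit 78) (nat_lit 0) (nat_lit 0) (XT.lf (nat_lit 0) (nat_lit 499969022626) (nat_lit 152) (nat_lit 384692528622) (nat_lit 0)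 (nat_lit 208708755264) (nat_lit 7) (nat_lit 5) (nat_lit 9) (nat_lit 4) (nat_lit 7) (nat_lit 4) (nat_lit 308) (nat_lit 285) (nat_lit 187)) (XT.lf (nat_lit 0) (nat_lit 748499038420) (nat_lit 152) (nat_lit 18839056983) (nat_lit 0) (nat_lit 457238728273) (nat_lit 7) (nat_lit 5) (nat_lit 9) (nat_lit 4) (nat_lit 7) (nat_lit 4) (nat_lit 309) (nat_lit 285) (nat_lit 186))))) (XT.nd (nat_lit 156) (nat_lit 152) (nat_lit 0) (XT.nd (nat_lit 78) (nat_lit 0) (nat_lit 0) (XT.lf (nat_lit 0) (nat_lit 441168159353) (nat_lit 76) (nat_lit 611408170259) (nat_lit 76) (nat_lit 320147822908) (nat_lit 6) (nat_lit 4) (nat_lit 7) (nat_lit 5) (nat_lit 7) (nat_lit 4) (nat_lit 310) (nat_lit 285) (nat_lit 185)) (XT.lf (nat_lit 0) (nat_lit 972293600216) (nat_lit 76) (nat_lit 430956326683) (nat_lit 76) (nat_lit 139695946980) (nat_lit 6) (nat_lit 4) (nat_lit 7) (nat_lit 5) (nat_lit 7) (nat_lit 4) (nat_lit 311) (nat_lit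 285) (nat_lit 184))) (XT.nd (nat_lit 78) (nat_lit 76) (nat_lit 0) (XT.lf (nat_lit 0) (nat_lit 61785523147) (nat_lit 152) (nat_lit 158421533066) (nat_lit 76) (nat_lit 1518072539710) (nat_lit 5) (nat_lit 5) (nat_lit 7) (nat_lit 5) (nat_lit 6) (nat_lit 4) (nat_lit 312) (nat_lit 285) (nat_lit 183)) (XT.nd (nat_lit 78) (nat_lit 0) (nat_lit 0) (XT.lf (nat_lit 0) (nat_lit 295134991887) (nat_lit 152) (nat_lit 1622523308140) (nat_lit 0) (nat_lit 41865050760) (nat_lit 4) (nat_lit 5) (nat_lit 6) (nat_lit 4) (nat_lit 4) (nat_lit 4) (nat_lit 313) (nat_lit 285) (nat_lit 182)) (XT.lf (nat_lit 0) (nat_lit 582648351980) (nat_lit 152) (nat_lit 1299052703915) (nat_lit 0) (nat_lit 329378392356) (nat_lit 4) (nat_lit 5) (nat_lit 6) (nat_lit 4) (nat_lit 4) (nat_lit 4) (nat_lit 314) (nat_lit 285) (nat_lit 181))))))) (XT.nd (nat_lit 780) (nat_lit 152) (nat_lit 0) (XT.nd (nat_lit 390) (nat_lit 0) (nat_lit 0) (XT.nd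 (nat_lit 156) (nat_lit 76) (nat_lit 0) (XT.nd (nat_lit 78) (nat_lit 0) (nat_lit 0) (XT.lf (nat_lit 0) (nat_lit 913288677688) (nat_lit 152) (nat_lit 927061586454) (nat_lit 0) (nat_lit 660018701980) (nat_lit 4) (nat_lit 5) (nat_lit 6) (nat_lit 4) (nat_lit 4) (nat_lit 4) (nat_lit 315) (nat_lit 285) (nat_lit 180)) (XT.lf (nat_lit 0) (nat_lit 1293525018862) (nat_lit 152) (nat_lit 499271868676) (nat_lit 0) (nat_lit 1040255029167) (nat_lit 4) (nat_lit 5) (nat_lit 6) (nat_lit 4) (nat_lit 4) (nat_lit 4) (nat_lit 316) (nat_lit 285) (nat_lit 179))) (XT.nd (nat_lit 78) (nat_lit 76) (nat_lit 0) (XT.lf (nat_lit 0) (nat_lit 1730796782176) (nat_lit 152) (nat_lit 7313751754) (nat_lit 0) (nat_lit 1477526780319) (nat_lit 4) (nat_lit 5) (nat_lit 6) (nat_lit 4) (nat_lit 4) (nat_lit 4) (nat_lit 317) (nat_lit 285) (nat_lit 178)) (XT.nd (nat_lit 78) (nat_lit 0) (nat_lit 0) (XT.lf (nat_lit 0) (nat_lit 613012657653)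 (nat_lit 76) (nat_lit 1646030173986) (nat_lit 76) (nat_lit 1392760161554) (nat_lit 3) (nat_lit 4) (nat_lit 4) (nat_lit 5) (nat_lit 4) (nat_lit 4) (nat_lit 318) (nat_lit 285) (nat_lit 177)) (XT.lf (nat_lit 0) (nat_lit 1327209945859) (nat_lit 76) (nat_lit 1539698128448) (nat_lit 76) (nat_lit 1286428106819) (nat_lit 3) (nat_lit 4) (nat_lit 4) (nat_lit 5) (nat_lit 4) (nat_lit 4) (nat_lit 319) (nat_lit 285) (nat_lit 176))))) (XT.nd (nat_lit 156) (nat_lit 0) (nat_lit 0) (XT.nd (nat_lit 78) (nat_lit 0) (nat_lit 0) (XT.lf (nat_lit 0) (nat_lit 2148536785056) (nat_lit 76) (nat_lit 1417416297479) (nat_lit 76) (nat_lit 1164146267854) (nat_lit 3) (nat_lit 4) (nat_lit 4) (nat_lit 5) (nat_lit 4) (nat_lit 4) (nat_lit 320) (nat_lit 285) (nat_lit 175)) (XT.lf (nat_lit 0) (nat_lit 3093062613401) (nat_lit 76) (nat_lit 1276792210474) (nat_lit 76) (nat_lit 1023522173895) (nat_lit 3) (nat_lit 4) (nat_lit 4)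 (nat_lit 5) (nat_lit 4) (nat_lit 4) (nat_lit 321) (nat_lit 285) (nat_lit 174))) (XT.nd (nat_lit 78) (nat_lit 0) (nat_lit 0) (XT.lf (nat_lit 0) (nat_lit 4179267284058) (nat_lit 76) (nat_lit 1115074526599) (nat_lit 76) (nat_lit 861804483973) (nat_lit 3) (nat_lit 4) (nat_lit 4) (nat_lit 5) (nat_lit 4) (nat_lit 4) (nat_lit 322) (nat_lit 285) (nat_lit 173)) (XT.nd (nat_lit 78) (nat_lit 0) (nat_lit 0) (XT.lf (nat_lit 0) (nat_lit 5428402627540) (nat_lit 76) (nat_lit 929099204214) (nat_lit 76) (nat_lit 675829156330) (nat_lit 3) (nat_lit 4) (nat_lit 4) (nat_lit 5) (nat_lit 4) (nat_lit 4) (nat_lit 323) (nat_lit 285) (nat_lit 172)) (XT.lf (nat_lit 0) (nat_lit 6864908248394) (nat_lit 76) (nat_lit 715227595707) (nat_lit 76) (nat_lit 461957543251) (nat_lit 3) (nat_lit 4) (nat_lit 4) (nat_lit 5) (nat_lit 4) (nat_lit 4) (nat_lit 324) (nat_lit 285) (nat_lit 171)))))) (XT.nd (nat_lit 390) (nat_lit 0) (nat_lit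 0) (XT.nd (nat_lit 156) (nat_lit 76) (nat_lit 0) (XT.nd (nat_lit 78) (nat_lit 76) (nat_lit 0) (XT.lf (nat_lit 0) (nat_lit 8516889691374) (nat_lit 76) (nat_lit 469275256564) (nat_lit 76) (nat_lit 216005200132) (nat_lit 3) (nat_lit 4) (nat_lit 4) (nat_lit 5) (nat_lit 4) (nat_lit 4) (nat_lit 325) (nat_lit 285) (nat_lit 170)) (XT.lf (nat_lit 0) (nat_lit 60889426498) (nat_lit 152) (nat_lit 122357792917) (nat_lit 76) (nat_lit 10352596049656) (nat_lit 2) (nat_lit 5) (nat_lit 4) (nat_lit 5) (nat_lit 3) (nat_lit 4) (nat_lit 326) (nat_lit 285) (nat_lit 169))) (XT.nd (nat_lit 78) (nat_lit 0) (nat_lit 0) (XT.lf (nat_lit 0) (nat_lit 388236081532) (nat_lit 152) (nat_lit 11507132240298) (nat_lit 0) (nat_lit 168001244232) (nat_lit 1) (nat_lit 5) (nat_lit 3) (nat_lit 4) (nat_lit 1) (nat_lit 4) (nat_lit 327) (nat_lit 285) (nat_lit 168)) (XT.nd (nat_lit 78) (nat_lit 0) (nat_lit 0) (XT.lf (nat_lit 0) (nat_lit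 780111330555) (nat_lit 152) (nat_lit 12477722996709) (nat_lit 0) (nat_lit 559876490982) (nat_lit 1) (nat_lit 5) (nat_lit 3) (nat_lit 4) (nat_lit 1) (nat_lit 4) (nat_lit 328) (nat_lit 285) (nat_lit 167)) (XT.lf (nat_lit 0) (nat_lit 1230767859856) (nat_lit 152) (nat_lit 13593902381161) (nat_lit 0) (nat_lit 1010533018306) (nat_lit 1) (nat_lit 5) (nat_lit 3) (nat_lit 4) (nat_lit 1) (nat_lit 4) (nat_lit 329) (nat_lit 285) (nat_lit 166))))) (XT.nd (nat_lit 156) (nat_lit 0) (nat_lit 0) (XT.nd (nat_lit 78) (nat_lit 0) (nat_lit 0) (XT.lf (nat_lit 0) (nat_lit 1749022862398) (nat_lit 152) (nat_lit 14877508685957) (nat_lit 0) (nat_lit 1528788019130) (nat_lit 1) (nat_lit 5) (nat_lit 3) (nat_lit 4) (nat_lit 1) (nat_lit 4) (nat_lit 330) (nat_lit 285) (nat_lit 165)) (XT.lf (nat_lit 0) (nat_lit 2345016109973) (nat_lit 152) (nat_lit 16353655947496) (nat_lit 0) (nat_lit 2124781265209) (nat_lit 1) (nat_lit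 5) (nat_lit 3) (nat_lit 4) (nat_lit 1) (nat_lit 4) (nat_lit 331) (nat_lit 285) (nat_lit 164))) (XT.nd (nat_lit 78) (nat_lit 0) (nat_lit 0) (XT.lf (nat_lit 0) (nat_lit 3030408340030) (nat_lit 152) (nat_lit 18051225307851) (nat_lit 0) (nat_lit 2810173493967) (nat_lit 1) (nat_lit 5) (nat_lit 3) (nat_lit 4) (nat_lit 1) (nat_lit 4) (nat_lit 332) (nat_lit 285) (nat_lit 163)) (XT.nd (nat_lit 78) (nat_lit 0) (nat_lit 0) (XT.lf (nat_lit 0) (nat_lit 3818609400551) (nat_lit 152) (nat_lit 20003430080595) (nat_lit 0) (nat_lit 3598374553358) (nat_lit 1) (nat_lit 5) (nat_lit 3) (nat_lit 4) (nat_lit 1) (nat_lit 4) (nat_lit 333) (nat_lit 285) (nat_lit 162)) (XT.lf (nat_lit 0) (nat_lit 4725040616632) (nat_lit 152) (nat_lit 22248465576498) (nat_lit 0) (nat_lit 4504805768456) (nat_lit 1) (nat_lit 5) (nat_lit 3) (nat_lit 4) (nat_lit 1) (nat_lit 4) (nat_lit 334) (nat_lit 285) (nat_lit 161))))))))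
noncomputable def xc95 : XT := (XT.nd (nat_lit 38064) (nat_lit 0) (nat_lit 152) (XT.nd (nat_lit 37284) (nat_lit 0) (nat_lit 760) (XT.nd (nat_lit 36894) (nat_lit 0) (nat_lit 1444) (XT.nd (nat_lit 156) (nat_lit 0) (nat_lit 0) (XT.nd (nat_lit 78) (nat_lit 0) (nat_lit 0) (XT.lf (nat_lit 0) (nat_lit 5767436512067) (nat_lit 152) (nat_lit 24830256403090) (nat_lit 0) (nat_lit 5547201663036) (nat_lit 1) (nat_lit 5) (nat_lit 3) (nat_lit 4) (nat_lit 1) (nat_lit 4) (nat_lit 335) (nat_lit 285) (nat_lit 160)) (XT.lf (nat_lit 0) (nat_lit 6966191789156) (nat_lit 152) (nat_lit 27799315859151) (nat_lit 0) (nat_lit 6745956939383) (nat_lit 1) (nat_lit 5) (nat_lit 3) (nat_lit 4) (nat_lit 1) (nat_lit 4) (nat_lit 336) (nat_lit 285) (nat_lit 159))) (XT.nd (nat_lit 78) (nat_lit 0) (nat_lit 0) (XT.lf (nat_lit 0) (nat_lit 8344760355496) (nat_lit 152) (nat_lit 31213734238386) (nat_lit 0) (nat_lit 8124525505076)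 (nat_lit 1) (nat_lit 5) (nat_lit 3) (nat_lit 4) (nat_lit 1) (nat_lit 4) (nat_lit 337) (nat_lit 285) (nat_lit 158)) (XT.nd (nat_lit 36582) (nat_lit 0) (nat_lit 1596) (XT.lf (nat_lit 0) (nat_lit 9930114204776) (nat_lit 152) (nat_lit 35140315378651) (nat_lit 0) (nat_lit 9709879353794) (nat_lit 1) (nat_lit 5) (nat_lit 3) (nat_lit 4) (nat_lit 1) (nat_lit 4) (nat_lit 338) (nat_lit 285) (nat_lit 157)) (XT.lf (nat_lit 0) (nat_lit 12457724954) (nat_lit 380) (nat_lit 32299233809) (nat_lit 380) (nat_lit 32299233809) (nat_lit 22) (nat_lit 3) (nat_lit 27) (nat_lit 3) (nat_lit 27) (nat_lit 5) (nat_lit 286) (nat_lit 286) (nat_lit 208))))) (XT.nd (nat_lit 156) (nat_lit 152) (nat_lit 0) (XT.nd (nat_lit 78) (nat_lit 0) (nat_lit 76) (XT.lf (nat_lit 76) (nat_lit 8128117099) (nat_lit 0) (nat_lit 18995060591) (nat_lit 380) (nat_lit 138496766474) (nat_lit 23) (nat_lit 5) (nat_lit 22) (nat_lit 3) (nat_lit 27)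 (nat_lit 5) (nat_lit 287) (nat_lit 286) (nat_lit 207)) (XT.lf (nat_lit 0) (nat_lit 35770645874) (nat_lit 304) (nat_lit 82056102331) (nat_lit 380) (nat_lit 60110603337) (nat_lit 23) (nat_lit 5) (nat_lit 27) (nat_lit 5) (nat_lit 28) (nat_lit 5) (nat_lit 288) (nat_lit 286) (nat_lit 206))) (XT.nd (nat_lit 78) (nat_lit 228) (nat_lit 0) (XT.lf (nat_lit 76) (nat_lit 4160542029) (nat_lit 0) (nat_lit 42631107035) (nat_lit 380) (nat_lit 145149260220) (nat_lit 24) (nat_lit 5) (nat_lit 23) (nat_lit 5) (nat_lit 28) (nat_lit 5) (nat_lit 289) (nat_lit 286) (nat_lit 205)) (XT.nd (nat_lit 78) (nat_lit 304) (nat_lit 0) (XT.lf (nat_lit 0) (nat_lit 65774482584) (nat_lit 304) (nat_lit 96890024823) (nat_lit 76) (nat_lit 44434192583) (nat_lit 24) (nat_lit 5) (nat_lit 28) (nat_lit 5) (nat_lit 25) (nat_lit 5) (nat_lit 290) (nat_lit 286) (nat_lit 204)) (XT.lf (nat_lit 0) (nat_lit 6151123281) (nat_lit 304) (nat_lit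 83738070946) (nat_lit 380) (nat_lit 134298298223) (nat_lit 20) (nat_lit 5) (nat_lit 24) (nat_lit 5) (nat_lit 25) (nat_lit 5) (nat_lit 291) (nat_lit 286) (nat_lit 203)))))) (XT.nd (nat_lit 390) (nat_lit 380) (nat_lit 0) (XT.nd (nat_lit 156) (nat_lit 152) (nat_lit 0) (XT.nd (nat_lit 78) (nat_lit 152) (nat_lit 0) (XT.lf (nat_lit 0) (nat_lit 123217704002) (nat_lit 380) (nat_lit 108074836278) (nat_lit 76) (nat_lit 11707575761) (nat_lit 20) (nat_lit 5) (nat_lit 25) (nat_lit 5) (nat_lit 21) (nat_lit 5) (nat_lit 292) (nat_lit 286) (nat_lit 202)) (XT.lf (nat_lit 0) (nat_lit 15799706031) (nat_lit 152) (nat_lit 150387302041) (nat_lit 228) (nat_lit 97751398266) (nat_lit 18) (nat_lit 5) (nat_lit 20) (nat_lit 5) (nat_lit 21) (nat_lit 5) (nat_lit 293) (nat_lit 286) (nat_lit 201))) (XT.nd (nat_lit 78) (nat_lit 152) (nat_lit 0) (XT.lf (nat_lit 0) (nat_lit 170401288414) (nat_lit 152) (nat_lit 50849564229)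 (nat_lit 228) (nat_lit 65919216535) (nat_lit 18) (nat_lit 5) (nat_lit 20) (nat_lit 5) (nat_lit 21) (nat_lit 5) (nat_lit 294) (nat_lit 286) (nat_lit 200)) (XT.nd (nat_lit 78) (nat_lit 76) (nat_lit 0) (XT.lf (nat_lit 0) (nat_lit 34767257997) (nat_lit 76) (nat_lit 253880779447) (nat_lit 152) (nat_lit 24627380105) (nat_lit 17) (nat_lit 5) (nat_lit 18) (nat_lit 5) (nat_lit 19) (nat_lit 4) (nat_lit 295) (nat_lit 286) (nat_lit 199)) (XT.lf (nat_lit 0) (nat_lit 29638933516) (nat_lit 152) (nat_lit 123882927083) (nat_lit 76) (nat_lit 188310376526) (nat_lit 16) (nat_lit 5) (nat_lit 18) (nat_lit 5) (nat_lit 17) (nat_lit 5) (nat_lit 296) (nat_lit 286) (nat_lit 198))))) (XT.nd (nat_lit 156) (nat_lit 228) (nat_lit 0) (XT.nd (nat_lit 78) (nat_lit 0) (nat_lit 0) (XT.lf (nat_lit 0) (nat_lit 57919512662) (nat_lit 152) (nat_lit 34002465975) (nat_lit 228) (nat_lit 282214967698) (nat_lit 14) (nat_lit 5) (nat_lit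 16) (nat_lit 5) (nat_lit 17) (nat_lit 5) (nat_lit 297) (nat_lit 286) (nat_lit 197)) (XT.lf (nat_lit 0) (nat_lit 174614820030) (nat_lit 228) (nat_lit 133992983667) (nat_lit 76) (nat_lit 101019457668) (nat_lit 14) (nat_lit 5) (nat_lit 17) (nat_lit 5) (nat_lit 15) (nat_lit 4) (nat_lit 298) (nat_lit 286) (nat_lit 196))) (XT.nd (nat_lit 78) (nat_lit 152) (nat_lit 0) (XT.lf (nat_lit 0) (nat_lit 81172268170) (nat_lit 76) (nat_lit 193519519648) (nat_lit 152) (nat_lit 175002306119) (nat_lit 13) (nat_lit 5) (nat_lit 14) (nat_lit 5) (nat_lit 15) (nat_lit 4) (nat_lit 299) (nat_lit 286) (nat_lit 195)) (XT.nd (nat_lit 78) (nat_lit 152) (nat_lit 0) (XT.lf (nat_lit 0) (nat_lit 343671084596) (nat_lit 76) (nat_lit 53113268560) (nat_lit 152) (nat_lit 97935990659) (nat_lit 13) (nat_lit 5) (nat_lit 14) (nat_lit 5) (nat_lit 15) (nat_lit 4) (nat_lit 300) (nat_lit 286) (nat_lit 194)) (XT.lf (nat_lit 0) (nat_lit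 722055767) (nat_lit 152) (nat_lit 441417534688) (nat_lit 76) (nat_lit 103038320228) (nat_lit 11) (nat_lit 5) (nat_lit 13) (nat_lit 5) (nat_lit 12) (nat_lit 4) (nat_lit 301) (nat_lit 286) (nat_lit 193))))))) (XT.nd (nat_lit 780) (nat_lit 228) (nat_lit 0) (XT.nd (nat_lit 390) (nat_lit 228) (nat_lit 0) (XT.nd (nat_lit 156) (nat_lit 76) (nat_lit 0) (XT.nd (nat_lit 78) (nat_lit 76) (nat_lit 0) (XT.lf (nat_lit 0) (nat_lit 114952866630) (nat_lit 152) (nat_lit 195821422212) (nat_lit 76) (nat_lit 290110155512) (nat_lit 11) (nat_lit 5) (nat_lit 13) (nat_lit 5) (nat_lit 12) (nat_lit 4) (nat_lit 302) (nat_lit 286) (nat_lit 192)) (XT.lf (nat_lit 0) (nat_lit 95078480206) (nat_lit 76) (nat_lit 155176719552) (nat_lit 152) (nat_lit 414101223378) (nat_lit 10) (nat_lit 5) (nat_lit 11) (nat_lit 5) (nat_lit 12) (nat_lit 4) (nat_lit 303) (nat_lit 286) (nat_lit 191))) (XT.nd (nat_lit 78) (nat_lit 76) (nat_lit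 0) (XT.lf (nat_lit 0) (nat_lit 417560214318) (nat_lit 152) (nat_lit 285664234204) (nat_lit 0) (nat_lit 32368650632) (nat_lit 10) (nat_lit 5) (nat_lit 12) (nat_lit 4) (nat_lit 10) (nat_lit 4) (nat_lit 304) (nat_lit 286) (nat_lit 190)) (XT.nd (nat_lit 78) (nat_lit 0) (nat_lit 0) (XT.lf (nat_lit 0) (nat_lit 36336981569) (nat_lit 76) (nat_lit 582517922588) (nat_lit 76) (nat_lit 197326284071) (nat_lit 9) (nat_lit 4) (nat_lit 10) (nat_lit 5) (nat_lit 10) (nat_lit 4) (nat_lit 305) (nat_lit 286) (nat_lit 189)) (XT.lf (nat_lit 0) (nat_lit 438743000040) (nat_lit 76) (nat_lit 426533169270) (nat_lit 76) (nat_lit 41341465683) (nat_lit 9) (nat_lit 4) (nat_lit 10) (nat_lit 5) (nat_lit 10) (nat_lit 4) (nat_lit 306) (nat_lit 286) (nat_lit 188))))) (XT.nd (nat_lit 156) (nat_lit 76) (nat_lit 0) (XT.nd (nat_lit 78) (nat_lit 76) (nat_lit 0) (XT.lf (nat_lit 0) (nat_lit 125751634339) (nat_lit 152) (nat_lit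 114825746340) (nat_lit 76) (nat_lit 769184780690) (nat_lit 8) (nat_lit 5) (nat_lit 10) (nat_lit 5) (nat_lit 9) (nat_lit 4) (nat_lit 307) (nat_lit 286) (nat_lit 187)) (XT.lf (nat_lit 0) (nat_lit 317475591877) (nat_lit 76) (nat_lit 9346455215) (nat_lit 152) (nat_lit 799289134539) (nat_lit 7) (nat_lit 5) (nat_lit 8) (nat_lit 5) (nat_lit 9) (nat_lit 4) (nat_lit 308) (nat_lit 286) (nat_lit 186))) (XT.nd (nat_lit 78) (nat_lit 76) (nat_lit 0) (XT.lf (nat_lit 0) (nat_lit 574965018360) (nat_lit 152) (nat_lit 442395155439) (nat_lit 0) (nat_lit 240015581702) (nat_lit 7) (nat_lit 5) (nat_lit 9) (nat_lit 4) (nat_lit 7) (nat_lit 4) (nat_lit 309) (nat_lit 286) (nat_lit 185)) (XT.nd (nat_lit 78) (nat_lit 76) (nat_lit 0) (XT.lf (nat_lit 0) (nat_lit 860774452739) (nat_lit 152) (nat_lit 21663826421) (nat_lit 0) (nat_lit 525824983731) (nat_lit 7) (nat_lit 5) (nat_lit 9) (nat_lit 4) (nat_lit 7) (nat_lit 4)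 (nat_lit 310) (nat_lit 286) (nat_lit 184)) (XT.lf (nat_lit 0) (nat_lit 507344422861) (nat_lit 76) (nat_lit 703118884942) (nat_lit 76) (nat_lit 368169387802) (nat_lit 6) (nat_lit 4) (nat_lit 7) (nat_lit 5) (nat_lit 7) (nat_lit 4) (nat_lit 311) (nat_lit 286) (nat_lit 183)))))) (XT.nd (nat_lit 390) (nat_lit 76) (nat_lit 0) (XT.nd (nat_lit 156) (nat_lit 76) (nat_lit 0) (XT.nd (nat_lit 78) (nat_lit 76) (nat_lit 0) (XT.lf (nat_lit 0) (nat_lit 1118138544253) (nat_lit 76) (nat_lit 495599331463) (nat_lit 76) (nat_lit 160649809860) (nat_lit 6) (nat_lit 4) (nat_lit 7) (nat_lit 5) (nat_lit 7) (nat_lit 4) (nat_lit 312) (nat_lit 286) (nat_lit 182)) (XT.lf (nat_lit 0) (nat_lit 71053770800) (nat_lit 152) (nat_lit 182183935653) (nat_lit 76) (nat_lit 1745783765665) (nat_lit 5) (nat_lit 5) (nat_lit 7) (nat_lit 5) (nat_lit 6) (nat_lit 4) (nat_lit 313) (nat_lit 286) (nat_lit 181))) (XT.nd (nat_lit 78) (nat_lit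 0) (nat_lit 0) (XT.lf (nat_lit 0) (nat_lit 339405654132) (nat_lit 152) (nat_lit 1865900970994) (nat_lit 0) (nat_lit 48145165983) (nat_lit 4) (nat_lit 5) (nat_lit 6) (nat_lit 4) (nat_lit 4) (nat_lit 4) (nat_lit 314) (nat_lit 286) (nat_lit 180)) (XT.nd (nat_lit 78) (nat_lit 0) (nat_lit 0) (XT.lf (nat_lit 0) (nat_lit 670045964309) (nat_lit 152) (nat_lit 1493909884836) (nat_lit 0) (nat_lit 378785462174) (nat_lit 4) (nat_lit 5) (nat_lit 6) (nat_lit 4) (nat_lit 4) (nat_lit 4) (nat_lit 315) (nat_lit 286) (nat_lit 179)) (XT.lf (nat_lit 0) (nat_lit 1050282291978) (nat_lit 152) (nat_lit 1066120194278) (nat_lit 0) (nat_lit 759021777681) (nat_lit 4) (nat_lit 5) (nat_lit 6) (nat_lit 4) (nat_lit 4) (nat_lit 4) (nat_lit 316) (nat_lit 286) (nat_lit 178))))) (XT.nd (nat_lit 156) (nat_lit 76) (nat_lit 0) (XT.nd (nat_lit 78) (nat_lit 0) (nat_lit 0) (XT.lf (nat_lit 0) (nat_lit 1487554043549) (nat_lit 152)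 (nat_lit 574162101025) (nat_lit 0) (nat_lit 1196293518676) (nat_lit 4) (nat_lit 5) (nat_lit 6) (nat_lit 4) (nat_lit 4) (nat_lit 4) (nat_lit 317) (nat_lit 286) (nat_lit 177)) (XT.lf (nat_lit 0) (nat_lit 1990416535901) (nat_lit 152) (nat_lit 8410338037) (nat_lit 0) (nat_lit 1699156001832) (nat_lit 4) (nat_lit 5) (nat_lit 6) (nat_lit 4) (nat_lit 4) (nat_lit 4) (nat_lit 318) (nat_lit 286) (nat_lit 176))) (XT.nd (nat_lit 78) (nat_lit 0) (nat_lit 0) (XT.lf (nat_lit 0) (nat_lit 704965011123) (nat_lit 76) (nat_lit 1892934469659) (nat_lit 76) (nat_lit 1601673927594) (nat_lit 3) (nat_lit 4) (nat_lit 4) (nat_lit 5) (nat_lit 4) (nat_lit 4) (nat_lit 319) (nat_lit 286) (nat_lit 175)) (XT.nd (nat_lit 78) (nat_lit 0) (nat_lit 0) (XT.lf (nat_lit 0) (nat_lit 1526291833235) (nat_lit 76) (nat_lit 1770652647346) (nat_lit 76) (nat_lit 1479392098326) (nat_lit 3) (nat_lit 4) (nat_lit 4) (nat_lit 5) (nat_lit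 4) (nat_lit 4) (nat_lit 320) (nat_lit 286) (nat_lit 174)) (XT.lf (nat_lit 0) (nat_lit 2470817646725) (nat_lit 76) (nat_lit 1630028567867) (nat_lit 76) (nat_lit 1338768012801) (nat_lit 3) (nat_lit 4) (nat_lit 4) (nat_lit 5) (nat_lit 4) (nat_lit 4) (nat_lit 321) (nat_lit 286) (nat_lit 173))))))))
noncomputable def xc96 : XT := (XT.nd (nat_lit 38064) (nat_lit 0) (nat_lit 532) (XT.nd (nat_lit 702) (nat_lit 0) (nat_lit 0) (XT.nd (nat_lit 312) (nat_lit 152) (nat_lit 0) (XT.nd (nat_lit 156) (nat_lit 0) (nat_lit 0) (XT.nd (nat_lit 78) (nat_lit 0) (nat_lit 0) (XT.lf (nat_lit 0) (nat_lit 3557022304464) (nat_lit 76) (nat_lit 1468310890537) (nat_lit 76) (nat_lit 1177050330213) (nat_lit 3) (nat_lit 4) (nat_lit 4) (nat_lit 5) (nat_lit 4) (nat_lit 4) (nat_lit 322) (nat_lit 286) (nat_lit 172)) (XT.lf (nat_lit 0) (nat_lit 4806157636713) (nat_lit 76) (nat_lit 1282335573843) (nat_lit 76) (nat_lit 991075008946)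 (nat_lit 3) (nat_lit 4) (nat_lit 4) (nat_lit 5) (nat_lit 4) (nat_lit 4) (nat_lit 323) (nat_lit 286) (nat_lit 171))) (XT.nd (nat_lit 78) (nat_lit 0) (nat_lit 0) (XT.lf (nat_lit 0) (nat_lit 6242663247798) (nat_lit 76) (nat_lit 1068463970284) (nat_lit 76) (nat_lit 777203401412) (nat_lit 3) (nat_lit 4) (nat_lit 4) (nat_lit 5) (nat_lit 4) (nat_lit 4) (nat_lit 324) (nat_lit 286) (nat_lit 170)) (XT.lf (nat_lit 0) (nat_lit 7894644682285) (nat_lit 76) (nat_lit 822511635444) (nat_lit 76) (nat_lit 531251063115) (nat_lit 3) (nat_lit 4) (nat_lit 4) (nat_lit 5) (nat_lit 4) (nat_lit 4) (nat_lit 325) (nat_lit 286) (nat_lit 169)))) (XT.nd (nat_lit 156) (nat_lit 76) (nat_lit 0) (XT.nd (nat_lit 78) (nat_lit 76) (nat_lit 0) (XT.lf (nat_lit 0) (nat_lit 9794423316064) (nat_lit 76) (nat_lit 539666458423) (nat_lit 76) (nat_lit 248405883087) (nat_lit 3) (nat_lit 4) (nat_lit 4) (nat_lit 5) (nat_lit 4) (nat_lit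 4) (nat_lit 326) (nat_lit 286) (nat_lit 168)) (XT.lf (nat_lit 0) (nat_lit 70022917362) (nat_lit 152) (nat_lit 140711305619) (nat_lit 76) (nat_lit 11905485524878) (nat_lit 2) (nat_lit 5) (nat_lit 4) (nat_lit 5) (nat_lit 3) (nat_lit 4) (nat_lit 327) (nat_lit 286) (nat_lit 167))) (XT.nd (nat_lit 78) (nat_lit 0) (nat_lit 0) (XT.lf (nat_lit 0) (nat_lit 446471569949) (nat_lit 152) (nat_lit 13233201919371) (nat_lit 0) (nat_lit 193201500190) (nat_lit 1) (nat_lit 5) (nat_lit 3) (nat_lit 4) (nat_lit 1) (nat_lit 4) (nat_lit 328) (nat_lit 286) (nat_lit 166)) (XT.nd (nat_lit 78) (nat_lit 0) (nat_lit 0) (XT.lf (nat_lit 0) (nat_lit 897128096388) (nat_lit 152) (nat_lit 14349381309719) (nat_lit 0) (nat_lit 643858024910) (nat_lit 1) (nat_lit 5) (nat_lit 3) (nat_lit 4) (nat_lit 1) (nat_lit 4) (nat_lit 329) (nat_lit 286) (nat_lit 165)) (XT.lf (nat_lit 0) (nat_lit 1415383096442) (nat_lit 152) (nat_lit 15632987619642)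 (nat_lit 0) (nat_lit 1162113023470) (nat_lit 1) (nat_lit 5) (nat_lit 3) (nat_lit 4) (nat_lit 1) (nat_lit 4) (nat_lit 330) (nat_lit 286) (nat_lit 164)))))) (XT.nd (nat_lit 390) (nat_lit 0) (nat_lit 0) (XT.nd (nat_lit 156) (nat_lit 0) (nat_lit 0) (XT.nd (nat_lit 78) (nat_lit 0) (nat_lit 0) (XT.lf (nat_lit 0) (nat_lit 2011376341852) (nat_lit 152) (nat_lit 17109134885639) (nat_lit 0) (nat_lit 1758106267580) (nat_lit 1) (nat_lit 5) (nat_lit 3) (nat_lit 4) (nat_lit 1) (nat_lit 4) (nat_lit 331) (nat_lit 286) (nat_lit 163)) (XT.lf (nat_lit 0) (nat_lit 2696768570029) (nat_lit 152) (nat_lit 18806704249871) (nat_lit 0) (nat_lit 2443498494626) (nat_lit 1) (nat_lit 5) (nat_lit 3) (nat_lit 4) (nat_lit 1) (nat_lit 4) (nat_lit 332) (nat_lit 286) (nat_lit 162))) (XT.nd (nat_lit 78) (nat_lit 0) (nat_lit 0) (XT.lf (nat_lit 0) (nat_lit 3484969628913) (nat_lit 152) (nat_lit 20758909025986) (nat_lit 0) (nat_lit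 3231699552528) (nat_lit 1) (nat_lit 5) (nat_lit 3) (nat_lit 4) (nat_lit 1) (nat_lit 4) (nat_lit 333) (nat_lit 286) (nat_lit 161)) (XT.nd (nat_lit 78) (nat_lit 0) (nat_lit 0) (XT.lf (nat_lit 0) (nat_lit 4391400843572) (nat_lit 152) (nat_lit 23003944524821) (nat_lit 0) (nat_lit 4138130766332) (nat_lit 1) (nat_lit 5) (nat_lit 3) (nat_lit 4) (nat_lit 1) (nat_lit 4) (nat_lit 334) (nat_lit 286) (nat_lit 160)) (XT.lf (nat_lit 0) (nat_lit 5433796737769) (nat_lit 152) (nat_lit 25585735353962) (nat_lit 0) (nat_lit 5180526659786) (nat_lit 1) (nat_lit 5) (nat_lit 3) (nat_lit 4) (nat_lit 1) (nat_lit 4) (nat_lit 335) (nat_lit 286) (nat_lit 159))))) (XT.nd (nat_lit 156) (nat_lit 0) (nat_lit 0) (XT.nd (nat_lit 78) (nat_lit 0) (nat_lit 0) (XT.lf (nat_lit 0) (nat_lit 6632552013783) (nat_lit 152) (nat_lit 28554794812239) (nat_lit 0) (nat_lit 6379281935154) (nat_lit 1) (nat_lit 5) (nat_lit 3) (nat_lit 4)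 (nat_lit 1) (nat_lit 4) (nat_lit 336) (nat_lit 286) (nat_lit 158)) (XT.lf (nat_lit 0) (nat_lit 8011120579187) (nat_lit 152) (nat_lit 31969213193402) (nat_lit 0) (nat_lit 7757850499996) (nat_lit 1) (nat_lit 5) (nat_lit 3) (nat_lit 4) (nat_lit 1) (nat_lit 4) (nat_lit 337) (nat_lit 286) (nat_lit 157))) (XT.nd (nat_lit 36660) (nat_lit 0) (nat_lit 1596) (XT.lf (nat_lit 0) (nat_lit 9596474427653) (nat_lit 152) (nat_lit 35895794335343) (nat_lit 0) (nat_lit 9343204347973) (nat_lit 1) (nat_lit 5) (nat_lit 3) (nat_lit 4) (nat_lit 1) (nat_lit 4) (nat_lit 338) (nat_lit 286) (nat_lit 156)) (XT.nd (nat_lit 78) (nat_lit 0) (nat_lit 0) (XT.lf (nat_lit 0) (nat_lit 14328781177) (nat_lit 380) (nat_lit 37142735770) (nat_lit 380) (nat_lit 37142735770) (nat_lit 22) (nat_lit 3) (nat_lit 27) (nat_lit 3) (nat_lit 27) (nat_lit 5) (nat_lit 287) (nat_lit 287) (nat_lit 206)) (XT.lf (nat_lit 76) (nat_lit 9349975148)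 (nat_lit 0) (nat_lit 21845958063) (nat_lit 380) (nat_lit 159266344888) (nat_lit 23) (nat_lit 5) (nat_lit 22) (nat_lit 3) (nat_lit 27) (nat_lit 5) (nat_lit 288) (nat_lit 287) (nat_lit 205))))))) (XT.nd (nat_lit 780) (nat_lit 456) (nat_lit 0) (XT.nd (nat_lit 390) (nat_lit 456) (nat_lit 0) (XT.nd (nat_lit 156) (nat_lit 228) (nat_lit 0) (XT.nd (nat_lit 78) (nat_lit 0) (nat_lit 0) (XT.lf (nat_lit 0) (nat_lit 41139904517) (nat_lit 304) (nat_lit 94361590711) (nat_lit 380) (nat_lit 69125895992) (nat_lit 23) (nat_lit 5) (nat_lit 27) (nat_lit 5) (nat_lit 28) (nat_lit 5) (nat_lit 289) (nat_lit 287) (nat_lit 204)) (XT.lf (nat_lit 76) (nat_lit 4787417259) (nat_lit 0) (nat_lit 49026278995) (nat_lit 380) (nat_lit 166917842456) (nat_lit 24) (nat_lit 5) (nat_lit 23) (nat_lit 5) (nat_lit 28) (nat_lit 5) (nat_lit 290) (nat_lit 287) (nat_lit 203))) (XT.nd (nat_lit 78) (nat_lit 304) (nat_lit 0) (XT.lf (nat_lit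 0) (nat_lit 75643506174) (nat_lit 304) (nat_lit 111420639989) (nat_lit 76) (nat_lit 51098920717) (nat_lit 24) (nat_lit 5) (nat_lit 28) (nat_lit 5) (nat_lit 25) (nat_lit 5) (nat_lit 291) (nat_lit 287) (nat_lit 202)) (XT.nd (nat_lit 78) (nat_lit 0) (nat_lit 0) (XT.lf (nat_lit 0) (nat_lit 7076549032) (nat_lit 304) (nat_lit 96298617807) (nat_lit 380) (nat_lit 154440051389) (nat_lit 20) (nat_lit 5) (nat_lit 24) (nat_lit 5) (nat_lit 25) (nat_lit 5) (nat_lit 292) (nat_lit 287) (nat_lit 201)) (XT.lf (nat_lit 0) (nat_lit 141702620699) (nat_lit 380) (nat_lit 124283323835) (nat_lit 76) (nat_lit 13463841864) (nat_lit 20) (nat_lit 5) (nat_lit 25) (nat_lit 5) (nat_lit 21) (nat_lit 5) (nat_lit 293) (nat_lit 287) (nat_lit 200))))) (XT.nd (nat_lit 156) (nat_lit 304) (nat_lit 0) (XT.nd (nat_lit 78) (nat_lit 0) (nat_lit 0) (XT.lf (nat_lit 0) (nat_lit 18172275371) (nat_lit 152) (nat_lit 172944858299) (nat_lit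 228) (nat_lit 112411715604) (nat_lit 18) (nat_lit 5) (nat_lit 20) (nat_lit 5) (nat_lit 21) (nat_lit 5) (nat_lit 294) (nat_lit 287) (nat_lit 199)) (XT.lf (nat_lit 0) (nat_lit 195963754229) (nat_lit 152) (nat_lit 58476530126) (nat_lit 228) (nat_lit 75805018666) (nat_lit 18) (nat_lit 5) (nat_lit 20) (nat_lit 5) (nat_lit 21) (nat_lit 5) (nat_lit 295) (nat_lit 287) (nat_lit 198))) (XT.nd (nat_lit 78) (nat_lit 228) (nat_lit 0) (XT.lf (nat_lit 0) (nat_lit 39984761389) (nat_lit 76) (nat_lit 291962167072) (nat_lit 152) (nat_lit 28319543727) (nat_lit 17) (nat_lit 5) (nat_lit 18) (nat_lit 5) (nat_lit 19) (nat_lit 4) (nat_lit 296) (nat_lit 287) (nat_lit 197)) (XT.nd (nat_lit 78) (nat_lit 152) (nat_lit 0) (XT.lf (nat_lit 0) (nat_lit 34086313004) (nat_lit 152) (nat_lit 142463112046) (nat_lit 76) (nat_lit 216557412805) (nat_lit 16) (nat_lit 5) (nat_lit 18) (nat_lit 5) (nat_lit 17) (nat_lit 5) (nat_lit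 297) (nat_lit 287) (nat_lit 196)) (XT.lf (nat_lit 0) (nat_lit 66609591201) (nat_lit 152) (nat_lit 39102111988) (nat_lit 228) (nat_lit 324545567524) (nat_lit 14) (nat_lit 5) (nat_lit 16) (nat_lit 5) (nat_lit 17) (nat_lit 5) (nat_lit 298) (nat_lit 287) (nat_lit 195)))))) (XT.nd (nat_lit 390) (nat_lit 228) (nat_lit 0) (XT.nd (nat_lit 156) (nat_lit 152) (nat_lit 0) (XT.nd (nat_lit 78) (nat_lit 76) (nat_lit 0) (XT.lf (nat_lit 0) (nat_lit 200808310626) (nat_lit 228) (nat_lit 154089897097) (nat_lit 76) (nat_lit 116172949744) (nat_lit 14) (nat_lit 5) (nat_lit 17) (nat_lit 5) (nat_lit 15) (nat_lit 4) (nat_lit 299) (nat_lit 287) (nat_lit 194)) (XT.lf (nat_lit 0) (nat_lit 93350050056) (nat_lit 76) (nat_lit 222546688589) (nat_lit 152) (nat_lit 201251289408) (nat_lit 13) (nat_lit 5) (nat_lit 14) (nat_lit 5) (nat_lit 15) (nat_lit 4) (nat_lit 300) (nat_lit 287) (nat_lit 193))) (XT.nd (nat_lit 78) (nat_lit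 152) (nat_lit 0) (XT.lf (nat_lit 0) (nat_lit 395223435685) (nat_lit 76) (nat_lit 61079598839) (nat_lit 152) (nat_lit 112625204362) (nat_lit 13) (nat_lit 5) (nat_lit 14) (nat_lit 5) (nat_lit 15) (nat_lit 4) (nat_lit 301) (nat_lit 287) (nat_lit 192)) (XT.nd (nat_lit 78) (nat_lit 0) (nat_lit 0) (XT.lf (nat_lit 0) (nat_lit 831402906) (nat_lit 152) (nat_lit 507628326726) (nat_lit 76) (nat_lit 118494710144) (nat_lit 11) (nat_lit 5) (nat_lit 13) (nat_lit 5) (nat_lit 12) (nat_lit 4) (nat_lit 302) (nat_lit 287) (nat_lit 191)) (XT.lf (nat_lit 0) (nat_lit 132196699906) (nat_lit 152) (nat_lit 225193037139) (nat_lit 76) (nat_lit 333627236996) (nat_lit 11) (nat_lit 5) (nat_lit 13) (nat_lit 5) (nat_lit 12) (nat_lit 4) (nat_lit 303) (nat_lit 287) (nat_lit 190))))) (XT.nd (nat_lit 156) (nat_lit 152) (nat_lit 0) (XT.nd (nat_lit 78) (nat_lit 0) (nat_lit 0) (XT.lf (nat_lit 0) (nat_lit 109341777988) (nat_lit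 76) (nat_lit 178452550375) (nat_lit 152) (nat_lit 476215429667) (nat_lit 10) (nat_lit 5) (nat_lit 11) (nat_lit 5) (nat_lit 12) (nat_lit 4) (nat_lit 304) (nat_lit 287) (nat_lit 189)) (XT.lf (nat_lit 0) (nat_lit 480195008795) (nat_lit 152) (nat_lit 328512455169) (nat_lit 0) (nat_lit 37224484600) (nat_lit 10) (nat_lit 5) (nat_lit 12) (nat_lit 4) (nat_lit 10) (nat_lit 4) (nat_lit 305) (nat_lit 287) (nat_lit 188))) (XT.nd (nat_lit 78) (nat_lit 76) (nat_lit 0) (XT.lf (nat_lit 0) (nat_lit 41788878690) (nat_lit 76) (nat_lit 669894979882) (nat_lit 76) (nat_lit 226924399104) (nat_lit 9) (nat_lit 4) (nat_lit 10) (nat_lit 5) (nat_lit 10) (nat_lit 4) (nat_lit 306) (nat_lit 287) (nat_lit 187)) (XT.nd (nat_lit 78) (nat_lit 76) (nat_lit 0) (XT.lf (nat_lit 0) (nat_lit 504555623860) (nat_lit 76) (nat_lit 490512595882) (nat_lit 76) (nat_lit 47541965902) (nat_lit 9) (nat_lit 4) (nat_lit 10) (nat_lit 5) (nat_lit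 10) (nat_lit 4) (nat_lit 307) (nat_lit 287) (nat_lit 186)) (XT.lf (nat_lit 0) (nat_lit 144614949547) (nat_lit 152) (nat_lit 132048531236) (nat_lit 76) (nat_lit 884562918644) (nat_lit 8) (nat_lit 5) (nat_lit 10) (nat_lit 5) (nat_lit 9) (nat_lit 4) (nat_lit 308) (nat_lit 287) (nat_lit 185))))))))
noncomputable def xc97 : XT := (XT.nd (nat_lit 1482) (nat_lit 152) (nat_lit 0) (XT.nd (nat_lit 702) (nat_lit 76) (nat_lit 0) (XT.nd (nat_lit 312) (nat_lit 152) (nat_lit 0) (XT.nd (nat_lit 156) (nat_lit 76) (nat_lit 0) (XT.nd (nat_lit 78) (nat_lit 0) (nat_lit 0) (XT.lf (nat_lit 0) (nat_lit 365097958756) (nat_lit 76) (nat_lit 10747933673) (nat_lit 152) (nat_lit 919181885151) (nat_lit 7) (nat_lit 5) (nat_lit 8) (nat_lit 5) (nat_lit 9) (nat_lit 4) (nat_lit 309) (nat_lit 287) (nat_lit 184)) (XT.lf (nat_lit 0) (nat_lit 661210256815) (nat_lit 152) (nat_lit 508753481703) (nat_lit 0) (nat_lit 276018306972)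 (nat_lit 7) (nat_lit 5) (nat_lit 9) (nat_lit 4) (nat_lit 7) (nat_lit 4) (nat_lit 310) (nat_lit 287) (nat_lit 183))) (XT.nd (nat_lit 78) (nat_lit 76) (nat_lit 0) (XT.lf (nat_lit 0) (nat_lit 989891042999) (nat_lit 152) (nat_lit 24912576861) (nat_lit 0) (nat_lit 604699068694) (nat_lit 7) (nat_lit 5) (nat_lit 9) (nat_lit 4) (nat_lit 7) (nat_lit 4) (nat_lit 311) (nat_lit 287) (nat_lit 182)) (XT.lf (nat_lit 0) (nat_lit 583446872381) (nat_lit 76) (nat_lit 808586331403) (nat_lit 76) (nat_lit 423394335826) (nat_lit 6) (nat_lit 4) (nat_lit 7) (nat_lit 5) (nat_lit 7) (nat_lit 4) (nat_lit 312) (nat_lit 287) (nat_lit 181)))) (XT.nd (nat_lit 156) (nat_lit 76) (nat_lit 0) (XT.nd (nat_lit 78) (nat_lit 76) (nat_lit 0) (XT.lf (nat_lit 0) (nat_lit 1285860009448) (nat_lit 76) (nat_lit 569938895286) (nat_lit 76) (nat_lit 184746881212) (nat_lit 6) (nat_lit 4) (nat_lit 7) (nat_lit 5) (nat_lit 7) (nat_lit 4)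 (nat_lit 313) (nat_lit 287) (nat_lit 180)) (XT.lf (nat_lit 0) (nat_lit 81712153380) (nat_lit 152) (nat_lit 209510900389) (nat_lit 76) (nat_lit 2007651591383) (nat_lit 5) (nat_lit 5) (nat_lit 7) (nat_lit 5) (nat_lit 6) (nat_lit 4) (nat_lit 314) (nat_lit 287) (nat_lit 179))) (XT.nd (nat_lit 78) (nat_lit 0) (nat_lit 0) (XT.lf (nat_lit 0) (nat_lit 390316814889) (nat_lit 152) (nat_lit 2145785486499) (nat_lit 0) (nat_lit 55367211285) (nat_lit 4) (nat_lit 5) (nat_lit 6) (nat_lit 4) (nat_lit 4) (nat_lit 4) (nat_lit 315) (nat_lit 287) (nat_lit 178)) (XT.nd (nat_lit 78) (nat_lit 0) (nat_lit 0) (XT.lf (nat_lit 0) (nat_lit 770553130814) (nat_lit 152) (nat_lit 1717995819610) (nat_lit 0) (nat_lit 435603516635) (nat_lit 4) (nat_lit 5) (nat_lit 6) (nat_lit 4) (nat_lit 4) (nat_lit 4) (nat_lit 316) (nat_lit 287) (nat_lit 177)) (XT.lf (nat_lit 0) (nat_lit 1207824872173) (nat_lit 152) (nat_lit 1226037746940)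 (nat_lit 0) (nat_lit 872875248798) (nat_lit 4) (nat_lit 5) (nat_lit 6) (nat_lit 4) (nat_lit 4) (nat_lit 4) (nat_lit 317) (nat_lit 287) (nat_lit 176)))))) (XT.nd (nat_lit 390) (nat_lit 0) (nat_lit 0) (XT.nd (nat_lit 156) (nat_lit 76) (nat_lit 0) (XT.nd (nat_lit 78) (nat_lit 0) (nat_lit 0) (XT.lf (nat_lit 0) (nat_lit 1710687355645) (nat_lit 152) (nat_lit 660286001849) (nat_lit 0) (nat_lit 1375737724273) (nat_lit 4) (nat_lit 5) (nat_lit 6) (nat_lit 4) (nat_lit 4) (nat_lit 4) (nat_lit 318) (nat_lit 287) (nat_lit 175)) (XT.lf (nat_lit 0) (nat_lit 2288979195037) (nat_lit 152) (nat_lit 9671528455) (nat_lit 0) (nat_lit 1954029556711) (nat_lit 4) (nat_lit 5) (nat_lit 6) (nat_lit 4) (nat_lit 4) (nat_lit 4) (nat_lit 319) (nat_lit 287) (nat_lit 174))) (XT.nd (nat_lit 78) (nat_lit 0) (nat_lit 0) (XT.lf (nat_lit 0) (nat_lit 810710106702) (nat_lit 76) (nat_lit 2176874465874) (nat_lit 76) (nat_lit 1841924821501)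 (nat_lit 3) (nat_lit 4) (nat_lit 4) (nat_lit 5) (nat_lit 4) (nat_lit 4) (nat_lit 320) (nat_lit 287) (nat_lit 173)) (XT.nd (nat_lit 78) (nat_lit 0) (nat_lit 0) (XT.lf (nat_lit 0) (nat_lit 1755235907273) (nat_lit 76) (nat_lit 2036250392940) (nat_lit 76) (nat_lit 1701300743309) (nat_lit 3) (nat_lit 4) (nat_lit 4) (nat_lit 5) (nat_lit 4) (nat_lit 4) (nat_lit 321) (nat_lit 287) (nat_lit 172)) (XT.lf (nat_lit 0) (nat_lit 2841440553779) (nat_lit 76) (nat_lit 1874532721301) (nat_lit 76) (nat_lit 1539583067098) (nat_lit 3) (nat_lit 4) (nat_lit 4) (nat_lit 5) (nat_lit 4) (nat_lit 4) (nat_lit 322) (nat_lit 287) (nat_lit 171))))) (XT.nd (nat_lit 156) (nat_lit 0) (nat_lit 0) (XT.nd (nat_lit 78) (nat_lit 0) (nat_lit 0) (XT.lf (nat_lit 0) (nat_lit 4090575876261) (nat_lit 76) (nat_lit 1688557409555) (nat_lit 76) (nat_lit 1353607751377) (nat_lit 3) (nat_lit 4) (nat_lit 4) (nat_lit 5) (nat_lit 4) (nat_lit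 4) (nat_lit 323) (nat_lit 287) (nat_lit 170)) (XT.lf (nat_lit 0) (nat_lit 5527081478852) (nat_lit 76) (nat_lit 1474685810300) (nat_lit 76) (nat_lit 1139736148664) (nat_lit 3) (nat_lit 4) (nat_lit 4) (nat_lit 5) (nat_lit 4) (nat_lit 4) (nat_lit 324) (nat_lit 287) (nat_lit 169))) (XT.nd (nat_lit 78) (nat_lit 0) (nat_lit 0) (XT.lf (nat_lit 0) (nat_lit 7179062905953) (nat_lit 76) (nat_lit 1228733479202) (nat_lit 76) (nat_lit 893783814560) (nat_lit 3) (nat_lit 4) (nat_lit 4) (nat_lit 5) (nat_lit 4) (nat_lit 4) (nat_lit 325) (nat_lit 287) (nat_lit 168)) (XT.nd (nat_lit 78) (nat_lit 0) (nat_lit 0) (XT.lf (nat_lit 0) (nat_lit 9078841533310) (nat_lit 76) (nat_lit 945888305434) (nat_lit 76) (nat_lit 610938638178) (nat_lit 3) (nat_lit 4) (nat_lit 4) (nat_lit 5) (nat_lit 4) (nat_lit 4) (nat_lit 326) (nat_lit 287) (nat_lit 167)) (XT.lf (nat_lit 0) (nat_lit 11263586942763) (nat_lit 76) (nat_lit 620616361685)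 (nat_lit 76) (nat_lit 285666692156) (nat_lit 3) (nat_lit 4) (nat_lit 4) (nat_lit 5) (nat_lit 4) (nat_lit 4) (nat_lit 327) (nat_lit 287) (nat_lit 166))))))) (XT.nd (nat_lit 780) (nat_lit 0) (nat_lit 0) (XT.nd (nat_lit 390) (nat_lit 0) (nat_lit 0) (XT.nd (nat_lit 156) (nat_lit 0) (nat_lit 0) (XT.nd (nat_lit 78) (nat_lit 76) (nat_lit 0) (XT.lf (nat_lit 0) (nat_lit 80526413106) (nat_lit 152) (nat_lit 161817883326) (nat_lit 76) (nat_lit 13691308404856) (nat_lit 2) (nat_lit 5) (nat_lit 4) (nat_lit 5) (nat_lit 3) (nat_lit 4) (nat_lit 328) (nat_lit 287) (nat_lit 165)) (XT.lf (nat_lit 0) (nat_lit 513442363050) (nat_lit 152) (nat_lit 15218182088583) (nat_lit 0) (nat_lit 222181777637) (nat_lit 1) (nat_lit 5) (nat_lit 3) (nat_lit 4) (nat_lit 1) (nat_lit 4) (nat_lit 329) (nat_lit 287) (nat_lit 164))) (XT.nd (nat_lit 78) (nat_lit 0) (nat_lit 0) (XT.lf (nat_lit 0) (nat_lit 1031697360940) (nat_lit 152)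 (nat_lit 16501788402965) (nat_lit 0) (nat_lit 740436774228) (nat_lit 1) (nat_lit 5) (nat_lit 3) (nat_lit 4) (nat_lit 1) (nat_lit 4) (nat_lit 330) (nat_lit 287) (nat_lit 163)) (XT.nd (nat_lit 78) (nat_lit 0) (nat_lit 0) (XT.lf (nat_lit 0) (nat_lit 1627690604469) (nat_lit 152) (nat_lit 17977935672839) (nat_lit 0) (nat_lit 1336430016626) (nat_lit 1) (nat_lit 5) (nat_lit 3) (nat_lit 4) (nat_lit 1) (nat_lit 4) (nat_lit 331) (nat_lit 287) (nat_lit 162)) (XT.lf (nat_lit 0) (nat_lit 2313082831009) (nat_lit 152) (nat_lit 19675505040442) (nat_lit 0) (nat_lit 2021822242183) (nat_lit 1) (nat_lit 5) (nat_lit 3) (nat_lit 4) (nat_lit 1) (nat_lit 4) (nat_lit 332) (nat_lit 287) (nat_lit 161))))) (XT.nd (nat_lit 156) (nat_lit 0) (nat_lit 0) (XT.nd (nat_lit 78) (nat_lit 0) (nat_lit 0) (XT.lf (nat_lit 0) (nat_lit 3101283888471) (nat_lit 152) (nat_lit 21627709819489) (nat_lit 0) (nat_lit 2810023298791) (nat_lit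 1) (nat_lit 5) (nat_lit 3) (nat_lit 4) (nat_lit 1) (nat_lit 4) (nat_lit 333) (nat_lit 287) (nat_lit 160)) (XT.lf (nat_lit 0) (nat_lit 4007715101892) (nat_lit 152) (nat_lit 23872745320873) (nat_lit 0) (nat_lit 3716454511469) (nat_lit 1) (nat_lit 5) (nat_lit 3) (nat_lit 4) (nat_lit 1) (nat_lit 4) (nat_lit 334) (nat_lit 287) (nat_lit 159))) (XT.nd (nat_lit 78) (nat_lit 0) (nat_lit 0) (XT.lf (nat_lit 0) (nat_lit 5050110995013) (nat_lit 152) (nat_lit 26454536152230) (nat_lit 0) (nat_lit 4758850403944) (nat_lit 1) (nat_lit 5) (nat_lit 3) (nat_lit 4) (nat_lit 1) (nat_lit 4) (nat_lit 335) (nat_lit 287) (nat_lit 158)) (XT.nd (nat_lit 78) (nat_lit 0) (nat_lit 0) (XT.lf (nat_lit 0) (nat_lit 6248866270091) (nat_lit 152) (nat_lit 29423595612435) (nat_lit 0) (nat_lit 5957605678460) (nat_lit 1) (nat_lit 5) (nat_lit 3) (nat_lit 4) (nat_lit 1) (nat_lit 4) (nat_lit 336) (nat_lit 287) (nat_lit 157)) (XT.lf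 (nat_lit 0) (nat_lit 7627434834682) (nat_lit 152) (nat_lit 32838013995274) (nat_lit 0) (nat_lit 7336174242562) (nat_lit 1) (nat_lit 5) (nat_lit 3) (nat_lit 4) (nat_lit 1) (nat_lit 4) (nat_lit 337) (nat_lit 287) (nat_lit 156)))))) (XT.nd (nat_lit 36972) (nat_lit 0) (nat_lit 1292) (XT.nd (nat_lit 36738) (nat_lit 0) (nat_lit 1596) (XT.nd (nat_lit 78) (nat_lit 0) (nat_lit 0) (XT.lf (nat_lit 0) (nat_lit 9212788682441) (nat_lit 152) (nat_lit 36764595138672) (nat_lit 0) (nat_lit 8921528089896) (nat_lit 1) (nat_lit 5) (nat_lit 3) (nat_lit 4) (nat_lit 1) (nat_lit 4) (nat_lit 338) (nat_lit 287) (nat_lit 155)) (XT.lf (nat_lit 0) (nat_lit 11035945606041) (nat_lit 152) (nat_lit 41280163456306) (nat_lit 0) (nat_lit 10744685013127) (nat_lit 1) (nat_lit 5) (nat_lit 3) (nat_lit 4) (nat_lit 1) (nat_lit 4) (nat_lit 339) (nat_lit 287) (nat_lit 154))) (XT.nd (nat_lit 78) (nat_lit 0) (nat_lit 0) (XT.lf (nat_lit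 0) (nat_lit 16479911194) (nat_lit 380) (nat_lit 42713100305) (nat_lit 380) (nat_lit 42713100305) (nat_lit 22) (nat_lit 3) (nat_lit 27) (nat_lit 3) (nat_lit 27) (nat_lit 5) (nat_lit 288) (nat_lit 288) (nat_lit 204)) (XT.nd (nat_lit 78) (nat_lit 0) (nat_lit 76) (XT.lf (nat_lit 76) (nat_lit 10754468006) (nat_lit 0) (nat_lit 25124090626) (nat_lit 380) (nat_lit 183152563875) (nat_lit 23) (nat_lit 5) (nat_lit 22) (nat_lit 3) (nat_lit 27) (nat_lit 5) (nat_lit 289) (nat_lit 288) (nat_lit 203)) (XT.lf (nat_lit 0) (nat_lit 47313659012) (nat_lit 304) (nat_lit 108513616107) (nat_lit 380) (nat_lit 79493799032) (nat_lit 23) (nat_lit 5) (nat_lit 27) (nat_lit 5) (nat_lit 28) (nat_lit 5) (nat_lit 290) (nat_lit 288) (nat_lit 202))))) (XT.nd (nat_lit 156) (nat_lit 380) (nat_lit 0) (XT.nd (nat_lit 78) (nat_lit 0) (nat_lit 76) (XT.lf (nat_lit 76) (nat_lit 5507642457) (nat_lit 0) (nat_lit 56380603381) (nat_lit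 380) (nat_lit 191952640338) (nat_lit 24) (nat_lit 5) (nat_lit 23) (nat_lit 5) (nat_lit 28) (nat_lit 5) (nat_lit 291) (nat_lit 288) (nat_lit 201)) (XT.lf (nat_lit 0) (nat_lit 86992188018) (nat_lit 304) (nat_lit 128131551822) (nat_lit 76) (nat_lit 58763455798) (nat_lit 24) (nat_lit 5) (nat_lit 28) (nat_lit 5) (nat_lit 25) (nat_lit 5) (nat_lit 292) (nat_lit 288) (nat_lit 200))) (XT.nd (nat_lit 78) (nat_lit 152) (nat_lit 0) (XT.lf (nat_lit 0) (nat_lit 8140116271) (nat_lit 304) (nat_lit 110743286637) (nat_lit 380) (nat_lit 177603797042) (nat_lit 20) (nat_lit 5) (nat_lit 24) (nat_lit 5) (nat_lit 25) (nat_lit 5) (nat_lit 293) (nat_lit 288) (nat_lit 199)) (XT.nd (nat_lit 78) (nat_lit 152) (nat_lit 0) (XT.lf (nat_lit 0) (nat_lit 162959723517) (nat_lit 380) (nat_lit 142923752177) (nat_lit 76) (nat_lit 15483516245) (nat_lit 20) (nat_lit 5) (nat_lit 25) (nat_lit 5) (nat_lit 21) (nat_lit 5) (nat_lit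 294) (nat_lit 288) (nat_lit 198)) (XT.lf (nat_lit 0) (nat_lit 20900092809) (nat_lit 152) (nat_lit 198886179446) (nat_lit 228) (nat_lit 129271663945) (nat_lit 18) (nat_lit 5) (nat_lit 20) (nat_lit 5) (nat_lit 21) (nat_lit 5) (nat_lit 295) (nat_lit 288) (nat_lit 197))))))))
noncomputable def xc98 : XT := (XT.nd (nat_lit 1482) (nat_lit 380) (nat_lit 0) (XT.nd (nat_lit 702) (nat_lit 380) (nat_lit 0) (XT.nd (nat_lit 312) (nat_lit 228) (nat_lit 0) (XT.nd (nat_lit 156) (nat_lit 228) (nat_lit 0) (XT.nd (nat_lit 78) (nat_lit 76) (nat_lit 0) (XT.lf (nat_lit 0) (nat_lit 225360035739) (nat_lit 152) (nat_lit 67247655212) (nat_lit 228) (nat_lit 87174198423) (nat_lit 18) (nat_lit 5) (nat_lit 20) (nat_lit 5) (nat_lit 21) (nat_lit 5) (nat_lit 296) (nat_lit 288) (nat_lit 196)) (XT.lf (nat_lit 0) (nat_lit 45984301451) (nat_lit 76) (nat_lit 335755940683) (nat_lit 152) (nat_lit 32566005801) (nat_lit 17) (nat_lit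 5) (nat_lit 18) (nat_lit 5) (nat_lit 19) (nat_lit 4) (nat_lit 297) (nat_lit 288) (nat_lit 195))) (XT.nd (nat_lit 78) (nat_lit 152) (nat_lit 0) (XT.lf (nat_lit 0) (nat_lit 39200424008) (nat_lit 152) (nat_lit 163830874430) (nat_lit 76) (nat_lit 249041387523) (nat_lit 16) (nat_lit 5) (nat_lit 18) (nat_lit 5) (nat_lit 17) (nat_lit 5) (nat_lit 298) (nat_lit 288) (nat_lit 194)) (XT.lf (nat_lit 0) (nat_lit 76602656831) (nat_lit 152) (nat_lit 44966881425) (nat_lit 228) (nat_lit 373226158548) (nat_lit 14) (nat_lit 5) (nat_lit 16) (nat_lit 5) (nat_lit 17) (nat_lit 5) (nat_lit 299) (nat_lit 288) (nat_lit 193)))) (XT.nd (nat_lit 156) (nat_lit 152) (nat_lit 0) (XT.nd (nat_lit 78) (nat_lit 76) (nat_lit 0) (XT.lf (nat_lit 0) (nat_lit 230930515702) (nat_lit 228) (nat_lit 177201843574) (nat_lit 76) (nat_lit 133599325797) (nat_lit 14) (nat_lit 5) (nat_lit 17) (nat_lit 5) (nat_lit 15) (nat_lit 4) (nat_lit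 300) (nat_lit 288) (nat_lit 192)) (XT.lf (nat_lit 0) (nat_lit 107354025739) (nat_lit 76) (nat_lit 255928117959) (nat_lit 152) (nat_lit 231437952475) (nat_lit 13) (nat_lit 5) (nat_lit 14) (nat_lit 5) (nat_lit 15) (nat_lit 4) (nat_lit 301) (nat_lit 288) (nat_lit 191))) (XT.nd (nat_lit 78) (nat_lit 152) (nat_lit 0) (XT.lf (nat_lit 0) (nat_lit 454508227711) (nat_lit 76) (nat_lit 70241039606) (nat_lit 152) (nat_lit 129518089065) (nat_lit 13) (nat_lit 5) (nat_lit 14) (nat_lit 5) (nat_lit 15) (nat_lit 4) (nat_lit 302) (nat_lit 288) (nat_lit 190)) (XT.nd (nat_lit 78) (nat_lit 0) (nat_lit 0) (XT.lf (nat_lit 0) (nat_lit 956898804) (nat_lit 152) (nat_lit 583771185817) (nat_lit 76) (nat_lit 136269402020) (nat_lit 11) (nat_lit 5) (nat_lit 13) (nat_lit 5) (nat_lit 12) (nat_lit 4) (nat_lit 303) (nat_lit 288) (nat_lit 189)) (XT.lf (nat_lit 0) (nat_lit 152026887903) (nat_lit 152) (nat_lit 258970784086)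 (nat_lit 76) (nat_lit 383671744593) (nat_lit 11) (nat_lit 5) (nat_lit 13) (nat_lit 5) (nat_lit 12) (nat_lit 4) (nat_lit 304) (nat_lit 288) (nat_lit 188)))))) (XT.nd (nat_lit 390) (nat_lit 152) (nat_lit 0) (XT.nd (nat_lit 156) (nat_lit 152) (nat_lit 0) (XT.nd (nat_lit 78) (nat_lit 0) (nat_lit 0) (XT.lf (nat_lit 0) (nat_lit 125744198372) (nat_lit 76) (nat_lit 205219920939) (nat_lit 152) (nat_lit 547647005200) (nat_lit 10) (nat_lit 5) (nat_lit 11) (nat_lit 5) (nat_lit 12) (nat_lit 4) (nat_lit 305) (nat_lit 288) (nat_lit 187)) (XT.lf (nat_lit 0) (nat_lit 552224836544) (nat_lit 152) (nat_lit 377788254132) (nat_lit 0) (nat_lit 42808562865) (nat_lit 10) (nat_lit 5) (nat_lit 12) (nat_lit 4) (nat_lit 10) (nat_lit 4) (nat_lit 306) (nat_lit 288) (nat_lit 186))) (XT.nd (nat_lit 78) (nat_lit 76) (nat_lit 0) (XT.lf (nat_lit 0) (nat_lit 48058231200) (nat_lit 76) (nat_lit 770378749666) (nat_lit 76) (nat_lit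 260962433202) (nat_lit 9) (nat_lit 4) (nat_lit 10) (nat_lit 5) (nat_lit 10) (nat_lit 4) (nat_lit 307) (nat_lit 288) (nat_lit 185)) (XT.nd (nat_lit 78) (nat_lit 76) (nat_lit 0) (XT.lf (nat_lit 0) (nat_lit 580239855010) (nat_lit 76) (nat_lit 564089070309) (nat_lit 76) (nat_lit 54672716642) (nat_lit 9) (nat_lit 4) (nat_lit 10) (nat_lit 5) (nat_lit 10) (nat_lit 4) (nat_lit 308) (nat_lit 288) (nat_lit 184)) (XT.lf (nat_lit 0) (nat_lit 166307623025) (nat_lit 152) (nat_lit 151854996514) (nat_lit 76) (nat_lit 1017247674665) (nat_lit 8) (nat_lit 5) (nat_lit 10) (nat_lit 5) (nat_lit 9) (nat_lit 4) (nat_lit 309) (nat_lit 288) (nat_lit 183))))) (XT.nd (nat_lit 156) (nat_lit 76) (nat_lit 0) (XT.nd (nat_lit 78) (nat_lit 0) (nat_lit 0) (XT.lf (nat_lit 0) (nat_lit 419863429959) (nat_lit 76) (nat_lit 12359753347) (nat_lit 152) (nat_lit 1057058699441) (nat_lit 7) (nat_lit 5) (nat_lit 8) (nat_lit 5) (nat_lit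 9) (nat_lit 4) (nat_lit 310) (nat_lit 288) (nat_lit 182)) (XT.lf (nat_lit 0) (nat_lit 760392162597) (nat_lit 152) (nat_lit 585065787851) (nat_lit 0) (nat_lit 317421346412) (nat_lit 7) (nat_lit 5) (nat_lit 9) (nat_lit 4) (nat_lit 7) (nat_lit 4) (nat_lit 311) (nat_lit 288) (nat_lit 181))) (XT.nd (nat_lit 78) (nat_lit 76) (nat_lit 0) (XT.lf (nat_lit 0) (nat_lit 1138375018805) (nat_lit 152) (nat_lit 28648840688) (nat_lit 0) (nat_lit 695404184124) (nat_lit 7) (nat_lit 5) (nat_lit 9) (nat_lit 4) (nat_lit 7) (nat_lit 4) (nat_lit 312) (nat_lit 288) (nat_lit 180)) (XT.nd (nat_lit 78) (nat_lit 0) (nat_lit 0) (XT.lf (nat_lit 0) (nat_lit 670964497636) (nat_lit 76) (nat_lit 929873989029) (nat_lit 76) (nat_lit 486903138264) (nat_lit 6) (nat_lit 4) (nat_lit 7) (nat_lit 5) (nat_lit 7) (nat_lit 4) (nat_lit 313) (nat_lit 288) (nat_lit 179)) (XT.lf (nat_lit 0) (nat_lit 1478739527733) (nat_lit 76) (nat_lit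 655429475593) (nat_lit 76) (nat_lit 212458610841) (nat_lit 6) (nat_lit 4) (nat_lit 7) (nat_lit 5) (nat_lit 7) (nat_lit 4) (nat_lit 314) (nat_lit 288) (nat_lit 178))))))) (XT.nd (nat_lit 780) (nat_lit 152) (nat_lit 0) (XT.nd (nat_lit 390) (nat_lit 76) (nat_lit 0) (XT.nd (nat_lit 156) (nat_lit 0) (nat_lit 0) (XT.nd (nat_lit 78) (nat_lit 76) (nat_lit 0) (XT.lf (nat_lit 0) (nat_lit 93969216055) (nat_lit 152) (nat_lit 240937062394) (nat_lit 76) (nat_lit 2308799527345) (nat_lit 5) (nat_lit 5) (nat_lit 7) (nat_lit 5) (nat_lit 6) (nat_lit 4) (nat_lit 315) (nat_lit 288) (nat_lit 177)) (XT.lf (nat_lit 0) (nat_lit 448864573520) (nat_lit 152) (nat_lit 2467652832994) (nat_lit 0) (nat_lit 63672497442) (nat_lit 4) (nat_lit 5) (nat_lit 6) (nat_lit 4) (nat_lit 4) (nat_lit 4) (nat_lit 316) (nat_lit 288) (nat_lit 176))) (XT.nd (nat_lit 78) (nat_lit 0) (nat_lit 0) (XT.lf (nat_lit 0) (nat_lit 886136306000)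 (nat_lit 152) (nat_lit 1975694778221) (nat_lit 0) (nat_lit 500944221925) (nat_lit 4) (nat_lit 5) (nat_lit 6) (nat_lit 4) (nat_lit 4) (nat_lit 4) (nat_lit 317) (nat_lit 288) (nat_lit 175)) (XT.nd (nat_lit 78) (nat_lit 0) (nat_lit 0) (XT.lf (nat_lit 0) (nat_lit 1388998781750) (nat_lit 152) (nat_lit 1409943048693) (nat_lit 0) (nat_lit 1003806690722) (nat_lit 4) (nat_lit 5) (nat_lit 6) (nat_lit 4) (nat_lit 4) (nat_lit 4) (nat_lit 318) (nat_lit 288) (nat_lit 174)) (XT.lf (nat_lit 0) (nat_lit 1967290614428) (nat_lit 152) (nat_lit 759328588833) (nat_lit 0) (nat_lit 1582098517352) (nat_lit 4) (nat_lit 5) (nat_lit 6) (nat_lit 4) (nat_lit 4) (nat_lit 4) (nat_lit 319) (nat_lit 288) (nat_lit 173))))) (XT.nd (nat_lit 156) (nat_lit 0) (nat_lit 0) (XT.nd (nat_lit 78) (nat_lit 76) (nat_lit 0) (XT.lf (nat_lit 0) (nat_lit 2632326209454) (nat_lit 152) (nat_lit 11121985294) (nat_lit 0) (nat_lit 2247134107121)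 (nat_lit 4) (nat_lit 5) (nat_lit 6) (nat_lit 4) (nat_lit 4) (nat_lit 4) (nat_lit 320) (nat_lit 288) (nat_lit 172)) (XT.lf (nat_lit 0) (nat_lit 932316882753) (nat_lit 76) (nat_lit 2503405504009) (nat_lit 76) (nat_lit 2118213397104) (nat_lit 3) (nat_lit 4) (nat_lit 4) (nat_lit 5) (nat_lit 4) (nat_lit 4) (nat_lit 321) (nat_lit 288) (nat_lit 171))) (XT.nd (nat_lit 78) (nat_lit 0) (nat_lit 0) (XT.lf (nat_lit 0) (nat_lit 2018521519491) (nat_lit 76) (nat_lit 2341687837319) (nat_lit 76) (nat_lit 1956495726438) (nat_lit 3) (nat_lit 4) (nat_lit 4) (nat_lit 5) (nat_lit 4) (nat_lit 4) (nat_lit 322) (nat_lit 288) (nat_lit 170)) (XT.nd (nat_lit 78) (nat_lit 0) (nat_lit 0) (XT.lf (nat_lit 0) (nat_lit 3267656833478) (nat_lit 76) (nat_lit 2155712529877) (nat_lit 76) (nat_lit 1770520415538) (nat_lit 3) (nat_lit 4) (nat_lit 4) (nat_lit 5) (nat_lit 4) (nat_lit 4) (nat_lit 323) (nat_lit 288) (nat_lit 169))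 (XT.lf (nat_lit 0) (nat_lit 4704162428684) (nat_lit 76) (nat_lit 1941840934364) (nat_lit 76) (nat_lit 1556648817019) (nat_lit 3) (nat_lit 4) (nat_lit 4) (nat_lit 5) (nat_lit 4) (nat_lit 4) (nat_lit 324) (nat_lit 288) (nat_lit 168)))))) (XT.nd (nat_lit 390) (nat_lit 76) (nat_lit 0) (XT.nd (nat_lit 156) (nat_lit 76) (nat_lit 0) (XT.nd (nat_lit 78) (nat_lit 0) (nat_lit 0) (XT.lf (nat_lit 0) (nat_lit 6356143849362) (nat_lit 76) (nat_lit 1695888606519) (nat_lit 76) (nat_lit 1310696486560) (nat_lit 3) (nat_lit 4) (nat_lit 4) (nat_lit 5) (nat_lit 4) (nat_lit 4) (nat_lit 325) (nat_lit 288) (nat_lit 167)) (XT.lf (nat_lit 0) (nat_lit 8255922471134) (nat_lit 76) (nat_lit 1413043435581) (nat_lit 76) (nat_lit 1027851313349) (nat_lit 3) (nat_lit 4) (nat_lit 4) (nat_lit 5) (nat_lit 4) (nat_lit 4) (nat_lit 326) (nat_lit 288) (nat_lit 166))) (XT.nd (nat_lit 78) (nat_lit 76) (nat_lit 0) (XT.lf (nat_lit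 0) (nat_lit 10440667875731) (nat_lit 76) (nat_lit 1087771494292) (nat_lit 76) (nat_lit 702579370084) (nat_lit 3) (nat_lit 4) (nat_lit 4) (nat_lit 5) (nat_lit 4) (nat_lit 4) (nat_lit 327) (nat_lit 288) (nat_lit 165)) (XT.nd (nat_lit 78) (nat_lit 76) (nat_lit 0) (XT.lf (nat_lit 0) (nat_lit 12953125081938) (nat_lit 76) (nat_lit 713708766410) (nat_lit 76) (nat_lit 328516640482) (nat_lit 3) (nat_lit 4) (nat_lit 4) (nat_lit 5) (nat_lit 4) (nat_lit 4) (nat_lit 328) (nat_lit 288) (nat_lit 164)) (XT.lf (nat_lit 0) (nat_lit 92605419034) (nat_lit 152) (nat_lit 186090476497) (nat_lit 76) (nat_lit 15745004704334) (nat_lit 2) (nat_lit 5) (nat_lit 4) (nat_lit 5) (nat_lit 3) (nat_lit 4) (nat_lit 329) (nat_lit 288) (nat_lit 163))))) (XT.nd (nat_lit 156) (nat_lit 0) (nat_lit 0) (XT.nd (nat_lit 78) (nat_lit 0) (nat_lit 0) (XT.lf (nat_lit 0) (nat_lit 590458761068) (nat_lit 152) (nat_lit 17500909312122) (nat_lit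 0) (nat_lit 255509083918) (nat_lit 1) (nat_lit 5) (nat_lit 3) (nat_lit 4) (nat_lit 1) (nat_lit 4) (nat_lit 330) (nat_lit 288) (nat_lit 162)) (XT.lf (nat_lit 0) (nat_lit 1186452002960) (nat_lit 152) (nat_lit 18977056585367) (nat_lit 0) (nat_lit 851502324828) (nat_lit 1) (nat_lit 5) (nat_lit 3) (nat_lit 4) (nat_lit 1) (nat_lit 4) (nat_lit 331) (nat_lit 288) (nat_lit 161))) (XT.nd (nat_lit 78) (nat_lit 0) (nat_lit 0) (XT.lf (nat_lit 0) (nat_lit 1871844228077) (nat_lit 152) (nat_lit 20674625955902) (nat_lit 0) (nat_lit 1536894549090) (nat_lit 1) (nat_lit 5) (nat_lit 3) (nat_lit 4) (nat_lit 1) (nat_lit 4) (nat_lit 332) (nat_lit 288) (nat_lit 160)) (XT.nd (nat_lit 78) (nat_lit 0) (nat_lit 0) (XT.lf (nat_lit 0) (nat_lit 2660045284302) (nat_lit 152) (nat_lit 22626830737497) (nat_lit 0) (nat_lit 2325095604572) (nat_lit 1) (nat_lit 5) (nat_lit 3) (nat_lit 4) (nat_lit 1) (nat_lit 4) (nat_lit 333)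 (nat_lit 288) (nat_lit 159)) (XT.lf (nat_lit 0) (nat_lit 3566476496647) (nat_lit 152) (nat_lit 24871866241098) (nat_lit 0) (nat_lit 3231526816271) (nat_lit 1) (nat_lit 5) (nat_lit 3) (nat_lit 4) (nat_lit 1) (nat_lit 4) (nat_lit 334) (nat_lit 288) (nat_lit 158))))))))
noncomputable def xc99 : XT := (XT.nd (nat_lit 38142) (nat_lit 0) (nat_lit 152) (XT.nd (nat_lit 37362) (nat_lit 0) (nat_lit 912) (XT.nd (nat_lit 312) (nat_lit 0) (nat_lit 0) (XT.nd (nat_lit 156) (nat_lit 0) (nat_lit 0) (XT.nd (nat_lit 78) (nat_lit 0) (nat_lit 0) (XT.lf (nat_lit 0) (nat_lit 4608872388833) (nat_lit 152) (nat_lit 27453657074382) (nat_lit 0) (nat_lit 4273922707895) (nat_lit 1) (nat_lit 5) (nat_lit 3) (nat_lit 4) (nat_lit 1) (nat_lit 4) (nat_lit 335) (nat_lit 288) (nat_lit 157)) (XT.lf (nat_lit 0) (nat_lit 5807627663097) (nat_lit 152) (nat_lit 30422716536263) (nat_lit 0) (nat_lit 5472677981671) (nat_lit 1) (nat_lit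 5) (nat_lit 3) (nat_lit 4) (nat_lit 1) (nat_lit 4) (nat_lit 336) (nat_lit 288) (nat_lit 156))) (XT.nd (nat_lit 78) (nat_lit 0) (nat_lit 0) (XT.lf (nat_lit 0) (nat_lit 7186196226981) (nat_lit 152) (nat_lit 33837134920560) (nat_lit 0) (nat_lit 6851246545130) (nat_lit 1) (nat_lit 5) (nat_lit 3) (nat_lit 4) (nat_lit 1) (nat_lit 4) (nat_lit 337) (nat_lit 288) (nat_lit 155)) (XT.lf (nat_lit 0) (nat_lit 8771550074124) (nat_lit 152) (nat_lit 37763716065226) (nat_lit 0) (nat_lit 8436600391904) (nat_lit 1) (nat_lit 5) (nat_lit 3) (nat_lit 4) (nat_lit 1) (nat_lit 4) (nat_lit 338) (nat_lit 288) (nat_lit 154)))) (XT.nd (nat_lit 36816) (nat_lit 0) (nat_lit 1596) (XT.nd (nat_lit 36738) (nat_lit 0) (nat_lit 1596) (XT.lf (nat_lit 0) (nat_lit 10594706997190) (nat_lit 152) (nat_lit 42279284383961) (nat_lit 0) (nat_lit 10259757314648) (nat_lit 1) (nat_lit 5) (nat_lit 3) (nat_lit 4) (nat_lit 1) (nat_lit 4)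 (nat_lit 339) (nat_lit 288) (nat_lit 153)) (XT.lf (nat_lit 0) (nat_lit 18953268640) (nat_lit 380) (nat_lit 49119274553) (nat_lit 380) (nat_lit 49119274553) (nat_lit 22) (nat_lit 3) (nat_lit 27) (nat_lit 3) (nat_lit 27) (nat_lit 5) (nat_lit 289) (nat_lit 289) (nat_lit 202))) (XT.nd (nat_lit 78) (nat_lit 0) (nat_lit 76) (XT.lf (nat_lit 76) (nat_lit 12369147913) (nat_lit 0) (nat_lit 28893640971) (nat_lit 380) (nat_lit 210622625963) (nat_lit 23) (nat_lit 5) (nat_lit 22) (nat_lit 3) (nat_lit 27) (nat_lit 5) (nat_lit 290) (nat_lit 289) (nat_lit 201)) (XT.nd (nat_lit 78) (nat_lit 0) (nat_lit 0) (XT.lf (nat_lit 0) (nat_lit 54412801488) (nat_lit 304) (nat_lit 124788985019) (nat_lit 380) (nat_lit 91417126839) (nat_lit 23) (nat_lit 5) (nat_lit 27) (nat_lit 5) (nat_lit 28) (nat_lit 5) (nat_lit 291) (nat_lit 289) (nat_lit 200)) (XT.lf (nat_lit 76) (nat_lit 6335386262) (nat_lit 0) (nat_lit 64837983141)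 (nat_lit 380) (nat_lit 220743359840) (nat_lit 24) (nat_lit 5) (nat_lit 23) (nat_lit 5) (nat_lit 28) (nat_lit 5) (nat_lit 292) (nat_lit 289) (nat_lit 199)))))) (XT.nd (nat_lit 390) (nat_lit 380) (nat_lit 0) (XT.nd (nat_lit 156) (nat_lit 152) (nat_lit 0) (XT.nd (nat_lit 78) (nat_lit 304) (nat_lit 0) (XT.lf (nat_lit 0) (nat_lit 100042646405) (nat_lit 304) (nat_lit 147349633054) (nat_lit 76) (nat_lit 67577745037) (nat_lit 24) (nat_lit 5) (nat_lit 28) (nat_lit 5) (nat_lit 25) (nat_lit 5) (nat_lit 293) (nat_lit 289) (nat_lit 198)) (XT.lf (nat_lit 0) (nat_lit 9362710184) (nat_lit 304) (nat_lit 127354685990) (nat_lit 380) (nat_lit 204242656160) (nat_lit 20) (nat_lit 5) (nat_lit 24) (nat_lit 5) (nat_lit 25) (nat_lit 5) (nat_lit 294) (nat_lit 289) (nat_lit 197))) (XT.nd (nat_lit 78) (nat_lit 152) (nat_lit 0) (XT.lf (nat_lit 0) (nat_lit 187404974834) (nat_lit 380) (nat_lit 164360749609) (nat_lit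 76) (nat_lit 17806117860) (nat_lit 20) (nat_lit 5) (nat_lit 25) (nat_lit 5) (nat_lit 21) (nat_lit 5) (nat_lit 295) (nat_lit 289) (nat_lit 196)) (XT.nd (nat_lit 78) (nat_lit 0) (nat_lit 0) (XT.lf (nat_lit 0) (nat_lit 24036600971) (nat_lit 152) (nat_lit 228718798161) (nat_lit 228) (nat_lit 148661045674) (nat_lit 18) (nat_lit 5) (nat_lit 20) (nat_lit 5) (nat_lit 21) (nat_lit 5) (nat_lit 296) (nat_lit 289) (nat_lit 195)) (XT.lf (nat_lit 0) (nat_lit 259165340439) (nat_lit 152) (nat_lit 77334535492) (nat_lit 228) (nat_lit 100249138740) (nat_lit 18) (nat_lit 5) (nat_lit 20) (nat_lit 5) (nat_lit 21) (nat_lit 5) (nat_lit 297) (nat_lit 289) (nat_lit 194))))) (XT.nd (nat_lit 156) (nat_lit 228) (nat_lit 0) (XT.nd (nat_lit 78) (nat_lit 76) (nat_lit 0) (XT.lf (nat_lit 0) (nat_lit 52883327277) (nat_lit 76) (nat_lit 386118914811) (nat_lit 152) (nat_lit 37449795530) (nat_lit 17) (nat_lit 5) (nat_lit 18)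 (nat_lit 5) (nat_lit 19) (nat_lit 4) (nat_lit 298) (nat_lit 289) (nat_lit 193)) (XT.lf (nat_lit 0) (nat_lit 45081367801) (nat_lit 152) (nat_lit 188404216806) (nat_lit 76) (nat_lit 286397869979) (nat_lit 16) (nat_lit 5) (nat_lit 18) (nat_lit 5) (nat_lit 17) (nat_lit 5) (nat_lit 299) (nat_lit 289) (nat_lit 192))) (XT.nd (nat_lit 78) (nat_lit 76) (nat_lit 0) (XT.lf (nat_lit 0) (nat_lit 88094285563) (nat_lit 152) (nat_lit 51711499756) (nat_lit 228) (nat_lit 429209141608) (nat_lit 14) (nat_lit 5) (nat_lit 16) (nat_lit 5) (nat_lit 17) (nat_lit 5) (nat_lit 300) (nat_lit 289) (nat_lit 191)) (XT.nd (nat_lit 78) (nat_lit 76) (nat_lit 0) (XT.lf (nat_lit 0) (nat_lit 265570817807) (nat_lit 228) (nat_lit 203780957096) (nat_lit 76) (nat_lit 153639552524) (nat_lit 14) (nat_lit 5) (nat_lit 17) (nat_lit 5) (nat_lit 15) (nat_lit 4) (nat_lit 301) (nat_lit 289) (nat_lit 190)) (XT.lf (nat_lit 0) (nat_lit 123458239750)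 (nat_lit 76) (nat_lit 294316901689) (nat_lit 152) (nat_lit 266152866258) (nat_lit 13) (nat_lit 5) (nat_lit 14) (nat_lit 5) (nat_lit 15) (nat_lit 4) (nat_lit 302) (nat_lit 289) (nat_lit 189))))))) (XT.nd (nat_lit 780) (nat_lit 304) (nat_lit 0) (XT.nd (nat_lit 390) (nat_lit 228) (nat_lit 0) (XT.nd (nat_lit 156) (nat_lit 76) (nat_lit 0) (XT.nd (nat_lit 78) (nat_lit 152) (nat_lit 0) (XT.lf (nat_lit 0) (nat_lit 522685427217) (nat_lit 76) (nat_lit 80776818186) (nat_lit 152) (nat_lit 148945124958) (nat_lit 13) (nat_lit 5) (nat_lit 14) (nat_lit 5) (nat_lit 15) (nat_lit 4) (nat_lit 303) (nat_lit 289) (nat_lit 188)) (XT.lf (nat_lit 0) (nat_lit 1101027547) (nat_lit 152) (nat_lit 671335812713) (nat_lit 76) (nat_lit 156710179321) (nat_lit 11) (nat_lit 5) (nat_lit 13) (nat_lit 5) (nat_lit 12) (nat_lit 4) (nat_lit 304) (nat_lit 289) (nat_lit 187))) (XT.nd (nat_lit 78) (nat_lit 76) (nat_lit 0) (XT.lf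 (nat_lit 0) (nat_lit 174831437542) (nat_lit 152) (nat_lit 297815487805) (nat_lit 76) (nat_lit 441222825411) (nat_lit 11) (nat_lit 5) (nat_lit 13) (nat_lit 5) (nat_lit 12) (nat_lit 4) (nat_lit 305) (nat_lit 289) (nat_lit 186)) (XT.nd (nat_lit 78) (nat_lit 0) (nat_lit 0) (XT.lf (nat_lit 0) (nat_lit 144606700481) (nat_lit 76) (nat_lit 236002521940) (nat_lit 152) (nat_lit 629793497253) (nat_lit 10) (nat_lit 5) (nat_lit 11) (nat_lit 5) (nat_lit 12) (nat_lit 4) (nat_lit 306) (nat_lit 289) (nat_lit 185)) (XT.lf (nat_lit 0) (nat_lit 635058997889) (nat_lit 152) (nat_lit 434455683699) (nat_lit 0) (nat_lit 49230153968) (nat_lit 10) (nat_lit 5) (nat_lit 12) (nat_lit 4) (nat_lit 10) (nat_lit 4) (nat_lit 307) (nat_lit 289) (nat_lit 184))))) (XT.nd (nat_lit 156) (nat_lit 152) (nat_lit 0) (XT.nd (nat_lit 78) (nat_lit 0) (nat_lit 0) (XT.lf (nat_lit 0) (nat_lit 55267737682) (nat_lit 76) (nat_lit 885935201285)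 (nat_lit 76) (nat_lit 300106325012) (nat_lit 9) (nat_lit 4) (nat_lit 10) (nat_lit 5) (nat_lit 10) (nat_lit 4) (nat_lit 308) (nat_lit 289) (nat_lit 183)) (XT.lf (nat_lit 0) (nat_lit 667276504393) (nat_lit 76) (nat_lit 648702117090) (nat_lit 76) (nat_lit 62873212686) (nat_lit 9) (nat_lit 4) (nat_lit 10) (nat_lit 5) (nat_lit 10) (nat_lit 4) (nat_lit 309) (nat_lit 289) (nat_lit 182))) (XT.nd (nat_lit 78) (nat_lit 76) (nat_lit 0) (XT.lf (nat_lit 0) (nat_lit 191254092411) (nat_lit 152) (nat_lit 174632630182) (nat_lit 76) (nat_lit 1169835066487) (nat_lit 8) (nat_lit 5) (nat_lit 10) (nat_lit 5) (nat_lit 9) (nat_lit 4) (nat_lit 310) (nat_lit 289) (nat_lit 181)) (XT.nd (nat_lit 78) (nat_lit 0) (nat_lit 0) (XT.lf (nat_lit 0) (nat_lit 482843532271) (nat_lit 76) (nat_lit 14213436291) (nat_lit 152) (nat_lit 1215617150117) (nat_lit 7) (nat_lit 5) (nat_lit 8) (nat_lit 5) (nat_lit 9) (nat_lit 4) (nat_lit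 311) (nat_lit 289) (nat_lit 180)) (XT.lf (nat_lit 0) (nat_lit 874451264688) (nat_lit 152) (nat_lit 672825114548) (nat_lit 0) (nat_lit 365034770223) (nat_lit 7) (nat_lit 5) (nat_lit 9) (nat_lit 4) (nat_lit 7) (nat_lit 4) (nat_lit 312) (nat_lit 289) (nat_lit 179)))))) (XT.nd (nat_lit 390) (nat_lit 76) (nat_lit 0) (XT.nd (nat_lit 156) (nat_lit 152) (nat_lit 0) (XT.nd (nat_lit 78) (nat_lit 76) (nat_lit 0) (XT.lf (nat_lit 0) (nat_lit 1309131513105) (nat_lit 152) (nat_lit 32945695939) (nat_lit 0) (nat_lit 799715004654) (nat_lit 7) (nat_lit 5) (nat_lit 9) (nat_lit 4) (nat_lit 7) (nat_lit 4) (nat_lit 313) (nat_lit 289) (nat_lit 178)) (XT.lf (nat_lit 0) (nat_lit 771609621731) (nat_lit 76) (nat_lit 1069354866527) (nat_lit 76) (nat_lit 559938345913) (nat_lit 6) (nat_lit 4) (nat_lit 7) (nat_lit 5) (nat_lit 7) (nat_lit 4) (nat_lit 314) (nat_lit 289) (nat_lit 177))) (XT.nd (nat_lit 78) (nat_lit 152)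 (nat_lit 0) (XT.lf (nat_lit 0) (nat_lit 1700550847719) (nat_lit 76) (nat_lit 753743704882) (nat_lit 76) (nat_lit 244327173693) (nat_lit 6) (nat_lit 4) (nat_lit 7) (nat_lit 5) (nat_lit 7) (nat_lit 4) (nat_lit 315) (nat_lit 289) (nat_lit 176)) (XT.nd (nat_lit 78) (nat_lit 76) (nat_lit 0) (XT.lf (nat_lit 0) (nat_lit 108064779687) (nat_lit 152) (nat_lit 277077264057) (nat_lit 76) (nat_lit 2655119605599) (nat_lit 5) (nat_lit 5) (nat_lit 7) (nat_lit 5) (nat_lit 6) (nat_lit 4) (nat_lit 316) (nat_lit 289) (nat_lit 175)) (XT.lf (nat_lit 0) (nat_lit 516194438300) (nat_lit 152) (nat_lit 2837800397655) (nat_lit 0) (nat_lit 73223526663) (nat_lit 4) (nat_lit 5) (nat_lit 6) (nat_lit 4) (nat_lit 4) (nat_lit 4) (nat_lit 317) (nat_lit 289) (nat_lit 174))))) (XT.nd (nat_lit 156) (nat_lit 76) (nat_lit 0) (XT.nd (nat_lit 78) (nat_lit 0) (nat_lit 0) (XT.lf (nat_lit 0) (nat_lit 1019056907336) (nat_lit 152)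 (nat_lit 2272048681661) (nat_lit 0) (nat_lit 576085989653) (nat_lit 4) (nat_lit 5) (nat_lit 6) (nat_lit 4) (nat_lit 4) (nat_lit 4) (nat_lit 318) (nat_lit 289) (nat_lit 173)) (XT.lf (nat_lit 0) (nat_lit 1597348734175) (nat_lit 152) (nat_lit 1621434233568) (nat_lit 0) (nat_lit 1154377811233) (nat_lit 4) (nat_lit 5) (nat_lit 6) (nat_lit 4) (nat_lit 4) (nat_lit 4) (nat_lit 319) (nat_lit 289) (nat_lit 172))) (XT.nd (nat_lit 78) (nat_lit 76) (nat_lit 0) (XT.lf (nat_lit 0) (nat_lit 2262384324124) (nat_lit 152) (nat_lit 873227640263) (nat_lit 0) (nat_lit 1819413396610) (nat_lit 4) (nat_lit 5) (nat_lit 6) (nat_lit 4) (nat_lit 4) (nat_lit 4) (nat_lit 320) (nat_lit 289) (nat_lit 171)) (XT.nd (nat_lit 78) (nat_lit 76) (nat_lit 0) (XT.lf (nat_lit 0) (nat_lit 3027175243074) (nat_lit 152) (nat_lit 12790077093) (nat_lit 0) (nat_lit 2584204311584) (nat_lit 4) (nat_lit 5) (nat_lit 6) (nat_lit 4) (nat_lit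 4) (nat_lit 4) (nat_lit 321) (nat_lit 289) (nat_lit 170)) (XT.lf (nat_lit 0) (nat_lit 1072164611798) (nat_lit 76) (nat_lit 2878916229992) (nat_lit 76) (nat_lit 2435945295045) (nat_lit 3) (nat_lit 4) (nat_lit 4) (nat_lit 5) (nat_lit 4) (nat_lit 4) (nat_lit 322) (nat_lit 289) (nat_lit 169))))))))
noncomputable def xc100 : XT := (XT.nd (nat_lit 38220) (nat_lit 0) (nat_lit 532) (XT.nd (nat_lit 702) (nat_lit 0) (nat_lit 0) (XT.nd (nat_lit 312) (nat_lit 152) (nat_lit 0) (XT.nd (nat_lit 156) (nat_lit 0) (nat_lit 0) (XT.nd (nat_lit 78) (nat_lit 0) (nat_lit 0) (XT.lf (nat_lit 0) (nat_lit 2321299918399) (nat_lit 76) (nat_lit 2692940926292) (nat_lit 76) (nat_lit 2249969988339) (nat_lit 3) (nat_lit 4) (nat_lit 4) (nat_lit 5) (nat_lit 4) (nat_lit 4) (nat_lit 323) (nat_lit 289) (nat_lit 168)) (XT.lf (nat_lit 0) (nat_lit 3757805507182) (nat_lit 76) (nat_lit 2479069334032) (nat_lit 76) (nat_lit 2036098393465)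 (nat_lit 3) (nat_lit 4) (nat_lit 4) (nat_lit 5) (nat_lit 4) (nat_lit 4) (nat_lit 324) (nat_lit 289) (nat_lit 167))) (XT.nd (nat_lit 78) (nat_lit 0) (nat_lit 0) (XT.lf (nat_lit 0) (nat_lit 5409786922275) (nat_lit 76) (nat_lit 2233117009017) (nat_lit 76) (nat_lit 1790146066177) (nat_lit 3) (nat_lit 4) (nat_lit 4) (nat_lit 5) (nat_lit 4) (nat_lit 4) (nat_lit 325) (nat_lit 289) (nat_lit 166)) (XT.lf (nat_lit 0) (nat_lit 7309565539191) (nat_lit 76) (nat_lit 1950271840539) (nat_lit 76) (nat_lit 1507300895723) (nat_lit 3) (nat_lit 4) (nat_lit 4) (nat_lit 5) (nat_lit 4) (nat_lit 4) (nat_lit 326) (nat_lit 289) (nat_lit 165)))) (XT.nd (nat_lit 156) (nat_lit 152) (nat_lit 0) (XT.nd (nat_lit 78) (nat_lit 0) (nat_lit 0) (XT.lf (nat_lit 0) (nat_lit 9494310939565) (nat_lit 76) (nat_lit 1624999901390) (nat_lit 76) (nat_lit 1182028954855) (nat_lit 3) (nat_lit 4) (nat_lit 4) (nat_lit 5) (nat_lit 4) (nat_lit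 4) (nat_lit 327) (nat_lit 289) (nat_lit 164)) (XT.lf (nat_lit 0) (nat_lit 12006768142100) (nat_lit 76) (nat_lit 1250937175368) (nat_lit 76) (nat_lit 807966227338) (nat_lit 3) (nat_lit 4) (nat_lit 4) (nat_lit 5) (nat_lit 4) (nat_lit 4) (nat_lit 328) (nat_lit 289) (nat_lit 163))) (XT.nd (nat_lit 78) (nat_lit 152) (nat_lit 0) (XT.lf (nat_lit 0) (nat_lit 14896093918150) (nat_lit 76) (nat_lit 820765043921) (nat_lit 76) (nat_lit 377794094591) (nat_lit 3) (nat_lit 4) (nat_lit 4) (nat_lit 5) (nat_lit 4) (nat_lit 4) (nat_lit 329) (nat_lit 289) (nat_lit 162)) (XT.nd (nat_lit 78) (nat_lit 76) (nat_lit 0) (XT.lf (nat_lit 0) (nat_lit 106496265131) (nat_lit 152) (nat_lit 214003980427) (nat_lit 76) (nat_lit 18106755439284) (nat_lit 2) (nat_lit 5) (nat_lit 4) (nat_lit 5) (nat_lit 3) (nat_lit 4) (nat_lit 330) (nat_lit 289) (nat_lit 161)) (XT.lf (nat_lit 0) (nat_lit 679027608166) (nat_lit 152) (nat_lit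 20126045641077) (nat_lit 0) (nat_lit 293835476476) (nat_lit 1) (nat_lit 5) (nat_lit 3) (nat_lit 4) (nat_lit 1) (nat_lit 4) (nat_lit 331) (nat_lit 289) (nat_lit 160)))))) (XT.nd (nat_lit 390) (nat_lit 0) (nat_lit 0) (XT.nd (nat_lit 156) (nat_lit 0) (nat_lit 0) (XT.nd (nat_lit 78) (nat_lit 0) (nat_lit 0) (XT.lf (nat_lit 0) (nat_lit 1364419832045) (nat_lit 152) (nat_lit 21823615014160) (nat_lit 0) (nat_lit 979227699613) (nat_lit 1) (nat_lit 5) (nat_lit 3) (nat_lit 4) (nat_lit 1) (nat_lit 4) (nat_lit 332) (nat_lit 289) (nat_lit 159)) (XT.lf (nat_lit 0) (nat_lit 2152620887194) (nat_lit 152) (nat_lit 23775819797973) (nat_lit 0) (nat_lit 1767428754116) (nat_lit 1) (nat_lit 5) (nat_lit 3) (nat_lit 4) (nat_lit 1) (nat_lit 4) (nat_lit 333) (nat_lit 289) (nat_lit 158))) (XT.nd (nat_lit 78) (nat_lit 0) (nat_lit 0) (XT.lf (nat_lit 0) (nat_lit 3059052098604) (nat_lit 152) (nat_lit 26020855303501) (nat_lit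 0) (nat_lit 2673859964964) (nat_lit 1) (nat_lit 5) (nat_lit 3) (nat_lit 4) (nat_lit 1) (nat_lit 4) (nat_lit 334) (nat_lit 289) (nat_lit 157)) (XT.nd (nat_lit 78) (nat_lit 0) (nat_lit 0) (XT.lf (nat_lit 0) (nat_lit 4101447989976) (nat_lit 152) (nat_lit 28602646138461) (nat_lit 0) (nat_lit 3716255855847) (nat_lit 1) (nat_lit 5) (nat_lit 3) (nat_lit 4) (nat_lit 1) (nat_lit 4) (nat_lit 335) (nat_lit 289) (nat_lit 156)) (XT.lf (nat_lit 0) (nat_lit 5300203263534) (nat_lit 152) (nat_lit 31571705601800) (nat_lit 0) (nat_lit 4915011128980) (nat_lit 1) (nat_lit 5) (nat_lit 3) (nat_lit 4) (nat_lit 1) (nat_lit 4) (nat_lit 336) (nat_lit 289) (nat_lit 155))))) (XT.nd (nat_lit 156) (nat_lit 0) (nat_lit 0) (XT.nd (nat_lit 78) (nat_lit 0) (nat_lit 0) (XT.lf (nat_lit 0) (nat_lit 6678771826802) (nat_lit 152) (nat_lit 34986123987364) (nat_lit 0) (nat_lit 6293579691879) (nat_lit 1) (nat_lit 5) (nat_lit 3)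 (nat_lit 4) (nat_lit 1) (nat_lit 4) (nat_lit 337) (nat_lit 289) (nat_lit 154)) (XT.lf (nat_lit 0) (nat_lit 8264125673411) (nat_lit 152) (nat_lit 38912705133132) (nat_lit 0) (nat_lit 7878933538166) (nat_lit 1) (nat_lit 5) (nat_lit 3) (nat_lit 4) (nat_lit 1) (nat_lit 4) (nat_lit 338) (nat_lit 289) (nat_lit 153))) (XT.nd (nat_lit 36816) (nat_lit 0) (nat_lit 1596) (XT.lf (nat_lit 0) (nat_lit 10087282596011) (nat_lit 152) (nat_lit 43428273452825) (nat_lit 0) (nat_lit 9702090460487) (nat_lit 1) (nat_lit 5) (nat_lit 3) (nat_lit 4) (nat_lit 1) (nat_lit 4) (nat_lit 339) (nat_lit 289) (nat_lit 152)) (XT.nd (nat_lit 78) (nat_lit 0) (nat_lit 0) (XT.lf (nat_lit 0) (nat_lit 21797295433) (nat_lit 380) (nat_lit 56486567779) (nat_lit 380) (nat_lit 56486567779) (nat_lit 22) (nat_lit 3) (nat_lit 27) (nat_lit 3) (nat_lit 27) (nat_lit 5) (nat_lit 290) (nat_lit 290) (nat_lit 200)) (XT.lf (nat_lit 76) (nat_lit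 14225661654) (nat_lit 0) (nat_lit 33228395435) (nat_lit 380) (nat_lit 242213885648) (nat_lit 23) (nat_lit 5) (nat_lit 22) (nat_lit 3) (nat_lit 27) (nat_lit 5) (nat_lit 291) (nat_lit 290) (nat_lit 199))))))) (XT.nd (nat_lit 780) (nat_lit 456) (nat_lit 0) (XT.nd (nat_lit 390) (nat_lit 456) (nat_lit 0) (XT.nd (nat_lit 156) (nat_lit 228) (nat_lit 0) (XT.nd (nat_lit 78) (nat_lit 0) (nat_lit 0) (XT.lf (nat_lit 0) (nat_lit 62576304792) (nat_lit 304) (nat_lit 143506067362) (nat_lit 380) (nat_lit 105129134770) (nat_lit 23) (nat_lit 5) (nat_lit 27) (nat_lit 5) (nat_lit 28) (nat_lit 5) (nat_lit 292) (nat_lit 290) (nat_lit 198)) (XT.lf (nat_lit 76) (nat_lit 7286902093) (nat_lit 0) (nat_lit 74563899329) (nat_lit 380) (nat_lit 253853218033) (nat_lit 24) (nat_lit 5) (nat_lit 23) (nat_lit 5) (nat_lit 28) (nat_lit 5) (nat_lit 293) (nat_lit 290) (nat_lit 197))) (XT.nd (nat_lit 78) (nat_lit 304) (nat_lit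 0) (XT.lf (nat_lit 0) (nat_lit 115050276020) (nat_lit 304) (nat_lit 169450829209) (nat_lit 76) (nat_lit 77714233536) (nat_lit 24) (nat_lit 5) (nat_lit 28) (nat_lit 5) (nat_lit 25) (nat_lit 5) (nat_lit 294) (nat_lit 290) (nat_lit 196)) (XT.nd (nat_lit 78) (nat_lit 0) (nat_lit 0) (XT.lf (nat_lit 0) (nat_lit 10768308751) (nat_lit 304) (nat_lit 146457818081) (nat_lit 380) (nat_lit 234877761247) (nat_lit 20) (nat_lit 5) (nat_lit 24) (nat_lit 5) (nat_lit 25) (nat_lit 5) (nat_lit 295) (nat_lit 290) (nat_lit 195)) (XT.lf (nat_lit 0) (nat_lit 215516698593) (nat_lit 380) (nat_lit 189013678387) (nat_lit 76) (nat_lit 20477091629) (nat_lit 20) (nat_lit 5) (nat_lit 25) (nat_lit 5) (nat_lit 21) (nat_lit 5) (nat_lit 296) (nat_lit 290) (nat_lit 194))))) (XT.nd (nat_lit 156) (nat_lit 304) (nat_lit 0) (XT.nd (nat_lit 78) (nat_lit 0) (nat_lit 0) (XT.lf (nat_lit 0) (nat_lit 27643220977) (nat_lit 152) (nat_lit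 263026384840) (nat_lit 228) (nat_lit 170959168223) (nat_lit 18) (nat_lit 5) (nat_lit 20) (nat_lit 5) (nat_lit 21) (nat_lit 5) (nat_lit 297) (nat_lit 290) (nat_lit 193)) (XT.lf (nat_lit 0) (nat_lit 298041123992) (nat_lit 152) (nat_lit 88934513168) (nat_lit 228) (nat_lit 115285610159) (nat_lit 18) (nat_lit 5) (nat_lit 20) (nat_lit 5) (nat_lit 21) (nat_lit 5) (nat_lit 298) (nat_lit 290) (nat_lit 192))) (XT.nd (nat_lit 78) (nat_lit 228) (nat_lit 0) (XT.lf (nat_lit 0) (nat_lit 60816870307) (nat_lit 76) (nat_lit 444036436739) (nat_lit 152) (nat_lit 43066424676) (nat_lit 17) (nat_lit 5) (nat_lit 18) (nat_lit 5) (nat_lit 19) (nat_lit 4) (nat_lit 299) (nat_lit 290) (nat_lit 191)) (XT.nd (nat_lit 78) (nat_lit 152) (nat_lit 0) (XT.lf (nat_lit 0) (nat_lit 51844238522) (nat_lit 152) (nat_lit 216663874818) (nat_lit 76) (nat_lit 329357757906) (nat_lit 16) (nat_lit 5) (nat_lit 18) (nat_lit 5) (nat_lit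 17) (nat_lit 5) (nat_lit 300) (nat_lit 290) (nat_lit 190)) (XT.lf (nat_lit 0) (nat_lit 101309358611) (nat_lit 152) (nat_lit 59467911764) (nat_lit 228) (nat_lit 493589801529) (nat_lit 14) (nat_lit 5) (nat_lit 16) (nat_lit 5) (nat_lit 17) (nat_lit 5) (nat_lit 301) (nat_lit 290) (nat_lit 189)))))) (XT.nd (nat_lit 390) (nat_lit 228) (nat_lit 0) (XT.nd (nat_lit 156) (nat_lit 152) (nat_lit 0) (XT.nd (nat_lit 78) (nat_lit 76) (nat_lit 0) (XT.lf (nat_lit 0) (nat_lit 305406988493) (nat_lit 228) (nat_lit 234347221254) (nat_lit 76) (nat_lit 176685733311) (nat_lit 14) (nat_lit 5) (nat_lit 17) (nat_lit 5) (nat_lit 15) (nat_lit 4) (nat_lit 302) (nat_lit 290) (nat_lit 188)) (XT.lf (nat_lit 0) (nat_lit 141977815146) (nat_lit 76) (nat_lit 338464108803) (nat_lit 152) (nat_lit 306075207095) (nat_lit 13) (nat_lit 5) (nat_lit 14) (nat_lit 5) (nat_lit 15) (nat_lit 4) (nat_lit 303) (nat_lit 290) (nat_lit 187)))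 (XT.nd (nat_lit 78) (nat_lit 152) (nat_lit 0) (XT.lf (nat_lit 0) (nat_lit 601088971241) (nat_lit 76) (nat_lit 92893055576) (nat_lit 152) (nat_lit 171286381438) (nat_lit 13) (nat_lit 5) (nat_lit 14) (nat_lit 5) (nat_lit 15) (nat_lit 4) (nat_lit 304) (nat_lit 290) (nat_lit 186)) (XT.nd (nat_lit 78) (nat_lit 0) (nat_lit 0) (XT.lf (nat_lit 0) (nat_lit 1266630770) (nat_lit 152) (nat_lit 772035389930) (nat_lit 76) (nat_lit 180216983722) (nat_lit 11) (nat_lit 5) (nat_lit 13) (nat_lit 5) (nat_lit 12) (nat_lit 4) (nat_lit 305) (nat_lit 290) (nat_lit 185)) (XT.lf (nat_lit 0) (nat_lit 201056543687) (nat_lit 152) (nat_lit 342487119942) (nat_lit 76) (nat_lit 507406490529) (nat_lit 11) (nat_lit 5) (nat_lit 13) (nat_lit 5) (nat_lit 12) (nat_lit 4) (nat_lit 306) (nat_lit 290) (nat_lit 184))))) (XT.nd (nat_lit 156) (nat_lit 152) (nat_lit 0) (XT.nd (nat_lit 78) (nat_lit 0) (nat_lit 0) (XT.lf (nat_lit 0)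 (nat_lit 166298365177) (nat_lit 76) (nat_lit 271402607497) (nat_lit 152) (nat_lit 724262099363) (nat_lit 10) (nat_lit 5) (nat_lit 11) (nat_lit 5) (nat_lit 12) (nat_lit 4) (nat_lit 307) (nat_lit 290) (nat_lit 183)) (XT.lf (nat_lit 0) (nat_lit 730318177148) (nat_lit 152) (nat_lit 499623424871) (nat_lit 0) (nat_lit 56614908952) (nat_lit 10) (nat_lit 5) (nat_lit 12) (nat_lit 4) (nat_lit 10) (nat_lit 4) (nat_lit 308) (nat_lit 290) (nat_lit 182))) (XT.nd (nat_lit 78) (nat_lit 76) (nat_lit 0) (XT.lf (nat_lit 0) (nat_lit 63558481927) (nat_lit 76) (nat_lit 1018825208638) (nat_lit 76) (nat_lit 345121915980) (nat_lit 9) (nat_lit 4) (nat_lit 10) (nat_lit 5) (nat_lit 10) (nat_lit 4) (nat_lit 309) (nat_lit 290) (nat_lit 181)) (XT.nd (nat_lit 78) (nat_lit 76) (nat_lit 0) (XT.lf (nat_lit 0) (nat_lit 767368487524) (nat_lit 76) (nat_lit 746007197402) (nat_lit 76) (nat_lit 72303883472) (nat_lit 9) (nat_lit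 4) (nat_lit 10) (nat_lit 5) (nat_lit 10) (nat_lit 4) (nat_lit 310) (nat_lit 290) (nat_lit 180)) (XT.lf (nat_lit 0) (nat_lit 219942452724) (nat_lit 152) (nat_lit 200827059069) (nat_lit 76) (nat_lit 1345310508406) (nat_lit 8) (nat_lit 5) (nat_lit 10) (nat_lit 5) (nat_lit 9) (nat_lit 4) (nat_lit 311) (nat_lit 290) (nat_lit 179))))))))
noncomputable def xc101 : XT := (XT.nd (nat_lit 1482) (nat_lit 152) (nat_lit 0) (XT.nd (nat_lit 702) (nat_lit 76) (nat_lit 0) (XT.nd (nat_lit 312) (nat_lit 152) (nat_lit 0) (XT.nd (nat_lit 156) (nat_lit 76) (nat_lit 0) (XT.nd (nat_lit 78) (nat_lit 0) (nat_lit 0) (XT.lf (nat_lit 0) (nat_lit 555270506587) (nat_lit 76) (nat_lit 16345239970) (nat_lit 152) (nat_lit 1397959454778) (nat_lit 7) (nat_lit 5) (nat_lit 8) (nat_lit 5) (nat_lit 9) (nat_lit 4) (nat_lit 312) (nat_lit 290) (nat_lit 178)) (XT.lf (nat_lit 0) (nat_lit 1005619164373) (nat_lit 152) (nat_lit 773748472294)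 (nat_lit 0) (nat_lit 419790153506) (nat_lit 7) (nat_lit 5) (nat_lit 9) (nat_lit 4) (nat_lit 7) (nat_lit 4) (nat_lit 313) (nat_lit 290) (nat_lit 177))) (XT.nd (nat_lit 78) (nat_lit 76) (nat_lit 0) (XT.lf (nat_lit 0) (nat_lit 1505501422664) (nat_lit 152) (nat_lit 37887194298) (nat_lit 0) (nat_lit 919672401221) (nat_lit 7) (nat_lit 5) (nat_lit 9) (nat_lit 4) (nat_lit 7) (nat_lit 4) (nat_lit 314) (nat_lit 290) (nat_lit 176)) (XT.lf (nat_lit 0) (nat_lit 887351404839) (nat_lit 76) (nat_lit 1229757929506) (nat_lit 76) (nat_lit 643928898867) (nat_lit 6) (nat_lit 4) (nat_lit 7) (nat_lit 5) (nat_lit 7) (nat_lit 4) (nat_lit 315) (nat_lit 290) (nat_lit 175)))) (XT.nd (nat_lit 156) (nat_lit 76) (nat_lit 0) (XT.nd (nat_lit 78) (nat_lit 76) (nat_lit 0) (XT.lf (nat_lit 0) (nat_lit 1955633770398) (nat_lit 76) (nat_lit 866805115397) (nat_lit 76) (nat_lit 280976076761) (nat_lit 6) (nat_lit 4) (nat_lit 7)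 (nat_lit 5) (nat_lit 7) (nat_lit 4) (nat_lit 316) (nat_lit 290) (nat_lit 174)) (XT.lf (nat_lit 0) (nat_lit 124274633671) (nat_lit 152) (nat_lit 318638583196) (nat_lit 76) (nat_lit 3053387659220) (nat_lit 5) (nat_lit 5) (nat_lit 7) (nat_lit 5) (nat_lit 6) (nat_lit 4) (nat_lit 317) (nat_lit 290) (nat_lit 173))) (XT.nd (nat_lit 78) (nat_lit 0) (nat_lit 0) (XT.lf (nat_lit 0) (nat_lit 593623739206) (nat_lit 152) (nat_lit 3263470184875) (nat_lit 0) (nat_lit 84207172566) (nat_lit 4) (nat_lit 5) (nat_lit 6) (nat_lit 4) (nat_lit 4) (nat_lit 4) (nat_lit 318) (nat_lit 290) (nat_lit 172)) (XT.nd (nat_lit 78) (nat_lit 0) (nat_lit 0) (XT.lf (nat_lit 0) (nat_lit 1171915560968) (nat_lit 152) (nat_lit 2612855747015) (nat_lit 0) (nat_lit 662498989755) (nat_lit 4) (nat_lit 5) (nat_lit 6) (nat_lit 4) (nat_lit 4) (nat_lit 4) (nat_lit 319) (nat_lit 290) (nat_lit 171)) (XT.lf (nat_lit 0) (nat_lit 1836951146502)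 (nat_lit 152) (nat_lit 1864649162608) (nat_lit 0) (nat_lit 1327534571314) (nat_lit 4) (nat_lit 5) (nat_lit 6) (nat_lit 4) (nat_lit 4) (nat_lit 4) (nat_lit 320) (nat_lit 290) (nat_lit 170)))))) (XT.nd (nat_lit 390) (nat_lit 0) (nat_lit 0) (XT.nd (nat_lit 156) (nat_lit 76) (nat_lit 0) (XT.nd (nat_lit 78) (nat_lit 0) (nat_lit 0) (XT.lf (nat_lit 0) (nat_lit 2601742061613) (nat_lit 152) (nat_lit 1004211607176) (nat_lit 0) (nat_lit 2092325482968) (nat_lit 4) (nat_lit 5) (nat_lit 6) (nat_lit 4) (nat_lit 4) (nat_lit 4) (nat_lit 321) (nat_lit 290) (nat_lit 169)) (XT.lf (nat_lit 0) (nat_lit 3481251606814) (nat_lit 152) (nat_lit 14708432895) (nat_lit 0) (nat_lit 2971835025162) (nat_lit 4) (nat_lit 5) (nat_lit 6) (nat_lit 4) (nat_lit 4) (nat_lit 4) (nat_lit 322) (nat_lit 290) (nat_lit 168))) (XT.nd (nat_lit 78) (nat_lit 0) (nat_lit 0) (XT.lf (nat_lit 0) (nat_lit 1232989452250) (nat_lit 76) (nat_lit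 3310753589164) (nat_lit 76) (nat_lit 2801337004898) (nat_lit 3) (nat_lit 4) (nat_lit 4) (nat_lit 5) (nat_lit 4) (nat_lit 4) (nat_lit 323) (nat_lit 290) (nat_lit 167)) (XT.nd (nat_lit 78) (nat_lit 0) (nat_lit 0) (XT.lf (nat_lit 0) (nat_lit 2669495035448) (nat_lit 76) (nat_lit 3096881999734) (nat_lit 76) (nat_lit 2587465413195) (nat_lit 3) (nat_lit 4) (nat_lit 4) (nat_lit 5) (nat_lit 4) (nat_lit 4) (nat_lit 324) (nat_lit 290) (nat_lit 166)) (XT.lf (nat_lit 0) (nat_lit 4321476445685) (nat_lit 76) (nat_lit 2850929677179) (nat_lit 76) (nat_lit 2341513088664) (nat_lit 3) (nat_lit 4) (nat_lit 4) (nat_lit 5) (nat_lit 4) (nat_lit 4) (nat_lit 325) (nat_lit 290) (nat_lit 165))))) (XT.nd (nat_lit 156) (nat_lit 0) (nat_lit 0) (XT.nd (nat_lit 78) (nat_lit 0) (nat_lit 0) (XT.lf (nat_lit 0) (nat_lit 6221255058378) (nat_lit 76) (nat_lit 2568084510841) (nat_lit 76) (nat_lit 2058667920607) (nat_lit 3) (nat_lit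 4) (nat_lit 4) (nat_lit 5) (nat_lit 4) (nat_lit 4) (nat_lit 326) (nat_lit 290) (nat_lit 164)) (XT.lf (nat_lit 0) (nat_lit 8406000455080) (nat_lit 76) (nat_lit 2242812573552) (nat_lit 76) (nat_lit 1733395981823) (nat_lit 3) (nat_lit 4) (nat_lit 4) (nat_lit 5) (nat_lit 4) (nat_lit 4) (nat_lit 327) (nat_lit 290) (nat_lit 163))) (XT.nd (nat_lit 78) (nat_lit 0) (nat_lit 0) (XT.lf (nat_lit 0) (nat_lit 10918457654421) (nat_lit 76) (nat_lit 1868749849148) (nat_lit 76) (nat_lit 1359333256119) (nat_lit 3) (nat_lit 4) (nat_lit 4) (nat_lit 5) (nat_lit 4) (nat_lit 4) (nat_lit 328) (nat_lit 290) (nat_lit 162)) (XT.nd (nat_lit 78) (nat_lit 0) (nat_lit 0) (XT.lf (nat_lit 0) (nat_lit 13807783427695) (nat_lit 76) (nat_lit 1438577719108) (nat_lit 76) (nat_lit 929161124949) (nat_lit 3) (nat_lit 4) (nat_lit 4) (nat_lit 5) (nat_lit 4) (nat_lit 4) (nat_lit 329) (nat_lit 290) (nat_lit 161)) (XT.lf (nat_lit 0)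 (nat_lit 17130508061768) (nat_lit 76) (nat_lit 943879772191) (nat_lit 76) (nat_lit 434463177049) (nat_lit 3) (nat_lit 4) (nat_lit 4) (nat_lit 5) (nat_lit 4) (nat_lit 4) (nat_lit 330) (nat_lit 290) (nat_lit 160))))))) (XT.nd (nat_lit 858) (nat_lit 0) (nat_lit 0) (XT.nd (nat_lit 390) (nat_lit 0) (nat_lit 0) (XT.nd (nat_lit 156) (nat_lit 0) (nat_lit 0) (XT.nd (nat_lit 78) (nat_lit 76) (nat_lit 0) (XT.lf (nat_lit 0) (nat_lit 122470730036) (nat_lit 152) (nat_lit 246104526418) (nat_lit 76) (nat_lit 20822768777332) (nat_lit 2) (nat_lit 5) (nat_lit 4) (nat_lit 5) (nat_lit 3) (nat_lit 4) (nat_lit 331) (nat_lit 290) (nat_lit 159)) (XT.lf (nat_lit 0) (nat_lit 780881774296) (nat_lit 152) (nat_lit 23144952435924) (nat_lit 0) (nat_lit 337910820609) (nat_lit 1) (nat_lit 5) (nat_lit 3) (nat_lit 4) (nat_lit 1) (nat_lit 4) (nat_lit 332) (nat_lit 290) (nat_lit 158))) (XT.nd (nat_lit 78) (nat_lit 0) (nat_lit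 0) (XT.lf (nat_lit 0) (nat_lit 1569082828509) (nat_lit 152) (nat_lit 25097157221663) (nat_lit 0) (nat_lit 1126111874261) (nat_lit 1) (nat_lit 5) (nat_lit 3) (nat_lit 4) (nat_lit 1) (nat_lit 4) (nat_lit 333) (nat_lit 290) (nat_lit 157)) (XT.nd (nat_lit 78) (nat_lit 0) (nat_lit 0) (XT.lf (nat_lit 0) (nat_lit 2475514039106) (nat_lit 152) (nat_lit 27342192728868) (nat_lit 0) (nat_lit 2032543084369) (nat_lit 1) (nat_lit 5) (nat_lit 3) (nat_lit 4) (nat_lit 1) (nat_lit 4) (nat_lit 334) (nat_lit 290) (nat_lit 156)) (XT.lf (nat_lit 0) (nat_lit 3517909929771) (nat_lit 152) (nat_lit 29923983565286) (nat_lit 0) (nat_lit 3074938974609) (nat_lit 1) (nat_lit 5) (nat_lit 3) (nat_lit 4) (nat_lit 1) (nat_lit 4) (nat_lit 335) (nat_lit 290) (nat_lit 155))))) (XT.nd (nat_lit 156) (nat_lit 0) (nat_lit 0) (XT.nd (nat_lit 78) (nat_lit 0) (nat_lit 0) (XT.lf (nat_lit 0) (nat_lit 4716665202713) (nat_lit 152) (nat_lit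 32893043029892) (nat_lit 0) (nat_lit 4273694247181) (nat_lit 1) (nat_lit 5) (nat_lit 3) (nat_lit 4) (nat_lit 1) (nat_lit 4) (nat_lit 336) (nat_lit 290) (nat_lit 154)) (XT.lf (nat_lit 0) (nat_lit 6095233765446) (nat_lit 152) (nat_lit 36307461416558) (nat_lit 0) (nat_lit 5652262809594) (nat_lit 1) (nat_lit 5) (nat_lit 3) (nat_lit 4) (nat_lit 1) (nat_lit 4) (nat_lit 337) (nat_lit 290) (nat_lit 153))) (XT.nd (nat_lit 78) (nat_lit 0) (nat_lit 0) (XT.lf (nat_lit 0) (nat_lit 7680587611590) (nat_lit 152) (nat_lit 40234042563284) (nat_lit 0) (nat_lit 7237616655458) (nat_lit 1) (nat_lit 5) (nat_lit 3) (nat_lit 4) (nat_lit 1) (nat_lit 4) (nat_lit 338) (nat_lit 290) (nat_lit 152)) (XT.nd (nat_lit 156) (nat_lit 0) (nat_lit 0) (XT.lf (nat_lit 0) (nat_lit 9503744533785) (nat_lit 152) (nat_lit 44749610883811) (nat_lit 0) (nat_lit 9060773577410) (nat_lit 1) (nat_lit 5) (nat_lit 3) (nat_lit 4) (nat_lit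 1) (nat_lit 4) (nat_lit 339) (nat_lit 290) (nat_lit 151)) (XT.lf (nat_lit 0) (nat_lit 14011500021631) (nat_lit 152) (nat_lit 55914353561017) (nat_lit 0) (nat_lit 13568529064861) (nat_lit 1) (nat_lit 5) (nat_lit 3) (nat_lit 4) (nat_lit 1) (nat_lit 4) (nat_lit 341) (nat_lit 290) (nat_lit 149)))))) (XT.nd (nat_lit 36660) (nat_lit 0) (nat_lit 1596) (XT.nd (nat_lit 156) (nat_lit 0) (nat_lit 0) (XT.nd (nat_lit 78) (nat_lit 0) (nat_lit 0) (XT.lf (nat_lit 0) (nat_lit 16784293803347) (nat_lit 152) (nat_lit 62781968535295) (nat_lit 0) (nat_lit 16341322846417) (nat_lit 1) (nat_lit 5) (nat_lit 3) (nat_lit 4) (nat_lit 1) (nat_lit 4) (nat_lit 342) (nat_lit 290) (nat_lit 148)) (XT.lf (nat_lit 0) (nat_lit 19973006651823) (nat_lit 152) (nat_lit 70679725756738) (nat_lit 0) (nat_lit 19530035694755) (nat_lit 1) (nat_lit 5) (nat_lit 3) (nat_lit 4) (nat_lit 1) (nat_lit 4) (nat_lit 343) (nat_lit 290) (nat_lit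 147))) (XT.nd (nat_lit 78) (nat_lit 0) (nat_lit 0) (XT.lf (nat_lit 0) (nat_lit 23640026427139) (nat_lit 152) (nat_lit 79762146562289) (nat_lit 0) (nat_lit 23197055469949) (nat_lit 1) (nat_lit 5) (nat_lit 3) (nat_lit 4) (nat_lit 1) (nat_lit 4) (nat_lit 344) (nat_lit 290) (nat_lit 146)) (XT.nd (nat_lit 78) (nat_lit 0) (nat_lit 0) (XT.lf (nat_lit 0) (nat_lit 27857099168376) (nat_lit 152) (nat_lit 90206930489447) (nat_lit 0) (nat_lit 27414128211081) (nat_lit 1) (nat_lit 5) (nat_lit 3) (nat_lit 4) (nat_lit 1) (nat_lit 4) (nat_lit 345) (nat_lit 290) (nat_lit 145)) (XT.lf (nat_lit 0) (nat_lit 32706732820471) (nat_lit 152) (nat_lit 102218432006352) (nat_lit 0) (nat_lit 32263761863086) (nat_lit 1) (nat_lit 5) (nat_lit 3) (nat_lit 4) (nat_lit 1) (nat_lit 4) (nat_lit 346) (nat_lit 290) (nat_lit 144))))) (XT.nd (nat_lit 156) (nat_lit 0) (nat_lit 76) (XT.nd (nat_lit 78) (nat_lit 0) (nat_lit 0) (XT.lf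 (nat_lit 0) (nat_lit 25067673488) (nat_lit 380) (nat_lit 64959100805) (nat_lit 380) (nat_lit 64959100805) (nat_lit 22) (nat_lit 3) (nat_lit 27) (nat_lit 3) (nat_lit 27) (nat_lit 5) (nat_lit 291) (nat_lit 291) (nat_lit 198)) (XT.lf (nat_lit 76) (nat_lit 16360374081) (nat_lit 0) (nat_lit 38213190341) (nat_lit 380) (nat_lit 278544354726) (nat_lit 23) (nat_lit 5) (nat_lit 22) (nat_lit 3) (nat_lit 27) (nat_lit 5) (nat_lit 292) (nat_lit 291) (nat_lit 197))) (XT.nd (nat_lit 78) (nat_lit 0) (nat_lit 0) (XT.lf (nat_lit 0) (nat_lit 71963947547) (nat_lit 304) (nat_lit 165031020635) (nat_lit 380) (nat_lit 120898080718) (nat_lit 23) (nat_lit 5) (nat_lit 27) (nat_lit 5) (nat_lit 28) (nat_lit 5) (nat_lit 293) (nat_lit 291) (nat_lit 196)) (XT.nd (nat_lit 78) (nat_lit 0) (nat_lit 76) (XT.lf (nat_lit 76) (nat_lit 8380850747) (nat_lit 0) (nat_lit 85748649610) (nat_lit 380) (nat_lit 291929956289) (nat_lit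 24) (nat_lit 5) (nat_lit 23) (nat_lit 5) (nat_lit 28) (nat_lit 5) (nat_lit 294) (nat_lit 291) (nat_lit 195)) (XT.lf (nat_lit 0) (nat_lit 132308749486) (nat_lit 304) (nat_lit 194867509316) (nat_lit 76) (nat_lit 89371237559) (nat_lit 24) (nat_lit 5) (nat_lit 28) (nat_lit 5) (nat_lit 25) (nat_lit 5) (nat_lit 295) (nat_lit 291) (nat_lit 194))))))))
noncomputable def xc102 : XT := (XT.nd (nat_lit 1482) (nat_lit 456) (nat_lit 0) (XT.nd (nat_lit 702) (nat_lit 456) (nat_lit 0) (XT.nd (nat_lit 312) (nat_lit 380) (nat_lit 0) (XT.nd (nat_lit 156) (nat_lit 152) (nat_lit 0) (XT.nd (nat_lit 78) (nat_lit 0) (nat_lit 0) (XT.lf (nat_lit 0) (nat_lit 12384456417) (nat_lit 304) (nat_lit 168426437253) (nat_lit 380) (nat_lit 270108447485) (nat_lit 20) (nat_lit 5) (nat_lit 24) (nat_lit 5) (nat_lit 25) (nat_lit 5) (nat_lit 296) (nat_lit 291) (nat_lit 193)) (XT.lf (nat_lit 0) (nat_lit 247844942538) (nat_lit 380)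 (nat_lit 217364835126) (nat_lit 76) (nat_lit 23548697786) (nat_lit 20) (nat_lit 5) (nat_lit 25) (nat_lit 5) (nat_lit 21) (nat_lit 5) (nat_lit 297) (nat_lit 291) (nat_lit 192))) (XT.nd (nat_lit 78) (nat_lit 0) (nat_lit 0) (XT.lf (nat_lit 0) (nat_lit 31790558460) (nat_lit 152) (nat_lit 302480166350) (nat_lit 228) (nat_lit 196602261377) (nat_lit 18) (nat_lit 5) (nat_lit 20) (nat_lit 5) (nat_lit 21) (nat_lit 5) (nat_lit 298) (nat_lit 291) (nat_lit 191)) (XT.lf (nat_lit 0) (nat_lit 342748035492) (nat_lit 152) (nat_lit 102274536912) (nat_lit 228) (nat_lit 132577771613) (nat_lit 18) (nat_lit 5) (nat_lit 20) (nat_lit 5) (nat_lit 21) (nat_lit 5) (nat_lit 299) (nat_lit 291) (nat_lit 190)))) (XT.nd (nat_lit 156) (nat_lit 228) (nat_lit 0) (XT.nd (nat_lit 78) (nat_lit 76) (nat_lit 0) (XT.lf (nat_lit 0) (nat_lit 69940190220) (nat_lit 76) (nat_lit 510641663843) (nat_lit 152) (nat_lit 49525753079) (nat_lit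 17) (nat_lit 5) (nat_lit 18) (nat_lit 5) (nat_lit 19) (nat_lit 4) (nat_lit 300) (nat_lit 291) (nat_lit 189)) (XT.lf (nat_lit 0) (nat_lit 59621377553) (nat_lit 152) (nat_lit 249162719171) (nat_lit 76) (nat_lit 378761578439) (nat_lit 16) (nat_lit 5) (nat_lit 18) (nat_lit 5) (nat_lit 17) (nat_lit 5) (nat_lit 301) (nat_lit 291) (nat_lit 188))) (XT.nd (nat_lit 78) (nat_lit 76) (nat_lit 0) (XT.lf (nat_lit 0) (nat_lit 116506465778) (nat_lit 152) (nat_lit 68387861890) (nat_lit 228) (nat_lit 567627733897) (nat_lit 14) (nat_lit 5) (nat_lit 16) (nat_lit 5) (nat_lit 17) (nat_lit 5) (nat_lit 302) (nat_lit 291) (nat_lit 187)) (XT.nd (nat_lit 78) (nat_lit 76) (nat_lit 0) (XT.lf (nat_lit 0) (nat_lit 351218451145) (nat_lit 228) (nat_lit 269498639484) (nat_lit 76) (nat_lit 203188780761) (nat_lit 14) (nat_lit 5) (nat_lit 17) (nat_lit 5) (nat_lit 15) (nat_lit 4) (nat_lit 303) (nat_lit 291) (nat_lit 186))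 (XT.lf (nat_lit 0) (nat_lit 163275122151) (nat_lit 76) (nat_lit 389233477003) (nat_lit 152) (nat_lit 351986042713) (nat_lit 13) (nat_lit 5) (nat_lit 14) (nat_lit 5) (nat_lit 15) (nat_lit 4) (nat_lit 304) (nat_lit 291) (nat_lit 185)))))) (XT.nd (nat_lit 390) (nat_lit 228) (nat_lit 0) (XT.nd (nat_lit 156) (nat_lit 76) (nat_lit 0) (XT.nd (nat_lit 78) (nat_lit 152) (nat_lit 0) (XT.lf (nat_lit 0) (nat_lit 691252868868) (nat_lit 76) (nat_lit 106826798155) (nat_lit 152) (nat_lit 196978951310) (nat_lit 13) (nat_lit 5) (nat_lit 14) (nat_lit 5) (nat_lit 15) (nat_lit 4) (nat_lit 305) (nat_lit 291) (nat_lit 184)) (XT.lf (nat_lit 0) (nat_lit 1456964962) (nat_lit 152) (nat_lit 887840097520) (nat_lit 76) (nat_lit 207249741113) (nat_lit 11) (nat_lit 5) (nat_lit 13) (nat_lit 5) (nat_lit 12) (nat_lit 4) (nat_lit 306) (nat_lit 291) (nat_lit 183))) (XT.nd (nat_lit 78) (nat_lit 76) (nat_lit 0) (XT.lf (nat_lit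 0) (nat_lit 231215320525) (nat_lit 152) (nat_lit 393859665411) (nat_lit 76) (nat_lit 583517646572) (nat_lit 11) (nat_lit 5) (nat_lit 13) (nat_lit 5) (nat_lit 12) (nat_lit 4) (nat_lit 307) (nat_lit 291) (nat_lit 182)) (XT.nd (nat_lit 78) (nat_lit 0) (nat_lit 0) (XT.lf (nat_lit 0) (nat_lit 191243618724) (nat_lit 76) (nat_lit 312112777274) (nat_lit 152) (nat_lit 832901094813) (nat_lit 10) (nat_lit 5) (nat_lit 11) (nat_lit 5) (nat_lit 12) (nat_lit 4) (nat_lit 308) (nat_lit 291) (nat_lit 181)) (XT.lf (nat_lit 0) (nat_lit 839866152927) (nat_lit 152) (nat_lit 574566476308) (nat_lit 0) (nat_lit 65107320636) (nat_lit 10) (nat_lit 5) (nat_lit 12) (nat_lit 4) (nat_lit 10) (nat_lit 4) (nat_lit 309) (nat_lit 291) (nat_lit 180))))) (XT.nd (nat_lit 156) (nat_lit 152) (nat_lit 0) (XT.nd (nat_lit 78) (nat_lit 0) (nat_lit 0) (XT.lf (nat_lit 0) (nat_lit 73092695496) (nat_lit 76) (nat_lit 1171648783628)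 (nat_lit 76) (nat_lit 396889932840) (nat_lit 9) (nat_lit 4) (nat_lit 10) (nat_lit 5) (nat_lit 10) (nat_lit 4) (nat_lit 310) (nat_lit 291) (nat_lit 179)) (XT.lf (nat_lit 0) (nat_lit 882474144374) (nat_lit 76) (nat_lit 857908097616) (nat_lit 76) (nat_lit 83149230744) (nat_lit 9) (nat_lit 4) (nat_lit 10) (nat_lit 5) (nat_lit 10) (nat_lit 4) (nat_lit 311) (nat_lit 291) (nat_lit 178))) (XT.nd (nat_lit 78) (nat_lit 76) (nat_lit 0) (XT.lf (nat_lit 0) (nat_lit 252934006985) (nat_lit 152) (nat_lit 230950765839) (nat_lit 76) (nat_lit 1547107222244) (nat_lit 8) (nat_lit 5) (nat_lit 10) (nat_lit 5) (nat_lit 9) (nat_lit 4) (nat_lit 312) (nat_lit 291) (nat_lit 177)) (XT.nd (nat_lit 78) (nat_lit 0) (nat_lit 0) (XT.lf (nat_lit 0) (nat_lit 638561418661) (nat_lit 76) (nat_lit 18796865841) (nat_lit 152) (nat_lit 1607653170456) (nat_lit 7) (nat_lit 5) (nat_lit 8) (nat_lit 5) (nat_lit 9) (nat_lit 4) (nat_lit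 313) (nat_lit 291) (nat_lit 176)) (XT.lf (nat_lit 0) (nat_lit 1156462197805) (nat_lit 152) (nat_lit 889810433545) (nat_lit 0) (nat_lit 482758803374) (nat_lit 7) (nat_lit 5) (nat_lit 9) (nat_lit 4) (nat_lit 7) (nat_lit 4) (nat_lit 314) (nat_lit 291) (nat_lit 175))))))) (XT.nd (nat_lit 780) (nat_lit 152) (nat_lit 0) (XT.nd (nat_lit 390) (nat_lit 76) (nat_lit 0) (XT.nd (nat_lit 156) (nat_lit 152) (nat_lit 0) (XT.nd (nat_lit 78) (nat_lit 76) (nat_lit 0) (XT.lf (nat_lit 0) (nat_lit 1731326774130) (nat_lit 152) (nat_lit 43570004231) (nat_lit 0) (nat_lit 1057623371702) (nat_lit 7) (nat_lit 5) (nat_lit 9) (nat_lit 4) (nat_lit 7) (nat_lit 4) (nat_lit 315) (nat_lit 291) (nat_lit 174)) (XT.lf (nat_lit 0) (nat_lit 1020454372540) (nat_lit 76) (nat_lit 1414221492656) (nat_lit 76) (nat_lit 740518083274) (nat_lit 6) (nat_lit 4) (nat_lit 7) (nat_lit 5) (nat_lit 7) (nat_lit 4) (nat_lit 316) (nat_lit 291)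 (nat_lit 173))) (XT.nd (nat_lit 78) (nat_lit 152) (nat_lit 0) (XT.lf (nat_lit 0) (nat_lit 2248979059413) (nat_lit 76) (nat_lit 996825772902) (nat_lit 76) (nat_lit 323122357474) (nat_lit 6) (nat_lit 4) (nat_lit 7) (nat_lit 5) (nat_lit 7) (nat_lit 4) (nat_lit 317) (nat_lit 291) (nat_lit 172)) (XT.nd (nat_lit 78) (nat_lit 76) (nat_lit 0) (XT.lf (nat_lit 0) (nat_lit 142915932336) (nat_lit 152) (nat_lit 366434166162) (nat_lit 76) (nat_lit 3511395893381) (nat_lit 5) (nat_lit 5) (nat_lit 7) (nat_lit 5) (nat_lit 6) (nat_lit 4) (nat_lit 318) (nat_lit 291) (nat_lit 171)) (XT.lf (nat_lit 0) (nat_lit 682667402289) (nat_lit 152) (nat_lit 3752990506611) (nat_lit 0) (nat_lit 96838336846) (nat_lit 4) (nat_lit 5) (nat_lit 6) (nat_lit 4) (nat_lit 4) (nat_lit 4) (nat_lit 319) (nat_lit 291) (nat_lit 170))))) (XT.nd (nat_lit 156) (nat_lit 76) (nat_lit 0) (XT.nd (nat_lit 78) (nat_lit 0) (nat_lit 0) (XT.lf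 (nat_lit 0) (nat_lit 1347702983984) (nat_lit 152) (nat_lit 3004783929941) (nat_lit 0) (nat_lit 761873915085) (nat_lit 4) (nat_lit 5) (nat_lit 6) (nat_lit 4) (nat_lit 4) (nat_lit 4) (nat_lit 320) (nat_lit 291) (nat_lit 169)) (XT.lf (nat_lit 0) (nat_lit 2112493895757) (nat_lit 152) (nat_lit 2144346381237) (nat_lit 0) (nat_lit 1526664823851) (nat_lit 4) (nat_lit 5) (nat_lit 6) (nat_lit 4) (nat_lit 4) (nat_lit 4) (nat_lit 321) (nat_lit 291) (nat_lit 168))) (XT.nd (nat_lit 78) (nat_lit 76) (nat_lit 0) (XT.lf (nat_lit 0) (nat_lit 2992003438055) (nat_lit 152) (nat_lit 1154843212807) (nat_lit 0) (nat_lit 2406174363535) (nat_lit 4) (nat_lit 5) (nat_lit 6) (nat_lit 4) (nat_lit 4) (nat_lit 4) (nat_lit 322) (nat_lit 291) (nat_lit 167)) (XT.nd (nat_lit 78) (nat_lit 76) (nat_lit 0) (XT.lf (nat_lit 0) (nat_lit 4003439406270) (nat_lit 152) (nat_lit 16914580051) (nat_lit 0) (nat_lit 3417610329477) (nat_lit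 4) (nat_lit 5) (nat_lit 6) (nat_lit 4) (nat_lit 4) (nat_lit 4) (nat_lit 323) (nat_lit 291) (nat_lit 166)) (XT.lf (nat_lit 0) (nat_lit 1417937982512) (nat_lit 76) (nat_lit 3807366570581) (nat_lit 76) (nat_lit 3221537491812) (nat_lit 3) (nat_lit 4) (nat_lit 4) (nat_lit 5) (nat_lit 4) (nat_lit 4) (nat_lit 324) (nat_lit 291) (nat_lit 165)))))) (XT.nd (nat_lit 390) (nat_lit 152) (nat_lit 0) (XT.nd (nat_lit 156) (nat_lit 0) (nat_lit 0) (XT.nd (nat_lit 78) (nat_lit 0) (nat_lit 0) (XT.lf (nat_lit 0) (nat_lit 3069919388526) (nat_lit 76) (nat_lit 3561414250166) (nat_lit 76) (nat_lit 2975585169677) (nat_lit 3) (nat_lit 4) (nat_lit 4) (nat_lit 5) (nat_lit 4) (nat_lit 4) (nat_lit 325) (nat_lit 291) (nat_lit 164)) (XT.lf (nat_lit 0) (nat_lit 4969697997547) (nat_lit 76) (nat_lit 3278569085688) (nat_lit 76) (nat_lit 2692740003705) (nat_lit 3) (nat_lit 4) (nat_lit 4) (nat_lit 5) (nat_lit 4) (nat_lit 4)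 (nat_lit 326) (nat_lit 291) (nat_lit 163))) (XT.nd (nat_lit 78) (nat_lit 0) (nat_lit 0) (XT.lf (nat_lit 0) (nat_lit 7154443391056) (nat_lit 76) (nat_lit 2953297150017) (nat_lit 76) (nat_lit 2367468066734) (nat_lit 3) (nat_lit 4) (nat_lit 4) (nat_lit 5) (nat_lit 4) (nat_lit 4) (nat_lit 327) (nat_lit 291) (nat_lit 162)) (XT.nd (nat_lit 78) (nat_lit 0) (nat_lit 0) (XT.lf (nat_lit 0) (nat_lit 9666900587621) (nat_lit 76) (nat_lit 2579234427020) (nat_lit 76) (nat_lit 1993405342606) (nat_lit 3) (nat_lit 4) (nat_lit 4) (nat_lit 5) (nat_lit 4) (nat_lit 4) (nat_lit 328) (nat_lit 291) (nat_lit 161)) (XT.lf (nat_lit 0) (nat_lit 12556226358480) (nat_lit 76) (nat_lit 2149062298203) (nat_lit 76) (nat_lit 1563233212807) (nat_lit 3) (nat_lit 4) (nat_lit 4) (nat_lit 5) (nat_lit 4) (nat_lit 4) (nat_lit 329) (nat_lit 291) (nat_lit 160))))) (XT.nd (nat_lit 156) (nat_lit 152) (nat_lit 0) (XT.nd (nat_lit 78)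 (nat_lit 0) (nat_lit 0) (XT.lf (nat_lit 0) (nat_lit 15878950990454) (nat_lit 76) (nat_lit 1654364352350) (nat_lit 76) (nat_lit 1068535266099) (nat_lit 3) (nat_lit 4) (nat_lit 4) (nat_lit 5) (nat_lit 4) (nat_lit 4) (nat_lit 330) (nat_lit 291) (nat_lit 159)) (XT.lf (nat_lit 0) (nat_lit 19700084313298) (nat_lit 76) (nat_lit 1085461716608) (nat_lit 76) (nat_lit 499632629614) (nat_lit 3) (nat_lit 4) (nat_lit 4) (nat_lit 5) (nat_lit 4) (nat_lit 4) (nat_lit 331) (nat_lit 291) (nat_lit 158))) (XT.nd (nat_lit 78) (nat_lit 76) (nat_lit 0) (XT.lf (nat_lit 0) (nat_lit 140841358547) (nat_lit 152) (nat_lit 283020166762) (nat_lit 76) (nat_lit 23946184110684) (nat_lit 2) (nat_lit 5) (nat_lit 4) (nat_lit 5) (nat_lit 3) (nat_lit 4) (nat_lit 332) (nat_lit 291) (nat_lit 157)) (XT.nd (nat_lit 78) (nat_lit 0) (nat_lit 0) (XT.lf (nat_lit 0) (nat_lit 898014059273) (nat_lit 152) (nat_lit 26616695262512) (nat_lit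 0) (nat_lit 388597460837) (nat_lit 1) (nat_lit 5) (nat_lit 3) (nat_lit 4) (nat_lit 1) (nat_lit 4) (nat_lit 333) (nat_lit 291) (nat_lit 156)) (XT.lf (nat_lit 0) (nat_lit 1804445269162) (nat_lit 152) (nat_lit 28861730771173) (nat_lit 0) (nat_lit 1295028670301) (nat_lit 1) (nat_lit 5) (nat_lit 3) (nat_lit 4) (nat_lit 1) (nat_lit 4) (nat_lit 334) (nat_lit 291) (nat_lit 155))))))))
noncomputable def xc103 : XT := (XT.nd (nat_lit 37830) (nat_lit 0) (nat_lit 380) (XT.nd (nat_lit 702) (nat_lit 0) (nat_lit 0) (XT.nd (nat_lit 312) (nat_lit 0) (nat_lit 0) (XT.nd (nat_lit 156) (nat_lit 0) (nat_lit 0) (XT.nd (nat_lit 78) (nat_lit 0) (nat_lit 0) (XT.lf (nat_lit 0) (nat_lit 2846841159212) (nat_lit 152) (nat_lit 31443521608859) (nat_lit 0) (nat_lit 2337424559981) (nat_lit 1) (nat_lit 5) (nat_lit 3) (nat_lit 4) (nat_lit 1) (nat_lit 4) (nat_lit 335) (nat_lit 291) (nat_lit 154)) (XT.lf (nat_lit 0) (nat_lit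 4045596431619) (nat_lit 152) (nat_lit 34412581074566) (nat_lit 0) (nat_lit 3536179832067) (nat_lit 1) (nat_lit 5) (nat_lit 3) (nat_lit 4) (nat_lit 1) (nat_lit 4) (nat_lit 336) (nat_lit 291) (nat_lit 153))) (XT.nd (nat_lit 78) (nat_lit 0) (nat_lit 0) (XT.lf (nat_lit 0) (nat_lit 5424164993887) (nat_lit 152) (nat_lit 37826999462191) (nat_lit 0) (nat_lit 4914748394056) (nat_lit 1) (nat_lit 5) (nat_lit 3) (nat_lit 4) (nat_lit 1) (nat_lit 4) (nat_lit 337) (nat_lit 291) (nat_lit 152)) (XT.lf (nat_lit 0) (nat_lit 7009518839626) (nat_lit 152) (nat_lit 41753580609750) (nat_lit 0) (nat_lit 6500102239552) (nat_lit 1) (nat_lit 5) (nat_lit 3) (nat_lit 4) (nat_lit 1) (nat_lit 4) (nat_lit 338) (nat_lit 291) (nat_lit 151)))) (XT.nd (nat_lit 156) (nat_lit 0) (nat_lit 0) (XT.nd (nat_lit 78) (nat_lit 0) (nat_lit 0) (XT.lf (nat_lit 0) (nat_lit 8832675761470) (nat_lit 152) (nat_lit 46269148931002) (nat_lit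 0) (nat_lit 8323259161185) (nat_lit 1) (nat_lit 5) (nat_lit 3) (nat_lit 4) (nat_lit 1) (nat_lit 4) (nat_lit 339) (nat_lit 291) (nat_lit 150)) (XT.lf (nat_lit 0) (nat_lit 10929306220933) (nat_lit 152) (nat_lit 51462052501795) (nat_lit 0) (nat_lit 10419889620464) (nat_lit 1) (nat_lit 5) (nat_lit 3) (nat_lit 4) (nat_lit 1) (nat_lit 4) (nat_lit 340) (nat_lit 291) (nat_lit 149))) (XT.nd (nat_lit 78) (nat_lit 0) (nat_lit 0) (XT.lf (nat_lit 0) (nat_lit 13340431248744) (nat_lit 152) (nat_lit 57433891609386) (nat_lit 0) (nat_lit 12831014648115) (nat_lit 1) (nat_lit 5) (nat_lit 3) (nat_lit 4) (nat_lit 1) (nat_lit 4) (nat_lit 341) (nat_lit 291) (nat_lit 148)) (XT.nd (nat_lit 78) (nat_lit 0) (nat_lit 0) (XT.lf (nat_lit 0) (nat_lit 16113225030228) (nat_lit 152) (nat_lit 64301506584140) (nat_lit 0) (nat_lit 15603808429461) (nat_lit 1) (nat_lit 5) (nat_lit 3) (nat_lit 4) (nat_lit 1) (nat_lit 4) (nat_lit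 342) (nat_lit 291) (nat_lit 147)) (XT.lf (nat_lit 0) (nat_lit 19301937878504) (nat_lit 152) (nat_lit 72199263805998) (nat_lit 0) (nat_lit 18792521277615) (nat_lit 1) (nat_lit 5) (nat_lit 3) (nat_lit 4) (nat_lit 1) (nat_lit 4) (nat_lit 343) (nat_lit 291) (nat_lit 146)))))) (XT.nd (nat_lit 36738) (nat_lit 0) (nat_lit 1444) (XT.nd (nat_lit 156) (nat_lit 0) (nat_lit 0) (XT.nd (nat_lit 78) (nat_lit 0) (nat_lit 0) (XT.lf (nat_lit 0) (nat_lit 22968957653645) (nat_lit 152) (nat_lit 81281684611909) (nat_lit 0) (nat_lit 22459541052651) (nat_lit 1) (nat_lit 5) (nat_lit 3) (nat_lit 4) (nat_lit 1) (nat_lit 4) (nat_lit 344) (nat_lit 291) (nat_lit 145)) (XT.lf (nat_lit 0) (nat_lit 27186030394729) (nat_lit 152) (nat_lit 91726468539380) (nat_lit 0) (nat_lit 26676613793645) (nat_lit 1) (nat_lit 5) (nat_lit 3) (nat_lit 4) (nat_lit 1) (nat_lit 4) (nat_lit 345) (nat_lit 291) (nat_lit 144))) (XT.nd (nat_lit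 36426) (nat_lit 0) (nat_lit 1596) (XT.lf (nat_lit 0) (nat_lit 32035664046693) (nat_lit 152) (nat_lit 103737970056557) (nat_lit 0) (nat_lit 31526247445529) (nat_lit 1) (nat_lit 5) (nat_lit 3) (nat_lit 4) (nat_lit 1) (nat_lit 4) (nat_lit 346) (nat_lit 291) (nat_lit 143)) (XT.nd (nat_lit 78) (nat_lit 0) (nat_lit 0) (XT.lf (nat_lit 0) (nat_lit 28828417132) (nat_lit 380) (nat_lit 74702624042) (nat_lit 380) (nat_lit 74702624042) (nat_lit 22) (nat_lit 3) (nat_lit 27) (nat_lit 3) (nat_lit 27) (nat_lit 5) (nat_lit 292) (nat_lit 292) (nat_lit 196)) (XT.lf (nat_lit 76) (nat_lit 18815082880) (nat_lit 0) (nat_lit 43945573875) (nat_lit 380) (nat_lit 320324787693) (nat_lit 23) (nat_lit 5) (nat_lit 22) (nat_lit 3) (nat_lit 27) (nat_lit 5) (nat_lit 293) (nat_lit 292) (nat_lit 195))))) (XT.nd (nat_lit 156) (nat_lit 228) (nat_lit 0) (XT.nd (nat_lit 78) (nat_lit 0) (nat_lit 0) (XT.lf (nat_lit 0) (nat_lit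 82759444810) (nat_lit 304) (nat_lit 189784950228) (nat_lit 380) (nat_lit 139032472018) (nat_lit 23) (nat_lit 5) (nat_lit 27) (nat_lit 5) (nat_lit 28) (nat_lit 5) (nat_lit 294) (nat_lit 292) (nat_lit 194)) (XT.lf (nat_lit 76) (nat_lit 9638668975) (nat_lit 0) (nat_lit 98611072103) (nat_lit 380) (nat_lit 335718508750) (nat_lit 24) (nat_lit 5) (nat_lit 23) (nat_lit 5) (nat_lit 28) (nat_lit 5) (nat_lit 295) (nat_lit 292) (nat_lit 193))) (XT.nd (nat_lit 78) (nat_lit 304) (nat_lit 0) (XT.lf (nat_lit 0) (nat_lit 152155766682) (nat_lit 304) (nat_lit 224096921706) (nat_lit 76) (nat_lit 102776824133) (nat_lit 24) (nat_lit 5) (nat_lit 28) (nat_lit 5) (nat_lit 25) (nat_lit 5) (nat_lit 296) (nat_lit 292) (nat_lit 192)) (XT.nd (nat_lit 78) (nat_lit 0) (nat_lit 0) (XT.lf (nat_lit 0) (nat_lit 14242806432) (nat_lit 304) (nat_lit 193690362357) (nat_lit 380) (nat_lit 310623975138) (nat_lit 20) (nat_lit 5)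 (nat_lit 24) (nat_lit 5) (nat_lit 25) (nat_lit 5) (nat_lit 297) (nat_lit 292) (nat_lit 191)) (XT.lf (nat_lit 0) (nat_lit 285022242828) (nat_lit 380) (nat_lit 249968883632) (nat_lit 76) (nat_lit 27081034523) (nat_lit 20) (nat_lit 5) (nat_lit 25) (nat_lit 5) (nat_lit 21) (nat_lit 5) (nat_lit 298) (nat_lit 292) (nat_lit 190))))))) (XT.nd (nat_lit 780) (nat_lit 380) (nat_lit 0) (XT.nd (nat_lit 390) (nat_lit 228) (nat_lit 0) (XT.nd (nat_lit 156) (nat_lit 304) (nat_lit 0) (XT.nd (nat_lit 78) (nat_lit 0) (nat_lit 0) (XT.lf (nat_lit 0) (nat_lit 36559788230) (nat_lit 152) (nat_lit 347852058059) (nat_lit 228) (nat_lit 226092009218) (nat_lit 18) (nat_lit 5) (nat_lit 20) (nat_lit 5) (nat_lit 21) (nat_lit 5) (nat_lit 299) (nat_lit 292) (nat_lit 189)) (XT.lf (nat_lit 0) (nat_lit 394160802556) (nat_lit 152) (nat_lit 117615601584) (nat_lit 228) (nat_lit 152463923125) (nat_lit 18) (nat_lit 5) (nat_lit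 20) (nat_lit 5) (nat_lit 21) (nat_lit 5) (nat_lit 300) (nat_lit 292) (nat_lit 188))) (XT.nd (nat_lit 78) (nat_lit 228) (nat_lit 0) (XT.lf (nat_lit 0) (nat_lit 80431815628) (nat_lit 76) (nat_lit 587237733150) (nat_lit 152) (nat_lit 56954135663) (nat_lit 17) (nat_lit 5) (nat_lit 18) (nat_lit 5) (nat_lit 19) (nat_lit 4) (nat_lit 301) (nat_lit 292) (nat_lit 187)) (XT.nd (nat_lit 78) (nat_lit 152) (nat_lit 0) (XT.lf (nat_lit 0) (nat_lit 68564964718) (nat_lit 152) (nat_lit 286536569868) (nat_lit 76) (nat_lit 435575933805) (nat_lit 16) (nat_lit 5) (nat_lit 18) (nat_lit 5) (nat_lit 17) (nat_lit 5) (nat_lit 302) (nat_lit 292) (nat_lit 186)) (XT.lf (nat_lit 0) (nat_lit 133982967498) (nat_lit 152) (nat_lit 78645862241) (nat_lit 228) (nat_lit 652771487282) (nat_lit 14) (nat_lit 5) (nat_lit 16) (nat_lit 5) (nat_lit 17) (nat_lit 5) (nat_lit 303) (nat_lit 292) (nat_lit 185))))) (XT.nd (nat_lit 156)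 (nat_lit 152) (nat_lit 0) (XT.nd (nat_lit 78) (nat_lit 76) (nat_lit 0) (XT.lf (nat_lit 0) (nat_lit 403901532147) (nat_lit 228) (nat_lit 309922932604) (nat_lit 76) (nat_lit 233667239617) (nat_lit 14) (nat_lit 5) (nat_lit 17) (nat_lit 5) (nat_lit 15) (nat_lit 4) (nat_lit 304) (nat_lit 292) (nat_lit 184)) (XT.lf (nat_lit 0) (nat_lit 187766870422) (nat_lit 76) (nat_lit 447618310939) (nat_lit 152) (nat_lit 404783612299) (nat_lit 13) (nat_lit 5) (nat_lit 14) (nat_lit 5) (nat_lit 15) (nat_lit 4) (nat_lit 305) (nat_lit 292) (nat_lit 183))) (XT.nd (nat_lit 78) (nat_lit 152) (nat_lit 0) (XT.lf (nat_lit 0) (nat_lit 794941216546) (nat_lit 76) (nat_lit 122850654735) (nat_lit 152) (nat_lit 226525501118) (nat_lit 13) (nat_lit 5) (nat_lit 14) (nat_lit 5) (nat_lit 15) (nat_lit 4) (nat_lit 306) (nat_lit 292) (nat_lit 182)) (XT.nd (nat_lit 78) (nat_lit 0) (nat_lit 0) (XT.lf (nat_lit 0) (nat_lit 1675766475)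 (nat_lit 152) (nat_lit 1021015657781) (nat_lit 76) (nat_lit 238337360943) (nat_lit 11) (nat_lit 5) (nat_lit 13) (nat_lit 5) (nat_lit 12) (nat_lit 4) (nat_lit 307) (nat_lit 292) (nat_lit 181)) (XT.lf (nat_lit 0) (nat_lit 265897841881) (nat_lit 152) (nat_lit 452938220122) (nat_lit 76) (nat_lit 671045431526) (nat_lit 11) (nat_lit 5) (nat_lit 13) (nat_lit 5) (nat_lit 12) (nat_lit 4) (nat_lit 308) (nat_lit 292) (nat_lit 180)))))) (XT.nd (nat_lit 390) (nat_lit 152) (nat_lit 0) (XT.nd (nat_lit 156) (nat_lit 152) (nat_lit 0) (XT.nd (nat_lit 78) (nat_lit 0) (nat_lit 0) (XT.lf (nat_lit 0) (nat_lit 219930538675) (nat_lit 76) (nat_lit 358929526493) (nat_lit 152) (nat_lit 957836017482) (nat_lit 10) (nat_lit 5) (nat_lit 11) (nat_lit 5) (nat_lit 12) (nat_lit 4) (nat_lit 309) (nat_lit 292) (nat_lit 179)) (XT.lf (nat_lit 0) (nat_lit 965846264303) (nat_lit 152) (nat_lit 660751098195) (nat_lit 0) (nat_lit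 74873551315) (nat_lit 10) (nat_lit 5) (nat_lit 12) (nat_lit 4) (nat_lit 10) (nat_lit 4) (nat_lit 310) (nat_lit 292) (nat_lit 178))) (XT.nd (nat_lit 78) (nat_lit 76) (nat_lit 0) (XT.lf (nat_lit 0) (nat_lit 84056933491) (nat_lit 76) (nat_lit 1347395945175) (nat_lit 76) (nat_lit 456423218202) (nat_lit 9) (nat_lit 4) (nat_lit 10) (nat_lit 5) (nat_lit 10) (nat_lit 4) (nat_lit 311) (nat_lit 292) (nat_lit 177)) (XT.nd (nat_lit 78) (nat_lit 76) (nat_lit 0) (XT.lf (nat_lit 0) (nat_lit 1014845556179) (nat_lit 76) (nat_lit 986594176609) (nat_lit 76) (nat_lit 95621437473) (nat_lit 9) (nat_lit 4) (nat_lit 10) (nat_lit 5) (nat_lit 10) (nat_lit 4) (nat_lit 312) (nat_lit 292) (nat_lit 176)) (XT.lf (nat_lit 0) (nat_lit 290874248943) (nat_lit 152) (nat_lit 265593114483) (nat_lit 76) (nat_lit 1779173409609) (nat_lit 8) (nat_lit 5) (nat_lit 10) (nat_lit 5) (nat_lit 9) (nat_lit 4) (nat_lit 313) (nat_lit 292)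 (nat_lit 175))))) (XT.nd (nat_lit 156) (nat_lit 76) (nat_lit 0) (XT.nd (nat_lit 78) (nat_lit 0) (nat_lit 0) (XT.lf (nat_lit 0) (nat_lit 734345885591) (nat_lit 76) (nat_lit 21616274640) (nat_lit 152) (nat_lit 1848800992877) (nat_lit 7) (nat_lit 5) (nat_lit 8) (nat_lit 5) (nat_lit 9) (nat_lit 4) (nat_lit 314) (nat_lit 292) (nat_lit 174)) (XT.lf (nat_lit 0) (nat_lit 1329931647534) (nat_lit 152) (nat_lit 1023281764480) (nat_lit 0) (nat_lit 555172719791) (nat_lit 7) (nat_lit 5) (nat_lit 9) (nat_lit 4) (nat_lit 7) (nat_lit 4) (nat_lit 315) (nat_lit 292) (nat_lit 173))) (XT.nd (nat_lit 78) (nat_lit 76) (nat_lit 0) (XT.lf (nat_lit 0) (nat_lit 1991025894648) (nat_lit 152) (nat_lit 50105301303) (nat_lit 0) (nat_lit 1216266960858) (nat_lit 7) (nat_lit 5) (nat_lit 9) (nat_lit 4) (nat_lit 7) (nat_lit 4) (nat_lit 316) (nat_lit 292) (nat_lit 172)) (XT.nd (nat_lit 78) (nat_lit 0) (nat_lit 0) (XT.lf (nat_lit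 0) (nat_lit 1173522722730) (nat_lit 76) (nat_lit 1626354621072) (nat_lit 76) (nat_lit 851595682025) (nat_lit 6) (nat_lit 4) (nat_lit 7) (nat_lit 5) (nat_lit 7) (nat_lit 4) (nat_lit 317) (nat_lit 292) (nat_lit 171)) (XT.lf (nat_lit 0) (nat_lit 2586326087290) (nat_lit 76) (nat_lit 1146349555809) (nat_lit 76) (nat_lit 371590612189) (nat_lit 6) (nat_lit 4) (nat_lit 7) (nat_lit 5) (nat_lit 7) (nat_lit 4) (nat_lit 318) (nat_lit 292) (nat_lit 170))))))))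
noncomputable def xc104 : XT := (XT.nd (nat_lit 1482) (nat_lit 0) (nat_lit 0) (XT.nd (nat_lit 702) (nat_lit 152) (nat_lit 0) (XT.nd (nat_lit 312) (nat_lit 76) (nat_lit 0) (XT.nd (nat_lit 156) (nat_lit 0) (nat_lit 0) (XT.nd (nat_lit 78) (nat_lit 76) (nat_lit 0) (XT.lf (nat_lit 0) (nat_lit 164353400535) (nat_lit 152) (nat_lit 421399136444) (nat_lit 76) (nat_lit 4038105341871) (nat_lit 5) (nat_lit 5) (nat_lit 7) (nat_lit 5) (nat_lit 6) (nat_lit 4) (nat_lit 319) (nat_lit 292) (nat_lit 169)) (XT.lf (nat_lit 0) (nat_lit 785067589911) (nat_lit 152) (nat_lit 4315938926840) (nat_lit 0) (nat_lit 111364154213) (nat_lit 4) (nat_lit 5) (nat_lit 6) (nat_lit 4) (nat_lit 4) (nat_lit 4) (nat_lit 320) (nat_lit 292) (nat_lit 168))) (XT.nd (nat_lit 78) (nat_lit 0) (nat_lit 0) (XT.lf (nat_lit 0) (nat_lit 1549858498781) (nat_lit 152) (nat_lit 3455501383987) (nat_lit 0) (nat_lit 876155060469) (nat_lit 4) (nat_lit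 5) (nat_lit 6) (nat_lit 4) (nat_lit 4) (nat_lit 4) (nat_lit 321) (nat_lit 292) (nat_lit 167)) (XT.lf (nat_lit 0) (nat_lit 2429368038555) (nat_lit 152) (nat_lit 2465998220644) (nat_lit 0) (nat_lit 1755664597969) (nat_lit 4) (nat_lit 5) (nat_lit 6) (nat_lit 4) (nat_lit 4) (nat_lit 4) (nat_lit 322) (nat_lit 292) (nat_lit 166)))) (XT.nd (nat_lit 156) (nat_lit 76) (nat_lit 0) (XT.nd (nat_lit 78) (nat_lit 0) (nat_lit 0) (XT.lf (nat_lit 0) (nat_lit 3440804004575) (nat_lit 152) (nat_lit 1328069592312) (nat_lit 0) (nat_lit 2767100562013) (nat_lit 4) (nat_lit 5) (nat_lit 6) (nat_lit 4) (nat_lit 4) (nat_lit 4) (nat_lit 323) (nat_lit 292) (nat_lit 165)) (XT.lf (nat_lit 0) (nat_lit 4603955361395) (nat_lit 152) (nat_lit 19451678001) (nat_lit 0) (nat_lit 3930251917114) (nat_lit 4) (nat_lit 5) (nat_lit 6) (nat_lit 4) (nat_lit 4) (nat_lit 4) (nat_lit 324) (nat_lit 292) (nat_lit 164))) (XT.nd (nat_lit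 78) (nat_lit 0) (nat_lit 0) (XT.lf (nat_lit 0) (nat_lit 1630628764899) (nat_lit 76) (nat_lit 4378471513101) (nat_lit 76) (nat_lit 3704768067325) (nat_lit 3) (nat_lit 4) (nat_lit 4) (nat_lit 5) (nat_lit 4) (nat_lit 4) (nat_lit 325) (nat_lit 292) (nat_lit 163)) (XT.nd (nat_lit 78) (nat_lit 0) (nat_lit 0) (XT.lf (nat_lit 0) (nat_lit 3530407370726) (nat_lit 76) (nat_lit 4095626350241) (nat_lit 76) (nat_lit 3421922903166) (nat_lit 3) (nat_lit 4) (nat_lit 4) (nat_lit 5) (nat_lit 4) (nat_lit 4) (nat_lit 326) (nat_lit 292) (nat_lit 162)) (XT.lf (nat_lit 0) (nat_lit 5715152761459) (nat_lit 76) (nat_lit 3770354415976) (nat_lit 76) (nat_lit 3096650967771) (nat_lit 3) (nat_lit 4) (nat_lit 4) (nat_lit 5) (nat_lit 4) (nat_lit 4) (nat_lit 327) (nat_lit 292) (nat_lit 161)))))) (XT.nd (nat_lit 390) (nat_lit 152) (nat_lit 0) (XT.nd (nat_lit 156) (nat_lit 0) (nat_lit 0) (XT.nd (nat_lit 78) (nat_lit 0) (nat_lit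 0) (XT.lf (nat_lit 0) (nat_lit 8227609955609) (nat_lit 76) (nat_lit 3396291694202) (nat_lit 76) (nat_lit 2722588245014) (nat_lit 3) (nat_lit 4) (nat_lit 4) (nat_lit 5) (nat_lit 4) (nat_lit 4) (nat_lit 328) (nat_lit 292) (nat_lit 160)) (XT.lf (nat_lit 0) (nat_lit 11116935724369) (nat_lit 76) (nat_lit 2966119566448) (nat_lit 76) (nat_lit 2292416116406) (nat_lit 3) (nat_lit 4) (nat_lit 4) (nat_lit 5) (nat_lit 4) (nat_lit 4) (nat_lit 329) (nat_lit 292) (nat_lit 159))) (XT.nd (nat_lit 78) (nat_lit 0) (nat_lit 0) (XT.lf (nat_lit 0) (nat_lit 14439660354517) (nat_lit 76) (nat_lit 2471421621521) (nat_lit 76) (nat_lit 1797718170735) (nat_lit 3) (nat_lit 4) (nat_lit 4) (nat_lit 5) (nat_lit 4) (nat_lit 4) (nat_lit 330) (nat_lit 292) (nat_lit 158)) (XT.nd (nat_lit 78) (nat_lit 0) (nat_lit 0) (XT.lf (nat_lit 0) (nat_lit 18260793675774) (nat_lit 76) (nat_lit 1902518986583) (nat_lit 76) (nat_lit 1228815535151)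 (nat_lit 3) (nat_lit 4) (nat_lit 4) (nat_lit 5) (nat_lit 4) (nat_lit 4) (nat_lit 331) (nat_lit 292) (nat_lit 157)) (XT.lf (nat_lit 0) (nat_lit 22655096992251) (nat_lit 76) (nat_lit 1248280957908) (nat_lit 76) (nat_lit 574577505914) (nat_lit 3) (nat_lit 4) (nat_lit 4) (nat_lit 5) (nat_lit 4) (nat_lit 4) (nat_lit 332) (nat_lit 292) (nat_lit 156))))) (XT.nd (nat_lit 156) (nat_lit 0) (nat_lit 0) (XT.nd (nat_lit 78) (nat_lit 76) (nat_lit 0) (XT.lf (nat_lit 0) (nat_lit 161967576701) (nat_lit 152) (nat_lit 325473162574) (nat_lit 76) (nat_lit 27538111739954) (nat_lit 2) (nat_lit 5) (nat_lit 4) (nat_lit 5) (nat_lit 3) (nat_lit 4) (nat_lit 333) (nat_lit 292) (nat_lit 155)) (XT.lf (nat_lit 0) (nat_lit 1032716182404) (nat_lit 152) (nat_lit 30609199522549) (nat_lit 0) (nat_lit 446887092919) (nat_lit 1) (nat_lit 5) (nat_lit 3) (nat_lit 4) (nat_lit 1) (nat_lit 4) (nat_lit 334) (nat_lit 292) (nat_lit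 154))) (XT.nd (nat_lit 78) (nat_lit 0) (nat_lit 0) (XT.lf (nat_lit 0) (nat_lit 2075112071919) (nat_lit 152) (nat_lit 33190990361337) (nat_lit 0) (nat_lit 1489282982113) (nat_lit 1) (nat_lit 5) (nat_lit 3) (nat_lit 4) (nat_lit 1) (nat_lit 4) (nat_lit 335) (nat_lit 292) (nat_lit 153)) (XT.nd (nat_lit 78) (nat_lit 0) (nat_lit 0) (XT.lf (nat_lit 0) (nat_lit 3273867343861) (nat_lit 152) (nat_lit 36160049828003) (nat_lit 0) (nat_lit 2688038253776) (nat_lit 1) (nat_lit 5) (nat_lit 3) (nat_lit 4) (nat_lit 1) (nat_lit 4) (nat_lit 336) (nat_lit 292) (nat_lit 152)) (XT.lf (nat_lit 0) (nat_lit 4652435905725) (nat_lit 152) (nat_lit 39574468216460) (nat_lit 0) (nat_lit 4066606815397) (nat_lit 1) (nat_lit 5) (nat_lit 3) (nat_lit 4) (nat_lit 1) (nat_lit 4) (nat_lit 337) (nat_lit 292) (nat_lit 151))))))) (XT.nd (nat_lit 37284) (nat_lit 0) (nat_lit 988) (XT.nd (nat_lit 468) (nat_lit 0) (nat_lit 0) (XT.nd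 (nat_lit 234) (nat_lit 0) (nat_lit 0) (XT.nd (nat_lit 156) (nat_lit 0) (nat_lit 0) (XT.lf (nat_lit 0) (nat_lit 6237789751112) (nat_lit 152) (nat_lit 43501049364745) (nat_lit 0) (nat_lit 5651960660573) (nat_lit 1) (nat_lit 5) (nat_lit 3) (nat_lit 4) (nat_lit 1) (nat_lit 4) (nat_lit 338) (nat_lit 292) (nat_lit 150)) (XT.lf (nat_lit 0) (nat_lit 10157577131847) (nat_lit 152) (nat_lit 53209521257968) (nat_lit 0) (nat_lit 9571748040964) (nat_lit 1) (nat_lit 5) (nat_lit 3) (nat_lit 4) (nat_lit 1) (nat_lit 4) (nat_lit 340) (nat_lit 292) (nat_lit 148))) (XT.nd (nat_lit 78) (nat_lit 0) (nat_lit 0) (XT.lf (nat_lit 0) (nat_lit 12568702159426) (nat_lit 152) (nat_lit 59181360366035) (nat_lit 0) (nat_lit 11982873068405) (nat_lit 1) (nat_lit 5) (nat_lit 3) (nat_lit 4) (nat_lit 1) (nat_lit 4) (nat_lit 341) (nat_lit 292) (nat_lit 147)) (XT.nd (nat_lit 78) (nat_lit 0) (nat_lit 0) (XT.lf (nat_lit 0) (nat_lit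 15341495940710) (nat_lit 152) (nat_lit 66048975341203) (nat_lit 0) (nat_lit 14755666849568) (nat_lit 1) (nat_lit 5) (nat_lit 3) (nat_lit 4) (nat_lit 1) (nat_lit 4) (nat_lit 342) (nat_lit 292) (nat_lit 146)) (XT.lf (nat_lit 0) (nat_lit 18530208788811) (nat_lit 152) (nat_lit 73946732563421) (nat_lit 0) (nat_lit 17944379697563) (nat_lit 1) (nat_lit 5) (nat_lit 3) (nat_lit 4) (nat_lit 1) (nat_lit 4) (nat_lit 343) (nat_lit 292) (nat_lit 145))))) (XT.nd (nat_lit 156) (nat_lit 0) (nat_lit 0) (XT.nd (nat_lit 78) (nat_lit 0) (nat_lit 0) (XT.lf (nat_lit 0) (nat_lit 22197228563799) (nat_lit 152) (nat_lit 83029153369646) (nat_lit 0) (nat_lit 21611399472461) (nat_lit 1) (nat_lit 5) (nat_lit 3) (nat_lit 4) (nat_lit 1) (nat_lit 4) (nat_lit 344) (nat_lit 292) (nat_lit 144)) (XT.lf (nat_lit 0) (nat_lit 26414301304752) (nat_lit 152) (nat_lit 93473937297389) (nat_lit 0) (nat_lit 25828472213334) (nat_lit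 1) (nat_lit 5) (nat_lit 3) (nat_lit 4) (nat_lit 1) (nat_lit 4) (nat_lit 345) (nat_lit 292) (nat_lit 143))) (XT.nd (nat_lit 36504) (nat_lit 0) (nat_lit 1596) (XT.lf (nat_lit 0) (nat_lit 31263934956601) (nat_lit 152) (nat_lit 105485438814803) (nat_lit 0) (nat_lit 30678105865113) (nat_lit 1) (nat_lit 5) (nat_lit 3) (nat_lit 4) (nat_lit 1) (nat_lit 4) (nat_lit 346) (nat_lit 292) (nat_lit 142)) (XT.nd (nat_lit 78) (nat_lit 0) (nat_lit 0) (XT.lf (nat_lit 0) (nat_lit 33153127808) (nat_lit 380) (nat_lit 85907759135) (nat_lit 380) (nat_lit 85907759135) (nat_lit 22) (nat_lit 3) (nat_lit 27) (nat_lit 3) (nat_lit 27) (nat_lit 5) (nat_lit 293) (nat_lit 293) (nat_lit 194)) (XT.lf (nat_lit 76) (nat_lit 21637838838) (nat_lit 0) (nat_lit 50537716182) (nat_lit 380) (nat_lit 368372583169) (nat_lit 23) (nat_lit 5) (nat_lit 22) (nat_lit 3) (nat_lit 27) (nat_lit 5) (nat_lit 294) (nat_lit 293) (nat_lit 193))))))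 (XT.nd (nat_lit 390) (nat_lit 456) (nat_lit 0) (XT.nd (nat_lit 156) (nat_lit 228) (nat_lit 0) (XT.nd (nat_lit 78) (nat_lit 0) (nat_lit 0) (XT.lf (nat_lit 0) (nat_lit 95174045941) (nat_lit 304) (nat_lit 218252145690) (nat_lit 380) (nat_lit 159887100244) (nat_lit 23) (nat_lit 5) (nat_lit 27) (nat_lit 5) (nat_lit 28) (nat_lit 5) (nat_lit 295) (nat_lit 293) (nat_lit 192)) (XT.lf (nat_lit 76) (nat_lit 11084991526) (nat_lit 0) (nat_lit 113402827476) (nat_lit 380) (nat_lit 386075573545) (nat_lit 24) (nat_lit 5) (nat_lit 23) (nat_lit 5) (nat_lit 28) (nat_lit 5) (nat_lit 296) (nat_lit 293) (nat_lit 191))) (XT.nd (nat_lit 78) (nat_lit 304) (nat_lit 0) (XT.lf (nat_lit 0) (nat_lit 174979664595) (nat_lit 304) (nat_lit 257710920070) (nat_lit 76) (nat_lit 118193272850) (nat_lit 24) (nat_lit 5) (nat_lit 28) (nat_lit 5) (nat_lit 25) (nat_lit 5) (nat_lit 297) (nat_lit 293) (nat_lit 190)) (XT.nd (nat_lit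 78) (nat_lit 0) (nat_lit 0) (XT.lf (nat_lit 0) (nat_lit 16379742749) (nat_lit 304) (nat_lit 222743886099) (nat_lit 380) (nat_lit 357217012263) (nat_lit 20) (nat_lit 5) (nat_lit 24) (nat_lit 5) (nat_lit 25) (nat_lit 5) (nat_lit 298) (nat_lit 293) (nat_lit 189)) (XT.lf (nat_lit 0) (nat_lit 327776001867) (nat_lit 380) (nat_lit 287463704447) (nat_lit 76) (nat_lit 31143213951) (nat_lit 20) (nat_lit 5) (nat_lit 25) (nat_lit 5) (nat_lit 21) (nat_lit 5) (nat_lit 299) (nat_lit 293) (nat_lit 188))))) (XT.nd (nat_lit 156) (nat_lit 304) (nat_lit 0) (XT.nd (nat_lit 78) (nat_lit 0) (nat_lit 0) (XT.lf (nat_lit 0) (nat_lit 42044244934) (nat_lit 152) (nat_lit 400029766016) (nat_lit 228) (nat_lit 260005363444) (nat_lit 18) (nat_lit 5) (nat_lit 20) (nat_lit 5) (nat_lit 21) (nat_lit 5) (nat_lit 300) (nat_lit 293) (nat_lit 187)) (XT.lf (nat_lit 0) (nat_lit 453285347696) (nat_lit 152) (nat_lit 135257854212)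 (nat_lit 228) (nat_lit 175333122761) (nat_lit 18) (nat_lit 5) (nat_lit 20) (nat_lit 5) (nat_lit 21) (nat_lit 5) (nat_lit 301) (nat_lit 293) (nat_lit 186))) (XT.nd (nat_lit 78) (nat_lit 228) (nat_lit 0) (XT.lf (nat_lit 0) (nat_lit 92497039295) (nat_lit 76) (nat_lit 675323256813) (nat_lit 152) (nat_lit 65496892778) (nat_lit 17) (nat_lit 5) (nat_lit 18) (nat_lit 5) (nat_lit 19) (nat_lit 4) (nat_lit 302) (nat_lit 293) (nat_lit 185)) (XT.nd (nat_lit 78) (nat_lit 152) (nat_lit 0) (XT.lf (nat_lit 0) (nat_lit 78849997161) (nat_lit 152) (nat_lit 329516634041) (nat_lit 76) (nat_lit 500912413553) (nat_lit 16) (nat_lit 5) (nat_lit 18) (nat_lit 5) (nat_lit 17) (nat_lit 5) (nat_lit 303) (nat_lit 293) (nat_lit 184)) (XT.lf (nat_lit 0) (nat_lit 154080814779) (nat_lit 152) (nat_lit 90442606278) (nat_lit 228) (nat_lit 750686902850) (nat_lit 14) (nat_lit 5) (nat_lit 16) (nat_lit 5) (nat_lit 17) (nat_lit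 5) (nat_lit 304) (nat_lit 293) (nat_lit 183))))))))
noncomputable def xc105 : XT := (XT.nd (nat_lit 1482) (nat_lit 228) (nat_lit 0) (XT.nd (nat_lit 702) (nat_lit 380) (nat_lit 0) (XT.nd (nat_lit 312) (nat_lit 152) (nat_lit 0) (XT.nd (nat_lit 156) (nat_lit 152) (nat_lit 0) (XT.nd (nat_lit 78) (nat_lit 76) (nat_lit 0) (XT.lf (nat_lit 0) (nat_lit 464486998891) (nat_lit 228) (nat_lit 356410992303) (nat_lit 76) (nat_lit 268717432737) (nat_lit 14) (nat_lit 5) (nat_lit 17) (nat_lit 5) (nat_lit 15) (nat_lit 4) (nat_lit 305) (nat_lit 293) (nat_lit 182)) (XT.lf (nat_lit 0) (nat_lit 215932263896) (nat_lit 76) (nat_lit 514760915716) (nat_lit 152) (nat_lit 465500899459) (nat_lit 13) (nat_lit 5) (nat_lit 14) (nat_lit 5) (nat_lit 15) (nat_lit 4) (nat_lit 306) (nat_lit 293) (nat_lit 181))) (XT.nd (nat_lit 78) (nat_lit 152) (nat_lit 0) (XT.lf (nat_lit 0) (nat_lit 914182714601) (nat_lit 76) (nat_lit 141278129586)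 (nat_lit 152) (nat_lit 260504104821) (nat_lit 13) (nat_lit 5) (nat_lit 14) (nat_lit 5) (nat_lit 15) (nat_lit 4) (nat_lit 307) (nat_lit 293) (nat_lit 180)) (XT.lf (nat_lit 0) (nat_lit 1927325601) (nat_lit 152) (nat_lit 1174167662882) (nat_lit 76) (nat_lit 274088085057) (nat_lit 11) (nat_lit 5) (nat_lit 13) (nat_lit 5) (nat_lit 12) (nat_lit 4) (nat_lit 308) (nat_lit 293) (nat_lit 179)))) (XT.nd (nat_lit 156) (nat_lit 76) (nat_lit 0) (XT.nd (nat_lit 78) (nat_lit 76) (nat_lit 0) (XT.lf (nat_lit 0) (nat_lit 305782686993) (nat_lit 152) (nat_lit 520878654387) (nat_lit 76) (nat_lit 771702350578) (nat_lit 11) (nat_lit 5) (nat_lit 13) (nat_lit 5) (nat_lit 12) (nat_lit 4) (nat_lit 309) (nat_lit 293) (nat_lit 178)) (XT.lf (nat_lit 0) (nat_lit 252920404650) (nat_lit 76) (nat_lit 412768828911) (nat_lit 152) (nat_lit 1101511237455) (nat_lit 10) (nat_lit 5) (nat_lit 11) (nat_lit 5) (nat_lit 12) (nat_lit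 4) (nat_lit 310) (nat_lit 293) (nat_lit 177))) (XT.nd (nat_lit 78) (nat_lit 76) (nat_lit 0) (XT.lf (nat_lit 0) (nat_lit 1110723346433) (nat_lit 152) (nat_lit 759863498606) (nat_lit 0) (nat_lit 86104684265) (nat_lit 10) (nat_lit 5) (nat_lit 12) (nat_lit 4) (nat_lit 10) (nat_lit 4) (nat_lit 311) (nat_lit 293) (nat_lit 176)) (XT.nd (nat_lit 78) (nat_lit 0) (nat_lit 0) (XT.lf (nat_lit 0) (nat_lit 96665725818) (nat_lit 76) (nat_lit 1549505218995) (nat_lit 76) (nat_lit 524886546252) (nat_lit 9) (nat_lit 4) (nat_lit 10) (nat_lit 5) (nat_lit 10) (nat_lit 4) (nat_lit 312) (nat_lit 293) (nat_lit 175)) (XT.lf (nat_lit 0) (nat_lit 1167072609000) (nat_lit 76) (nat_lit 1134583200529) (nat_lit 76) (nat_lit 109964518589) (nat_lit 9) (nat_lit 4) (nat_lit 10) (nat_lit 5) (nat_lit 10) (nat_lit 4) (nat_lit 313) (nat_lit 293) (nat_lit 174)))))) (XT.nd (nat_lit 390) (nat_lit 152) (nat_lit 0) (XT.nd (nat_lit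 156) (nat_lit 76) (nat_lit 0) (XT.nd (nat_lit 78) (nat_lit 76) (nat_lit 0) (XT.lf (nat_lit 0) (nat_lit 334505492832) (nat_lit 152) (nat_lit 305431880346) (nat_lit 76) (nat_lit 2046049499710) (nat_lit 8) (nat_lit 5) (nat_lit 10) (nat_lit 5) (nat_lit 9) (nat_lit 4) (nat_lit 314) (nat_lit 293) (nat_lit 173)) (XT.lf (nat_lit 0) (nat_lit 844497960588) (nat_lit 76) (nat_lit 24858624285) (nat_lit 152) (nat_lit 2126121026007) (nat_lit 7) (nat_lit 5) (nat_lit 8) (nat_lit 5) (nat_lit 9) (nat_lit 4) (nat_lit 315) (nat_lit 293) (nat_lit 172))) (XT.nd (nat_lit 78) (nat_lit 76) (nat_lit 0) (XT.lf (nat_lit 0) (nat_lit 1529421485445) (nat_lit 152) (nat_lit 1176773852141) (nat_lit 0) (nat_lit 638448700283) (nat_lit 7) (nat_lit 5) (nat_lit 9) (nat_lit 4) (nat_lit 7) (nat_lit 4) (nat_lit 316) (nat_lit 293) (nat_lit 171)) (XT.nd (nat_lit 78) (nat_lit 76) (nat_lit 0) (XT.lf (nat_lit 0) (nat_lit 2289679857785)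 (nat_lit 152) (nat_lit 57620942576) (nat_lit 0) (nat_lit 1398707068050) (nat_lit 7) (nat_lit 5) (nat_lit 9) (nat_lit 4) (nat_lit 7) (nat_lit 4) (nat_lit 317) (nat_lit 293) (nat_lit 170)) (XT.lf (nat_lit 0) (nat_lit 1349551278066) (nat_lit 76) (nat_lit 1870307742034) (nat_lit 76) (nat_lit 979334948324) (nat_lit 6) (nat_lit 4) (nat_lit 7) (nat_lit 5) (nat_lit 7) (nat_lit 4) (nat_lit 318) (nat_lit 293) (nat_lit 169))))) (XT.nd (nat_lit 156) (nat_lit 76) (nat_lit 0) (XT.nd (nat_lit 78) (nat_lit 76) (nat_lit 0) (XT.lf (nat_lit 0) (nat_lit 2974275128145) (nat_lit 76) (nat_lit 1318301926399) (nat_lit 76) (nat_lit 427329129231) (nat_lit 6) (nat_lit 4) (nat_lit 7) (nat_lit 5) (nat_lit 7) (nat_lit 4) (nat_lit 319) (nat_lit 293) (nat_lit 168)) (XT.lf (nat_lit 0) (nat_lit 189006469857) (nat_lit 152) (nat_lit 484608889979) (nat_lit 76) (nat_lit 4643821191910) (nat_lit 5) (nat_lit 5) (nat_lit 7) (nat_lit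 5) (nat_lit 6) (nat_lit 4) (nat_lit 320) (nat_lit 293) (nat_lit 167))) (XT.nd (nat_lit 78) (nat_lit 0) (nat_lit 0) (XT.lf (nat_lit 0) (nat_lit 902827786832) (nat_lit 152) (nat_lit 4963329648088) (nat_lit 0) (nat_lit 128068827886) (nat_lit 4) (nat_lit 5) (nat_lit 6) (nat_lit 4) (nat_lit 4) (nat_lit 4) (nat_lit 321) (nat_lit 293) (nat_lit 166)) (XT.nd (nat_lit 78) (nat_lit 0) (nat_lit 0) (XT.lf (nat_lit 0) (nat_lit 1782337324410) (nat_lit 152) (nat_lit 3973826489169) (nat_lit 0) (nat_lit 1007578363488) (nat_lit 4) (nat_lit 5) (nat_lit 6) (nat_lit 4) (nat_lit 4) (nat_lit 4) (nat_lit 322) (nat_lit 293) (nat_lit 165)) (XT.lf (nat_lit 0) (nat_lit 2793773288522) (nat_lit 152) (nat_lit 2835897864684) (nat_lit 0) (nat_lit 2019014325881) (nat_lit 4) (nat_lit 5) (nat_lit 6) (nat_lit 4) (nat_lit 4) (nat_lit 4) (nat_lit 323) (nat_lit 293) (nat_lit 164))))))) (XT.nd (nat_lit 780) (nat_lit 152) (nat_lit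 0) (XT.nd (nat_lit 390) (nat_lit 0) (nat_lit 0) (XT.nd (nat_lit 156) (nat_lit 76) (nat_lit 0) (XT.nd (nat_lit 78) (nat_lit 0) (nat_lit 0) (XT.lf (nat_lit 0) (nat_lit 3956924643683) (nat_lit 152) (nat_lit 1527279953718) (nat_lit 0) (nat_lit 3182165679546) (nat_lit 4) (nat_lit 5) (nat_lit 6) (nat_lit 4) (nat_lit 4) (nat_lit 4) (nat_lit 324) (nat_lit 293) (nat_lit 163)) (XT.lf (nat_lit 0) (nat_lit 5294548699014) (nat_lit 152) (nat_lit 22369362361) (nat_lit 0) (nat_lit 4519789733578) (nat_lit 4) (nat_lit 5) (nat_lit 6) (nat_lit 4) (nat_lit 4) (nat_lit 4) (nat_lit 325) (nat_lit 293) (nat_lit 162))) (XT.nd (nat_lit 78) (nat_lit 0) (nat_lit 0) (XT.lf (nat_lit 0) (nat_lit 1875223143913) (nat_lit 76) (nat_lit 5035242207500) (nat_lit 76) (nat_lit 4260483240934) (nat_lit 3) (nat_lit 4) (nat_lit 4) (nat_lit 5) (nat_lit 4) (nat_lit 4) (nat_lit 326) (nat_lit 293) (nat_lit 161)) (XT.nd (nat_lit 78)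 (nat_lit 0) (nat_lit 0) (XT.lf (nat_lit 0) (nat_lit 4059968532231) (nat_lit 76) (nat_lit 4709970274459) (nat_lit 76) (nat_lit 3935211306910) (nat_lit 3) (nat_lit 4) (nat_lit 4) (nat_lit 5) (nat_lit 4) (nat_lit 4) (nat_lit 327) (nat_lit 293) (nat_lit 160)) (XT.lf (nat_lit 0) (nat_lit 6572425724282) (nat_lit 76) (nat_lit 4335907553748) (nat_lit 76) (nat_lit 3561148585345) (nat_lit 3) (nat_lit 4) (nat_lit 4) (nat_lit 5) (nat_lit 4) (nat_lit 4) (nat_lit 328) (nat_lit 293) (nat_lit 159))))) (XT.nd (nat_lit 156) (nat_lit 0) (nat_lit 0) (XT.nd (nat_lit 78) (nat_lit 0) (nat_lit 0) (XT.lf (nat_lit 0) (nat_lit 9461751491215) (nat_lit 76) (nat_lit 3905735426920) (nat_lit 76) (nat_lit 3130976457773) (nat_lit 3) (nat_lit 4) (nat_lit 4) (nat_lit 5) (nat_lit 4) (nat_lit 4) (nat_lit 329) (nat_lit 293) (nat_lit 158)) (XT.lf (nat_lit 0) (nat_lit 12784476119776) (nat_lit 76) (nat_lit 3411037482796) (nat_lit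 76) (nat_lit 2636278513003) (nat_lit 3) (nat_lit 4) (nat_lit 4) (nat_lit 5) (nat_lit 4) (nat_lit 4) (nat_lit 330) (nat_lit 293) (nat_lit 157))) (XT.nd (nat_lit 78) (nat_lit 0) (nat_lit 0) (XT.lf (nat_lit 0) (nat_lit 16605609439652) (nat_lit 76) (nat_lit 2842134848558) (nat_lit 76) (nat_lit 2067375878203) (nat_lit 3) (nat_lit 4) (nat_lit 4) (nat_lit 5) (nat_lit 4) (nat_lit 4) (nat_lit 331) (nat_lit 293) (nat_lit 156)) (XT.nd (nat_lit 78) (nat_lit 0) (nat_lit 0) (XT.lf (nat_lit 0) (nat_lit 20999912754929) (nat_lit 76) (nat_lit 2187896820491) (nat_lit 76) (nat_lit 1413137849648) (nat_lit 3) (nat_lit 4) (nat_lit 4) (nat_lit 5) (nat_lit 4) (nat_lit 4) (nat_lit 332) (nat_lit 293) (nat_lit 155)) (XT.lf (nat_lit 0) (nat_lit 26053361565254) (nat_lit 76) (nat_lit 1435523089352) (nat_lit 76) (nat_lit 660764118083) (nat_lit 3) (nat_lit 4) (nat_lit 4) (nat_lit 5) (nat_lit 4) (nat_lit 4) (nat_lit 333)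 (nat_lit 293) (nat_lit 154)))))) (XT.nd (nat_lit 468) (nat_lit 0) (nat_lit 0) (XT.nd (nat_lit 156) (nat_lit 0) (nat_lit 0) (XT.nd (nat_lit 78) (nat_lit 76) (nat_lit 0) (XT.lf (nat_lit 0) (nat_lit 186262724073) (nat_lit 152) (nat_lit 374294114880) (nat_lit 76) (nat_lit 31668828510526) (nat_lit 2) (nat_lit 5) (nat_lit 4) (nat_lit 5) (nat_lit 3) (nat_lit 4) (nat_lit 334) (nat_lit 293) (nat_lit 153)) (XT.lf (nat_lit 0) (nat_lit 1187623620532) (nat_lit 152) (nat_lit 35200579428747) (nat_lit 0) (nat_lit 513920166654) (nat_lit 1) (nat_lit 5) (nat_lit 3) (nat_lit 4) (nat_lit 1) (nat_lit 4) (nat_lit 335) (nat_lit 293) (nat_lit 152))) (XT.nd (nat_lit 78) (nat_lit 0) (nat_lit 0) (XT.lf (nat_lit 0) (nat_lit 2386378892069) (nat_lit 152) (nat_lit 38169638896246) (nat_lit 0) (nat_lit 1712675437949) (nat_lit 1) (nat_lit 5) (nat_lit 3) (nat_lit 4) (nat_lit 1) (nat_lit 4) (nat_lit 336) (nat_lit 293) (nat_lit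 151)) (XT.nd (nat_lit 78) (nat_lit 0) (nat_lit 0) (XT.lf (nat_lit 0) (nat_lit 3764947453582) (nat_lit 152) (nat_lit 41584057285429) (nat_lit 0) (nat_lit 3091243999250) (nat_lit 1) (nat_lit 5) (nat_lit 3) (nat_lit 4) (nat_lit 1) (nat_lit 4) (nat_lit 337) (nat_lit 293) (nat_lit 150)) (XT.lf (nat_lit 0) (nat_lit 5350301298663) (nat_lit 152) (nat_lit 45510638434343) (nat_lit 0) (nat_lit 4676597844148) (nat_lit 1) (nat_lit 5) (nat_lit 3) (nat_lit 4) (nat_lit 1) (nat_lit 4) (nat_lit 338) (nat_lit 293) (nat_lit 149))))) (XT.nd (nat_lit 156) (nat_lit 0) (nat_lit 0) (XT.nd (nat_lit 78) (nat_lit 0) (nat_lit 0) (XT.lf (nat_lit 0) (nat_lit 9270088678901) (nat_lit 152) (nat_lit 55219110328590) (nat_lit 0) (nat_lit 8596385224087) (nat_lit 1) (nat_lit 5) (nat_lit 3) (nat_lit 4) (nat_lit 1) (nat_lit 4) (nat_lit 340) (nat_lit 293) (nat_lit 147)) (XT.lf (nat_lit 0) (nat_lit 11681213706279) (nat_lit 152)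 (nat_lit 61190949437072) (nat_lit 0) (nat_lit 11007510251345) (nat_lit 1) (nat_lit 5) (nat_lit 3) (nat_lit 4) (nat_lit 1) (nat_lit 4) (nat_lit 341) (nat_lit 293) (nat_lit 146))) (XT.nd (nat_lit 78) (nat_lit 0) (nat_lit 0) (XT.lf (nat_lit 0) (nat_lit 14454007487388) (nat_lit 152) (nat_lit 68058564412601) (nat_lit 0) (nat_lit 13780304032349) (nat_lit 1) (nat_lit 5) (nat_lit 3) (nat_lit 4) (nat_lit 1) (nat_lit 4) (nat_lit 342) (nat_lit 293) (nat_lit 145)) (XT.nd (nat_lit 78) (nat_lit 0) (nat_lit 0) (XT.lf (nat_lit 0) (nat_lit 17642720335337) (nat_lit 152) (nat_lit 75956321635132) (nat_lit 0) (nat_lit 16969016880206) (nat_lit 1) (nat_lit 5) (nat_lit 3) (nat_lit 4) (nat_lit 1) (nat_lit 4) (nat_lit 343) (nat_lit 293) (nat_lit 144)) (XT.lf (nat_lit 0) (nat_lit 21309740110193) (nat_lit 152) (nat_lit 85038742441628) (nat_lit 0) (nat_lit 20636036654983) (nat_lit 1) (nat_lit 5) (nat_lit 3) (nat_lit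 4) (nat_lit 1) (nat_lit 4) (nat_lit 344) (nat_lit 293) (nat_lit 143))))))))
noncomputable def xc106 : XT := (XT.nd (nat_lit 37986) (nat_lit 0) (nat_lit 152) (XT.nd (nat_lit 37206) (nat_lit 0) (nat_lit 760) (XT.nd (nat_lit 36816) (nat_lit 0) (nat_lit 1444) (XT.nd (nat_lit 36660) (nat_lit 0) (nat_lit 1596) (XT.nd (nat_lit 78) (nat_lit 0) (nat_lit 0) (XT.lf (nat_lit 0) (nat_lit 25526812851031) (nat_lit 152) (nat_lit 95483526369609) (nat_lit 0) (nat_lit 24853109395751) (nat_lit 1) (nat_lit 5) (nat_lit 3) (nat_lit 4) (nat_lit 1) (nat_lit 4) (nat_lit 345) (nat_lit 293) (nat_lit 142)) (XT.lf (nat_lit 0) (nat_lit 30376446502779) (nat_lit 152) (nat_lit 107495027887229) (nat_lit 0) (nat_lit 29702743047440) (nat_lit 1) (nat_lit 5) (nat_lit 3) (nat_lit 4) (nat_lit 1) (nat_lit 4) (nat_lit 346) (nat_lit 293) (nat_lit 141))) (XT.nd (nat_lit 78) (nat_lit 0) (nat_lit 0) (XT.lf (nat_lit 0) (nat_lit 38126435812)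 (nat_lit 380) (nat_lit 98793727532) (nat_lit 380) (nat_lit 98793727532) (nat_lit 22) (nat_lit 3) (nat_lit 27) (nat_lit 3) (nat_lit 27) (nat_lit 5) (nat_lit 294) (nat_lit 294) (nat_lit 192)) (XT.lf (nat_lit 76) (nat_lit 24883887840) (nat_lit 0) (nat_lit 58118605160) (nat_lit 380) (nat_lit 423627772968) (nat_lit 23) (nat_lit 5) (nat_lit 22) (nat_lit 3) (nat_lit 27) (nat_lit 5) (nat_lit 295) (nat_lit 294) (nat_lit 191)))) (XT.nd (nat_lit 156) (nat_lit 228) (nat_lit 0) (XT.nd (nat_lit 78) (nat_lit 0) (nat_lit 0) (XT.lf (nat_lit 0) (nat_lit 109450670345) (nat_lit 304) (nat_lit 250989553879) (nat_lit 380) (nat_lit 183869981857) (nat_lit 23) (nat_lit 5) (nat_lit 27) (nat_lit 5) (nat_lit 28) (nat_lit 5) (nat_lit 296) (nat_lit 294) (nat_lit 190)) (XT.lf (nat_lit 76) (nat_lit 12748135116) (nat_lit 0) (nat_lit 130413323097) (nat_lit 380) (nat_lit 443986371567) (nat_lit 24) (nat_lit 5) (nat_lit 23)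 (nat_lit 5) (nat_lit 28) (nat_lit 5) (nat_lit 297) (nat_lit 294) (nat_lit 189))) (XT.nd (nat_lit 78) (nat_lit 304) (nat_lit 0) (XT.lf (nat_lit 0) (nat_lit 201227017241) (nat_lit 304) (nat_lit 296367149844) (nat_lit 76) (nat_lit 135922207139) (nat_lit 24) (nat_lit 5) (nat_lit 28) (nat_lit 5) (nat_lit 25) (nat_lit 5) (nat_lit 298) (nat_lit 294) (nat_lit 188)) (XT.nd (nat_lit 78) (nat_lit 0) (nat_lit 0) (XT.lf (nat_lit 0) (nat_lit 18837093841) (nat_lit 304) (nat_lit 256155445867) (nat_lit 380) (nat_lit 410799141308) (nat_lit 20) (nat_lit 5) (nat_lit 24) (nat_lit 5) (nat_lit 25) (nat_lit 5) (nat_lit 299) (nat_lit 294) (nat_lit 187)) (XT.lf (nat_lit 0) (nat_lit 376942721704) (nat_lit 380) (nat_lit 330582873172) (nat_lit 76) (nat_lit 35814714380) (nat_lit 20) (nat_lit 5) (nat_lit 25) (nat_lit 5) (nat_lit 21) (nat_lit 5) (nat_lit 300) (nat_lit 294) (nat_lit 186)))))) (XT.nd (nat_lit 390) (nat_lit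 228) (nat_lit 0) (XT.nd (nat_lit 156) (nat_lit 304) (nat_lit 0) (XT.nd (nat_lit 78) (nat_lit 0) (nat_lit 0) (XT.lf (nat_lit 0) (nat_lit 48351251028) (nat_lit 152) (nat_lit 460034154735) (nat_lit 228) (nat_lit 299005829846) (nat_lit 18) (nat_lit 5) (nat_lit 20) (nat_lit 5) (nat_lit 21) (nat_lit 5) (nat_lit 301) (nat_lit 294) (nat_lit 185)) (XT.lf (nat_lit 0) (nat_lit 521278471027) (nat_lit 152) (nat_lit 155546466098) (nat_lit 228) (nat_lit 201632797162) (nat_lit 18) (nat_lit 5) (nat_lit 20) (nat_lit 5) (nat_lit 21) (nat_lit 5) (nat_lit 302) (nat_lit 294) (nat_lit 184))) (XT.nd (nat_lit 78) (nat_lit 228) (nat_lit 0) (XT.lf (nat_lit 0) (nat_lit 106371936455) (nat_lit 76) (nat_lit 776621642265) (nat_lit 152) (nat_lit 75321152038) (nat_lit 17) (nat_lit 5) (nat_lit 18) (nat_lit 5) (nat_lit 19) (nat_lit 4) (nat_lit 303) (nat_lit 294) (nat_lit 183)) (XT.nd (nat_lit 78) (nat_lit 152) (nat_lit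 0) (XT.lf (nat_lit 0) (nat_lit 90677714306) (nat_lit 152) (nat_lit 378943810578) (nat_lit 76) (nat_lit 576049343396) (nat_lit 16) (nat_lit 5) (nat_lit 18) (nat_lit 5) (nat_lit 17) (nat_lit 5) (nat_lit 304) (nat_lit 294) (nat_lit 182)) (XT.lf (nat_lit 0) (nat_lit 177193241085) (nat_lit 152) (nat_lit 104008894914) (nat_lit 228) (nat_lit 863289705746) (nat_lit 14) (nat_lit 5) (nat_lit 16) (nat_lit 5) (nat_lit 17) (nat_lit 5) (nat_lit 305) (nat_lit 294) (nat_lit 181))))) (XT.nd (nat_lit 156) (nat_lit 152) (nat_lit 0) (XT.nd (nat_lit 78) (nat_lit 76) (nat_lit 0) (XT.lf (nat_lit 0) (nat_lit 534160227872) (nat_lit 228) (nat_lit 409872353669) (nat_lit 76) (nat_lit 309025128689) (nat_lit 14) (nat_lit 5) (nat_lit 17) (nat_lit 5) (nat_lit 15) (nat_lit 4) (nat_lit 306) (nat_lit 294) (nat_lit 180)) (XT.lf (nat_lit 0) (nat_lit 248322377892) (nat_lit 76) (nat_lit 591974945804) (nat_lit 152) (nat_lit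 535325841799) (nat_lit 13) (nat_lit 5) (nat_lit 14) (nat_lit 5) (nat_lit 15) (nat_lit 4) (nat_lit 307) (nat_lit 294) (nat_lit 179))) (XT.nd (nat_lit 78) (nat_lit 152) (nat_lit 0) (XT.lf (nat_lit 0) (nat_lit 1051310360411) (nat_lit 76) (nat_lit 162469755746) (nat_lit 152) (nat_lit 299579553084) (nat_lit 13) (nat_lit 5) (nat_lit 14) (nat_lit 5) (nat_lit 15) (nat_lit 4) (nat_lit 308) (nat_lit 294) (nat_lit 178)) (XT.nd (nat_lit 78) (nat_lit 0) (nat_lit 0) (XT.lf (nat_lit 0) (nat_lit 2216571250) (nat_lit 152) (nat_lit 1350292552529) (nat_lit 76) (nat_lit 315201388532) (nat_lit 11) (nat_lit 5) (nat_lit 13) (nat_lit 5) (nat_lit 12) (nat_lit 4) (nat_lit 309) (nat_lit 294) (nat_lit 177)) (XT.lf (nat_lit 0) (nat_lit 351650217701) (nat_lit 152) (nat_lit 599010226645) (nat_lit 76) (nat_lit 887457782049) (nat_lit 11) (nat_lit 5) (nat_lit 13) (nat_lit 5) (nat_lit 12) (nat_lit 4) (nat_lit 310) (nat_lit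 294) (nat_lit 176))))))) (XT.nd (nat_lit 780) (nat_lit 228) (nat_lit 0) (XT.nd (nat_lit 390) (nat_lit 152) (nat_lit 0) (XT.nd (nat_lit 156) (nat_lit 152) (nat_lit 0) (XT.nd (nat_lit 78) (nat_lit 0) (nat_lit 0) (XT.lf (nat_lit 0) (nat_lit 290858680979) (nat_lit 76) (nat_lit 474684057552) (nat_lit 152) (nat_lit 1266737784965) (nat_lit 10) (nat_lit 5) (nat_lit 11) (nat_lit 5) (nat_lit 12) (nat_lit 4) (nat_lit 311) (nat_lit 294) (nat_lit 175)) (XT.lf (nat_lit 0) (nat_lit 1277331956136) (nat_lit 152) (nat_lit 873842823535) (nat_lit 0) (nat_lit 99020462709) (nat_lit 10) (nat_lit 5) (nat_lit 12) (nat_lit 4) (nat_lit 10) (nat_lit 4) (nat_lit 312) (nat_lit 294) (nat_lit 174))) (XT.nd (nat_lit 78) (nat_lit 76) (nat_lit 0) (XT.lf (nat_lit 0) (nat_lit 111165775468) (nat_lit 76) (nat_lit 1781930912653) (nat_lit 76) (nat_lit 603619411229) (nat_lit 9) (nat_lit 4) (nat_lit 10) (nat_lit 5) (nat_lit 10)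 (nat_lit 4) (nat_lit 313) (nat_lit 294) (nat_lit 173)) (XT.nd (nat_lit 78) (nat_lit 76) (nat_lit 0) (XT.lf (nat_lit 0) (nat_lit 1342133666243) (nat_lit 76) (nat_lit 1304770603051) (nat_lit 76) (nat_lit 126459094673) (nat_lit 9) (nat_lit 4) (nat_lit 10) (nat_lit 5) (nat_lit 10) (nat_lit 4) (nat_lit 314) (nat_lit 294) (nat_lit 172)) (XT.lf (nat_lit 0) (nat_lit 384681397322) (nat_lit 152) (nat_lit 351246510180) (nat_lit 76) (nat_lit 2352956984145) (nat_lit 8) (nat_lit 5) (nat_lit 10) (nat_lit 5) (nat_lit 9) (nat_lit 4) (nat_lit 315) (nat_lit 294) (nat_lit 171))))) (XT.nd (nat_lit 156) (nat_lit 76) (nat_lit 0) (XT.nd (nat_lit 78) (nat_lit 0) (nat_lit 0) (XT.lf (nat_lit 0) (nat_lit 971172799976) (nat_lit 76) (nat_lit 28587348702) (nat_lit 152) (nat_lit 2445039092345) (nat_lit 7) (nat_lit 5) (nat_lit 8) (nat_lit 5) (nat_lit 9) (nat_lit 4) (nat_lit 316) (nat_lit 294) (nat_lit 170)) (XT.lf (nat_lit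 0) (nat_lit 1758834776906) (nat_lit 152) (nat_lit 1353289796117) (nat_lit 0) (nat_lit 734216060163) (nat_lit 7) (nat_lit 5) (nat_lit 9) (nat_lit 4) (nat_lit 7) (nat_lit 4) (nat_lit 317) (nat_lit 294) (nat_lit 169))) (XT.nd (nat_lit 78) (nat_lit 76) (nat_lit 0) (XT.lf (nat_lit 0) (nat_lit 2633131896143) (nat_lit 152) (nat_lit 66263967575) (nat_lit 0) (nat_lit 1608513175943) (nat_lit 7) (nat_lit 5) (nat_lit 9) (nat_lit 4) (nat_lit 7) (nat_lit 4) (nat_lit 318) (nat_lit 294) (nat_lit 168)) (XT.nd (nat_lit 78) (nat_lit 0) (nat_lit 0) (XT.lf (nat_lit 0) (nat_lit 1551984080873) (nat_lit 76) (nat_lit 2150853848747) (nat_lit 76) (nat_lit 1126235125541) (nat_lit 6) (nat_lit 4) (nat_lit 7) (nat_lit 5) (nat_lit 7) (nat_lit 4) (nat_lit 319) (nat_lit 294) (nat_lit 167)) (XT.lf (nat_lit 0) (nat_lit 3420416493974) (nat_lit 76) (nat_lit 1516047167887) (nat_lit 76) (nat_lit 491428442067) (nat_lit 6) (nat_lit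 4) (nat_lit 7) (nat_lit 5) (nat_lit 7) (nat_lit 4) (nat_lit 320) (nat_lit 294) (nat_lit 166)))))) (XT.nd (nat_lit 390) (nat_lit 76) (nat_lit 0) (XT.nd (nat_lit 156) (nat_lit 0) (nat_lit 0) (XT.nd (nat_lit 78) (nat_lit 76) (nat_lit 0) (XT.lf (nat_lit 0) (nat_lit 217357485132) (nat_lit 152) (nat_lit 557300135059) (nat_lit 76) (nat_lit 5340394407565) (nat_lit 5) (nat_lit 5) (nat_lit 7) (nat_lit 5) (nat_lit 6) (nat_lit 4) (nat_lit 321) (nat_lit 294) (nat_lit 165)) (XT.lf (nat_lit 0) (nat_lit 1038251999041) (nat_lit 152) (nat_lit 5707829006243) (nat_lit 0) (nat_lit 147279190284) (nat_lit 4) (nat_lit 5) (nat_lit 6) (nat_lit 4) (nat_lit 4) (nat_lit 4) (nat_lit 322) (nat_lit 294) (nat_lit 164))) (XT.nd (nat_lit 78) (nat_lit 0) (nat_lit 0) (XT.lf (nat_lit 0) (nat_lit 2049687961493) (nat_lit 152) (nat_lit 4569900385103) (nat_lit 0) (nat_lit 1158715151242) (nat_lit 4) (nat_lit 5) (nat_lit 6) (nat_lit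 4) (nat_lit 4) (nat_lit 4) (nat_lit 323) (nat_lit 294) (nat_lit 163)) (XT.nd (nat_lit 78) (nat_lit 0) (nat_lit 0) (XT.lf (nat_lit 0) (nat_lit 3212839315211) (nat_lit 152) (nat_lit 3261282477046) (nat_lit 0) (nat_lit 2321866503659) (nat_lit 4) (nat_lit 5) (nat_lit 6) (nat_lit 4) (nat_lit 4) (nat_lit 4) (nat_lit 324) (nat_lit 294) (nat_lit 162)) (XT.lf (nat_lit 0) (nat_lit 4550463369287) (nat_lit 152) (nat_lit 1756371888219) (nat_lit 0) (nat_lit 3659490556606) (nat_lit 4) (nat_lit 5) (nat_lit 6) (nat_lit 4) (nat_lit 4) (nat_lit 4) (nat_lit 325) (nat_lit 294) (nat_lit 161))))) (XT.nd (nat_lit 156) (nat_lit 0) (nat_lit 0) (XT.nd (nat_lit 78) (nat_lit 76) (nat_lit 0) (XT.lf (nat_lit 0) (nat_lit 6088731029129) (nat_lit 152) (nat_lit 25724715796) (nat_lit 0) (nat_lit 5197758215465) (nat_lit 4) (nat_lit 5) (nat_lit 6) (nat_lit 4) (nat_lit 4) (nat_lit 4) (nat_lit 326) (nat_lit 294) (nat_lit 160))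 (XT.lf (nat_lit 0) (nat_lit 2156506664104) (nat_lit 76) (nat_lit 5790528514001) (nat_lit 76) (nat_lit 4899555699482) (nat_lit 3) (nat_lit 4) (nat_lit 4) (nat_lit 5) (nat_lit 4) (nat_lit 4) (nat_lit 327) (nat_lit 294) (nat_lit 159))) (XT.nd (nat_lit 78) (nat_lit 0) (nat_lit 0) (XT.lf (nat_lit 0) (nat_lit 4668963854330) (nat_lit 76) (nat_lit 5416465794215) (nat_lit 76) (nat_lit 4525492978954) (nat_lit 3) (nat_lit 4) (nat_lit 4) (nat_lit 5) (nat_lit 4) (nat_lit 4) (nat_lit 328) (nat_lit 294) (nat_lit 158)) (XT.nd (nat_lit 78) (nat_lit 0) (nat_lit 0) (XT.lf (nat_lit 0) (nat_lit 7558289619676) (nat_lit 76) (nat_lit 4986293668191) (nat_lit 76) (nat_lit 4095320852283) (nat_lit 3) (nat_lit 4) (nat_lit 4) (nat_lit 5) (nat_lit 4) (nat_lit 4) (nat_lit 329) (nat_lit 294) (nat_lit 157)) (XT.lf (nat_lit 0) (nat_lit 10881014246856) (nat_lit 76) (nat_lit 4491595724767) (nat_lit 76) (nat_lit 3600622908297)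 (nat_lit 3) (nat_lit 4) (nat_lit 4) (nat_lit 5) (nat_lit 4) (nat_lit 4) (nat_lit 330) (nat_lit 294) (nat_lit 156))))))))
noncomputable def xc107 : XT := (XT.nd (nat_lit 38220) (nat_lit 0) (nat_lit 456) (XT.nd (nat_lit 780) (nat_lit 0) (nat_lit 0) (XT.nd (nat_lit 312) (nat_lit 152) (nat_lit 0) (XT.nd (nat_lit 156) (nat_lit 0) (nat_lit 0) (XT.nd (nat_lit 78) (nat_lit 0) (nat_lit 0) (XT.lf (nat_lit 0) (nat_lit 14702147565532) (nat_lit 76) (nat_lit 3922693091137) (nat_lit 76) (nat_lit 3031720274178) (nat_lit 3) (nat_lit 4) (nat_lit 4) (nat_lit 5) (nat_lit 4) (nat_lit 4) (nat_lit 331) (nat_lit 294) (nat_lit 155)) (XT.lf (nat_lit 0) (nat_lit 19096450879765) (nat_lit 76) (nat_lit 3268455063599) (nat_lit 76) (nat_lit 2377482246216) (nat_lit 3) (nat_lit 4) (nat_lit 4) (nat_lit 5) (nat_lit 4) (nat_lit 4) (nat_lit 332) (nat_lit 294) (nat_lit 154))) (XT.nd (nat_lit 78) (nat_lit 0) (nat_lit 0) (XT.lf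 (nat_lit 0) (nat_lit 24149899689182) (nat_lit 76) (nat_lit 2516081332919) (nat_lit 76) (nat_lit 1625108515166) (nat_lit 3) (nat_lit 4) (nat_lit 4) (nat_lit 5) (nat_lit 4) (nat_lit 4) (nat_lit 333) (nat_lit 294) (nat_lit 153)) (XT.lf (nat_lit 0) (nat_lit 29961365818314) (nat_lit 76) (nat_lit 1650851543497) (nat_lit 76) (nat_lit 759878725423) (nat_lit 3) (nat_lit 4) (nat_lit 4) (nat_lit 5) (nat_lit 4) (nat_lit 4) (nat_lit 334) (nat_lit 294) (nat_lit 152)))) (XT.nd (nat_lit 156) (nat_lit 0) (nat_lit 0) (XT.nd (nat_lit 78) (nat_lit 76) (nat_lit 0) (XT.lf (nat_lit 0) (nat_lit 214202140900) (nat_lit 152) (nat_lit 430438215416) (nat_lit 76) (nat_lit 36419152794347) (nat_lit 2) (nat_lit 5) (nat_lit 4) (nat_lit 5) (nat_lit 3) (nat_lit 4) (nat_lit 335) (nat_lit 294) (nat_lit 151)) (XT.lf (nat_lit 0) (nat_lit 1365767171753) (nat_lit 152) (nat_lit 40480666326284) (nat_lit 0) (nat_lit 591008199061)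 (nat_lit 1) (nat_lit 5) (nat_lit 3) (nat_lit 4) (nat_lit 1) (nat_lit 4) (nat_lit 336) (nat_lit 294) (nat_lit 150))) (XT.nd (nat_lit 78) (nat_lit 0) (nat_lit 0) (XT.lf (nat_lit 0) (nat_lit 2744335732960) (nat_lit 152) (nat_lit 43895084716097) (nat_lit 0) (nat_lit 1969576760083) (nat_lit 1) (nat_lit 5) (nat_lit 3) (nat_lit 4) (nat_lit 1) (nat_lit 4) (nat_lit 337) (nat_lit 294) (nat_lit 149)) (XT.nd (nat_lit 156) (nat_lit 0) (nat_lit 0) (XT.lf (nat_lit 0) (nat_lit 4329689577775) (nat_lit 152) (nat_lit 47821665865559) (nat_lit 0) (nat_lit 3554930604739) (nat_lit 1) (nat_lit 5) (nat_lit 3) (nat_lit 4) (nat_lit 1) (nat_lit 4) (nat_lit 338) (nat_lit 294) (nat_lit 148)) (XT.lf (nat_lit 0) (nat_lit 8249476957581) (nat_lit 152) (nat_lit 57530137760697) (nat_lit 0) (nat_lit 7474717984285) (nat_lit 1) (nat_lit 5) (nat_lit 3) (nat_lit 4) (nat_lit 1) (nat_lit 4) (nat_lit 340) (nat_lit 294) (nat_lit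 146)))))) (XT.nd (nat_lit 37050) (nat_lit 0) (nat_lit 1596) (XT.nd (nat_lit 156) (nat_lit 0) (nat_lit 0) (XT.nd (nat_lit 78) (nat_lit 0) (nat_lit 0) (XT.lf (nat_lit 0) (nat_lit 10660601984784) (nat_lit 152) (nat_lit 63501976869539) (nat_lit 0) (nat_lit 9885843011383) (nat_lit 1) (nat_lit 5) (nat_lit 3) (nat_lit 4) (nat_lit 1) (nat_lit 4) (nat_lit 341) (nat_lit 294) (nat_lit 145)) (XT.lf (nat_lit 0) (nat_lit 13433395765741) (nat_lit 152) (nat_lit 70369591845381) (nat_lit 0) (nat_lit 12658636792249) (nat_lit 1) (nat_lit 5) (nat_lit 3) (nat_lit 4) (nat_lit 1) (nat_lit 4) (nat_lit 342) (nat_lit 294) (nat_lit 144))) (XT.nd (nat_lit 78) (nat_lit 0) (nat_lit 0) (XT.lf (nat_lit 0) (nat_lit 16622108613557) (nat_lit 152) (nat_lit 78267349068184) (nat_lit 0) (nat_lit 15847349639986) (nat_lit 1) (nat_lit 5) (nat_lit 3) (nat_lit 4) (nat_lit 1) (nat_lit 4) (nat_lit 343) (nat_lit 294) (nat_lit 143))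 (XT.nd (nat_lit 78) (nat_lit 0) (nat_lit 0) (XT.lf (nat_lit 0) (nat_lit 20289128388299) (nat_lit 152) (nat_lit 87349769874918) (nat_lit 0) (nat_lit 19514369414658) (nat_lit 1) (nat_lit 5) (nat_lit 3) (nat_lit 4) (nat_lit 1) (nat_lit 4) (nat_lit 344) (nat_lit 294) (nat_lit 142)) (XT.lf (nat_lit 0) (nat_lit 24506201129036) (nat_lit 152) (nat_lit 97794553803104) (nat_lit 0) (nat_lit 23731442155336) (nat_lit 1) (nat_lit 5) (nat_lit 3) (nat_lit 4) (nat_lit 1) (nat_lit 4) (nat_lit 345) (nat_lit 294) (nat_lit 141))))) (XT.nd (nat_lit 156) (nat_lit 0) (nat_lit 76) (XT.nd (nat_lit 78) (nat_lit 0) (nat_lit 0) (XT.lf (nat_lit 0) (nat_lit 43845657390) (nat_lit 380) (nat_lit 113612638856) (nat_lit 380) (nat_lit 113612638856) (nat_lit 22) (nat_lit 3) (nat_lit 27) (nat_lit 3) (nat_lit 27) (nat_lit 5) (nat_lit 295) (nat_lit 295) (nat_lit 190)) (XT.lf (nat_lit 76) (nat_lit 28616753190) (nat_lit 0) (nat_lit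 66836571020) (nat_lit 380) (nat_lit 487171411369) (nat_lit 23) (nat_lit 5) (nat_lit 22) (nat_lit 3) (nat_lit 27) (nat_lit 5) (nat_lit 296) (nat_lit 295) (nat_lit 189))) (XT.nd (nat_lit 78) (nat_lit 0) (nat_lit 0) (XT.lf (nat_lit 0) (nat_lit 125868662210) (nat_lit 304) (nat_lit 288637674171) (nat_lit 380) (nat_lit 211450340442) (nat_lit 23) (nat_lit 5) (nat_lit 27) (nat_lit 5) (nat_lit 28) (nat_lit 5) (nat_lit 297) (nat_lit 295) (nat_lit 188)) (XT.nd (nat_lit 78) (nat_lit 0) (nat_lit 76) (XT.lf (nat_lit 76) (nat_lit 14660653956) (nat_lit 0) (nat_lit 149975375625) (nat_lit 380) (nat_lit 510583920490) (nat_lit 24) (nat_lit 5) (nat_lit 23) (nat_lit 5) (nat_lit 28) (nat_lit 5) (nat_lit 298) (nat_lit 295) (nat_lit 187)) (XT.lf (nat_lit 0) (nat_lit 231411374520) (nat_lit 304) (nat_lit 340821913636) (nat_lit 76) (nat_lit 156310495384) (nat_lit 24) (nat_lit 5) (nat_lit 28) (nat_lit 5) (nat_lit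 25) (nat_lit 5) (nat_lit 299) (nat_lit 295) (nat_lit 186))))))) (XT.nd (nat_lit 780) (nat_lit 456) (nat_lit 0) (XT.nd (nat_lit 390) (nat_lit 304) (nat_lit 0) (XT.nd (nat_lit 156) (nat_lit 228) (nat_lit 0) (XT.nd (nat_lit 78) (nat_lit 0) (nat_lit 0) (XT.lf (nat_lit 0) (nat_lit 21662952571) (nat_lit 304) (nat_lit 294578745245) (nat_lit 380) (nat_lit 472418692811) (nat_lit 20) (nat_lit 5) (nat_lit 24) (nat_lit 5) (nat_lit 25) (nat_lit 5) (nat_lit 300) (nat_lit 295) (nat_lit 185)) (XT.lf (nat_lit 0) (nat_lit 433484371592) (nat_lit 380) (nat_lit 380170011565) (nat_lit 76) (nat_lit 41186935401) (nat_lit 20) (nat_lit 5) (nat_lit 25) (nat_lit 5) (nat_lit 21) (nat_lit 5) (nat_lit 301) (nat_lit 295) (nat_lit 184))) (XT.nd (nat_lit 78) (nat_lit 76) (nat_lit 0) (XT.lf (nat_lit 0) (nat_lit 55604217966) (nat_lit 152) (nat_lit 529039220340) (nat_lit 228) (nat_lit 343856448659) (nat_lit 18) (nat_lit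 5) (nat_lit 20) (nat_lit 5) (nat_lit 21) (nat_lit 5) (nat_lit 302) (nat_lit 295) (nat_lit 183)) (XT.nd (nat_lit 78) (nat_lit 76) (nat_lit 0) (XT.lf (nat_lit 0) (nat_lit 599470484537) (nat_lit 152) (nat_lit 178878385921) (nat_lit 228) (nat_lit 231877494421) (nat_lit 18) (nat_lit 5) (nat_lit 20) (nat_lit 5) (nat_lit 21) (nat_lit 5) (nat_lit 303) (nat_lit 295) (nat_lit 182)) (XT.lf (nat_lit 0) (nat_lit 122327984968) (nat_lit 76) (nat_lit 893114810669) (nat_lit 152) (nat_lit 86619117163) (nat_lit 17) (nat_lit 5) (nat_lit 18) (nat_lit 5) (nat_lit 19) (nat_lit 4) (nat_lit 304) (nat_lit 295) (nat_lit 181))))) (XT.nd (nat_lit 156) (nat_lit 76) (nat_lit 0) (XT.nd (nat_lit 78) (nat_lit 152) (nat_lit 0) (XT.lf (nat_lit 0) (nat_lit 104279535966) (nat_lit 152) (nat_lit 435785141281) (nat_lit 76) (nat_lit 662456796179) (nat_lit 16) (nat_lit 5) (nat_lit 18) (nat_lit 5) (nat_lit 17) (nat_lit 5) (nat_lit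 305) (nat_lit 295) (nat_lit 180)) (XT.lf (nat_lit 0) (nat_lit 203772457182) (nat_lit 152) (nat_lit 119610151793) (nat_lit 228) (nat_lit 992782985780) (nat_lit 14) (nat_lit 5) (nat_lit 16) (nat_lit 5) (nat_lit 17) (nat_lit 5) (nat_lit 306) (nat_lit 295) (nat_lit 179))) (XT.nd (nat_lit 78) (nat_lit 76) (nat_lit 0) (XT.lf (nat_lit 0) (nat_lit 614284397513) (nat_lit 228) (nat_lit 471352989343) (nat_lit 76) (nat_lit 355378959272) (nat_lit 14) (nat_lit 5) (nat_lit 17) (nat_lit 5) (nat_lit 15) (nat_lit 4) (nat_lit 307) (nat_lit 295) (nat_lit 178)) (XT.nd (nat_lit 78) (nat_lit 0) (nat_lit 0) (XT.lf (nat_lit 0) (nat_lit 285570942071) (nat_lit 76) (nat_lit 680771106564) (nat_lit 152) (nat_lit 615624572452) (nat_lit 13) (nat_lit 5) (nat_lit 14) (nat_lit 5) (nat_lit 15) (nat_lit 4) (nat_lit 308) (nat_lit 295) (nat_lit 177)) (XT.lf (nat_lit 0) (nat_lit 1209007094903) (nat_lit 76) (nat_lit 186840148576)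 (nat_lit 152) (nat_lit 344516359423) (nat_lit 13) (nat_lit 5) (nat_lit 14) (nat_lit 5) (nat_lit 15) (nat_lit 4) (nat_lit 309) (nat_lit 295) (nat_lit 176)))))) (XT.nd (nat_lit 390) (nat_lit 152) (nat_lit 0) (XT.nd (nat_lit 156) (nat_lit 152) (nat_lit 0) (XT.nd (nat_lit 78) (nat_lit 0) (nat_lit 0) (XT.lf (nat_lit 0) (nat_lit 2549167945) (nat_lit 152) (nat_lit 1552836238973) (nat_lit 76) (nat_lit 362481665406) (nat_lit 11) (nat_lit 5) (nat_lit 13) (nat_lit 5) (nat_lit 12) (nat_lit 4) (nat_lit 310) (nat_lit 295) (nat_lit 175)) (XT.lf (nat_lit 0) (nat_lit 404397846885) (nat_lit 152) (nat_lit 688861589828) (nat_lit 76) (nat_lit 1020576509003) (nat_lit 11) (nat_lit 5) (nat_lit 13) (nat_lit 5) (nat_lit 12) (nat_lit 4) (nat_lit 311) (nat_lit 295) (nat_lit 174))) (XT.nd (nat_lit 78) (nat_lit 76) (nat_lit 0) (XT.lf (nat_lit 0) (nat_lit 334487646175) (nat_lit 76) (nat_lit 545886593826) (nat_lit 152)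 (nat_lit 1456748348279) (nat_lit 10) (nat_lit 5) (nat_lit 11) (nat_lit 5) (nat_lit 12) (nat_lit 4) (nat_lit 312) (nat_lit 295) (nat_lit 173)) (XT.nd (nat_lit 78) (nat_lit 76) (nat_lit 0) (XT.lf (nat_lit 0) (nat_lit 1468931831023) (nat_lit 152) (nat_lit 1004919095941) (nat_lit 0) (nat_lit 113873589435) (nat_lit 10) (nat_lit 5) (nat_lit 12) (nat_lit 4) (nat_lit 10) (nat_lit 4) (nat_lit 313) (nat_lit 295) (nat_lit 172)) (XT.lf (nat_lit 0) (nat_lit 127840786044) (nat_lit 76) (nat_lit 2049220482109) (nat_lit 76) (nat_lit 694162234475) (nat_lit 9) (nat_lit 4) (nat_lit 10) (nat_lit 5) (nat_lit 10) (nat_lit 4) (nat_lit 314) (nat_lit 295) (nat_lit 171))))) (XT.nd (nat_lit 156) (nat_lit 76) (nat_lit 0) (XT.nd (nat_lit 78) (nat_lit 76) (nat_lit 0) (XT.lf (nat_lit 0) (nat_lit 1543453841619) (nat_lit 76) (nat_lit 1500486134863) (nat_lit 76) (nat_lit 145427881971) (nat_lit 9) (nat_lit 4) (nat_lit 10)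 (nat_lit 5) (nat_lit 10) (nat_lit 4) (nat_lit 315) (nat_lit 295) (nat_lit 170)) (XT.lf (nat_lit 0) (nat_lit 442383667840) (nat_lit 152) (nat_lit 403933371608) (nat_lit 76) (nat_lit 2705900576741) (nat_lit 8) (nat_lit 5) (nat_lit 10) (nat_lit 5) (nat_lit 9) (nat_lit 4) (nat_lit 316) (nat_lit 295) (nat_lit 169))) (XT.nd (nat_lit 78) (nat_lit 0) (nat_lit 0) (XT.lf (nat_lit 0) (nat_lit 1116848829840) (nat_lit 76) (nat_lit 32875398662) (nat_lit 152) (nat_lit 2811794889987) (nat_lit 7) (nat_lit 5) (nat_lit 8) (nat_lit 5) (nat_lit 9) (nat_lit 4) (nat_lit 317) (nat_lit 295) (nat_lit 168)) (XT.nd (nat_lit 78) (nat_lit 0) (nat_lit 0) (XT.lf (nat_lit 0) (nat_lit 2022660045346) (nat_lit 152) (nat_lit 1556283164328) (nat_lit 0) (nat_lit 844348510652) (nat_lit 7) (nat_lit 5) (nat_lit 9) (nat_lit 4) (nat_lit 7) (nat_lit 4) (nat_lit 318) (nat_lit 295) (nat_lit 167)) (XT.lf (nat_lit 0) (nat_lit 3028101725699)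 (nat_lit 152) (nat_lit 76203474706) (nat_lit 0) (nat_lit 1849790188391) (nat_lit 7) (nat_lit 5) (nat_lit 9) (nat_lit 4) (nat_lit 7) (nat_lit 4) (nat_lit 319) (nat_lit 295) (nat_lit 166))))))))
noncomputable def xc108 : XT := (XT.nd (nat_lit 1638) (nat_lit 0) (nat_lit 0) (XT.nd (nat_lit 702) (nat_lit 152) (nat_lit 0) (XT.nd (nat_lit 312) (nat_lit 76) (nat_lit 0) (XT.nd (nat_lit 156) (nat_lit 152) (nat_lit 0) (XT.nd (nat_lit 78) (nat_lit 0) (nat_lit 0) (XT.lf (nat_lit 0) (nat_lit 1784781777009) (nat_lit 76) (nat_lit 2473481884779) (nat_lit 76) (nat_lit 1295170345198) (nat_lit 6) (nat_lit 4) (nat_lit 7) (nat_lit 5) (nat_lit 7) (nat_lit 4) (nat_lit 320) (nat_lit 295) (nat_lit 165)) (XT.lf (nat_lit 0) (nat_lit 3933479041118) (nat_lit 76) (nat_lit 1743454207175) (nat_lit 76) (nat_lit 565142665617) (nat_lit 6) (nat_lit 4) (nat_lit 7) (nat_lit 5) (nat_lit 7) (nat_lit 4) (nat_lit 321) (nat_lit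 295) (nat_lit 164))) (XT.nd (nat_lit 78) (nat_lit 76) (nat_lit 0) (XT.lf (nat_lit 0) (nat_lit 249961141773) (nat_lit 152) (nat_lit 640895088462) (nat_lit 76) (nat_lit 6141453596577) (nat_lit 5) (nat_lit 5) (nat_lit 7) (nat_lit 5) (nat_lit 6) (nat_lit 4) (nat_lit 322) (nat_lit 295) (nat_lit 163)) (XT.lf (nat_lit 0) (nat_lit 1193989832307) (nat_lit 152) (nat_lit 6564003289840) (nat_lit 0) (nat_lit 169371097724) (nat_lit 4) (nat_lit 5) (nat_lit 6) (nat_lit 4) (nat_lit 4) (nat_lit 4) (nat_lit 323) (nat_lit 295) (nat_lit 162)))) (XT.nd (nat_lit 156) (nat_lit 76) (nat_lit 0) (XT.nd (nat_lit 78) (nat_lit 0) (nat_lit 0) (XT.lf (nat_lit 0) (nat_lit 2357141184770) (nat_lit 152) (nat_lit 5255385384312) (nat_lit 0) (nat_lit 1332522449056) (nat_lit 4) (nat_lit 5) (nat_lit 6) (nat_lit 4) (nat_lit 4) (nat_lit 4) (nat_lit 324) (nat_lit 295) (nat_lit 161)) (XT.lf (nat_lit 0) (nat_lit 3694765237755) (nat_lit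 152) (nat_lit 3750474797684) (nat_lit 0) (nat_lit 2670146501058) (nat_lit 4) (nat_lit 5) (nat_lit 6) (nat_lit 4) (nat_lit 4) (nat_lit 4) (nat_lit 325) (nat_lit 295) (nat_lit 160))) (XT.nd (nat_lit 78) (nat_lit 76) (nat_lit 0) (XT.lf (nat_lit 0) (nat_lit 5233032896648) (nat_lit 152) (nat_lit 2019827627174) (nat_lit 0) (nat_lit 4208414159097) (nat_lit 4) (nat_lit 5) (nat_lit 6) (nat_lit 4) (nat_lit 4) (nat_lit 4) (nat_lit 326) (nat_lit 295) (nat_lit 159)) (XT.nd (nat_lit 78) (nat_lit 76) (nat_lit 0) (XT.lf (nat_lit 0) (nat_lit 7002040702601) (nat_lit 152) (nat_lit 29583384664) (nat_lit 0) (nat_lit 5977421964306) (nat_lit 4) (nat_lit 5) (nat_lit 6) (nat_lit 4) (nat_lit 4) (nat_lit 4) (nat_lit 327) (nat_lit 295) (nat_lit 158)) (XT.lf (nat_lit 0) (nat_lit 2479982700472) (nat_lit 76) (nat_lit 6659107772482) (nat_lit 76) (nat_lit 5634489033541) (nat_lit 3) (nat_lit 4) (nat_lit 4) (nat_lit 5)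 (nat_lit 4) (nat_lit 4) (nat_lit 328) (nat_lit 295) (nat_lit 157)))))) (XT.nd (nat_lit 390) (nat_lit 152) (nat_lit 0) (XT.nd (nat_lit 156) (nat_lit 0) (nat_lit 0) (XT.nd (nat_lit 78) (nat_lit 0) (nat_lit 0) (XT.lf (nat_lit 0) (nat_lit 5369308464438) (nat_lit 76) (nat_lit 6228935647157) (nat_lit 76) (nat_lit 5204316907655) (nat_lit 3) (nat_lit 4) (nat_lit 4) (nat_lit 5) (nat_lit 4) (nat_lit 4) (nat_lit 329) (nat_lit 295) (nat_lit 156)) (XT.lf (nat_lit 0) (nat_lit 8692033090417) (nat_lit 76) (nat_lit 5734237704341) (nat_lit 76) (nat_lit 4709618964350) (nat_lit 3) (nat_lit 4) (nat_lit 4) (nat_lit 5) (nat_lit 4) (nat_lit 4) (nat_lit 330) (nat_lit 295) (nat_lit 155))) (XT.nd (nat_lit 78) (nat_lit 0) (nat_lit 0) (XT.lf (nat_lit 0) (nat_lit 12513166408050) (nat_lit 76) (nat_lit 5165335071239) (nat_lit 76) (nat_lit 4140716330824) (nat_lit 3) (nat_lit 4) (nat_lit 4) (nat_lit 5) (nat_lit 4) (nat_lit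 4) (nat_lit 331) (nat_lit 295) (nat_lit 154)) (XT.nd (nat_lit 78) (nat_lit 0) (nat_lit 0) (XT.lf (nat_lit 0) (nat_lit 16907469721375) (nat_lit 76) (nat_lit 4511097044162) (nat_lit 76) (nat_lit 3486478303376) (nat_lit 3) (nat_lit 4) (nat_lit 4) (nat_lit 5) (nat_lit 4) (nat_lit 4) (nat_lit 332) (nat_lit 295) (nat_lit 153)) (XT.lf (nat_lit 0) (nat_lit 21960918530002) (nat_lit 76) (nat_lit 3758723313882) (nat_lit 76) (nat_lit 2734104572775) (nat_lit 3) (nat_lit 4) (nat_lit 4) (nat_lit 5) (nat_lit 4) (nat_lit 4) (nat_lit 333) (nat_lit 295) (nat_lit 152))))) (XT.nd (nat_lit 156) (nat_lit 152) (nat_lit 0) (XT.nd (nat_lit 78) (nat_lit 0) (nat_lit 0) (XT.lf (nat_lit 0) (nat_lit 27772384658448) (nat_lit 76) (nat_lit 2893493524807) (nat_lit 76) (nat_lit 1868874783422) (nat_lit 3) (nat_lit 4) (nat_lit 4) (nat_lit 5) (nat_lit 4) (nat_lit 4) (nat_lit 334) (nat_lit 295) (nat_lit 151)) (XT.lf (nat_lit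 0) (nat_lit 34455570704878) (nat_lit 76) (nat_lit 1898479268022) (nat_lit 76) (nat_lit 873860526393) (nat_lit 3) (nat_lit 4) (nat_lit 4) (nat_lit 5) (nat_lit 4) (nat_lit 4) (nat_lit 335) (nat_lit 295) (nat_lit 150))) (XT.nd (nat_lit 78) (nat_lit 76) (nat_lit 0) (XT.lf (nat_lit 0) (nat_lit 246332468249) (nat_lit 152) (nat_lit 495003935104) (nat_lit 76) (nat_lit 41882025718976) (nat_lit 2) (nat_lit 5) (nat_lit 4) (nat_lit 5) (nat_lit 3) (nat_lit 4) (nat_lit 336) (nat_lit 295) (nat_lit 149)) (XT.nd (nat_lit 234) (nat_lit 0) (nat_lit 0) (XT.lf (nat_lit 0) (nat_lit 1570632253673) (nat_lit 152) (nat_lit 46552766262543) (nat_lit 0) (nat_lit 679659434522) (nat_lit 1) (nat_lit 5) (nat_lit 3) (nat_lit 4) (nat_lit 1) (nat_lit 4) (nat_lit 337) (nat_lit 295) (nat_lit 148)) (XT.lf (nat_lit 0) (nat_lit 7075773477686) (nat_lit 152) (nat_lit 60187819308394) (nat_lit 0) (nat_lit 6184800658171) (nat_lit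 1) (nat_lit 5) (nat_lit 3) (nat_lit 4) (nat_lit 1) (nat_lit 4) (nat_lit 340) (nat_lit 295) (nat_lit 145))))))) (XT.nd (nat_lit 37596) (nat_lit 0) (nat_lit 760) (XT.nd (nat_lit 37206) (nat_lit 0) (nat_lit 1444) (XT.nd (nat_lit 156) (nat_lit 0) (nat_lit 0) (XT.nd (nat_lit 78) (nat_lit 0) (nat_lit 0) (XT.lf (nat_lit 0) (nat_lit 9486898504738) (nat_lit 152) (nat_lit 66159658417550) (nat_lit 0) (nat_lit 8595925685131) (nat_lit 1) (nat_lit 5) (nat_lit 3) (nat_lit 4) (nat_lit 1) (nat_lit 4) (nat_lit 341) (nat_lit 295) (nat_lit 144)) (XT.lf (nat_lit 0) (nat_lit 12259692285563) (nat_lit 152) (nat_lit 73027273393664) (nat_lit 0) (nat_lit 11368719465876) (nat_lit 1) (nat_lit 5) (nat_lit 3) (nat_lit 4) (nat_lit 1) (nat_lit 4) (nat_lit 342) (nat_lit 295) (nat_lit 143))) (XT.nd (nat_lit 78) (nat_lit 0) (nat_lit 0) (XT.lf (nat_lit 0) (nat_lit 15448405133264) (nat_lit 152) (nat_lit 80925030616704) (nat_lit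 0) (nat_lit 14557432313508) (nat_lit 1) (nat_lit 5) (nat_lit 3) (nat_lit 4) (nat_lit 1) (nat_lit 4) (nat_lit 343) (nat_lit 295) (nat_lit 142)) (XT.nd (nat_lit 36894) (nat_lit 0) (nat_lit 1596) (XT.lf (nat_lit 0) (nat_lit 19115424907905) (nat_lit 152) (nat_lit 90007451423644) (nat_lit 0) (nat_lit 18224452088090) (nat_lit 1) (nat_lit 5) (nat_lit 3) (nat_lit 4) (nat_lit 1) (nat_lit 4) (nat_lit 344) (nat_lit 295) (nat_lit 141)) (XT.lf (nat_lit 0) (nat_lit 50422699727) (nat_lit 380) (nat_lit 130654422922) (nat_lit 380) (nat_lit 130654422922) (nat_lit 22) (nat_lit 3) (nat_lit 27) (nat_lit 3) (nat_lit 27) (nat_lit 5) (nat_lit 296) (nat_lit 296) (nat_lit 188))))) (XT.nd (nat_lit 156) (nat_lit 152) (nat_lit 0) (XT.nd (nat_lit 78) (nat_lit 0) (nat_lit 76) (XT.lf (nat_lit 76) (nat_lit 32909479533) (nat_lit 0) (nat_lit 76862189063) (nat_lit 380) (nat_lit 560246724175) (nat_lit 23) (nat_lit 5) (nat_lit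 22) (nat_lit 3) (nat_lit 27) (nat_lit 5) (nat_lit 297) (nat_lit 296) (nat_lit 187)) (XT.lf (nat_lit 0) (nat_lit 144749257430) (nat_lit 304) (nat_lit 331933088782) (nat_lit 380) (nat_lit 243167786636) (nat_lit 23) (nat_lit 5) (nat_lit 27) (nat_lit 5) (nat_lit 28) (nat_lit 5) (nat_lit 298) (nat_lit 296) (nat_lit 186))) (XT.nd (nat_lit 78) (nat_lit 228) (nat_lit 0) (XT.lf (nat_lit 76) (nat_lit 16859977813) (nat_lit 0) (nat_lit 172471722848) (nat_lit 380) (nat_lit 587171200955) (nat_lit 24) (nat_lit 5) (nat_lit 23) (nat_lit 5) (nat_lit 28) (nat_lit 5) (nat_lit 299) (nat_lit 296) (nat_lit 185)) (XT.nd (nat_lit 78) (nat_lit 304) (nat_lit 0) (XT.lf (nat_lit 0) (nat_lit 266123311090) (nat_lit 304) (nat_lit 391944967271) (nat_lit 76) (nat_lit 179757037309) (nat_lit 24) (nat_lit 5) (nat_lit 28) (nat_lit 5) (nat_lit 25) (nat_lit 5) (nat_lit 300) (nat_lit 296) (nat_lit 184)) (XT.lf (nat_lit 0) (nat_lit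 24912618257) (nat_lit 304) (nat_lit 338765543797) (nat_lit 380) (nat_lit 543281254999) (nat_lit 20) (nat_lit 5) (nat_lit 24) (nat_lit 5) (nat_lit 25) (nat_lit 5) (nat_lit 301) (nat_lit 296) (nat_lit 183)))))) (XT.nd (nat_lit 390) (nat_lit 380) (nat_lit 0) (XT.nd (nat_lit 156) (nat_lit 152) (nat_lit 0) (XT.nd (nat_lit 78) (nat_lit 152) (nat_lit 0) (XT.lf (nat_lit 0) (nat_lit 498507210039) (nat_lit 380) (nat_lit 437195292065) (nat_lit 76) (nat_lit 47364986195) (nat_lit 20) (nat_lit 5) (nat_lit 25) (nat_lit 5) (nat_lit 21) (nat_lit 5) (nat_lit 302) (nat_lit 296) (nat_lit 182)) (XT.lf (nat_lit 0) (nat_lit 63945061840) (nat_lit 152) (nat_lit 608395059833) (nat_lit 228) (nat_lit 395434722640) (nat_lit 18) (nat_lit 5) (nat_lit 20) (nat_lit 5) (nat_lit 21) (nat_lit 5) (nat_lit 303) (nat_lit 296) (nat_lit 181))) (XT.nd (nat_lit 78) (nat_lit 152) (nat_lit 0) (XT.lf (nat_lit 0) (nat_lit 689391240852)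 (nat_lit 152) (nat_lit 205710105933) (nat_lit 228) (nat_lit 266658950481) (nat_lit 18) (nat_lit 5) (nat_lit 20) (nat_lit 5) (nat_lit 21) (nat_lit 5) (nat_lit 304) (nat_lit 296) (nat_lit 180)) (XT.nd (nat_lit 78) (nat_lit 76) (nat_lit 0) (XT.lf (nat_lit 0) (nat_lit 140677377833) (nat_lit 76) (nat_lit 1027081973339) (nat_lit 152) (nat_lit 99611827702) (nat_lit 17) (nat_lit 5) (nat_lit 18) (nat_lit 5) (nat_lit 19) (nat_lit 4) (nat_lit 305) (nat_lit 296) (nat_lit 179)) (XT.lf (nat_lit 0) (nat_lit 119921590757) (nat_lit 152) (nat_lit 501152730331) (nat_lit 76) (nat_lit 761825354376) (nat_lit 16) (nat_lit 5) (nat_lit 18) (nat_lit 5) (nat_lit 17) (nat_lit 5) (nat_lit 306) (nat_lit 296) (nat_lit 178))))) (XT.nd (nat_lit 156) (nat_lit 228) (nat_lit 0) (XT.nd (nat_lit 78) (nat_lit 0) (nat_lit 0) (XT.lf (nat_lit 0) (nat_lit 234338499623) (nat_lit 152) (nat_lit 137551616069) (nat_lit 228) (nat_lit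 1141700300697) (nat_lit 14) (nat_lit 5) (nat_lit 16) (nat_lit 5) (nat_lit 17) (nat_lit 5) (nat_lit 307) (nat_lit 296) (nat_lit 177)) (XT.lf (nat_lit 0) (nat_lit 706427159568) (nat_lit 228) (nat_lit 542055773377) (nat_lit 76) (nat_lit 408685849498) (nat_lit 14) (nat_lit 5) (nat_lit 17) (nat_lit 5) (nat_lit 15) (nat_lit 4) (nat_lit 308) (nat_lit 296) (nat_lit 176))) (XT.nd (nat_lit 78) (nat_lit 152) (nat_lit 0) (XT.lf (nat_lit 0) (nat_lit 328406740278) (nat_lit 76) (nat_lit 782886711217) (nat_lit 152) (nat_lit 707968148212) (nat_lit 13) (nat_lit 5) (nat_lit 14) (nat_lit 5) (nat_lit 15) (nat_lit 4) (nat_lit 309) (nat_lit 296) (nat_lit 175)) (XT.nd (nat_lit 78) (nat_lit 152) (nat_lit 0) (XT.lf (nat_lit 0) (nat_lit 1390358295570) (nat_lit 76) (nat_lit 214866117531) (nat_lit 152) (nat_lit 396193717591) (nat_lit 13) (nat_lit 5) (nat_lit 14) (nat_lit 5) (nat_lit 15) (nat_lit 4) (nat_lit 310)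 (nat_lit 296) (nat_lit 174)) (XT.lf (nat_lit 0) (nat_lit 2931627076) (nat_lit 152) (nat_lit 1785761526286) (nat_lit 76) (nat_lit 416853967084) (nat_lit 11) (nat_lit 5) (nat_lit 13) (nat_lit 5) (nat_lit 12) (nat_lit 4) (nat_lit 311) (nat_lit 296) (nat_lit 173))))))))
noncomputable def xc109 : XT := (XT.nd (nat_lit 1482) (nat_lit 152) (nat_lit 0) (XT.nd (nat_lit 702) (nat_lit 304) (nat_lit 0) (XT.nd (nat_lit 312) (nat_lit 152) (nat_lit 0) (XT.nd (nat_lit 156) (nat_lit 76) (nat_lit 0) (XT.nd (nat_lit 78) (nat_lit 76) (nat_lit 0) (XT.lf (nat_lit 0) (nat_lit 465057596908) (nat_lit 152) (nat_lit 792190699143) (nat_lit 76) (nat_lit 1173663030456) (nat_lit 11) (nat_lit 5) (nat_lit 13) (nat_lit 5) (nat_lit 12) (nat_lit 4) (nat_lit 312) (nat_lit 296) (nat_lit 172)) (XT.lf (nat_lit 0) (nat_lit 384660916390) (nat_lit 76) (nat_lit 627769528186) (nat_lit 152) (nat_lit 1675260521557) (nat_lit 10) (nat_lit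 5) (nat_lit 11) (nat_lit 5) (nat_lit 12) (nat_lit 4) (nat_lit 313) (nat_lit 296) (nat_lit 171))) (XT.nd (nat_lit 78) (nat_lit 76) (nat_lit 0) (XT.lf (nat_lit 0) (nat_lit 1689271667277) (nat_lit 152) (nat_lit 1155656846061) (nat_lit 0) (nat_lit 130954671192) (nat_lit 10) (nat_lit 5) (nat_lit 12) (nat_lit 4) (nat_lit 10) (nat_lit 4) (nat_lit 314) (nat_lit 296) (nat_lit 170)) (XT.lf (nat_lit 0) (nat_lit 147017013028) (nat_lit 76) (nat_lit 2356603503430) (nat_lit 76) (nat_lit 798286502773) (nat_lit 9) (nat_lit 4) (nat_lit 10) (nat_lit 5) (nat_lit 10) (nat_lit 4) (nat_lit 315) (nat_lit 296) (nat_lit 169)))) (XT.nd (nat_lit 156) (nat_lit 76) (nat_lit 0) (XT.nd (nat_lit 78) (nat_lit 76) (nat_lit 0) (XT.lf (nat_lit 0) (nat_lit 1774972012712) (nat_lit 76) (nat_lit 1725559010749) (nat_lit 76) (nat_lit 167242006116) (nat_lit 9) (nat_lit 4) (nat_lit 10) (nat_lit 5) (nat_lit 10) (nat_lit 4) (nat_lit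 316) (nat_lit 296) (nat_lit 168)) (XT.lf (nat_lit 0) (nat_lit 508741264079) (nat_lit 152) (nat_lit 464523290317) (nat_lit 76) (nat_lit 3111785697259) (nat_lit 8) (nat_lit 5) (nat_lit 10) (nat_lit 5) (nat_lit 9) (nat_lit 4) (nat_lit 317) (nat_lit 296) (nat_lit 167))) (XT.nd (nat_lit 78) (nat_lit 0) (nat_lit 0) (XT.lf (nat_lit 0) (nat_lit 1284376237391) (nat_lit 76) (nat_lit 37806668881) (nat_lit 152) (nat_lit 3233564073421) (nat_lit 7) (nat_lit 5) (nat_lit 8) (nat_lit 5) (nat_lit 9) (nat_lit 4) (nat_lit 318) (nat_lit 296) (nat_lit 166)) (XT.nd (nat_lit 78) (nat_lit 0) (nat_lit 0) (XT.lf (nat_lit 0) (nat_lit 2326059091395) (nat_lit 152) (nat_lit 1789725562451) (nat_lit 0) (nat_lit 971000818604) (nat_lit 7) (nat_lit 5) (nat_lit 9) (nat_lit 4) (nat_lit 7) (nat_lit 4) (nat_lit 319) (nat_lit 296) (nat_lit 165)) (XT.lf (nat_lit 0) (nat_lit 3482317018682) (nat_lit 152) (nat_lit 87633929367) (nat_lit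 0) (nat_lit 2127258743914) (nat_lit 7) (nat_lit 5) (nat_lit 9) (nat_lit 4) (nat_lit 7) (nat_lit 4) (nat_lit 320) (nat_lit 296) (nat_lit 164)))))) (XT.nd (nat_lit 390) (nat_lit 76) (nat_lit 0) (XT.nd (nat_lit 156) (nat_lit 152) (nat_lit 0) (XT.nd (nat_lit 78) (nat_lit 0) (nat_lit 0) (XT.lf (nat_lit 0) (nat_lit 2052499107081) (nat_lit 76) (nat_lit 2844504136283) (nat_lit 76) (nat_lit 1489445859796) (nat_lit 6) (nat_lit 4) (nat_lit 7) (nat_lit 5) (nat_lit 7) (nat_lit 4) (nat_lit 321) (nat_lit 296) (nat_lit 163)) (XT.lf (nat_lit 0) (nat_lit 4523500952521) (nat_lit 76) (nat_lit 2004972311109) (nat_lit 76) (nat_lit 649914033128) (nat_lit 6) (nat_lit 4) (nat_lit 7) (nat_lit 5) (nat_lit 7) (nat_lit 4) (nat_lit 322) (nat_lit 296) (nat_lit 162))) (XT.nd (nat_lit 78) (nat_lit 76) (nat_lit 0) (XT.lf (nat_lit 0) (nat_lit 287455338651) (nat_lit 152) (nat_lit 737029301179) (nat_lit 76) (nat_lit 7062671657143)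 (nat_lit 5) (nat_lit 5) (nat_lit 7) (nat_lit 5) (nat_lit 6) (nat_lit 4) (nat_lit 323) (nat_lit 296) (nat_lit 161)) (XT.nd (nat_lit 78) (nat_lit 0) (nat_lit 0) (XT.lf (nat_lit 0) (nat_lit 1373088332416) (nat_lit 152) (nat_lit 7548603732397) (nat_lit 0) (nat_lit 194776784232) (nat_lit 4) (nat_lit 5) (nat_lit 6) (nat_lit 4) (nat_lit 4) (nat_lit 4) (nat_lit 324) (nat_lit 296) (nat_lit 160)) (XT.lf (nat_lit 0) (nat_lit 2710712384453) (nat_lit 152) (nat_lit 6043693147682) (nat_lit 0) (nat_lit 1532400835414) (nat_lit 4) (nat_lit 5) (nat_lit 6) (nat_lit 4) (nat_lit 4) (nat_lit 4) (nat_lit 325) (nat_lit 296) (nat_lit 159))))) (XT.nd (nat_lit 156) (nat_lit 76) (nat_lit 0) (XT.nd (nat_lit 78) (nat_lit 0) (nat_lit 0) (XT.lf (nat_lit 0) (nat_lit 4248980042520) (nat_lit 152) (nat_lit 4313045978835) (nat_lit 0) (nat_lit 3070668492739) (nat_lit 4) (nat_lit 5) (nat_lit 6) (nat_lit 4) (nat_lit 4) (nat_lit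 4) (nat_lit 326) (nat_lit 296) (nat_lit 158)) (XT.lf (nat_lit 0) (nat_lit 6017987847756) (nat_lit 152) (nat_lit 2322801737770) (nat_lit 0) (nat_lit 4839676297328) (nat_lit 4) (nat_lit 5) (nat_lit 6) (nat_lit 4) (nat_lit 4) (nat_lit 4) (nat_lit 327) (nat_lit 296) (nat_lit 157))) (XT.nd (nat_lit 78) (nat_lit 76) (nat_lit 0) (XT.lf (nat_lit 0) (nat_lit 8052346822435) (nat_lit 152) (nat_lit 34020863250) (nat_lit 0) (nat_lit 6874035271445) (nat_lit 4) (nat_lit 5) (nat_lit 6) (nat_lit 4) (nat_lit 4) (nat_lit 4) (nat_lit 328) (nat_lit 296) (nat_lit 156)) (XT.nd (nat_lit 78) (nat_lit 0) (nat_lit 0) (XT.lf (nat_lit 0) (nat_lit 2851980133333) (nat_lit 76) (nat_lit 7657973924275) (nat_lit 76) (nat_lit 6479662372797) (nat_lit 3) (nat_lit 4) (nat_lit 4) (nat_lit 5) (nat_lit 4) (nat_lit 4) (nat_lit 329) (nat_lit 296) (nat_lit 155)) (XT.lf (nat_lit 0) (nat_lit 6174704758269) (nat_lit 76) (nat_lit 7163275981988)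 (nat_lit 76) (nat_lit 5984964430085) (nat_lit 3) (nat_lit 4) (nat_lit 4) (nat_lit 5) (nat_lit 4) (nat_lit 4) (nat_lit 330) (nat_lit 296) (nat_lit 154))))))) (XT.nd (nat_lit 37986) (nat_lit 0) (nat_lit 1216) (XT.nd (nat_lit 390) (nat_lit 152) (nat_lit 0) (XT.nd (nat_lit 156) (nat_lit 0) (nat_lit 0) (XT.nd (nat_lit 78) (nat_lit 0) (nat_lit 0) (XT.lf (nat_lit 0) (nat_lit 9995838074993) (nat_lit 76) (nat_lit 6594373349346) (nat_lit 76) (nat_lit 5416061797074) (nat_lit 3) (nat_lit 4) (nat_lit 4) (nat_lit 5) (nat_lit 4) (nat_lit 4) (nat_lit 331) (nat_lit 296) (nat_lit 153)) (XT.lf (nat_lit 0) (nat_lit 14390141387529) (nat_lit 76) (nat_lit 5940135322668) (nat_lit 76) (nat_lit 4761823770075) (nat_lit 3) (nat_lit 4) (nat_lit 4) (nat_lit 5) (nat_lit 4) (nat_lit 4) (nat_lit 332) (nat_lit 296) (nat_lit 152))) (XT.nd (nat_lit 78) (nat_lit 0) (nat_lit 0) (XT.lf (nat_lit 0) (nat_lit 19443590195470)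 (nat_lit 76) (nat_lit 5187761592736) (nat_lit 76) (nat_lit 4009450039863) (nat_lit 3) (nat_lit 4) (nat_lit 4) (nat_lit 5) (nat_lit 4) (nat_lit 4) (nat_lit 333) (nat_lit 296) (nat_lit 151)) (XT.nd (nat_lit 78) (nat_lit 0) (nat_lit 0) (XT.lf (nat_lit 0) (nat_lit 25255056323319) (nat_lit 76) (nat_lit 4322531803964) (nat_lit 76) (nat_lit 3144220250848) (nat_lit 3) (nat_lit 4) (nat_lit 4) (nat_lit 5) (nat_lit 4) (nat_lit 4) (nat_lit 334) (nat_lit 296) (nat_lit 150)) (XT.lf (nat_lit 0) (nat_lit 31938242369230) (nat_lit 76) (nat_lit 3327517547442) (nat_lit 76) (nat_lit 2149205994115) (nat_lit 3) (nat_lit 4) (nat_lit 4) (nat_lit 5) (nat_lit 4) (nat_lit 4) (nat_lit 335) (nat_lit 296) (nat_lit 149))))) (XT.nd (nat_lit 390) (nat_lit 0) (nat_lit 0) (XT.nd (nat_lit 312) (nat_lit 152) (nat_lit 0) (XT.lf (nat_lit 0) (nat_lit 39623906321057) (nat_lit 76) (nat_lit 2183251152933) (nat_lit 76) (nat_lit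 1004939599422) (nat_lit 3) (nat_lit 4) (nat_lit 4) (nat_lit 5) (nat_lit 4) (nat_lit 4) (nat_lit 336) (nat_lit 296) (nat_lit 148)) (XT.lf (nat_lit 0) (nat_lit 5726014475481) (nat_lit 152) (nat_lit 63244153088920) (nat_lit 0) (nat_lit 4701395732842) (nat_lit 1) (nat_lit 5) (nat_lit 3) (nat_lit 4) (nat_lit 1) (nat_lit 4) (nat_lit 340) (nat_lit 296) (nat_lit 144))) (XT.nd (nat_lit 78) (nat_lit 0) (nat_lit 0) (XT.lf (nat_lit 0) (nat_lit 8137139502400) (nat_lit 152) (nat_lit 69215992198347) (nat_lit 0) (nat_lit 7112520759681) (nat_lit 1) (nat_lit 5) (nat_lit 3) (nat_lit 4) (nat_lit 1) (nat_lit 4) (nat_lit 341) (nat_lit 296) (nat_lit 143)) (XT.nd (nat_lit 78) (nat_lit 0) (nat_lit 0) (XT.lf (nat_lit 0) (nat_lit 10909933283110) (nat_lit 152) (nat_lit 76083607174698) (nat_lit 0) (nat_lit 9885314540322) (nat_lit 1) (nat_lit 5) (nat_lit 3) (nat_lit 4) (nat_lit 1) (nat_lit 4) (nat_lit 342) (nat_lit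 296) (nat_lit 142)) (XT.lf (nat_lit 0) (nat_lit 14098646130711) (nat_lit 152) (nat_lit 83981364397945) (nat_lit 0) (nat_lit 13074027387863) (nat_lit 1) (nat_lit 5) (nat_lit 3) (nat_lit 4) (nat_lit 1) (nat_lit 4) (nat_lit 343) (nat_lit 296) (nat_lit 141)))))) (XT.nd (nat_lit 390) (nat_lit 380) (nat_lit 0) (XT.nd (nat_lit 156) (nat_lit 0) (nat_lit 76) (XT.nd (nat_lit 78) (nat_lit 0) (nat_lit 0) (XT.lf (nat_lit 0) (nat_lit 57986251173) (nat_lit 380) (nat_lit 150252501852) (nat_lit 380) (nat_lit 150252501852) (nat_lit 22) (nat_lit 3) (nat_lit 27) (nat_lit 3) (nat_lit 27) (nat_lit 5) (nat_lit 297) (nat_lit 297) (nat_lit 186)) (XT.lf (nat_lit 76) (nat_lit 37846062798) (nat_lit 0) (nat_lit 88391617528) (nat_lit 380) (nat_lit 644283431177) (nat_lit 23) (nat_lit 5) (nat_lit 22) (nat_lit 3) (nat_lit 27) (nat_lit 5) (nat_lit 298) (nat_lit 297) (nat_lit 185))) (XT.nd (nat_lit 78) (nat_lit 0) (nat_lit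 0) (XT.lf (nat_lit 0) (nat_lit 166461869780) (nat_lit 304) (nat_lit 381722873261) (nat_lit 380) (nat_lit 279642875332) (nat_lit 23) (nat_lit 5) (nat_lit 27) (nat_lit 5) (nat_lit 28) (nat_lit 5) (nat_lit 299) (nat_lit 297) (nat_lit 184)) (XT.nd (nat_lit 78) (nat_lit 0) (nat_lit 76) (XT.lf (nat_lit 76) (nat_lit 19389145195) (nat_lit 0) (nat_lit 198342512186) (nat_lit 380) (nat_lit 675246648501) (nat_lit 24) (nat_lit 5) (nat_lit 23) (nat_lit 5) (nat_lit 28) (nat_lit 5) (nat_lit 300) (nat_lit 297) (nat_lit 183)) (XT.lf (nat_lit 0) (nat_lit 306041981963) (nat_lit 304) (nat_lit 450736535870) (nat_lit 76) (nat_lit 206720568419) (nat_lit 24) (nat_lit 5) (nat_lit 28) (nat_lit 5) (nat_lit 25) (nat_lit 5) (nat_lit 301) (nat_lit 297) (nat_lit 182))))) (XT.nd (nat_lit 156) (nat_lit 228) (nat_lit 0) (XT.nd (nat_lit 78) (nat_lit 0) (nat_lit 0) (XT.lf (nat_lit 0) (nat_lit 28649679465) (nat_lit 304) (nat_lit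 389580365360) (nat_lit 380) (nat_lit 624773260464) (nat_lit 20) (nat_lit 5) (nat_lit 24) (nat_lit 5) (nat_lit 25) (nat_lit 5) (nat_lit 302) (nat_lit 297) (nat_lit 181)) (XT.lf (nat_lit 0) (nat_lit 573283429698) (nat_lit 380) (nat_lit 502774418589) (nat_lit 76) (nat_lit 54469742052) (nat_lit 20) (nat_lit 5) (nat_lit 25) (nat_lit 5) (nat_lit 21) (nat_lit 5) (nat_lit 303) (nat_lit 297) (nat_lit 180))) (XT.nd (nat_lit 78) (nat_lit 76) (nat_lit 0) (XT.lf (nat_lit 0) (nat_lit 73536980798) (nat_lit 152) (nat_lit 699654285873) (nat_lit 228) (nat_lit 454749784859) (nat_lit 18) (nat_lit 5) (nat_lit 20) (nat_lit 5) (nat_lit 21) (nat_lit 5) (nat_lit 304) (nat_lit 297) (nat_lit 179)) (XT.nd (nat_lit 78) (nat_lit 76) (nat_lit 0) (XT.lf (nat_lit 0) (nat_lit 792800065833) (nat_lit 152) (nat_lit 236566593183) (nat_lit 228) (nat_lit 306657665944) (nat_lit 18) (nat_lit 5) (nat_lit 20) (nat_lit 5) (nat_lit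 21) (nat_lit 5) (nat_lit 305) (nat_lit 297) (nat_lit 178)) (XT.lf (nat_lit 0) (nat_lit 161779132046) (nat_lit 76) (nat_lit 1181144224780) (nat_lit 152) (nat_lit 114553483115) (nat_lit 17) (nat_lit 5) (nat_lit 18) (nat_lit 5) (nat_lit 19) (nat_lit 4) (nat_lit 306) (nat_lit 297) (nat_lit 177))))))))
noncomputable def xc110 : XT := (XT.nd (nat_lit 1482) (nat_lit 228) (nat_lit 0) (XT.nd (nat_lit 702) (nat_lit 456) (nat_lit 0) (XT.nd (nat_lit 312) (nat_lit 228) (nat_lit 0) (XT.nd (nat_lit 156) (nat_lit 76) (nat_lit 0) (XT.nd (nat_lit 78) (nat_lit 152) (nat_lit 0) (XT.lf (nat_lit 0) (nat_lit 137909923432) (nat_lit 152) (nat_lit 576325502154) (nat_lit 76) (nat_lit 876099186849) (nat_lit 16) (nat_lit 5) (nat_lit 18) (nat_lit 5) (nat_lit 17) (nat_lit 5) (nat_lit 307) (nat_lit 297) (nat_lit 176)) (XT.lf (nat_lit 0) (nat_lit 269489406033) (nat_lit 152) (nat_lit 158184314250) (nat_lit 228) (nat_lit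 1312955245271) (nat_lit 14) (nat_lit 5) (nat_lit 16) (nat_lit 5) (nat_lit 17) (nat_lit 5) (nat_lit 308) (nat_lit 297) (nat_lit 175))) (XT.nd (nat_lit 78) (nat_lit 76) (nat_lit 0) (XT.lf (nat_lit 0) (nat_lit 812391310954) (nat_lit 228) (nat_lit 623364015099) (nat_lit 76) (nat_lit 469988761960) (nat_lit 14) (nat_lit 5) (nat_lit 17) (nat_lit 5) (nat_lit 15) (nat_lit 4) (nat_lit 309) (nat_lit 297) (nat_lit 174)) (XT.lf (nat_lit 0) (nat_lit 377667869956) (nat_lit 76) (nat_lit 900319671524) (nat_lit 152) (nat_lit 814163287187) (nat_lit 13) (nat_lit 5) (nat_lit 14) (nat_lit 5) (nat_lit 15) (nat_lit 4) (nat_lit 310) (nat_lit 297) (nat_lit 173)))) (XT.nd (nat_lit 156) (nat_lit 76) (nat_lit 0) (XT.nd (nat_lit 78) (nat_lit 152) (nat_lit 0) (XT.lf (nat_lit 0) (nat_lit 1598912143068) (nat_lit 76) (nat_lit 247095994834) (nat_lit 152) (nat_lit 455622702833) (nat_lit 13) (nat_lit 5) (nat_lit 14) (nat_lit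 5) (nat_lit 15) (nat_lit 4) (nat_lit 311) (nat_lit 297) (nat_lit 172)) (XT.lf (nat_lit 0) (nat_lit 3371434606) (nat_lit 152) (nat_lit 2053625642917) (nat_lit 76) (nat_lit 479382101366) (nat_lit 11) (nat_lit 5) (nat_lit 13) (nat_lit 5) (nat_lit 12) (nat_lit 4) (nat_lit 312) (nat_lit 297) (nat_lit 171))) (XT.nd (nat_lit 78) (nat_lit 76) (nat_lit 0) (XT.lf (nat_lit 0) (nat_lit 534816291635) (nat_lit 152) (nat_lit 911019206352) (nat_lit 76) (nat_lit 1349712519128) (nat_lit 11) (nat_lit 5) (nat_lit 13) (nat_lit 5) (nat_lit 12) (nat_lit 4) (nat_lit 313) (nat_lit 297) (nat_lit 170)) (XT.nd (nat_lit 78) (nat_lit 0) (nat_lit 0) (XT.lf (nat_lit 0) (nat_lit 442360147073) (nat_lit 76) (nat_lit 721934916042) (nat_lit 152) (nat_lit 1926549540082) (nat_lit 10) (nat_lit 5) (nat_lit 11) (nat_lit 5) (nat_lit 12) (nat_lit 4) (nat_lit 314) (nat_lit 297) (nat_lit 169)) (XT.lf (nat_lit 0) (nat_lit 1942662463947)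 (nat_lit 152) (nat_lit 1329005286564) (nat_lit 0) (nat_lit 150597904644) (nat_lit 10) (nat_lit 5) (nat_lit 12) (nat_lit 4) (nat_lit 10) (nat_lit 4) (nat_lit 315) (nat_lit 297) (nat_lit 168)))))) (XT.nd (nat_lit 390) (nat_lit 228) (nat_lit 0) (XT.nd (nat_lit 156) (nat_lit 152) (nat_lit 0) (XT.nd (nat_lit 78) (nat_lit 0) (nat_lit 0) (XT.lf (nat_lit 0) (nat_lit 169069647460) (nat_lit 76) (nat_lit 2710093990384) (nat_lit 76) (nat_lit 918029427624) (nat_lit 9) (nat_lit 4) (nat_lit 10) (nat_lit 5) (nat_lit 10) (nat_lit 4) (nat_lit 316) (nat_lit 297) (nat_lit 167)) (XT.lf (nat_lit 0) (nat_lit 2041217886339) (nat_lit 76) (nat_lit 1984392828831) (nat_lit 76) (nat_lit 192328263064) (nat_lit 9) (nat_lit 4) (nat_lit 10) (nat_lit 5) (nat_lit 10) (nat_lit 4) (nat_lit 317) (nat_lit 297) (nat_lit 166))) (XT.nd (nat_lit 78) (nat_lit 76) (nat_lit 0) (XT.lf (nat_lit 0) (nat_lit 585052488522) (nat_lit 152)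 (nat_lit 534201718057) (nat_lit 76) (nat_lit 3578553577562) (nat_lit 8) (nat_lit 5) (nat_lit 10) (nat_lit 5) (nat_lit 9) (nat_lit 4) (nat_lit 318) (nat_lit 297) (nat_lit 165)) (XT.nd (nat_lit 78) (nat_lit 0) (nat_lit 0) (XT.lf (nat_lit 0) (nat_lit 1477032735817) (nat_lit 76) (nat_lit 43477639285) (nat_lit 152) (nat_lit 3718598646578) (nat_lit 7) (nat_lit 5) (nat_lit 8) (nat_lit 5) (nat_lit 9) (nat_lit 4) (nat_lit 319) (nat_lit 297) (nat_lit 164)) (XT.lf (nat_lit 0) (nat_lit 2674967984781) (nat_lit 152) (nat_lit 2058184338953) (nat_lit 0) (nat_lit 1116650965102) (nat_lit 7) (nat_lit 5) (nat_lit 9) (nat_lit 4) (nat_lit 7) (nat_lit 4) (nat_lit 320) (nat_lit 297) (nat_lit 163))))) (XT.nd (nat_lit 156) (nat_lit 152) (nat_lit 0) (XT.nd (nat_lit 78) (nat_lit 76) (nat_lit 0) (XT.lf (nat_lit 0) (nat_lit 4004664597290) (nat_lit 152) (nat_lit 100778968455) (nat_lit 0) (nat_lit 2446347576116) (nat_lit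 7) (nat_lit 5) (nat_lit 9) (nat_lit 4) (nat_lit 7) (nat_lit 4) (nat_lit 321) (nat_lit 297) (nat_lit 162)) (XT.lf (nat_lit 0) (nat_lit 2360374021174) (nat_lit 76) (nat_lit 3271179733124) (nat_lit 76) (nat_lit 1712862710651) (nat_lit 6) (nat_lit 4) (nat_lit 7) (nat_lit 5) (nat_lit 7) (nat_lit 4) (nat_lit 322) (nat_lit 297) (nat_lit 161))) (XT.nd (nat_lit 78) (nat_lit 152) (nat_lit 0) (XT.lf (nat_lit 0) (nat_lit 5202026137164) (nat_lit 76) (nat_lit 2305718137252) (nat_lit 76) (nat_lit 747401113649) (nat_lit 6) (nat_lit 4) (nat_lit 7) (nat_lit 5) (nat_lit 7) (nat_lit 4) (nat_lit 323) (nat_lit 297) (nat_lit 160)) (XT.nd (nat_lit 78) (nat_lit 76) (nat_lit 0) (XT.lf (nat_lit 0) (nat_lit 330573658816) (nat_lit 152) (nat_lit 847583658131) (nat_lit 76) (nat_lit 8122072421654) (nat_lit 5) (nat_lit 5) (nat_lit 7) (nat_lit 5) (nat_lit 6) (nat_lit 4) (nat_lit 324) (nat_lit 297) (nat_lit 159)) (XT.lf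 (nat_lit 0) (nat_lit 1579051601381) (nat_lit 152) (nat_lit 8680894253754) (nat_lit 0) (nat_lit 223993318389) (nat_lit 4) (nat_lit 5) (nat_lit 6) (nat_lit 4) (nat_lit 4) (nat_lit 4) (nat_lit 325) (nat_lit 297) (nat_lit 158))))))) (XT.nd (nat_lit 1092) (nat_lit 152) (nat_lit 0) (XT.nd (nat_lit 390) (nat_lit 0) (nat_lit 0) (XT.nd (nat_lit 156) (nat_lit 76) (nat_lit 0) (XT.nd (nat_lit 78) (nat_lit 0) (nat_lit 0) (XT.lf (nat_lit 0) (nat_lit 3117319258731) (nat_lit 152) (nat_lit 6950247086354) (nat_lit 0) (nat_lit 1762260975093) (nat_lit 4) (nat_lit 5) (nat_lit 6) (nat_lit 4) (nat_lit 4) (nat_lit 4) (nat_lit 326) (nat_lit 297) (nat_lit 157)) (XT.lf (nat_lit 0) (nat_lit 4886327063343) (nat_lit 152) (nat_lit 4960002846547) (nat_lit 0) (nat_lit 3531268779143) (nat_lit 4) (nat_lit 5) (nat_lit 6) (nat_lit 4) (nat_lit 4) (nat_lit 4) (nat_lit 327) (nat_lit 297) (nat_lit 156))) (XT.nd (nat_lit 78)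 (nat_lit 76) (nat_lit 0) (XT.lf (nat_lit 0) (nat_lit 6920686037479) (nat_lit 152) (nat_lit 2671221973120) (nat_lit 0) (nat_lit 5565627752791) (nat_lit 4) (nat_lit 5) (nat_lit 6) (nat_lit 4) (nat_lit 4) (nat_lit 4) (nat_lit 328) (nat_lit 297) (nat_lit 155)) (XT.nd (nat_lit 78) (nat_lit 76) (nat_lit 0) (XT.lf (nat_lit 0) (nat_lit 9260198856722) (nat_lit 152) (nat_lit 39123970724) (nat_lit 0) (nat_lit 7905140571609) (nat_lit 4) (nat_lit 5) (nat_lit 6) (nat_lit 4) (nat_lit 4) (nat_lit 4) (nat_lit 329) (nat_lit 297) (nat_lit 154)) (XT.lf (nat_lit 0) (nat_lit 3279777174346) (nat_lit 76) (nat_lit 8806670002271) (nat_lit 76) (nat_lit 7451611716788) (nat_lit 3) (nat_lit 4) (nat_lit 4) (nat_lit 5) (nat_lit 4) (nat_lit 4) (nat_lit 330) (nat_lit 297) (nat_lit 153))))) (XT.nd (nat_lit 156) (nat_lit 0) (nat_lit 0) (XT.nd (nat_lit 78) (nat_lit 0) (nat_lit 0) (XT.lf (nat_lit 0) (nat_lit 7100910490281)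 (nat_lit 76) (nat_lit 8237767370029) (nat_lit 76) (nat_lit 6882709084225) (nat_lit 3) (nat_lit 4) (nat_lit 4) (nat_lit 5) (nat_lit 4) (nat_lit 4) (nat_lit 331) (nat_lit 297) (nat_lit 152)) (XT.lf (nat_lit 0) (nat_lit 11495213802131) (nat_lit 76) (nat_lit 7583529343699) (nat_lit 76) (nat_lit 6228471057615) (nat_lit 3) (nat_lit 4) (nat_lit 4) (nat_lit 5) (nat_lit 4) (nat_lit 4) (nat_lit 332) (nat_lit 297) (nat_lit 151))) (XT.nd (nat_lit 78) (nat_lit 0) (nat_lit 0) (XT.lf (nat_lit 0) (nat_lit 16548662609475) (nat_lit 76) (nat_lit 6831155614069) (nat_lit 76) (nat_lit 5476097327743) (nat_lit 3) (nat_lit 4) (nat_lit 4) (nat_lit 5) (nat_lit 4) (nat_lit 4) (nat_lit 333) (nat_lit 297) (nat_lit 150)) (XT.nd (nat_lit 78) (nat_lit 0) (nat_lit 0) (XT.lf (nat_lit 0) (nat_lit 22360128736805) (nat_lit 76) (nat_lit 5965925825560) (nat_lit 76) (nat_lit 4610867539022) (nat_lit 3) (nat_lit 4) (nat_lit 4)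 (nat_lit 5) (nat_lit 4) (nat_lit 4) (nat_lit 334) (nat_lit 297) (nat_lit 149)) (XT.lf (nat_lit 0) (nat_lit 29043314782264) (nat_lit 76) (nat_lit 4970911569266) (nat_lit 76) (nat_lit 3615853282545) (nat_lit 3) (nat_lit 4) (nat_lit 4) (nat_lit 5) (nat_lit 4) (nat_lit 4) (nat_lit 335) (nat_lit 297) (nat_lit 148)))))) (XT.nd (nat_lit 37596) (nat_lit 0) (nat_lit 1292) (XT.nd (nat_lit 37362) (nat_lit 0) (nat_lit 1596) (XT.nd (nat_lit 78) (nat_lit 0) (nat_lit 0) (XT.lf (nat_lit 0) (nat_lit 4173791622661) (nat_lit 152) (nat_lit 66758936937110) (nat_lit 0) (nat_lit 2995480068455) (nat_lit 1) (nat_lit 5) (nat_lit 3) (nat_lit 4) (nat_lit 1) (nat_lit 4) (nat_lit 340) (nat_lit 297) (nat_lit 143)) (XT.lf (nat_lit 0) (nat_lit 6584916649465) (nat_lit 152) (nat_lit 72730776046774) (nat_lit 0) (nat_lit 5406605095190) (nat_lit 1) (nat_lit 5) (nat_lit 3) (nat_lit 4) (nat_lit 1) (nat_lit 4) (nat_lit 341)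 (nat_lit 297) (nat_lit 142))) (XT.nd (nat_lit 78) (nat_lit 0) (nat_lit 0) (XT.lf (nat_lit 0) (nat_lit 66684299614) (nat_lit 380) (nat_lit 172790313229) (nat_lit 380) (nat_lit 172790313229) (nat_lit 22) (nat_lit 3) (nat_lit 27) (nat_lit 3) (nat_lit 27) (nat_lit 5) (nat_lit 298) (nat_lit 298) (nat_lit 184)) (XT.nd (nat_lit 78) (nat_lit 0) (nat_lit 76) (XT.lf (nat_lit 76) (nat_lit 43523094210) (nat_lit 0) (nat_lit 101650435851) (nat_lit 380) (nat_lit 740925717781) (nat_lit 23) (nat_lit 5) (nat_lit 22) (nat_lit 3) (nat_lit 27) (nat_lit 5) (nat_lit 299) (nat_lit 298) (nat_lit 183)) (XT.lf (nat_lit 0) (nat_lit 191431319422) (nat_lit 304) (nat_lit 438981169023) (nat_lit 380) (nat_lit 321589246671) (nat_lit 23) (nat_lit 5) (nat_lit 27) (nat_lit 5) (nat_lit 28) (nat_lit 5) (nat_lit 300) (nat_lit 298) (nat_lit 182))))) (XT.nd (nat_lit 156) (nat_lit 380) (nat_lit 0) (XT.nd (nat_lit 78) (nat_lit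 0) (nat_lit 76) (XT.lf (nat_lit 76) (nat_lit 22297646055) (nat_lit 0) (nat_lit 228093912387) (nat_lit 380) (nat_lit 776533469900) (nat_lit 24) (nat_lit 5) (nat_lit 23) (nat_lit 5) (nat_lit 28) (nat_lit 5) (nat_lit 301) (nat_lit 298) (nat_lit 181)) (XT.lf (nat_lit 0) (nat_lit 351948410984) (nat_lit 304) (nat_lit 518346882798) (nat_lit 76) (nat_lit 237728635167) (nat_lit 24) (nat_lit 5) (nat_lit 28) (nat_lit 5) (nat_lit 25) (nat_lit 5) (nat_lit 302) (nat_lit 298) (nat_lit 180))) (XT.nd (nat_lit 78) (nat_lit 152) (nat_lit 0) (XT.lf (nat_lit 0) (nat_lit 32947258772) (nat_lit 304) (nat_lit 448017412597) (nat_lit 380) (nat_lit 718489111321) (nat_lit 20) (nat_lit 5) (nat_lit 24) (nat_lit 5) (nat_lit 25) (nat_lit 5) (nat_lit 303) (nat_lit 298) (nat_lit 179)) (XT.nd (nat_lit 78) (nat_lit 152) (nat_lit 0) (XT.lf (nat_lit 0) (nat_lit 659276048617) (nat_lit 380) (nat_lit 578190454886) (nat_lit 76)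 (nat_lit 62640209353) (nat_lit 20) (nat_lit 5) (nat_lit 25) (nat_lit 5) (nat_lit 21) (nat_lit 5) (nat_lit 304) (nat_lit 298) (nat_lit 178)) (XT.lf (nat_lit 0) (nat_lit 84567648660) (nat_lit 152) (nat_lit 804602403849) (nat_lit 228) (nat_lit 522962142058) (nat_lit 18) (nat_lit 5) (nat_lit 20) (nat_lit 5) (nat_lit 21) (nat_lit 5) (nat_lit 305) (nat_lit 298) (nat_lit 177))))))))
noncomputable def xc111 : XT := (XT.nd (nat_lit 1482) (nat_lit 228) (nat_lit 0) (XT.nd (nat_lit 702) (nat_lit 380) (nat_lit 0) (XT.nd (nat_lit 312) (nat_lit 228) (nat_lit 0) (XT.nd (nat_lit 156) (nat_lit 228) (nat_lit 0) (XT.nd (nat_lit 78) (nat_lit 76) (nat_lit 0) (XT.lf (nat_lit 0) (nat_lit 911720180702) (nat_lit 152) (nat_lit 272051560504) (nat_lit 228) (nat_lit 352656219722) (nat_lit 18) (nat_lit 5) (nat_lit 20) (nat_lit 5) (nat_lit 21) (nat_lit 5) (nat_lit 306) (nat_lit 298) (nat_lit 176)) (XT.lf (nat_lit 0)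 (nat_lit 186046113414) (nat_lit 76) (nat_lit 1358315824803) (nat_lit 152) (nat_lit 131736415797) (nat_lit 17) (nat_lit 5) (nat_lit 18) (nat_lit 5) (nat_lit 19) (nat_lit 4) (nat_lit 307) (nat_lit 298) (nat_lit 175))) (XT.nd (nat_lit 78) (nat_lit 152) (nat_lit 0) (XT.lf (nat_lit 0) (nat_lit 158596483071) (nat_lit 152) (nat_lit 662774223337) (nat_lit 76) (nat_lit 1007514087043) (nat_lit 16) (nat_lit 5) (nat_lit 18) (nat_lit 5) (nat_lit 17) (nat_lit 5) (nat_lit 308) (nat_lit 298) (nat_lit 174)) (XT.lf (nat_lit 0) (nat_lit 309912916345) (nat_lit 152) (nat_lit 181911927943) (nat_lit 228) (nat_lit 1509898456047) (nat_lit 14) (nat_lit 5) (nat_lit 16) (nat_lit 5) (nat_lit 17) (nat_lit 5) (nat_lit 309) (nat_lit 298) (nat_lit 173)))) (XT.nd (nat_lit 156) (nat_lit 152) (nat_lit 0) (XT.nd (nat_lit 78) (nat_lit 76) (nat_lit 0) (XT.lf (nat_lit 0) (nat_lit 934250066161) (nat_lit 228) (nat_lit 716868523386)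 (nat_lit 76) (nat_lit 540487102746) (nat_lit 14) (nat_lit 5) (nat_lit 17) (nat_lit 5) (nat_lit 15) (nat_lit 4) (nat_lit 310) (nat_lit 298) (nat_lit 172)) (XT.lf (nat_lit 0) (nat_lit 434318140155) (nat_lit 76) (nat_lit 1035367587186) (nat_lit 152) (nat_lit 936287717311) (nat_lit 13) (nat_lit 5) (nat_lit 14) (nat_lit 5) (nat_lit 15) (nat_lit 4) (nat_lit 311) (nat_lit 298) (nat_lit 171))) (XT.nd (nat_lit 78) (nat_lit 152) (nat_lit 0) (XT.lf (nat_lit 0) (nat_lit 1838749042533) (nat_lit 76) (nat_lit 284160363567) (nat_lit 152) (nat_lit 523966053515) (nat_lit 13) (nat_lit 5) (nat_lit 14) (nat_lit 5) (nat_lit 15) (nat_lit 4) (nat_lit 312) (nat_lit 298) (nat_lit 170)) (XT.nd (nat_lit 78) (nat_lit 0) (nat_lit 0) (XT.lf (nat_lit 0) (nat_lit 3877197789) (nat_lit 152) (nat_lit 2361669404430) (nat_lit 76) (nat_lit 551289446226) (nat_lit 11) (nat_lit 5) (nat_lit 13) (nat_lit 5) (nat_lit 12) (nat_lit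 4) (nat_lit 313) (nat_lit 298) (nat_lit 169)) (XT.lf (nat_lit 0) (nat_lit 615038777112) (nat_lit 152) (nat_lit 1047672013458) (nat_lit 76) (nat_lit 1552169422785) (nat_lit 11) (nat_lit 5) (nat_lit 13) (nat_lit 5) (nat_lit 12) (nat_lit 4) (nat_lit 314) (nat_lit 298) (nat_lit 168)))))) (XT.nd (nat_lit 390) (nat_lit 152) (nat_lit 0) (XT.nd (nat_lit 156) (nat_lit 152) (nat_lit 0) (XT.nd (nat_lit 78) (nat_lit 0) (nat_lit 0) (XT.lf (nat_lit 0) (nat_lit 508714239624) (nat_lit 76) (nat_lit 830225122166) (nat_lit 152) (nat_lit 2215531925947) (nat_lit 10) (nat_lit 5) (nat_lit 11) (nat_lit 5) (nat_lit 12) (nat_lit 4) (nat_lit 315) (nat_lit 298) (nat_lit 167)) (XT.lf (nat_lit 0) (nat_lit 2234061868759) (nat_lit 152) (nat_lit 1528356014213) (nat_lit 0) (nat_lit 173187615121) (nat_lit 10) (nat_lit 5) (nat_lit 12) (nat_lit 4) (nat_lit 10) (nat_lit 4) (nat_lit 316) (nat_lit 298) (nat_lit 166))) (XT.nd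 (nat_lit 78) (nat_lit 76) (nat_lit 0) (XT.lf (nat_lit 0) (nat_lit 194430156945) (nat_lit 76) (nat_lit 3116608059785) (nat_lit 76) (nat_lit 1055733803533) (nat_lit 9) (nat_lit 4) (nat_lit 10) (nat_lit 5) (nat_lit 10) (nat_lit 4) (nat_lit 317) (nat_lit 298) (nat_lit 165)) (XT.nd (nat_lit 78) (nat_lit 76) (nat_lit 0) (XT.lf (nat_lit 0) (nat_lit 2347400623521) (nat_lit 76) (nat_lit 2282051727802) (nat_lit 76) (nat_lit 221177469277) (nat_lit 9) (nat_lit 4) (nat_lit 10) (nat_lit 5) (nat_lit 10) (nat_lit 4) (nat_lit 318) (nat_lit 298) (nat_lit 164)) (XT.lf (nat_lit 0) (nat_lit 672810388137) (nat_lit 152) (nat_lit 614331926005) (nat_lit 76) (nat_lit 4115336633640) (nat_lit 8) (nat_lit 5) (nat_lit 10) (nat_lit 5) (nat_lit 9) (nat_lit 4) (nat_lit 319) (nat_lit 298) (nat_lit 163))))) (XT.nd (nat_lit 156) (nat_lit 76) (nat_lit 0) (XT.nd (nat_lit 78) (nat_lit 0) (nat_lit 0) (XT.lf (nat_lit 0) (nat_lit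 1698587693689) (nat_lit 76) (nat_lit 49999262548) (nat_lit 152) (nat_lit 4276388414940) (nat_lit 7) (nat_lit 5) (nat_lit 8) (nat_lit 5) (nat_lit 9) (nat_lit 4) (nat_lit 320) (nat_lit 298) (nat_lit 162)) (XT.lf (nat_lit 0) (nat_lit 3076213204938) (nat_lit 152) (nat_lit 2366911946042) (nat_lit 0) (nat_lit 1284148627794) (nat_lit 7) (nat_lit 5) (nat_lit 9) (nat_lit 4) (nat_lit 7) (nat_lit 4) (nat_lit 321) (nat_lit 298) (nat_lit 161))) (XT.nd (nat_lit 78) (nat_lit 76) (nat_lit 0) (XT.lf (nat_lit 0) (nat_lit 4605364306396) (nat_lit 152) (nat_lit 115895775676) (nat_lit 0) (nat_lit 2813299728122) (nat_lit 7) (nat_lit 5) (nat_lit 9) (nat_lit 4) (nat_lit 7) (nat_lit 4) (nat_lit 322) (nat_lit 298) (nat_lit 160)) (XT.nd (nat_lit 78) (nat_lit 0) (nat_lit 0) (XT.lf (nat_lit 0) (nat_lit 2714430160667) (nat_lit 76) (nat_lit 3761856675246) (nat_lit 76) (nat_lit 1969792095989) (nat_lit 6) (nat_lit 4)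 (nat_lit 7) (nat_lit 5) (nat_lit 7) (nat_lit 4) (nat_lit 323) (nat_lit 298) (nat_lit 159)) (XT.lf (nat_lit 0) (nat_lit 5982330089320) (nat_lit 76) (nat_lit 2651575842322) (nat_lit 76) (nat_lit 859511262211) (nat_lit 6) (nat_lit 4) (nat_lit 7) (nat_lit 5) (nat_lit 7) (nat_lit 4) (nat_lit 324) (nat_lit 298) (nat_lit 158))))))) (XT.nd (nat_lit 38610) (nat_lit 0) (nat_lit 1064) (XT.nd (nat_lit 390) (nat_lit 76) (nat_lit 0) (XT.nd (nat_lit 156) (nat_lit 0) (nat_lit 0) (XT.nd (nat_lit 78) (nat_lit 76) (nat_lit 0) (XT.lf (nat_lit 0) (nat_lit 380159722282) (nat_lit 152) (nat_lit 974721177947) (nat_lit 76) (nat_lit 9340383296954) (nat_lit 5) (nat_lit 5) (nat_lit 7) (nat_lit 5) (nat_lit 6) (nat_lit 4) (nat_lit 325) (nat_lit 298) (nat_lit 157)) (XT.lf (nat_lit 0) (nat_lit 1815909356032) (nat_lit 152) (nat_lit 9983028362705) (nat_lit 0) (nat_lit 257592328640) (nat_lit 4) (nat_lit 5) (nat_lit 6) (nat_lit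 4) (nat_lit 4) (nat_lit 4) (nat_lit 326) (nat_lit 298) (nat_lit 156))) (XT.nd (nat_lit 78) (nat_lit 0) (nat_lit 0) (XT.lf (nat_lit 0) (nat_lit 3584917160101) (nat_lit 152) (nat_lit 7992784123991) (nat_lit 0) (nat_lit 2026600132221) (nat_lit 4) (nat_lit 5) (nat_lit 6) (nat_lit 4) (nat_lit 4) (nat_lit 4) (nat_lit 327) (nat_lit 298) (nat_lit 155)) (XT.nd (nat_lit 78) (nat_lit 0) (nat_lit 0) (XT.lf (nat_lit 0) (nat_lit 5619276133766) (nat_lit 152) (nat_lit 5704003251515) (nat_lit 0) (nat_lit 4060959105461) (nat_lit 4) (nat_lit 5) (nat_lit 6) (nat_lit 4) (nat_lit 4) (nat_lit 4) (nat_lit 328) (nat_lit 298) (nat_lit 154)) (XT.lf (nat_lit 0) (nat_lit 7958788952598) (nat_lit 152) (nat_lit 3071905249946) (nat_lit 0) (nat_lit 6400471923924) (nat_lit 4) (nat_lit 5) (nat_lit 6) (nat_lit 4) (nat_lit 4) (nat_lit 4) (nat_lit 329) (nat_lit 298) (nat_lit 153))))) (XT.nd (nat_lit 156) (nat_lit 0) (nat_lit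 0) (XT.nd (nat_lit 78) (nat_lit 76) (nat_lit 0) (XT.lf (nat_lit 0) (nat_lit 10649228693489) (nat_lit 152) (nat_lit 44992549687) (nat_lit 0) (nat_lit 9090911664493) (nat_lit 4) (nat_lit 5) (nat_lit 6) (nat_lit 4) (nat_lit 4) (nat_lit 4) (nat_lit 330) (nat_lit 298) (nat_lit 152)) (XT.lf (nat_lit 0) (nat_lit 3771743766387) (nat_lit 76) (nat_lit 10127670494562) (nat_lit 76) (nat_lit 8569353465286) (nat_lit 3) (nat_lit 4) (nat_lit 4) (nat_lit 5) (nat_lit 4) (nat_lit 4) (nat_lit 331) (nat_lit 298) (nat_lit 151))) (XT.nd (nat_lit 78) (nat_lit 0) (nat_lit 0) (XT.lf (nat_lit 0) (nat_lit 8166047077640) (nat_lit 76) (nat_lit 9473432468534) (nat_lit 76) (nat_lit 7915115439015) (nat_lit 3) (nat_lit 4) (nat_lit 4) (nat_lit 5) (nat_lit 4) (nat_lit 4) (nat_lit 332) (nat_lit 298) (nat_lit 150)) (XT.nd (nat_lit 78) (nat_lit 0) (nat_lit 0) (XT.lf (nat_lit 0) (nat_lit 13219495884465) (nat_lit 76) (nat_lit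 8721058739167) (nat_lit 76) (nat_lit 7162741709437) (nat_lit 3) (nat_lit 4) (nat_lit 4) (nat_lit 5) (nat_lit 4) (nat_lit 4) (nat_lit 333) (nat_lit 298) (nat_lit 149)) (XT.lf (nat_lit 0) (nat_lit 19030962011344) (nat_lit 76) (nat_lit 7855828950886) (nat_lit 76) (nat_lit 6297511920973) (nat_lit 3) (nat_lit 4) (nat_lit 4) (nat_lit 5) (nat_lit 4) (nat_lit 4) (nat_lit 334) (nat_lit 298) (nat_lit 148)))))) (XT.nd (nat_lit 390) (nat_lit 380) (nat_lit 0) (XT.nd (nat_lit 156) (nat_lit 0) (nat_lit 76) (XT.nd (nat_lit 78) (nat_lit 0) (nat_lit 0) (XT.lf (nat_lit 0) (nat_lit 76687028311) (nat_lit 380) (nat_lit 198708811896) (nat_lit 380) (nat_lit 198708811896) (nat_lit 22) (nat_lit 3) (nat_lit 27) (nat_lit 3) (nat_lit 27) (nat_lit 5) (nat_lit 299) (nat_lit 299) (nat_lit 182)) (XT.lf (nat_lit 76) (nat_lit 50051650585) (nat_lit 0) (nat_lit 116898058465) (nat_lit 380) (nat_lit 852064402993) (nat_lit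 23) (nat_lit 5) (nat_lit 22) (nat_lit 3) (nat_lit 27) (nat_lit 5) (nat_lit 300) (nat_lit 299) (nat_lit 181))) (XT.nd (nat_lit 78) (nat_lit 0) (nat_lit 0) (XT.lf (nat_lit 0) (nat_lit 220146145257) (nat_lit 304) (nat_lit 504828242124) (nat_lit 380) (nat_lit 369827588332) (nat_lit 23) (nat_lit 5) (nat_lit 27) (nat_lit 5) (nat_lit 28) (nat_lit 5) (nat_lit 301) (nat_lit 299) (nat_lit 180)) (XT.nd (nat_lit 78) (nat_lit 0) (nat_lit 76) (XT.lf (nat_lit 76) (nat_lit 25642390567) (nat_lit 0) (nat_lit 262308016919) (nat_lit 380) (nat_lit 893013357398) (nat_lit 24) (nat_lit 5) (nat_lit 23) (nat_lit 5) (nat_lit 28) (nat_lit 5) (nat_lit 302) (nat_lit 299) (nat_lit 179)) (XT.lf (nat_lit 0) (nat_lit 404740772237) (nat_lit 304) (nat_lit 596098814308) (nat_lit 76) (nat_lit 273387916442) (nat_lit 24) (nat_lit 5) (nat_lit 28) (nat_lit 5) (nat_lit 25) (nat_lit 5) (nat_lit 303) (nat_lit 299) (nat_lit 178)))))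 (XT.nd (nat_lit 156) (nat_lit 228) (nat_lit 0) (XT.nd (nat_lit 78) (nat_lit 0) (nat_lit 0) (XT.lf (nat_lit 0) (nat_lit 37889443911) (nat_lit 304) (nat_lit 515220018765) (nat_lit 380) (nat_lit 826262373511) (nat_lit 20) (nat_lit 5) (nat_lit 24) (nat_lit 5) (nat_lit 25) (nat_lit 5) (nat_lit 304) (nat_lit 299) (nat_lit 177)) (XT.lf (nat_lit 0) (nat_lit 758167534899) (nat_lit 380) (nat_lit 664918927473) (nat_lit 76) (nat_lit 72036245289) (nat_lit 20) (nat_lit 5) (nat_lit 25) (nat_lit 5) (nat_lit 21) (nat_lit 5) (nat_lit 305) (nat_lit 299) (nat_lit 176))) (XT.nd (nat_lit 78) (nat_lit 76) (nat_lit 0) (XT.lf (nat_lit 0) (nat_lit 97252887258) (nat_lit 152) (nat_lit 925292745595) (nat_lit 228) (nat_lit 601406379790) (nat_lit 18) (nat_lit 5) (nat_lit 20) (nat_lit 5) (nat_lit 21) (nat_lit 5) (nat_lit 306) (nat_lit 299) (nat_lit 175)) (XT.nd (nat_lit 78) (nat_lit 76) (nat_lit 0) (XT.lf (nat_lit 0)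 (nat_lit 1048478287197) (nat_lit 152) (nat_lit 312859278205) (nat_lit 228) (nat_lit 405554580005) (nat_lit 18) (nat_lit 5) (nat_lit 20) (nat_lit 5) (nat_lit 21) (nat_lit 5) (nat_lit 307) (nat_lit 299) (nat_lit 174)) (XT.lf (nat_lit 0) (nat_lit 213953114781) (nat_lit 76) (nat_lit 1562063173046) (nat_lit 152) (nat_lit 151496810275) (nat_lit 17) (nat_lit 5) (nat_lit 18) (nat_lit 5) (nat_lit 19) (nat_lit 4) (nat_lit 308) (nat_lit 299) (nat_lit 173))))))))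
noncomputable def xc112 : XT := (XT.nd (nat_lit 1482) (nat_lit 228) (nat_lit 0) (XT.nd (nat_lit 702) (nat_lit 456) (nat_lit 0) (XT.nd (nat_lit 312) (nat_lit 228) (nat_lit 0) (XT.nd (nat_lit 156) (nat_lit 76) (nat_lit 0) (XT.nd (nat_lit 78) (nat_lit 152) (nat_lit 0) (XT.lf (nat_lit 0) (nat_lit 182386009312) (nat_lit 152) (nat_lit 762190278092) (nat_lit 76) (nat_lit 1158641216861) (nat_lit 16) (nat_lit 5) (nat_lit 18) (nat_lit 5) (nat_lit 17) (nat_lit 5) (nat_lit 309) (nat_lit 299) (nat_lit 172)) (XT.lf (nat_lit 0) (nat_lit 356399928962) (nat_lit 152) (nat_lit 209198691846) (nat_lit 228) (nat_lit 1736383166975) (nat_lit 14) (nat_lit 5) (nat_lit 16) (nat_lit 5) (nat_lit 17) (nat_lit 5) (nat_lit 310) (nat_lit 299) (nat_lit 171))) (XT.nd (nat_lit 78) (nat_lit 76) (nat_lit 0) (XT.lf (nat_lit 0) (nat_lit 1074387620367) (nat_lit 228) (nat_lit 824398730834) (nat_lit 76) (nat_lit 621560188191)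 (nat_lit 14) (nat_lit 5) (nat_lit 17) (nat_lit 5) (nat_lit 15) (nat_lit 4) (nat_lit 311) (nat_lit 299) (nat_lit 170)) (XT.lf (nat_lit 0) (nat_lit 499465929009) (nat_lit 76) (nat_lit 1190672698748) (nat_lit 152) (nat_lit 1076730827306) (nat_lit 13) (nat_lit 5) (nat_lit 14) (nat_lit 5) (nat_lit 15) (nat_lit 4) (nat_lit 312) (nat_lit 299) (nat_lit 169)))) (XT.nd (nat_lit 156) (nat_lit 76) (nat_lit 0) (XT.nd (nat_lit 78) (nat_lit 152) (nat_lit 0) (XT.lf (nat_lit 0) (nat_lit 2114561457896) (nat_lit 76) (nat_lit 326784395045) (nat_lit 152) (nat_lit 602560920149) (nat_lit 13) (nat_lit 5) (nat_lit 14) (nat_lit 5) (nat_lit 15) (nat_lit 4) (nat_lit 313) (nat_lit 299) (nat_lit 168)) (XT.lf (nat_lit 0) (nat_lit 4458813746) (nat_lit 152) (nat_lit 2715919750879) (nat_lit 76) (nat_lit 633982885584) (nat_lit 11) (nat_lit 5) (nat_lit 13) (nat_lit 5) (nat_lit 12) (nat_lit 4) (nat_lit 314) (nat_lit 299)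 (nat_lit 167))) (XT.nd (nat_lit 78) (nat_lit 76) (nat_lit 0) (XT.lf (nat_lit 0) (nat_lit 707294625235) (nat_lit 152) (nat_lit 1204822759637) (nat_lit 76) (nat_lit 1784994855701) (nat_lit 11) (nat_lit 5) (nat_lit 13) (nat_lit 5) (nat_lit 12) (nat_lit 4) (nat_lit 315) (nat_lit 299) (nat_lit 166)) (XT.nd (nat_lit 78) (nat_lit 0) (nat_lit 0) (XT.lf (nat_lit 0) (nat_lit 585021428869) (nat_lit 76) (nat_lit 954758866837) (nat_lit 152) (nat_lit 2547861680701) (nat_lit 10) (nat_lit 5) (nat_lit 11) (nat_lit 5) (nat_lit 12) (nat_lit 4) (nat_lit 316) (nat_lit 299) (nat_lit 165)) (XT.lf (nat_lit 0) (nat_lit 2569171175704) (nat_lit 152) (nat_lit 1757609366943) (nat_lit 0) (nat_lit 199165776127) (nat_lit 10) (nat_lit 5) (nat_lit 12) (nat_lit 4) (nat_lit 10) (nat_lit 4) (nat_lit 317) (nat_lit 299) (nat_lit 164)))))) (XT.nd (nat_lit 390) (nat_lit 228) (nat_lit 0) (XT.nd (nat_lit 156) (nat_lit 152) (nat_lit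 0) (XT.nd (nat_lit 78) (nat_lit 0) (nat_lit 0) (XT.lf (nat_lit 0) (nat_lit 223594727644) (nat_lit 76) (nat_lit 3584099246706) (nat_lit 76) (nat_lit 1214093845153) (nat_lit 9) (nat_lit 4) (nat_lit 10) (nat_lit 5) (nat_lit 10) (nat_lit 4) (nat_lit 318) (nat_lit 299) (nat_lit 163)) (XT.lf (nat_lit 0) (nat_lit 2699510758056) (nat_lit 76) (nat_lit 2624359467801) (nat_lit 76) (nat_lit 254354064528) (nat_lit 9) (nat_lit 4) (nat_lit 10) (nat_lit 5) (nat_lit 10) (nat_lit 4) (nat_lit 319) (nat_lit 299) (nat_lit 162))) (XT.nd (nat_lit 78) (nat_lit 76) (nat_lit 0) (XT.lf (nat_lit 0) (nat_lit 773731966273) (nat_lit 152) (nat_lit 706481677279) (nat_lit 76) (nat_lit 4732637143389) (nat_lit 8) (nat_lit 5) (nat_lit 10) (nat_lit 5) (nat_lit 9) (nat_lit 4) (nat_lit 320) (nat_lit 299) (nat_lit 161)) (XT.nd (nat_lit 78) (nat_lit 0) (nat_lit 0) (XT.lf (nat_lit 0) (nat_lit 1953375883658) (nat_lit 76) (nat_lit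 57499134818) (nat_lit 152) (nat_lit 4917846655537) (nat_lit 7) (nat_lit 5) (nat_lit 8) (nat_lit 5) (nat_lit 9) (nat_lit 4) (nat_lit 321) (nat_lit 299) (nat_lit 160)) (XT.lf (nat_lit 0) (nat_lit 3537645202646) (nat_lit 152) (nat_lit 2721948704863) (nat_lit 0) (nat_lit 1476770935518) (nat_lit 7) (nat_lit 5) (nat_lit 9) (nat_lit 4) (nat_lit 7) (nat_lit 4) (nat_lit 322) (nat_lit 299) (nat_lit 159))))) (XT.nd (nat_lit 156) (nat_lit 152) (nat_lit 0) (XT.nd (nat_lit 78) (nat_lit 76) (nat_lit 0) (XT.lf (nat_lit 0) (nat_lit 5296168967110) (nat_lit 152) (nat_lit 133280113258) (nat_lit 0) (nat_lit 3235294699127) (nat_lit 7) (nat_lit 5) (nat_lit 9) (nat_lit 4) (nat_lit 7) (nat_lit 4) (nat_lit 323) (nat_lit 299) (nat_lit 158)) (XT.lf (nat_lit 0) (nat_lit 3121594712229) (nat_lit 76) (nat_lit 4326135163038) (nat_lit 76) (nat_lit 2265260894313) (nat_lit 6) (nat_lit 4) (nat_lit 7) (nat_lit 5) (nat_lit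 7) (nat_lit 4) (nat_lit 324) (nat_lit 299) (nat_lit 157))) (XT.nd (nat_lit 78) (nat_lit 152) (nat_lit 0) (XT.lf (nat_lit 0) (nat_lit 6879679626597) (nat_lit 76) (nat_lit 3049312206936) (nat_lit 76) (nat_lit 988437937564) (nat_lit 6) (nat_lit 4) (nat_lit 7) (nat_lit 5) (nat_lit 7) (nat_lit 4) (nat_lit 325) (nat_lit 299) (nat_lit 156)) (XT.nd (nat_lit 78) (nat_lit 76) (nat_lit 0) (XT.lf (nat_lit 0) (nat_lit 437183691697) (nat_lit 152) (nat_lit 1120929332784) (nat_lit 76) (nat_lit 10741440800611) (nat_lit 5) (nat_lit 5) (nat_lit 7) (nat_lit 5) (nat_lit 6) (nat_lit 4) (nat_lit 326) (nat_lit 299) (nat_lit 155)) (XT.lf (nat_lit 0) (nat_lit 2088295770359) (nat_lit 152) (nat_lit 11480482595097) (nat_lit 0) (nat_lit 296231187383) (nat_lit 4) (nat_lit 5) (nat_lit 6) (nat_lit 4) (nat_lit 4) (nat_lit 4) (nat_lit 327) (nat_lit 299) (nat_lit 154))))))) (XT.nd (nat_lit 38532) (nat_lit 0) (nat_lit 1140)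 (XT.nd (nat_lit 390) (nat_lit 152) (nat_lit 0) (XT.nd (nat_lit 156) (nat_lit 76) (nat_lit 0) (XT.nd (nat_lit 78) (nat_lit 0) (nat_lit 0) (XT.lf (nat_lit 0) (nat_lit 4122654743613) (nat_lit 152) (nat_lit 9191701723448) (nat_lit 0) (nat_lit 2330590160268) (nat_lit 4) (nat_lit 5) (nat_lit 6) (nat_lit 4) (nat_lit 4) (nat_lit 4) (nat_lit 328) (nat_lit 299) (nat_lit 153)) (XT.lf (nat_lit 0) (nat_lit 6462167562089) (nat_lit 152) (nat_lit 6559603722597) (nat_lit 0) (nat_lit 4670102978423) (nat_lit 4) (nat_lit 5) (nat_lit 6) (nat_lit 4) (nat_lit 4) (nat_lit 4) (nat_lit 329) (nat_lit 299) (nat_lit 152))) (XT.nd (nat_lit 78) (nat_lit 76) (nat_lit 0) (XT.lf (nat_lit 0) (nat_lit 9152607302669) (nat_lit 152) (nat_lit 3532691022964) (nat_lit 0) (nat_lit 7360542718723) (nat_lit 4) (nat_lit 5) (nat_lit 6) (nat_lit 4) (nat_lit 4) (nat_lit 4) (nat_lit 330) (nat_lit 299) (nat_lit 151)) (XT.nd (nat_lit 78)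 (nat_lit 76) (nat_lit 0) (XT.lf (nat_lit 0) (nat_lit 12246613003757) (nat_lit 152) (nat_lit 51741419554) (nat_lit 0) (nat_lit 10454548419568) (nat_lit 4) (nat_lit 5) (nat_lit 6) (nat_lit 4) (nat_lit 4) (nat_lit 4) (nat_lit 331) (nat_lit 299) (nat_lit 150)) (XT.lf (nat_lit 0) (nat_lit 4337505343359) (nat_lit 76) (nat_lit 11646821062659) (nat_lit 76) (nat_lit 9854756478259) (nat_lit 3) (nat_lit 4) (nat_lit 4) (nat_lit 5) (nat_lit 4) (nat_lit 4) (nat_lit 332) (nat_lit 299) (nat_lit 149))))) (XT.nd (nat_lit 1404) (nat_lit 0) (nat_lit 0) (XT.nd (nat_lit 1326) (nat_lit 152) (nat_lit 0) (XT.lf (nat_lit 0) (nat_lit 9390954149733) (nat_lit 76) (nat_lit 10894447333521) (nat_lit 76) (nat_lit 9102382748937) (nat_lit 3) (nat_lit 4) (nat_lit 4) (nat_lit 5) (nat_lit 4) (nat_lit 4) (nat_lit 333) (nat_lit 299) (nat_lit 148)) (XT.lf (nat_lit 0) (nat_lit 49290723787047) (nat_lit 152) (nat_lit 196699778674079)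 (nat_lit 0) (nat_lit 47732406756009) (nat_lit 1) (nat_lit 5) (nat_lit 3) (nat_lit 4) (nat_lit 1) (nat_lit 4) (nat_lit 350) (nat_lit 299) (nat_lit 131))) (XT.nd (nat_lit 78) (nat_lit 0) (nat_lit 0) (XT.lf (nat_lit 0) (nat_lit 59045069288036) (nat_lit 152) (nat_lit 220859198586679) (nat_lit 0) (nat_lit 57486752256984) (nat_lit 1) (nat_lit 5) (nat_lit 3) (nat_lit 4) (nat_lit 1) (nat_lit 4) (nat_lit 351) (nat_lit 299) (nat_lit 130)) (XT.nd (nat_lit 36582) (nat_lit 0) (nat_lit 1596) (XT.lf (nat_lit 0) (nat_lit 70262566614133) (nat_lit 152) (nat_lit 248642531486251) (nat_lit 0) (nat_lit 68704249583071) (nat_lit 1) (nat_lit 5) (nat_lit 3) (nat_lit 4) (nat_lit 1) (nat_lit 4) (nat_lit 352) (nat_lit 299) (nat_lit 129)) (XT.lf (nat_lit 0) (nat_lit 88190145888) (nat_lit 380) (nat_lit 228515097145) (nat_lit 380) (nat_lit 228515097145) (nat_lit 22) (nat_lit 3) (nat_lit 27) (nat_lit 3) (nat_lit 27)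 (nat_lit 5) (nat_lit 300) (nat_lit 300) (nat_lit 180)))))) (XT.nd (nat_lit 390) (nat_lit 304) (nat_lit 0) (XT.nd (nat_lit 156) (nat_lit 152) (nat_lit 0) (XT.nd (nat_lit 78) (nat_lit 0) (nat_lit 76) (XT.lf (nat_lit 76) (nat_lit 57559467922) (nat_lit 0) (nat_lit 134432810513) (nat_lit 380) (nat_lit 979873933042) (nat_lit 23) (nat_lit 5) (nat_lit 22) (nat_lit 3) (nat_lit 27) (nat_lit 5) (nat_lit 301) (nat_lit 300) (nat_lit 179)) (XT.lf (nat_lit 0) (nat_lit 253168163772) (nat_lit 304) (nat_lit 580552401126) (nat_lit 380) (nat_lit 425301692299) (nat_lit 23) (nat_lit 5) (nat_lit 27) (nat_lit 5) (nat_lit 28) (nat_lit 5) (nat_lit 302) (nat_lit 300) (nat_lit 178))) (XT.nd (nat_lit 78) (nat_lit 228) (nat_lit 0) (XT.lf (nat_lit 76) (nat_lit 29488822955) (nat_lit 0) (nat_lit 301654232821) (nat_lit 380) (nat_lit 1026965260450) (nat_lit 24) (nat_lit 5) (nat_lit 23) (nat_lit 5) (nat_lit 28) (nat_lit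 5) (nat_lit 303) (nat_lit 300) (nat_lit 177)) (XT.nd (nat_lit 78) (nat_lit 304) (nat_lit 0) (XT.lf (nat_lit 0) (nat_lit 465451963388) (nat_lit 304) (nat_lit 685513560152) (nat_lit 76) (nat_lit 314396093322) (nat_lit 24) (nat_lit 5) (nat_lit 28) (nat_lit 5) (nat_lit 25) (nat_lit 5) (nat_lit 304) (nat_lit 300) (nat_lit 176)) (XT.lf (nat_lit 0) (nat_lit 43572933331) (nat_lit 304) (nat_lit 592503017254) (nat_lit 380) (nat_lit 950201650514) (nat_lit 20) (nat_lit 5) (nat_lit 24) (nat_lit 5) (nat_lit 25) (nat_lit 5) (nat_lit 305) (nat_lit 300) (nat_lit 175))))) (XT.nd (nat_lit 156) (nat_lit 152) (nat_lit 0) (XT.nd (nat_lit 78) (nat_lit 152) (nat_lit 0) (XT.lf (nat_lit 0) (nat_lit 871892724862) (nat_lit 380) (nat_lit 764656694271) (nat_lit 76) (nat_lit 82841685509) (nat_lit 20) (nat_lit 5) (nat_lit 25) (nat_lit 5) (nat_lit 21) (nat_lit 5) (nat_lit 306) (nat_lit 300) (nat_lit 174)) (XT.lf (nat_lit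 0) (nat_lit 111840889381) (nat_lit 152) (nat_lit 1064086643196) (nat_lit 228) (nat_lit 691617273563) (nat_lit 18) (nat_lit 5) (nat_lit 20) (nat_lit 5) (nat_lit 21) (nat_lit 5) (nat_lit 307) (nat_lit 300) (nat_lit 173))) (XT.nd (nat_lit 78) (nat_lit 152) (nat_lit 0) (XT.lf (nat_lit 0) (nat_lit 1205750090307) (nat_lit 152) (nat_lit 359788157554) (nat_lit 228) (nat_lit 466387712052) (nat_lit 18) (nat_lit 5) (nat_lit 20) (nat_lit 5) (nat_lit 21) (nat_lit 5) (nat_lit 308) (nat_lit 300) (nat_lit 172)) (XT.nd (nat_lit 78) (nat_lit 76) (nat_lit 0) (XT.lf (nat_lit 0) (nat_lit 246046145784) (nat_lit 76) (nat_lit 1796372629739) (nat_lit 152) (nat_lit 174221280481) (nat_lit 17) (nat_lit 5) (nat_lit 18) (nat_lit 5) (nat_lit 19) (nat_lit 4) (nat_lit 309) (nat_lit 300) (nat_lit 171)) (XT.lf (nat_lit 0) (nat_lit 209743951374) (nat_lit 152) (nat_lit 876518760263) (nat_lit 76) (nat_lit 1332437412064) (nat_lit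 16) (nat_lit 5) (nat_lit 18) (nat_lit 5) (nat_lit 17) (nat_lit 5) (nat_lit 310) (nat_lit 300) (nat_lit 170))))))))
noncomputable def xc113 : XT := (XT.nd (nat_lit 1482) (nat_lit 228) (nat_lit 0) (XT.nd (nat_lit 702) (nat_lit 380) (nat_lit 0) (XT.nd (nat_lit 312) (nat_lit 304) (nat_lit 0) (XT.nd (nat_lit 156) (nat_lit 76) (nat_lit 0) (XT.nd (nat_lit 78) (nat_lit 0) (nat_lit 0) (XT.lf (nat_lit 0) (nat_lit 409859975143) (nat_lit 152) (nat_lit 240578476502) (nat_lit 228) (nat_lit 1996840598560) (nat_lit 14) (nat_lit 5) (nat_lit 16) (nat_lit 5) (nat_lit 17) (nat_lit 5) (nat_lit 311) (nat_lit 300) (nat_lit 169)) (XT.lf (nat_lit 0) (nat_lit 1235545796906) (nat_lit 228) (nat_lit 948058486727) (nat_lit 76) (nat_lit 714794231566) (nat_lit 14) (nat_lit 5) (nat_lit 17) (nat_lit 5) (nat_lit 15) (nat_lit 4) (nat_lit 312) (nat_lit 300) (nat_lit 168))) (XT.nd (nat_lit 78) (nat_lit 0) (nat_lit 0) (XT.lf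 (nat_lit 0) (nat_lit 574385869650) (nat_lit 76) (nat_lit 1369273583511) (nat_lit 152) (nat_lit 1238240415407) (nat_lit 13) (nat_lit 5) (nat_lit 14) (nat_lit 5) (nat_lit 15) (nat_lit 4) (nat_lit 313) (nat_lit 300) (nat_lit 167)) (XT.lf (nat_lit 0) (nat_lit 2431745721180) (nat_lit 76) (nat_lit 375802036868) (nat_lit 152) (nat_lit 692945026872) (nat_lit 13) (nat_lit 5) (nat_lit 14) (nat_lit 5) (nat_lit 15) (nat_lit 4) (nat_lit 314) (nat_lit 300) (nat_lit 166)))) (XT.nd (nat_lit 156) (nat_lit 152) (nat_lit 0) (XT.nd (nat_lit 78) (nat_lit 0) (nat_lit 0) (XT.lf (nat_lit 0) (nat_lit 5127663248) (nat_lit 152) (nat_lit 3123307664956) (nat_lit 76) (nat_lit 729080335377) (nat_lit 11) (nat_lit 5) (nat_lit 13) (nat_lit 5) (nat_lit 12) (nat_lit 4) (nat_lit 315) (nat_lit 300) (nat_lit 165)) (XT.lf (nat_lit 0) (nat_lit 813388842880) (nat_lit 152) (nat_lit 1385546131360) (nat_lit 76) (nat_lit 2052744098801)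 (nat_lit 11) (nat_lit 5) (nat_lit 13) (nat_lit 5) (nat_lit 12) (nat_lit 4) (nat_lit 316) (nat_lit 300) (nat_lit 164))) (XT.nd (nat_lit 78) (nat_lit 76) (nat_lit 0) (XT.lf (nat_lit 0) (nat_lit 672774683502) (nat_lit 76) (nat_lit 1097972678976) (nat_lit 152) (nat_lit 2930040906992) (nat_lit 10) (nat_lit 5) (nat_lit 11) (nat_lit 5) (nat_lit 12) (nat_lit 4) (nat_lit 317) (nat_lit 300) (nat_lit 163)) (XT.nd (nat_lit 78) (nat_lit 76) (nat_lit 0) (XT.lf (nat_lit 0) (nat_lit 2954546872197) (nat_lit 152) (nat_lit 2021250734629) (nat_lit 0) (nat_lit 229040656715) (nat_lit 10) (nat_lit 5) (nat_lit 12) (nat_lit 4) (nat_lit 10) (nat_lit 4) (nat_lit 318) (nat_lit 300) (nat_lit 162)) (XT.lf (nat_lit 0) (nat_lit 257133972448) (nat_lit 76) (nat_lit 4121714117042) (nat_lit 76) (nat_lit 1396207900065) (nat_lit 9) (nat_lit 4) (nat_lit 10) (nat_lit 5) (nat_lit 10) (nat_lit 4) (nat_lit 319) (nat_lit 300) (nat_lit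 161)))))) (XT.nd (nat_lit 390) (nat_lit 228) (nat_lit 0) (XT.nd (nat_lit 156) (nat_lit 76) (nat_lit 0) (XT.nd (nat_lit 78) (nat_lit 76) (nat_lit 0) (XT.lf (nat_lit 0) (nat_lit 3104437402771) (nat_lit 76) (nat_lit 3018013373475) (nat_lit 76) (nat_lit 292507155198) (nat_lit 9) (nat_lit 4) (nat_lit 10) (nat_lit 5) (nat_lit 10) (nat_lit 4) (nat_lit 320) (nat_lit 300) (nat_lit 160)) (XT.lf (nat_lit 0) (nat_lit 889791776272) (nat_lit 152) (nat_lit 812453900421) (nat_lit 76) (nat_lit 5442532726014) (nat_lit 8) (nat_lit 5) (nat_lit 10) (nat_lit 5) (nat_lit 9) (nat_lit 4) (nat_lit 321) (nat_lit 300) (nat_lit 159))) (XT.nd (nat_lit 78) (nat_lit 0) (nat_lit 0) (XT.lf (nat_lit 0) (nat_lit 2246382293364) (nat_lit 76) (nat_lit 66123992102) (nat_lit 152) (nat_lit 5655523637502) (nat_lit 7) (nat_lit 5) (nat_lit 8) (nat_lit 5) (nat_lit 9) (nat_lit 4) (nat_lit 322) (nat_lit 300) (nat_lit 158)) (XT.nd (nat_lit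 78) (nat_lit 0) (nat_lit 0) (XT.lf (nat_lit 0) (nat_lit 4068291995873) (nat_lit 152) (nat_lit 3130240985576) (nat_lit 0) (nat_lit 1698286586095) (nat_lit 7) (nat_lit 5) (nat_lit 9) (nat_lit 4) (nat_lit 7) (nat_lit 4) (nat_lit 323) (nat_lit 300) (nat_lit 157)) (XT.lf (nat_lit 0) (nat_lit 6090594323333) (nat_lit 152) (nat_lit 153272108493) (nat_lit 0) (nat_lit 3720588912909) (nat_lit 7) (nat_lit 5) (nat_lit 9) (nat_lit 4) (nat_lit 7) (nat_lit 4) (nat_lit 324) (nat_lit 300) (nat_lit 156))))) (XT.nd (nat_lit 156) (nat_lit 152) (nat_lit 0) (XT.nd (nat_lit 78) (nat_lit 0) (nat_lit 0) (XT.lf (nat_lit 0) (nat_lit 3589833939829) (nat_lit 76) (nat_lit 4975055427290) (nat_lit 76) (nat_lit 2605050016305) (nat_lit 6) (nat_lit 4) (nat_lit 7) (nat_lit 5) (nat_lit 7) (nat_lit 4) (nat_lit 325) (nat_lit 300) (nat_lit 155)) (XT.lf (nat_lit 0) (nat_lit 7911631588643) (nat_lit 76) (nat_lit 3506709029103)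 (nat_lit 76) (nat_lit 1136703617629) (nat_lit 6) (nat_lit 4) (nat_lit 7) (nat_lit 5) (nat_lit 7) (nat_lit 4) (nat_lit 326) (nat_lit 300) (nat_lit 154))) (XT.nd (nat_lit 78) (nat_lit 76) (nat_lit 0) (XT.lf (nat_lit 0) (nat_lit 502761253824) (nat_lit 152) (nat_lit 1289068716176) (nat_lit 76) (nat_lit 12352656927593) (nat_lit 5) (nat_lit 5) (nat_lit 7) (nat_lit 5) (nat_lit 6) (nat_lit 4) (nat_lit 327) (nat_lit 300) (nat_lit 153)) (XT.nd (nat_lit 78) (nat_lit 0) (nat_lit 0) (XT.lf (nat_lit 0) (nat_lit 2401540144171) (nat_lit 152) (nat_lit 13202554967716) (nat_lit 0) (nat_lit 340665872633) (nat_lit 4) (nat_lit 5) (nat_lit 6) (nat_lit 4) (nat_lit 4) (nat_lit 4) (nat_lit 328) (nat_lit 300) (nat_lit 152)) (XT.lf (nat_lit 0) (nat_lit 4741052962337) (nat_lit 152) (nat_lit 10570456967491) (nat_lit 0) (nat_lit 2680178690519) (nat_lit 4) (nat_lit 5) (nat_lit 6) (nat_lit 4) (nat_lit 4) (nat_lit 4)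 (nat_lit 329) (nat_lit 300) (nat_lit 151))))))) (XT.nd (nat_lit 38454) (nat_lit 0) (nat_lit 1140) (XT.nd (nat_lit 1560) (nat_lit 0) (nat_lit 0) (XT.nd (nat_lit 156) (nat_lit 228) (nat_lit 0) (XT.nd (nat_lit 78) (nat_lit 0) (nat_lit 0) (XT.lf (nat_lit 0) (nat_lit 7431492702647) (nat_lit 152) (nat_lit 7543544268401) (nat_lit 0) (nat_lit 5370618430587) (nat_lit 4) (nat_lit 5) (nat_lit 6) (nat_lit 4) (nat_lit 4) (nat_lit 4) (nat_lit 330) (nat_lit 300) (nat_lit 150)) (XT.lf (nat_lit 0) (nat_lit 10525498403500) (nat_lit 152) (nat_lit 4062594665464) (nat_lit 0) (nat_lit 8464624131229) (nat_lit 4) (nat_lit 5) (nat_lit 6) (nat_lit 4) (nat_lit 4) (nat_lit 4) (nat_lit 331) (nat_lit 300) (nat_lit 149))) (XT.nd (nat_lit 78) (nat_lit 228) (nat_lit 0) (XT.lf (nat_lit 0) (nat_lit 14083604959042) (nat_lit 152) (nat_lit 59502622970) (nat_lit 0) (nat_lit 12022730686587) (nat_lit 4) (nat_lit 5) (nat_lit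 6) (nat_lit 4) (nat_lit 4) (nat_lit 4) (nat_lit 332) (nat_lit 300) (nat_lit 148)) (XT.nd (nat_lit 1248) (nat_lit 152) (nat_lit 0) (XT.lf (nat_lit 0) (nat_lit 4988131153947) (nat_lit 76) (nat_lit 13393844217456) (nat_lit 76) (nat_lit 11332969944841) (nat_lit 3) (nat_lit 4) (nat_lit 4) (nat_lit 5) (nat_lit 4) (nat_lit 4) (nat_lit 333) (nat_lit 300) (nat_lit 147)) (XT.lf (nat_lit 0) (nat_lit 38447947288471) (nat_lit 152) (nat_lit 181037134333353) (nat_lit 0) (nat_lit 36655882702762) (nat_lit 1) (nat_lit 5) (nat_lit 3) (nat_lit 4) (nat_lit 1) (nat_lit 4) (nat_lit 349) (nat_lit 300) (nat_lit 131))))) (XT.nd (nat_lit 156) (nat_lit 0) (nat_lit 0) (XT.nd (nat_lit 78) (nat_lit 0) (nat_lit 0) (XT.lf (nat_lit 0) (nat_lit 46929986854567) (nat_lit 152) (nat_lit 202045325561662) (nat_lit 0) (nat_lit 45137922268845) (nat_lit 1) (nat_lit 5) (nat_lit 3) (nat_lit 4) (nat_lit 1) (nat_lit 4) (nat_lit 350)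 (nat_lit 300) (nat_lit 130)) (XT.lf (nat_lit 0) (nat_lit 56684332355537) (nat_lit 152) (nat_lit 226204745474300) (nat_lit 0) (nat_lit 54892267769804) (nat_lit 1) (nat_lit 5) (nat_lit 3) (nat_lit 4) (nat_lit 1) (nat_lit 4) (nat_lit 351) (nat_lit 300) (nat_lit 129))) (XT.nd (nat_lit 78) (nat_lit 0) (nat_lit 0) (XT.lf (nat_lit 0) (nat_lit 67901829681618) (nat_lit 152) (nat_lit 253988078373906) (nat_lit 0) (nat_lit 66109765095875) (nat_lit 1) (nat_lit 5) (nat_lit 3) (nat_lit 4) (nat_lit 1) (nat_lit 4) (nat_lit 352) (nat_lit 300) (nat_lit 128)) (XT.nd (nat_lit 36582) (nat_lit 0) (nat_lit 1596) (XT.lf (nat_lit 0) (nat_lit 80801951606581) (nat_lit 152) (nat_lit 285938911208515) (nat_lit 0) (nat_lit 79009887020828) (nat_lit 1) (nat_lit 5) (nat_lit 3) (nat_lit 4) (nat_lit 1) (nat_lit 4) (nat_lit 353) (nat_lit 300) (nat_lit 127)) (XT.lf (nat_lit 0) (nat_lit 101418715658) (nat_lit 380) (nat_lit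 262792334091) (nat_lit 380) (nat_lit 262792334091) (nat_lit 22) (nat_lit 3) (nat_lit 27) (nat_lit 3) (nat_lit 27) (nat_lit 5) (nat_lit 301) (nat_lit 301) (nat_lit 178)))))) (XT.nd (nat_lit 390) (nat_lit 304) (nat_lit 0) (XT.nd (nat_lit 156) (nat_lit 152) (nat_lit 0) (XT.nd (nat_lit 78) (nat_lit 0) (nat_lit 76) (XT.lf (nat_lit 76) (nat_lit 66193440850) (nat_lit 0) (nat_lit 154597764815) (nat_lit 380) (nat_lit 1126854924396) (nat_lit 23) (nat_lit 5) (nat_lit 22) (nat_lit 3) (nat_lit 27) (nat_lit 5) (nat_lit 302) (nat_lit 301) (nat_lit 177)) (XT.lf (nat_lit 0) (nat_lit 291143461477) (nat_lit 304) (nat_lit 667635202833) (nat_lit 380) (nat_lit 489096920221) (nat_lit 23) (nat_lit 5) (nat_lit 27) (nat_lit 5) (nat_lit 28) (nat_lit 5) (nat_lit 303) (nat_lit 301) (nat_lit 176))) (XT.nd (nat_lit 78) (nat_lit 228) (nat_lit 0) (XT.lf (nat_lit 76) (nat_lit 33912202203) (nat_lit 0) (nat_lit 346902377849)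 (nat_lit 380) (nat_lit 1181009973481) (nat_lit 24) (nat_lit 5) (nat_lit 23) (nat_lit 5) (nat_lit 28) (nat_lit 5) (nat_lit 304) (nat_lit 301) (nat_lit 175)) (XT.nd (nat_lit 78) (nat_lit 304) (nat_lit 0) (XT.lf (nat_lit 0) (nat_lit 535269814845) (nat_lit 304) (nat_lit 788340536479) (nat_lit 76) (nat_lit 361555499316) (nat_lit 24) (nat_lit 5) (nat_lit 28) (nat_lit 5) (nat_lit 25) (nat_lit 5) (nat_lit 305) (nat_lit 301) (nat_lit 174)) (XT.lf (nat_lit 0) (nat_lit 50108928404) (nat_lit 304) (nat_lit 681378466571) (nat_lit 380) (nat_lit 1092731838339) (nat_lit 20) (nat_lit 5) (nat_lit 24) (nat_lit 5) (nat_lit 25) (nat_lit 5) (nat_lit 306) (nat_lit 301) (nat_lit 173))))) (XT.nd (nat_lit 156) (nat_lit 152) (nat_lit 0) (XT.nd (nat_lit 78) (nat_lit 152) (nat_lit 0) (XT.lf (nat_lit 0) (nat_lit 1002676678754) (nat_lit 380) (nat_lit 879355143726) (nat_lit 76) (nat_lit 95267940927) (nat_lit 20) (nat_lit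 5) (nat_lit 25) (nat_lit 5) (nat_lit 21) (nat_lit 5) (nat_lit 307) (nat_lit 301) (nat_lit 172)) (XT.lf (nat_lit 0) (nat_lit 128617074989) (nat_lit 152) (nat_lit 1223699628908) (nat_lit 228) (nat_lit 795359816812) (nat_lit 18) (nat_lit 5) (nat_lit 20) (nat_lit 5) (nat_lit 21) (nat_lit 5) (nat_lit 308) (nat_lit 301) (nat_lit 171))) (XT.nd (nat_lit 78) (nat_lit 152) (nat_lit 0) (XT.lf (nat_lit 0) (nat_lit 1386612649245) (nat_lit 152) (nat_lit 413756371825) (nat_lit 228) (nat_lit 536345827308) (nat_lit 18) (nat_lit 5) (nat_lit 20) (nat_lit 5) (nat_lit 21) (nat_lit 5) (nat_lit 309) (nat_lit 301) (nat_lit 170)) (XT.nd (nat_lit 78) (nat_lit 76) (nat_lit 0) (XT.lf (nat_lit 0) (nat_lit 282953115882) (nat_lit 76) (nat_lit 2065828509633) (nat_lit 152) (nat_lit 200354433736) (nat_lit 17) (nat_lit 5) (nat_lit 18) (nat_lit 5) (nat_lit 19) (nat_lit 4) (nat_lit 310) (nat_lit 301) (nat_lit 169)) (XT.lf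 (nat_lit 0) (nat_lit 241205574829) (nat_lit 152) (nat_lit 1007996529279) (nat_lit 76) (nat_lit 1532303033457) (nat_lit 16) (nat_lit 5) (nat_lit 18) (nat_lit 5) (nat_lit 17) (nat_lit 5) (nat_lit 311) (nat_lit 301) (nat_lit 168))))))))
noncomputable def xc114 : XT := (XT.nd (nat_lit 1482) (nat_lit 228) (nat_lit 0) (XT.nd (nat_lit 702) (nat_lit 380) (nat_lit 0) (XT.nd (nat_lit 312) (nat_lit 304) (nat_lit 0) (XT.nd (nat_lit 156) (nat_lit 76) (nat_lit 0) (XT.nd (nat_lit 78) (nat_lit 0) (nat_lit 0) (XT.lf (nat_lit 0) (nat_lit 471339014391) (nat_lit 152) (nat_lit 276665233519) (nat_lit 228) (nat_lit 2296366655480) (nat_lit 14) (nat_lit 5) (nat_lit 16) (nat_lit 5) (nat_lit 17) (nat_lit 5) (nat_lit 312) (nat_lit 301) (nat_lit 167)) (XT.lf (nat_lit 0) (nat_lit 1420877691761) (nat_lit 228) (nat_lit 1090267219107) (nat_lit 76) (nat_lit 822013377755) (nat_lit 14) (nat_lit 5) (nat_lit 17) (nat_lit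 5) (nat_lit 15) (nat_lit 4) (nat_lit 313) (nat_lit 301) (nat_lit 166))) (XT.nd (nat_lit 78) (nat_lit 0) (nat_lit 0) (XT.lf (nat_lit 0) (nat_lit 660543788880) (nat_lit 76) (nat_lit 1574664605878) (nat_lit 152) (nat_lit 1423976450501) (nat_lit 13) (nat_lit 5) (nat_lit 14) (nat_lit 5) (nat_lit 15) (nat_lit 4) (nat_lit 314) (nat_lit 301) (nat_lit 165)) (XT.lf (nat_lit 0) (nat_lit 2796507613081) (nat_lit 76) (nat_lit 432172329215) (nat_lit 152) (nat_lit 796886757236) (nat_lit 13) (nat_lit 5) (nat_lit 14) (nat_lit 5) (nat_lit 15) (nat_lit 4) (nat_lit 315) (nat_lit 301) (nat_lit 164)))) (XT.nd (nat_lit 156) (nat_lit 152) (nat_lit 0) (XT.nd (nat_lit 78) (nat_lit 0) (nat_lit 0) (XT.lf (nat_lit 0) (nat_lit 5896833484) (nat_lit 152) (nat_lit 3591803777984) (nat_lit 76) (nat_lit 838442398505) (nat_lit 11) (nat_lit 5) (nat_lit 13) (nat_lit 5) (nat_lit 12) (nat_lit 4) (nat_lit 316) (nat_lit 301) (nat_lit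 163)) (XT.lf (nat_lit 0) (nat_lit 935397187354) (nat_lit 152) (nat_lit 1593378019138) (nat_lit 76) (nat_lit 2360655724769) (nat_lit 11) (nat_lit 5) (nat_lit 13) (nat_lit 5) (nat_lit 12) (nat_lit 4) (nat_lit 317) (nat_lit 301) (nat_lit 162))) (XT.nd (nat_lit 78) (nat_lit 76) (nat_lit 0) (XT.lf (nat_lit 0) (nat_lit 773690916503) (nat_lit 76) (nat_lit 1262668567298) (nat_lit 152) (nat_lit 3369547023522) (nat_lit 10) (nat_lit 5) (nat_lit 11) (nat_lit 5) (nat_lit 12) (nat_lit 4) (nat_lit 318) (nat_lit 301) (nat_lit 161)) (XT.nd (nat_lit 78) (nat_lit 76) (nat_lit 0) (XT.lf (nat_lit 0) (nat_lit 3397728918253) (nat_lit 152) (nat_lit 2324438316577) (nat_lit 0) (nat_lit 263396765935) (nat_lit 10) (nat_lit 5) (nat_lit 12) (nat_lit 4) (nat_lit 10) (nat_lit 4) (nat_lit 319) (nat_lit 301) (nat_lit 160)) (XT.lf (nat_lit 0) (nat_lit 295704095278) (nat_lit 76) (nat_lit 4739971221993) (nat_lit 76) (nat_lit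 1605639068545) (nat_lit 9) (nat_lit 4) (nat_lit 10) (nat_lit 5) (nat_lit 10) (nat_lit 4) (nat_lit 320) (nat_lit 301) (nat_lit 159)))))) (XT.nd (nat_lit 390) (nat_lit 228) (nat_lit 0) (XT.nd (nat_lit 156) (nat_lit 76) (nat_lit 0) (XT.nd (nat_lit 78) (nat_lit 76) (nat_lit 0) (XT.lf (nat_lit 0) (nat_lit 3570103036632) (nat_lit 76) (nat_lit 3470715368535) (nat_lit 76) (nat_lit 336383214104) (nat_lit 9) (nat_lit 4) (nat_lit 10) (nat_lit 5) (nat_lit 10) (nat_lit 4) (nat_lit 321) (nat_lit 301) (nat_lit 158)) (XT.lf (nat_lit 0) (nat_lit 1023260554099) (nat_lit 152) (nat_lit 934321963971) (nat_lit 76) (nat_lit 6258912643322) (nat_lit 8) (nat_lit 5) (nat_lit 10) (nat_lit 5) (nat_lit 9) (nat_lit 4) (nat_lit 322) (nat_lit 301) (nat_lit 157))) (XT.nd (nat_lit 78) (nat_lit 0) (nat_lit 0) (XT.lf (nat_lit 0) (nat_lit 2583339657904) (nat_lit 76) (nat_lit 76042581134) (nat_lit 152) (nat_lit 6503852170752)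 (nat_lit 7) (nat_lit 5) (nat_lit 8) (nat_lit 5) (nat_lit 9) (nat_lit 4) (nat_lit 323) (nat_lit 301) (nat_lit 156)) (XT.nd (nat_lit 78) (nat_lit 0) (nat_lit 0) (XT.lf (nat_lit 0) (nat_lit 4678535804955) (nat_lit 152) (nat_lit 3599777114497) (nat_lit 0) (nat_lit 1953029581760) (nat_lit 7) (nat_lit 5) (nat_lit 9) (nat_lit 4) (nat_lit 7) (nat_lit 4) (nat_lit 324) (nat_lit 301) (nat_lit 155)) (XT.lf (nat_lit 0) (nat_lit 7004183480269) (nat_lit 152) (nat_lit 176262908318) (nat_lit 0) (nat_lit 4278677256585) (nat_lit 7) (nat_lit 5) (nat_lit 9) (nat_lit 4) (nat_lit 7) (nat_lit 4) (nat_lit 325) (nat_lit 301) (nat_lit 154))))) (XT.nd (nat_lit 156) (nat_lit 152) (nat_lit 0) (XT.nd (nat_lit 78) (nat_lit 0) (nat_lit 0) (XT.lf (nat_lit 0) (nat_lit 4128309046504) (nat_lit 76) (nat_lit 5721313733669) (nat_lit 76) (nat_lit 2995807509560) (nat_lit 6) (nat_lit 4) (nat_lit 7) (nat_lit 5) (nat_lit 7) (nat_lit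 4) (nat_lit 326) (nat_lit 301) (nat_lit 153)) (XT.lf (nat_lit 0) (nat_lit 9098376340593) (nat_lit 76) (nat_lit 4032715376760) (nat_lit 76) (nat_lit 1307209152282) (nat_lit 6) (nat_lit 4) (nat_lit 7) (nat_lit 5) (nat_lit 7) (nat_lit 4) (nat_lit 327) (nat_lit 301) (nat_lit 152))) (XT.nd (nat_lit 78) (nat_lit 76) (nat_lit 0) (XT.lf (nat_lit 0) (nat_lit 578175448229) (nat_lit 152) (nat_lit 1482429011106) (nat_lit 76) (nat_lit 14205555471943) (nat_lit 5) (nat_lit 5) (nat_lit 7) (nat_lit 5) (nat_lit 6) (nat_lit 4) (nat_lit 328) (nat_lit 301) (nat_lit 151)) (XT.nd (nat_lit 78) (nat_lit 0) (nat_lit 0) (XT.lf (nat_lit 0) (nat_lit 2761771172041) (nat_lit 152) (nat_lit 15182938200287) (nat_lit 0) (nat_lit 391765758929) (nat_lit 4) (nat_lit 5) (nat_lit 6) (nat_lit 4) (nat_lit 4) (nat_lit 4) (nat_lit 329) (nat_lit 301) (nat_lit 150)) (XT.lf (nat_lit 0) (nat_lit 5452210912117) (nat_lit 152) (nat_lit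 12156025501670) (nat_lit 0) (nat_lit 3082205498794) (nat_lit 4) (nat_lit 5) (nat_lit 6) (nat_lit 4) (nat_lit 4) (nat_lit 4) (nat_lit 330) (nat_lit 301) (nat_lit 149))))))) (XT.nd (nat_lit 38610) (nat_lit 0) (nat_lit 988) (XT.nd (nat_lit 1560) (nat_lit 0) (nat_lit 0) (XT.nd (nat_lit 156) (nat_lit 228) (nat_lit 0) (XT.nd (nat_lit 78) (nat_lit 0) (nat_lit 0) (XT.lf (nat_lit 0) (nat_lit 8546216612766) (nat_lit 152) (nat_lit 8675075899144) (nat_lit 0) (nat_lit 6176211199259) (nat_lit 4) (nat_lit 5) (nat_lit 6) (nat_lit 4) (nat_lit 4) (nat_lit 4) (nat_lit 331) (nat_lit 301) (nat_lit 148)) (XT.lf (nat_lit 0) (nat_lit 12104323168131) (nat_lit 152) (nat_lit 4671983857008) (nat_lit 0) (nat_lit 9734317754464) (nat_lit 4) (nat_lit 5) (nat_lit 6) (nat_lit 4) (nat_lit 4) (nat_lit 4) (nat_lit 332) (nat_lit 301) (nat_lit 147))) (XT.nd (nat_lit 1248) (nat_lit 228) (nat_lit 0) (XT.lf (nat_lit 0) (nat_lit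 16196145706469) (nat_lit 152) (nat_lit 68428009219) (nat_lit 0) (nat_lit 13826140292663) (nat_lit 4) (nat_lit 5) (nat_lit 6) (nat_lit 4) (nat_lit 4) (nat_lit 4) (nat_lit 333) (nat_lit 301) (nat_lit 146)) (XT.nd (nat_lit 78) (nat_lit 0) (nat_lit 0) (XT.lf (nat_lit 0) (nat_lit 35733099816097) (nat_lit 152) (nat_lit 187184513254118) (nat_lit 0) (nat_lit 33672225542503) (nat_lit 1) (nat_lit 5) (nat_lit 3) (nat_lit 4) (nat_lit 1) (nat_lit 4) (nat_lit 349) (nat_lit 301) (nat_lit 130)) (XT.lf (nat_lit 0) (nat_lit 44215139382174) (nat_lit 152) (nat_lit 208192704482465) (nat_lit 0) (nat_lit 42154265108570) (nat_lit 1) (nat_lit 5) (nat_lit 3) (nat_lit 4) (nat_lit 1) (nat_lit 4) (nat_lit 350) (nat_lit 301) (nat_lit 129))))) (XT.nd (nat_lit 36816) (nat_lit 0) (nat_lit 1596) (XT.nd (nat_lit 78) (nat_lit 0) (nat_lit 0) (XT.lf (nat_lit 0) (nat_lit 53969484883128) (nat_lit 152) (nat_lit 232352124395136)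 (nat_lit 0) (nat_lit 51908610609513) (nat_lit 1) (nat_lit 5) (nat_lit 3) (nat_lit 4) (nat_lit 1) (nat_lit 4) (nat_lit 351) (nat_lit 301) (nat_lit 128)) (XT.lf (nat_lit 0) (nat_lit 65186982209195) (nat_lit 152) (nat_lit 260135457294772) (nat_lit 0) (nat_lit 63126107935571) (nat_lit 1) (nat_lit 5) (nat_lit 3) (nat_lit 4) (nat_lit 1) (nat_lit 4) (nat_lit 352) (nat_lit 301) (nat_lit 127))) (XT.nd (nat_lit 78) (nat_lit 0) (nat_lit 0) (XT.lf (nat_lit 0) (nat_lit 116631559216) (nat_lit 380) (nat_lit 302211163315) (nat_lit 380) (nat_lit 302211163315) (nat_lit 22) (nat_lit 3) (nat_lit 27) (nat_lit 3) (nat_lit 27) (nat_lit 5) (nat_lit 302) (nat_lit 302) (nat_lit 176)) (XT.nd (nat_lit 78) (nat_lit 0) (nat_lit 76) (XT.lf (nat_lit 76) (nat_lit 76122496857) (nat_lit 0) (nat_lit 177787454282) (nat_lit 380) (nat_lit 1295883088499) (nat_lit 23) (nat_lit 5) (nat_lit 22) (nat_lit 3) (nat_lit 27) (nat_lit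 5) (nat_lit 303) (nat_lit 302) (nat_lit 175)) (XT.lf (nat_lit 0) (nat_lit 334815036002) (nat_lit 304) (nat_lit 767780439051) (nat_lit 380) (nat_lit 562461438653) (nat_lit 23) (nat_lit 5) (nat_lit 27) (nat_lit 5) (nat_lit 28) (nat_lit 5) (nat_lit 304) (nat_lit 302) (nat_lit 174)))))) (XT.nd (nat_lit 390) (nat_lit 304) (nat_lit 0) (XT.nd (nat_lit 156) (nat_lit 380) (nat_lit 0) (XT.nd (nat_lit 78) (nat_lit 0) (nat_lit 76) (XT.lf (nat_lit 76) (nat_lit 38999074731) (nat_lit 0) (nat_lit 398937742167) (nat_lit 380) (nat_lit 1358161412009) (nat_lit 24) (nat_lit 5) (nat_lit 23) (nat_lit 5) (nat_lit 28) (nat_lit 5) (nat_lit 305) (nat_lit 302) (nat_lit 173)) (XT.lf (nat_lit 0) (nat_lit 615560330134) (nat_lit 304) (nat_lit 906591573325) (nat_lit 76) (nat_lit 415788818161) (nat_lit 24) (nat_lit 5) (nat_lit 28) (nat_lit 5) (nat_lit 25) (nat_lit 5) (nat_lit 306) (nat_lit 302) (nat_lit 172))) (XT.nd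 (nat_lit 78) (nat_lit 152) (nat_lit 0) (XT.lf (nat_lit 0) (nat_lit 57625309308) (nat_lit 304) (nat_lit 783585234083) (nat_lit 380) (nat_lit 1256641568908) (nat_lit 20) (nat_lit 5) (nat_lit 24) (nat_lit 5) (nat_lit 25) (nat_lit 5) (nat_lit 307) (nat_lit 302) (nat_lit 171)) (XT.nd (nat_lit 78) (nat_lit 152) (nat_lit 0) (XT.lf (nat_lit 0) (nat_lit 1153078214717) (nat_lit 380) (nat_lit 1011258373935) (nat_lit 76) (nat_lit 109558134026) (nat_lit 20) (nat_lit 5) (nat_lit 25) (nat_lit 5) (nat_lit 21) (nat_lit 5) (nat_lit 308) (nat_lit 302) (nat_lit 170)) (XT.lf (nat_lit 0) (nat_lit 147909675708) (nat_lit 152) (nat_lit 1407254565103) (nat_lit 228) (nat_lit 914663753201) (nat_lit 18) (nat_lit 5) (nat_lit 20) (nat_lit 5) (nat_lit 21) (nat_lit 5) (nat_lit 309) (nat_lit 302) (nat_lit 169))))) (XT.nd (nat_lit 156) (nat_lit 228) (nat_lit 0) (XT.nd (nat_lit 78) (nat_lit 76) (nat_lit 0) (XT.lf (nat_lit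 0) (nat_lit 1594604580954) (nat_lit 152) (nat_lit 475819820519) (nat_lit 228) (nat_lit 616797669984) (nat_lit 18) (nat_lit 5) (nat_lit 20) (nat_lit 5) (nat_lit 21) (nat_lit 5) (nat_lit 310) (nat_lit 302) (nat_lit 168)) (XT.lf (nat_lit 0) (nat_lit 325396119733) (nat_lit 76) (nat_lit 2375702775063) (nat_lit 152) (nat_lit 230407569446) (nat_lit 17) (nat_lit 5) (nat_lit 18) (nat_lit 5) (nat_lit 19) (nat_lit 4) (nat_lit 311) (nat_lit 302) (nat_lit 167))) (XT.nd (nat_lit 78) (nat_lit 152) (nat_lit 0) (XT.lf (nat_lit 0) (nat_lit 277386434304) (nat_lit 152) (nat_lit 1159195974628) (nat_lit 76) (nat_lit 1762148495723) (nat_lit 16) (nat_lit 5) (nat_lit 18) (nat_lit 5) (nat_lit 17) (nat_lit 5) (nat_lit 312) (nat_lit 302) (nat_lit 166)) (XT.nd (nat_lit 78) (nat_lit 0) (nat_lit 0) (XT.lf (nat_lit 0) (nat_lit 542039899046) (nat_lit 152) (nat_lit 318165007614) (nat_lit 228) (nat_lit 2640821628953) (nat_lit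 14) (nat_lit 5) (nat_lit 16) (nat_lit 5) (nat_lit 17) (nat_lit 5) (nat_lit 313) (nat_lit 302) (nat_lit 165)) (XT.lf (nat_lit 0) (nat_lit 1634009364669) (nat_lit 228) (nat_lit 1253807271251) (nat_lit 76) (nat_lit 945315393079) (nat_lit 14) (nat_lit 5) (nat_lit 17) (nat_lit 5) (nat_lit 15) (nat_lit 4) (nat_lit 314) (nat_lit 302) (nat_lit 164))))))))
noncomputable def xc115 : XT := (XT.nd (nat_lit 1482) (nat_lit 228) (nat_lit 0) (XT.nd (nat_lit 702) (nat_lit 304) (nat_lit 0) (XT.nd (nat_lit 312) (nat_lit 228) (nat_lit 0) (XT.nd (nat_lit 156) (nat_lit 152) (nat_lit 0) (XT.nd (nat_lit 78) (nat_lit 0) (nat_lit 0) (XT.lf (nat_lit 0) (nat_lit 759625386537) (nat_lit 76) (nat_lit 1810864285296) (nat_lit 152) (nat_lit 1637572897497) (nat_lit 13) (nat_lit 5) (nat_lit 14) (nat_lit 5) (nat_lit 15) (nat_lit 4) (nat_lit 315) (nat_lit 302) (nat_lit 163)) (XT.lf (nat_lit 0) (nat_lit 3215983780543) (nat_lit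 76) (nat_lit 496998168629) (nat_lit 152) (nat_lit 916419752926) (nat_lit 13) (nat_lit 5) (nat_lit 14) (nat_lit 5) (nat_lit 15) (nat_lit 4) (nat_lit 316) (nat_lit 302) (nat_lit 162))) (XT.nd (nat_lit 78) (nat_lit 0) (nat_lit 0) (XT.lf (nat_lit 0) (nat_lit 6781374195) (nat_lit 152) (nat_lit 4130574316920) (nat_lit 76) (nat_lit 964208767975) (nat_lit 11) (nat_lit 5) (nat_lit 13) (nat_lit 5) (nat_lit 12) (nat_lit 4) (nat_lit 317) (nat_lit 302) (nat_lit 161)) (XT.lf (nat_lit 0) (nat_lit 1075706779100) (nat_lit 152) (nat_lit 1832384697868) (nat_lit 76) (nat_lit 2714754091915) (nat_lit 11) (nat_lit 5) (nat_lit 13) (nat_lit 5) (nat_lit 12) (nat_lit 4) (nat_lit 318) (nat_lit 302) (nat_lit 160)))) (XT.nd (nat_lit 156) (nat_lit 152) (nat_lit 0) (XT.nd (nat_lit 78) (nat_lit 0) (nat_lit 0) (XT.lf (nat_lit 0) (nat_lit 889744577022) (nat_lit 76) (nat_lit 1452068842166) (nat_lit 152) (nat_lit 3874979062292)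 (nat_lit 10) (nat_lit 5) (nat_lit 11) (nat_lit 5) (nat_lit 12) (nat_lit 4) (nat_lit 319) (nat_lit 302) (nat_lit 159)) (XT.lf (nat_lit 0) (nat_lit 3907388267505) (nat_lit 152) (nat_lit 2673104042705) (nat_lit 0) (nat_lit 302906288927) (nat_lit 10) (nat_lit 5) (nat_lit 12) (nat_lit 4) (nat_lit 10) (nat_lit 4) (nat_lit 320) (nat_lit 302) (nat_lit 158))) (XT.nd (nat_lit 78) (nat_lit 76) (nat_lit 0) (XT.lf (nat_lit 0) (nat_lit 340059729957) (nat_lit 76) (nat_lit 5450966895760) (nat_lit 76) (nat_lit 1846484916327) (nat_lit 9) (nat_lit 4) (nat_lit 10) (nat_lit 5) (nat_lit 10) (nat_lit 4) (nat_lit 321) (nat_lit 302) (nat_lit 157)) (XT.nd (nat_lit 78) (nat_lit 76) (nat_lit 0) (XT.lf (nat_lit 0) (nat_lit 4105618509855) (nat_lit 76) (nat_lit 3991322665527) (nat_lit 76) (nat_lit 386840685351) (nat_lit 9) (nat_lit 4) (nat_lit 10) (nat_lit 5) (nat_lit 10) (nat_lit 4) (nat_lit 322) (nat_lit 302) (nat_lit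 156)) (XT.lf (nat_lit 0) (nat_lit 1176749645824) (nat_lit 152) (nat_lit 1074470242300) (nat_lit 76) (nat_lit 7197749546177) (nat_lit 8) (nat_lit 5) (nat_lit 10) (nat_lit 5) (nat_lit 9) (nat_lit 4) (nat_lit 323) (nat_lit 302) (nat_lit 155)))))) (XT.nd (nat_lit 390) (nat_lit 152) (nat_lit 0) (XT.nd (nat_lit 156) (nat_lit 76) (nat_lit 0) (XT.nd (nat_lit 78) (nat_lit 0) (nat_lit 0) (XT.lf (nat_lit 0) (nat_lit 2970840622117) (nat_lit 76) (nat_lit 87448960906) (nat_lit 152) (nat_lit 7479429987008) (nat_lit 7) (nat_lit 5) (nat_lit 8) (nat_lit 5) (nat_lit 9) (nat_lit 4) (nat_lit 324) (nat_lit 302) (nat_lit 154)) (XT.lf (nat_lit 0) (nat_lit 5380316183034) (nat_lit 152) (nat_lit 4139743667368) (nat_lit 0) (nat_lit 2245984024884) (nat_lit 7) (nat_lit 5) (nat_lit 9) (nat_lit 4) (nat_lit 7) (nat_lit 4) (nat_lit 325) (nat_lit 302) (nat_lit 153))) (XT.nd (nat_lit 78) (nat_lit 76) (nat_lit 0) (XT.lf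 (nat_lit 0) (nat_lit 8054811008688) (nat_lit 152) (nat_lit 202702332129) (nat_lit 0) (nat_lit 4920478850168) (nat_lit 7) (nat_lit 5) (nat_lit 9) (nat_lit 4) (nat_lit 7) (nat_lit 4) (nat_lit 326) (nat_lit 302) (nat_lit 152)) (XT.nd (nat_lit 78) (nat_lit 0) (nat_lit 0) (XT.lf (nat_lit 0) (nat_lit 4747555415352) (nat_lit 76) (nat_lit 6579510787885) (nat_lit 76) (nat_lit 3445178629044) (nat_lit 6) (nat_lit 4) (nat_lit 7) (nat_lit 5) (nat_lit 7) (nat_lit 4) (nat_lit 327) (nat_lit 302) (nat_lit 151)) (XT.lf (nat_lit 0) (nat_lit 10463132802006) (nat_lit 76) (nat_lit 4637622678201) (nat_lit 76) (nat_lit 1503290519081) (nat_lit 6) (nat_lit 4) (nat_lit 7) (nat_lit 5) (nat_lit 7) (nat_lit 4) (nat_lit 328) (nat_lit 302) (nat_lit 150))))) (XT.nd (nat_lit 156) (nat_lit 0) (nat_lit 0) (XT.nd (nat_lit 78) (nat_lit 76) (nat_lit 0) (XT.lf (nat_lit 0) (nat_lit 664901770250) (nat_lit 152) (nat_lit 1704793353324)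 (nat_lit 76) (nat_lit 16336388796674) (nat_lit 5) (nat_lit 5) (nat_lit 7) (nat_lit 5) (nat_lit 6) (nat_lit 4) (nat_lit 329) (nat_lit 302) (nat_lit 149)) (XT.lf (nat_lit 0) (nat_lit 3176036852569) (nat_lit 152) (nat_lit 17460378920813) (nat_lit 0) (nat_lit 450530626853) (nat_lit 4) (nat_lit 5) (nat_lit 6) (nat_lit 4) (nat_lit 4) (nat_lit 4) (nat_lit 330) (nat_lit 302) (nat_lit 148))) (XT.nd (nat_lit 78) (nat_lit 0) (nat_lit 0) (XT.lf (nat_lit 0) (nat_lit 6270042553041) (nat_lit 152) (nat_lit 13979429318644) (nat_lit 0) (nat_lit 3544536327164) (nat_lit 4) (nat_lit 5) (nat_lit 6) (nat_lit 4) (nat_lit 4) (nat_lit 4) (nat_lit 331) (nat_lit 302) (nat_lit 147)) (XT.nd (nat_lit 78) (nat_lit 0) (nat_lit 0) (XT.lf (nat_lit 0) (nat_lit 9828149108251) (nat_lit 152) (nat_lit 9976337276819) (nat_lit 0) (nat_lit 7102642882236) (nat_lit 4) (nat_lit 5) (nat_lit 6) (nat_lit 4) (nat_lit 4) (nat_lit 4) (nat_lit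 332) (nat_lit 302) (nat_lit 146)) (XT.lf (nat_lit 0) (nat_lit 13919971646455) (nat_lit 152) (nat_lit 5372781429301) (nat_lit 0) (nat_lit 11194465420319) (nat_lit 4) (nat_lit 5) (nat_lit 6) (nat_lit 4) (nat_lit 4) (nat_lit 4) (nat_lit 333) (nat_lit 302) (nat_lit 145))))))) (XT.nd (nat_lit 38610) (nat_lit 0) (nat_lit 912) (XT.nd (nat_lit 38220) (nat_lit 0) (nat_lit 1596) (XT.nd (nat_lit 1248) (nat_lit 0) (nat_lit 0) (XT.nd (nat_lit 1170) (nat_lit 228) (nat_lit 0) (XT.lf (nat_lit 0) (nat_lit 18625567565139) (nat_lit 152) (nat_lit 78692205161) (nat_lit 0) (nat_lit 15900061338898) (nat_lit 4) (nat_lit 5) (nat_lit 6) (nat_lit 4) (nat_lit 4) (nat_lit 4) (nat_lit 334) (nat_lit 302) (nat_lit 144)) (XT.lf (nat_lit 0) (nat_lit 32611025222827) (nat_lit 152) (nat_lit 194253999013079) (nat_lit 0) (nat_lit 30241019808170) (nat_lit 1) (nat_lit 5) (nat_lit 3) (nat_lit 4) (nat_lit 1) (nat_lit 4) (nat_lit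 349) (nat_lit 302) (nat_lit 129))) (XT.nd (nat_lit 78) (nat_lit 0) (nat_lit 0) (XT.lf (nat_lit 0) (nat_lit 41093064788888) (nat_lit 152) (nat_lit 215262190241460) (nat_lit 0) (nat_lit 38723059374221) (nat_lit 1) (nat_lit 5) (nat_lit 3) (nat_lit 4) (nat_lit 1) (nat_lit 4) (nat_lit 350) (nat_lit 302) (nat_lit 128)) (XT.nd (nat_lit 78) (nat_lit 0) (nat_lit 0) (XT.lf (nat_lit 0) (nat_lit 50847410289828) (nat_lit 152) (nat_lit 239421610154161) (nat_lit 0) (nat_lit 48477404875152) (nat_lit 1) (nat_lit 5) (nat_lit 3) (nat_lit 4) (nat_lit 1) (nat_lit 4) (nat_lit 351) (nat_lit 302) (nat_lit 127)) (XT.lf (nat_lit 0) (nat_lit 62064907615882) (nat_lit 152) (nat_lit 267204943053821) (nat_lit 0) (nat_lit 59694902201199) (nat_lit 1) (nat_lit 5) (nat_lit 3) (nat_lit 4) (nat_lit 1) (nat_lit 4) (nat_lit 352) (nat_lit 302) (nat_lit 126))))) (XT.nd (nat_lit 156) (nat_lit 0) (nat_lit 76) (XT.nd (nat_lit 78)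 (nat_lit 0) (nat_lit 0) (XT.lf (nat_lit 0) (nat_lit 134126320478) (nat_lit 380) (nat_lit 347542822017) (nat_lit 380) (nat_lit 347542822017) (nat_lit 22) (nat_lit 3) (nat_lit 27) (nat_lit 3) (nat_lit 27) (nat_lit 5) (nat_lit 303) (nat_lit 303) (nat_lit 174)) (XT.lf (nat_lit 76) (nat_lit 87540901541) (nat_lit 0) (nat_lit 204455591135) (nat_lit 380) (nat_lit 1490265495398) (nat_lit 23) (nat_lit 5) (nat_lit 22) (nat_lit 3) (nat_lit 27) (nat_lit 5) (nat_lit 304) (nat_lit 303) (nat_lit 173))) (XT.nd (nat_lit 78) (nat_lit 0) (nat_lit 0) (XT.lf (nat_lit 0) (nat_lit 385037333220) (nat_lit 304) (nat_lit 882947471483) (nat_lit 380) (nat_lit 646830639629) (nat_lit 23) (nat_lit 5) (nat_lit 27) (nat_lit 5) (nat_lit 28) (nat_lit 5) (nat_lit 305) (nat_lit 303) (nat_lit 172)) (XT.nd (nat_lit 78) (nat_lit 0) (nat_lit 76) (XT.lf (nat_lit 76) (nat_lit 44848967847) (nat_lit 0) (nat_lit 458778409269) (nat_lit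 380) (nat_lit 1561885580336) (nat_lit 24) (nat_lit 5) (nat_lit 23) (nat_lit 5) (nat_lit 28) (nat_lit 5) (nat_lit 306) (nat_lit 303) (nat_lit 171)) (XT.lf (nat_lit 0) (nat_lit 707894412215) (nat_lit 304) (nat_lit 1042580276337) (nat_lit 76) (nat_lit 478157136308) (nat_lit 24) (nat_lit 5) (nat_lit 28) (nat_lit 5) (nat_lit 25) (nat_lit 5) (nat_lit 307) (nat_lit 303) (nat_lit 170)))))) (XT.nd (nat_lit 390) (nat_lit 304) (nat_lit 0) (XT.nd (nat_lit 156) (nat_lit 228) (nat_lit 0) (XT.nd (nat_lit 78) (nat_lit 0) (nat_lit 0) (XT.lf (nat_lit 0) (nat_lit 66269137192) (nat_lit 304) (nat_lit 901123017325) (nat_lit 380) (nat_lit 1445137770080) (nat_lit 20) (nat_lit 5) (nat_lit 24) (nat_lit 5) (nat_lit 25) (nat_lit 5) (nat_lit 308) (nat_lit 303) (nat_lit 169)) (XT.lf (nat_lit 0) (nat_lit 1326039972746) (nat_lit 380) (nat_lit 1162947098758) (nat_lit 76) (nat_lit 125991855611) (nat_lit 20) (nat_lit 5)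 (nat_lit 25) (nat_lit 5) (nat_lit 21) (nat_lit 5) (nat_lit 309) (nat_lit 303) (nat_lit 168))) (XT.nd (nat_lit 78) (nat_lit 76) (nat_lit 0) (XT.lf (nat_lit 0) (nat_lit 170096156910) (nat_lit 152) (nat_lit 1618342743713) (nat_lit 228) (nat_lit 1051863288860) (nat_lit 18) (nat_lit 5) (nat_lit 20) (nat_lit 5) (nat_lit 21) (nat_lit 5) (nat_lit 310) (nat_lit 303) (nat_lit 167)) (XT.nd (nat_lit 78) (nat_lit 76) (nat_lit 0) (XT.lf (nat_lit 0) (nat_lit 1833795294050) (nat_lit 152) (nat_lit 547192788244) (nat_lit 228) (nat_lit 709317296724) (nat_lit 18) (nat_lit 5) (nat_lit 20) (nat_lit 5) (nat_lit 21) (nat_lit 5) (nat_lit 311) (nat_lit 303) (nat_lit 166)) (XT.lf (nat_lit 0) (nat_lit 374205565269) (nat_lit 76) (nat_lit 2732058182994) (nat_lit 152) (nat_lit 264968682669) (nat_lit 17) (nat_lit 5) (nat_lit 18) (nat_lit 5) (nat_lit 19) (nat_lit 4) (nat_lit 312) (nat_lit 303) (nat_lit 165))))) (XT.nd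 (nat_lit 156) (nat_lit 76) (nat_lit 0) (XT.nd (nat_lit 78) (nat_lit 152) (nat_lit 0) (XT.lf (nat_lit 0) (nat_lit 318994417030) (nat_lit 152) (nat_lit 1333075345080) (nat_lit 76) (nat_lit 2026470775560) (nat_lit 16) (nat_lit 5) (nat_lit 18) (nat_lit 5) (nat_lit 17) (nat_lit 5) (nat_lit 313) (nat_lit 303) (nat_lit 164)) (XT.lf (nat_lit 0) (nat_lit 623345908475) (nat_lit 152) (nat_lit 365889750489) (nat_lit 228) (nat_lit 3036944854506) (nat_lit 14) (nat_lit 5) (nat_lit 16) (nat_lit 5) (nat_lit 17) (nat_lit 5) (nat_lit 314) (nat_lit 303) (nat_lit 163))) (XT.nd (nat_lit 78) (nat_lit 76) (nat_lit 0) (XT.lf (nat_lit 0) (nat_lit 1879110783846) (nat_lit 228) (nat_lit 1441878338709) (nat_lit 76) (nat_lit 1087112708589) (nat_lit 14) (nat_lit 5) (nat_lit 17) (nat_lit 5) (nat_lit 15) (nat_lit 4) (nat_lit 315) (nat_lit 303) (nat_lit 162)) (XT.nd (nat_lit 78) (nat_lit 0) (nat_lit 0) (XT.lf (nat_lit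 0) (nat_lit 873569216691) (nat_lit 76) (nat_lit 2082493919423) (nat_lit 152) (nat_lit 1883208816560) (nat_lit 13) (nat_lit 5) (nat_lit 14) (nat_lit 5) (nat_lit 15) (nat_lit 4) (nat_lit 316) (nat_lit 303) (nat_lit 161)) (XT.lf (nat_lit 0) (nat_lit 3698381366906) (nat_lit 76) (nat_lit 571547886387) (nat_lit 152) (nat_lit 1053882702333) (nat_lit 13) (nat_lit 5) (nat_lit 14) (nat_lit 5) (nat_lit 15) (nat_lit 4) (nat_lit 317) (nat_lit 303) (nat_lit 160))))))))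
noncomputable def xc116 : XT := (XT.nd (nat_lit 2574) (nat_lit 0) (nat_lit 0) (XT.nd (nat_lit 702) (nat_lit 456) (nat_lit 0) (XT.nd (nat_lit 312) (nat_lit 228) (nat_lit 0) (XT.nd (nat_lit 156) (nat_lit 76) (nat_lit 0) (XT.nd (nat_lit 78) (nat_lit 0) (nat_lit 0) (XT.lf (nat_lit 0) (nat_lit 7798592187) (nat_lit 152) (nat_lit 4750160443466) (nat_lit 76) (nat_lit 1108840090501) (nat_lit 11) (nat_lit 5) (nat_lit 13) (nat_lit 5) (nat_lit 12) (nat_lit 4) (nat_lit 318) (nat_lit 303) (nat_lit 159)) (XT.lf (nat_lit 0) (nat_lit 1237062806281) (nat_lit 152) (nat_lit 2107242384295) (nat_lit 76) (nat_lit 3121967212076) (nat_lit 11) (nat_lit 5) (nat_lit 13) (nat_lit 5) (nat_lit 12) (nat_lit 4) (nat_lit 319) (nat_lit 303) (nat_lit 158))) (XT.nd (nat_lit 78) (nat_lit 0) (nat_lit 0) (XT.lf (nat_lit 0) (nat_lit 1023206280999) (nat_lit 76) (nat_lit 1669879160759) (nat_lit 152) (nat_lit 4456225910476) (nat_lit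 10) (nat_lit 5) (nat_lit 11) (nat_lit 5) (nat_lit 12) (nat_lit 4) (nat_lit 320) (nat_lit 303) (nat_lit 157)) (XT.lf (nat_lit 0) (nat_lit 4493496516336) (nat_lit 152) (nat_lit 3074069632961) (nat_lit 0) (nat_lit 348342238391) (nat_lit 10) (nat_lit 5) (nat_lit 12) (nat_lit 4) (nat_lit 10) (nat_lit 4) (nat_lit 321) (nat_lit 303) (nat_lit 156)))) (XT.nd (nat_lit 156) (nat_lit 152) (nat_lit 0) (XT.nd (nat_lit 78) (nat_lit 0) (nat_lit 0) (XT.lf (nat_lit 0) (nat_lit 391068704867) (nat_lit 76) (nat_lit 6268611922917) (nat_lit 76) (nat_lit 2123457644326) (nat_lit 9) (nat_lit 4) (nat_lit 10) (nat_lit 5) (nat_lit 10) (nat_lit 4) (nat_lit 322) (nat_lit 303) (nat_lit 155)) (XT.lf (nat_lit 0) (nat_lit 4721461299738) (nat_lit 76) (nat_lit 4590021059089) (nat_lit 76) (nat_lit 444866779936) (nat_lit 9) (nat_lit 4) (nat_lit 10) (nat_lit 5) (nat_lit 10) (nat_lit 4) (nat_lit 323) (nat_lit 303) (nat_lit 154)))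 (XT.nd (nat_lit 78) (nat_lit 76) (nat_lit 0) (XT.lf (nat_lit 0) (nat_lit 1353262099207) (nat_lit 152) (nat_lit 1235640766345) (nat_lit 76) (nat_lit 8277411982909) (nat_lit 8) (nat_lit 5) (nat_lit 10) (nat_lit 5) (nat_lit 9) (nat_lit 4) (nat_lit 324) (nat_lit 303) (nat_lit 153)) (XT.nd (nat_lit 78) (nat_lit 0) (nat_lit 0) (XT.lf (nat_lit 0) (nat_lit 3416466727175) (nat_lit 76) (nat_lit 100566299448) (nat_lit 152) (nat_lit 8601344477983) (nat_lit 7) (nat_lit 5) (nat_lit 8) (nat_lit 5) (nat_lit 9) (nat_lit 4) (nat_lit 325) (nat_lit 303) (nat_lit 152)) (XT.lf (nat_lit 0) (nat_lit 6187363616036) (nat_lit 152) (nat_lit 4760705206658) (nat_lit 0) (nat_lit 2582881633048) (nat_lit 7) (nat_lit 5) (nat_lit 9) (nat_lit 4) (nat_lit 7) (nat_lit 4) (nat_lit 326) (nat_lit 303) (nat_lit 151)))))) (XT.nd (nat_lit 390) (nat_lit 228) (nat_lit 0) (XT.nd (nat_lit 156) (nat_lit 152) (nat_lit 0) (XT.nd (nat_lit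 78) (nat_lit 76) (nat_lit 0) (XT.lf (nat_lit 0) (nat_lit 9263032664814) (nat_lit 152) (nat_lit 233107672543) (nat_lit 0) (nat_lit 5658550681547) (nat_lit 7) (nat_lit 5) (nat_lit 9) (nat_lit 4) (nat_lit 7) (nat_lit 4) (nat_lit 327) (nat_lit 303) (nat_lit 150)) (XT.lf (nat_lit 0) (nat_lit 5459688736632) (nat_lit 76) (nat_lit 7566437401656) (nat_lit 76) (nat_lit 3961955418146) (nat_lit 6) (nat_lit 4) (nat_lit 7) (nat_lit 5) (nat_lit 7) (nat_lit 4) (nat_lit 328) (nat_lit 303) (nat_lit 149))) (XT.nd (nat_lit 78) (nat_lit 152) (nat_lit 0) (XT.lf (nat_lit 0) (nat_lit 12032602730113) (nat_lit 76) (nat_lit 5333266076095) (nat_lit 76) (nat_lit 1728784092374) (nat_lit 6) (nat_lit 4) (nat_lit 7) (nat_lit 5) (nat_lit 7) (nat_lit 4) (nat_lit 329) (nat_lit 303) (nat_lit 148)) (XT.nd (nat_lit 78) (nat_lit 76) (nat_lit 0) (XT.lf (nat_lit 0) (nat_lit 764637039407) (nat_lit 152) (nat_lit 1960512349178)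 (nat_lit 76) (nat_lit 18786847119154) (nat_lit 5) (nat_lit 5) (nat_lit 7) (nat_lit 5) (nat_lit 6) (nat_lit 4) (nat_lit 330) (nat_lit 303) (nat_lit 147)) (XT.lf (nat_lit 0) (nat_lit 3652442384025) (nat_lit 152) (nat_lit 20079435751738) (nat_lit 0) (nat_lit 518110223969) (nat_lit 4) (nat_lit 5) (nat_lit 6) (nat_lit 4) (nat_lit 4) (nat_lit 4) (nat_lit 331) (nat_lit 303) (nat_lit 146))))) (XT.nd (nat_lit 156) (nat_lit 228) (nat_lit 0) (XT.nd (nat_lit 78) (nat_lit 0) (nat_lit 0) (XT.lf (nat_lit 0) (nat_lit 7210548939102) (nat_lit 152) (nat_lit 16076343710183) (nat_lit 0) (nat_lit 4076216778924) (nat_lit 4) (nat_lit 5) (nat_lit 6) (nat_lit 4) (nat_lit 4) (nat_lit 4) (nat_lit 332) (nat_lit 303) (nat_lit 145)) (XT.lf (nat_lit 0) (nat_lit 11302371477189) (nat_lit 152) (nat_lit 11472787862901) (nat_lit 0) (nat_lit 8168039316907) (nat_lit 4) (nat_lit 5) (nat_lit 6) (nat_lit 4) (nat_lit 4) (nat_lit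 4) (nat_lit 333) (nat_lit 303) (nat_lit 144))) (XT.nd (nat_lit 1170) (nat_lit 228) (nat_lit 0) (XT.lf (nat_lit 0) (nat_lit 16007967395771) (nat_lit 152) (nat_lit 6178698638965) (nat_lit 0) (nat_lit 12873635235397) (nat_lit 4) (nat_lit 5) (nat_lit 6) (nat_lit 4) (nat_lit 4) (nat_lit 4) (nat_lit 334) (nat_lit 303) (nat_lit 143)) (XT.nd (nat_lit 78) (nat_lit 0) (nat_lit 0) (XT.lf (nat_lit 0) (nat_lit 29020639440531) (nat_lit 152) (nat_lit 202383907635957) (nat_lit 0) (nat_lit 26295133213655) (nat_lit 1) (nat_lit 5) (nat_lit 3) (nat_lit 4) (nat_lit 1) (nat_lit 4) (nat_lit 349) (nat_lit 303) (nat_lit 128)) (XT.lf (nat_lit 0) (nat_lit 37502679006578) (nat_lit 152) (nat_lit 223392098864367) (nat_lit 0) (nat_lit 34777172779693) (nat_lit 1) (nat_lit 5) (nat_lit 3) (nat_lit 4) (nat_lit 1) (nat_lit 4) (nat_lit 350) (nat_lit 303) (nat_lit 127))))))) (XT.nd (nat_lit 37674) (nat_lit 0) (nat_lit 684)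 (XT.nd (nat_lit 37284) (nat_lit 0) (nat_lit 1292) (XT.nd (nat_lit 37050) (nat_lit 0) (nat_lit 1596) (XT.nd (nat_lit 36972) (nat_lit 0) (nat_lit 1596) (XT.lf (nat_lit 0) (nat_lit 47257024507505) (nat_lit 152) (nat_lit 247551518777093) (nat_lit 0) (nat_lit 44531518280613) (nat_lit 1) (nat_lit 5) (nat_lit 3) (nat_lit 4) (nat_lit 1) (nat_lit 4) (nat_lit 351) (nat_lit 303) (nat_lit 126)) (XT.lf (nat_lit 0) (nat_lit 154245289252) (nat_lit 380) (nat_lit 399674233376) (nat_lit 380) (nat_lit 399674233376) (nat_lit 22) (nat_lit 3) (nat_lit 27) (nat_lit 3) (nat_lit 27) (nat_lit 5) (nat_lit 304) (nat_lit 304) (nat_lit 172))) (XT.nd (nat_lit 78) (nat_lit 0) (nat_lit 76) (XT.lf (nat_lit 76) (nat_lit 100672059573) (nat_lit 0) (nat_lit 235123943953) (nat_lit 380) (nat_lit 1713805277079) (nat_lit 23) (nat_lit 5) (nat_lit 22) (nat_lit 3) (nat_lit 27) (nat_lit 5) (nat_lit 305) (nat_lit 304) (nat_lit 171))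 (XT.nd (nat_lit 78) (nat_lit 0) (nat_lit 0) (XT.lf (nat_lit 0) (nat_lit 442792964823) (nat_lit 304) (nat_lit 1015389566930) (nat_lit 380) (nat_lit 743855224367) (nat_lit 23) (nat_lit 5) (nat_lit 27) (nat_lit 5) (nat_lit 28) (nat_lit 5) (nat_lit 306) (nat_lit 304) (nat_lit 170)) (XT.lf (nat_lit 76) (nat_lit 51576337151) (nat_lit 0) (nat_lit 527595175028) (nat_lit 380) (nat_lit 1796168384514) (nat_lit 24) (nat_lit 5) (nat_lit 23) (nat_lit 5) (nat_lit 28) (nat_lit 5) (nat_lit 307) (nat_lit 304) (nat_lit 169))))) (XT.nd (nat_lit 156) (nat_lit 152) (nat_lit 0) (XT.nd (nat_lit 78) (nat_lit 304) (nat_lit 0) (XT.lf (nat_lit 0) (nat_lit 814078598668) (nat_lit 304) (nat_lit 1198967292844) (nat_lit 76) (nat_lit 549880703294) (nat_lit 24) (nat_lit 5) (nat_lit 28) (nat_lit 5) (nat_lit 25) (nat_lit 5) (nat_lit 308) (nat_lit 304) (nat_lit 168)) (XT.lf (nat_lit 0) (nat_lit 76209531580) (nat_lit 304)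 (nat_lit 1036291468509) (nat_lit 380) (nat_lit 1661908409759) (nat_lit 20) (nat_lit 5) (nat_lit 24) (nat_lit 5) (nat_lit 25) (nat_lit 5) (nat_lit 309) (nat_lit 304) (nat_lit 167))) (XT.nd (nat_lit 78) (nat_lit 152) (nat_lit 0) (XT.lf (nat_lit 0) (nat_lit 1524945988183) (nat_lit 380) (nat_lit 1337389139930) (nat_lit 76) (nat_lit 144890635073) (nat_lit 20) (nat_lit 5) (nat_lit 25) (nat_lit 5) (nat_lit 21) (nat_lit 5) (nat_lit 310) (nat_lit 304) (nat_lit 166)) (XT.nd (nat_lit 78) (nat_lit 0) (nat_lit 0) (XT.lf (nat_lit 0) (nat_lit 195610603014) (nat_lit 152) (nat_lit 1861094150615) (nat_lit 228) (nat_lit 1209642761530) (nat_lit 18) (nat_lit 5) (nat_lit 20) (nat_lit 5) (nat_lit 21) (nat_lit 5) (nat_lit 311) (nat_lit 304) (nat_lit 165)) (XT.lf (nat_lit 0) (nat_lit 2108864607781) (nat_lit 152) (nat_lit 629271702433) (nat_lit 228) (nat_lit 815714873269) (nat_lit 18) (nat_lit 5) (nat_lit 20)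 (nat_lit 5) (nat_lit 21) (nat_lit 5) (nat_lit 312) (nat_lit 304) (nat_lit 164)))))) (XT.nd (nat_lit 390) (nat_lit 228) (nat_lit 0) (XT.nd (nat_lit 156) (nat_lit 228) (nat_lit 0) (XT.nd (nat_lit 78) (nat_lit 76) (nat_lit 0) (XT.lf (nat_lit 0) (nat_lit 430336420911) (nat_lit 76) (nat_lit 3141866904146) (nat_lit 152) (nat_lit 304713968288) (nat_lit 17) (nat_lit 5) (nat_lit 18) (nat_lit 5) (nat_lit 19) (nat_lit 4) (nat_lit 313) (nat_lit 304) (nat_lit 163)) (XT.lf (nat_lit 0) (nat_lit 366843592878) (nat_lit 152) (nat_lit 1533036627377) (nat_lit 76) (nat_lit 2330441396038) (nat_lit 16) (nat_lit 5) (nat_lit 18) (nat_lit 5) (nat_lit 17) (nat_lit 5) (nat_lit 314) (nat_lit 304) (nat_lit 162))) (XT.nd (nat_lit 78) (nat_lit 76) (nat_lit 0) (XT.lf (nat_lit 0) (nat_lit 716847813326) (nat_lit 152) (nat_lit 420773206811) (nat_lit 228) (nat_lit 3492486568475) (nat_lit 14) (nat_lit 5) (nat_lit 16) (nat_lit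 5) (nat_lit 17) (nat_lit 5) (nat_lit 315) (nat_lit 304) (nat_lit 161)) (XT.nd (nat_lit 78) (nat_lit 76) (nat_lit 0) (XT.lf (nat_lit 0) (nat_lit 2160977412369) (nat_lit 228) (nat_lit 1658160071951) (nat_lit 76) (nat_lit 1250179619829) (nat_lit 14) (nat_lit 5) (nat_lit 17) (nat_lit 5) (nat_lit 15) (nat_lit 4) (nat_lit 316) (nat_lit 304) (nat_lit 160)) (XT.lf (nat_lit 0) (nat_lit 1004604615962) (nat_lit 76) (nat_lit 2394868000782) (nat_lit 152) (nat_lit 2165690127277) (nat_lit 13) (nat_lit 5) (nat_lit 14) (nat_lit 5) (nat_lit 15) (nat_lit 4) (nat_lit 317) (nat_lit 304) (nat_lit 159))))) (XT.nd (nat_lit 156) (nat_lit 76) (nat_lit 0) (XT.nd (nat_lit 78) (nat_lit 152) (nat_lit 0) (XT.lf (nat_lit 0) (nat_lit 4253138586522) (nat_lit 76) (nat_lit 657280063645) (nat_lit 152) (nat_lit 1211965097451) (nat_lit 13) (nat_lit 5) (nat_lit 14) (nat_lit 5) (nat_lit 15) (nat_lit 4) (nat_lit 318) (nat_lit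 304) (nat_lit 158)) (XT.lf (nat_lit 0) (nat_lit 8968389985) (nat_lit 152) (nat_lit 5462684494113) (nat_lit 76) (nat_lit 1275166109619) (nat_lit 11) (nat_lit 5) (nat_lit 13) (nat_lit 5) (nat_lit 12) (nat_lit 4) (nat_lit 319) (nat_lit 304) (nat_lit 157))) (XT.nd (nat_lit 78) (nat_lit 76) (nat_lit 0) (XT.lf (nat_lit 0) (nat_lit 1422622235023) (nat_lit 152) (nat_lit 2423328728136) (nat_lit 76) (nat_lit 3590262298707) (nat_lit 11) (nat_lit 5) (nat_lit 13) (nat_lit 5) (nat_lit 12) (nat_lit 4) (nat_lit 320) (nat_lit 304) (nat_lit 156)) (XT.nd (nat_lit 78) (nat_lit 0) (nat_lit 0) (XT.lf (nat_lit 0) (nat_lit 1176687236325) (nat_lit 76) (nat_lit 1920361029026) (nat_lit 152) (nat_lit 5124659788609) (nat_lit 10) (nat_lit 5) (nat_lit 11) (nat_lit 5) (nat_lit 12) (nat_lit 4) (nat_lit 321) (nat_lit 304) (nat_lit 155)) (XT.lf (nat_lit 0) (nat_lit 5167521000370) (nat_lit 152) (nat_lit 3535180065693) (nat_lit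 0) (nat_lit 400593578782) (nat_lit 10) (nat_lit 5) (nat_lit 12) (nat_lit 4) (nat_lit 10) (nat_lit 4) (nat_lit 322) (nat_lit 304) (nat_lit 154))))))))
noncomputable def xc117 : XT := (XT.nd (nat_lit 39780) (nat_lit 0) (nat_lit 152) (XT.nd (nat_lit 702) (nat_lit 76) (nat_lit 0) (XT.nd (nat_lit 312) (nat_lit 152) (nat_lit 0) (XT.nd (nat_lit 156) (nat_lit 152) (nat_lit 0) (XT.nd (nat_lit 78) (nat_lit 0) (nat_lit 0) (XT.lf (nat_lit 0) (nat_lit 449729022253) (nat_lit 76) (nat_lit 7208903705905) (nat_lit 76) (nat_lit 2441976283828) (nat_lit 9) (nat_lit 4) (nat_lit 10) (nat_lit 5) (nat_lit 10) (nat_lit 4) (nat_lit 323) (nat_lit 304) (nat_lit 153)) (XT.lf (nat_lit 0) (nat_lit 5429680504835) (nat_lit 76) (nat_lit 5278524213214) (nat_lit 76) (nat_lit 511596790712) (nat_lit 9) (nat_lit 4) (nat_lit 10) (nat_lit 5) (nat_lit 10) (nat_lit 4) (nat_lit 324) (nat_lit 304) (nat_lit 152))) (XT.nd (nat_lit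 78) (nat_lit 76) (nat_lit 0) (XT.lf (nat_lit 0) (nat_lit 1556251419011) (nat_lit 152) (nat_lit 1420986871996) (nat_lit 76) (nat_lit 9519023783980) (nat_lit 8) (nat_lit 5) (nat_lit 10) (nat_lit 5) (nat_lit 9) (nat_lit 4) (nat_lit 325) (nat_lit 304) (nat_lit 151)) (XT.lf (nat_lit 0) (nat_lit 3928936745129) (nat_lit 76) (nat_lit 115651240136) (nat_lit 152) (nat_lit 9891546144331) (nat_lit 7) (nat_lit 5) (nat_lit 8) (nat_lit 5) (nat_lit 9) (nat_lit 4) (nat_lit 326) (nat_lit 304) (nat_lit 150)))) (XT.nd (nat_lit 156) (nat_lit 152) (nat_lit 0) (XT.nd (nat_lit 78) (nat_lit 0) (nat_lit 0) (XT.lf (nat_lit 0) (nat_lit 7115468162636) (nat_lit 152) (nat_lit 5474810979479) (nat_lit 0) (nat_lit 2970313881356) (nat_lit 7) (nat_lit 5) (nat_lit 9) (nat_lit 4) (nat_lit 7) (nat_lit 4) (nat_lit 327) (nat_lit 304) (nat_lit 149)) (XT.lf (nat_lit 0) (nat_lit 10652487568184) (nat_lit 152) (nat_lit 268073816313)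 (nat_lit 0) (nat_lit 6507333286693) (nat_lit 7) (nat_lit 5) (nat_lit 9) (nat_lit 4) (nat_lit 7) (nat_lit 4) (nat_lit 328) (nat_lit 304) (nat_lit 148))) (XT.nd (nat_lit 78) (nat_lit 76) (nat_lit 0) (XT.lf (nat_lit 0) (nat_lit 6278642053915) (nat_lit 76) (nat_lit 8701403008569) (nat_lit 76) (nat_lit 4556248726895) (nat_lit 6) (nat_lit 4) (nat_lit 7) (nat_lit 5) (nat_lit 7) (nat_lit 4) (nat_lit 329) (nat_lit 304) (nat_lit 147)) (XT.nd (nat_lit 78) (nat_lit 76) (nat_lit 0) (XT.lf (nat_lit 0) (nat_lit 13837493145533) (nat_lit 76) (nat_lit 6133255984609) (nat_lit 76) (nat_lit 1988101702774) (nat_lit 6) (nat_lit 4) (nat_lit 7) (nat_lit 5) (nat_lit 7) (nat_lit 4) (nat_lit 330) (nat_lit 304) (nat_lit 146)) (XT.lf (nat_lit 0) (nat_lit 879332598056) (nat_lit 152) (nat_lit 2254589196152) (nat_lit 76) (nat_lit 21604874189280) (nat_lit 5) (nat_lit 5) (nat_lit 7) (nat_lit 5) (nat_lit 6) (nat_lit 4)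 (nat_lit 331) (nat_lit 304) (nat_lit 145)))))) (XT.nd (nat_lit 38688) (nat_lit 0) (nat_lit 1216) (XT.nd (nat_lit 156) (nat_lit 0) (nat_lit 0) (XT.nd (nat_lit 78) (nat_lit 0) (nat_lit 0) (XT.lf (nat_lit 0) (nat_lit 4200308744329) (nat_lit 152) (nat_lit 23091351109058) (nat_lit 0) (nat_lit 595826759899) (nat_lit 4) (nat_lit 5) (nat_lit 6) (nat_lit 4) (nat_lit 4) (nat_lit 4) (nat_lit 332) (nat_lit 304) (nat_lit 144)) (XT.lf (nat_lit 0) (nat_lit 8292131282315) (nat_lit 152) (nat_lit 18487795261979) (nat_lit 0) (nat_lit 4687649297794) (nat_lit 4) (nat_lit 5) (nat_lit 6) (nat_lit 4) (nat_lit 4) (nat_lit 4) (nat_lit 333) (nat_lit 304) (nat_lit 143))) (XT.nd (nat_lit 38376) (nat_lit 0) (nat_lit 1368) (XT.lf (nat_lit 0) (nat_lit 12997727200809) (nat_lit 152) (nat_lit 13193706038221) (nat_lit 0) (nat_lit 9393245216208) (nat_lit 4) (nat_lit 5) (nat_lit 6) (nat_lit 4) (nat_lit 4) (nat_lit 4) (nat_lit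 334) (nat_lit 304) (nat_lit 142)) (XT.nd (nat_lit 78) (nat_lit 0) (nat_lit 0) (XT.lf (nat_lit 0) (nat_lit 177382098294) (nat_lit 380) (nat_lit 459625359352) (nat_lit 380) (nat_lit 459625359352) (nat_lit 22) (nat_lit 3) (nat_lit 27) (nat_lit 3) (nat_lit 27) (nat_lit 5) (nat_lit 305) (nat_lit 305) (nat_lit 170)) (XT.lf (nat_lit 76) (nat_lit 115772885750) (nat_lit 0) (nat_lit 270392546244) (nat_lit 380) (nat_lit 1970876036408) (nat_lit 23) (nat_lit 5) (nat_lit 22) (nat_lit 3) (nat_lit 27) (nat_lit 5) (nat_lit 306) (nat_lit 305) (nat_lit 169))))) (XT.nd (nat_lit 156) (nat_lit 228) (nat_lit 0) (XT.nd (nat_lit 78) (nat_lit 0) (nat_lit 0) (XT.lf (nat_lit 0) (nat_lit 509211933456) (nat_lit 304) (nat_lit 1167697982859) (nat_lit 380) (nat_lit 855433499548) (nat_lit 23) (nat_lit 5) (nat_lit 27) (nat_lit 5) (nat_lit 28) (nat_lit 5) (nat_lit 307) (nat_lit 305) (nat_lit 168)) (XT.lf (nat_lit 76) (nat_lit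 59312805966) (nat_lit 0) (nat_lit 606734454586) (nat_lit 380) (nat_lit 2065593617335) (nat_lit 24) (nat_lit 5) (nat_lit 23) (nat_lit 5) (nat_lit 28) (nat_lit 5) (nat_lit 308) (nat_lit 305) (nat_lit 167))) (XT.nd (nat_lit 78) (nat_lit 304) (nat_lit 0) (XT.lf (nat_lit 0) (nat_lit 936190407085) (nat_lit 304) (nat_lit 1378812367910) (nat_lit 76) (nat_lit 632362806172) (nat_lit 24) (nat_lit 5) (nat_lit 28) (nat_lit 5) (nat_lit 25) (nat_lit 5) (nat_lit 309) (nat_lit 305) (nat_lit 166)) (XT.nd (nat_lit 78) (nat_lit 0) (nat_lit 0) (XT.lf (nat_lit 0) (nat_lit 87640979321) (nat_lit 304) (nat_lit 1191735187716) (nat_lit 380) (nat_lit 1911194651690) (nat_lit 20) (nat_lit 5) (nat_lit 24) (nat_lit 5) (nat_lit 25) (nat_lit 5) (nat_lit 310) (nat_lit 305) (nat_lit 165)) (XT.lf (nat_lit 0) (nat_lit 1753687901174) (nat_lit 380) (nat_lit 1537997493043) (nat_lit 76) (nat_lit 166624231182) (nat_lit 20) (nat_lit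 5) (nat_lit 25) (nat_lit 5) (nat_lit 21) (nat_lit 5) (nat_lit 311) (nat_lit 305) (nat_lit 164))))))) (XT.nd (nat_lit 780) (nat_lit 380) (nat_lit 0) (XT.nd (nat_lit 390) (nat_lit 228) (nat_lit 0) (XT.nd (nat_lit 156) (nat_lit 304) (nat_lit 0) (XT.nd (nat_lit 78) (nat_lit 0) (nat_lit 0) (XT.lf (nat_lit 0) (nat_lit 224952210530) (nat_lit 152) (nat_lit 2140258269688) (nat_lit 228) (nat_lit 1391089160138) (nat_lit 18) (nat_lit 5) (nat_lit 20) (nat_lit 5) (nat_lit 21) (nat_lit 5) (nat_lit 312) (nat_lit 305) (nat_lit 163)) (XT.lf (nat_lit 0) (nat_lit 2425194313787) (nat_lit 152) (nat_lit 723662454738) (nat_lit 228) (nat_lit 938072090676) (nat_lit 18) (nat_lit 5) (nat_lit 20) (nat_lit 5) (nat_lit 21) (nat_lit 5) (nat_lit 313) (nat_lit 305) (nat_lit 162))) (XT.nd (nat_lit 78) (nat_lit 228) (nat_lit 0) (XT.lf (nat_lit 0) (nat_lit 494886899815) (nat_lit 76) (nat_lit 3613146935006) (nat_lit 152)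 (nat_lit 350421050842) (nat_lit 17) (nat_lit 5) (nat_lit 18) (nat_lit 5) (nat_lit 19) (nat_lit 4) (nat_lit 314) (nat_lit 305) (nat_lit 161)) (XT.nd (nat_lit 78) (nat_lit 152) (nat_lit 0) (XT.lf (nat_lit 0) (nat_lit 421870141862) (nat_lit 152) (nat_lit 1762992106766) (nat_lit 76) (nat_lit 2680007608576) (nat_lit 16) (nat_lit 5) (nat_lit 18) (nat_lit 5) (nat_lit 17) (nat_lit 5) (nat_lit 315) (nat_lit 305) (nat_lit 160)) (XT.lf (nat_lit 0) (nat_lit 824374999374) (nat_lit 152) (nat_lit 483889183107) (nat_lit 228) (nat_lit 4016359543003) (nat_lit 14) (nat_lit 5) (nat_lit 16) (nat_lit 5) (nat_lit 17) (nat_lit 5) (nat_lit 316) (nat_lit 305) (nat_lit 159))))) (XT.nd (nat_lit 156) (nat_lit 152) (nat_lit 0) (XT.nd (nat_lit 78) (nat_lit 76) (nat_lit 0) (XT.lf (nat_lit 0) (nat_lit 2485124032501) (nat_lit 228) (nat_lit 1906884069462) (nat_lit 76) (nat_lit 1437706566548) (nat_lit 14) (nat_lit 5) (nat_lit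 17) (nat_lit 5) (nat_lit 15) (nat_lit 4) (nat_lit 317) (nat_lit 305) (nat_lit 158)) (XT.lf (nat_lit 0) (nat_lit 1155295321034) (nat_lit 76) (nat_lit 2754098195944) (nat_lit 152) (nat_lit 2490543637472) (nat_lit 13) (nat_lit 5) (nat_lit 14) (nat_lit 5) (nat_lit 15) (nat_lit 4) (nat_lit 318) (nat_lit 305) (nat_lit 157))) (XT.nd (nat_lit 78) (nat_lit 152) (nat_lit 0) (XT.lf (nat_lit 0) (nat_lit 4891109385525) (nat_lit 76) (nat_lit 755872068883) (nat_lit 152) (nat_lit 1393759854332) (nat_lit 13) (nat_lit 5) (nat_lit 14) (nat_lit 5) (nat_lit 15) (nat_lit 4) (nat_lit 319) (nat_lit 305) (nat_lit 156)) (XT.nd (nat_lit 78) (nat_lit 0) (nat_lit 0) (XT.lf (nat_lit 0) (nat_lit 10313655266) (nat_lit 152) (nat_lit 6282087156227) (nat_lit 76) (nat_lit 1466441030254) (nat_lit 11) (nat_lit 5) (nat_lit 13) (nat_lit 5) (nat_lit 12) (nat_lit 4) (nat_lit 320) (nat_lit 305) (nat_lit 155)) (XT.lf (nat_lit 0)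 (nat_lit 1636015576174) (nat_lit 152) (nat_lit 2786828026920) (nat_lit 76) (nat_lit 4128801647158) (nat_lit 11) (nat_lit 5) (nat_lit 13) (nat_lit 5) (nat_lit 12) (nat_lit 4) (nat_lit 321) (nat_lit 305) (nat_lit 154)))))) (XT.nd (nat_lit 390) (nat_lit 152) (nat_lit 0) (XT.nd (nat_lit 156) (nat_lit 152) (nat_lit 0) (XT.nd (nat_lit 78) (nat_lit 0) (nat_lit 0) (XT.lf (nat_lit 0) (nat_lit 1353190331736) (nat_lit 76) (nat_lit 2208415178958) (nat_lit 152) (nat_lit 5893358750519) (nat_lit 10) (nat_lit 5) (nat_lit 11) (nat_lit 5) (nat_lit 12) (nat_lit 4) (nat_lit 322) (nat_lit 305) (nat_lit 153)) (XT.lf (nat_lit 0) (nat_lit 5942649155403) (nat_lit 152) (nat_lit 4065457066314) (nat_lit 0) (nat_lit 460682619101) (nat_lit 10) (nat_lit 5) (nat_lit 12) (nat_lit 4) (nat_lit 10) (nat_lit 4) (nat_lit 323) (nat_lit 305) (nat_lit 152))) (XT.nd (nat_lit 78) (nat_lit 76) (nat_lit 0) (XT.lf (nat_lit 0) (nat_lit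 517188384405) (nat_lit 76) (nat_lit 8290239257670) (nat_lit 76) (nat_lit 2808272720999) (nat_lit 9) (nat_lit 4) (nat_lit 10) (nat_lit 5) (nat_lit 10) (nat_lit 4) (nat_lit 324) (nat_lit 305) (nat_lit 151)) (XT.nd (nat_lit 78) (nat_lit 76) (nat_lit 0) (XT.lf (nat_lit 0) (nat_lit 6244132588225) (nat_lit 76) (nat_lit 6070302841612) (nat_lit 76) (nat_lit 588336304620) (nat_lit 9) (nat_lit 4) (nat_lit 10) (nat_lit 5) (nat_lit 10) (nat_lit 4) (nat_lit 325) (nat_lit 305) (nat_lit 150)) (XT.lf (nat_lit 0) (nat_lit 1789689135585) (nat_lit 152) (nat_lit 1634134895763) (nat_lit 76) (nat_lit 10946877354325) (nat_lit 8) (nat_lit 5) (nat_lit 10) (nat_lit 5) (nat_lit 9) (nat_lit 4) (nat_lit 326) (nat_lit 305) (nat_lit 149))))) (XT.nd (nat_lit 156) (nat_lit 76) (nat_lit 0) (XT.nd (nat_lit 78) (nat_lit 0) (nat_lit 0) (XT.lf (nat_lit 0) (nat_lit 4518277263612) (nat_lit 76) (nat_lit 132998922958) (nat_lit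 152) (nat_lit 11375278061935) (nat_lit 7) (nat_lit 5) (nat_lit 8) (nat_lit 5) (nat_lit 9) (nat_lit 4) (nat_lit 327) (nat_lit 305) (nat_lit 148)) (XT.lf (nat_lit 0) (nat_lit 8182788390202) (nat_lit 152) (nat_lit 6296032620217) (nat_lit 0) (nat_lit 3415860966093) (nat_lit 7) (nat_lit 5) (nat_lit 9) (nat_lit 4) (nat_lit 7) (nat_lit 4) (nat_lit 328) (nat_lit 305) (nat_lit 147))) (XT.nd (nat_lit 78) (nat_lit 76) (nat_lit 0) (XT.lf (nat_lit 0) (nat_lit 12250360706169) (nat_lit 152) (nat_lit 308284883383) (nat_lit 0) (nat_lit 7483433281900) (nat_lit 7) (nat_lit 5) (nat_lit 9) (nat_lit 4) (nat_lit 7) (nat_lit 4) (nat_lit 329) (nat_lit 305) (nat_lit 146)) (XT.nd (nat_lit 78) (nat_lit 0) (nat_lit 0) (XT.lf (nat_lit 0) (nat_lit 7220438367135) (nat_lit 76) (nat_lit 10006613457333) (nat_lit 76) (nat_lit 5239686032925) (nat_lit 6) (nat_lit 4) (nat_lit 7) (nat_lit 5) (nat_lit 7) (nat_lit 4) (nat_lit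 330) (nat_lit 305) (nat_lit 145)) (XT.lf (nat_lit 0) (nat_lit 15913117121826) (nat_lit 76) (nat_lit 7053244380107) (nat_lit 76) (nat_lit 2286316955578) (nat_lit 6) (nat_lit 4) (nat_lit 7) (nat_lit 5) (nat_lit 7) (nat_lit 4) (nat_lit 331) (nat_lit 305) (nat_lit 144))))))))
noncomputable def xc118 : XT := (XT.nd (nat_lit 39858) (nat_lit 0) (nat_lit 0) (XT.nd (nat_lit 39078) (nat_lit 0) (nat_lit 532) (XT.nd (nat_lit 38688) (nat_lit 0) (nat_lit 1216) (XT.nd (nat_lit 156) (nat_lit 0) (nat_lit 0) (XT.nd (nat_lit 78) (nat_lit 76) (nat_lit 0) (XT.lf (nat_lit 0) (nat_lit 1011232489834) (nat_lit 152) (nat_lit 2592777571490) (nat_lit 76) (nat_lit 24845605319376) (nat_lit 5) (nat_lit 5) (nat_lit 7) (nat_lit 5) (nat_lit 6) (nat_lit 4) (nat_lit 332) (nat_lit 305) (nat_lit 143)) (XT.lf (nat_lit 0) (nat_lit 4830355058019) (nat_lit 152) (nat_lit 26555053771302) (nat_lit 0) (nat_lit 685200775650) (nat_lit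 4) (nat_lit 5) (nat_lit 6) (nat_lit 4) (nat_lit 4) (nat_lit 4) (nat_lit 333) (nat_lit 305) (nat_lit 142))) (XT.nd (nat_lit 38454) (nat_lit 0) (nat_lit 1368) (XT.lf (nat_lit 0) (nat_lit 9535950976437) (nat_lit 152) (nat_lit 21260964547699) (nat_lit 0) (nat_lit 5390796693998) (nat_lit 4) (nat_lit 5) (nat_lit 6) (nat_lit 4) (nat_lit 4) (nat_lit 4) (nat_lit 334) (nat_lit 305) (nat_lit 141)) (XT.lf (nat_lit 0) (nat_lit 203989424875) (nat_lit 380) (nat_lit 528569156426) (nat_lit 380) (nat_lit 528569156426) (nat_lit 22) (nat_lit 3) (nat_lit 27) (nat_lit 3) (nat_lit 27) (nat_lit 5) (nat_lit 306) (nat_lit 306) (nat_lit 168)))) (XT.nd (nat_lit 156) (nat_lit 152) (nat_lit 0) (XT.nd (nat_lit 78) (nat_lit 0) (nat_lit 76) (XT.lf (nat_lit 76) (nat_lit 133138831649) (nat_lit 0) (nat_lit 310951436270) (nat_lit 380) (nat_lit 2266507417496) (nat_lit 23) (nat_lit 5) (nat_lit 22) (nat_lit 3) (nat_lit 27)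 (nat_lit 5) (nat_lit 307) (nat_lit 306) (nat_lit 167)) (XT.lf (nat_lit 0) (nat_lit 585593741554) (nat_lit 304) (nat_lit 1342852665836) (nat_lit 380) (nat_lit 983748518072) (nat_lit 23) (nat_lit 5) (nat_lit 27) (nat_lit 5) (nat_lit 28) (nat_lit 5) (nat_lit 308) (nat_lit 306) (nat_lit 166))) (XT.nd (nat_lit 78) (nat_lit 228) (nat_lit 0) (XT.lf (nat_lit 76) (nat_lit 68209740656) (nat_lit 0) (nat_lit 697744625272) (nat_lit 380) (nat_lit 2375432641141) (nat_lit 24) (nat_lit 5) (nat_lit 23) (nat_lit 5) (nat_lit 28) (nat_lit 5) (nat_lit 309) (nat_lit 306) (nat_lit 165)) (XT.nd (nat_lit 78) (nat_lit 304) (nat_lit 0) (XT.lf (nat_lit 0) (nat_lit 1076618982225) (nat_lit 304) (nat_lit 1585634208835) (nat_lit 76) (nat_lit 727217225119) (nat_lit 24) (nat_lit 5) (nat_lit 28) (nat_lit 5) (nat_lit 25) (nat_lit 5) (nat_lit 310) (nat_lit 306) (nat_lit 164)) (XT.lf (nat_lit 0) (nat_lit 100787139832) (nat_lit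 304) (nat_lit 1370495465065) (nat_lit 380) (nat_lit 2197873834673) (nat_lit 20) (nat_lit 5) (nat_lit 24) (nat_lit 5) (nat_lit 25) (nat_lit 5) (nat_lit 311) (nat_lit 306) (nat_lit 163)))))) (XT.nd (nat_lit 390) (nat_lit 380) (nat_lit 0) (XT.nd (nat_lit 156) (nat_lit 152) (nat_lit 0) (XT.nd (nat_lit 78) (nat_lit 152) (nat_lit 0) (XT.lf (nat_lit 0) (nat_lit 2016741097514) (nat_lit 380) (nat_lit 1768697103481) (nat_lit 76) (nat_lit 191617866499) (nat_lit 20) (nat_lit 5) (nat_lit 25) (nat_lit 5) (nat_lit 21) (nat_lit 5) (nat_lit 312) (nat_lit 306) (nat_lit 162)) (XT.lf (nat_lit 0) (nat_lit 258695055013) (nat_lit 152) (nat_lit 2461297007479) (nat_lit 228) (nat_lit 1599752522347) (nat_lit 18) (nat_lit 5) (nat_lit 20) (nat_lit 5) (nat_lit 21) (nat_lit 5) (nat_lit 313) (nat_lit 306) (nat_lit 161))) (XT.nd (nat_lit 78) (nat_lit 152) (nat_lit 0) (XT.lf (nat_lit 0) (nat_lit 2788973472075) (nat_lit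 152) (nat_lit 832211820634) (nat_lit 228) (nat_lit 1078782894006) (nat_lit 18) (nat_lit 5) (nat_lit 20) (nat_lit 5) (nat_lit 21) (nat_lit 5) (nat_lit 314) (nat_lit 306) (nat_lit 160)) (XT.nd (nat_lit 78) (nat_lit 76) (nat_lit 0) (XT.lf (nat_lit 0) (nat_lit 569119946709) (nat_lit 76) (nat_lit 4155118971656) (nat_lit 152) (nat_lit 402984198873) (nat_lit 17) (nat_lit 5) (nat_lit 18) (nat_lit 5) (nat_lit 19) (nat_lit 4) (nat_lit 315) (nat_lit 306) (nat_lit 159)) (XT.lf (nat_lit 0) (nat_lit 485150670742) (nat_lit 152) (nat_lit 2027440911652) (nat_lit 76) (nat_lit 3082008752232) (nat_lit 16) (nat_lit 5) (nat_lit 18) (nat_lit 5) (nat_lit 17) (nat_lit 5) (nat_lit 316) (nat_lit 306) (nat_lit 158))))) (XT.nd (nat_lit 156) (nat_lit 228) (nat_lit 0) (XT.nd (nat_lit 78) (nat_lit 0) (nat_lit 0) (XT.lf (nat_lit 0) (nat_lit 948031259904) (nat_lit 152) (nat_lit 556472556999) (nat_lit 228) (nat_lit 4618813466330)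 (nat_lit 14) (nat_lit 5) (nat_lit 16) (nat_lit 5) (nat_lit 17) (nat_lit 5) (nat_lit 317) (nat_lit 306) (nat_lit 157)) (XT.lf (nat_lit 0) (nat_lit 2857892643635) (nat_lit 228) (nat_lit 2192916669838) (nat_lit 76) (nat_lit 1653362554361) (nat_lit 14) (nat_lit 5) (nat_lit 17) (nat_lit 5) (nat_lit 15) (nat_lit 4) (nat_lit 318) (nat_lit 306) (nat_lit 156))) (XT.nd (nat_lit 78) (nat_lit 152) (nat_lit 0) (XT.lf (nat_lit 0) (nat_lit 1328589628776) (nat_lit 76) (nat_lit 3167212921588) (nat_lit 152) (nat_lit 2864125176365) (nat_lit 13) (nat_lit 5) (nat_lit 14) (nat_lit 5) (nat_lit 15) (nat_lit 4) (nat_lit 319) (nat_lit 306) (nat_lit 155)) (XT.nd (nat_lit 78) (nat_lit 152) (nat_lit 0) (XT.lf (nat_lit 0) (nat_lit 5624775801690) (nat_lit 76) (nat_lit 869252875957) (nat_lit 152) (nat_lit 1602823826632) (nat_lit 13) (nat_lit 5) (nat_lit 14) (nat_lit 5) (nat_lit 15) (nat_lit 4) (nat_lit 320) (nat_lit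 306) (nat_lit 154)) (XT.lf (nat_lit 0) (nat_lit 11860708684) (nat_lit 152) (nat_lit 7224400220586) (nat_lit 76) (nat_lit 1686407187961) (nat_lit 11) (nat_lit 5) (nat_lit 13) (nat_lit 5) (nat_lit 12) (nat_lit 4) (nat_lit 321) (nat_lit 306) (nat_lit 153))))))) (XT.nd (nat_lit 780) (nat_lit 152) (nat_lit 0) (XT.nd (nat_lit 390) (nat_lit 228) (nat_lit 0) (XT.nd (nat_lit 156) (nat_lit 76) (nat_lit 0) (XT.nd (nat_lit 78) (nat_lit 76) (nat_lit 0) (XT.lf (nat_lit 0) (nat_lit 1881417917060) (nat_lit 152) (nat_lit 3204852223067) (nat_lit 76) (nat_lit 4748121896987) (nat_lit 11) (nat_lit 5) (nat_lit 13) (nat_lit 5) (nat_lit 12) (nat_lit 4) (nat_lit 322) (nat_lit 306) (nat_lit 152)) (XT.lf (nat_lit 0) (nat_lit 1556168889029) (nat_lit 76) (nat_lit 2539677452459) (nat_lit 152) (nat_lit 6777362558272) (nat_lit 10) (nat_lit 5) (nat_lit 11) (nat_lit 5) (nat_lit 12) (nat_lit 4) (nat_lit 323) (nat_lit 306)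 (nat_lit 151))) (XT.nd (nat_lit 78) (nat_lit 76) (nat_lit 0) (XT.lf (nat_lit 0) (nat_lit 6834046532477) (nat_lit 152) (nat_lit 4675275619279) (nat_lit 0) (nat_lit 529785014615) (nat_lit 10) (nat_lit 5) (nat_lit 12) (nat_lit 4) (nat_lit 10) (nat_lit 4) (nat_lit 324) (nat_lit 306) (nat_lit 150)) (XT.nd (nat_lit 78) (nat_lit 0) (nat_lit 0) (XT.lf (nat_lit 0) (nat_lit 594766648731) (nat_lit 76) (nat_lit 9533775143205) (nat_lit 76) (nat_lit 3229513625063) (nat_lit 9) (nat_lit 4) (nat_lit 10) (nat_lit 5) (nat_lit 10) (nat_lit 4) (nat_lit 325) (nat_lit 306) (nat_lit 149)) (XT.lf (nat_lit 0) (nat_lit 7180752482254) (nat_lit 76) (nat_lit 6980848265145) (nat_lit 76) (nat_lit 676586746760) (nat_lit 9) (nat_lit 4) (nat_lit 10) (nat_lit 5) (nat_lit 10) (nat_lit 4) (nat_lit 326) (nat_lit 306) (nat_lit 148))))) (XT.nd (nat_lit 156) (nat_lit 76) (nat_lit 0) (XT.nd (nat_lit 78) (nat_lit 76) (nat_lit 0)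 (XT.lf (nat_lit 0) (nat_lit 2058142508737) (nat_lit 152) (nat_lit 1879255124810) (nat_lit 76) (nat_lit 12588908959552) (nat_lit 8) (nat_lit 5) (nat_lit 10) (nat_lit 5) (nat_lit 9) (nat_lit 4) (nat_lit 327) (nat_lit 306) (nat_lit 147)) (XT.lf (nat_lit 0) (nat_lit 5196018858230) (nat_lit 76) (nat_lit 152948758983) (nat_lit 152) (nat_lit 13081569768166) (nat_lit 7) (nat_lit 5) (nat_lit 8) (nat_lit 5) (nat_lit 9) (nat_lit 4) (nat_lit 328) (nat_lit 306) (nat_lit 146))) (XT.nd (nat_lit 78) (nat_lit 76) (nat_lit 0) (XT.lf (nat_lit 0) (nat_lit 9410206651131) (nat_lit 152) (nat_lit 7240437508573) (nat_lit 0) (nat_lit 3928240112923) (nat_lit 7) (nat_lit 5) (nat_lit 9) (nat_lit 4) (nat_lit 7) (nat_lit 4) (nat_lit 329) (nat_lit 306) (nat_lit 145)) (XT.nd (nat_lit 78) (nat_lit 76) (nat_lit 0) (XT.lf (nat_lit 0) (nat_lit 14087914814180) (nat_lit 152) (nat_lit 354527611825) (nat_lit 0) (nat_lit 8605948275850)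 (nat_lit 7) (nat_lit 5) (nat_lit 9) (nat_lit 4) (nat_lit 7) (nat_lit 4) (nat_lit 330) (nat_lit 306) (nat_lit 144)) (XT.lf (nat_lit 0) (nat_lit 8303504126087) (nat_lit 76) (nat_lit 11507605474026) (nat_lit 76) (nat_lit 6025638935591) (nat_lit 6) (nat_lit 4) (nat_lit 7) (nat_lit 5) (nat_lit 7) (nat_lit 4) (nat_lit 331) (nat_lit 306) (nat_lit 143)))))) (XT.nd (nat_lit 38844) (nat_lit 0) (nat_lit 1216) (XT.nd (nat_lit 156) (nat_lit 76) (nat_lit 0) (XT.nd (nat_lit 78) (nat_lit 76) (nat_lit 0) (XT.lf (nat_lit 0) (nat_lit 18300084693475) (nat_lit 76) (nat_lit 8111231035465) (nat_lit 76) (nat_lit 2629264496939) (nat_lit 6) (nat_lit 4) (nat_lit 7) (nat_lit 5) (nat_lit 7) (nat_lit 4) (nat_lit 332) (nat_lit 306) (nat_lit 142)) (XT.lf (nat_lit 0) (nat_lit 1162917364874) (nat_lit 152) (nat_lit 2981694204125) (nat_lit 76) (nat_lit 28572446118570) (nat_lit 5) (nat_lit 5) (nat_lit 7) (nat_lit 5) (nat_lit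 6) (nat_lit 4) (nat_lit 333) (nat_lit 306) (nat_lit 141))) (XT.nd (nat_lit 38532) (nat_lit 0) (nat_lit 1368) (XT.lf (nat_lit 0) (nat_lit 5554908318266) (nat_lit 152) (nat_lit 30538311833886) (nat_lit 0) (nat_lit 787980893332) (nat_lit 4) (nat_lit 5) (nat_lit 6) (nat_lit 4) (nat_lit 4) (nat_lit 4) (nat_lit 334) (nat_lit 306) (nat_lit 140)) (XT.nd (nat_lit 78) (nat_lit 0) (nat_lit 0) (XT.lf (nat_lit 0) (nat_lit 234587847557) (nat_lit 380) (nat_lit 607854524727) (nat_lit 380) (nat_lit 607854524727) (nat_lit 22) (nat_lit 3) (nat_lit 27) (nat_lit 3) (nat_lit 27) (nat_lit 5) (nat_lit 307) (nat_lit 307) (nat_lit 166)) (XT.lf (nat_lit 76) (nat_lit 153109666254) (nat_lit 0) (nat_lit 357594157827) (nat_lit 380) (nat_lit 2606483511691) (nat_lit 23) (nat_lit 5) (nat_lit 22) (nat_lit 3) (nat_lit 27) (nat_lit 5) (nat_lit 308) (nat_lit 307) (nat_lit 165))))) (XT.nd (nat_lit 156) (nat_lit 228) (nat_lit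 0) (XT.nd (nat_lit 78) (nat_lit 0) (nat_lit 0) (XT.lf (nat_lit 0) (nat_lit 673432816457) (nat_lit 304) (nat_lit 1544280554785) (nat_lit 380) (nat_lit 1131310790938) (nat_lit 23) (nat_lit 5) (nat_lit 27) (nat_lit 5) (nat_lit 28) (nat_lit 5) (nat_lit 309) (nat_lit 307) (nat_lit 164)) (XT.lf (nat_lit 76) (nat_lit 78441212184) (nat_lit 0) (nat_lit 802406320951) (nat_lit 380) (nat_lit 2731747523100) (nat_lit 24) (nat_lit 5) (nat_lit 23) (nat_lit 5) (nat_lit 28) (nat_lit 5) (nat_lit 310) (nat_lit 307) (nat_lit 163))) (XT.nd (nat_lit 78) (nat_lit 304) (nat_lit 0) (XT.lf (nat_lit 0) (nat_lit 1238111840203) (nat_lit 304) (nat_lit 1823479329377) (nat_lit 76) (nat_lit 836299807391) (nat_lit 24) (nat_lit 5) (nat_lit 28) (nat_lit 5) (nat_lit 25) (nat_lit 5) (nat_lit 311) (nat_lit 307) (nat_lit 162)) (XT.nd (nat_lit 78) (nat_lit 0) (nat_lit 0) (XT.lf (nat_lit 0) (nat_lit 115905221101) (nat_lit 304)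 (nat_lit 1576069784214) (nat_lit 380) (nat_lit 2527554898706) (nat_lit 20) (nat_lit 5) (nat_lit 24) (nat_lit 5) (nat_lit 25) (nat_lit 5) (nat_lit 312) (nat_lit 307) (nat_lit 161)) (XT.lf (nat_lit 0) (nat_lit 2319252270582) (nat_lit 380) (nat_lit 2034001658783) (nat_lit 76) (nat_lit 220360546959) (nat_lit 20) (nat_lit 5) (nat_lit 25) (nat_lit 5) (nat_lit 21) (nat_lit 5) (nat_lit 313) (nat_lit 307) (nat_lit 160))))))))
noncomputable def xc119 : XT := (XT.nd (nat_lit 1482) (nat_lit 152) (nat_lit 0) (XT.nd (nat_lit 702) (nat_lit 380) (nat_lit 0) (XT.nd (nat_lit 312) (nat_lit 380) (nat_lit 0) (XT.nd (nat_lit 156) (nat_lit 152) (nat_lit 0) (XT.nd (nat_lit 78) (nat_lit 0) (nat_lit 0) (XT.lf (nat_lit 0) (nat_lit 297499323022) (nat_lit 152) (nat_lit 2830491556589) (nat_lit 228) (nat_lit 1839715391768) (nat_lit 18) (nat_lit 5) (nat_lit 20) (nat_lit 5) (nat_lit 21) (nat_lit 5) (nat_lit 314) (nat_lit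 307) (nat_lit 159)) (XT.lf (nat_lit 0) (nat_lit 3207319501370) (nat_lit 152) (nat_lit 957043591979) (nat_lit 228) (nat_lit 1240600320340) (nat_lit 18) (nat_lit 5) (nat_lit 20) (nat_lit 5) (nat_lit 21) (nat_lit 5) (nat_lit 315) (nat_lit 307) (nat_lit 158))) (XT.nd (nat_lit 78) (nat_lit 76) (nat_lit 0) (XT.lf (nat_lit 0) (nat_lit 654487947730) (nat_lit 76) (nat_lit 4778386814682) (nat_lit 152) (nat_lit 463431821449) (nat_lit 17) (nat_lit 5) (nat_lit 18) (nat_lit 5) (nat_lit 19) (nat_lit 4) (nat_lit 316) (nat_lit 307) (nat_lit 157)) (XT.lf (nat_lit 0) (nat_lit 557923277101) (nat_lit 152) (nat_lit 2331557039984) (nat_lit 76) (nat_lit 3544310066858) (nat_lit 16) (nat_lit 5) (nat_lit 18) (nat_lit 5) (nat_lit 17) (nat_lit 5) (nat_lit 317) (nat_lit 307) (nat_lit 156)))) (XT.nd (nat_lit 156) (nat_lit 228) (nat_lit 0) (XT.nd (nat_lit 78) (nat_lit 0) (nat_lit 0) (XT.lf (nat_lit 0) (nat_lit 1090235956922)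 (nat_lit 152) (nat_lit 639943437846) (nat_lit 228) (nat_lit 5311635480137) (nat_lit 14) (nat_lit 5) (nat_lit 16) (nat_lit 5) (nat_lit 17) (nat_lit 5) (nat_lit 318) (nat_lit 307) (nat_lit 155)) (XT.lf (nat_lit 0) (nat_lit 3286576544912) (nat_lit 228) (nat_lit 2521854162720) (nat_lit 76) (nat_lit 1901366939656) (nat_lit 14) (nat_lit 5) (nat_lit 17) (nat_lit 5) (nat_lit 15) (nat_lit 4) (nat_lit 319) (nat_lit 307) (nat_lit 154))) (XT.nd (nat_lit 78) (nat_lit 152) (nat_lit 0) (XT.lf (nat_lit 0) (nat_lit 1527878080341) (nat_lit 76) (nat_lit 3642294856993) (nat_lit 152) (nat_lit 3293743947733) (nat_lit 13) (nat_lit 5) (nat_lit 14) (nat_lit 5) (nat_lit 15) (nat_lit 4) (nat_lit 320) (nat_lit 307) (nat_lit 153)) (XT.nd (nat_lit 78) (nat_lit 152) (nat_lit 0) (XT.lf (nat_lit 0) (nat_lit 6468492178247) (nat_lit 76) (nat_lit 999640804886) (nat_lit 152) (nat_lit 1843247396203) (nat_lit 13) (nat_lit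 5) (nat_lit 14) (nat_lit 5) (nat_lit 15) (nat_lit 4) (nat_lit 321) (nat_lit 307) (nat_lit 152)) (XT.lf (nat_lit 0) (nat_lit 13639818865) (nat_lit 152) (nat_lit 8308060246812) (nat_lit 76) (nat_lit 1939368268551) (nat_lit 11) (nat_lit 5) (nat_lit 13) (nat_lit 5) (nat_lit 12) (nat_lit 4) (nat_lit 322) (nat_lit 307) (nat_lit 151)))))) (XT.nd (nat_lit 390) (nat_lit 228) (nat_lit 0) (XT.nd (nat_lit 156) (nat_lit 76) (nat_lit 0) (XT.nd (nat_lit 78) (nat_lit 76) (nat_lit 0) (XT.lf (nat_lit 0) (nat_lit 2163630607992) (nat_lit 152) (nat_lit 3685580050559) (nat_lit 76) (nat_lit 5460340183619) (nat_lit 11) (nat_lit 5) (nat_lit 13) (nat_lit 5) (nat_lit 12) (nat_lit 4) (nat_lit 323) (nat_lit 307) (nat_lit 150)) (XT.lf (nat_lit 0) (nat_lit 1789594228080) (nat_lit 76) (nat_lit 2920629067800) (nat_lit 152) (nat_lit 7793966938365) (nat_lit 10) (nat_lit 5) (nat_lit 11) (nat_lit 5) (nat_lit 12) (nat_lit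 4) (nat_lit 324) (nat_lit 307) (nat_lit 149))) (XT.nd (nat_lit 78) (nat_lit 76) (nat_lit 0) (XT.lf (nat_lit 0) (nat_lit 7859153515195) (nat_lit 152) (nat_lit 5376566956891) (nat_lit 0) (nat_lit 609252768809) (nat_lit 10) (nat_lit 5) (nat_lit 12) (nat_lit 4) (nat_lit 10) (nat_lit 4) (nat_lit 325) (nat_lit 307) (nat_lit 148)) (XT.nd (nat_lit 78) (nat_lit 0) (nat_lit 0) (XT.lf (nat_lit 0) (nat_lit 683981651080) (nat_lit 76) (nat_lit 10963841412330) (nat_lit 76) (nat_lit 3713940665733) (nat_lit 9) (nat_lit 4) (nat_lit 10) (nat_lit 5) (nat_lit 10) (nat_lit 4) (nat_lit 326) (nat_lit 307) (nat_lit 147)) (XT.lf (nat_lit 0) (nat_lit 8257865358974) (nat_lit 76) (nat_lit 8027975502868) (nat_lit 76) (nat_lit 778074756088) (nat_lit 9) (nat_lit 4) (nat_lit 10) (nat_lit 5) (nat_lit 10) (nat_lit 4) (nat_lit 327) (nat_lit 307) (nat_lit 146))))) (XT.nd (nat_lit 156) (nat_lit 76) (nat_lit 0) (XT.nd (nat_lit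 78) (nat_lit 76) (nat_lit 0) (XT.lf (nat_lit 0) (nat_lit 2366863887176) (nat_lit 152) (nat_lit 2161143389510) (nat_lit 76) (nat_lit 14477245305056) (nat_lit 8) (nat_lit 5) (nat_lit 10) (nat_lit 5) (nat_lit 9) (nat_lit 4) (nat_lit 328) (nat_lit 307) (nat_lit 145)) (XT.lf (nat_lit 0) (nat_lit 5975421690802) (nat_lit 76) (nat_lit 175891071002) (nat_lit 152) (nat_lit 15043805231078) (nat_lit 7) (nat_lit 5) (nat_lit 8) (nat_lit 5) (nat_lit 9) (nat_lit 4) (nat_lit 329) (nat_lit 307) (nat_lit 144))) (XT.nd (nat_lit 78) (nat_lit 76) (nat_lit 0) (XT.lf (nat_lit 0) (nat_lit 10821737650614) (nat_lit 152) (nat_lit 8326503131324) (nat_lit 0) (nat_lit 4517476131310) (nat_lit 7) (nat_lit 5) (nat_lit 9) (nat_lit 4) (nat_lit 7) (nat_lit 4) (nat_lit 330) (nat_lit 307) (nat_lit 143)) (XT.nd (nat_lit 78) (nat_lit 76) (nat_lit 0) (XT.lf (nat_lit 0) (nat_lit 16201102037883) (nat_lit 152) (nat_lit 407706750525)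 (nat_lit 0) (nat_lit 9896840518488) (nat_lit 7) (nat_lit 5) (nat_lit 9) (nat_lit 4) (nat_lit 7) (nat_lit 4) (nat_lit 331) (nat_lit 307) (nat_lit 142)) (XT.lf (nat_lit 0) (nat_lit 9549029747935) (nat_lit 76) (nat_lit 13233746293687) (nat_lit 76) (nat_lit 6929484774212) (nat_lit 6) (nat_lit 4) (nat_lit 7) (nat_lit 5) (nat_lit 7) (nat_lit 4) (nat_lit 332) (nat_lit 307) (nat_lit 141))))))) (XT.nd (nat_lit 39000) (nat_lit 0) (nat_lit 684) (XT.nd (nat_lit 390) (nat_lit 0) (nat_lit 0) (XT.nd (nat_lit 156) (nat_lit 76) (nat_lit 0) (XT.nd (nat_lit 78) (nat_lit 76) (nat_lit 0) (XT.lf (nat_lit 0) (nat_lit 21045097400048) (nat_lit 76) (nat_lit 9327915689531) (nat_lit 76) (nat_lit 3023654169987) (nat_lit 6) (nat_lit 4) (nat_lit 7) (nat_lit 5) (nat_lit 7) (nat_lit 4) (nat_lit 333) (nat_lit 307) (nat_lit 140)) (XT.lf (nat_lit 0) (nat_lit 1337354970788) (nat_lit 152) (nat_lit 3428948332408) (nat_lit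 76) (nat_lit 32858313037330) (nat_lit 5) (nat_lit 5) (nat_lit 7) (nat_lit 5) (nat_lit 6) (nat_lit 4) (nat_lit 334) (nat_lit 307) (nat_lit 139))) (XT.nd (nat_lit 78) (nat_lit 0) (nat_lit 0) (XT.lf (nat_lit 0) (nat_lit 6388144567173) (nat_lit 152) (nat_lit 35119058606617) (nat_lit 0) (nat_lit 906178028342) (nat_lit 4) (nat_lit 5) (nat_lit 6) (nat_lit 4) (nat_lit 4) (nat_lit 4) (nat_lit 335) (nat_lit 307) (nat_lit 138)) (XT.nd (nat_lit 78) (nat_lit 0) (nat_lit 0) (XT.lf (nat_lit 0) (nat_lit 12611295168896) (nat_lit 152) (nat_lit 28117625609175) (nat_lit 0) (nat_lit 7129328630025) (nat_lit 4) (nat_lit 5) (nat_lit 6) (nat_lit 4) (nat_lit 4) (nat_lit 4) (nat_lit 336) (nat_lit 307) (nat_lit 137)) (XT.lf (nat_lit 0) (nat_lit 19767918360796) (nat_lit 152) (nat_lit 20065977662281) (nat_lit 0) (nat_lit 14285951821891) (nat_lit 4) (nat_lit 5) (nat_lit 6) (nat_lit 4) (nat_lit 4) (nat_lit 4) (nat_lit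 337) (nat_lit 307) (nat_lit 136))))) (XT.nd (nat_lit 38376) (nat_lit 0) (nat_lit 1368) (XT.nd (nat_lit 38298) (nat_lit 0) (nat_lit 1368) (XT.lf (nat_lit 0) (nat_lit 27998035031409) (nat_lit 152) (nat_lit 10806582523498) (nat_lit 0) (nat_lit 22516068492474) (nat_lit 4) (nat_lit 5) (nat_lit 6) (nat_lit 4) (nat_lit 4) (nat_lit 4) (nat_lit 338) (nat_lit 307) (nat_lit 135)) (XT.lf (nat_lit 0) (nat_lit 269776031459) (nat_lit 380) (nat_lit 699032699531) (nat_lit 380) (nat_lit 699032699531) (nat_lit 22) (nat_lit 3) (nat_lit 27) (nat_lit 3) (nat_lit 27) (nat_lit 5) (nat_lit 308) (nat_lit 308) (nat_lit 164))) (XT.nd (nat_lit 78) (nat_lit 0) (nat_lit 76) (XT.lf (nat_lit 76) (nat_lit 176076123646) (nat_lit 0) (nat_lit 411233286126) (nat_lit 380) (nat_lit 2997456024510) (nat_lit 23) (nat_lit 5) (nat_lit 22) (nat_lit 3) (nat_lit 27) (nat_lit 5) (nat_lit 309) (nat_lit 308) (nat_lit 163)) (XT.nd (nat_lit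 78) (nat_lit 0) (nat_lit 0) (XT.lf (nat_lit 0) (nat_lit 774447749263) (nat_lit 304) (nat_lit 1775922629740) (nat_lit 380) (nat_lit 1301007405915) (nat_lit 23) (nat_lit 5) (nat_lit 27) (nat_lit 5) (nat_lit 28) (nat_lit 5) (nat_lit 310) (nat_lit 308) (nat_lit 162)) (XT.lf (nat_lit 76) (nat_lit 90207401899) (nat_lit 0) (nat_lit 922767270522) (nat_lit 380) (nat_lit 3141509640819) (nat_lit 24) (nat_lit 5) (nat_lit 23) (nat_lit 5) (nat_lit 28) (nat_lit 5) (nat_lit 311) (nat_lit 308) (nat_lit 161)))))) (XT.nd (nat_lit 390) (nat_lit 380) (nat_lit 0) (XT.nd (nat_lit 156) (nat_lit 152) (nat_lit 0) (XT.nd (nat_lit 78) (nat_lit 304) (nat_lit 0) (XT.lf (nat_lit 0) (nat_lit 1423828624282) (nat_lit 304) (nat_lit 2097001220629) (nat_lit 76) (nat_lit 961744777368) (nat_lit 24) (nat_lit 5) (nat_lit 28) (nat_lit 5) (nat_lit 25) (nat_lit 5) (nat_lit 312) (nat_lit 308) (nat_lit 160)) (XT.lf (nat_lit 0) (nat_lit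 133291012049) (nat_lit 304) (nat_lit 1812480251384) (nat_lit 380) (nat_lit 2906688125068) (nat_lit 20) (nat_lit 5) (nat_lit 24) (nat_lit 5) (nat_lit 25) (nat_lit 5) (nat_lit 313) (nat_lit 308) (nat_lit 159))) (XT.nd (nat_lit 78) (nat_lit 152) (nat_lit 0) (XT.lf (nat_lit 0) (nat_lit 2667140117553) (nat_lit 380) (nat_lit 2339101899871) (nat_lit 76) (nat_lit 253414629369) (nat_lit 20) (nat_lit 5) (nat_lit 25) (nat_lit 5) (nat_lit 21) (nat_lit 5) (nat_lit 314) (nat_lit 308) (nat_lit 158)) (XT.nd (nat_lit 78) (nat_lit 0) (nat_lit 0) (XT.lf (nat_lit 0) (nat_lit 342124228852) (nat_lit 152) (nat_lit 3255065288556) (nat_lit 228) (nat_lit 2115672693780) (nat_lit 18) (nat_lit 5) (nat_lit 20) (nat_lit 5) (nat_lit 21) (nat_lit 5) (nat_lit 315) (nat_lit 308) (nat_lit 157)) (XT.lf (nat_lit 0) (nat_lit 3688417432991) (nat_lit 152) (nat_lit 1100600129453) (nat_lit 228) (nat_lit 1426690362519) (nat_lit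 18) (nat_lit 5) (nat_lit 20) (nat_lit 5) (nat_lit 21) (nat_lit 5) (nat_lit 316) (nat_lit 308) (nat_lit 156))))) (XT.nd (nat_lit 156) (nat_lit 228) (nat_lit 0) (XT.nd (nat_lit 78) (nat_lit 76) (nat_lit 0) (XT.lf (nat_lit 0) (nat_lit 752661146706) (nat_lit 76) (nat_lit 5495144834826) (nat_lit 152) (nat_lit 532946589181) (nat_lit 17) (nat_lit 5) (nat_lit 18) (nat_lit 5) (nat_lit 19) (nat_lit 4) (nat_lit 317) (nat_lit 308) (nat_lit 155)) (XT.lf (nat_lit 0) (nat_lit 641611773011) (nat_lit 152) (nat_lit 2681290589619) (nat_lit 76) (nat_lit 4075956578241) (nat_lit 16) (nat_lit 5) (nat_lit 18) (nat_lit 5) (nat_lit 17) (nat_lit 5) (nat_lit 318) (nat_lit 308) (nat_lit 154))) (XT.nd (nat_lit 78) (nat_lit 76) (nat_lit 0) (XT.lf (nat_lit 0) (nat_lit 1253771356534) (nat_lit 152) (nat_lit 735934951480) (nat_lit 228) (nat_lit 6108380797513) (nat_lit 14) (nat_lit 5) (nat_lit 16) (nat_lit 5) (nat_lit 17)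 (nat_lit 5) (nat_lit 319) (nat_lit 308) (nat_lit 153)) (XT.nd (nat_lit 78) (nat_lit 76) (nat_lit 0) (XT.lf (nat_lit 0) (nat_lit 3779563030227) (nat_lit 228) (nat_lit 2900132281386) (nat_lit 76) (nat_lit 2186571982223) (nat_lit 14) (nat_lit 5) (nat_lit 17) (nat_lit 5) (nat_lit 15) (nat_lit 4) (nat_lit 320) (nat_lit 308) (nat_lit 152)) (XT.lf (nat_lit 0) (nat_lit 1757059797873) (nat_lit 76) (nat_lit 4188639083399) (nat_lit 152) (nat_lit 3787805536047) (nat_lit 13) (nat_lit 5) (nat_lit 14) (nat_lit 5) (nat_lit 15) (nat_lit 4) (nat_lit 321) (nat_lit 308) (nat_lit 151))))))))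
noncomputable def xc120 : XT := (XT.nd (nat_lit 39780) (nat_lit 0) (nat_lit 304) (XT.nd (nat_lit 702) (nat_lit 228) (nat_lit 0) (XT.nd (nat_lit 312) (nat_lit 228) (nat_lit 0) (XT.nd (nat_lit 156) (nat_lit 76) (nat_lit 0) (XT.nd (nat_lit 78) (nat_lit 152) (nat_lit 0) (XT.lf (nat_lit 0) (nat_lit 7438766009750) (nat_lit 76) (nat_lit 1149586923756) (nat_lit 152) (nat_lit 2119734502289) (nat_lit 13) (nat_lit 5) (nat_lit 14) (nat_lit 5) (nat_lit 15) (nat_lit 4) (nat_lit 322) (nat_lit 308) (nat_lit 150)) (XT.lf (nat_lit 0) (nat_lit 15685794627) (nat_lit 152) (nat_lit 9554269278645) (nat_lit 76) (nat_lit 2230273510646) (nat_lit 11) (nat_lit 5) (nat_lit 13) (nat_lit 5) (nat_lit 12) (nat_lit 4) (nat_lit 323) (nat_lit 308) (nat_lit 149))) (XT.nd (nat_lit 78) (nat_lit 76) (nat_lit 0) (XT.lf (nat_lit 0) (nat_lit 2488175201740) (nat_lit 152) (nat_lit 4238417053631) (nat_lit 76) (nat_lit 6279391212738)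 (nat_lit 11) (nat_lit 5) (nat_lit 13) (nat_lit 5) (nat_lit 12) (nat_lit 4) (nat_lit 324) (nat_lit 308) (nat_lit 148)) (XT.lf (nat_lit 0) (nat_lit 2058033366599) (nat_lit 76) (nat_lit 3358723426059) (nat_lit 152) (nat_lit 8963061976362) (nat_lit 10) (nat_lit 5) (nat_lit 11) (nat_lit 5) (nat_lit 12) (nat_lit 4) (nat_lit 325) (nat_lit 308) (nat_lit 147)))) (XT.nd (nat_lit 156) (nat_lit 152) (nat_lit 0) (XT.nd (nat_lit 78) (nat_lit 76) (nat_lit 0) (XT.lf (nat_lit 0) (nat_lit 9038026544626) (nat_lit 152) (nat_lit 6183051996433) (nat_lit 0) (nat_lit 700640685645) (nat_lit 10) (nat_lit 5) (nat_lit 12) (nat_lit 4) (nat_lit 10) (nat_lit 4) (nat_lit 326) (nat_lit 308) (nat_lit 146)) (XT.lf (nat_lit 0) (nat_lit 786578902553) (nat_lit 76) (nat_lit 12608417622398) (nat_lit 76) (nat_lit 4271031763257) (nat_lit 9) (nat_lit 4) (nat_lit 10) (nat_lit 5) (nat_lit 10) (nat_lit 4) (nat_lit 327) (nat_lit 308)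 (nat_lit 145))) (XT.nd (nat_lit 78) (nat_lit 152) (nat_lit 0) (XT.lf (nat_lit 0) (nat_lit 9496545166134) (nat_lit 76) (nat_lit 9232171826749) (nat_lit 76) (nat_lit 894785967469) (nat_lit 9) (nat_lit 4) (nat_lit 10) (nat_lit 5) (nat_lit 10) (nat_lit 4) (nat_lit 328) (nat_lit 308) (nat_lit 144)) (XT.nd (nat_lit 78) (nat_lit 76) (nat_lit 0) (XT.lf (nat_lit 0) (nat_lit 2721893471862) (nat_lit 152) (nat_lit 2485314894897) (nat_lit 76) (nat_lit 16648832102002) (nat_lit 8) (nat_lit 5) (nat_lit 10) (nat_lit 5) (nat_lit 9) (nat_lit 4) (nat_lit 329) (nat_lit 308) (nat_lit 143)) (XT.lf (nat_lit 0) (nat_lit 6871734947325) (nat_lit 76) (nat_lit 202274730270) (nat_lit 152) (nat_lit 17300376013991) (nat_lit 7) (nat_lit 5) (nat_lit 8) (nat_lit 5) (nat_lit 9) (nat_lit 4) (nat_lit 330) (nat_lit 308) (nat_lit 142)))))) (XT.nd (nat_lit 390) (nat_lit 76) (nat_lit 0) (XT.nd (nat_lit 156) (nat_lit 152) (nat_lit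 0) (XT.nd (nat_lit 78) (nat_lit 0) (nat_lit 0) (XT.lf (nat_lit 0) (nat_lit 12444998299577) (nat_lit 152) (nat_lit 9575478598349) (nat_lit 0) (nat_lit 5195097552101) (nat_lit 7) (nat_lit 5) (nat_lit 9) (nat_lit 4) (nat_lit 7) (nat_lit 4) (nat_lit 331) (nat_lit 308) (nat_lit 141)) (XT.lf (nat_lit 0) (nat_lit 18631267344758) (nat_lit 152) (nat_lit 468862760779) (nat_lit 0) (nat_lit 11381366597213) (nat_lit 7) (nat_lit 5) (nat_lit 9) (nat_lit 4) (nat_lit 7) (nat_lit 4) (nat_lit 332) (nat_lit 308) (nat_lit 140))) (XT.nd (nat_lit 78) (nat_lit 76) (nat_lit 0) (XT.lf (nat_lit 0) (nat_lit 10981384212344) (nat_lit 76) (nat_lit 15218808236650) (nat_lit 76) (nat_lit 7968907489045) (nat_lit 6) (nat_lit 4) (nat_lit 7) (nat_lit 5) (nat_lit 7) (nat_lit 4) (nat_lit 333) (nat_lit 308) (nat_lit 139)) (XT.nd (nat_lit 78) (nat_lit 76) (nat_lit 0) (XT.lf (nat_lit 0) (nat_lit 24201862011985) (nat_lit 76) (nat_lit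 10727103042012) (nat_lit 76) (nat_lit 3477202294355) (nat_lit 6) (nat_lit 4) (nat_lit 7) (nat_lit 5) (nat_lit 7) (nat_lit 4) (nat_lit 334) (nat_lit 308) (nat_lit 138)) (XT.lf (nat_lit 0) (nat_lit 1537958217301) (nat_lit 152) (nat_lit 3943290580503) (nat_lit 76) (nat_lit 37787059993665) (nat_lit 5) (nat_lit 5) (nat_lit 7) (nat_lit 5) (nat_lit 6) (nat_lit 4) (nat_lit 335) (nat_lit 308) (nat_lit 137))))) (XT.nd (nat_lit 156) (nat_lit 0) (nat_lit 0) (XT.nd (nat_lit 78) (nat_lit 0) (nat_lit 0) (XT.lf (nat_lit 0) (nat_lit 7346366253132) (nat_lit 152) (nat_lit 40386917395831) (nat_lit 0) (nat_lit 1042104733356) (nat_lit 4) (nat_lit 5) (nat_lit 6) (nat_lit 4) (nat_lit 4) (nat_lit 4) (nat_lit 336) (nat_lit 308) (nat_lit 136)) (XT.lf (nat_lit 0) (nat_lit 14502989444998) (nat_lit 152) (nat_lit 32335269449004) (nat_lit 0) (nat_lit 8198727925193) (nat_lit 4) (nat_lit 5) (nat_lit 6) (nat_lit 4) (nat_lit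 4) (nat_lit 4) (nat_lit 337) (nat_lit 308) (nat_lit 135))) (XT.nd (nat_lit 38376) (nat_lit 0) (nat_lit 1368) (XT.lf (nat_lit 0) (nat_lit 22733106115583) (nat_lit 152) (nat_lit 23075874310278) (nat_lit 0) (nat_lit 16428844595752) (nat_lit 4) (nat_lit 5) (nat_lit 6) (nat_lit 4) (nat_lit 4) (nat_lit 4) (nat_lit 338) (nat_lit 308) (nat_lit 134)) (XT.nd (nat_lit 78) (nat_lit 0) (nat_lit 0) (XT.lf (nat_lit 0) (nat_lit 310242441295) (nat_lit 380) (nat_lit 803887601509) (nat_lit 380) (nat_lit 803887601509) (nat_lit 22) (nat_lit 3) (nat_lit 27) (nat_lit 3) (nat_lit 27) (nat_lit 5) (nat_lit 309) (nat_lit 309) (nat_lit 162)) (XT.lf (nat_lit 76) (nat_lit 202487547829) (nat_lit 0) (nat_lit 472918282542) (nat_lit 380) (nat_lit 3447074417650) (nat_lit 23) (nat_lit 5) (nat_lit 22) (nat_lit 3) (nat_lit 27) (nat_lit 5) (nat_lit 310) (nat_lit 309) (nat_lit 161))))))) (XT.nd (nat_lit 780) (nat_lit 456) (nat_lit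 0) (XT.nd (nat_lit 390) (nat_lit 456) (nat_lit 0) (XT.nd (nat_lit 156) (nat_lit 228) (nat_lit 0) (XT.nd (nat_lit 78) (nat_lit 0) (nat_lit 0) (XT.lf (nat_lit 0) (nat_lit 890614919468) (nat_lit 304) (nat_lit 2042311017954) (nat_lit 380) (nat_lit 1496158514032) (nat_lit 23) (nat_lit 5) (nat_lit 27) (nat_lit 5) (nat_lit 28) (nat_lit 5) (nat_lit 311) (nat_lit 309) (nat_lit 160)) (XT.lf (nat_lit 76) (nat_lit 103738518148) (nat_lit 0) (nat_lit 1061182362180) (nat_lit 380) (nat_lit 3612736078817) (nat_lit 24) (nat_lit 5) (nat_lit 23) (nat_lit 5) (nat_lit 28) (nat_lit 5) (nat_lit 312) (nat_lit 309) (nat_lit 159))) (XT.nd (nat_lit 78) (nat_lit 304) (nat_lit 0) (XT.lf (nat_lit 0) (nat_lit 1637402924010) (nat_lit 304) (nat_lit 2411551397558) (nat_lit 76) (nat_lit 1106006493118) (nat_lit 24) (nat_lit 5) (nat_lit 28) (nat_lit 5) (nat_lit 25) (nat_lit 5) (nat_lit 313) (nat_lit 309) (nat_lit 158)) (XT.nd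 (nat_lit 78) (nat_lit 0) (nat_lit 0) (XT.lf (nat_lit 0) (nat_lit 153284669742) (nat_lit 304) (nat_lit 2084352288742) (nat_lit 380) (nat_lit 3342691337442) (nat_lit 20) (nat_lit 5) (nat_lit 24) (nat_lit 5) (nat_lit 25) (nat_lit 5) (nat_lit 314) (nat_lit 309) (nat_lit 157)) (XT.lf (nat_lit 0) (nat_lit 3067211140012) (nat_lit 380) (nat_lit 2689967179008) (nat_lit 76) (nat_lit 291426824051) (nat_lit 20) (nat_lit 5) (nat_lit 25) (nat_lit 5) (nat_lit 21) (nat_lit 5) (nat_lit 315) (nat_lit 309) (nat_lit 156))))) (XT.nd (nat_lit 156) (nat_lit 304) (nat_lit 0) (XT.nd (nat_lit 78) (nat_lit 0) (nat_lit 0) (XT.lf (nat_lit 0) (nat_lit 393442868759) (nat_lit 152) (nat_lit 3743325080689) (nat_lit 228) (nat_lit 2433023592740) (nat_lit 18) (nat_lit 5) (nat_lit 20) (nat_lit 5) (nat_lit 21) (nat_lit 5) (nat_lit 316) (nat_lit 309) (nat_lit 155)) (XT.lf (nat_lit 0) (nat_lit 4241680052791) (nat_lit 152) (nat_lit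 1265690147871) (nat_lit 228) (nat_lit 1640693912456) (nat_lit 18) (nat_lit 5) (nat_lit 20) (nat_lit 5) (nat_lit 21) (nat_lit 5) (nat_lit 317) (nat_lit 309) (nat_lit 154))) (XT.nd (nat_lit 78) (nat_lit 228) (nat_lit 0) (XT.lf (nat_lit 0) (nat_lit 865560323866) (nat_lit 76) (nat_lit 6319416558493) (nat_lit 152) (nat_lit 612888573409) (nat_lit 17) (nat_lit 5) (nat_lit 18) (nat_lit 5) (nat_lit 19) (nat_lit 4) (nat_lit 318) (nat_lit 309) (nat_lit 153)) (XT.nd (nat_lit 78) (nat_lit 152) (nat_lit 0) (XT.lf (nat_lit 0) (nat_lit 737853542249) (nat_lit 152) (nat_lit 3083484173251) (nat_lit 76) (nat_lit 4687350066001) (nat_lit 16) (nat_lit 5) (nat_lit 18) (nat_lit 5) (nat_lit 17) (nat_lit 5) (nat_lit 319) (nat_lit 309) (nat_lit 152)) (XT.lf (nat_lit 0) (nat_lit 1441837064607) (nat_lit 152) (nat_lit 846325192656) (nat_lit 228) (nat_lit 7024637913628) (nat_lit 14) (nat_lit 5) (nat_lit 16) (nat_lit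 5) (nat_lit 17) (nat_lit 5) (nat_lit 320) (nat_lit 309) (nat_lit 151)))))) (XT.nd (nat_lit 390) (nat_lit 228) (nat_lit 0) (XT.nd (nat_lit 156) (nat_lit 152) (nat_lit 0) (XT.nd (nat_lit 78) (nat_lit 76) (nat_lit 0) (XT.lf (nat_lit 0) (nat_lit 4346497487467) (nat_lit 228) (nat_lit 3335152119252) (nat_lit 76) (nat_lit 2514557780781) (nat_lit 14) (nat_lit 5) (nat_lit 17) (nat_lit 5) (nat_lit 15) (nat_lit 4) (nat_lit 321) (nat_lit 309) (nat_lit 150)) (XT.lf (nat_lit 0) (nat_lit 2020618771699) (nat_lit 76) (nat_lit 4816934944289) (nat_lit 152) (nat_lit 4355976363545) (nat_lit 13) (nat_lit 5) (nat_lit 14) (nat_lit 5) (nat_lit 15) (nat_lit 4) (nat_lit 322) (nat_lit 309) (nat_lit 149))) (XT.nd (nat_lit 78) (nat_lit 152) (nat_lit 0) (XT.lf (nat_lit 0) (nat_lit 8554580914816) (nat_lit 76) (nat_lit 1322024960911) (nat_lit 152) (nat_lit 2437694675104) (nat_lit 13) (nat_lit 5) (nat_lit 14) (nat_lit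 5) (nat_lit 15) (nat_lit 4) (nat_lit 323) (nat_lit 309) (nat_lit 148)) (XT.nd (nat_lit 78) (nat_lit 0) (nat_lit 0) (XT.lf (nat_lit 0) (nat_lit 18038666039) (nat_lit 152) (nat_lit 10987409666518) (nat_lit 76) (nat_lit 2564814538613) (nat_lit 11) (nat_lit 5) (nat_lit 13) (nat_lit 5) (nat_lit 12) (nat_lit 4) (nat_lit 324) (nat_lit 309) (nat_lit 147)) (XT.lf (nat_lit 0) (nat_lit 2861401483929) (nat_lit 152) (nat_lit 4874179608264) (nat_lit 76) (nat_lit 7221299895840) (nat_lit 11) (nat_lit 5) (nat_lit 13) (nat_lit 5) (nat_lit 12) (nat_lit 4) (nat_lit 325) (nat_lit 309) (nat_lit 146))))) (XT.nd (nat_lit 156) (nat_lit 152) (nat_lit 0) (XT.nd (nat_lit 78) (nat_lit 0) (nat_lit 0) (XT.lf (nat_lit 0) (nat_lit 2366738374845) (nat_lit 76) (nat_lit 3862531938523) (nat_lit 152) (nat_lit 10307521270730) (nat_lit 10) (nat_lit 5) (nat_lit 11) (nat_lit 5) (nat_lit 12) (nat_lit 4) (nat_lit 326) (nat_lit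 309) (nat_lit 145)) (XT.lf (nat_lit 0) (nat_lit 10393730527947) (nat_lit 152) (nat_lit 7110509792880) (nat_lit 0) (nat_lit 805736789636) (nat_lit 10) (nat_lit 5) (nat_lit 12) (nat_lit 4) (nat_lit 10) (nat_lit 4) (nat_lit 327) (nat_lit 309) (nat_lit 144))) (XT.nd (nat_lit 78) (nat_lit 76) (nat_lit 0) (XT.lf (nat_lit 0) (nat_lit 904565740817) (nat_lit 76) (nat_lit 14499680264410) (nat_lit 76) (nat_lit 4911686525979) (nat_lit 9) (nat_lit 4) (nat_lit 10) (nat_lit 5) (nat_lit 10) (nat_lit 4) (nat_lit 328) (nat_lit 309) (nat_lit 143)) (XT.nd (nat_lit 78) (nat_lit 76) (nat_lit 0) (XT.lf (nat_lit 0) (nat_lit 10921026943559) (nat_lit 76) (nat_lit 10616997599590) (nat_lit 76) (nat_lit 1029003861054) (nat_lit 9) (nat_lit 4) (nat_lit 10) (nat_lit 5) (nat_lit 10) (nat_lit 4) (nat_lit 329) (nat_lit 309) (nat_lit 142)) (XT.lf (nat_lit 0) (nat_lit 3130177493858) (nat_lit 152) (nat_lit 2858112126832)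 (nat_lit 76) (nat_lit 19146156918201) (nat_lit 8) (nat_lit 5) (nat_lit 10) (nat_lit 5) (nat_lit 9) (nat_lit 4) (nat_lit 330) (nat_lit 309) (nat_lit 141))))))))
noncomputable def xc121 : XT := (XT.nd (nat_lit 39858) (nat_lit 0) (nat_lit 76) (XT.nd (nat_lit 39078) (nat_lit 0) (nat_lit 912) (XT.nd (nat_lit 312) (nat_lit 152) (nat_lit 0) (XT.nd (nat_lit 156) (nat_lit 76) (nat_lit 0) (XT.nd (nat_lit 78) (nat_lit 0) (nat_lit 0) (XT.lf (nat_lit 0) (nat_lit 7902495191618) (nat_lit 76) (nat_lit 232615938765) (nat_lit 152) (nat_lit 19895432414768) (nat_lit 7) (nat_lit 5) (nat_lit 8) (nat_lit 5) (nat_lit 9) (nat_lit 4) (nat_lit 331) (nat_lit 309) (nat_lit 140)) (XT.lf (nat_lit 0) (nat_lit 14311748045550) (nat_lit 152) (nat_lit 11011800386080) (nat_lit 0) (nat_lit 5974362185745) (nat_lit 7) (nat_lit 5) (nat_lit 9) (nat_lit 4) (nat_lit 7) (nat_lit 4) (nat_lit 332) (nat_lit 309) (nat_lit 139))) (XT.nd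 (nat_lit 78) (nat_lit 76) (nat_lit 0) (XT.lf (nat_lit 0) (nat_lit 21425957447373) (nat_lit 152) (nat_lit 539192173138) (nat_lit 0) (nat_lit 13088571587516) (nat_lit 7) (nat_lit 5) (nat_lit 9) (nat_lit 4) (nat_lit 7) (nat_lit 4) (nat_lit 333) (nat_lit 309) (nat_lit 138)) (XT.lf (nat_lit 0) (nat_lit 12628591845873) (nat_lit 76) (nat_lit 17501629471323) (nat_lit 76) (nat_lit 9164243611420) (nat_lit 6) (nat_lit 4) (nat_lit 7) (nat_lit 5) (nat_lit 7) (nat_lit 4) (nat_lit 334) (nat_lit 309) (nat_lit 137)))) (XT.nd (nat_lit 156) (nat_lit 76) (nat_lit 0) (XT.nd (nat_lit 78) (nat_lit 76) (nat_lit 0) (XT.lf (nat_lit 0) (nat_lit 27832141315242) (nat_lit 76) (nat_lit 12336168497597) (nat_lit 76) (nat_lit 3998782637654) (nat_lit 6) (nat_lit 4) (nat_lit 7) (nat_lit 5) (nat_lit 7) (nat_lit 4) (nat_lit 335) (nat_lit 309) (nat_lit 136)) (XT.lf (nat_lit 0) (nat_lit 1768651950573) (nat_lit 152) (nat_lit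 4534784166244) (nat_lit 76) (nat_lit 43455118993272) (nat_lit 5) (nat_lit 5) (nat_lit 7) (nat_lit 5) (nat_lit 6) (nat_lit 4) (nat_lit 336) (nat_lit 309) (nat_lit 135))) (XT.nd (nat_lit 78) (nat_lit 0) (nat_lit 0) (XT.lf (nat_lit 0) (nat_lit 8448321191769) (nat_lit 152) (nat_lit 46444955003860) (nat_lit 0) (nat_lit 1198420443937) (nat_lit 4) (nat_lit 5) (nat_lit 6) (nat_lit 4) (nat_lit 4) (nat_lit 4) (nat_lit 337) (nat_lit 309) (nat_lit 134)) (XT.nd (nat_lit 38454) (nat_lit 0) (nat_lit 1368) (XT.lf (nat_lit 0) (nat_lit 16678437862328) (nat_lit 152) (nat_lit 37185559865185) (nat_lit 0) (nat_lit 9428537114474) (nat_lit 4) (nat_lit 5) (nat_lit 6) (nat_lit 4) (nat_lit 4) (nat_lit 4) (nat_lit 338) (nat_lit 309) (nat_lit 133)) (XT.lf (nat_lit 0) (nat_lit 356778811359) (nat_lit 380) (nat_lit 924470739503) (nat_lit 380) (nat_lit 924470739503) (nat_lit 22) (nat_lit 3) (nat_lit 27) (nat_lit 3) (nat_lit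 27) (nat_lit 5) (nat_lit 310) (nat_lit 310) (nat_lit 160)))))) (XT.nd (nat_lit 390) (nat_lit 304) (nat_lit 0) (XT.nd (nat_lit 156) (nat_lit 152) (nat_lit 0) (XT.nd (nat_lit 78) (nat_lit 0) (nat_lit 76) (XT.lf (nat_lit 76) (nat_lit 232860684265) (nat_lit 0) (nat_lit 543856027567) (nat_lit 380) (nat_lit 3964135572329) (nat_lit 23) (nat_lit 5) (nat_lit 22) (nat_lit 3) (nat_lit 27) (nat_lit 5) (nat_lit 311) (nat_lit 310) (nat_lit 159)) (XT.lf (nat_lit 0) (nat_lit 1024207163298) (nat_lit 304) (nat_lit 2348657665923) (nat_lit 380) (nat_lit 1720582289042) (nat_lit 23) (nat_lit 5) (nat_lit 27) (nat_lit 5) (nat_lit 28) (nat_lit 5) (nat_lit 312) (nat_lit 310) (nat_lit 158))) (XT.nd (nat_lit 78) (nat_lit 228) (nat_lit 0) (XT.lf (nat_lit 76) (nat_lit 119299300379) (nat_lit 0) (nat_lit 1220359717324) (nat_lit 380) (nat_lit 4154646484495) (nat_lit 24) (nat_lit 5) (nat_lit 23) (nat_lit 5) (nat_lit 28)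 (nat_lit 5) (nat_lit 313) (nat_lit 310) (nat_lit 157)) (XT.nd (nat_lit 78) (nat_lit 304) (nat_lit 0) (XT.lf (nat_lit 0) (nat_lit 1883013367214) (nat_lit 304) (nat_lit 2773284102530) (nat_lit 76) (nat_lit 1271907466439) (nat_lit 24) (nat_lit 5) (nat_lit 28) (nat_lit 5) (nat_lit 25) (nat_lit 5) (nat_lit 314) (nat_lit 310) (nat_lit 156)) (XT.lf (nat_lit 0) (nat_lit 176277374654) (nat_lit 304) (nat_lit 2397005131789) (nat_lit 380) (nat_lit 3844095033230) (nat_lit 20) (nat_lit 5) (nat_lit 24) (nat_lit 5) (nat_lit 25) (nat_lit 5) (nat_lit 315) (nat_lit 310) (nat_lit 155))))) (XT.nd (nat_lit 156) (nat_lit 152) (nat_lit 0) (XT.nd (nat_lit 78) (nat_lit 152) (nat_lit 0) (XT.lf (nat_lit 0) (nat_lit 3527292814663) (nat_lit 380) (nat_lit 3093462251440) (nat_lit 76) (nat_lit 335140847868) (nat_lit 20) (nat_lit 5) (nat_lit 25) (nat_lit 5) (nat_lit 21) (nat_lit 5) (nat_lit 316) (nat_lit 310) (nat_lit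 154)) (XT.lf (nat_lit 0) (nat_lit 452459303290) (nat_lit 152) (nat_lit 4304823841922) (nat_lit 228) (nat_lit 2797977127790) (nat_lit 18) (nat_lit 5) (nat_lit 20) (nat_lit 5) (nat_lit 21) (nat_lit 5) (nat_lit 317) (nat_lit 310) (nat_lit 153))) (XT.nd (nat_lit 78) (nat_lit 152) (nat_lit 0) (XT.lf (nat_lit 0) (nat_lit 4877932064377) (nat_lit 152) (nat_lit 1455543669295) (nat_lit 228) (nat_lit 1886797995967) (nat_lit 18) (nat_lit 5) (nat_lit 20) (nat_lit 5) (nat_lit 21) (nat_lit 5) (nat_lit 318) (nat_lit 310) (nat_lit 152)) (XT.nd (nat_lit 78) (nat_lit 76) (nat_lit 0) (XT.lf (nat_lit 0) (nat_lit 995394376343) (nat_lit 76) (nat_lit 7267329041090) (nat_lit 152) (nat_lit 704821856284) (nat_lit 17) (nat_lit 5) (nat_lit 18) (nat_lit 5) (nat_lit 19) (nat_lit 4) (nat_lit 319) (nat_lit 310) (nat_lit 151)) (XT.lf (nat_lit 0) (nat_lit 848531576071) (nat_lit 152) (nat_lit 3546006795600) (nat_lit 76)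 (nat_lit 5390452576676) (nat_lit 16) (nat_lit 5) (nat_lit 18) (nat_lit 5) (nat_lit 17) (nat_lit 5) (nat_lit 320) (nat_lit 310) (nat_lit 150))))))) (XT.nd (nat_lit 780) (nat_lit 304) (nat_lit 0) (XT.nd (nat_lit 390) (nat_lit 152) (nat_lit 0) (XT.nd (nat_lit 156) (nat_lit 228) (nat_lit 0) (XT.nd (nat_lit 78) (nat_lit 0) (nat_lit 0) (XT.lf (nat_lit 0) (nat_lit 1658112627771) (nat_lit 152) (nat_lit 973273970387) (nat_lit 228) (nat_lit 8078333598017) (nat_lit 14) (nat_lit 5) (nat_lit 16) (nat_lit 5) (nat_lit 17) (nat_lit 5) (nat_lit 321) (nat_lit 310) (nat_lit 149)) (XT.lf (nat_lit 0) (nat_lit 4998472112633) (nat_lit 228) (nat_lit 3835424933857) (nat_lit 76) (nat_lit 2891741448824) (nat_lit 14) (nat_lit 5) (nat_lit 17) (nat_lit 5) (nat_lit 15) (nat_lit 4) (nat_lit 322) (nat_lit 310) (nat_lit 148))) (XT.nd (nat_lit 78) (nat_lit 152) (nat_lit 0) (XT.lf (nat_lit 0) (nat_lit 2323711590588) (nat_lit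 76) (nat_lit 5539475184708) (nat_lit 152) (nat_lit 5009372815878) (nat_lit 13) (nat_lit 5) (nat_lit 14) (nat_lit 5) (nat_lit 15) (nat_lit 4) (nat_lit 323) (nat_lit 310) (nat_lit 147)) (XT.nd (nat_lit 78) (nat_lit 152) (nat_lit 0) (XT.lf (nat_lit 0) (nat_lit 9837768054764) (nat_lit 76) (nat_lit 1520328703982) (nat_lit 152) (nat_lit 2803348874457) (nat_lit 13) (nat_lit 5) (nat_lit 14) (nat_lit 5) (nat_lit 15) (nat_lit 4) (nat_lit 324) (nat_lit 310) (nat_lit 146)) (XT.lf (nat_lit 0) (nat_lit 20744467621) (nat_lit 152) (nat_lit 12635521113529) (nat_lit 76) (nat_lit 2949536720441) (nat_lit 11) (nat_lit 5) (nat_lit 13) (nat_lit 5) (nat_lit 12) (nat_lit 4) (nat_lit 325) (nat_lit 310) (nat_lit 145))))) (XT.nd (nat_lit 156) (nat_lit 76) (nat_lit 0) (XT.nd (nat_lit 78) (nat_lit 76) (nat_lit 0) (XT.lf (nat_lit 0) (nat_lit 3290611707977) (nat_lit 152) (nat_lit 5605306546924) (nat_lit 76) (nat_lit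 8304494881117) (nat_lit 11) (nat_lit 5) (nat_lit 13) (nat_lit 5) (nat_lit 12) (nat_lit 4) (nat_lit 326) (nat_lit 310) (nat_lit 144)) (XT.lf (nat_lit 0) (nat_lit 2721749133534) (nat_lit 76) (nat_lit 4441911728208) (nat_lit 152) (nat_lit 11853649459762) (nat_lit 10) (nat_lit 5) (nat_lit 11) (nat_lit 5) (nat_lit 12) (nat_lit 4) (nat_lit 327) (nat_lit 310) (nat_lit 143))) (XT.nd (nat_lit 78) (nat_lit 76) (nat_lit 0) (XT.lf (nat_lit 0) (nat_lit 11952790108370) (nat_lit 152) (nat_lit 8177086259529) (nat_lit 0) (nat_lit 926597308948) (nat_lit 10) (nat_lit 5) (nat_lit 12) (nat_lit 4) (nat_lit 10) (nat_lit 4) (nat_lit 328) (nat_lit 310) (nat_lit 142)) (XT.nd (nat_lit 78) (nat_lit 0) (nat_lit 0) (XT.lf (nat_lit 0) (nat_lit 1040250604118) (nat_lit 76) (nat_lit 16674632303053) (nat_lit 76) (nat_lit 5648439503540) (nat_lit 9) (nat_lit 4) (nat_lit 10) (nat_lit 5) (nat_lit 10) (nat_lit 4) (nat_lit 329)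 (nat_lit 310) (nat_lit 141)) (XT.lf (nat_lit 0) (nat_lit 12559180986988) (nat_lit 76) (nat_lit 12209547238643) (nat_lit 76) (nat_lit 1183354439051) (nat_lit 9) (nat_lit 4) (nat_lit 10) (nat_lit 5) (nat_lit 10) (nat_lit 4) (nat_lit 330) (nat_lit 310) (nat_lit 140)))))) (XT.nd (nat_lit 390) (nat_lit 76) (nat_lit 0) (XT.nd (nat_lit 156) (nat_lit 76) (nat_lit 0) (XT.nd (nat_lit 78) (nat_lit 76) (nat_lit 0) (XT.lf (nat_lit 0) (nat_lit 3599704118856) (nat_lit 152) (nat_lit 3286828944119) (nat_lit 76) (nat_lit 22018080456610) (nat_lit 8) (nat_lit 5) (nat_lit 10) (nat_lit 5) (nat_lit 9) (nat_lit 4) (nat_lit 331) (nat_lit 310) (nat_lit 139)) (XT.lf (nat_lit 0) (nat_lit 9087869472020) (nat_lit 76) (nat_lit 267508328789) (nat_lit 152) (nat_lit 22879747275983) (nat_lit 7) (nat_lit 5) (nat_lit 8) (nat_lit 5) (nat_lit 9) (nat_lit 4) (nat_lit 332) (nat_lit 310) (nat_lit 138))) (XT.nd (nat_lit 78) (nat_lit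 76) (nat_lit 0) (XT.lf (nat_lit 0) (nat_lit 16458510253167) (nat_lit 152) (nat_lit 12663570442464) (nat_lit 0) (nat_lit 6870516514233) (nat_lit 7) (nat_lit 5) (nat_lit 9) (nat_lit 4) (nat_lit 7) (nat_lit 4) (nat_lit 333) (nat_lit 310) (nat_lit 137)) (XT.nd (nat_lit 78) (nat_lit 76) (nat_lit 0) (XT.lf (nat_lit 0) (nat_lit 24639851065161) (nat_lit 152) (nat_lit 620070997779) (nat_lit 0) (nat_lit 15051857326188) (nat_lit 7) (nat_lit 5) (nat_lit 9) (nat_lit 4) (nat_lit 7) (nat_lit 4) (nat_lit 334) (nat_lit 310) (nat_lit 136)) (XT.lf (nat_lit 0) (nat_lit 14522880624023) (nat_lit 76) (nat_lit 20126873891398) (nat_lit 76) (nat_lit 10538880152390) (nat_lit 6) (nat_lit 4) (nat_lit 7) (nat_lit 5) (nat_lit 7) (nat_lit 4) (nat_lit 335) (nat_lit 310) (nat_lit 135))))) (XT.nd (nat_lit 38688) (nat_lit 0) (nat_lit 1292) (XT.nd (nat_lit 78) (nat_lit 76) (nat_lit 0) (XT.lf (nat_lit 0) (nat_lit 32006962513632)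 (nat_lit 76) (nat_lit 14186593771694) (nat_lit 76) (nat_lit 4598600032657) (nat_lit 6) (nat_lit 4) (nat_lit 7) (nat_lit 5) (nat_lit 7) (nat_lit 4) (nat_lit 336) (nat_lit 310) (nat_lit 134)) (XT.lf (nat_lit 0) (nat_lit 2033949743670) (nat_lit 152) (nat_lit 5215001790171) (nat_lit 76) (nat_lit 49973386842684) (nat_lit 5) (nat_lit 5) (nat_lit 7) (nat_lit 5) (nat_lit 6) (nat_lit 4) (nat_lit 337) (nat_lit 310) (nat_lit 133))) (XT.nd (nat_lit 78) (nat_lit 0) (nat_lit 0) (XT.lf (nat_lit 0) (nat_lit 410295635988) (nat_lit 380) (nat_lit 1063141348740) (nat_lit 380) (nat_lit 1063141348740) (nat_lit 22) (nat_lit 3) (nat_lit 27) (nat_lit 3) (nat_lit 27) (nat_lit 5) (nat_lit 311) (nat_lit 311) (nat_lit 158)) (XT.nd (nat_lit 78) (nat_lit 0) (nat_lit 76) (XT.lf (nat_lit 76) (nat_lit 267789790127) (nat_lit 0) (nat_lit 625434433702) (nat_lit 380) (nat_lit 4558755902154) (nat_lit 23) (nat_lit 5) (nat_lit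 22) (nat_lit 3) (nat_lit 27) (nat_lit 5) (nat_lit 312) (nat_lit 311) (nat_lit 157)) (XT.lf (nat_lit 0) (nat_lit 1177838242262) (nat_lit 304) (nat_lit 2700956312239) (nat_lit 380) (nat_lit 1978669630814) (nat_lit 23) (nat_lit 5) (nat_lit 27) (nat_lit 5) (nat_lit 28) (nat_lit 5) (nat_lit 313) (nat_lit 311) (nat_lit 156))))))))
noncomputable def xc122 : XT := (XT.nd (nat_lit 1482) (nat_lit 152) (nat_lit 0) (XT.nd (nat_lit 702) (nat_lit 456) (nat_lit 0) (XT.nd (nat_lit 312) (nat_lit 456) (nat_lit 0) (XT.nd (nat_lit 156) (nat_lit 228) (nat_lit 0) (XT.nd (nat_lit 78) (nat_lit 0) (nat_lit 76) (XT.lf (nat_lit 76) (nat_lit 137194198846) (nat_lit 0) (nat_lit 1403413675540) (nat_lit 380) (nat_lit 4777843452523) (nat_lit 24) (nat_lit 5) (nat_lit 23) (nat_lit 5) (nat_lit 28) (nat_lit 5) (nat_lit 314) (nat_lit 311) (nat_lit 155)) (XT.lf (nat_lit 0) (nat_lit 2165465375776) (nat_lit 304) (nat_lit 3189276714384)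 (nat_lit 76) (nat_lit 1462693585916) (nat_lit 24) (nat_lit 5) (nat_lit 28) (nat_lit 5) (nat_lit 25) (nat_lit 5) (nat_lit 315) (nat_lit 311) (nat_lit 154))) (XT.nd (nat_lit 78) (nat_lit 0) (nat_lit 0) (XT.lf (nat_lit 0) (nat_lit 202718984217) (nat_lit 304) (nat_lit 2756555901357) (nat_lit 380) (nat_lit 4420709284564) (nat_lit 20) (nat_lit 5) (nat_lit 24) (nat_lit 5) (nat_lit 25) (nat_lit 5) (nat_lit 316) (nat_lit 311) (nat_lit 153)) (XT.lf (nat_lit 0) (nat_lit 4056386739622) (nat_lit 380) (nat_lit 3557481585815) (nat_lit 76) (nat_lit 385411975207) (nat_lit 20) (nat_lit 5) (nat_lit 25) (nat_lit 5) (nat_lit 21) (nat_lit 5) (nat_lit 317) (nat_lit 311) (nat_lit 152)))) (XT.nd (nat_lit 156) (nat_lit 304) (nat_lit 0) (XT.nd (nat_lit 78) (nat_lit 0) (nat_lit 0) (XT.lf (nat_lit 0) (nat_lit 520328201974) (nat_lit 152) (nat_lit 4950547417552) (nat_lit 228) (nat_lit 3217673694039) (nat_lit 18) (nat_lit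 5) (nat_lit 20) (nat_lit 5) (nat_lit 21) (nat_lit 5) (nat_lit 318) (nat_lit 311) (nat_lit 151)) (XT.lf (nat_lit 0) (nat_lit 5609621876807) (nat_lit 152) (nat_lit 1673875219117) (nat_lit 228) (nat_lit 2169817692823) (nat_lit 18) (nat_lit 5) (nat_lit 20) (nat_lit 5) (nat_lit 21) (nat_lit 5) (nat_lit 319) (nat_lit 311) (nat_lit 150))) (XT.nd (nat_lit 78) (nat_lit 228) (nat_lit 0) (XT.lf (nat_lit 0) (nat_lit 1144703535741) (nat_lit 76) (nat_lit 8357428396364) (nat_lit 152) (nat_lit 810545132355) (nat_lit 17) (nat_lit 5) (nat_lit 18) (nat_lit 5) (nat_lit 19) (nat_lit 4) (nat_lit 320) (nat_lit 311) (nat_lit 149)) (XT.nd (nat_lit 78) (nat_lit 152) (nat_lit 0) (XT.lf (nat_lit 0) (nat_lit 975811314361) (nat_lit 152) (nat_lit 4077907812189) (nat_lit 76) (nat_lit 6199020463763) (nat_lit 16) (nat_lit 5) (nat_lit 18) (nat_lit 5) (nat_lit 17) (nat_lit 5) (nat_lit 321) (nat_lit 311) (nat_lit 148)) (XT.lf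 (nat_lit 0) (nat_lit 1906829524562) (nat_lit 152) (nat_lit 1119265065061) (nat_lit 228) (nat_lit 9290083635711) (nat_lit 14) (nat_lit 5) (nat_lit 16) (nat_lit 5) (nat_lit 17) (nat_lit 5) (nat_lit 322) (nat_lit 311) (nat_lit 147)))))) (XT.nd (nat_lit 390) (nat_lit 228) (nat_lit 0) (XT.nd (nat_lit 156) (nat_lit 152) (nat_lit 0) (XT.nd (nat_lit 78) (nat_lit 76) (nat_lit 0) (XT.lf (nat_lit 0) (nat_lit 5748242931075) (nat_lit 228) (nat_lit 4410738671453) (nat_lit 76) (nat_lit 3325502666847) (nat_lit 14) (nat_lit 5) (nat_lit 17) (nat_lit 5) (nat_lit 15) (nat_lit 4) (nat_lit 323) (nat_lit 311) (nat_lit 146)) (XT.lf (nat_lit 0) (nat_lit 2672268331545) (nat_lit 76) (nat_lit 6370396461488) (nat_lit 152) (nat_lit 5760778736596) (nat_lit 13) (nat_lit 5) (nat_lit 14) (nat_lit 5) (nat_lit 15) (nat_lit 4) (nat_lit 324) (nat_lit 311) (nat_lit 145))) (XT.nd (nat_lit 78) (nat_lit 152) (nat_lit 0) (XT.lf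 (nat_lit 0) (nat_lit 11313433265039) (nat_lit 76) (nat_lit 1748378008774) (nat_lit 152) (nat_lit 3223851204179) (nat_lit 13) (nat_lit 5) (nat_lit 14) (nat_lit 5) (nat_lit 15) (nat_lit 4) (nat_lit 325) (nat_lit 311) (nat_lit 144)) (XT.nd (nat_lit 78) (nat_lit 0) (nat_lit 0) (XT.lf (nat_lit 0) (nat_lit 23856139032) (nat_lit 152) (nat_lit 14530849278315) (nat_lit 76) (nat_lit 3391967229291) (nat_lit 11) (nat_lit 5) (nat_lit 13) (nat_lit 5) (nat_lit 12) (nat_lit 4) (nat_lit 326) (nat_lit 311) (nat_lit 143)) (XT.lf (nat_lit 0) (nat_lit 3784203465276) (nat_lit 152) (nat_lit 6446102527012) (nat_lit 76) (nat_lit 9550169113966) (nat_lit 11) (nat_lit 5) (nat_lit 13) (nat_lit 5) (nat_lit 12) (nat_lit 4) (nat_lit 327) (nat_lit 311) (nat_lit 142))))) (XT.nd (nat_lit 156) (nat_lit 152) (nat_lit 0) (XT.nd (nat_lit 78) (nat_lit 0) (nat_lit 0) (XT.lf (nat_lit 0) (nat_lit 3130011505427) (nat_lit 76) (nat_lit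 5108198486613) (nat_lit 152) (nat_lit 13631696877534) (nat_lit 10) (nat_lit 5) (nat_lit 11) (nat_lit 5) (nat_lit 12) (nat_lit 4) (nat_lit 328) (nat_lit 311) (nat_lit 141)) (XT.lf (nat_lit 0) (nat_lit 13745708625555) (nat_lit 152) (nat_lit 9403649196733) (nat_lit 0) (nat_lit 1065586905944) (nat_lit 10) (nat_lit 5) (nat_lit 12) (nat_lit 4) (nat_lit 10) (nat_lit 4) (nat_lit 329) (nat_lit 311) (nat_lit 140))) (XT.nd (nat_lit 78) (nat_lit 76) (nat_lit 0) (XT.lf (nat_lit 0) (nat_lit 1196288196384) (nat_lit 76) (nat_lit 19175827147741) (nat_lit 76) (nat_lit 6495705428061) (nat_lit 9) (nat_lit 4) (nat_lit 10) (nat_lit 5) (nat_lit 10) (nat_lit 4) (nat_lit 330) (nat_lit 311) (nat_lit 139)) (XT.nd (nat_lit 78) (nat_lit 76) (nat_lit 0) (XT.lf (nat_lit 0) (nat_lit 14443058136469) (nat_lit 76) (nat_lit 14040979323770) (nat_lit 76) (nat_lit 1360857604030) (nat_lit 9) (nat_lit 4) (nat_lit 10) (nat_lit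 5) (nat_lit 10) (nat_lit 4) (nat_lit 331) (nat_lit 311) (nat_lit 138)) (XT.lf (nat_lit 0) (nat_lit 4139659737381) (nat_lit 152) (nat_lit 3779853284422) (nat_lit 76) (nat_lit 25320792525616) (nat_lit 8) (nat_lit 5) (nat_lit 10) (nat_lit 5) (nat_lit 9) (nat_lit 4) (nat_lit 332) (nat_lit 311) (nat_lit 137))))))) (XT.nd (nat_lit 39468) (nat_lit 0) (nat_lit 380) (XT.nd (nat_lit 39078) (nat_lit 0) (nat_lit 1064) (XT.nd (nat_lit 156) (nat_lit 76) (nat_lit 0) (XT.nd (nat_lit 78) (nat_lit 0) (nat_lit 0) (XT.lf (nat_lit 0) (nat_lit 10451049894078) (nat_lit 76) (nat_lit 307634577510) (nat_lit 152) (nat_lit 26311709366624) (nat_lit 7) (nat_lit 5) (nat_lit 8) (nat_lit 5) (nat_lit 9) (nat_lit 4) (nat_lit 333) (nat_lit 311) (nat_lit 136)) (XT.lf (nat_lit 0) (nat_lit 18927286791735) (nat_lit 152) (nat_lit 14563106007678) (nat_lit 0) (nat_lit 7901093991841) (nat_lit 7) (nat_lit 5) (nat_lit 9) (nat_lit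 4) (nat_lit 7) (nat_lit 4) (nat_lit 334) (nat_lit 311) (nat_lit 135))) (XT.nd (nat_lit 78) (nat_lit 76) (nat_lit 0) (XT.lf (nat_lit 0) (nat_lit 28335828725451) (nat_lit 152) (nat_lit 713081646441) (nat_lit 0) (nat_lit 17309635925528) (nat_lit 7) (nat_lit 5) (nat_lit 9) (nat_lit 4) (nat_lit 7) (nat_lit 4) (nat_lit 335) (nat_lit 311) (nat_lit 134)) (XT.nd (nat_lit 38766) (nat_lit 0) (nat_lit 1216) (XT.lf (nat_lit 0) (nat_lit 16701312718586) (nat_lit 76) (nat_lit 23145904974637) (nat_lit 76) (nat_lit 12119712174688) (nat_lit 6) (nat_lit 4) (nat_lit 7) (nat_lit 5) (nat_lit 7) (nat_lit 4) (nat_lit 336) (nat_lit 311) (nat_lit 133)) (XT.lf (nat_lit 0) (nat_lit 471839983599) (nat_lit 380) (nat_lit 1222612549775) (nat_lit 380) (nat_lit 1222612549775) (nat_lit 22) (nat_lit 3) (nat_lit 27) (nat_lit 3) (nat_lit 27) (nat_lit 5) (nat_lit 312) (nat_lit 312) (nat_lit 156))))) (XT.nd (nat_lit 156) (nat_lit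 152) (nat_lit 0) (XT.nd (nat_lit 78) (nat_lit 0) (nat_lit 76) (XT.lf (nat_lit 76) (nat_lit 307958261083) (nat_lit 0) (nat_lit 719249600269) (nat_lit 380) (nat_lit 5242569282922) (nat_lit 23) (nat_lit 5) (nat_lit 22) (nat_lit 3) (nat_lit 27) (nat_lit 5) (nat_lit 313) (nat_lit 312) (nat_lit 155)) (XT.lf (nat_lit 0) (nat_lit 1354513981980) (nat_lit 304) (nat_lit 3106099756374) (nat_lit 380) (nat_lit 2275470074239) (nat_lit 23) (nat_lit 5) (nat_lit 27) (nat_lit 5) (nat_lit 28) (nat_lit 5) (nat_lit 314) (nat_lit 312) (nat_lit 154))) (XT.nd (nat_lit 78) (nat_lit 228) (nat_lit 0) (XT.lf (nat_lit 76) (nat_lit 157773331251) (nat_lit 0) (nat_lit 1613925727338) (nat_lit 380) (nat_lit 5494519966889) (nat_lit 24) (nat_lit 5) (nat_lit 23) (nat_lit 5) (nat_lit 28) (nat_lit 5) (nat_lit 315) (nat_lit 312) (nat_lit 153)) (XT.nd (nat_lit 78) (nat_lit 304) (nat_lit 0) (XT.lf (nat_lit 0) (nat_lit 2490285184773)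 (nat_lit 304) (nat_lit 3667668218876) (nat_lit 76) (nat_lit 1682097623434) (nat_lit 24) (nat_lit 5) (nat_lit 28) (nat_lit 5) (nat_lit 25) (nat_lit 5) (nat_lit 316) (nat_lit 312) (nat_lit 152)) (XT.lf (nat_lit 0) (nat_lit 233126834394) (nat_lit 304) (nat_lit 3170039286410) (nat_lit 380) (nat_lit 5083815674488) (nat_lit 20) (nat_lit 5) (nat_lit 24) (nat_lit 5) (nat_lit 25) (nat_lit 5) (nat_lit 317) (nat_lit 312) (nat_lit 151)))))) (XT.nd (nat_lit 390) (nat_lit 380) (nat_lit 0) (XT.nd (nat_lit 156) (nat_lit 152) (nat_lit 0) (XT.nd (nat_lit 78) (nat_lit 152) (nat_lit 0) (XT.lf (nat_lit 0) (nat_lit 4664844752652) (nat_lit 380) (nat_lit 4091103821161) (nat_lit 76) (nat_lit 443223771608) (nat_lit 20) (nat_lit 5) (nat_lit 25) (nat_lit 5) (nat_lit 21) (nat_lit 5) (nat_lit 318) (nat_lit 312) (nat_lit 150)) (XT.lf (nat_lit 0) (nat_lit 598377434681) (nat_lit 152) (nat_lit 5693129529688) (nat_lit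 228) (nat_lit 3700324745937) (nat_lit 18) (nat_lit 5) (nat_lit 20) (nat_lit 5) (nat_lit 21) (nat_lit 5) (nat_lit 319) (nat_lit 312) (nat_lit 149))) (XT.nd (nat_lit 78) (nat_lit 152) (nat_lit 0) (XT.lf (nat_lit 0) (nat_lit 6451065160426) (nat_lit 152) (nat_lit 1924956501552) (nat_lit 228) (nat_lit 2495290344827) (nat_lit 18) (nat_lit 5) (nat_lit 20) (nat_lit 5) (nat_lit 21) (nat_lit 5) (nat_lit 320) (nat_lit 312) (nat_lit 148)) (XT.nd (nat_lit 78) (nat_lit 76) (nat_lit 0) (XT.lf (nat_lit 0) (nat_lit 1316409068331) (nat_lit 76) (nat_lit 9611042655145) (nat_lit 152) (nat_lit 932126900415) (nat_lit 17) (nat_lit 5) (nat_lit 18) (nat_lit 5) (nat_lit 19) (nat_lit 4) (nat_lit 321) (nat_lit 312) (nat_lit 147)) (XT.lf (nat_lit 0) (nat_lit 1122183012936) (nat_lit 152) (nat_lit 4689593981938) (nat_lit 76) (nat_lit 7128873533770) (nat_lit 16) (nat_lit 5) (nat_lit 18) (nat_lit 5) (nat_lit 17) (nat_lit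 5) (nat_lit 322) (nat_lit 312) (nat_lit 146))))) (XT.nd (nat_lit 156) (nat_lit 228) (nat_lit 0) (XT.nd (nat_lit 78) (nat_lit 0) (nat_lit 0) (XT.lf (nat_lit 0) (nat_lit 2192853955232) (nat_lit 152) (nat_lit 1287154824153) (nat_lit 228) (nat_lit 10683596179550) (nat_lit 14) (nat_lit 5) (nat_lit 16) (nat_lit 5) (nat_lit 17) (nat_lit 5) (nat_lit 323) (nat_lit 312) (nat_lit 145)) (XT.lf (nat_lit 0) (nat_lit 6610479371906) (nat_lit 228) (nat_lit 5072349470294) (nat_lit 76) (nat_lit 3824328067404) (nat_lit 14) (nat_lit 5) (nat_lit 17) (nat_lit 5) (nat_lit 15) (nat_lit 4) (nat_lit 324) (nat_lit 312) (nat_lit 144))) (XT.nd (nat_lit 78) (nat_lit 152) (nat_lit 0) (XT.lf (nat_lit 0) (nat_lit 3073108583069) (nat_lit 76) (nat_lit 7325955930011) (nat_lit 152) (nat_lit 6624895545828) (nat_lit 13) (nat_lit 5) (nat_lit 14) (nat_lit 5) (nat_lit 15) (nat_lit 4) (nat_lit 325) (nat_lit 312) (nat_lit 143))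 (XT.nd (nat_lit 78) (nat_lit 152) (nat_lit 0) (XT.lf (nat_lit 0) (nat_lit 13010448256353) (nat_lit 76) (nat_lit 2010634709481) (nat_lit 152) (nat_lit 3707428883713) (nat_lit 13) (nat_lit 5) (nat_lit 14) (nat_lit 5) (nat_lit 15) (nat_lit 4) (nat_lit 326) (nat_lit 312) (nat_lit 142)) (XT.lf (nat_lit 0) (nat_lit 27434560846) (nat_lit 152) (nat_lit 16710476668366) (nat_lit 76) (nat_lit 3900762314277) (nat_lit 11) (nat_lit 5) (nat_lit 13) (nat_lit 5) (nat_lit 12) (nat_lit 4) (nat_lit 327) (nat_lit 312) (nat_lit 141))))))))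
noncomputable def xc123 : XT := (XT.nd (nat_lit 40326) (nat_lit 0) (nat_lit 76) (XT.nd (nat_lit 39546) (nat_lit 0) (nat_lit 684) (XT.nd (nat_lit 312) (nat_lit 152) (nat_lit 0) (XT.nd (nat_lit 156) (nat_lit 76) (nat_lit 0) (XT.nd (nat_lit 78) (nat_lit 76) (nat_lit 0) (XT.lf (nat_lit 0) (nat_lit 4351833985901) (nat_lit 152) (nat_lit 7413017904589) (nat_lit 76) (nat_lit 10982694481576) (nat_lit 11) (nat_lit 5) (nat_lit 13) (nat_lit 5) (nat_lit 12) (nat_lit 4) (nat_lit 328) (nat_lit 312) (nat_lit 140)) (XT.lf (nat_lit 0) (nat_lit 3599513232649) (nat_lit 76) (nat_lit 5874428258981) (nat_lit 152) (nat_lit 15676451408263) (nat_lit 10) (nat_lit 5) (nat_lit 11) (nat_lit 5) (nat_lit 12) (nat_lit 4) (nat_lit 329) (nat_lit 312) (nat_lit 139))) (XT.nd (nat_lit 78) (nat_lit 76) (nat_lit 0) (XT.lf (nat_lit 0) (nat_lit 15807564920092) (nat_lit 152) (nat_lit 10814196574938) (nat_lit 0) (nat_lit 1225424942331)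 (nat_lit 10) (nat_lit 5) (nat_lit 12) (nat_lit 4) (nat_lit 10) (nat_lit 4) (nat_lit 330) (nat_lit 312) (nat_lit 138)) (XT.lf (nat_lit 0) (nat_lit 1375731427087) (nat_lit 76) (nat_lit 22052201219320) (nat_lit 76) (nat_lit 7470061241507) (nat_lit 9) (nat_lit 4) (nat_lit 10) (nat_lit 5) (nat_lit 10) (nat_lit 4) (nat_lit 331) (nat_lit 312) (nat_lit 137)))) (XT.nd (nat_lit 156) (nat_lit 76) (nat_lit 0) (XT.nd (nat_lit 78) (nat_lit 76) (nat_lit 0) (XT.lf (nat_lit 0) (nat_lit 16609516858022) (nat_lit 76) (nat_lit 16147126221829) (nat_lit 76) (nat_lit 1564986243971) (nat_lit 9) (nat_lit 4) (nat_lit 10) (nat_lit 5) (nat_lit 10) (nat_lit 4) (nat_lit 332) (nat_lit 312) (nat_lit 136)) (XT.lf (nat_lit 0) (nat_lit 4760608698514) (nat_lit 152) (nat_lit 4346831276091) (nat_lit 76) (nat_lit 29118911404846) (nat_lit 8) (nat_lit 5) (nat_lit 10) (nat_lit 5) (nat_lit 9) (nat_lit 4) (nat_lit 333) (nat_lit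 312) (nat_lit 135))) (XT.nd (nat_lit 78) (nat_lit 0) (nat_lit 0) (XT.lf (nat_lit 0) (nat_lit 12018707379139) (nat_lit 76) (nat_lit 353779763684) (nat_lit 152) (nat_lit 30258465771046) (nat_lit 7) (nat_lit 5) (nat_lit 8) (nat_lit 5) (nat_lit 9) (nat_lit 4) (nat_lit 334) (nat_lit 312) (nat_lit 134)) (XT.nd (nat_lit 38922) (nat_lit 0) (nat_lit 1140) (XT.lf (nat_lit 0) (nat_lit 21766379810943) (nat_lit 152) (nat_lit 16747571907955) (nat_lit 0) (nat_lit 9086258090976) (nat_lit 7) (nat_lit 5) (nat_lit 9) (nat_lit 4) (nat_lit 7) (nat_lit 4) (nat_lit 335) (nat_lit 312) (nat_lit 133)) (XT.lf (nat_lit 0) (nat_lit 542615982812) (nat_lit 380) (nat_lit 1406004431276) (nat_lit 380) (nat_lit 1406004431276) (nat_lit 22) (nat_lit 3) (nat_lit 27) (nat_lit 3) (nat_lit 27) (nat_lit 5) (nat_lit 313) (nat_lit 313) (nat_lit 154)))))) (XT.nd (nat_lit 390) (nat_lit 304) (nat_lit 0) (XT.nd (nat_lit 156) (nat_lit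 152) (nat_lit 0) (XT.nd (nat_lit 78) (nat_lit 0) (nat_lit 76) (XT.lf (nat_lit 76) (nat_lit 354152002088) (nat_lit 0) (nat_lit 827137041453) (nat_lit 380) (nat_lit 6028954671916) (nat_lit 23) (nat_lit 5) (nat_lit 22) (nat_lit 3) (nat_lit 27) (nat_lit 5) (nat_lit 314) (nat_lit 313) (nat_lit 153)) (XT.lf (nat_lit 0) (nat_lit 1557691081833) (nat_lit 304) (nat_lit 3572014717788) (nat_lit 380) (nat_lit 2616790584469) (nat_lit 23) (nat_lit 5) (nat_lit 27) (nat_lit 5) (nat_lit 28) (nat_lit 5) (nat_lit 315) (nat_lit 313) (nat_lit 152))) (XT.nd (nat_lit 78) (nat_lit 228) (nat_lit 0) (XT.lf (nat_lit 76) (nat_lit 181439332888) (nat_lit 0) (nat_lit 1856014586791) (nat_lit 380) (nat_lit 6318697959266) (nat_lit 24) (nat_lit 5) (nat_lit 23) (nat_lit 5) (nat_lit 28) (nat_lit 5) (nat_lit 316) (nat_lit 313) (nat_lit 151)) (XT.nd (nat_lit 78) (nat_lit 304) (nat_lit 0) (XT.lf (nat_lit 0) (nat_lit 2863827964479)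 (nat_lit 304) (nat_lit 4217818449692) (nat_lit 76) (nat_lit 1934412266669) (nat_lit 24) (nat_lit 5) (nat_lit 28) (nat_lit 5) (nat_lit 25) (nat_lit 5) (nat_lit 317) (nat_lit 313) (nat_lit 150)) (XT.lf (nat_lit 0) (nat_lit 268095861477) (nat_lit 304) (nat_lit 3645545179257) (nat_lit 380) (nat_lit 5846388023574) (nat_lit 20) (nat_lit 5) (nat_lit 24) (nat_lit 5) (nat_lit 25) (nat_lit 5) (nat_lit 318) (nat_lit 313) (nat_lit 149))))) (XT.nd (nat_lit 156) (nat_lit 152) (nat_lit 0) (XT.nd (nat_lit 78) (nat_lit 152) (nat_lit 0) (XT.lf (nat_lit 0) (nat_lit 5364571467128) (nat_lit 380) (nat_lit 4704769392425) (nat_lit 76) (nat_lit 509707337440) (nat_lit 20) (nat_lit 5) (nat_lit 25) (nat_lit 5) (nat_lit 21) (nat_lit 5) (nat_lit 319) (nat_lit 313) (nat_lit 148)) (XT.lf (nat_lit 0) (nat_lit 688134051707) (nat_lit 152) (nat_lit 6547098958765) (nat_lit 228) (nat_lit 4255373456159) (nat_lit 18) (nat_lit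 5) (nat_lit 20) (nat_lit 5) (nat_lit 21) (nat_lit 5) (nat_lit 320) (nat_lit 313) (nat_lit 147))) (XT.nd (nat_lit 78) (nat_lit 152) (nat_lit 0) (XT.lf (nat_lit 0) (nat_lit 7418724936075) (nat_lit 152) (nat_lit 2213699976458) (nat_lit 228) (nat_lit 2869583895100) (nat_lit 18) (nat_lit 5) (nat_lit 20) (nat_lit 5) (nat_lit 21) (nat_lit 5) (nat_lit 321) (nat_lit 313) (nat_lit 146)) (XT.nd (nat_lit 78) (nat_lit 76) (nat_lit 0) (XT.lf (nat_lit 0) (nat_lit 1513870430265) (nat_lit 76) (nat_lit 11052699052908) (nat_lit 152) (nat_lit 1071945934122) (nat_lit 17) (nat_lit 5) (nat_lit 18) (nat_lit 5) (nat_lit 19) (nat_lit 4) (nat_lit 322) (nat_lit 313) (nat_lit 145)) (XT.lf (nat_lit 0) (nat_lit 1290510465950) (nat_lit 152) (nat_lit 5393033077656) (nat_lit 76) (nat_lit 8198204564170) (nat_lit 16) (nat_lit 5) (nat_lit 18) (nat_lit 5) (nat_lit 17) (nat_lit 5) (nat_lit 323) (nat_lit 313) (nat_lit 144)))))))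 (XT.nd (nat_lit 39858) (nat_lit 0) (nat_lit 684) (XT.nd (nat_lit 468) (nat_lit 228) (nat_lit 0) (XT.nd (nat_lit 156) (nat_lit 228) (nat_lit 0) (XT.nd (nat_lit 78) (nat_lit 0) (nat_lit 0) (XT.lf (nat_lit 0) (nat_lit 2521782050018) (nat_lit 152) (nat_lit 1480228047270) (nat_lit 228) (nat_lit 12286135605335) (nat_lit 14) (nat_lit 5) (nat_lit 16) (nat_lit 5) (nat_lit 17) (nat_lit 5) (nat_lit 324) (nat_lit 313) (nat_lit 143)) (XT.lf (nat_lit 0) (nat_lit 7602051278577) (nat_lit 228) (nat_lit 5833201889419) (nat_lit 76) (nat_lit 4397977277914) (nat_lit 14) (nat_lit 5) (nat_lit 17) (nat_lit 5) (nat_lit 15) (nat_lit 4) (nat_lit 325) (nat_lit 313) (nat_lit 142))) (XT.nd (nat_lit 156) (nat_lit 152) (nat_lit 0) (XT.lf (nat_lit 0) (nat_lit 3534074871884) (nat_lit 76) (nat_lit 8424849318983) (nat_lit 152) (nat_lit 7618629876752) (nat_lit 13) (nat_lit 5) (nat_lit 14) (nat_lit 5) (nat_lit 15) (nat_lit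 4) (nat_lit 326) (nat_lit 313) (nat_lit 141)) (XT.nd (nat_lit 78) (nat_lit 0) (nat_lit 0) (XT.lf (nat_lit 0) (nat_lit 31549745697) (nat_lit 152) (nat_lit 19217048167338) (nat_lit 76) (nat_lit 4485876661866) (nat_lit 11) (nat_lit 5) (nat_lit 13) (nat_lit 5) (nat_lit 12) (nat_lit 4) (nat_lit 328) (nat_lit 313) (nat_lit 139)) (XT.lf (nat_lit 0) (nat_lit 5004609084416) (nat_lit 152) (nat_lit 8524970589162) (nat_lit 76) (nat_lit 12630098654202) (nat_lit 11) (nat_lit 5) (nat_lit 13) (nat_lit 5) (nat_lit 12) (nat_lit 4) (nat_lit 329) (nat_lit 313) (nat_lit 138))))) (XT.nd (nat_lit 156) (nat_lit 152) (nat_lit 0) (XT.nd (nat_lit 78) (nat_lit 0) (nat_lit 0) (XT.lf (nat_lit 0) (nat_lit 4139440218611) (nat_lit 76) (nat_lit 6755592497355) (nat_lit 152) (nat_lit 18027919118820) (nat_lit 10) (nat_lit 5) (nat_lit 11) (nat_lit 5) (nat_lit 12) (nat_lit 4) (nat_lit 330) (nat_lit 313) (nat_lit 137)) (XT.lf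 (nat_lit 0) (nat_lit 18178699658638) (nat_lit 152) (nat_lit 12436326060192) (nat_lit 0) (nat_lit 1409238684055) (nat_lit 10) (nat_lit 5) (nat_lit 12) (nat_lit 4) (nat_lit 10) (nat_lit 4) (nat_lit 331) (nat_lit 313) (nat_lit 136))) (XT.nd (nat_lit 78) (nat_lit 76) (nat_lit 0) (XT.lf (nat_lit 0) (nat_lit 1582091142092) (nat_lit 76) (nat_lit 25360031401778) (nat_lit 76) (nat_lit 8590570427156) (nat_lit 9) (nat_lit 4) (nat_lit 10) (nat_lit 5) (nat_lit 10) (nat_lit 4) (nat_lit 332) (nat_lit 313) (nat_lit 135)) (XT.nd (nat_lit 78) (nat_lit 76) (nat_lit 0) (XT.lf (nat_lit 0) (nat_lit 19100944387545) (nat_lit 76) (nat_lit 18569195154721) (nat_lit 76) (nat_lit 1799734180064) (nat_lit 9) (nat_lit 4) (nat_lit 10) (nat_lit 5) (nat_lit 10) (nat_lit 4) (nat_lit 333) (nat_lit 313) (nat_lit 134)) (XT.lf (nat_lit 0) (nat_lit 5474700003689) (nat_lit 152) (nat_lit 4998855966754) (nat_lit 76) (nat_lit 33486748115867)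 (nat_lit 8) (nat_lit 5) (nat_lit 10) (nat_lit 5) (nat_lit 9) (nat_lit 4) (nat_lit 334) (nat_lit 313) (nat_lit 133)))))) (XT.nd (nat_lit 390) (nat_lit 380) (nat_lit 0) (XT.nd (nat_lit 156) (nat_lit 0) (nat_lit 76) (XT.nd (nat_lit 78) (nat_lit 0) (nat_lit 0) (XT.lf (nat_lit 0) (nat_lit 624008381499) (nat_lit 380) (nat_lit 1616905095238) (nat_lit 380) (nat_lit 1616905095238) (nat_lit 22) (nat_lit 3) (nat_lit 27) (nat_lit 3) (nat_lit 27) (nat_lit 5) (nat_lit 314) (nat_lit 314) (nat_lit 152)) (XT.lf (nat_lit 76) (nat_lit 407274803795) (nat_lit 0) (nat_lit 951207598535) (nat_lit 380) (nat_lit 6933297870099) (nat_lit 23) (nat_lit 5) (nat_lit 22) (nat_lit 3) (nat_lit 27) (nat_lit 5) (nat_lit 315) (nat_lit 314) (nat_lit 151))) (XT.nd (nat_lit 78) (nat_lit 0) (nat_lit 0) (XT.lf (nat_lit 0) (nat_lit 1791344746040) (nat_lit 304) (nat_lit 4107816923912) (nat_lit 380) (nat_lit 3009309171455) (nat_lit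 23) (nat_lit 5) (nat_lit 27) (nat_lit 5) (nat_lit 28) (nat_lit 5) (nat_lit 316) (nat_lit 314) (nat_lit 150)) (XT.nd (nat_lit 78) (nat_lit 0) (nat_lit 76) (XT.lf (nat_lit 76) (nat_lit 208655234296) (nat_lit 0) (nat_lit 2134416775077) (nat_lit 380) (nat_lit 7266502651148) (nat_lit 24) (nat_lit 5) (nat_lit 23) (nat_lit 5) (nat_lit 28) (nat_lit 5) (nat_lit 317) (nat_lit 314) (nat_lit 149)) (XT.lf (nat_lit 0) (nat_lit 3293402160655) (nat_lit 304) (nat_lit 4850491215622) (nat_lit 76) (nat_lit 2224574106458) (nat_lit 24) (nat_lit 5) (nat_lit 28) (nat_lit 5) (nat_lit 25) (nat_lit 5) (nat_lit 318) (nat_lit 314) (nat_lit 148))))) (XT.nd (nat_lit 156) (nat_lit 228) (nat_lit 0) (XT.nd (nat_lit 78) (nat_lit 0) (nat_lit 0) (XT.lf (nat_lit 0) (nat_lit 308310242154) (nat_lit 304) (nat_lit 4192376956059) (nat_lit 380) (nat_lit 6723346225532) (nat_lit 20) (nat_lit 5) (nat_lit 24) (nat_lit 5) (nat_lit 25)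 (nat_lit 5) (nat_lit 319) (nat_lit 314) (nat_lit 147)) (XT.lf (nat_lit 0) (nat_lit 6169257188390) (nat_lit 380) (nat_lit 5410484799844) (nat_lit 76) (nat_lit 586163438124) (nat_lit 20) (nat_lit 5) (nat_lit 25) (nat_lit 5) (nat_lit 21) (nat_lit 5) (nat_lit 320) (nat_lit 314) (nat_lit 146))) (XT.nd (nat_lit 78) (nat_lit 76) (nat_lit 0) (XT.lf (nat_lit 0) (nat_lit 791354160842) (nat_lit 152) (nat_lit 7529163802295) (nat_lit 228) (nat_lit 4893679473320) (nat_lit 18) (nat_lit 5) (nat_lit 20) (nat_lit 5) (nat_lit 21) (nat_lit 5) (nat_lit 321) (nat_lit 314) (nat_lit 145)) (XT.nd (nat_lit 78) (nat_lit 76) (nat_lit 0) (XT.lf (nat_lit 0) (nat_lit 8531533677686) (nat_lit 152) (nat_lit 2545754972679) (nat_lit 228) (nat_lit 3300021478267) (nat_lit 18) (nat_lit 5) (nat_lit 20) (nat_lit 5) (nat_lit 21) (nat_lit 5) (nat_lit 322) (nat_lit 314) (nat_lit 144)) (XT.lf (nat_lit 0) (nat_lit 1740950996079)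 (nat_lit 76) (nat_lit 12710603910460) (nat_lit 152) (nat_lit 1232737823215) (nat_lit 17) (nat_lit 5) (nat_lit 18) (nat_lit 5) (nat_lit 19) (nat_lit 4) (nat_lit 323) (nat_lit 314) (nat_lit 143))))))))
noncomputable def xc124 : XT := (XT.nd (nat_lit 40794) (nat_lit 380) (nat_lit 0) (XT.nd (nat_lit 40014) (nat_lit 0) (nat_lit 532) (XT.nd (nat_lit 312) (nat_lit 304) (nat_lit 0) (XT.nd (nat_lit 156) (nat_lit 76) (nat_lit 0) (XT.nd (nat_lit 78) (nat_lit 152) (nat_lit 0) (XT.lf (nat_lit 0) (nat_lit 1484087036655) (nat_lit 152) (nat_lit 6201988038115) (nat_lit 76) (nat_lit 9427935249049) (nat_lit 16) (nat_lit 5) (nat_lit 18) (nat_lit 5) (nat_lit 17) (nat_lit 5) (nat_lit 324) (nat_lit 314) (nat_lit 142)) (XT.lf (nat_lit 0) (nat_lit 2900049358656) (nat_lit 152) (nat_lit 1702262253979) (nat_lit 228) (nat_lit 14129055945267) (nat_lit 14) (nat_lit 5) (nat_lit 16) (nat_lit 5) (nat_lit 17) (nat_lit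 5) (nat_lit 325) (nat_lit 314) (nat_lit 141))) (XT.nd (nat_lit 78) (nat_lit 76) (nat_lit 0) (XT.lf (nat_lit 0) (nat_lit 8742358971032) (nat_lit 228) (nat_lit 6708182171759) (nat_lit 76) (nat_lit 5057673869904) (nat_lit 14) (nat_lit 5) (nat_lit 17) (nat_lit 5) (nat_lit 15) (nat_lit 4) (nat_lit 326) (nat_lit 314) (nat_lit 140)) (XT.lf (nat_lit 0) (nat_lit 4064186103692) (nat_lit 76) (nat_lit 9688576716430) (nat_lit 152) (nat_lit 8761424357546) (nat_lit 13) (nat_lit 5) (nat_lit 14) (nat_lit 5) (nat_lit 15) (nat_lit 4) (nat_lit 327) (nat_lit 314) (nat_lit 139)))) (XT.nd (nat_lit 312) (nat_lit 152) (nat_lit 0) (XT.nd (nat_lit 78) (nat_lit 152) (nat_lit 0) (XT.lf (nat_lit 0) (nat_lit 17206317821273) (nat_lit 76) (nat_lit 2659064402411) (nat_lit 152) (nat_lit 4903074697134) (nat_lit 13) (nat_lit 5) (nat_lit 14) (nat_lit 5) (nat_lit 15) (nat_lit 4) (nat_lit 328) (nat_lit 314) (nat_lit 138)) (XT.lf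 (nat_lit 0) (nat_lit 36282208100) (nat_lit 152) (nat_lit 22099605391469) (nat_lit 76) (nat_lit 5158758161485) (nat_lit 11) (nat_lit 5) (nat_lit 13) (nat_lit 5) (nat_lit 12) (nat_lit 4) (nat_lit 329) (nat_lit 314) (nat_lit 137))) (XT.nd (nat_lit 78) (nat_lit 76) (nat_lit 0) (XT.lf (nat_lit 0) (nat_lit 20905504607836) (nat_lit 152) (nat_lit 14301774968475) (nat_lit 0) (nat_lit 1620624486947) (nat_lit 10) (nat_lit 5) (nat_lit 12) (nat_lit 4) (nat_lit 10) (nat_lit 4) (nat_lit 332) (nat_lit 314) (nat_lit 134)) (XT.nd (nat_lit 39234) (nat_lit 0) (nat_lit 988) (XT.lf (nat_lit 0) (nat_lit 1819404814118) (nat_lit 76) (nat_lit 29164036111712) (nat_lit 76) (nat_lit 9879155990792) (nat_lit 9) (nat_lit 4) (nat_lit 10) (nat_lit 5) (nat_lit 10) (nat_lit 4) (nat_lit 333) (nat_lit 314) (nat_lit 133)) (XT.lf (nat_lit 0) (nat_lit 717609639680) (nat_lit 380) (nat_lit 1859440858972) (nat_lit 380) (nat_lit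 1859440858972) (nat_lit 22) (nat_lit 3) (nat_lit 27) (nat_lit 3) (nat_lit 27) (nat_lit 5) (nat_lit 315) (nat_lit 315) (nat_lit 150)))))) (XT.nd (nat_lit 390) (nat_lit 304) (nat_lit 0) (XT.nd (nat_lit 156) (nat_lit 152) (nat_lit 0) (XT.nd (nat_lit 78) (nat_lit 0) (nat_lit 76) (XT.lf (nat_lit 76) (nat_lit 468366025417) (nat_lit 0) (nat_lit 1093888738969) (nat_lit 380) (nat_lit 7973292548644) (nat_lit 23) (nat_lit 5) (nat_lit 22) (nat_lit 3) (nat_lit 27) (nat_lit 5) (nat_lit 316) (nat_lit 315) (nat_lit 149)) (XT.lf (nat_lit 0) (nat_lit 2060046459406) (nat_lit 304) (nat_lit 4723989461331) (nat_lit 380) (nat_lit 3460705546656) (nat_lit 23) (nat_lit 5) (nat_lit 27) (nat_lit 5) (nat_lit 28) (nat_lit 5) (nat_lit 317) (nat_lit 315) (nat_lit 148))) (XT.nd (nat_lit 78) (nat_lit 228) (nat_lit 0) (XT.lf (nat_lit 76) (nat_lit 239953520555) (nat_lit 0) (nat_lit 2454579291540) (nat_lit 380) (nat_lit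 8356478047301) (nat_lit 24) (nat_lit 5) (nat_lit 23) (nat_lit 5) (nat_lit 28) (nat_lit 5) (nat_lit 318) (nat_lit 315) (nat_lit 147)) (XT.nd (nat_lit 78) (nat_lit 304) (nat_lit 0) (XT.lf (nat_lit 0) (nat_lit 3787412485891) (nat_lit 304) (nat_lit 5578064896813) (nat_lit 76) (nat_lit 2558260222267) (nat_lit 24) (nat_lit 5) (nat_lit 28) (nat_lit 5) (nat_lit 25) (nat_lit 5) (nat_lit 319) (nat_lit 315) (nat_lit 146)) (XT.lf (nat_lit 0) (nat_lit 354556779577) (nat_lit 304) (nat_lit 4821233499403) (nat_lit 380) (nat_lit 7731848158168) (nat_lit 20) (nat_lit 5) (nat_lit 24) (nat_lit 5) (nat_lit 25) (nat_lit 5) (nat_lit 320) (nat_lit 315) (nat_lit 145))))) (XT.nd (nat_lit 156) (nat_lit 152) (nat_lit 0) (XT.nd (nat_lit 78) (nat_lit 152) (nat_lit 0) (XT.lf (nat_lit 0) (nat_lit 7094645767551) (nat_lit 380) (nat_lit 6222057518729) (nat_lit 76) (nat_lit 674087953895) (nat_lit 20) (nat_lit 5) (nat_lit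 25) (nat_lit 5) (nat_lit 21) (nat_lit 5) (nat_lit 321) (nat_lit 315) (nat_lit 144)) (XT.lf (nat_lit 0) (nat_lit 910057286011) (nat_lit 152) (nat_lit 8658538372425) (nat_lit 228) (nat_lit 5627731393364) (nat_lit 18) (nat_lit 5) (nat_lit 20) (nat_lit 5) (nat_lit 21) (nat_lit 5) (nat_lit 322) (nat_lit 315) (nat_lit 143))) (XT.nd (nat_lit 78) (nat_lit 152) (nat_lit 0) (XT.lf (nat_lit 0) (nat_lit 9811263730245) (nat_lit 152) (nat_lit 2927618218394) (nat_lit 228) (nat_lit 3795024699177) (nat_lit 18) (nat_lit 5) (nat_lit 20) (nat_lit 5) (nat_lit 21) (nat_lit 5) (nat_lit 323) (nat_lit 315) (nat_lit 142)) (XT.nd (nat_lit 78) (nat_lit 76) (nat_lit 0) (XT.lf (nat_lit 0) (nat_lit 2002093646454) (nat_lit 76) (nat_lit 14617194496738) (nat_lit 152) (nat_lit 1417648495922) (nat_lit 17) (nat_lit 5) (nat_lit 18) (nat_lit 5) (nat_lit 19) (nat_lit 4) (nat_lit 324) (nat_lit 315) (nat_lit 141)) (XT.lf (nat_lit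 0) (nat_lit 1706700092768) (nat_lit 152) (nat_lit 7132286242933) (nat_lit 76) (nat_lit 10842125536598) (nat_lit 16) (nat_lit 5) (nat_lit 18) (nat_lit 5) (nat_lit 17) (nat_lit 5) (nat_lit 325) (nat_lit 315) (nat_lit 140))))))) (XT.nd (nat_lit 40248) (nat_lit 0) (nat_lit 152) (XT.nd (nat_lit 39858) (nat_lit 0) (nat_lit 1368) (XT.nd (nat_lit 1248) (nat_lit 760) (nat_lit 0) (XT.nd (nat_lit 78) (nat_lit 0) (nat_lit 0) (XT.lf (nat_lit 0) (nat_lit 3335056763313) (nat_lit 152) (nat_lit 1957601591787) (nat_lit 228) (nat_lit 16248414336400) (nat_lit 14) (nat_lit 5) (nat_lit 16) (nat_lit 5) (nat_lit 17) (nat_lit 5) (nat_lit 326) (nat_lit 315) (nat_lit 139)) (XT.lf (nat_lit 0) (nat_lit 10053712817192) (nat_lit 228) (nat_lit 7714409496711) (nat_lit 76) (nat_lit 5816324950619) (nat_lit 14) (nat_lit 5) (nat_lit 17) (nat_lit 5) (nat_lit 15) (nat_lit 4) (nat_lit 327) (nat_lit 315) (nat_lit 138))) (XT.nd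 (nat_lit 78) (nat_lit 76) (nat_lit 0) (XT.lf (nat_lit 0) (nat_lit 4090999437679) (nat_lit 152) (nat_lit 10489231330065) (nat_lit 76) (nat_lit 100514330811177) (nat_lit 5) (nat_lit 5) (nat_lit 7) (nat_lit 5) (nat_lit 6) (nat_lit 4) (nat_lit 342) (nat_lit 315) (nat_lit 123)) (XT.nd (nat_lit 78) (nat_lit 0) (nat_lit 0) (XT.lf (nat_lit 0) (nat_lit 19541480286803) (nat_lit 152) (nat_lit 107430003175158) (nat_lit 0) (nat_lit 2772019311950) (nat_lit 4) (nat_lit 5) (nat_lit 6) (nat_lit 4) (nat_lit 4) (nat_lit 4) (nat_lit 343) (nat_lit 315) (nat_lit 122)) (XT.lf (nat_lit 0) (nat_lit 38578240253636) (nat_lit 152) (nat_lit 86012459567186) (nat_lit 0) (nat_lit 21808779278778) (nat_lit 4) (nat_lit 5) (nat_lit 6) (nat_lit 4) (nat_lit 4) (nat_lit 4) (nat_lit 344) (nat_lit 315) (nat_lit 121))))) (XT.nd (nat_lit 156) (nat_lit 0) (nat_lit 76) (XT.nd (nat_lit 78) (nat_lit 0) (nat_lit 0) (XT.lf (nat_lit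 0) (nat_lit 825251086356) (nat_lit 380) (nat_lit 2138356987401) (nat_lit 380) (nat_lit 2138356987401) (nat_lit 22) (nat_lit 3) (nat_lit 27) (nat_lit 3) (nat_lit 27) (nat_lit 5) (nat_lit 316) (nat_lit 316) (nat_lit 148)) (XT.lf (nat_lit 76) (nat_lit 538620930027) (nat_lit 0) (nat_lit 1257972050309) (nat_lit 380) (nat_lit 9169286429452) (nat_lit 23) (nat_lit 5) (nat_lit 22) (nat_lit 3) (nat_lit 27) (nat_lit 5) (nat_lit 317) (nat_lit 316) (nat_lit 147))) (XT.nd (nat_lit 78) (nat_lit 0) (nat_lit 0) (XT.lf (nat_lit 0) (nat_lit 2369053429422) (nat_lit 304) (nat_lit 5432587879647) (nat_lit 380) (nat_lit 3979811378262) (nat_lit 23) (nat_lit 5) (nat_lit 27) (nat_lit 5) (nat_lit 28) (nat_lit 5) (nat_lit 318) (nat_lit 316) (nat_lit 146)) (XT.nd (nat_lit 78) (nat_lit 0) (nat_lit 76) (XT.lf (nat_lit 76) (nat_lit 275946549481) (nat_lit 0) (nat_lit 2822766185424) (nat_lit 380) (nat_lit 9609949753248)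 (nat_lit 24) (nat_lit 5) (nat_lit 23) (nat_lit 5) (nat_lit 28) (nat_lit 5) (nat_lit 319) (nat_lit 316) (nat_lit 145)) (XT.lf (nat_lit 0) (nat_lit 4355524359634) (nat_lit 304) (nat_lit 6414774630463) (nat_lit 76) (nat_lit 2941999255486) (nat_lit 24) (nat_lit 5) (nat_lit 28) (nat_lit 5) (nat_lit 25) (nat_lit 5) (nat_lit 320) (nat_lit 316) (nat_lit 144)))))) (XT.nd (nat_lit 390) (nat_lit 836) (nat_lit 0) (XT.nd (nat_lit 156) (nat_lit 228) (nat_lit 0) (XT.nd (nat_lit 78) (nat_lit 0) (nat_lit 0) (XT.lf (nat_lit 0) (nat_lit 407740297345) (nat_lit 304) (nat_lit 5544418524264) (nat_lit 380) (nat_lit 8891625380991) (nat_lit 20) (nat_lit 5) (nat_lit 24) (nat_lit 5) (nat_lit 25) (nat_lit 5) (nat_lit 321) (nat_lit 316) (nat_lit 143)) (XT.lf (nat_lit 0) (nat_lit 8158842633365) (nat_lit 380) (nat_lit 7155366145712) (nat_lit 76) (nat_lit 775201147018) (nat_lit 20) (nat_lit 5) (nat_lit 25) (nat_lit 5)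 (nat_lit 21) (nat_lit 5) (nat_lit 322) (nat_lit 316) (nat_lit 142))) (XT.nd (nat_lit 78) (nat_lit 76) (nat_lit 0) (XT.lf (nat_lit 0) (nat_lit 1046565879701) (nat_lit 152) (nat_lit 9957319128126) (nat_lit 228) (nat_lit 6471891101647) (nat_lit 18) (nat_lit 5) (nat_lit 20) (nat_lit 5) (nat_lit 21) (nat_lit 5) (nat_lit 323) (nat_lit 316) (nat_lit 141)) (XT.nd (nat_lit 78) (nat_lit 76) (nat_lit 0) (XT.lf (nat_lit 0) (nat_lit 11282953290468) (nat_lit 152) (nat_lit 3366760951012) (nat_lit 228) (nat_lit 4364278403427) (nat_lit 18) (nat_lit 5) (nat_lit 20) (nat_lit 5) (nat_lit 21) (nat_lit 5) (nat_lit 324) (nat_lit 316) (nat_lit 140)) (XT.lf (nat_lit 0) (nat_lit 2302407694151) (nat_lit 76) (nat_lit 16809773671029) (nat_lit 152) (nat_lit 1630295769724) (nat_lit 17) (nat_lit 5) (nat_lit 18) (nat_lit 5) (nat_lit 19) (nat_lit 4) (nat_lit 325) (nat_lit 316) (nat_lit 139))))) (XT.nd (nat_lit 1092) (nat_lit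 608) (nat_lit 0) (XT.nd (nat_lit 78) (nat_lit 152) (nat_lit 0) (XT.lf (nat_lit 0) (nat_lit 1962705107147) (nat_lit 152) (nat_lit 8202129178693) (nat_lit 76) (nat_lit 12468444367232) (nat_lit 16) (nat_lit 5) (nat_lit 18) (nat_lit 5) (nat_lit 17) (nat_lit 5) (nat_lit 326) (nat_lit 316) (nat_lit 138)) (XT.lf (nat_lit 0) (nat_lit 3835315278459) (nat_lit 152) (nat_lit 2251241830337) (nat_lit 228) (nat_lit 18685676486364) (nat_lit 14) (nat_lit 5) (nat_lit 16) (nat_lit 5) (nat_lit 17) (nat_lit 5) (nat_lit 327) (nat_lit 316) (nat_lit 137))) (XT.nd (nat_lit 78) (nat_lit 76) (nat_lit 0) (XT.lf (nat_lit 0) (nat_lit 56993472772450) (nat_lit 152) (nat_lit 1434261891441) (nat_lit 0) (nat_lit 34815860633213) (nat_lit 7) (nat_lit 5) (nat_lit 9) (nat_lit 4) (nat_lit 7) (nat_lit 4) (nat_lit 340) (nat_lit 316) (nat_lit 124)) (XT.nd (nat_lit 78) (nat_lit 0) (nat_lit 0) (XT.lf (nat_lit 0) (nat_lit 33592305380463)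 (nat_lit 76) (nat_lit 46554682330331) (nat_lit 76) (nat_lit 24377070191088) (nat_lit 6) (nat_lit 4) (nat_lit 7) (nat_lit 5) (nat_lit 7) (nat_lit 4) (nat_lit 341) (nat_lit 316) (nat_lit 123)) (XT.lf (nat_lit 0) (nat_lit 74034049221616) (nat_lit 76) (nat_lit 32814453448954) (nat_lit 76) (nat_lit 10636841309705) (nat_lit 6) (nat_lit 4) (nat_lit 7) (nat_lit 5) (nat_lit 7) (nat_lit 4) (nat_lit 342) (nat_lit 316) (nat_lit 122))))))))
noncomputable def xc125 : XT := (XT.nd (nat_lit 40794) (nat_lit 0) (nat_lit 0) (XT.nd (nat_lit 39078) (nat_lit 0) (nat_lit 76) (XT.nd (nat_lit 38688) (nat_lit 0) (nat_lit 1216) (XT.nd (nat_lit 156) (nat_lit 0) (nat_lit 0) (XT.nd (nat_lit 78) (nat_lit 76) (nat_lit 0) (XT.lf (nat_lit 0) (nat_lit 4704649353426) (nat_lit 152) (nat_lit 12062616029387) (nat_lit 76) (nat_lit 115591480432932) (nat_lit 5) (nat_lit 5) (nat_lit 7) (nat_lit 5) (nat_lit 6) (nat_lit 4) (nat_lit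 343) (nat_lit 316) (nat_lit 121)) (XT.lf (nat_lit 0) (nat_lit 22472702329918) (nat_lit 152) (nat_lit 123544503651242) (nat_lit 0) (nat_lit 3187822208824) (nat_lit 4) (nat_lit 5) (nat_lit 6) (nat_lit 4) (nat_lit 4) (nat_lit 4) (nat_lit 344) (nat_lit 316) (nat_lit 120))) (XT.nd (nat_lit 38454) (nat_lit 0) (nat_lit 1368) (XT.lf (nat_lit 0) (nat_lit 44364976291763) (nat_lit 152) (nat_lit 98914328502099) (nat_lit 0) (nat_lit 25080096170665) (nat_lit 4) (nat_lit 5) (nat_lit 6) (nat_lit 4) (nat_lit 4) (nat_lit 4) (nat_lit 345) (nat_lit 316) (nat_lit 119)) (XT.lf (nat_lit 0) (nat_lit 949038749856) (nat_lit 380) (nat_lit 2459110535196) (nat_lit 380) (nat_lit 2459110535196) (nat_lit 22) (nat_lit 3) (nat_lit 27) (nat_lit 3) (nat_lit 27) (nat_lit 5) (nat_lit 317) (nat_lit 317) (nat_lit 146)))) (XT.nd (nat_lit 156) (nat_lit 152) (nat_lit 0) (XT.nd (nat_lit 78) (nat_lit 0) (nat_lit 76) (XT.lf (nat_lit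 76) (nat_lit 619414070133) (nat_lit 0) (nat_lit 1446667858229) (nat_lit 380) (nat_lit 10544679392744) (nat_lit 23) (nat_lit 5) (nat_lit 22) (nat_lit 3) (nat_lit 27) (nat_lit 5) (nat_lit 318) (nat_lit 317) (nat_lit 145)) (XT.lf (nat_lit 0) (nat_lit 2724411444671) (nat_lit 304) (nat_lit 6247476060927) (nat_lit 380) (nat_lit 4576783084706) (nat_lit 23) (nat_lit 5) (nat_lit 27) (nat_lit 5) (nat_lit 28) (nat_lit 5) (nat_lit 319) (nat_lit 317) (nat_lit 144))) (XT.nd (nat_lit 78) (nat_lit 228) (nat_lit 0) (XT.lf (nat_lit 76) (nat_lit 317338532540) (nat_lit 0) (nat_lit 3246181113353) (nat_lit 380) (nat_lit 11051442215367) (nat_lit 24) (nat_lit 5) (nat_lit 23) (nat_lit 5) (nat_lit 28) (nat_lit 5) (nat_lit 320) (nat_lit 317) (nat_lit 143)) (XT.nd (nat_lit 78) (nat_lit 304) (nat_lit 0) (XT.lf (nat_lit 0) (nat_lit 5008853014230) (nat_lit 304) (nat_lit 7376990824374) (nat_lit 76) (nat_lit 3383299143718)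 (nat_lit 24) (nat_lit 5) (nat_lit 28) (nat_lit 5) (nat_lit 25) (nat_lit 5) (nat_lit 321) (nat_lit 317) (nat_lit 142)) (XT.lf (nat_lit 0) (nat_lit 468901342576) (nat_lit 304) (nat_lit 6376081302866) (nat_lit 380) (nat_lit 10225369187457) (nat_lit 20) (nat_lit 5) (nat_lit 24) (nat_lit 5) (nat_lit 25) (nat_lit 5) (nat_lit 322) (nat_lit 317) (nat_lit 141)))))) (XT.nd (nat_lit 1326) (nat_lit 836) (nat_lit 0) (XT.nd (nat_lit 156) (nat_lit 152) (nat_lit 0) (XT.nd (nat_lit 78) (nat_lit 152) (nat_lit 0) (XT.lf (nat_lit 0) (nat_lit 9382669028886) (nat_lit 380) (nat_lit 8228671066945) (nat_lit 76) (nat_lit 891481319100) (nat_lit 20) (nat_lit 5) (nat_lit 25) (nat_lit 5) (nat_lit 21) (nat_lit 5) (nat_lit 323) (nat_lit 317) (nat_lit 140)) (XT.lf (nat_lit 0) (nat_lit 1203550762253) (nat_lit 152) (nat_lit 11450916997222) (nat_lit 228) (nat_lit 7442674766348) (nat_lit 18) (nat_lit 5) (nat_lit 20) (nat_lit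 5) (nat_lit 21) (nat_lit 5) (nat_lit 324) (nat_lit 317) (nat_lit 139))) (XT.nd (nat_lit 78) (nat_lit 152) (nat_lit 0) (XT.lf (nat_lit 0) (nat_lit 12975396284556) (nat_lit 152) (nat_lit 3871775093557) (nat_lit 228) (nat_lit 5018920163466) (nat_lit 18) (nat_lit 5) (nat_lit 20) (nat_lit 5) (nat_lit 21) (nat_lit 5) (nat_lit 325) (nat_lit 317) (nat_lit 138)) (XT.nd (nat_lit 78) (nat_lit 76) (nat_lit 0) (XT.lf (nat_lit 0) (nat_lit 2647768848825) (nat_lit 76) (nat_lit 19331239721517) (nat_lit 152) (nat_lit 1874840134739) (nat_lit 17) (nat_lit 5) (nat_lit 18) (nat_lit 5) (nat_lit 19) (nat_lit 4) (nat_lit 326) (nat_lit 317) (nat_lit 137)) (XT.lf (nat_lit 0) (nat_lit 2257110873571) (nat_lit 152) (nat_lit 9432448554983) (nat_lit 76) (nat_lit 14338711022427) (nat_lit 16) (nat_lit 5) (nat_lit 18) (nat_lit 5) (nat_lit 17) (nat_lit 5) (nat_lit 327) (nat_lit 317) (nat_lit 136))))) (XT.nd (nat_lit 156)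 (nat_lit 152) (nat_lit 0) (XT.nd (nat_lit 78) (nat_lit 0) (nat_lit 0) (XT.lf (nat_lit 0) (nat_lit 43779964480114) (nat_lit 152) (nat_lit 33685349127280) (nat_lit 0) (nat_lit 18275710519977) (nat_lit 7) (nat_lit 5) (nat_lit 9) (nat_lit 4) (nat_lit 7) (nat_lit 4) (nat_lit 340) (nat_lit 317) (nat_lit 123)) (XT.lf (nat_lit 0) (nat_lit 65542493688414) (nat_lit 152) (nat_lit 1649401174969) (nat_lit 0) (nat_lit 40038239728272) (nat_lit 7) (nat_lit 5) (nat_lit 9) (nat_lit 4) (nat_lit 7) (nat_lit 4) (nat_lit 341) (nat_lit 317) (nat_lit 122))) (XT.nd (nat_lit 78) (nat_lit 76) (nat_lit 0) (XT.lf (nat_lit 0) (nat_lit 38631151187712) (nat_lit 76) (nat_lit 53537884679793) (nat_lit 76) (nat_lit 28033630719646) (nat_lit 6) (nat_lit 4) (nat_lit 7) (nat_lit 5) (nat_lit 7) (nat_lit 4) (nat_lit 342) (nat_lit 317) (nat_lit 121)) (XT.nd (nat_lit 78) (nat_lit 76) (nat_lit 0) (XT.lf (nat_lit 0) (nat_lit 85139156605014)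 (nat_lit 76) (nat_lit 37736621466221) (nat_lit 76) (nat_lit 12232367506070) (nat_lit 6) (nat_lit 4) (nat_lit 7) (nat_lit 5) (nat_lit 7) (nat_lit 4) (nat_lit 343) (nat_lit 317) (nat_lit 120)) (XT.lf (nat_lit 0) (nat_lit 5410346756512) (nat_lit 152) (nat_lit 13872008433652) (nat_lit 76) (nat_lit 132930202497932) (nat_lit 5) (nat_lit 5) (nat_lit 7) (nat_lit 5) (nat_lit 6) (nat_lit 4) (nat_lit 344) (nat_lit 317) (nat_lit 119))))))) (XT.nd (nat_lit 39234) (nat_lit 0) (nat_lit 76) (XT.nd (nat_lit 38844) (nat_lit 0) (nat_lit 1064) (XT.nd (nat_lit 38610) (nat_lit 0) (nat_lit 1368) (XT.nd (nat_lit 38532) (nat_lit 0) (nat_lit 1368) (XT.lf (nat_lit 0) (nat_lit 25843607679477) (nat_lit 152) (nat_lit 142076179198784) (nat_lit 0) (nat_lit 3665995540210) (nat_lit 4) (nat_lit 5) (nat_lit 6) (nat_lit 4) (nat_lit 4) (nat_lit 4) (nat_lit 345) (nat_lit 317) (nat_lit 118)) (XT.lf (nat_lit 0) (nat_lit 1091394562748)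 (nat_lit 380) (nat_lit 2827977115237) (nat_lit 380) (nat_lit 2827977115237) (nat_lit 22) (nat_lit 3) (nat_lit 27) (nat_lit 3) (nat_lit 27) (nat_lit 5) (nat_lit 318) (nat_lit 318) (nat_lit 144))) (XT.nd (nat_lit 78) (nat_lit 0) (nat_lit 76) (XT.lf (nat_lit 76) (nat_lit 712326181109) (nat_lit 0) (nat_lit 1663668037246) (nat_lit 380) (nat_lit 12126381300804) (nat_lit 23) (nat_lit 5) (nat_lit 22) (nat_lit 3) (nat_lit 27) (nat_lit 5) (nat_lit 319) (nat_lit 318) (nat_lit 143)) (XT.nd (nat_lit 78) (nat_lit 0) (nat_lit 0) (XT.lf (nat_lit 0) (nat_lit 3133073162003) (nat_lit 304) (nat_lit 7184597469561) (nat_lit 380) (nat_lit 5263300547188) (nat_lit 23) (nat_lit 5) (nat_lit 27) (nat_lit 5) (nat_lit 28) (nat_lit 5) (nat_lit 320) (nat_lit 318) (nat_lit 142)) (XT.lf (nat_lit 76) (nat_lit 364939312903) (nat_lit 0) (nat_lit 3733108280443) (nat_lit 380) (nat_lit 12709158547016) (nat_lit 24) (nat_lit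 5) (nat_lit 23) (nat_lit 5) (nat_lit 28) (nat_lit 5) (nat_lit 321) (nat_lit 318) (nat_lit 141))))) (XT.nd (nat_lit 156) (nat_lit 152) (nat_lit 0) (XT.nd (nat_lit 78) (nat_lit 304) (nat_lit 0) (XT.lf (nat_lit 0) (nat_lit 5760180966856) (nat_lit 304) (nat_lit 8483539447532) (nat_lit 76) (nat_lit 3890794015207) (nat_lit 24) (nat_lit 5) (nat_lit 28) (nat_lit 5) (nat_lit 25) (nat_lit 5) (nat_lit 322) (nat_lit 318) (nat_lit 140)) (XT.lf (nat_lit 0) (nat_lit 539236544438) (nat_lit 304) (nat_lit 7332493498268) (nat_lit 380) (nat_lit 11759174565060) (nat_lit 20) (nat_lit 5) (nat_lit 24) (nat_lit 5) (nat_lit 25) (nat_lit 5) (nat_lit 323) (nat_lit 318) (nat_lit 139))) (XT.nd (nat_lit 78) (nat_lit 152) (nat_lit 0) (XT.lf (nat_lit 0) (nat_lit 10790069383609) (nat_lit 380) (nat_lit 9462971726514) (nat_lit 76) (nat_lit 1025203516988) (nat_lit 20) (nat_lit 5) (nat_lit 25) (nat_lit 5) (nat_lit 21) (nat_lit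 5) (nat_lit 324) (nat_lit 318) (nat_lit 138)) (XT.nd (nat_lit 78) (nat_lit 0) (nat_lit 0) (XT.lf (nat_lit 0) (nat_lit 1384083377042) (nat_lit 152) (nat_lit 13168554546712) (nat_lit 228) (nat_lit 8559075980888) (nat_lit 18) (nat_lit 5) (nat_lit 20) (nat_lit 5) (nat_lit 21) (nat_lit 5) (nat_lit 325) (nat_lit 318) (nat_lit 137)) (XT.lf (nat_lit 0) (nat_lit 14921705727632) (nat_lit 152) (nat_lit 4452541357510) (nat_lit 228) (nat_lit 5771758187627) (nat_lit 18) (nat_lit 5) (nat_lit 20) (nat_lit 5) (nat_lit 21) (nat_lit 5) (nat_lit 326) (nat_lit 318) (nat_lit 136)))))) (XT.nd (nat_lit 1248) (nat_lit 152) (nat_lit 0) (XT.nd (nat_lit 1014) (nat_lit 684) (nat_lit 0) (XT.nd (nat_lit 78) (nat_lit 76) (nat_lit 0) (XT.lf (nat_lit 0) (nat_lit 3044934176565) (nat_lit 76) (nat_lit 22230925679619) (nat_lit 152) (nat_lit 2156066154615) (nat_lit 17) (nat_lit 5) (nat_lit 18) (nat_lit 5) (nat_lit 19) (nat_lit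 4) (nat_lit 327) (nat_lit 318) (nat_lit 135)) (XT.lf (nat_lit 0) (nat_lit 2595677504872) (nat_lit 152) (nat_lit 10847315837841) (nat_lit 76) (nat_lit 16489517675873) (nat_lit 16) (nat_lit 5) (nat_lit 18) (nat_lit 5) (nat_lit 17) (nat_lit 5) (nat_lit 328) (nat_lit 318) (nat_lit 134))) (XT.nd (nat_lit 78) (nat_lit 0) (nat_lit 0) (XT.lf (nat_lit 0) (nat_lit 27800000496087) (nat_lit 76) (nat_lit 818314089206) (nat_lit 152) (nat_lit 69989670000680) (nat_lit 7) (nat_lit 5) (nat_lit 8) (nat_lit 5) (nat_lit 9) (nat_lit 4) (nat_lit 340) (nat_lit 318) (nat_lit 122)) (XT.nd (nat_lit 78) (nat_lit 0) (nat_lit 0) (XT.lf (nat_lit 0) (nat_lit 50346959152215) (nat_lit 152) (nat_lit 38738151496208) (nat_lit 0) (nat_lit 21017067098041) (nat_lit 7) (nat_lit 5) (nat_lit 9) (nat_lit 4) (nat_lit 7) (nat_lit 4) (nat_lit 341) (nat_lit 318) (nat_lit 121)) (XT.lf (nat_lit 0) (nat_lit 75373867741750) (nat_lit 152)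 (nat_lit 1896811351072) (nat_lit 0) (nat_lit 46043975687572) (nat_lit 7) (nat_lit 5) (nat_lit 9) (nat_lit 4) (nat_lit 7) (nat_lit 4) (nat_lit 342) (nat_lit 318) (nat_lit 120))))) (XT.nd (nat_lit 156) (nat_lit 76) (nat_lit 0) (XT.nd (nat_lit 78) (nat_lit 0) (nat_lit 0) (XT.lf (nat_lit 0) (nat_lit 44425823866005) (nat_lit 76) (nat_lit 61568567381695) (nat_lit 76) (nat_lit 32238675327514) (nat_lit 6) (nat_lit 4) (nat_lit 7) (nat_lit 5) (nat_lit 7) (nat_lit 4) (nat_lit 343) (nat_lit 318) (nat_lit 119)) (XT.lf (nat_lit 0) (nat_lit 97910030095884) (nat_lit 76) (nat_lit 43397114686096) (nat_lit 76) (nat_lit 14067222631911) (nat_lit 6) (nat_lit 4) (nat_lit 7) (nat_lit 5) (nat_lit 7) (nat_lit 4) (nat_lit 344) (nat_lit 318) (nat_lit 118))) (XT.nd (nat_lit 38610) (nat_lit 0) (nat_lit 1292) (XT.lf (nat_lit 0) (nat_lit 6221898770044) (nat_lit 152) (nat_lit 15952809698592) (nat_lit 76) (nat_lit 152869732872667)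 (nat_lit 5) (nat_lit 5) (nat_lit 7) (nat_lit 5) (nat_lit 6) (nat_lit 4) (nat_lit 345) (nat_lit 318) (nat_lit 117)) (XT.nd (nat_lit 78) (nat_lit 0) (nat_lit 0) (XT.lf (nat_lit 0) (nat_lit 1255103747473) (nat_lit 380) (nat_lit 3252173682342) (nat_lit 380) (nat_lit 3252173682342) (nat_lit 22) (nat_lit 3) (nat_lit 27) (nat_lit 3) (nat_lit 27) (nat_lit 5) (nat_lit 319) (nat_lit 319) (nat_lit 142)) (XT.lf (nat_lit 76) (nat_lit 819175108619) (nat_lit 0) (nat_lit 1913218243047) (nat_lit 380) (nat_lit 13945338495281) (nat_lit 23) (nat_lit 5) (nat_lit 22) (nat_lit 3) (nat_lit 27) (nat_lit 5) (nat_lit 320) (nat_lit 319) (nat_lit 141))))))))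
noncomputable def xc126 : XT := (XT.nd (nat_lit 41028) (nat_lit 0) (nat_lit 76) (XT.nd (nat_lit 1560) (nat_lit 152) (nat_lit 0) (XT.nd (nat_lit 312) (nat_lit 912) (nat_lit 0) (XT.nd (nat_lit 156) (nat_lit 228) (nat_lit 0) (XT.nd (nat_lit 78) (nat_lit 0) (nat_lit 0) (XT.lf (nat_lit 0) (nat_lit 3603034136781) (nat_lit 304) (nat_lit 8262287089614) (nat_lit 380) (nat_lit 6052795629097) (nat_lit 23) (nat_lit 5) (nat_lit 27) (nat_lit 5) (nat_lit 28) (nat_lit 5) (nat_lit 321) (nat_lit 319) (nat_lit 140)) (XT.lf (nat_lit 76) (nat_lit 419680210203) (nat_lit 0) (nat_lit 4293074522576) (nat_lit 380) (nat_lit 14615532328572) (nat_lit 24) (nat_lit 5) (nat_lit 23) (nat_lit 5) (nat_lit 28) (nat_lit 5) (nat_lit 322) (nat_lit 319) (nat_lit 139))) (XT.nd (nat_lit 78) (nat_lit 304) (nat_lit 0) (XT.lf (nat_lit 0) (nat_lit 6624208112257) (nat_lit 304) (nat_lit 9756070364285) (nat_lit 76) (nat_lit 4474413117435)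 (nat_lit 24) (nat_lit 5) (nat_lit 28) (nat_lit 5) (nat_lit 25) (nat_lit 5) (nat_lit 323) (nat_lit 319) (nat_lit 138)) (XT.lf (nat_lit 0) (nat_lit 620122026463) (nat_lit 304) (nat_lit 8432367522987) (nat_lit 380) (nat_lit 13523050749429) (nat_lit 20) (nat_lit 5) (nat_lit 24) (nat_lit 5) (nat_lit 25) (nat_lit 5) (nat_lit 324) (nat_lit 319) (nat_lit 137)))) (XT.nd (nat_lit 156) (nat_lit 760) (nat_lit 0) (XT.nd (nat_lit 78) (nat_lit 152) (nat_lit 0) (XT.lf (nat_lit 0) (nat_lit 12408579791445) (nat_lit 380) (nat_lit 10882417485134) (nat_lit 76) (nat_lit 1178984044553) (nat_lit 20) (nat_lit 5) (nat_lit 25) (nat_lit 5) (nat_lit 21) (nat_lit 5) (nat_lit 325) (nat_lit 319) (nat_lit 136)) (XT.lf (nat_lit 0) (nat_lit 1591695883939) (nat_lit 152) (nat_lit 15143837728649) (nat_lit 228) (nat_lit 9842937377709) (nat_lit 18) (nat_lit 5) (nat_lit 20) (nat_lit 5) (nat_lit 21) (nat_lit 5) (nat_lit 326)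 (nat_lit 319) (nat_lit 135))) (XT.nd (nat_lit 78) (nat_lit 760) (nat_lit 0) (XT.lf (nat_lit 0) (nat_lit 17159961587073) (nat_lit 152) (nat_lit 5120422561075) (nat_lit 228) (nat_lit 6637521915500) (nat_lit 18) (nat_lit 5) (nat_lit 20) (nat_lit 5) (nat_lit 21) (nat_lit 5) (nat_lit 327) (nat_lit 319) (nat_lit 134)) (XT.nd (nat_lit 936) (nat_lit 684) (nat_lit 0) (XT.lf (nat_lit 0) (nat_lit 3501674303365) (nat_lit 76) (nat_lit 25565564531467) (nat_lit 152) (nat_lit 2479476077554) (nat_lit 17) (nat_lit 5) (nat_lit 18) (nat_lit 5) (nat_lit 19) (nat_lit 4) (nat_lit 328) (nat_lit 319) (nat_lit 133)) (XT.lf (nat_lit 0) (nat_lit 12663313783724) (nat_lit 152) (nat_lit 11562657606642) (nat_lit 76) (nat_lit 77456883236378) (nat_lit 8) (nat_lit 5) (nat_lit 10) (nat_lit 5) (nat_lit 9) (nat_lit 4) (nat_lit 340) (nat_lit 319) (nat_lit 121)))))) (XT.nd (nat_lit 39078) (nat_lit 0) (nat_lit 1064) (XT.nd (nat_lit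 156) (nat_lit 76) (nat_lit 0) (XT.nd (nat_lit 78) (nat_lit 0) (nat_lit 0) (XT.lf (nat_lit 0) (nat_lit 31970000570634) (nat_lit 76) (nat_lit 941061202523) (nat_lit 152) (nat_lit 80488120500702) (nat_lit 7) (nat_lit 5) (nat_lit 8) (nat_lit 5) (nat_lit 9) (nat_lit 4) (nat_lit 341) (nat_lit 319) (nat_lit 120)) (XT.lf (nat_lit 0) (nat_lit 57899003025111) (nat_lit 152) (nat_lit 44548874220516) (nat_lit 0) (nat_lit 24169627162798) (nat_lit 7) (nat_lit 5) (nat_lit 9) (nat_lit 4) (nat_lit 7) (nat_lit 4) (nat_lit 342) (nat_lit 319) (nat_lit 119))) (XT.nd (nat_lit 78) (nat_lit 76) (nat_lit 0) (XT.lf (nat_lit 0) (nat_lit 86679947903067) (nat_lit 152) (nat_lit 2181333053626) (nat_lit 0) (nat_lit 52950572040751) (nat_lit 7) (nat_lit 5) (nat_lit 9) (nat_lit 4) (nat_lit 7) (nat_lit 4) (nat_lit 343) (nat_lit 319) (nat_lit 118)) (XT.nd (nat_lit 38766) (nat_lit 0) (nat_lit 1216) (XT.lf (nat_lit 0) (nat_lit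 51089697446008) (nat_lit 76) (nat_lit 70803852488899) (nat_lit 76) (nat_lit 37074476626581) (nat_lit 6) (nat_lit 4) (nat_lit 7) (nat_lit 5) (nat_lit 7) (nat_lit 4) (nat_lit 344) (nat_lit 319) (nat_lit 117)) (XT.lf (nat_lit 0) (nat_lit 1443369309830) (nat_lit 380) (nat_lit 3739999734557) (nat_lit 380) (nat_lit 3739999734557) (nat_lit 22) (nat_lit 3) (nat_lit 27) (nat_lit 3) (nat_lit 27) (nat_lit 5) (nat_lit 320) (nat_lit 320) (nat_lit 140))))) (XT.nd (nat_lit 156) (nat_lit 152) (nat_lit 0) (XT.nd (nat_lit 78) (nat_lit 0) (nat_lit 76) (XT.lf (nat_lit 76) (nat_lit 942051375173) (nat_lit 0) (nat_lit 2200200979665) (nat_lit 380) (nat_lit 16037139269086) (nat_lit 23) (nat_lit 5) (nat_lit 22) (nat_lit 3) (nat_lit 27) (nat_lit 5) (nat_lit 321) (nat_lit 320) (nat_lit 139)) (XT.lf (nat_lit 0) (nat_lit 4143489257659) (nat_lit 304) (nat_lit 9501630152767) (nat_lit 380) (nat_lit 6960714973334) (nat_lit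 23) (nat_lit 5) (nat_lit 27) (nat_lit 5) (nat_lit 28) (nat_lit 5) (nat_lit 322) (nat_lit 320) (nat_lit 138))) (XT.nd (nat_lit 78) (nat_lit 228) (nat_lit 0) (XT.lf (nat_lit 76) (nat_lit 482632242009) (nat_lit 0) (nat_lit 4937035701012) (nat_lit 380) (nat_lit 16807862177482) (nat_lit 24) (nat_lit 5) (nat_lit 23) (nat_lit 5) (nat_lit 28) (nat_lit 5) (nat_lit 323) (nat_lit 320) (nat_lit 137)) (XT.nd (nat_lit 78) (nat_lit 304) (nat_lit 0) (XT.lf (nat_lit 0) (nat_lit 7617839329377) (nat_lit 304) (nat_lit 11219480918643) (nat_lit 76) (nat_lit 5145575085011) (nat_lit 24) (nat_lit 5) (nat_lit 28) (nat_lit 5) (nat_lit 25) (nat_lit 5) (nat_lit 324) (nat_lit 320) (nat_lit 136)) (XT.lf (nat_lit 0) (nat_lit 713140330705) (nat_lit 304) (nat_lit 9697222651419) (nat_lit 380) (nat_lit 15551508361548) (nat_lit 20) (nat_lit 5) (nat_lit 24) (nat_lit 5) (nat_lit 25) (nat_lit 5) (nat_lit 325) (nat_lit 320)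 (nat_lit 135))))))) (XT.nd (nat_lit 40482) (nat_lit 0) (nat_lit 152) (XT.nd (nat_lit 1248) (nat_lit 76) (nat_lit 0) (XT.nd (nat_lit 156) (nat_lit 760) (nat_lit 0) (XT.nd (nat_lit 78) (nat_lit 152) (nat_lit 0) (XT.lf (nat_lit 0) (nat_lit 14269866760385) (nat_lit 380) (nat_lit 12514780107634) (nat_lit 76) (nat_lit 1355831651249) (nat_lit 20) (nat_lit 5) (nat_lit 25) (nat_lit 5) (nat_lit 21) (nat_lit 5) (nat_lit 326) (nat_lit 320) (nat_lit 134)) (XT.lf (nat_lit 0) (nat_lit 1830450266787) (nat_lit 152) (nat_lit 17415413387893) (nat_lit 228) (nat_lit 11319377984129) (nat_lit 18) (nat_lit 5) (nat_lit 20) (nat_lit 5) (nat_lit 21) (nat_lit 5) (nat_lit 327) (nat_lit 320) (nat_lit 133))) (XT.nd (nat_lit 936) (nat_lit 760) (nat_lit 0) (XT.lf (nat_lit 0) (nat_lit 19733955825358) (nat_lit 152) (nat_lit 5888485945190) (nat_lit 228) (nat_lit 7633150202620) (nat_lit 18) (nat_lit 5) (nat_lit 20) (nat_lit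 5) (nat_lit 21) (nat_lit 5) (nat_lit 328) (nat_lit 320) (nat_lit 132)) (XT.nd (nat_lit 78) (nat_lit 76) (nat_lit 0) (XT.lf (nat_lit 0) (nat_lit 50808891810559) (nat_lit 76) (nat_lit 49394428274011) (nat_lit 76) (nat_lit 4787328696102) (nat_lit 9) (nat_lit 4) (nat_lit 10) (nat_lit 5) (nat_lit 10) (nat_lit 4) (nat_lit 340) (nat_lit 320) (nat_lit 120)) (XT.lf (nat_lit 0) (nat_lit 14562810851339) (nat_lit 152) (nat_lit 13297056247531) (nat_lit 76) (nat_lit 89075415721877) (nat_lit 8) (nat_lit 5) (nat_lit 10) (nat_lit 5) (nat_lit 9) (nat_lit 4) (nat_lit 341) (nat_lit 320) (nat_lit 119))))) (XT.nd (nat_lit 39000) (nat_lit 0) (nat_lit 1140) (XT.nd (nat_lit 78) (nat_lit 0) (nat_lit 0) (XT.lf (nat_lit 0) (nat_lit 36765500656331) (nat_lit 76) (nat_lit 1082220382853) (nat_lit 152) (nat_lit 92561338575746) (nat_lit 7) (nat_lit 5) (nat_lit 8) (nat_lit 5) (nat_lit 9) (nat_lit 4) (nat_lit 342) (nat_lit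 320) (nat_lit 118)) (XT.lf (nat_lit 0) (nat_lit 66583853478925) (nat_lit 152) (nat_lit 51231205353500) (nat_lit 0) (nat_lit 27795071237256) (nat_lit 7) (nat_lit 5) (nat_lit 9) (nat_lit 4) (nat_lit 7) (nat_lit 4) (nat_lit 343) (nat_lit 320) (nat_lit 117))) (XT.nd (nat_lit 78) (nat_lit 0) (nat_lit 0) (XT.lf (nat_lit 0) (nat_lit 1659874706484) (nat_lit 380) (nat_lit 4300999694637) (nat_lit 380) (nat_lit 4300999694637) (nat_lit 22) (nat_lit 3) (nat_lit 27) (nat_lit 3) (nat_lit 27) (nat_lit 5) (nat_lit 321) (nat_lit 321) (nat_lit 138)) (XT.nd (nat_lit 78) (nat_lit 0) (nat_lit 76) (XT.lf (nat_lit 76) (nat_lit 1083359081645) (nat_lit 0) (nat_lit 2530231126737) (nat_lit 380) (nat_lit 18442710159081) (nat_lit 23) (nat_lit 5) (nat_lit 22) (nat_lit 3) (nat_lit 27) (nat_lit 5) (nat_lit 322) (nat_lit 321) (nat_lit 137)) (XT.lf (nat_lit 0) (nat_lit 4765012646581) (nat_lit 304) (nat_lit 10926874675464)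 (nat_lit 380) (nat_lit 8004822219237) (nat_lit 23) (nat_lit 5) (nat_lit 27) (nat_lit 5) (nat_lit 28) (nat_lit 5) (nat_lit 323) (nat_lit 321) (nat_lit 136)))))) (XT.nd (nat_lit 1326) (nat_lit 684) (nat_lit 0) (XT.nd (nat_lit 156) (nat_lit 380) (nat_lit 0) (XT.nd (nat_lit 78) (nat_lit 0) (nat_lit 76) (XT.lf (nat_lit 76) (nat_lit 555027078519) (nat_lit 0) (nat_lit 5677591056202) (nat_lit 380) (nat_lit 19329041503821) (nat_lit 24) (nat_lit 5) (nat_lit 23) (nat_lit 5) (nat_lit 28) (nat_lit 5) (nat_lit 324) (nat_lit 321) (nat_lit 135)) (XT.lf (nat_lit 0) (nat_lit 8760515228996) (nat_lit 304) (nat_lit 12902403056224) (nat_lit 76) (nat_lit 5917411347733) (nat_lit 24) (nat_lit 5) (nat_lit 28) (nat_lit 5) (nat_lit 25) (nat_lit 5) (nat_lit 325) (nat_lit 321) (nat_lit 134))) (XT.nd (nat_lit 78) (nat_lit 152) (nat_lit 0) (XT.lf (nat_lit 0) (nat_lit 820111380516) (nat_lit 304) (nat_lit 11151806049120)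 (nat_lit 380) (nat_lit 17884234615557) (nat_lit 20) (nat_lit 5) (nat_lit 24) (nat_lit 5) (nat_lit 25) (nat_lit 5) (nat_lit 326) (nat_lit 321) (nat_lit 133)) (XT.nd (nat_lit 78) (nat_lit 152) (nat_lit 0) (XT.lf (nat_lit 0) (nat_lit 16410346774612) (nat_lit 380) (nat_lit 14391997123575) (nat_lit 76) (nat_lit 1559206398946) (nat_lit 20) (nat_lit 5) (nat_lit 25) (nat_lit 5) (nat_lit 21) (nat_lit 5) (nat_lit 327) (nat_lit 321) (nat_lit 132)) (XT.lf (nat_lit 0) (nat_lit 2105017807000) (nat_lit 152) (nat_lit 20027725396037) (nat_lit 228) (nat_lit 13017284681571) (nat_lit 18) (nat_lit 5) (nat_lit 20) (nat_lit 5) (nat_lit 21) (nat_lit 5) (nat_lit 328) (nat_lit 321) (nat_lit 131))))) (XT.nd (nat_lit 39234) (nat_lit 0) (nat_lit 988) (XT.nd (nat_lit 39156) (nat_lit 0) (nat_lit 988) (XT.lf (nat_lit 0) (nat_lit 58430225582230) (nat_lit 76) (nat_lit 56803592515071) (nat_lit 76) (nat_lit 5505428000464)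 (nat_lit 9) (nat_lit 4) (nat_lit 10) (nat_lit 5) (nat_lit 10) (nat_lit 4) (nat_lit 341) (nat_lit 321) (nat_lit 118)) (XT.lf (nat_lit 0) (nat_lit 1908855912591) (nat_lit 380) (nat_lit 4946149648755) (nat_lit 380) (nat_lit 4946149648755) (nat_lit 22) (nat_lit 3) (nat_lit 27) (nat_lit 3) (nat_lit 27) (nat_lit 5) (nat_lit 322) (nat_lit 322) (nat_lit 136))) (XT.nd (nat_lit 78) (nat_lit 0) (nat_lit 76) (XT.lf (nat_lit 76) (nat_lit 1245862944041) (nat_lit 0) (nat_lit 2909765795841) (nat_lit 380) (nat_lit 21209116682665) (nat_lit 23) (nat_lit 5) (nat_lit 22) (nat_lit 3) (nat_lit 27) (nat_lit 5) (nat_lit 323) (nat_lit 322) (nat_lit 135)) (XT.nd (nat_lit 78) (nat_lit 0) (nat_lit 0) (XT.lf (nat_lit 0) (nat_lit 5479764543775) (nat_lit 304) (nat_lit 12565905876619) (nat_lit 380) (nat_lit 9205545552049) (nat_lit 23) (nat_lit 5) (nat_lit 27) (nat_lit 5) (nat_lit 28) (nat_lit 5) (nat_lit 324) (nat_lit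 322) (nat_lit 134)) (XT.lf (nat_lit 76) (nat_lit 638281140455) (nat_lit 0) (nat_lit 6529229714661) (nat_lit 380) (nat_lit 22228397729179) (nat_lit 24) (nat_lit 5) (nat_lit 23) (nat_lit 5) (nat_lit 28) (nat_lit 5) (nat_lit 325) (nat_lit 322) (nat_lit 133))))))))
noncomputable def xc127 : XT := (XT.nd (nat_lit 122148) (nat_lit 0) (nat_lit 0) (XT.nd (nat_lit 81198) (nat_lit 0) (nat_lit 0) (XT.nd (nat_lit 40560) (nat_lit 0) (nat_lit 0) (XT.nd (nat_lit 156) (nat_lit 0) (nat_lit 0) (XT.nd (nat_lit 78) (nat_lit 304) (nat_lit 0) (XT.lf (nat_lit 0) (nat_lit 10074592513506) (nat_lit 304) (nat_lit 14837763514495) (nat_lit 76) (nat_lit 6805023049871) (nat_lit 24) (nat_lit 5) (nat_lit 28) (nat_lit 5) (nat_lit 25) (nat_lit 5) (nat_lit 326) (nat_lit 322) (nat_lit 132)) (XT.lf (nat_lit 0) (nat_lit 943128087749) (nat_lit 304) (nat_lit 12824576956478) (nat_lit 380) (nat_lit 20566869807722) (nat_lit 20)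 (nat_lit 5) (nat_lit 24) (nat_lit 5) (nat_lit 25) (nat_lit 5) (nat_lit 327) (nat_lit 322) (nat_lit 131))) (XT.nd (nat_lit 40248) (nat_lit 0) (nat_lit 152) (XT.lf (nat_lit 0) (nat_lit 18871898790931) (nat_lit 380) (nat_lit 16550796691957) (nat_lit 76) (nat_lit 1793087358795) (nat_lit 20) (nat_lit 5) (nat_lit 25) (nat_lit 5) (nat_lit 21) (nat_lit 5) (nat_lit 328) (nat_lit 322) (nat_lit 130)) (XT.nd (nat_lit 78) (nat_lit 0) (nat_lit 0) (XT.lf (nat_lit 0) (nat_lit 2195184299582) (nat_lit 380) (nat_lit 5688072096009) (nat_lit 380) (nat_lit 5688072096009) (nat_lit 22) (nat_lit 3) (nat_lit 27) (nat_lit 3) (nat_lit 27) (nat_lit 5) (nat_lit 323) (nat_lit 323) (nat_lit 134)) (XT.lf (nat_lit 76) (nat_lit 1432742385760) (nat_lit 0) (nat_lit 3346230665287) (nat_lit 380) (nat_lit 24390484184854) (nat_lit 23) (nat_lit 5) (nat_lit 22) (nat_lit 3) (nat_lit 27) (nat_lit 5) (nat_lit 324) (nat_lit 323) (nat_lit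 133))))) (XT.nd (nat_lit 156) (nat_lit 228) (nat_lit 0) (XT.nd (nat_lit 78) (nat_lit 0) (nat_lit 0) (XT.lf (nat_lit 0) (nat_lit 6301729225498) (nat_lit 304) (nat_lit 14450791757987) (nat_lit 380) (nat_lit 10586377384802) (nat_lit 23) (nat_lit 5) (nat_lit 27) (nat_lit 5) (nat_lit 28) (nat_lit 5) (nat_lit 325) (nat_lit 323) (nat_lit 132)) (XT.lf (nat_lit 76) (nat_lit 734023311642) (nat_lit 0) (nat_lit 7508614171882) (nat_lit 380) (nat_lit 25562657388394) (nat_lit 24) (nat_lit 5) (nat_lit 23) (nat_lit 5) (nat_lit 28) (nat_lit 5) (nat_lit 326) (nat_lit 323) (nat_lit 131))) (XT.nd (nat_lit 78) (nat_lit 304) (nat_lit 0) (XT.lf (nat_lit 0) (nat_lit 11585781390654) (nat_lit 304) (nat_lit 17063428041546) (nat_lit 76) (nat_lit 7825776507334) (nat_lit 24) (nat_lit 5) (nat_lit 28) (nat_lit 5) (nat_lit 25) (nat_lit 5) (nat_lit 327) (nat_lit 323) (nat_lit 130)) (XT.nd (nat_lit 40326) (nat_lit 0) (nat_lit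 152) (XT.lf (nat_lit 0) (nat_lit 1084597301029) (nat_lit 304) (nat_lit 14748263499943) (nat_lit 380) (nat_lit 23651900278753) (nat_lit 20) (nat_lit 5) (nat_lit 24) (nat_lit 5) (nat_lit 25) (nat_lit 5) (nat_lit 328) (nat_lit 323) (nat_lit 129)) (XT.lf (nat_lit 0) (nat_lit 2524461944597) (nat_lit 380) (nat_lit 6541282910366) (nat_lit 380) (nat_lit 6541282910366) (nat_lit 22) (nat_lit 3) (nat_lit 27) (nat_lit 3) (nat_lit 27) (nat_lit 5) (nat_lit 324) (nat_lit 324) (nat_lit 132)))))) (XT.nd (nat_lit 390) (nat_lit 0) (nat_lit 0) (XT.nd (nat_lit 156) (nat_lit 152) (nat_lit 0) (XT.nd (nat_lit 78) (nat_lit 0) (nat_lit 76) (XT.lf (nat_lit 76) (nat_lit 1647653743709) (nat_lit 0) (nat_lit 3848165265132) (nat_lit 380) (nat_lit 28049056812423) (nat_lit 23) (nat_lit 5) (nat_lit 22) (nat_lit 3) (nat_lit 27) (nat_lit 5) (nat_lit 325) (nat_lit 324) (nat_lit 131)) (XT.lf (nat_lit 0) (nat_lit 7246988609440)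 (nat_lit 304) (nat_lit 16618410521591) (nat_lit 380) (nat_lit 12174333992480) (nat_lit 23) (nat_lit 5) (nat_lit 27) (nat_lit 5) (nat_lit 28) (nat_lit 5) (nat_lit 326) (nat_lit 324) (nat_lit 130))) (XT.nd (nat_lit 78) (nat_lit 228) (nat_lit 0) (XT.lf (nat_lit 76) (nat_lit 844126808479) (nat_lit 0) (nat_lit 8634906297680) (nat_lit 380) (nat_lit 29397055996530) (nat_lit 24) (nat_lit 5) (nat_lit 23) (nat_lit 5) (nat_lit 28) (nat_lit 5) (nat_lit 327) (nat_lit 324) (nat_lit 129)) (XT.nd (nat_lit 78) (nat_lit 304) (nat_lit 0) (XT.lf (nat_lit 0) (nat_lit 13323648599344) (nat_lit 304) (nat_lit 19622942247685) (nat_lit 76) (nat_lit 8999642983421) (nat_lit 24) (nat_lit 5) (nat_lit 28) (nat_lit 5) (nat_lit 25) (nat_lit 5) (nat_lit 328) (nat_lit 324) (nat_lit 128)) (XT.lf (nat_lit 0) (nat_lit 1247286896272) (nat_lit 304) (nat_lit 16960503024930) (nat_lit 380) (nat_lit 27199685320470) (nat_lit 20)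 (nat_lit 5) (nat_lit 24) (nat_lit 5) (nat_lit 25) (nat_lit 5) (nat_lit 329) (nat_lit 324) (nat_lit 127))))) (XT.nd (nat_lit 40326) (nat_lit 0) (nat_lit 152) (XT.nd (nat_lit 40248) (nat_lit 0) (nat_lit 152) (XT.lf (nat_lit 0) (nat_lit 24958086151190) (nat_lit 380) (nat_lit 21888428624891) (nat_lit 76) (nat_lit 2371358032017) (nat_lit 20) (nat_lit 5) (nat_lit 25) (nat_lit 5) (nat_lit 21) (nat_lit 5) (nat_lit 330) (nat_lit 324) (nat_lit 126)) (XT.lf (nat_lit 0) (nat_lit 2903131236345) (nat_lit 380) (nat_lit 7522475346887) (nat_lit 380) (nat_lit 7522475346887) (nat_lit 22) (nat_lit 3) (nat_lit 27) (nat_lit 3) (nat_lit 27) (nat_lit 5) (nat_lit 325) (nat_lit 325) (nat_lit 130))) (XT.nd (nat_lit 78) (nat_lit 0) (nat_lit 76) (XT.lf (nat_lit 76) (nat_lit 1894801805330) (nat_lit 0) (nat_lit 4425390054942) (nat_lit 380) (nat_lit 32256415334166) (nat_lit 23) (nat_lit 5) (nat_lit 22) (nat_lit 3) (nat_lit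 27) (nat_lit 5) (nat_lit 326) (nat_lit 325) (nat_lit 129)) (XT.nd (nat_lit 78) (nat_lit 0) (nat_lit 0) (XT.lf (nat_lit 0) (nat_lit 8334036900946) (nat_lit 304) (nat_lit 19111172099758) (nat_lit 380) (nat_lit 14000484091320) (nat_lit 23) (nat_lit 5) (nat_lit 27) (nat_lit 5) (nat_lit 28) (nat_lit 5) (nat_lit 327) (nat_lit 325) (nat_lit 128)) (XT.lf (nat_lit 76) (nat_lit 970745829818) (nat_lit 0) (nat_lit 9930142242345) (nat_lit 380) (nat_lit 33806614395917) (nat_lit 24) (nat_lit 5) (nat_lit 23) (nat_lit 5) (nat_lit 28) (nat_lit 5) (nat_lit 328) (nat_lit 325) (nat_lit 127))))))) (XT.nd (nat_lit 121914) (nat_lit 0) (nat_lit 152) (XT.nd (nat_lit 40638) (nat_lit 0) (nat_lit 152) (XT.nd (nat_lit 40404) (nat_lit 0) (nat_lit 152) (XT.nd (nat_lit 78) (nat_lit 304) (nat_lit 0) (XT.lf (nat_lit 0) (nat_lit 15322195889315) (nat_lit 304) (nat_lit 22566383584768) (nat_lit 76) (nat_lit 10349589430925)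 (nat_lit 24) (nat_lit 5) (nat_lit 28) (nat_lit 5) (nat_lit 25) (nat_lit 5) (nat_lit 329) (nat_lit 325) (nat_lit 126)) (XT.lf (nat_lit 0) (nat_lit 1434379930780) (nat_lit 304) (nat_lit 19504578478665) (nat_lit 380) (nat_lit 31279638118468) (nat_lit 20) (nat_lit 5) (nat_lit 24) (nat_lit 5) (nat_lit 25) (nat_lit 5) (nat_lit 330) (nat_lit 325) (nat_lit 125))) (XT.nd (nat_lit 78) (nat_lit 0) (nat_lit 0) (XT.lf (nat_lit 0) (nat_lit 3338600921841) (nat_lit 380) (nat_lit 8650846648895) (nat_lit 380) (nat_lit 8650846648895) (nat_lit 22) (nat_lit 3) (nat_lit 27) (nat_lit 3) (nat_lit 27) (nat_lit 5) (nat_lit 326) (nat_lit 326) (nat_lit 128)) (XT.nd (nat_lit 78) (nat_lit 0) (nat_lit 76) (XT.lf (nat_lit 76) (nat_lit 2179022076178) (nat_lit 0) (nat_lit 5089198563214) (nat_lit 380) (nat_lit 37094877634200) (nat_lit 23) (nat_lit 5) (nat_lit 22) (nat_lit 3) (nat_lit 27) (nat_lit 5) (nat_lit 327) (nat_lit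 326) (nat_lit 127)) (XT.lf (nat_lit 0) (nat_lit 9584142436155) (nat_lit 304) (nat_lit 21977847914668) (nat_lit 380) (nat_lit 16100556704995) (nat_lit 23) (nat_lit 5) (nat_lit 27) (nat_lit 5) (nat_lit 28) (nat_lit 5) (nat_lit 328) (nat_lit 326) (nat_lit 126))))) (XT.nd (nat_lit 40560) (nat_lit 0) (nat_lit 0) (XT.nd (nat_lit 40482) (nat_lit 76) (nat_lit 0) (XT.lf (nat_lit 76) (nat_lit 1116357704343) (nat_lit 0) (nat_lit 11419663578706) (nat_lit 380) (nat_lit 38877606555234) (nat_lit 24) (nat_lit 5) (nat_lit 23) (nat_lit 5) (nat_lit 28) (nat_lit 5) (nat_lit 329) (nat_lit 326) (nat_lit 125)) (XT.lf (nat_lit 0) (nat_lit 3839391060151) (nat_lit 380) (nat_lit 9948473646210) (nat_lit 380) (nat_lit 9948473646210) (nat_lit 22) (nat_lit 3) (nat_lit 27) (nat_lit 3) (nat_lit 27) (nat_lit 5) (nat_lit 327) (nat_lit 327) (nat_lit 126))) (XT.nd (nat_lit 78) (nat_lit 0) (nat_lit 0) (XT.lf (nat_lit 76)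 (nat_lit 2505875387642) (nat_lit 0) (nat_lit 5852578347719) (nat_lit 380) (nat_lit 42659109279262) (nat_lit 23) (nat_lit 5) (nat_lit 22) (nat_lit 3) (nat_lit 27) (nat_lit 5) (nat_lit 328) (nat_lit 327) (nat_lit 125)) (XT.nd (nat_lit 40560) (nat_lit 76) (nat_lit 0) (XT.lf (nat_lit 0) (nat_lit 11021763801630) (nat_lit 304) (nat_lit 25274525101827) (nat_lit 380) (nat_lit 18515640210725) (nat_lit 23) (nat_lit 5) (nat_lit 27) (nat_lit 5) (nat_lit 28) (nat_lit 5) (nat_lit 329) (nat_lit 327) (nat_lit 124)) (XT.lf (nat_lit 0) (nat_lit 4415299719199) (nat_lit 380) (nat_lit 11440744693127) (nat_lit 380) (nat_lit 11440744693127) (nat_lit 22) (nat_lit 3) (nat_lit 27) (nat_lit 3) (nat_lit 27) (nat_lit 5) (nat_lit 328) (nat_lit 328) (nat_lit 124)))))) (XT.nd (nat_lit 162864) (nat_lit 0) (nat_lit 0) (XT.nd (nat_lit 40638) (nat_lit 0) (nat_lit 0) (XT.nd (nat_lit 78) (nat_lit 0) (nat_lit 76) (XT.lf (nat_lit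 76) (nat_lit 2881756695816) (nat_lit 0) (nat_lit 6730465099894) (nat_lit 380) (nat_lit 49057975671099) (nat_lit 23) (nat_lit 5) (nat_lit 22) (nat_lit 3) (nat_lit 27) (nat_lit 5) (nat_lit 329) (nat_lit 328) (nat_lit 123)) (XT.lf (nat_lit 0) (nat_lit 12675028371913) (nat_lit 304) (nat_lit 29065703867071) (nat_lit 380) (nat_lit 21292986242321) (nat_lit 23) (nat_lit 5) (nat_lit 27) (nat_lit 5) (nat_lit 28) (nat_lit 5) (nat_lit 330) (nat_lit 328) (nat_lit 122))) (XT.nd (nat_lit 78) (nat_lit 0) (nat_lit 0) (XT.lf (nat_lit 0) (nat_lit 5077594677098) (nat_lit 380) (nat_lit 13156856397085) (nat_lit 380) (nat_lit 13156856397085) (nat_lit 22) (nat_lit 3) (nat_lit 27) (nat_lit 3) (nat_lit 27) (nat_lit 5) (nat_lit 329) (nat_lit 329) (nat_lit 122)) (XT.nd (nat_lit 122070) (nat_lit 0) (nat_lit 0) (XT.lf (nat_lit 76) (nat_lit 3314020200210) (nat_lit 0) (nat_lit 7740034864891) (nat_lit 380) (nat_lit 56416672021725)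 (nat_lit 23) (nat_lit 5) (nat_lit 22) (nat_lit 3) (nat_lit 27) (nat_lit 5) (nat_lit 330) (nat_lit 329) (nat_lit 121)) (XT.lf (nat_lit 0) (nat_lit 7722386804571) (nat_lit 380) (nat_lit 20009933972894) (nat_lit 380) (nat_lit 20009933972894) (nat_lit 22) (nat_lit 3) (nat_lit 27) (nat_lit 3) (nat_lit 27) (nat_lit 5) (nat_lit 332) (nat_lit 332) (nat_lit 116))))) (XT.nd (nat_lit 156) (nat_lit 0) (nat_lit 0) (XT.nd (nat_lit 78) (nat_lit 0) (nat_lit 76) (XT.lf (nat_lit 76) (nat_lit 5040210472038) (nat_lit 0) (nat_lit 11771625525169) (nat_lit 380) (nat_lit 85802706060958) (nat_lit 23) (nat_lit 5) (nat_lit 22) (nat_lit 3) (nat_lit 27) (nat_lit 5) (nat_lit 333) (nat_lit 332) (nat_lit 115)) (XT.lf (nat_lit 0) (nat_lit 22168703841508) (nat_lit 304) (nat_lit 50836097724072) (nat_lit 380) (nat_lit 37241566018946) (nat_lit 23) (nat_lit 5) (nat_lit 27) (nat_lit 5) (nat_lit 28) (nat_lit 5) (nat_lit 334)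 (nat_lit 332) (nat_lit 114))) (XT.nd (nat_lit 40482) (nat_lit 76) (nat_lit 0) (XT.lf (nat_lit 76) (nat_lit 2582203206529) (nat_lit 0) (nat_lit 26414375780580) (nat_lit 380) (nat_lit 89926266384032) (nat_lit 24) (nat_lit 5) (nat_lit 23) (nat_lit 5) (nat_lit 28) (nat_lit 5) (nat_lit 335) (nat_lit 332) (nat_lit 113)) (XT.nd (nat_lit 78) (nat_lit 0) (nat_lit 0) (XT.lf (nat_lit 0) (nat_lit 8880744825263) (nat_lit 380) (nat_lit 23011424068824) (nat_lit 380) (nat_lit 23011424068824) (nat_lit 22) (nat_lit 3) (nat_lit 27) (nat_lit 3) (nat_lit 27) (nat_lit 5) (nat_lit 333) (nat_lit 333) (nat_lit 114)) (XT.lf (nat_lit 76) (nat_lit 5796242042850) (nat_lit 0) (nat_lit 13537369353949) (nat_lit 380) (nat_lit 98673111970089) (nat_lit 23) (nat_lit 5) (nat_lit 22) (nat_lit 3) (nat_lit 27) (nat_lit 5) (nat_lit 334) (nat_lit 333) (nat_lit 113))))))))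

set_option maxRecDepth 10000000 in
noncomputable def Tp : PT := (PT.nd (nat_lit 5374044) (PT.nd (nat_lit 5171166) pc0 pc1) (PT.nd (nat_lit 121368) pc2 pc3))

set_option maxRecDepth 10000000 in
noncomputable def Tx : XT := (XT.nd (nat_lit 8562060) (nat_lit 0) (nat_lit 76) XT.nil (XT.nd (nat_lit 4996524) (nat_lit 0) (nat_lit 0) (XT.nd (nat_lit 2314182) (nat_lit 0) (nat_lit 0) (XT.nd (nat_lit 1700478) (nat_lit 0) (nat_lit 0) (XT.nd (nat_lit 1257282) (nat_lit 0) (nat_lit 0) (XT.nd (nat_lit 934674) (nat_lit 0) (nat_lit 0) (XT.nd (nat_lit 730080) (nat_lit 0) (nat_lit 0) (XT.nd (nat_lit 608010) (nat_lit 0) (nat_lit 0) (XT.nd (nat_lit 486252) (nat_lit 0) (nat_lit 0) xc0 xc1) (XT.nd (nat_lit 80574) (nat_lit 0) (nat_lit 0) xc2 xc3)) (XT.nd (nat_lit 120978) (nat_lit 0) (nat_lit 0) (XT.nd (nat_lit 79716) (nat_lit 0) (nat_lit 0) xc4 xc5) (XT.nd (nat_lit 41184) (nat_lit 0) (nat_lit 0) xc6 xc7))) (XT.nd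 (nat_lit 198978) (nat_lit 0) (nat_lit 0) (XT.nd (nat_lit 118092) (nat_lit 0) (nat_lit 0) (XT.nd (nat_lit 77532) (nat_lit 0) (nat_lit 0) xc8 xc9) (XT.nd (nat_lit 40482) (nat_lit 0) (nat_lit 0) xc10 xc11)) (XT.nd (nat_lit 43446) (nat_lit 0) (nat_lit 0) (XT.nd (nat_lit 40404) (nat_lit 0) (nat_lit 0) xc12 xc13) (XT.nd (nat_lit 40326) (nat_lit 0) (nat_lit 0) xc14 xc15)))) (XT.nd (nat_lit 242034) (nat_lit 0) (nat_lit 0) (XT.nd (nat_lit 121524) (nat_lit 0) (nat_lit 0) (XT.nd (nat_lit 79092) (nat_lit 0) (nat_lit 0) (XT.nd (nat_lit 39624) (nat_lit 0) (nat_lit 0) xc16 xc17) (XT.nd (nat_lit 3042) (nat_lit 0) (nat_lit 0) xc18 xc19)) (XT.nd (nat_lit 42276) (nat_lit 0) (nat_lit 0) (XT.nd (nat_lit 39234) (nat_lit 0) (nat_lit 0) xc20 xc21) (XT.nd (nat_lit 39156) (nat_lit 0) (nat_lit 0) xc22 xc23))) (XT.nd (nat_lit 84006) (nat_lit 0) (nat_lit 0) (XT.nd (nat_lit 42042) (nat_lit 0) (nat_lit 0) (XT.nd (nat_lit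 39000) (nat_lit 0) (nat_lit 0) xc24 xc25) (XT.nd (nat_lit 38922) (nat_lit 0) (nat_lit 0) xc26 xc27)) (XT.nd (nat_lit 41574) (nat_lit 0) (nat_lit 0) (XT.nd (nat_lit 38220) (nat_lit 0) (nat_lit 0) xc28 xc29) (XT.nd (nat_lit 37674) (nat_lit 0) (nat_lit 0) xc30 xc31))))) (XT.nd (nat_lit 324324) (nat_lit 0) (nat_lit 0) (XT.nd (nat_lit 162552) (nat_lit 0) (nat_lit 0) (XT.nd (nat_lit 81432) (nat_lit 0) (nat_lit 0) (XT.nd (nat_lit 40794) (nat_lit 0) (nat_lit 0) (XT.nd (nat_lit 3042) (nat_lit 0) (nat_lit 0) xc32 xc33) (XT.nd (nat_lit 3042) (nat_lit 0) (nat_lit 0) xc34 xc35)) (XT.nd (nat_lit 40560) (nat_lit 0) (nat_lit 0) (XT.nd (nat_lit 3042) (nat_lit 0) (nat_lit 0) xc36 xc37) (XT.nd (nat_lit 3042) (nat_lit 0) (nat_lit 0) xc38 xc39))) (XT.nd (nat_lit 81276) (nat_lit 0) (nat_lit 0) (XT.nd (nat_lit 40638) (nat_lit 0) (nat_lit 0) (XT.nd (nat_lit 3042) (nat_lit 0) (nat_lit 0) xc40 xc41) (XT.nd (nat_lit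 3042) (nat_lit 0) (nat_lit 0) xc42 xc43)) (XT.nd (nat_lit 40404) (nat_lit 0) (nat_lit 0) (XT.nd (nat_lit 3042) (nat_lit 0) (nat_lit 0) xc44 xc45) (XT.nd (nat_lit 3042) (nat_lit 0) (nat_lit 0) xc46 xc47)))) (XT.nd (nat_lit 127140) (nat_lit 0) (nat_lit 0) (XT.nd (nat_lit 47502) (nat_lit 0) (nat_lit 0) (XT.nd (nat_lit 40170) (nat_lit 0) (nat_lit 0) (XT.nd (nat_lit 3042) (nat_lit 0) (nat_lit 0) xc48 xc49) (XT.nd (nat_lit 3042) (nat_lit 152) (nat_lit 0) xc50 xc51)) (XT.nd (nat_lit 39078) (nat_lit 0) (nat_lit 0) (XT.nd (nat_lit 36036) (nat_lit 0) (nat_lit 0) xc52 xc53) (XT.nd (nat_lit 37518) (nat_lit 0) (nat_lit 0) xc54 xc55))) (XT.nd (nat_lit 81354) (nat_lit 0) (nat_lit 0) (XT.nd (nat_lit 40638) (nat_lit 0) (nat_lit 0) (XT.nd (nat_lit 37596) (nat_lit 0) (nat_lit 0) xc56 xc57) (XT.nd (nat_lit 37674) (nat_lit 0) (nat_lit 0) xc58 xc59)) (XT.nd (nat_lit 40404) (nat_lit 0) (nat_lit 0) (XT.nd (nat_lit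 37362) (nat_lit 0) (nat_lit 0) xc60 xc61) (XT.nd (nat_lit 37362) (nat_lit 0) (nat_lit 0) xc62 xc63)))))) (XT.nd (nat_lit 771342) (nat_lit 0) (nat_lit 0) (XT.nd (nat_lit 362934) (nat_lit 0) (nat_lit 0) (XT.nd (nat_lit 162864) (nat_lit 0) (nat_lit 0) (XT.nd (nat_lit 81120) (nat_lit 0) (nat_lit 0) (XT.nd (nat_lit 40482) (nat_lit 0) (nat_lit 0) (XT.nd (nat_lit 37440) (nat_lit 0) (nat_lit 0) xc64 xc65) (XT.nd (nat_lit 37596) (nat_lit 0) (nat_lit 0) xc66 xc67)) (XT.nd (nat_lit 40794) (nat_lit 0) (nat_lit 0) (XT.nd (nat_lit 37752) (nat_lit 0) (nat_lit 0) xc68 xc69) (XT.nd (nat_lit 37908) (nat_lit 0) (nat_lit 0) xc70 xc71))) (XT.nd (nat_lit 117702) (nat_lit 0) (nat_lit 0) (XT.nd (nat_lit 41106) (nat_lit 0) (nat_lit 0) (XT.nd (nat_lit 38064) (nat_lit 0) (nat_lit 0) xc72 xc73) (XT.nd (nat_lit 38220) (nat_lit 0) (nat_lit 0) xc74 xc75)) (XT.nd (nat_lit 41184) (nat_lit 0) (nat_lit 0) (XT.nd (nat_lit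 3042) (nat_lit 0) (nat_lit 0) xc76 xc77) (XT.nd (nat_lit 3042) (nat_lit 0) (nat_lit 0) xc78 xc79)))) (XT.nd (nat_lit 202332) (nat_lit 0) (nat_lit 0) (XT.nd (nat_lit 82758) (nat_lit 0) (nat_lit 0) (XT.nd (nat_lit 41340) (nat_lit 0) (nat_lit 0) (XT.nd (nat_lit 3042) (nat_lit 0) (nat_lit 0) xc80 xc81) (XT.nd (nat_lit 3666) (nat_lit 0) (nat_lit 0) xc82 xc83)) (XT.nd (nat_lit 41652) (nat_lit 0) (nat_lit 0) (XT.nd (nat_lit 38610) (nat_lit 0) (nat_lit 0) xc84 xc85) (XT.nd (nat_lit 38766) (nat_lit 0) (nat_lit 0) xc86 xc87))) (XT.nd (nat_lit 84630) (nat_lit 0) (nat_lit 0) (XT.nd (nat_lit 42354) (nat_lit 0) (nat_lit 0) (XT.nd (nat_lit 3042) (nat_lit 0) (nat_lit 0) xc88 xc89) (XT.nd (nat_lit 39234) (nat_lit 0) (nat_lit 0) xc90 xc91)) (XT.nd (nat_lit 78780) (nat_lit 0) (nat_lit 0) (XT.nd (nat_lit 39312) (nat_lit 0) (nat_lit 0) xc92 xc93) (XT.nd (nat_lit 3042) (nat_lit 0) (nat_lit 0) xc94 xc95)))))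 (XT.nd (nat_lit 527280) (nat_lit 0) (nat_lit 0) (XT.nd (nat_lit 243594) (nat_lit 0) (nat_lit 0) (XT.nd (nat_lit 121992) (nat_lit 0) (nat_lit 0) (XT.nd (nat_lit 79248) (nat_lit 0) (nat_lit 0) (XT.nd (nat_lit 39624) (nat_lit 0) (nat_lit 0) xc96 xc97) (XT.nd (nat_lit 3042) (nat_lit 0) (nat_lit 0) xc98 xc99)) (XT.nd (nat_lit 79170) (nat_lit 0) (nat_lit 0) (XT.nd (nat_lit 39780) (nat_lit 0) (nat_lit 0) xc100 xc101) (XT.nd (nat_lit 3042) (nat_lit 0) (nat_lit 0) xc102 xc103))) (XT.nd (nat_lit 121992) (nat_lit 0) (nat_lit 0) (XT.nd (nat_lit 42666) (nat_lit 0) (nat_lit 0) (XT.nd (nat_lit 39546) (nat_lit 0) (nat_lit 0) xc104 xc105) (XT.nd (nat_lit 39546) (nat_lit 0) (nat_lit 0) xc106 xc107)) (XT.nd (nat_lit 80262) (nat_lit 0) (nat_lit 0) (XT.nd (nat_lit 40014) (nat_lit 0) (nat_lit 0) xc108 xc109) (XT.nd (nat_lit 40560) (nat_lit 0) (nat_lit 152) xc110 xc111)))) (XT.nd (nat_lit 366756) (nat_lit 0)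 (nat_lit 228) (XT.nd (nat_lit 163254) (nat_lit 0) (nat_lit 0) (XT.nd (nat_lit 81510) (nat_lit 0) (nat_lit 0) (XT.nd (nat_lit 40794) (nat_lit 0) (nat_lit 0) xc112 xc113) (XT.nd (nat_lit 40872) (nat_lit 0) (nat_lit 0) xc114 xc115)) (XT.nd (nat_lit 82368) (nat_lit 0) (nat_lit 228) (XT.nd (nat_lit 41028) (nat_lit 0) (nat_lit 228) xc116 xc117) (XT.nd (nat_lit 79872) (nat_lit 0) (nat_lit 0) xc118 xc119))) (XT.nd (nat_lit 243984) (nat_lit 0) (nat_lit 0) (XT.nd (nat_lit 121290) (nat_lit 0) (nat_lit 152) (XT.nd (nat_lit 41340) (nat_lit 0) (nat_lit 0) xc120 xc121) (XT.nd (nat_lit 41730) (nat_lit 0) (nat_lit 76) xc122 xc123)) (XT.nd (nat_lit 202956) (nat_lit 0) (nat_lit 152) (XT.nd (nat_lit 82758) (nat_lit 0) (nat_lit 0) xc124 xc125) (XT.nd (nat_lit 122304) (nat_lit 0) (nat_lit 1064) xc126 xc127))))))) XT.nil))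

set_option maxRecDepth 10000000 in
noncomputable def Te : XT := XT.nil

set_option maxRecDepth 10000000 in
noncomputable def Tz : ZL := (ZL.cons (nat_lit 76) (nat_lit 6) (nat_lit 246073111102601937482) (ZL.cons (nat_lit 152) (nat_lit 6) (nat_lit 231866753327925787634) (ZL.cons (nat_lit 228) (nat_lit 3) (nat_lit 114829330779728197479) (ZL.cons (nat_lit 304) (nat_lit 6) (nat_lit 215529441887048215310) (ZL.cons (nat_lit 380) (nat_lit 6) (nat_lit 203409010830917238504) (ZL.cons (nat_lit 456) (nat_lit 3) (nat_lit 100744465516124100696) (ZL.cons (nat_lit 532) (nat_lit 6) (nat_lit 189470515116366615174) (ZL.cons (nat_lit 608) (nat_lit 6) (nat_lit 179239051219310121276) (ZL.cons (nat_lit 684) (nat_lit 3) (nat_lit 88784708305885914068) (ZL.cons (nat_lit 760) (nat_lit 6) (nat_lit 167472867737695153290) (ZL.cons (nat_lit 836) (nat_lit 6) (nat_lit 158983327320513351348) (ZL.cons (nat_lit 912) (nat_lit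 3) (nat_lit 78765735570022635179) (ZL.cons (nat_lit 988) (nat_lit 6) (nat_lit 149220355840754279116) (ZL.cons (nat_lit 1064) (nat_lit 6) (nat_lit 142376913062227355818) (ZL.cons (nat_lit 1140) (nat_lit 3) (nat_lit 70557214713518860088) (ZL.cons (nat_lit 1216) (nat_lit 6) (nat_lit 136867249358797669366) (ZL.cons (nat_lit 1292) (nat_lit 6) (nat_lit 134506953866921394030) (ZL.cons (nat_lit 1368) (nat_lit 6) (nat_lit 129268652464663894298) (ZL.cons (nat_lit 1444) (nat_lit 3) (nat_lit 64085420303988627302) (ZL.cons (nat_lit 1520) (nat_lit 6) (nat_lit 125297036714568878594) (ZL.cons (nat_lit 1596) (nat_lit 6) (nat_lit 123244605852067769606) (ZL.cons (nat_lit 1672) (nat_lit 3) (nat_lit 60160248104228468906) (ZL.cons (nat_lit 1748) (nat_lit 6) (nat_lit 120866302723336155254) (ZL.cons (nat_lit 1824) (nat_lit 6) (nat_lit 122514401091091009652) (ZL.cons (nat_lit 1900) (nat_lit 6) (nat_lit 119631866745272970840)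 (ZL.cons (nat_lit 1976) (nat_lit 3) (nat_lit 59338623869729250773) (ZL.cons (nat_lit 2052) (nat_lit 6) (nat_lit 116088455254600033884) (ZL.cons (nat_lit 2128) (nat_lit 6) (nat_lit 117261939261590351380) (ZL.cons (nat_lit 2204) (nat_lit 6) (nat_lit 115477216772458952262) (ZL.cons (nat_lit 2280) (nat_lit 3) (nat_lit 56477113078714884825) (ZL.cons (nat_lit 2356) (nat_lit 6) (nat_lit 113581903649540869704) (ZL.cons (nat_lit 2432) (nat_lit 3) (nat_lit 56375900083111969940) (ZL.cons (nat_lit 2508) (nat_lit 6) (nat_lit 111402293558185074764) (ZL.cons (nat_lit 2584) (nat_lit 1) (nat_lit 18446744073709551617) ZL.nil))))))))))))))))))))))))))))))))))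

noncomputable def vl : XL := ⟨(nat_lit 0), (nat_lit 76), (nat_lit 112013727), (nat_lit 228), (nat_lit 277433956), (nat_lit 76), (nat_lit 112013727), (nat_lit 1), (nat_lit 5), (nat_lit 3), (nat_lit 4), (nat_lit 1), (nat_lit 4), (nat_lit 0), (nat_lit 0), (nat_lit 0)⟩

noncomputable def cp0 : Nat := (nat_lit 32895649167988382637291923474203628180578467211665219112989993424324278472962754918481920)

noncomputable def cp1 : Nat := (nat_lit 31779109016372829343048480386113566325772509516016906351745147302280363730957800149790128764283636727000498770875488846142362578102711514891602828385374321103055744645869296038016283066595266150060236668715633351031628200861117680898906053489105036798788535336431226695679075147835006827519062888648015834369939343063457572149943684594585965905129789055797192506600676622384251884503893037576817402132189376083534633991938675221105248426790355470245317773912738365713602708483747073522449473287945048298879563932817864536166556302316604642667162307056528179170245911647999367558900641971816183762281353631327644606869578275531777286883150706662486256022424700183530643427017475089761887676137741648660712875096899955604754100542795557996280959648816390184269251273405401073523949434723992971771904)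

noncomputable def rc0 : Nat := (nat_lit 31779109016372829343048480386113566325772509516016906351745147302280363730957800149790128764283636727000498770875488846142362578102711514891602828385374321103055744645869296038016283066595266150060236668715633351031628200861117680898906053489105036798788535336431226695679075147835006827519062888648015834369939343063457572149943684594585965905129789055797192506600676622384251884503893037576817402132189376083534633991938675221105248426790355470245317773912738365713602708483747073522449473287945048298879563932817864536166556302316604642667162307056528179170245911647999367558900641971816183762281353631327644606869578275531777286883150706662486256022424700183530643427017475089761887676137741648660712875096899955604754100542795557996280959648816390184269251273405401073523949434723992971771904)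

end Vale.Agent.Lib.P154.PChain.BJ.S0
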