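import Vale.Agent.Lib.P154.PChain.BJ.R0_0

set_option linter.all false

namespace Vale.Agent.Lib.P154.PChain.BJ.S1

open Vale.Agent.Lib.P154.Chain

noncomputable def pc0 : PT := (PT.nd (nat_lit 4927728) (PT.nd (nat_lit 4765254) (PT.nd (nat_lit 4684056) (PT.nd (nat_lit 4643418) (PT.nd (nat_lit 4602936) (PT.nd (nat_lit 4602858) PT.nil (PT.lf (nat_lit 76) (nat_lit 6) (nat_lit 1) (nat_lit 3) (nat_lit 138) (nat_lit 113) (nat_lit 139))) (PT.lf (nat_lit 76) (nat_lit 6) (nat_lit 1) (nat_lit 1) (nat_lit 139) (nat_lit 113) (nat_lit 138))) (PT.nd (nat_lit 78) (PT.lf (nat_lit 152) (nat_lit 6) (nat_lit 2) (nat_lit 3) (nat_lit 137) (nat_lit 114) (nat_lit 139)) (PT.nd (nat_lit 78) (PT.lf (nat_lit 228) (nat_lit 3) (nat_lit 3) (nat_lit 1) (nat_lit 138) (nat_lit 114) (nat_lit 138)) (PT.lf (nat_lit 152) (nat_lit 6) (nat_lit 2) (nat_lit 1) (nat_lit 139) (nat_lit 114) (nat_lit 137))))) (PT.nd (nat_lit 40560)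 (PT.nd (nat_lit 78) (PT.lf (nat_lit 304) (nat_lit 6) (nat_lit 4) (nat_lit 3) (nat_lit 137) (nat_lit 115) (nat_lit 138)) (PT.lf (nat_lit 304) (nat_lit 6) (nat_lit 4) (nat_lit 1) (nat_lit 138) (nat_lit 115) (nat_lit 137))) (PT.nd (nat_lit 78) (PT.lf (nat_lit 380) (nat_lit 6) (nat_lit 5) (nat_lit 3) (nat_lit 136) (nat_lit 116) (nat_lit 138)) (PT.nd (nat_lit 78) (PT.lf (nat_lit 456) (nat_lit 3) (nat_lit 6) (nat_lit 1) (nat_lit 137) (nat_lit 116) (nat_lit 137)) (PT.lf (nat_lit 380) (nat_lit 6) (nat_lit 5) (nat_lit 1) (nat_lit 138) (nat_lit 116) (nat_lit 136)))))) (PT.nd (nat_lit 81198) (PT.nd (nat_lit 40560) (PT.nd (nat_lit 78) (PT.lf (nat_lit 532) (nat_lit 6) (nat_lit 7) (nat_lit 3) (nat_lit 136) (nat_lit 117) (nat_lit 137)) (PT.lf (nat_lit 532) (nat_lit 6) (nat_lit 7) (nat_lit 1) (nat_lit 137) (nat_lit 117) (nat_lit 136))) (PT.nd (nat_lit 78) (PT.lf (nat_lit 608) (nat_lit 6) (nat_lit 8) (nat_lit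 3) (nat_lit 135) (nat_lit 118) (nat_lit 137)) (PT.nd (nat_lit 78) (PT.lf (nat_lit 684) (nat_lit 3) (nat_lit 9) (nat_lit 1) (nat_lit 136) (nat_lit 118) (nat_lit 136)) (PT.lf (nat_lit 608) (nat_lit 6) (nat_lit 8) (nat_lit 1) (nat_lit 137) (nat_lit 118) (nat_lit 135))))) (PT.nd (nat_lit 40638) (PT.nd (nat_lit 78) (PT.lf (nat_lit 760) (nat_lit 6) (nat_lit 10) (nat_lit 3) (nat_lit 135) (nat_lit 119) (nat_lit 136)) (PT.nd (nat_lit 40482) (PT.lf (nat_lit 760) (nat_lit 6) (nat_lit 10) (nat_lit 1) (nat_lit 136) (nat_lit 119) (nat_lit 135)) (PT.lf (nat_lit 836) (nat_lit 6) (nat_lit 11) (nat_lit 3) (nat_lit 134) (nat_lit 120) (nat_lit 136)))) (PT.nd (nat_lit 78) (PT.lf (nat_lit 912) (nat_lit 3) (nat_lit 12) (nat_lit 1) (nat_lit 135) (nat_lit 120) (nat_lit 135)) (PT.nd (nat_lit 40482) (PT.lf (nat_lit 836) (nat_lit 6) (nat_lit 11) (nat_lit 1) (nat_lit 136) (nat_lit 120) (nat_lit 134)) (PT.lf (nat_lit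 988) (nat_lit 6) (nat_lit 13) (nat_lit 3) (nat_lit 134) (nat_lit 121) (nat_lit 135))))))) (PT.nd (nat_lit 121836) (PT.nd (nat_lit 81120) (PT.nd (nat_lit 40560) (PT.nd (nat_lit 40482) (PT.lf (nat_lit 988) (nat_lit 6) (nat_lit 13) (nat_lit 1) (nat_lit 135) (nat_lit 121) (nat_lit 134)) (PT.lf (nat_lit 1064) (nat_lit 6) (nat_lit 14) (nat_lit 3) (nat_lit 133) (nat_lit 122) (nat_lit 135))) (PT.nd (nat_lit 78) (PT.lf (nat_lit 1140) (nat_lit 3) (nat_lit 15) (nat_lit 1) (nat_lit 134) (nat_lit 122) (nat_lit 134)) (PT.nd (nat_lit 40404) (PT.lf (nat_lit 1064) (nat_lit 6) (nat_lit 14) (nat_lit 1) (nat_lit 135) (nat_lit 122) (nat_lit 133)) (PT.lf (nat_lit 1216) (nat_lit 6) (nat_lit 16) (nat_lit 3) (nat_lit 132) (nat_lit 123) (nat_lit 135))))) (PT.nd (nat_lit 156) (PT.nd (nat_lit 78) (PT.lf (nat_lit 1292) (nat_lit 6) (nat_lit 17) (nat_lit 3) (nat_lit 133) (nat_lit 123) (nat_lit 134)) (PT.lf (nat_lit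 1292) (nat_lit 6) (nat_lit 17) (nat_lit 1) (nat_lit 134) (nat_lit 123) (nat_lit 133))) (PT.nd (nat_lit 40404) (PT.lf (nat_lit 1216) (nat_lit 6) (nat_lit 16) (nat_lit 1) (nat_lit 135) (nat_lit 123) (nat_lit 132)) (PT.nd (nat_lit 78) (PT.lf (nat_lit 1368) (nat_lit 6) (nat_lit 18) (nat_lit 3) (nat_lit 132) (nat_lit 124) (nat_lit 134)) (PT.lf (nat_lit 1444) (nat_lit 3) (nat_lit 19) (nat_lit 1) (nat_lit 133) (nat_lit 124) (nat_lit 133)))))) (PT.nd (nat_lit 80964) (PT.nd (nat_lit 40482) (PT.nd (nat_lit 40404) (PT.lf (nat_lit 1368) (nat_lit 6) (nat_lit 18) (nat_lit 1) (nat_lit 134) (nat_lit 124) (nat_lit 132)) (PT.lf (nat_lit 1520) (nat_lit 6) (nat_lit 20) (nat_lit 3) (nat_lit 131) (nat_lit 125) (nat_lit 134))) (PT.nd (nat_lit 78) (PT.lf (nat_lit 1596) (nat_lit 6) (nat_lit 21) (nat_lit 3) (nat_lit 132) (nat_lit 125) (nat_lit 133)) (PT.nd (nat_lit 78) (PT.lf (nat_lit 1596) (nat_lit 6) (nat_lit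 21) (nat_lit 1) (nat_lit 133) (nat_lit 125) (nat_lit 132)) (PT.lf (nat_lit 1520) (nat_lit 6) (nat_lit 20) (nat_lit 1) (nat_lit 134) (nat_lit 125) (nat_lit 131))))) (PT.nd (nat_lit 234) (PT.nd (nat_lit 78) (PT.lf (nat_lit 1824) (nat_lit 6) (nat_lit 24) (nat_lit 3) (nat_lit 130) (nat_lit 126) (nat_lit 134)) (PT.nd (nat_lit 78) (PT.lf (nat_lit 1900) (nat_lit 6) (nat_lit 25) (nat_lit 3) (nat_lit 131) (nat_lit 126) (nat_lit 133)) (PT.lf (nat_lit 1976) (nat_lit 3) (nat_lit 26) (nat_lit 1) (nat_lit 132) (nat_lit 126) (nat_lit 132)))) (PT.nd (nat_lit 78) (PT.lf (nat_lit 1900) (nat_lit 6) (nat_lit 25) (nat_lit 1) (nat_lit 133) (nat_lit 126) (nat_lit 131)) (PT.nd (nat_lit 40248) (PT.lf (nat_lit 1824) (nat_lit 6) (nat_lit 24) (nat_lit 1) (nat_lit 134) (nat_lit 126) (nat_lit 130)) (PT.lf (nat_lit 1748) (nat_lit 6) (nat_lit 23) (nat_lit 3) (nat_lit 129) (nat_lit 127) (nat_lit 134))))))))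
noncomputable def pc1 : PT := (PT.nd (nat_lit 121680) (PT.nd (nat_lit 40872) (PT.nd (nat_lit 40482) (PT.nd (nat_lit 156) (PT.nd (nat_lit 78) (PT.lf (nat_lit 2128) (nat_lit 6) (nat_lit 28) (nat_lit 3) (nat_lit 130) (nat_lit 127) (nat_lit 133)) (PT.lf (nat_lit 2204) (nat_lit 6) (nat_lit 29) (nat_lit 3) (nat_lit 131) (nat_lit 127) (nat_lit 132))) (PT.nd (nat_lit 78) (PT.lf (nat_lit 2204) (nat_lit 6) (nat_lit 29) (nat_lit 1) (nat_lit 132) (nat_lit 127) (nat_lit 131)) (PT.nd (nat_lit 78) (PT.lf (nat_lit 2128) (nat_lit 6) (nat_lit 28) (nat_lit 1) (nat_lit 133) (nat_lit 127) (nat_lit 130)) (PT.lf (nat_lit 1748) (nat_lit 6) (nat_lit 23) (nat_lit 1) (nat_lit 134) (nat_lit 127) (nat_lit 129))))) (PT.nd (nat_lit 156) (PT.nd (nat_lit 78) (PT.lf (nat_lit 1672) (nat_lit 3) (nat_lit 22) (nat_lit 3) (nat_lit 128) (nat_lit 128) (nat_lit 134)) (PT.lf (nat_lit 2052) (nat_lit 6) (nat_lit 27) (nat_lit 3) (nat_lit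 129) (nat_lit 128) (nat_lit 133))) (PT.nd (nat_lit 78) (PT.lf (nat_lit 2356) (nat_lit 6) (nat_lit 31) (nat_lit 3) (nat_lit 130) (nat_lit 128) (nat_lit 132)) (PT.nd (nat_lit 78) (PT.lf (nat_lit 2432) (nat_lit 3) (nat_lit 32) (nat_lit 1) (nat_lit 131) (nat_lit 128) (nat_lit 131)) (PT.lf (nat_lit 2356) (nat_lit 6) (nat_lit 31) (nat_lit 1) (nat_lit 132) (nat_lit 128) (nat_lit 130)))))) (PT.nd (nat_lit 40404) (PT.nd (nat_lit 40170) (PT.nd (nat_lit 78) (PT.lf (nat_lit 2052) (nat_lit 6) (nat_lit 27) (nat_lit 1) (nat_lit 133) (nat_lit 128) (nat_lit 129)) (PT.lf (nat_lit 1672) (nat_lit 3) (nat_lit 22) (nat_lit 0) (nat_lit 134) (nat_lit 128) (nat_lit 128))) (PT.nd (nat_lit 78) (PT.lf (nat_lit 1748) (nat_lit 6) (nat_lit 23) (nat_lit 5) (nat_lit 127) (nat_lit 129) (nat_lit 134)) (PT.nd (nat_lit 78) (PT.lf (nat_lit 2052) (nat_lit 6) (nat_lit 27) (nat_lit 5) (nat_lit 128) (nat_lit 129) (nat_lit 133))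 (PT.lf (nat_lit 2280) (nat_lit 3) (nat_lit 30) (nat_lit 3) (nat_lit 129) (nat_lit 129) (nat_lit 132))))) (PT.nd (nat_lit 234) (PT.nd (nat_lit 78) (PT.lf (nat_lit 2508) (nat_lit 6) (nat_lit 33) (nat_lit 3) (nat_lit 130) (nat_lit 129) (nat_lit 131)) (PT.nd (nat_lit 78) (PT.lf (nat_lit 2508) (nat_lit 6) (nat_lit 33) (nat_lit 1) (nat_lit 131) (nat_lit 129) (nat_lit 130)) (PT.lf (nat_lit 2280) (nat_lit 3) (nat_lit 30) (nat_lit 0) (nat_lit 132) (nat_lit 129) (nat_lit 129)))) (PT.nd (nat_lit 78) (PT.lf (nat_lit 2052) (nat_lit 6) (nat_lit 27) (nat_lit 0) (nat_lit 133) (nat_lit 129) (nat_lit 128)) (PT.nd (nat_lit 40014) (PT.lf (nat_lit 1748) (nat_lit 6) (nat_lit 23) (nat_lit 0) (nat_lit 134) (nat_lit 129) (nat_lit 127)) (PT.lf (nat_lit 1824) (nat_lit 6) (nat_lit 24) (nat_lit 5) (nat_lit 126) (nat_lit 130) (nat_lit 134))))))) (PT.nd (nat_lit 40638) (PT.nd (nat_lit 390) (PT.nd (nat_lit 156) (PT.nd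 (nat_lit 78) (PT.lf (nat_lit 2128) (nat_lit 6) (nat_lit 28) (nat_lit 5) (nat_lit 127) (nat_lit 130) (nat_lit 133)) (PT.lf (nat_lit 2356) (nat_lit 6) (nat_lit 31) (nat_lit 5) (nat_lit 128) (nat_lit 130) (nat_lit 132))) (PT.nd (nat_lit 78) (PT.lf (nat_lit 2508) (nat_lit 6) (nat_lit 33) (nat_lit 5) (nat_lit 129) (nat_lit 130) (nat_lit 131)) (PT.nd (nat_lit 78) (PT.lf (nat_lit 2584) (nat_lit 1) (nat_lit 34) (nat_lit 0) (nat_lit 130) (nat_lit 130) (nat_lit 130)) (PT.lf (nat_lit 2508) (nat_lit 6) (nat_lit 33) (nat_lit 0) (nat_lit 131) (nat_lit 130) (nat_lit 129))))) (PT.nd (nat_lit 156) (PT.nd (nat_lit 78) (PT.lf (nat_lit 2356) (nat_lit 6) (nat_lit 31) (nat_lit 0) (nat_lit 132) (nat_lit 130) (nat_lit 128)) (PT.lf (nat_lit 2128) (nat_lit 6) (nat_lit 28) (nat_lit 0) (nat_lit 133) (nat_lit 130) (nat_lit 127))) (PT.nd (nat_lit 39936) (PT.lf (nat_lit 1824) (nat_lit 6) (nat_lit 24) (nat_lit 0) (nat_lit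 134) (nat_lit 130) (nat_lit 126)) (PT.nd (nat_lit 78) (PT.lf (nat_lit 1520) (nat_lit 6) (nat_lit 20) (nat_lit 5) (nat_lit 125) (nat_lit 131) (nat_lit 134)) (PT.lf (nat_lit 1900) (nat_lit 6) (nat_lit 25) (nat_lit 5) (nat_lit 126) (nat_lit 131) (nat_lit 133)))))) (PT.nd (nat_lit 390) (PT.nd (nat_lit 156) (PT.nd (nat_lit 78) (PT.lf (nat_lit 2204) (nat_lit 6) (nat_lit 29) (nat_lit 5) (nat_lit 127) (nat_lit 131) (nat_lit 132)) (PT.lf (nat_lit 2432) (nat_lit 3) (nat_lit 32) (nat_lit 4) (nat_lit 128) (nat_lit 131) (nat_lit 131))) (PT.nd (nat_lit 78) (PT.lf (nat_lit 2508) (nat_lit 6) (nat_lit 33) (nat_lit 4) (nat_lit 129) (nat_lit 131) (nat_lit 130)) (PT.nd (nat_lit 78) (PT.lf (nat_lit 2508) (nat_lit 6) (nat_lit 33) (nat_lit 2) (nat_lit 130) (nat_lit 131) (nat_lit 129)) (PT.lf (nat_lit 2432) (nat_lit 3) (nat_lit 32) (nat_lit 0) (nat_lit 131) (nat_lit 131) (nat_lit 128))))) (PT.nd (nat_lit 39936)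 (PT.nd (nat_lit 78) (PT.lf (nat_lit 2204) (nat_lit 6) (nat_lit 29) (nat_lit 0) (nat_lit 132) (nat_lit 131) (nat_lit 127)) (PT.nd (nat_lit 78) (PT.lf (nat_lit 1900) (nat_lit 6) (nat_lit 25) (nat_lit 0) (nat_lit 133) (nat_lit 131) (nat_lit 126)) (PT.lf (nat_lit 1520) (nat_lit 6) (nat_lit 20) (nat_lit 0) (nat_lit 134) (nat_lit 131) (nat_lit 125)))) (PT.nd (nat_lit 78) (PT.lf (nat_lit 1216) (nat_lit 6) (nat_lit 16) (nat_lit 5) (nat_lit 123) (nat_lit 132) (nat_lit 135)) (PT.nd (nat_lit 78) (PT.lf (nat_lit 1368) (nat_lit 6) (nat_lit 18) (nat_lit 5) (nat_lit 124) (nat_lit 132) (nat_lit 134)) (PT.lf (nat_lit 1596) (nat_lit 6) (nat_lit 21) (nat_lit 5) (nat_lit 125) (nat_lit 132) (nat_lit 133))))))))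
noncomputable def pc2 : PT := (PT.nd (nat_lit 41184) (PT.nd (nat_lit 40326) (PT.nd (nat_lit 390) (PT.nd (nat_lit 156) (PT.nd (nat_lit 78) (PT.lf (nat_lit 1976) (nat_lit 3) (nat_lit 26) (nat_lit 4) (nat_lit 126) (nat_lit 132) (nat_lit 132)) (PT.lf (nat_lit 2204) (nat_lit 6) (nat_lit 29) (nat_lit 4) (nat_lit 127) (nat_lit 132) (nat_lit 131))) (PT.nd (nat_lit 78) (PT.lf (nat_lit 2356) (nat_lit 6) (nat_lit 31) (nat_lit 4) (nat_lit 128) (nat_lit 132) (nat_lit 130)) (PT.nd (nat_lit 78) (PT.lf (nat_lit 2280) (nat_lit 3) (nat_lit 30) (nat_lit 2) (nat_lit 129) (nat_lit 132) (nat_lit 129)) (PT.lf (nat_lit 2356) (nat_lit 6) (nat_lit 31) (nat_lit 2) (nat_lit 130) (nat_lit 132) (nat_lit 128))))) (PT.nd (nat_lit 156) (PT.nd (nat_lit 78) (PT.lf (nat_lit 2204) (nat_lit 6) (nat_lit 29) (nat_lit 2) (nat_lit 131) (nat_lit 132) (nat_lit 127)) (PT.lf (nat_lit 1976) (nat_lit 3) (nat_lit 26) (nat_lit 0) (nat_lit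 132) (nat_lit 132) (nat_lit 126))) (PT.nd (nat_lit 78) (PT.lf (nat_lit 1596) (nat_lit 6) (nat_lit 21) (nat_lit 0) (nat_lit 133) (nat_lit 132) (nat_lit 125)) (PT.nd (nat_lit 78) (PT.lf (nat_lit 1368) (nat_lit 6) (nat_lit 18) (nat_lit 0) (nat_lit 134) (nat_lit 132) (nat_lit 124)) (PT.lf (nat_lit 1216) (nat_lit 6) (nat_lit 16) (nat_lit 0) (nat_lit 135) (nat_lit 132) (nat_lit 123)))))) (PT.nd (nat_lit 390) (PT.nd (nat_lit 156) (PT.nd (nat_lit 78) (PT.lf (nat_lit 1064) (nat_lit 6) (nat_lit 14) (nat_lit 5) (nat_lit 122) (nat_lit 133) (nat_lit 135)) (PT.lf (nat_lit 1292) (nat_lit 6) (nat_lit 17) (nat_lit 5) (nat_lit 123) (nat_lit 133) (nat_lit 134))) (PT.nd (nat_lit 78) (PT.lf (nat_lit 1444) (nat_lit 3) (nat_lit 19) (nat_lit 4) (nat_lit 124) (nat_lit 133) (nat_lit 133)) (PT.nd (nat_lit 78) (PT.lf (nat_lit 1596) (nat_lit 6) (nat_lit 21) (nat_lit 4) (nat_lit 125) (nat_lit 133) (nat_lit 132)) (PT.lf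 (nat_lit 1900) (nat_lit 6) (nat_lit 25) (nat_lit 4) (nat_lit 126) (nat_lit 133) (nat_lit 131))))) (PT.nd (nat_lit 234) (PT.nd (nat_lit 78) (PT.lf (nat_lit 2128) (nat_lit 6) (nat_lit 28) (nat_lit 4) (nat_lit 127) (nat_lit 133) (nat_lit 130)) (PT.nd (nat_lit 78) (PT.lf (nat_lit 2052) (nat_lit 6) (nat_lit 27) (nat_lit 4) (nat_lit 128) (nat_lit 133) (nat_lit 129)) (PT.lf (nat_lit 2052) (nat_lit 6) (nat_lit 27) (nat_lit 2) (nat_lit 129) (nat_lit 133) (nat_lit 128)))) (PT.nd (nat_lit 78) (PT.lf (nat_lit 2128) (nat_lit 6) (nat_lit 28) (nat_lit 2) (nat_lit 130) (nat_lit 133) (nat_lit 127)) (PT.nd (nat_lit 78) (PT.lf (nat_lit 1900) (nat_lit 6) (nat_lit 25) (nat_lit 2) (nat_lit 131) (nat_lit 133) (nat_lit 126)) (PT.lf (nat_lit 1596) (nat_lit 6) (nat_lit 21) (nat_lit 2) (nat_lit 132) (nat_lit 133) (nat_lit 125))))))) (PT.nd (nat_lit 40170) (PT.nd (nat_lit 39780) (PT.nd (nat_lit 156) (PT.nd (nat_lit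 78) (PT.lf (nat_lit 1444) (nat_lit 3) (nat_lit 19) (nat_lit 0) (nat_lit 133) (nat_lit 133) (nat_lit 124)) (PT.lf (nat_lit 1292) (nat_lit 6) (nat_lit 17) (nat_lit 0) (nat_lit 134) (nat_lit 133) (nat_lit 123))) (PT.nd (nat_lit 39468) (PT.lf (nat_lit 1064) (nat_lit 6) (nat_lit 14) (nat_lit 0) (nat_lit 135) (nat_lit 133) (nat_lit 122)) (PT.nd (nat_lit 78) (PT.lf (nat_lit 836) (nat_lit 6) (nat_lit 11) (nat_lit 5) (nat_lit 120) (nat_lit 134) (nat_lit 136)) (PT.lf (nat_lit 988) (nat_lit 6) (nat_lit 13) (nat_lit 5) (nat_lit 121) (nat_lit 134) (nat_lit 135))))) (PT.nd (nat_lit 156) (PT.nd (nat_lit 78) (PT.lf (nat_lit 1140) (nat_lit 3) (nat_lit 15) (nat_lit 4) (nat_lit 122) (nat_lit 134) (nat_lit 134)) (PT.lf (nat_lit 1292) (nat_lit 6) (nat_lit 17) (nat_lit 4) (nat_lit 123) (nat_lit 134) (nat_lit 133))) (PT.nd (nat_lit 78) (PT.lf (nat_lit 1368) (nat_lit 6) (nat_lit 18) (nat_lit 4) (nat_lit 124)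 (nat_lit 134) (nat_lit 132)) (PT.nd (nat_lit 78) (PT.lf (nat_lit 1520) (nat_lit 6) (nat_lit 20) (nat_lit 4) (nat_lit 125) (nat_lit 134) (nat_lit 131)) (PT.lf (nat_lit 1824) (nat_lit 6) (nat_lit 24) (nat_lit 4) (nat_lit 126) (nat_lit 134) (nat_lit 130)))))) (PT.nd (nat_lit 390) (PT.nd (nat_lit 156) (PT.nd (nat_lit 78) (PT.lf (nat_lit 1748) (nat_lit 6) (nat_lit 23) (nat_lit 4) (nat_lit 127) (nat_lit 134) (nat_lit 129)) (PT.lf (nat_lit 1672) (nat_lit 3) (nat_lit 22) (nat_lit 2) (nat_lit 128) (nat_lit 134) (nat_lit 128))) (PT.nd (nat_lit 78) (PT.lf (nat_lit 1748) (nat_lit 6) (nat_lit 23) (nat_lit 2) (nat_lit 129) (nat_lit 134) (nat_lit 127)) (PT.nd (nat_lit 78) (PT.lf (nat_lit 1824) (nat_lit 6) (nat_lit 24) (nat_lit 2) (nat_lit 130) (nat_lit 134) (nat_lit 126)) (PT.lf (nat_lit 1520) (nat_lit 6) (nat_lit 20) (nat_lit 2) (nat_lit 131) (nat_lit 134) (nat_lit 125))))) (PT.nd (nat_lit 234) (PT.nd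 (nat_lit 78) (PT.lf (nat_lit 1368) (nat_lit 6) (nat_lit 18) (nat_lit 2) (nat_lit 132) (nat_lit 134) (nat_lit 124)) (PT.nd (nat_lit 78) (PT.lf (nat_lit 1292) (nat_lit 6) (nat_lit 17) (nat_lit 2) (nat_lit 133) (nat_lit 134) (nat_lit 123)) (PT.lf (nat_lit 1140) (nat_lit 3) (nat_lit 15) (nat_lit 0) (nat_lit 134) (nat_lit 134) (nat_lit 122)))) (PT.nd (nat_lit 78) (PT.lf (nat_lit 988) (nat_lit 6) (nat_lit 13) (nat_lit 0) (nat_lit 135) (nat_lit 134) (nat_lit 121)) (PT.nd (nat_lit 39234) (PT.lf (nat_lit 836) (nat_lit 6) (nat_lit 11) (nat_lit 0) (nat_lit 136) (nat_lit 134) (nat_lit 120)) (PT.lf (nat_lit 608) (nat_lit 6) (nat_lit 8) (nat_lit 5) (nat_lit 118) (nat_lit 135) (nat_lit 137))))))))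
noncomputable def pc3 : PT := (PT.nd (nat_lit 80886) (PT.nd (nat_lit 1404) (PT.nd (nat_lit 1014) (PT.nd (nat_lit 156) (PT.nd (nat_lit 78) (PT.lf (nat_lit 760) (nat_lit 6) (nat_lit 10) (nat_lit 5) (nat_lit 119) (nat_lit 135) (nat_lit 136)) (PT.lf (nat_lit 912) (nat_lit 3) (nat_lit 12) (nat_lit 4) (nat_lit 120) (nat_lit 135) (nat_lit 135))) (PT.nd (nat_lit 78) (PT.lf (nat_lit 988) (nat_lit 6) (nat_lit 13) (nat_lit 4) (nat_lit 121) (nat_lit 135) (nat_lit 134)) (PT.nd (nat_lit 78) (PT.lf (nat_lit 1064) (nat_lit 6) (nat_lit 14) (nat_lit 4) (nat_lit 122) (nat_lit 135) (nat_lit 133)) (PT.lf (nat_lit 1216) (nat_lit 6) (nat_lit 16) (nat_lit 4) (nat_lit 123) (nat_lit 135) (nat_lit 132))))) (PT.nd (nat_lit 156) (PT.nd (nat_lit 78) (PT.lf (nat_lit 1216) (nat_lit 6) (nat_lit 16) (nat_lit 2) (nat_lit 132) (nat_lit 135) (nat_lit 123)) (PT.lf (nat_lit 1064) (nat_lit 6) (nat_lit 14) (nat_lit 2) (nat_lit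 133) (nat_lit 135) (nat_lit 122))) (PT.nd (nat_lit 78) (PT.lf (nat_lit 988) (nat_lit 6) (nat_lit 13) (nat_lit 2) (nat_lit 134) (nat_lit 135) (nat_lit 121)) (PT.nd (nat_lit 78) (PT.lf (nat_lit 912) (nat_lit 3) (nat_lit 12) (nat_lit 0) (nat_lit 135) (nat_lit 135) (nat_lit 120)) (PT.lf (nat_lit 760) (nat_lit 6) (nat_lit 10) (nat_lit 0) (nat_lit 136) (nat_lit 135) (nat_lit 119)))))) (PT.nd (nat_lit 39312) (PT.nd (nat_lit 39078) (PT.nd (nat_lit 39000) (PT.lf (nat_lit 608) (nat_lit 6) (nat_lit 8) (nat_lit 0) (nat_lit 137) (nat_lit 135) (nat_lit 118)) (PT.lf (nat_lit 380) (nat_lit 6) (nat_lit 5) (nat_lit 5) (nat_lit 116) (nat_lit 136) (nat_lit 138))) (PT.nd (nat_lit 78) (PT.lf (nat_lit 532) (nat_lit 6) (nat_lit 7) (nat_lit 5) (nat_lit 117) (nat_lit 136) (nat_lit 137)) (PT.nd (nat_lit 78) (PT.lf (nat_lit 684) (nat_lit 3) (nat_lit 9) (nat_lit 4) (nat_lit 118) (nat_lit 136) (nat_lit 136)) (PT.lf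 (nat_lit 760) (nat_lit 6) (nat_lit 10) (nat_lit 4) (nat_lit 119) (nat_lit 136) (nat_lit 135))))) (PT.nd (nat_lit 1248) (PT.nd (nat_lit 1092) (PT.lf (nat_lit 836) (nat_lit 6) (nat_lit 11) (nat_lit 4) (nat_lit 120) (nat_lit 136) (nat_lit 134)) (PT.nd (nat_lit 78) (PT.lf (nat_lit 836) (nat_lit 6) (nat_lit 11) (nat_lit 2) (nat_lit 134) (nat_lit 136) (nat_lit 120)) (PT.lf (nat_lit 760) (nat_lit 6) (nat_lit 10) (nat_lit 2) (nat_lit 135) (nat_lit 136) (nat_lit 119)))) (PT.nd (nat_lit 78) (PT.lf (nat_lit 684) (nat_lit 3) (nat_lit 9) (nat_lit 0) (nat_lit 136) (nat_lit 136) (nat_lit 118)) (PT.nd (nat_lit 78) (PT.lf (nat_lit 532) (nat_lit 6) (nat_lit 7) (nat_lit 0) (nat_lit 137) (nat_lit 136) (nat_lit 117)) (PT.lf (nat_lit 380) (nat_lit 6) (nat_lit 5) (nat_lit 0) (nat_lit 138) (nat_lit 136) (nat_lit 116))))))) (PT.nd (nat_lit 40638) (PT.nd (nat_lit 1638) (PT.nd (nat_lit 156) (PT.nd (nat_lit 78) (PT.lf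 (nat_lit 152) (nat_lit 6) (nat_lit 2) (nat_lit 5) (nat_lit 114) (nat_lit 137) (nat_lit 139)) (PT.lf (nat_lit 304) (nat_lit 6) (nat_lit 4) (nat_lit 5) (nat_lit 115) (nat_lit 137) (nat_lit 138))) (PT.nd (nat_lit 78) (PT.lf (nat_lit 456) (nat_lit 3) (nat_lit 6) (nat_lit 4) (nat_lit 116) (nat_lit 137) (nat_lit 137)) (PT.nd (nat_lit 78) (PT.lf (nat_lit 532) (nat_lit 6) (nat_lit 7) (nat_lit 4) (nat_lit 117) (nat_lit 137) (nat_lit 136)) (PT.lf (nat_lit 608) (nat_lit 6) (nat_lit 8) (nat_lit 4) (nat_lit 118) (nat_lit 137) (nat_lit 135))))) (PT.nd (nat_lit 234) (PT.nd (nat_lit 78) (PT.lf (nat_lit 608) (nat_lit 6) (nat_lit 8) (nat_lit 2) (nat_lit 135) (nat_lit 137) (nat_lit 118)) (PT.nd (nat_lit 78) (PT.lf (nat_lit 532) (nat_lit 6) (nat_lit 7) (nat_lit 2) (nat_lit 136) (nat_lit 137) (nat_lit 117)) (PT.lf (nat_lit 456) (nat_lit 3) (nat_lit 6) (nat_lit 0) (nat_lit 137) (nat_lit 137) (nat_lit 116))))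 (PT.nd (nat_lit 78) (PT.lf (nat_lit 304) (nat_lit 6) (nat_lit 4) (nat_lit 0) (nat_lit 138) (nat_lit 137) (nat_lit 115)) (PT.nd (nat_lit 38610) (PT.lf (nat_lit 152) (nat_lit 6) (nat_lit 2) (nat_lit 0) (nat_lit 139) (nat_lit 137) (nat_lit 114)) (PT.lf (nat_lit 76) (nat_lit 6) (nat_lit 1) (nat_lit 5) (nat_lit 113) (nat_lit 138) (nat_lit 139)))))) (PT.nd (nat_lit 1872) (PT.nd (nat_lit 156) (PT.nd (nat_lit 78) (PT.lf (nat_lit 228) (nat_lit 3) (nat_lit 3) (nat_lit 4) (nat_lit 114) (nat_lit 138) (nat_lit 138)) (PT.lf (nat_lit 304) (nat_lit 6) (nat_lit 4) (nat_lit 4) (nat_lit 115) (nat_lit 138) (nat_lit 137))) (PT.nd (nat_lit 1560) (PT.lf (nat_lit 380) (nat_lit 6) (nat_lit 5) (nat_lit 4) (nat_lit 116) (nat_lit 138) (nat_lit 136)) (PT.nd (nat_lit 78) (PT.lf (nat_lit 380) (nat_lit 6) (nat_lit 5) (nat_lit 2) (nat_lit 136) (nat_lit 138) (nat_lit 116)) (PT.lf (nat_lit 304) (nat_lit 6) (nat_lit 4) (nat_lit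 2) (nat_lit 137) (nat_lit 138) (nat_lit 115))))) (PT.nd (nat_lit 38766) (PT.nd (nat_lit 78) (PT.lf (nat_lit 228) (nat_lit 3) (nat_lit 3) (nat_lit 0) (nat_lit 138) (nat_lit 138) (nat_lit 114)) (PT.nd (nat_lit 38610) (PT.lf (nat_lit 76) (nat_lit 6) (nat_lit 1) (nat_lit 0) (nat_lit 139) (nat_lit 138) (nat_lit 113)) (PT.lf (nat_lit 76) (nat_lit 6) (nat_lit 1) (nat_lit 4) (nat_lit 113) (nat_lit 139) (nat_lit 138)))) (PT.nd (nat_lit 1794) (PT.lf (nat_lit 152) (nat_lit 6) (nat_lit 2) (nat_lit 4) (nat_lit 114) (nat_lit 139) (nat_lit 137)) (PT.nd (nat_lit 78) (PT.lf (nat_lit 152) (nat_lit 6) (nat_lit 2) (nat_lit 2) (nat_lit 137) (nat_lit 139) (nat_lit 114)) (PT.lf (nat_lit 76) (nat_lit 6) (nat_lit 1) (nat_lit 2) (nat_lit 138) (nat_lit 139) (nat_lit 113))))))))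
noncomputable def xc0 : XT := (XT.nd (nat_lit 162552) (nat_lit 0) (nat_lit 0) (XT.nd (nat_lit 121680) (nat_lit 0) (nat_lit 0) (XT.nd (nat_lit 81120) (nat_lit 0) (nat_lit 0) (XT.nd (nat_lit 40638) (nat_lit 0) (nat_lit 0) (XT.nd (nat_lit 40482) (nat_lit 0) (nat_lit 0) (XT.lf (nat_lit 0) (nat_lit 5812708702216) (nat_lit 76) (nat_lit 461955725845) (nat_lit 76) (nat_lit 461955725845) (nat_lit 1) (nat_lit 4) (nat_lit 2) (nat_lit 5) (nat_lit 2) (nat_lit 4) (nat_lit 328) (nat_lit 226) (nat_lit 226)) (XT.nd (nat_lit 78) (nat_lit 0) (nat_lit 0) (XT.lf (nat_lit 0) (nat_lit 4394366219732) (nat_lit 76) (nat_lit 349760993732) (nat_lit 76) (nat_lit 349760993732) (nat_lit 1) (nat_lit 4) (nat_lit 2) (nat_lit 5) (nat_lit 2) (nat_lit 4) (nat_lit 326) (nat_lit 227) (nat_lit 227)) (XT.lf (nat_lit 0) (nat_lit 10108144088781) (nat_lit 76) (nat_lit 803885522307) (nat_lit 76) (nat_lit 803868600133) (nat_lit 1)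 (nat_lit 4) (nat_lit 2) (nat_lit 5) (nat_lit 2) (nat_lit 4) (nat_lit 327) (nat_lit 227) (nat_lit 226)))) (XT.nd (nat_lit 40326) (nat_lit 0) (nat_lit 0) (XT.lf (nat_lit 0) (nat_lit 11625373855681) (nat_lit 76) (nat_lit 923949927334) (nat_lit 76) (nat_lit 923918290226) (nat_lit 1) (nat_lit 4) (nat_lit 2) (nat_lit 5) (nat_lit 2) (nat_lit 4) (nat_lit 328) (nat_lit 227) (nat_lit 225)) (XT.nd (nat_lit 78) (nat_lit 0) (nat_lit 0) (XT.lf (nat_lit 0) (nat_lit 3321764035250) (nat_lit 76) (nat_lit 264994072101) (nat_lit 76) (nat_lit 264994072101) (nat_lit 1) (nat_lit 4) (nat_lit 2) (nat_lit 5) (nat_lit 2) (nat_lit 4) (nat_lit 324) (nat_lit 228) (nat_lit 228)) (XT.lf (nat_lit 0) (nat_lit 7641324331982) (nat_lit 76) (nat_lit 608836888063) (nat_lit 76) (nat_lit 608817427563) (nat_lit 1) (nat_lit 4) (nat_lit 2) (nat_lit 5) (nat_lit 2) (nat_lit 4) (nat_lit 325) (nat_lit 228) (nat_lit 227))))) (XT.nd (nat_lit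 40326) (nat_lit 0) (nat_lit 0) (XT.nd (nat_lit 78) (nat_lit 0) (nat_lit 0) (XT.lf (nat_lit 0) (nat_lit 8788682358400) (nat_lit 76) (nat_lit 699566234455) (nat_lit 76) (nat_lit 699529851782) (nat_lit 1) (nat_lit 4) (nat_lit 2) (nat_lit 5) (nat_lit 2) (nat_lit 4) (nat_lit 326) (nat_lit 228) (nat_lit 226)) (XT.nd (nat_lit 78) (nat_lit 0) (nat_lit 0) (XT.lf (nat_lit 0) (nat_lit 10108050458966) (nat_lit 76) (nat_lit 803951322766) (nat_lit 76) (nat_lit 803900225159) (nat_lit 1) (nat_lit 4) (nat_lit 2) (nat_lit 5) (nat_lit 2) (nat_lit 4) (nat_lit 327) (nat_lit 228) (nat_lit 225)) (XT.lf (nat_lit 0) (nat_lit 11625242357388) (nat_lit 76) (nat_lit 924034469940) (nat_lit 76) (nat_lit 923970576739) (nat_lit 1) (nat_lit 4) (nat_lit 2) (nat_lit 5) (nat_lit 2) (nat_lit 4) (nat_lit 328) (nat_lit 228) (nat_lit 224)))) (XT.nd (nat_lit 78) (nat_lit 0) (nat_lit 0) (XT.lf (nat_lit 0) (nat_lit 2510571462888)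 (nat_lit 76) (nat_lit 200976777856) (nat_lit 76) (nat_lit 200976777856) (nat_lit 1) (nat_lit 4) (nat_lit 2) (nat_lit 5) (nat_lit 2) (nat_lit 4) (nat_lit 322) (nat_lit 229) (nat_lit 229)) (XT.nd (nat_lit 78) (nat_lit 0) (nat_lit 0) (XT.lf (nat_lit 0) (nat_lit 5775771473186) (nat_lit 76) (nat_lit 461499689635) (nat_lit 76) (nat_lit 461477310060) (nat_lit 1) (nat_lit 4) (nat_lit 2) (nat_lit 5) (nat_lit 2) (nat_lit 4) (nat_lit 323) (nat_lit 229) (nat_lit 228)) (XT.lf (nat_lit 0) (nat_lit 6643470477277) (nat_lit 76) (nat_lit 530039028241) (nat_lit 76) (nat_lit 529997188166) (nat_lit 1) (nat_lit 4) (nat_lit 2) (nat_lit 5) (nat_lit 2) (nat_lit 4) (nat_lit 324) (nat_lit 229) (nat_lit 227)))))) (XT.nd (nat_lit 40404) (nat_lit 0) (nat_lit 0) (XT.nd (nat_lit 234) (nat_lit 0) (nat_lit 0) (XT.nd (nat_lit 78) (nat_lit 0) (nat_lit 0) (XT.lf (nat_lit 0) (nat_lit 7641216657696) (nat_lit 76) (nat_lit 608912558591)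 (nat_lit 76) (nat_lit 608853796342) (nat_lit 1) (nat_lit 4) (nat_lit 2) (nat_lit 5) (nat_lit 2) (nat_lit 4) (nat_lit 325) (nat_lit 229) (nat_lit 226)) (XT.nd (nat_lit 78) (nat_lit 0) (nat_lit 0) (XT.lf (nat_lit 0) (nat_lit 8788531135363) (nat_lit 76) (nat_lit 699663458453) (nat_lit 76) (nat_lit 699589981271) (nat_lit 1) (nat_lit 4) (nat_lit 2) (nat_lit 5) (nat_lit 2) (nat_lit 4) (nat_lit 326) (nat_lit 229) (nat_lit 225)) (XT.lf (nat_lit 0) (nat_lit 10107861367450) (nat_lit 76) (nat_lit 804067288911) (nat_lit 76) (nat_lit 803981016135) (nat_lit 1) (nat_lit 4) (nat_lit 2) (nat_lit 5) (nat_lit 2) (nat_lit 4) (nat_lit 327) (nat_lit 229) (nat_lit 224)))) (XT.nd (nat_lit 40014) (nat_lit 0) (nat_lit 0) (XT.lf (nat_lit 0) (nat_lit 11625020336759) (nat_lit 76) (nat_lit 924166733605) (nat_lit 76) (nat_lit 924069334225) (nat_lit 1) (nat_lit 4) (nat_lit 2) (nat_lit 5) (nat_lit 2) (nat_lit 4) (nat_lit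 328) (nat_lit 229) (nat_lit 223)) (XT.nd (nat_lit 78) (nat_lit 0) (nat_lit 0) (XT.lf (nat_lit 0) (nat_lit 1897019429845) (nat_lit 76) (nat_lit 152660984471) (nat_lit 76) (nat_lit 152660984471) (nat_lit 1) (nat_lit 4) (nat_lit 2) (nat_lit 5) (nat_lit 2) (nat_lit 4) (nat_lit 320) (nat_lit 230) (nat_lit 230)) (XT.lf (nat_lit 0) (nat_lit 4364820363469) (nat_lit 76) (nat_lit 350261329933) (nat_lit 76) (nat_lit 350235593422) (nat_lit 1) (nat_lit 4) (nat_lit 2) (nat_lit 5) (nat_lit 2) (nat_lit 4) (nat_lit 321) (nat_lit 230) (nat_lit 229))))) (XT.nd (nat_lit 234) (nat_lit 0) (nat_lit 0) (XT.nd (nat_lit 78) (nat_lit 0) (nat_lit 0) (XT.lf (nat_lit 0) (nat_lit 5021076693570) (nat_lit 76) (nat_lit 402012072357) (nat_lit 76) (nat_lit 401963956272) (nat_lit 1) (nat_lit 4) (nat_lit 2) (nat_lit 5) (nat_lit 2) (nat_lit 4) (nat_lit 322) (nat_lit 230) (nat_lit 228)) (XT.nd (nat_lit 78) (nat_lit 0) (nat_lit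 0) (XT.lf (nat_lit 0) (nat_lit 5775647647756) (nat_lit 76) (nat_lit 461586710742) (nat_lit 76) (nat_lit 461519134157) (nat_lit 1) (nat_lit 4) (nat_lit 2) (nat_lit 5) (nat_lit 2) (nat_lit 4) (nat_lit 323) (nat_lit 230) (nat_lit 227)) (XT.lf (nat_lit 0) (nat_lit 6643296570784) (nat_lit 76) (nat_lit 530150835838) (nat_lit 76) (nat_lit 530066337079) (nat_lit 1) (nat_lit 4) (nat_lit 2) (nat_lit 5) (nat_lit 2) (nat_lit 4) (nat_lit 324) (nat_lit 230) (nat_lit 226)))) (XT.nd (nat_lit 78) (nat_lit 0) (nat_lit 0) (XT.lf (nat_lit 0) (nat_lit 7640999202452) (nat_lit 76) (nat_lit 609045919657) (nat_lit 76) (nat_lit 608946705965) (nat_lit 1) (nat_lit 4) (nat_lit 2) (nat_lit 5) (nat_lit 2) (nat_lit 4) (nat_lit 325) (nat_lit 230) (nat_lit 225)) (XT.nd (nat_lit 78) (nat_lit 0) (nat_lit 0) (XT.lf (nat_lit 0) (nat_lit 8788275811640) (nat_lit 76) (nat_lit 699815561667) (nat_lit 76) (nat_lit 699703552380)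 (nat_lit 1) (nat_lit 4) (nat_lit 2) (nat_lit 5) (nat_lit 2) (nat_lit 4) (nat_lit 326) (nat_lit 230) (nat_lit 224)) (XT.lf (nat_lit 0) (nat_lit 10107573114615) (nat_lit 76) (nat_lit 804235689645) (nat_lit 76) (nat_lit 804112553754) (nat_lit 1) (nat_lit 4) (nat_lit 2) (nat_lit 5) (nat_lit 2) (nat_lit 4) (nat_lit 327) (nat_lit 230) (nat_lit 223))))))) (XT.nd (nat_lit 80340) (nat_lit 0) (nat_lit 0) (XT.nd (nat_lit 40248) (nat_lit 0) (nat_lit 0) (XT.nd (nat_lit 40014) (nat_lit 0) (nat_lit 0) (XT.nd (nat_lit 39858) (nat_lit 0) (nat_lit 0) (XT.lf (nat_lit 0) (nat_lit 11624703449913) (nat_lit 76) (nat_lit 924349306095) (nat_lit 76) (nat_lit 924216494896) (nat_lit 1) (nat_lit 4) (nat_lit 2) (nat_lit 5) (nat_lit 2) (nat_lit 4) (nat_lit 328) (nat_lit 230) (nat_lit 222)) (XT.nd (nat_lit 78) (nat_lit 0) (nat_lit 0) (XT.lf (nat_lit 0) (nat_lit 1432885953035) (nat_lit 76) (nat_lit 116231353265) (nat_lit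 76) (nat_lit 116231353265) (nat_lit 1) (nat_lit 4) (nat_lit 2) (nat_lit 5) (nat_lit 2) (nat_lit 4) (nat_lit 318) (nat_lit 231) (nat_lit 231)) (XT.lf (nat_lit 0) (nat_lit 3297564718031) (nat_lit 76) (nat_lit 266344338007) (nat_lit 76) (nat_lit 266314741019) (nat_lit 1) (nat_lit 4) (nat_lit 2) (nat_lit 5) (nat_lit 2) (nat_lit 4) (nat_lit 319) (nat_lit 231) (nat_lit 230)))) (XT.nd (nat_lit 78) (nat_lit 0) (nat_lit 0) (XT.lf (nat_lit 0) (nat_lit 3793962692653) (nat_lit 76) (nat_lit 305389263083) (nat_lit 76) (nat_lit 305333929584) (nat_lit 1) (nat_lit 4) (nat_lit 2) (nat_lit 5) (nat_lit 2) (nat_lit 4) (nat_lit 320) (nat_lit 231) (nat_lit 229)) (XT.nd (nat_lit 78) (nat_lit 0) (nat_lit 0) (XT.lf (nat_lit 0) (nat_lit 4364677964225) (nat_lit 76) (nat_lit 350361404206) (nat_lit 76) (nat_lit 350283691133) (nat_lit 1) (nat_lit 4) (nat_lit 2) (nat_lit 5) (nat_lit 2) (nat_lit 4) (nat_lit 321) (nat_lit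 231) (nat_lit 228)) (XT.lf (nat_lit 0) (nat_lit 5020876701102) (nat_lit 76) (nat_lit 402140651094) (nat_lit 76) (nat_lit 402043477521) (nat_lit 1) (nat_lit 4) (nat_lit 2) (nat_lit 5) (nat_lit 2) (nat_lit 4) (nat_lit 322) (nat_lit 231) (nat_lit 227))))) (XT.nd (nat_lit 234) (nat_lit 0) (nat_lit 0) (XT.nd (nat_lit 78) (nat_lit 0) (nat_lit 0) (XT.lf (nat_lit 0) (nat_lit 5775397574225) (nat_lit 76) (nat_lit 461740075969) (nat_lit 76) (nat_lit 461625980222) (nat_lit 1) (nat_lit 4) (nat_lit 2) (nat_lit 5) (nat_lit 2) (nat_lit 4) (nat_lit 323) (nat_lit 231) (nat_lit 226)) (XT.nd (nat_lit 78) (nat_lit 0) (nat_lit 0) (XT.lf (nat_lit 0) (nat_lit 6643002948503) (nat_lit 76) (nat_lit 530325754534) (nat_lit 76) (nat_lit 530196943854) (nat_lit 1) (nat_lit 4) (nat_lit 2) (nat_lit 5) (nat_lit 2) (nat_lit 4) (nat_lit 324) (nat_lit 231) (nat_lit 225)) (XT.lf (nat_lit 0) (nat_lit 7640667711691) (nat_lit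 76) (nat_lit 609239580501) (nat_lit 76) (nat_lit 609097974226) (nat_lit 1) (nat_lit 4) (nat_lit 2) (nat_lit 5) (nat_lit 2) (nat_lit 4) (nat_lit 325) (nat_lit 231) (nat_lit 224)))) (XT.nd (nat_lit 78) (nat_lit 0) (nat_lit 0) (XT.lf (nat_lit 0) (nat_lit 8787911391767) (nat_lit 76) (nat_lit 700025520030) (nat_lit 76) (nat_lit 699872787151) (nat_lit 1) (nat_lit 4) (nat_lit 2) (nat_lit 5) (nat_lit 2) (nat_lit 4) (nat_lit 326) (nat_lit 231) (nat_lit 223)) (XT.nd (nat_lit 78) (nat_lit 0) (nat_lit 0) (XT.lf (nat_lit 0) (nat_lit 10107180060731) (nat_lit 76) (nat_lit 804459819764) (nat_lit 76) (nat_lit 804297411578) (nat_lit 1) (nat_lit 4) (nat_lit 2) (nat_lit 5) (nat_lit 2) (nat_lit 4) (nat_lit 327) (nat_lit 231) (nat_lit 222)) (XT.lf (nat_lit 0) (nat_lit 11624285496890) (nat_lit 76) (nat_lit 924585759480) (nat_lit 76) (nat_lit 924414937983) (nat_lit 1) (nat_lit 4) (nat_lit 2) (nat_lit 5) (nat_lit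 2) (nat_lit 4) (nat_lit 328) (nat_lit 231) (nat_lit 221)))))) (XT.nd (nat_lit 468) (nat_lit 0) (nat_lit 0) (XT.nd (nat_lit 234) (nat_lit 0) (nat_lit 0) (XT.nd (nat_lit 78) (nat_lit 0) (nat_lit 0) (XT.lf (nat_lit 0) (nat_lit 1081704372428) (nat_lit 76) (nat_lit 88804975819) (nat_lit 76) (nat_lit 88804975819) (nat_lit 1) (nat_lit 4) (nat_lit 2) (nat_lit 5) (nat_lit 2) (nat_lit 4) (nat_lit 316) (nat_lit 232) (nat_lit 232)) (XT.nd (nat_lit 78) (nat_lit 0) (nat_lit 0) (XT.lf (nat_lit 0) (nat_lit 2490136136542) (nat_lit 76) (nat_lit 203115503706) (nat_lit 76) (nat_lit 203081467170) (nat_lit 1) (nat_lit 4) (nat_lit 2) (nat_lit 5) (nat_lit 2) (nat_lit 4) (nat_lit 317) (nat_lit 232) (nat_lit 231)) (XT.lf (nat_lit 0) (nat_lit 2865684313978) (nat_lit 76) (nat_lit 232540094793) (nat_lit 76) (nat_lit 232476461269) (nat_lit 1) (nat_lit 4) (nat_lit 2) (nat_lit 5) (nat_lit 2) (nat_lit 4) (nat_lit 318)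 (nat_lit 232) (nat_lit 230)))) (XT.nd (nat_lit 78) (nat_lit 0) (nat_lit 0) (XT.lf (nat_lit 0) (nat_lit 3297400958900) (nat_lit 76) (nat_lit 266459423421) (nat_lit 76) (nat_lit 266370053387) (nat_lit 1) (nat_lit 4) (nat_lit 2) (nat_lit 5) (nat_lit 2) (nat_lit 4) (nat_lit 319) (nat_lit 232) (nat_lit 229)) (XT.nd (nat_lit 78) (nat_lit 0) (nat_lit 0) (XT.lf (nat_lit 0) (nat_lit 3793732701316) (nat_lit 76) (nat_lit 305537128630) (nat_lit 76) (nat_lit 305425379021) (nat_lit 1) (nat_lit 4) (nat_lit 2) (nat_lit 5) (nat_lit 2) (nat_lit 4) (nat_lit 320) (nat_lit 232) (nat_lit 228)) (XT.lf (nat_lit 0) (nat_lit 4364390379664) (nat_lit 76) (nat_lit 350537774217) (nat_lit 76) (nat_lit 350406564108) (nat_lit 1) (nat_lit 4) (nat_lit 2) (nat_lit 5) (nat_lit 2) (nat_lit 4) (nat_lit 321) (nat_lit 232) (nat_lit 227))))) (XT.nd (nat_lit 234) (nat_lit 0) (nat_lit 0) (XT.nd (nat_lit 78) (nat_lit 0) (nat_lit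 0) (XT.lf (nat_lit 0) (nat_lit 5020539035479) (nat_lit 76) (nat_lit 402341807595) (nat_lit 76) (nat_lit 402193675313) (nat_lit 1) (nat_lit 4) (nat_lit 2) (nat_lit 5) (nat_lit 2) (nat_lit 4) (nat_lit 322) (nat_lit 232) (nat_lit 226)) (XT.nd (nat_lit 78) (nat_lit 0) (nat_lit 0) (XT.lf (nat_lit 0) (nat_lit 5775016359851) (nat_lit 76) (nat_lit 461962785939) (nat_lit 76) (nat_lit 461799938723) (nat_lit 1) (nat_lit 4) (nat_lit 2) (nat_lit 5) (nat_lit 2) (nat_lit 4) (nat_lit 323) (nat_lit 232) (nat_lit 225)) (XT.lf (nat_lit 0) (nat_lit 6642583865649) (nat_lit 76) (nat_lit 530567206652) (nat_lit 76) (nat_lit 530391563841) (nat_lit 1) (nat_lit 4) (nat_lit 2) (nat_lit 5) (nat_lit 2) (nat_lit 4) (nat_lit 324) (nat_lit 232) (nat_lit 224)))) (XT.nd (nat_lit 156) (nat_lit 0) (nat_lit 0) (XT.nd (nat_lit 78) (nat_lit 0) (nat_lit 0) (XT.lf (nat_lit 0) (nat_lit 7640215699726) (nat_lit 76) (nat_lit 609497330138)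 (nat_lit 76) (nat_lit 609310560724) (nat_lit 1) (nat_lit 4) (nat_lit 2) (nat_lit 5) (nat_lit 2) (nat_lit 4) (nat_lit 325) (nat_lit 232) (nat_lit 223)) (XT.lf (nat_lit 0) (nat_lit 8787430745791) (nat_lit 76) (nat_lit 700297441423) (nat_lit 76) (nat_lit 700100996701) (nat_lit 1) (nat_lit 4) (nat_lit 2) (nat_lit 5) (nat_lit 2) (nat_lit 4) (nat_lit 326) (nat_lit 232) (nat_lit 222))) (XT.nd (nat_lit 78) (nat_lit 0) (nat_lit 0) (XT.lf (nat_lit 0) (nat_lit 10106674515615) (nat_lit 76) (nat_lit 804744064423) (nat_lit 76) (nat_lit 804539206390) (nat_lit 1) (nat_lit 4) (nat_lit 2) (nat_lit 5) (nat_lit 2) (nat_lit 4) (nat_lit 327) (nat_lit 232) (nat_lit 221)) (XT.lf (nat_lit 0) (nat_lit 11623758300348) (nat_lit 76) (nat_lit 924880720023) (nat_lit 76) (nat_lit 924668546067) (nat_lit 1) (nat_lit 4) (nat_lit 2) (nat_lit 5) (nat_lit 2) (nat_lit 4) (nat_lit 328) (nat_lit 232) (nat_lit 220))))))))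
noncomputable def xc1 : XT := (XT.nd (nat_lit 41184) (nat_lit 0) (nat_lit 0) (XT.nd (nat_lit 936) (nat_lit 0) (nat_lit 0) (XT.nd (nat_lit 468) (nat_lit 0) (nat_lit 0) (XT.nd (nat_lit 234) (nat_lit 0) (nat_lit 0) (XT.nd (nat_lit 78) (nat_lit 0) (nat_lit 0) (XT.lf (nat_lit 0) (nat_lit 815896154144) (nat_lit 76) (nat_lit 68204300313) (nat_lit 76) (nat_lit 68204300313) (nat_lit 1) (nat_lit 4) (nat_lit 2) (nat_lit 5) (nat_lit 2) (nat_lit 4) (nat_lit 314) (nat_lit 233) (nat_lit 233)) (XT.nd (nat_lit 78) (nat_lit 0) (nat_lit 0) (XT.lf (nat_lit 0) (nat_lit 1879109646480) (nat_lit 76) (nat_lit 155563558938) (nat_lit 76) (nat_lit 155524416922) (nat_lit 1) (nat_lit 4) (nat_lit 2) (nat_lit 5) (nat_lit 2) (nat_lit 4) (nat_lit 315) (nat_lit 233) (nat_lit 232)) (XT.lf (nat_lit 0) (nat_lit 2163308013950) (nat_lit 76) (nat_lit 177698948140) (nat_lit 76) (nat_lit 177625769588) (nat_lit 1) (nat_lit 4) (nat_lit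 2) (nat_lit 5) (nat_lit 2) (nat_lit 4) (nat_lit 316) (nat_lit 233) (nat_lit 231)))) (XT.nd (nat_lit 78) (nat_lit 0) (nat_lit 0) (XT.lf (nat_lit 0) (nat_lit 2489947813541) (nat_lit 76) (nat_lit 203247851932) (nat_lit 76) (nat_lit 203145076393) (nat_lit 1) (nat_lit 4) (nat_lit 2) (nat_lit 5) (nat_lit 2) (nat_lit 4) (nat_lit 317) (nat_lit 233) (nat_lit 230)) (XT.nd (nat_lit 78) (nat_lit 0) (nat_lit 0) (XT.lf (nat_lit 0) (nat_lit 2865419823941) (nat_lit 76) (nat_lit 232710140172) (nat_lit 76) (nat_lit 232581628122) (nat_lit 1) (nat_lit 4) (nat_lit 2) (nat_lit 5) (nat_lit 2) (nat_lit 4) (nat_lit 318) (nat_lit 233) (nat_lit 229)) (XT.lf (nat_lit 0) (nat_lit 3297070236656) (nat_lit 76) (nat_lit 266662248934) (nat_lit 76) (nat_lit 266511357309) (nat_lit 1) (nat_lit 4) (nat_lit 2) (nat_lit 5) (nat_lit 2) (nat_lit 4) (nat_lit 319) (nat_lit 233) (nat_lit 228))))) (XT.nd (nat_lit 234) (nat_lit 0)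 (nat_lit 0) (XT.nd (nat_lit 78) (nat_lit 0) (nat_lit 0) (XT.lf (nat_lit 0) (nat_lit 3793344385849) (nat_lit 76) (nat_lit 305768458606) (nat_lit 76) (nat_lit 305598106481) (nat_lit 1) (nat_lit 4) (nat_lit 2) (nat_lit 5) (nat_lit 2) (nat_lit 4) (nat_lit 320) (nat_lit 233) (nat_lit 227)) (XT.nd (nat_lit 78) (nat_lit 0) (nat_lit 0) (XT.lf (nat_lit 0) (nat_lit 4363951983134) (nat_lit 76) (nat_lit 350793890683) (nat_lit 76) (nat_lit 350606616384) (nat_lit 1) (nat_lit 4) (nat_lit 2) (nat_lit 5) (nat_lit 2) (nat_lit 4) (nat_lit 321) (nat_lit 233) (nat_lit 226)) (XT.lf (nat_lit 0) (nat_lit 5020057090197) (nat_lit 76) (nat_lit 402619477530) (nat_lit 76) (nat_lit 402417488298) (nat_lit 1) (nat_lit 4) (nat_lit 2) (nat_lit 5) (nat_lit 2) (nat_lit 4) (nat_lit 322) (nat_lit 233) (nat_lit 225)))) (XT.nd (nat_lit 78) (nat_lit 0) (nat_lit 0) (XT.lf (nat_lit 0) (nat_lit 5774496546090) (nat_lit 76) (nat_lit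 462259198022) (nat_lit 76) (nat_lit 462044413195) (nat_lit 1) (nat_lit 4) (nat_lit 2) (nat_lit 5) (nat_lit 2) (nat_lit 4) (nat_lit 323) (nat_lit 233) (nat_lit 224)) (XT.nd (nat_lit 78) (nat_lit 0) (nat_lit 0) (XT.lf (nat_lit 0) (nat_lit 6642031122776) (nat_lit 76) (nat_lit 530879916254) (nat_lit 76) (nat_lit 530654004824) (nat_lit 1) (nat_lit 4) (nat_lit 2) (nat_lit 5) (nat_lit 2) (nat_lit 4) (nat_lit 324) (nat_lit 233) (nat_lit 223)) (XT.lf (nat_lit 0) (nat_lit 7639634322842) (nat_lit 76) (nat_lit 609824211497) (nat_lit 76) (nat_lit 609588624758) (nat_lit 1) (nat_lit 4) (nat_lit 2) (nat_lit 5) (nat_lit 2) (nat_lit 4) (nat_lit 325) (nat_lit 233) (nat_lit 222)))))) (XT.nd (nat_lit 39780) (nat_lit 0) (nat_lit 0) (XT.nd (nat_lit 39546) (nat_lit 0) (nat_lit 0) (XT.nd (nat_lit 78) (nat_lit 0) (nat_lit 0) (XT.lf (nat_lit 0) (nat_lit 8786824469768) (nat_lit 76) (nat_lit 700636646048) (nat_lit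 76) (nat_lit 700392645998) (nat_lit 1) (nat_lit 4) (nat_lit 2) (nat_lit 5) (nat_lit 2) (nat_lit 4) (nat_lit 326) (nat_lit 233) (nat_lit 221)) (XT.nd (nat_lit 78) (nat_lit 0) (nat_lit 0) (XT.lf (nat_lit 0) (nat_lit 10106046588166) (nat_lit 76) (nat_lit 805093984931) (nat_lit 76) (nat_lit 804842668959) (nat_lit 1) (nat_lit 4) (nat_lit 2) (nat_lit 5) (nat_lit 2) (nat_lit 4) (nat_lit 327) (nat_lit 233) (nat_lit 220)) (XT.lf (nat_lit 0) (nat_lit 11623111545573) (nat_lit 76) (nat_lit 925239958691) (nat_lit 76) (nat_lit 924982281047) (nat_lit 1) (nat_lit 4) (nat_lit 2) (nat_lit 5) (nat_lit 2) (nat_lit 4) (nat_lit 328) (nat_lit 233) (nat_lit 219)))) (XT.nd (nat_lit 78) (nat_lit 0) (nat_lit 0) (XT.lf (nat_lit 0) (nat_lit 614602789629) (nat_lit 76) (nat_lit 52785477020) (nat_lit 76) (nat_lit 52785477020) (nat_lit 1) (nat_lit 4) (nat_lit 2) (nat_lit 5) (nat_lit 2) (nat_lit 4) (nat_lit 312) (nat_lit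 234) (nat_lit 234)) (XT.nd (nat_lit 78) (nat_lit 0) (nat_lit 0) (XT.lf (nat_lit 0) (nat_lit 1416517181888) (nat_lit 76) (nat_lit 119904315597) (nat_lit 76) (nat_lit 119859302279) (nat_lit 1) (nat_lit 4) (nat_lit 2) (nat_lit 5) (nat_lit 2) (nat_lit 4) (nat_lit 313) (nat_lit 234) (nat_lit 233)) (XT.lf (nat_lit 0) (nat_lit 1631676467744) (nat_lit 76) (nat_lit 136510946602) (nat_lit 76) (nat_lit 136426791267) (nat_lit 1) (nat_lit 4) (nat_lit 2) (nat_lit 5) (nat_lit 2) (nat_lit 4) (nat_lit 314) (nat_lit 234) (nat_lit 232))))) (XT.nd (nat_lit 234) (nat_lit 0) (nat_lit 0) (XT.nd (nat_lit 78) (nat_lit 0) (nat_lit 0) (XT.lf (nat_lit 0) (nat_lit 1878893075029) (nat_lit 76) (nat_lit 155715759399) (nat_lit 76) (nat_lit 155597567529) (nat_lit 1) (nat_lit 4) (nat_lit 2) (nat_lit 5) (nat_lit 2) (nat_lit 4) (nat_lit 315) (nat_lit 234) (nat_lit 231)) (XT.nd (nat_lit 78) (nat_lit 0) (nat_lit 0) (XT.lf (nat_lit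 0) (nat_lit 2163003850407) (nat_lit 76) (nat_lit 177894500326) (nat_lit 76) (nat_lit 177746711468) (nat_lit 1) (nat_lit 4) (nat_lit 2) (nat_lit 5) (nat_lit 2) (nat_lit 4) (nat_lit 316) (nat_lit 234) (nat_lit 230)) (XT.lf (nat_lit 0) (nat_lit 2489567482961) (nat_lit 76) (nat_lit 203481101271) (nat_lit 76) (nat_lit 203307575903) (nat_lit 1) (nat_lit 4) (nat_lit 2) (nat_lit 5) (nat_lit 2) (nat_lit 4) (nat_lit 317) (nat_lit 234) (nat_lit 229)))) (XT.nd (nat_lit 78) (nat_lit 0) (nat_lit 0) (XT.lf (nat_lit 0) (nat_lit 2864973261153) (nat_lit 76) (nat_lit 232976169644) (nat_lit 76) (nat_lit 232780264701) (nat_lit 1) (nat_lit 4) (nat_lit 2) (nat_lit 5) (nat_lit 2) (nat_lit 4) (nat_lit 318) (nat_lit 234) (nat_lit 228)) (XT.nd (nat_lit 78) (nat_lit 0) (nat_lit 0) (XT.lf (nat_lit 0) (nat_lit 3296566080645) (nat_lit 76) (nat_lit 266956782869) (nat_lit 76) (nat_lit 266741417426) (nat_lit 1) (nat_lit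 4) (nat_lit 2) (nat_lit 5) (nat_lit 2) (nat_lit 4) (nat_lit 319) (nat_lit 234) (nat_lit 227)) (XT.lf (nat_lit 0) (nat_lit 3792790148775) (nat_lit 76) (nat_lit 306087779032) (nat_lit 76) (nat_lit 305855491415) (nat_lit 1) (nat_lit 4) (nat_lit 2) (nat_lit 5) (nat_lit 2) (nat_lit 4) (nat_lit 320) (nat_lit 234) (nat_lit 226))))))) (XT.nd (nat_lit 40092) (nat_lit 0) (nat_lit 0) (XT.nd (nat_lit 468) (nat_lit 0) (nat_lit 0) (XT.nd (nat_lit 234) (nat_lit 0) (nat_lit 0) (XT.nd (nat_lit 78) (nat_lit 0) (nat_lit 0) (XT.lf (nat_lit 0) (nat_lit 4363354197309) (nat_lit 76) (nat_lit 351134764578) (nat_lit 76) (nat_lit 350887762027) (nat_lit 1) (nat_lit 4) (nat_lit 2) (nat_lit 5) (nat_lit 2) (nat_lit 4) (nat_lit 321) (nat_lit 234) (nat_lit 225)) (XT.nd (nat_lit 78) (nat_lit 0) (nat_lit 0) (XT.lf (nat_lit 0) (nat_lit 5019421435893) (nat_lit 76) (nat_lit 402979093573) (nat_lit 76) (nat_lit 402719295428)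 (nat_lit 1) (nat_lit 4) (nat_lit 2) (nat_lit 5) (nat_lit 2) (nat_lit 4) (nat_lit 322) (nat_lit 234) (nat_lit 224)) (XT.lf (nat_lit 0) (nat_lit 5773827962674) (nat_lit 76) (nat_lit 462635111584) (nat_lit 76) (nat_lit 462364186835) (nat_lit 1) (nat_lit 4) (nat_lit 2) (nat_lit 5) (nat_lit 2) (nat_lit 4) (nat_lit 323) (nat_lit 234) (nat_lit 223)))) (XT.nd (nat_lit 78) (nat_lit 0) (nat_lit 0) (XT.lf (nat_lit 0) (nat_lit 6641333905350) (nat_lit 76) (nat_lit 531270001572) (nat_lit 76) (nat_lit 530989401515) (nat_lit 1) (nat_lit 4) (nat_lit 2) (nat_lit 5) (nat_lit 2) (nat_lit 4) (nat_lit 324) (nat_lit 234) (nat_lit 222)) (XT.nd (nat_lit 78) (nat_lit 0) (nat_lit 0) (XT.lf (nat_lit 0) (nat_lit 7638912206276) (nat_lit 76) (nat_lit 610226620081) (nat_lit 76) (nat_lit 609937606713) (nat_lit 1) (nat_lit 4) (nat_lit 2) (nat_lit 5) (nat_lit 2) (nat_lit 4) (nat_lit 325) (nat_lit 234) (nat_lit 221)) (XT.lf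 (nat_lit 0) (nat_lit 8786080701776) (nat_lit 76) (nat_lit 701049770516) (nat_lit 76) (nat_lit 700753441225) (nat_lit 1) (nat_lit 4) (nat_lit 2) (nat_lit 5) (nat_lit 2) (nat_lit 4) (nat_lit 326) (nat_lit 234) (nat_lit 220))))) (XT.nd (nat_lit 39390) (nat_lit 0) (nat_lit 0) (XT.nd (nat_lit 78) (nat_lit 0) (nat_lit 0) (XT.lf (nat_lit 0) (nat_lit 10105283992848) (nat_lit 76) (nat_lit 805516427559) (nat_lit 76) (nat_lit 805213736597) (nat_lit 1) (nat_lit 4) (nat_lit 2) (nat_lit 5) (nat_lit 2) (nat_lit 4) (nat_lit 327) (nat_lit 234) (nat_lit 219)) (XT.nd (nat_lit 39234) (nat_lit 0) (nat_lit 0) (XT.lf (nat_lit 0) (nat_lit 11622332578665) (nat_lit 76) (nat_lit 925670504066) (nat_lit 76) (nat_lit 925362281215) (nat_lit 1) (nat_lit 4) (nat_lit 2) (nat_lit 5) (nat_lit 2) (nat_lit 4) (nat_lit 328) (nat_lit 234) (nat_lit 218)) (XT.lf (nat_lit 0) (nat_lit 462046298707) (nat_lit 76) (nat_lit 41308615518)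 (nat_lit 76) (nat_lit 41308615518) (nat_lit 1) (nat_lit 4) (nat_lit 2) (nat_lit 5) (nat_lit 2) (nat_lit 4) (nat_lit 310) (nat_lit 235) (nat_lit 235)))) (XT.nd (nat_lit 78) (nat_lit 0) (nat_lit 0) (XT.lf (nat_lit 0) (nat_lit 1066076867629) (nat_lit 76) (nat_lit 93282191911) (nat_lit 76) (nat_lit 93230426594) (nat_lit 1) (nat_lit 4) (nat_lit 2) (nat_lit 5) (nat_lit 2) (nat_lit 4) (nat_lit 311) (nat_lit 235) (nat_lit 234)) (XT.nd (nat_lit 78) (nat_lit 0) (nat_lit 0) (XT.lf (nat_lit 0) (nat_lit 1229072362633) (nat_lit 76) (nat_lit 105688651912) (nat_lit 76) (nat_lit 105591873277) (nat_lit 1) (nat_lit 4) (nat_lit 2) (nat_lit 5) (nat_lit 2) (nat_lit 4) (nat_lit 312) (nat_lit 235) (nat_lit 233)) (XT.lf (nat_lit 0) (nat_lit 1416268124720) (nat_lit 76) (nat_lit 120079346127) (nat_lit 76) (nat_lit 119943425476) (nat_lit 1) (nat_lit 4) (nat_lit 2) (nat_lit 5) (nat_lit 2) (nat_lit 4) (nat_lit 313)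 (nat_lit 235) (nat_lit 232)))))) (XT.nd (nat_lit 468) (nat_lit 0) (nat_lit 0) (XT.nd (nat_lit 234) (nat_lit 0) (nat_lit 0) (XT.nd (nat_lit 78) (nat_lit 0) (nat_lit 0) (XT.lf (nat_lit 0) (nat_lit 1631326679670) (nat_lit 76) (nat_lit 136735831616) (nat_lit 76) (nat_lit 136565874430) (nat_lit 1) (nat_lit 4) (nat_lit 2) (nat_lit 5) (nat_lit 2) (nat_lit 4) (nat_lit 314) (nat_lit 235) (nat_lit 231)) (XT.nd (nat_lit 78) (nat_lit 0) (nat_lit 0) (XT.lf (nat_lit 0) (nat_lit 1878455694862) (nat_lit 76) (nat_lit 155983996139) (nat_lit 76) (nat_lit 155784441965) (nat_lit 1) (nat_lit 4) (nat_lit 2) (nat_lit 5) (nat_lit 2) (nat_lit 4) (nat_lit 315) (nat_lit 235) (nat_lit 230)) (XT.lf (nat_lit 0) (nat_lit 2162490303202) (nat_lit 76) (nat_lit 178200434219) (nat_lit 76) (nat_lit 177975143534) (nat_lit 1) (nat_lit 4) (nat_lit 2) (nat_lit 5) (nat_lit 2) (nat_lit 4) (nat_lit 316) (nat_lit 235) (nat_lit 229))))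 (XT.nd (nat_lit 78) (nat_lit 0) (nat_lit 0) (XT.lf (nat_lit 0) (nat_lit 2488987703549) (nat_lit 76) (nat_lit 203819815297) (nat_lit 76) (nat_lit 203572145038) (nat_lit 1) (nat_lit 4) (nat_lit 2) (nat_lit 5) (nat_lit 2) (nat_lit 4) (nat_lit 317) (nat_lit 235) (nat_lit 228)) (XT.nd (nat_lit 78) (nat_lit 0) (nat_lit 0) (XT.lf (nat_lit 0) (nat_lit 2864335888518) (nat_lit 76) (nat_lit 233343388134) (nat_lit 76) (nat_lit 233076257374) (nat_lit 1) (nat_lit 4) (nat_lit 2) (nat_lit 5) (nat_lit 2) (nat_lit 4) (nat_lit 318) (nat_lit 235) (nat_lit 227)) (XT.lf (nat_lit 0) (nat_lit 3295878626947) (nat_lit 76) (nat_lit 267348787849) (nat_lit 76) (nat_lit 267064734916) (nat_lit 1) (nat_lit 4) (nat_lit 2) (nat_lit 5) (nat_lit 2) (nat_lit 4) (nat_lit 319) (nat_lit 235) (nat_lit 226))))) (XT.nd (nat_lit 234) (nat_lit 0) (nat_lit 0) (XT.nd (nat_lit 78) (nat_lit 0) (nat_lit 0) (XT.lf (nat_lit 0) (nat_lit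 3792059146325) (nat_lit 76) (nat_lit 306501337481) (nat_lit 76) (nat_lit 306202569614) (nat_lit 1) (nat_lit 4) (nat_lit 2) (nat_lit 5) (nat_lit 2) (nat_lit 4) (nat_lit 320) (nat_lit 235) (nat_lit 225)) (XT.nd (nat_lit 78) (nat_lit 0) (nat_lit 0) (XT.lf (nat_lit 0) (nat_lit 4362585326381) (nat_lit 76) (nat_lit 351567065174) (nat_lit 76) (nat_lit 351255501713) (nat_lit 1) (nat_lit 4) (nat_lit 2) (nat_lit 5) (nat_lit 2) (nat_lit 4) (nat_lit 321) (nat_lit 235) (nat_lit 224)) (XT.lf (nat_lit 0) (nat_lit 5018619635853) (nat_lit 76) (nat_lit 403427691688) (nat_lit 76) (nat_lit 403105001623) (nat_lit 1) (nat_lit 4) (nat_lit 2) (nat_lit 5) (nat_lit 2) (nat_lit 4) (nat_lit 322) (nat_lit 235) (nat_lit 223)))) (XT.nd (nat_lit 156) (nat_lit 0) (nat_lit 0) (XT.nd (nat_lit 78) (nat_lit 0) (nat_lit 0) (XT.lf (nat_lit 0) (nat_lit 5772997528623) (nat_lit 76) (nat_lit 463097881456) (nat_lit 76) (nat_lit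 462765516083) (nat_lit 1) (nat_lit 4) (nat_lit 2) (nat_lit 5) (nat_lit 2) (nat_lit 4) (nat_lit 323) (nat_lit 235) (nat_lit 222)) (XT.lf (nat_lit 0) (nat_lit 6640478572159) (nat_lit 76) (nat_lit 531745094710) (nat_lit 76) (nat_lit 531404316026) (nat_lit 1) (nat_lit 4) (nat_lit 2) (nat_lit 5) (nat_lit 2) (nat_lit 4) (nat_lit 324) (nat_lit 235) (nat_lit 221))) (XT.nd (nat_lit 78) (nat_lit 0) (nat_lit 0) (XT.lf (nat_lit 0) (nat_lit 7638035221659) (nat_lit 76) (nat_lit 610712429102) (nat_lit 76) (nat_lit 610364334496) (nat_lit 1) (nat_lit 4) (nat_lit 2) (nat_lit 5) (nat_lit 2) (nat_lit 4) (nat_lit 325) (nat_lit 235) (nat_lit 220)) (XT.lf (nat_lit 0) (nat_lit 8785184889832) (nat_lit 76) (nat_lit 701544897697) (nat_lit 76) (nat_lit 701190441418) (nat_lit 1) (nat_lit 4) (nat_lit 2) (nat_lit 5) (nat_lit 2) (nat_lit 4) (nat_lit 326) (nat_lit 235) (nat_lit 219))))))))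
noncomputable def xc2 : XT := (XT.nd (nat_lit 79716) (nat_lit 0) (nat_lit 0) (XT.nd (nat_lit 39936) (nat_lit 0) (nat_lit 0) (XT.nd (nat_lit 39468) (nat_lit 0) (nat_lit 0) (XT.nd (nat_lit 39234) (nat_lit 0) (nat_lit 0) (XT.nd (nat_lit 78) (nat_lit 0) (nat_lit 0) (XT.lf (nat_lit 0) (nat_lit 10104371809316) (nat_lit 76) (nat_lit 806019657488) (nat_lit 76) (nat_lit 805659669321) (nat_lit 1) (nat_lit 4) (nat_lit 2) (nat_lit 5) (nat_lit 2) (nat_lit 4) (nat_lit 327) (nat_lit 235) (nat_lit 218)) (XT.nd (nat_lit 39078) (nat_lit 0) (nat_lit 0) (XT.lf (nat_lit 0) (nat_lit 11621406158969) (nat_lit 76) (nat_lit 926180779862) (nat_lit 76) (nat_lit 925815981357) (nat_lit 1) (nat_lit 4) (nat_lit 2) (nat_lit 5) (nat_lit 2) (nat_lit 4) (nat_lit 328) (nat_lit 235) (nat_lit 217)) (XT.lf (nat_lit 0) (nat_lit 346289417906) (nat_lit 76) (nat_lit 32839741074) (nat_lit 76) (nat_lit 32839741074) (nat_lit 1) (nat_lit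 4) (nat_lit 2) (nat_lit 5) (nat_lit 2) (nat_lit 4) (nat_lit 308) (nat_lit 236) (nat_lit 236)))) (XT.nd (nat_lit 78) (nat_lit 0) (nat_lit 0) (XT.lf (nat_lit 0) (nat_lit 800341598876) (nat_lit 76) (nat_lit 73544637124) (nat_lit 76) (nat_lit 73485107010) (nat_lit 1) (nat_lit 4) (nat_lit 2) (nat_lit 5) (nat_lit 2) (nat_lit 4) (nat_lit 309) (nat_lit 236) (nat_lit 235)) (XT.nd (nat_lit 78) (nat_lit 0) (nat_lit 0) (XT.lf (nat_lit 0) (nat_lit 923939398296) (nat_lit 76) (nat_lit 82752583589) (nat_lit 76) (nat_lit 82641288159) (nat_lit 1) (nat_lit 4) (nat_lit 2) (nat_lit 5) (nat_lit 2) (nat_lit 4) (nat_lit 310) (nat_lit 236) (nat_lit 234)) (XT.lf (nat_lit 0) (nat_lit 1065790451886) (nat_lit 76) (nat_lit 93483477020) (nat_lit 76) (nat_lit 93327168271) (nat_lit 1) (nat_lit 4) (nat_lit 2) (nat_lit 5) (nat_lit 2) (nat_lit 4) (nat_lit 311) (nat_lit 236) (nat_lit 233))))) (XT.nd (nat_lit 234) (nat_lit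 0) (nat_lit 0) (XT.nd (nat_lit 78) (nat_lit 0) (nat_lit 0) (XT.lf (nat_lit 0) (nat_lit 1228670106347) (nat_lit 76) (nat_lit 105947269678) (nat_lit 76) (nat_lit 105751818914) (nat_lit 1) (nat_lit 4) (nat_lit 2) (nat_lit 5) (nat_lit 2) (nat_lit 4) (nat_lit 312) (nat_lit 236) (nat_lit 232)) (XT.nd (nat_lit 78) (nat_lit 0) (nat_lit 0) (XT.lf (nat_lit 0) (nat_lit 1415765137527) (nat_lit 76) (nat_lit 120387818378) (nat_lit 76) (nat_lit 120158331078) (nat_lit 1) (nat_lit 4) (nat_lit 2) (nat_lit 5) (nat_lit 2) (nat_lit 4) (nat_lit 313) (nat_lit 236) (nat_lit 231)) (XT.lf (nat_lit 0) (nat_lit 1630736100383) (nat_lit 76) (nat_lit 137087655593) (nat_lit 76) (nat_lit 136828571305) (nat_lit 1) (nat_lit 4) (nat_lit 2) (nat_lit 5) (nat_lit 2) (nat_lit 4) (nat_lit 314) (nat_lit 236) (nat_lit 230)))) (XT.nd (nat_lit 78) (nat_lit 0) (nat_lit 0) (XT.lf (nat_lit 0) (nat_lit 1877788948538) (nat_lit 76) (nat_lit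 156373517269) (nat_lit 76) (nat_lit 156088696470) (nat_lit 1) (nat_lit 4) (nat_lit 2) (nat_lit 5) (nat_lit 2) (nat_lit 4) (nat_lit 315) (nat_lit 236) (nat_lit 229)) (XT.nd (nat_lit 78) (nat_lit 0) (nat_lit 0) (XT.lf (nat_lit 0) (nat_lit 2161757324672) (nat_lit 76) (nat_lit 178622735482) (nat_lit 76) (nat_lit 178315535109) (nat_lit 1) (nat_lit 4) (nat_lit 2) (nat_lit 5) (nat_lit 2) (nat_lit 4) (nat_lit 316) (nat_lit 236) (nat_lit 228)) (XT.lf (nat_lit 0) (nat_lit 2488197131796) (nat_lit 76) (nat_lit 204270621024) (nat_lit 76) (nat_lit 203943960151) (nat_lit 1) (nat_lit 4) (nat_lit 2) (nat_lit 5) (nat_lit 2) (nat_lit 4) (nat_lit 317) (nat_lit 236) (nat_lit 227)))))) (XT.nd (nat_lit 468) (nat_lit 0) (nat_lit 0) (XT.nd (nat_lit 234) (nat_lit 0) (nat_lit 0) (XT.nd (nat_lit 78) (nat_lit 0) (nat_lit 0) (XT.lf (nat_lit 0) (nat_lit 2863495235702) (nat_lit 76) (nat_lit 233818980350) (nat_lit 76)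 (nat_lit 233475397303) (nat_lit 1) (nat_lit 4) (nat_lit 2) (nat_lit 5) (nat_lit 2) (nat_lit 4) (nat_lit 318) (nat_lit 236) (nat_lit 226)) (XT.nd (nat_lit 78) (nat_lit 0) (nat_lit 0) (XT.lf (nat_lit 0) (nat_lit 3294994425379) (nat_lit 76) (nat_lit 267845933535) (nat_lit 76) (nat_lit 267487635554) (nat_lit 1) (nat_lit 4) (nat_lit 2) (nat_lit 5) (nat_lit 2) (nat_lit 4) (nat_lit 319) (nat_lit 236) (nat_lit 225)) (XT.lf (nat_lit 0) (nat_lit 3791137076279) (nat_lit 76) (nat_lit 307017225314) (nat_lit 76) (nat_lit 306646131739) (nat_lit 1) (nat_lit 4) (nat_lit 2) (nat_lit 5) (nat_lit 2) (nat_lit 4) (nat_lit 320) (nat_lit 236) (nat_lit 224)))) (XT.nd (nat_lit 78) (nat_lit 0) (nat_lit 0) (XT.lf (nat_lit 0) (nat_lit 4361630327222) (nat_lit 76) (nat_lit 352099250527) (nat_lit 76) (nat_lit 351717030348) (nat_lit 1) (nat_lit 4) (nat_lit 2) (nat_lit 5) (nat_lit 2) (nat_lit 4) (nat_lit 321) (nat_lit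 236) (nat_lit 223)) (XT.nd (nat_lit 78) (nat_lit 0) (nat_lit 0) (XT.lf (nat_lit 0) (nat_lit 5017636002683) (nat_lit 76) (nat_lit 403974048797) (nat_lit 76) (nat_lit 403582153311) (nat_lit 1) (nat_lit 4) (nat_lit 2) (nat_lit 5) (nat_lit 2) (nat_lit 4) (nat_lit 322) (nat_lit 236) (nat_lit 222)) (XT.lf (nat_lit 0) (nat_lit 5771988996314) (nat_lit 76) (nat_lit 463656561830) (nat_lit 76) (nat_lit 463256253033) (nat_lit 1) (nat_lit 4) (nat_lit 2) (nat_lit 5) (nat_lit 2) (nat_lit 4) (nat_lit 323) (nat_lit 236) (nat_lit 221))))) (XT.nd (nat_lit 234) (nat_lit 0) (nat_lit 0) (XT.nd (nat_lit 78) (nat_lit 0) (nat_lit 0) (XT.lf (nat_lit 0) (nat_lit 6639448388424) (nat_lit 76) (nat_lit 532314490968) (nat_lit 76) (nat_lit 531906866248) (nat_lit 1) (nat_lit 4) (nat_lit 2) (nat_lit 5) (nat_lit 2) (nat_lit 4) (nat_lit 324) (nat_lit 236) (nat_lit 220)) (XT.nd (nat_lit 78) (nat_lit 0) (nat_lit 0) (XT.lf (nat_lit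 0) (nat_lit 7636986210597) (nat_lit 76) (nat_lit 611291143520) (nat_lit 76) (nat_lit 610877157128) (nat_lit 1) (nat_lit 4) (nat_lit 2) (nat_lit 5) (nat_lit 2) (nat_lit 4) (nat_lit 325) (nat_lit 236) (nat_lit 219)) (XT.lf (nat_lit 0) (nat_lit 8784119507182) (nat_lit 76) (nat_lit 702131714862) (nat_lit 76) (nat_lit 701712196582) (nat_lit 1) (nat_lit 4) (nat_lit 2) (nat_lit 5) (nat_lit 2) (nat_lit 4) (nat_lit 326) (nat_lit 236) (nat_lit 218)))) (XT.nd (nat_lit 78) (nat_lit 0) (nat_lit 0) (XT.lf (nat_lit 0) (nat_lit 10103292190502) (nat_lit 76) (nat_lit 806613520521) (nat_lit 76) (nat_lit 806189191902) (nat_lit 1) (nat_lit 4) (nat_lit 2) (nat_lit 5) (nat_lit 2) (nat_lit 4) (nat_lit 327) (nat_lit 236) (nat_lit 217)) (XT.nd (nat_lit 38922) (nat_lit 0) (nat_lit 0) (XT.lf (nat_lit 0) (nat_lit 11620314160882) (nat_lit 76) (nat_lit 926780769736) (nat_lit 76) (nat_lit 926352258215) (nat_lit 1) (nat_lit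 4) (nat_lit 2) (nat_lit 5) (nat_lit 2) (nat_lit 4) (nat_lit 328) (nat_lit 236) (nat_lit 216)) (XT.lf (nat_lit 0) (nat_lit 258297990813) (nat_lit 76) (nat_lit 26676729252) (nat_lit 76) (nat_lit 26676729252) (nat_lit 1) (nat_lit 4) (nat_lit 2) (nat_lit 5) (nat_lit 2) (nat_lit 4) (nat_lit 306) (nat_lit 237) (nat_lit 237))))))) (XT.nd (nat_lit 936) (nat_lit 0) (nat_lit 0) (XT.nd (nat_lit 468) (nat_lit 0) (nat_lit 0) (XT.nd (nat_lit 234) (nat_lit 0) (nat_lit 0) (XT.nd (nat_lit 78) (nat_lit 0) (nat_lit 0) (XT.lf (nat_lit 0) (nat_lit 598542707217) (nat_lit 76) (nat_lit 59071694829) (nat_lit 76) (nat_lit 59003235199) (nat_lit 1) (nat_lit 4) (nat_lit 2) (nat_lit 5) (nat_lit 2) (nat_lit 4) (nat_lit 307) (nat_lit 237) (nat_lit 236)) (XT.nd (nat_lit 78) (nat_lit 0) (nat_lit 0) (XT.lf (nat_lit 0) (nat_lit 692402656826) (nat_lit 76) (nat_lit 65835137585) (nat_lit 76) (nat_lit 65707147841) (nat_lit 1)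 (nat_lit 4) (nat_lit 2) (nat_lit 5) (nat_lit 2) (nat_lit 4) (nat_lit 308) (nat_lit 237) (nat_lit 235)) (XT.lf (nat_lit 0) (nat_lit 800012220772) (nat_lit 76) (nat_lit 73776114999) (nat_lit 76) (nat_lit 73596359939) (nat_lit 1) (nat_lit 4) (nat_lit 2) (nat_lit 5) (nat_lit 2) (nat_lit 4) (nat_lit 309) (nat_lit 237) (nat_lit 234)))) (XT.nd (nat_lit 78) (nat_lit 0) (nat_lit 0) (XT.lf (nat_lit 0) (nat_lit 923476803567) (nat_lit 76) (nat_lit 83049994021) (nat_lit 76) (nat_lit 82825225642) (nat_lit 1) (nat_lit 4) (nat_lit 2) (nat_lit 5) (nat_lit 2) (nat_lit 4) (nat_lit 310) (nat_lit 237) (nat_lit 233)) (XT.nd (nat_lit 78) (nat_lit 0) (nat_lit 0) (XT.lf (nat_lit 0) (nat_lit 1065212016614) (nat_lit 76) (nat_lit 93838220109) (nat_lit 76) (nat_lit 93574309714) (nat_lit 1) (nat_lit 4) (nat_lit 2) (nat_lit 5) (nat_lit 2) (nat_lit 4) (nat_lit 311) (nat_lit 237) (nat_lit 232)) (XT.lf (nat_lit 0) (nat_lit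 1227990940168) (nat_lit 76) (nat_lit 106351867252) (nat_lit 76) (nat_lit 106053920321) (nat_lit 1) (nat_lit 4) (nat_lit 2) (nat_lit 5) (nat_lit 2) (nat_lit 4) (nat_lit 312) (nat_lit 237) (nat_lit 231))))) (XT.nd (nat_lit 234) (nat_lit 0) (nat_lit 0) (XT.nd (nat_lit 78) (nat_lit 0) (nat_lit 0) (XT.lf (nat_lit 0) (nat_lit 1414998379255) (nat_lit 76) (nat_lit 120835767677) (nat_lit 76) (nat_lit 120508223759) (nat_lit 1) (nat_lit 4) (nat_lit 2) (nat_lit 5) (nat_lit 2) (nat_lit 4) (nat_lit 313) (nat_lit 237) (nat_lit 230)) (XT.nd (nat_lit 78) (nat_lit 0) (nat_lit 0) (XT.lf (nat_lit 0) (nat_lit 1629893175074) (nat_lit 76) (nat_lit 137573302045) (nat_lit 76) (nat_lit 137220021616) (nat_lit 1) (nat_lit 4) (nat_lit 2) (nat_lit 5) (nat_lit 2) (nat_lit 4) (nat_lit 314) (nat_lit 237) (nat_lit 229)) (XT.lf (nat_lit 0) (nat_lit 1876879791022) (nat_lit 76) (nat_lit 156891943854) (nat_lit 76) (nat_lit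 156516283850) (nat_lit 1) (nat_lit 4) (nat_lit 2) (nat_lit 5) (nat_lit 2) (nat_lit 4) (nat_lit 315) (nat_lit 237) (nat_lit 228)))) (XT.nd (nat_lit 78) (nat_lit 0) (nat_lit 0) (XT.lf (nat_lit 0) (nat_lit 2160790573932) (nat_lit 76) (nat_lit 179169666531) (nat_lit 76) (nat_lit 178774546027) (nat_lit 1) (nat_lit 4) (nat_lit 2) (nat_lit 5) (nat_lit 2) (nat_lit 4) (nat_lit 316) (nat_lit 237) (nat_lit 227)) (XT.nd (nat_lit 78) (nat_lit 0) (nat_lit 0) (XT.lf (nat_lit 0) (nat_lit 2487180299993) (nat_lit 76) (nat_lit 204842338562) (nat_lit 76) (nat_lit 204430295885) (nat_lit 1) (nat_lit 4) (nat_lit 2) (nat_lit 5) (nat_lit 2) (nat_lit 4) (nat_lit 317) (nat_lit 237) (nat_lit 226)) (XT.lf (nat_lit 0) (nat_lit 2862434855148) (nat_lit 76) (nat_lit 234412251358) (nat_lit 76) (nat_lit 233985493747) (nat_lit 1) (nat_lit 4) (nat_lit 2) (nat_lit 5) (nat_lit 2) (nat_lit 4) (nat_lit 318) (nat_lit 237) (nat_lit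 225)))))) (XT.nd (nat_lit 468) (nat_lit 0) (nat_lit 0) (XT.nd (nat_lit 234) (nat_lit 0) (nat_lit 0) (XT.nd (nat_lit 78) (nat_lit 0) (nat_lit 0) (XT.lf (nat_lit 0) (nat_lit 3293896176347) (nat_lit 76) (nat_lit 268457946690) (nat_lit 76) (nat_lit 268018393485) (nat_lit 1) (nat_lit 4) (nat_lit 2) (nat_lit 5) (nat_lit 2) (nat_lit 4) (nat_lit 319) (nat_lit 237) (nat_lit 224)) (XT.nd (nat_lit 78) (nat_lit 0) (nat_lit 0) (XT.lf (nat_lit 0) (nat_lit 3790005898134) (nat_lit 76) (nat_lit 307645535989) (nat_lit 76) (nat_lit 307194856179) (nat_lit 1) (nat_lit 4) (nat_lit 2) (nat_lit 5) (nat_lit 2) (nat_lit 4) (nat_lit 320) (nat_lit 237) (nat_lit 223)) (XT.lf (nat_lit 0) (nat_lit 4360470515066) (nat_lit 76) (nat_lit 352741732958) (nat_lit 76) (nat_lit 352281377841) (nat_lit 1) (nat_lit 4) (nat_lit 2) (nat_lit 5) (nat_lit 2) (nat_lit 4) (nat_lit 321) (nat_lit 237) (nat_lit 222)))) (XT.nd (nat_lit 78)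 (nat_lit 0) (nat_lit 0) (XT.lf (nat_lit 0) (nat_lit 5016451291388) (nat_lit 76) (nat_lit 404628854494) (nat_lit 76) (nat_lit 404160086066) (nat_lit 1) (nat_lit 4) (nat_lit 2) (nat_lit 5) (nat_lit 2) (nat_lit 4) (nat_lit 322) (nat_lit 237) (nat_lit 221)) (XT.nd (nat_lit 78) (nat_lit 0) (nat_lit 0) (XT.lf (nat_lit 0) (nat_lit 5770782633593) (nat_lit 76) (nat_lit 464322083411) (nat_lit 76) (nat_lit 463845999060) (nat_lit 1) (nat_lit 4) (nat_lit 2) (nat_lit 5) (nat_lit 2) (nat_lit 4) (nat_lit 323) (nat_lit 237) (nat_lit 220)) (XT.lf (nat_lit 0) (nat_lit 6638223198376) (nat_lit 76) (nat_lit 532989330709) (nat_lit 76) (nat_lit 532506884686) (nat_lit 1) (nat_lit 4) (nat_lit 2) (nat_lit 5) (nat_lit 2) (nat_lit 4) (nat_lit 324) (nat_lit 237) (nat_lit 219))))) (XT.nd (nat_lit 234) (nat_lit 0) (nat_lit 0) (XT.nd (nat_lit 78) (nat_lit 0) (nat_lit 0) (XT.lf (nat_lit 0) (nat_lit 7635744648961) (nat_lit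 76) (nat_lit 611974086009) (nat_lit 76) (nat_lit 611486108097) (nat_lit 1) (nat_lit 4) (nat_lit 2) (nat_lit 5) (nat_lit 2) (nat_lit 4) (nat_lit 325) (nat_lit 237) (nat_lit 218)) (XT.nd (nat_lit 78) (nat_lit 0) (nat_lit 0) (XT.lf (nat_lit 0) (nat_lit 8782863709382) (nat_lit 76) (nat_lit 702821703218) (nat_lit 76) (nat_lit 702328914969) (nat_lit 1) (nat_lit 4) (nat_lit 2) (nat_lit 5) (nat_lit 2) (nat_lit 4) (nat_lit 326) (nat_lit 237) (nat_lit 217)) (XT.lf (nat_lit 0) (nat_lit 10102024013428) (nat_lit 76) (nat_lit 807309635717) (nat_lit 76) (nat_lit 806812664566) (nat_lit 1) (nat_lit 4) (nat_lit 2) (nat_lit 5) (nat_lit 2) (nat_lit 4) (nat_lit 327) (nat_lit 237) (nat_lit 216)))) (XT.nd (nat_lit 38844) (nat_lit 0) (nat_lit 0) (XT.nd (nat_lit 38766) (nat_lit 0) (nat_lit 0) (XT.lf (nat_lit 0) (nat_lit 11619035219224) (nat_lit 76) (nat_lit 927482212621) (nat_lit 76) (nat_lit 926981604163) (nat_lit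 1) (nat_lit 4) (nat_lit 2) (nat_lit 5) (nat_lit 2) (nat_lit 4) (nat_lit 328) (nat_lit 237) (nat_lit 215)) (XT.lf (nat_lit 0) (nat_lit 191231846502) (nat_lit 76) (nat_lit 22293381941) (nat_lit 76) (nat_lit 22293381941) (nat_lit 1) (nat_lit 4) (nat_lit 2) (nat_lit 5) (nat_lit 2) (nat_lit 4) (nat_lit 304) (nat_lit 238) (nat_lit 238))) (XT.nd (nat_lit 78) (nat_lit 0) (nat_lit 0) (XT.lf (nat_lit 0) (nat_lit 444959174553) (nat_lit 76) (nat_lit 48647278647) (nat_lit 76) (nat_lit 48568550072) (nat_lit 1) (nat_lit 4) (nat_lit 2) (nat_lit 5) (nat_lit 2) (nat_lit 4) (nat_lit 305) (nat_lit 238) (nat_lit 237)) (XT.lf (nat_lit 0) (nat_lit 516393375792) (nat_lit 76) (nat_lit 53532462255) (nat_lit 76) (nat_lit 53385274049) (nat_lit 1) (nat_lit 4) (nat_lit 2) (nat_lit 5) (nat_lit 2) (nat_lit 4) (nat_lit 306) (nat_lit 238) (nat_lit 236))))))))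
noncomputable def xc3 : XT := (XT.nd (nat_lit 40404) (nat_lit 0) (nat_lit 0) (XT.nd (nat_lit 936) (nat_lit 0) (nat_lit 0) (XT.nd (nat_lit 468) (nat_lit 0) (nat_lit 0) (XT.nd (nat_lit 234) (nat_lit 0) (nat_lit 0) (XT.nd (nat_lit 78) (nat_lit 0) (nat_lit 0) (XT.lf (nat_lit 0) (nat_lit 598163922397) (nat_lit 76) (nat_lit 59337894386) (nat_lit 76) (nat_lit 59131176067) (nat_lit 1) (nat_lit 4) (nat_lit 2) (nat_lit 5) (nat_lit 2) (nat_lit 4) (nat_lit 307) (nat_lit 238) (nat_lit 235)) (XT.nd (nat_lit 78) (nat_lit 0) (nat_lit 0) (XT.lf (nat_lit 0) (nat_lit 691870672888) (nat_lit 76) (nat_lit 66177159581) (nat_lit 76) (nat_lit 65918675946) (nat_lit 1) (nat_lit 4) (nat_lit 2) (nat_lit 5) (nat_lit 2) (nat_lit 4) (nat_lit 308) (nat_lit 238) (nat_lit 234)) (XT.lf (nat_lit 0) (nat_lit 799347020209) (nat_lit 76) (nat_lit 74184069551) (nat_lit 76) (nat_lit 73880572597) (nat_lit 1) (nat_lit 4) (nat_lit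 2) (nat_lit 5) (nat_lit 2) (nat_lit 4) (nat_lit 309) (nat_lit 238) (nat_lit 233)))) (XT.nd (nat_lit 78) (nat_lit 0) (nat_lit 0) (XT.lf (nat_lit 0) (nat_lit 922695762461) (nat_lit 76) (nat_lit 83515281230) (nat_lit 76) (nat_lit 83172642260) (nat_lit 1) (nat_lit 4) (nat_lit 2) (nat_lit 5) (nat_lit 2) (nat_lit 4) (nat_lit 310) (nat_lit 238) (nat_lit 232)) (XT.nd (nat_lit 78) (nat_lit 0) (nat_lit 0) (XT.lf (nat_lit 0) (nat_lit 1064330244601) (nat_lit 76) (nat_lit 94353361803) (nat_lit 76) (nat_lit 93976686297) (nat_lit 1) (nat_lit 4) (nat_lit 2) (nat_lit 5) (nat_lit 2) (nat_lit 4) (nat_lit 311) (nat_lit 238) (nat_lit 231)) (XT.lf (nat_lit 0) (nat_lit 1227021576062) (nat_lit 76) (nat_lit 106910360672) (nat_lit 76) (nat_lit 106504088178) (nat_lit 1) (nat_lit 4) (nat_lit 2) (nat_lit 5) (nat_lit 2) (nat_lit 4) (nat_lit 312) (nat_lit 238) (nat_lit 230))))) (XT.nd (nat_lit 234) (nat_lit 0) (nat_lit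 0) (XT.nd (nat_lit 78) (nat_lit 0) (nat_lit 0) (XT.lf (nat_lit 0) (nat_lit 1413952848111) (nat_lit 76) (nat_lit 121431958250) (nat_lit 76) (nat_lit 120999949246) (nat_lit 1) (nat_lit 4) (nat_lit 2) (nat_lit 5) (nat_lit 2) (nat_lit 4) (nat_lit 313) (nat_lit 238) (nat_lit 229)) (XT.nd (nat_lit 78) (nat_lit 0) (nat_lit 0) (XT.lf (nat_lit 0) (nat_lit 1628781411724) (nat_lit 76) (nat_lit 138202272751) (nat_lit 76) (nat_lit 137747884172) (nat_lit 1) (nat_lit 4) (nat_lit 2) (nat_lit 5) (nat_lit 2) (nat_lit 4) (nat_lit 314) (nat_lit 238) (nat_lit 228)) (XT.lf (nat_lit 0) (nat_lit 1875710434449) (nat_lit 76) (nat_lit 157549419024) (nat_lit 76) (nat_lit 157075569945) (nat_lit 1) (nat_lit 4) (nat_lit 2) (nat_lit 5) (nat_lit 2) (nat_lit 4) (nat_lit 315) (nat_lit 238) (nat_lit 227)))) (XT.nd (nat_lit 78) (nat_lit 0) (nat_lit 0) (XT.lf (nat_lit 0) (nat_lit 2159571136296) (nat_lit 76) (nat_lit 179851928190)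 (nat_lit 76) (nat_lit 179361156937) (nat_lit 1) (nat_lit 4) (nat_lit 2) (nat_lit 5) (nat_lit 2) (nat_lit 4) (nat_lit 316) (nat_lit 238) (nat_lit 226)) (XT.nd (nat_lit 78) (nat_lit 0) (nat_lit 0) (XT.lf (nat_lit 0) (nat_lit 2485917313605) (nat_lit 76) (nat_lit 205546153691) (nat_lit 76) (nat_lit 205040667505) (nat_lit 1) (nat_lit 4) (nat_lit 2) (nat_lit 5) (nat_lit 2) (nat_lit 4) (nat_lit 317) (nat_lit 238) (nat_lit 225)) (XT.lf (nat_lit 0) (nat_lit 2861134000281) (nat_lit 76) (nat_lit 235134808634) (nat_lit 76) (nat_lit 234616526854) (nat_lit 1) (nat_lit 4) (nat_lit 2) (nat_lit 5) (nat_lit 2) (nat_lit 4) (nat_lit 318) (nat_lit 238) (nat_lit 224)))))) (XT.nd (nat_lit 468) (nat_lit 0) (nat_lit 0) (XT.nd (nat_lit 234) (nat_lit 0) (nat_lit 0) (XT.nd (nat_lit 78) (nat_lit 0) (nat_lit 0) (XT.lf (nat_lit 0) (nat_lit 3292562392368) (nat_lit 76) (nat_lit 269196801486) (nat_lit 76) (nat_lit 268667393101)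 (nat_lit 1) (nat_lit 4) (nat_lit 2) (nat_lit 5) (nat_lit 2) (nat_lit 4) (nat_lit 319) (nat_lit 238) (nat_lit 223)) (XT.nd (nat_lit 78) (nat_lit 0) (nat_lit 0) (XT.lf (nat_lit 0) (nat_lit 3788643480144) (nat_lit 76) (nat_lit 308398562541) (nat_lit 76) (nat_lit 307859478848) (nat_lit 1) (nat_lit 4) (nat_lit 2) (nat_lit 5) (nat_lit 2) (nat_lit 4) (nat_lit 320) (nat_lit 238) (nat_lit 222)) (XT.lf (nat_lit 0) (nat_lit 4359083197937) (nat_lit 76) (nat_lit 353507082776) (nat_lit 76) (nat_lit 352959585772) (nat_lit 1) (nat_lit 4) (nat_lit 2) (nat_lit 5) (nat_lit 2) (nat_lit 4) (nat_lit 321) (nat_lit 238) (nat_lit 221)))) (XT.nd (nat_lit 78) (nat_lit 0) (nat_lit 0) (XT.lf (nat_lit 0) (nat_lit 5015042322833) (nat_lit 76) (nat_lit 405404920196) (nat_lit 76) (nat_lit 404850107270) (nat_lit 1) (nat_lit 4) (nat_lit 2) (nat_lit 5) (nat_lit 2) (nat_lit 4) (nat_lit 322) (nat_lit 238) (nat_lit 220)) (XT.nd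 (nat_lit 78) (nat_lit 0) (nat_lit 0) (XT.lf (nat_lit 0) (nat_lit 5769354837711) (nat_lit 76) (nat_lit 465107467273) (nat_lit 76) (nat_lit 464546292674) (nat_lit 1) (nat_lit 4) (nat_lit 2) (nat_lit 5) (nat_lit 2) (nat_lit 4) (nat_lit 323) (nat_lit 238) (nat_lit 219)) (XT.lf (nat_lit 0) (nat_lit 6636779030906) (nat_lit 76) (nat_lit 533782817318) (nat_lit 76) (nat_lit 533216110831) (nat_lit 1) (nat_lit 4) (nat_lit 2) (nat_lit 5) (nat_lit 2) (nat_lit 4) (nat_lit 324) (nat_lit 238) (nat_lit 218))))) (XT.nd (nat_lit 234) (nat_lit 0) (nat_lit 0) (XT.nd (nat_lit 78) (nat_lit 0) (nat_lit 0) (XT.lf (nat_lit 0) (nat_lit 7634286245327) (nat_lit 76) (nat_lit 612774618485) (nat_lit 76) (nat_lit 612203101660) (nat_lit 1) (nat_lit 4) (nat_lit 2) (nat_lit 5) (nat_lit 2) (nat_lit 4) (nat_lit 325) (nat_lit 238) (nat_lit 217)) (XT.nd (nat_lit 78) (nat_lit 0) (nat_lit 0) (XT.lf (nat_lit 0) (nat_lit 8781392926475)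 (nat_lit 76) (nat_lit 703628362535) (nat_lit 76) (nat_lit 703052662808) (nat_lit 1) (nat_lit 4) (nat_lit 2) (nat_lit 5) (nat_lit 2) (nat_lit 4) (nat_lit 326) (nat_lit 238) (nat_lit 216)) (XT.lf (nat_lit 0) (nat_lit 10100542465936) (nat_lit 76) (nat_lit 808121622723) (nat_lit 76) (nat_lit 807542285689) (nat_lit 1) (nat_lit 4) (nat_lit 2) (nat_lit 5) (nat_lit 2) (nat_lit 4) (nat_lit 327) (nat_lit 238) (nat_lit 215)))) (XT.nd (nat_lit 38610) (nat_lit 0) (nat_lit 0) (XT.lf (nat_lit 0) (nat_lit 11617544311223) (nat_lit 76) (nat_lit 928298832399) (nat_lit 76) (nat_lit 927716332490) (nat_lit 1) (nat_lit 4) (nat_lit 2) (nat_lit 5) (nat_lit 2) (nat_lit 4) (nat_lit 328) (nat_lit 238) (nat_lit 214)) (XT.nd (nat_lit 78) (nat_lit 0) (nat_lit 0) (XT.lf (nat_lit 0) (nat_lit 139908424662) (nat_lit 76) (nat_lit 19297232938) (nat_lit 76) (nat_lit 19297232938) (nat_lit 1) (nat_lit 4) (nat_lit 2) (nat_lit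 5) (nat_lit 2) (nat_lit 4) (nat_lit 302) (nat_lit 239) (nat_lit 239)) (XT.lf (nat_lit 0) (nat_lit 327684193462) (nat_lit 76) (nat_lit 41362010969) (nat_lit 76) (nat_lit 41271473107) (nat_lit 1) (nat_lit 4) (nat_lit 2) (nat_lit 5) (nat_lit 2) (nat_lit 4) (nat_lit 303) (nat_lit 239) (nat_lit 238))))))) (XT.nd (nat_lit 936) (nat_lit 0) (nat_lit 0) (XT.nd (nat_lit 468) (nat_lit 0) (nat_lit 0) (XT.nd (nat_lit 234) (nat_lit 0) (nat_lit 0) (XT.nd (nat_lit 78) (nat_lit 0) (nat_lit 0) (XT.lf (nat_lit 0) (nat_lit 382230696295) (nat_lit 76) (nat_lit 44792618197) (nat_lit 76) (nat_lit 44623351760) (nat_lit 1) (nat_lit 4) (nat_lit 2) (nat_lit 5) (nat_lit 2) (nat_lit 4) (nat_lit 304) (nat_lit 239) (nat_lit 237)) (XT.nd (nat_lit 78) (nat_lit 0) (nat_lit 0) (XT.lf (nat_lit 0) (nat_lit 444523572010) (nat_lit 76) (nat_lit 48953408138) (nat_lit 76) (nat_lit 48715682070) (nat_lit 1) (nat_lit 4) (nat_lit 2)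 (nat_lit 5) (nat_lit 2) (nat_lit 4) (nat_lit 305) (nat_lit 239) (nat_lit 236)) (XT.lf (nat_lit 0) (nat_lit 515781594263) (nat_lit 76) (nat_lit 53925787551) (nat_lit 76) (nat_lit 53628531370) (nat_lit 1) (nat_lit 4) (nat_lit 2) (nat_lit 5) (nat_lit 2) (nat_lit 4) (nat_lit 306) (nat_lit 239) (nat_lit 235)))) (XT.nd (nat_lit 78) (nat_lit 0) (nat_lit 0) (XT.lf (nat_lit 0) (nat_lit 597398941749) (nat_lit 76) (nat_lit 59807042121) (nat_lit 76) (nat_lit 59458020624) (nat_lit 1) (nat_lit 4) (nat_lit 2) (nat_lit 5) (nat_lit 2) (nat_lit 4) (nat_lit 307) (nat_lit 239) (nat_lit 234)) (XT.nd (nat_lit 78) (nat_lit 0) (nat_lit 0) (XT.lf (nat_lit 0) (nat_lit 690972475616) (nat_lit 76) (nat_lit 66712239872) (nat_lit 76) (nat_lit 66318205057) (nat_lit 1) (nat_lit 4) (nat_lit 2) (nat_lit 5) (nat_lit 2) (nat_lit 4) (nat_lit 308) (nat_lit 239) (nat_lit 233)) (XT.lf (nat_lit 0) (nat_lit 798332982394) (nat_lit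 76) (nat_lit 74776482500) (nat_lit 76) (nat_lit 74343305668) (nat_lit 1) (nat_lit 4) (nat_lit 2) (nat_lit 5) (nat_lit 2) (nat_lit 4) (nat_lit 309) (nat_lit 239) (nat_lit 232))))) (XT.nd (nat_lit 234) (nat_lit 0) (nat_lit 0) (XT.nd (nat_lit 78) (nat_lit 0) (nat_lit 0) (XT.lf (nat_lit 0) (nat_lit 921580993739) (nat_lit 76) (nat_lit 84157548663) (nat_lit 76) (nat_lit 83690335296) (nat_lit 1) (nat_lit 4) (nat_lit 2) (nat_lit 5) (nat_lit 2) (nat_lit 4) (nat_lit 310) (nat_lit 239) (nat_lit 231)) (XT.nd (nat_lit 78) (nat_lit 0) (nat_lit 0) (XT.lf (nat_lit 0) (nat_lit 1063127883786) (nat_lit 76) (nat_lit 95038980962) (nat_lit 76) (nat_lit 94542170607) (nat_lit 1) (nat_lit 4) (nat_lit 2) (nat_lit 5) (nat_lit 2) (nat_lit 4) (nat_lit 311) (nat_lit 239) (nat_lit 230)) (XT.lf (nat_lit 0) (nat_lit 1225743048209) (nat_lit 76) (nat_lit 107633676984) (nat_lit 76) (nat_lit 107111130118) (nat_lit 1) (nat_lit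 4) (nat_lit 2) (nat_lit 5) (nat_lit 2) (nat_lit 4) (nat_lit 312) (nat_lit 239) (nat_lit 229)))) (XT.nd (nat_lit 78) (nat_lit 0) (nat_lit 0) (XT.lf (nat_lit 0) (nat_lit 1412608088052) (nat_lit 76) (nat_lit 122188054695) (nat_lit 76) (nat_lit 121643128254) (nat_lit 1) (nat_lit 4) (nat_lit 2) (nat_lit 5) (nat_lit 2) (nat_lit 4) (nat_lit 313) (nat_lit 239) (nat_lit 228)) (XT.nd (nat_lit 78) (nat_lit 0) (nat_lit 0) (XT.lf (nat_lit 0) (nat_lit 1627379058441) (nat_lit 76) (nat_lit 138986873659) (nat_lit 76) (nat_lit 138422486719) (nat_lit 1) (nat_lit 4) (nat_lit 2) (nat_lit 5) (nat_lit 2) (nat_lit 4) (nat_lit 314) (nat_lit 239) (nat_lit 227)) (XT.lf (nat_lit 0) (nat_lit 1874258000103) (nat_lit 76) (nat_lit 158358806422) (nat_lit 76) (nat_lit 157777497307) (nat_lit 1) (nat_lit 4) (nat_lit 2) (nat_lit 5) (nat_lit 2) (nat_lit 4) (nat_lit 315) (nat_lit 239) (nat_lit 226)))))) (XT.nd (nat_lit 468)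 (nat_lit 0) (nat_lit 0) (XT.nd (nat_lit 234) (nat_lit 0) (nat_lit 0) (XT.nd (nat_lit 78) (nat_lit 0) (nat_lit 0) (XT.lf (nat_lit 0) (nat_lit 2158075153199) (nat_lit 76) (nat_lit 180682869058) (nat_lit 76) (nat_lit 180086845010) (nat_lit 1) (nat_lit 4) (nat_lit 2) (nat_lit 5) (nat_lit 2) (nat_lit 4) (nat_lit 316) (nat_lit 239) (nat_lit 225)) (XT.nd (nat_lit 78) (nat_lit 0) (nat_lit 0) (XT.lf (nat_lit 0) (nat_lit 2484383462030) (nat_lit 76) (nat_lit 206395836706) (nat_lit 76) (nat_lit 205787017064) (nat_lit 1) (nat_lit 4) (nat_lit 2) (nat_lit 5) (nat_lit 2) (nat_lit 4) (nat_lit 317) (nat_lit 239) (nat_lit 224)) (XT.lf (nat_lit 0) (nat_lit 2859567219594) (nat_lit 76) (nat_lit 236000789169) (nat_lit 76) (nat_lit 235380842923) (nat_lit 1) (nat_lit 4) (nat_lit 2) (nat_lit 5) (nat_lit 2) (nat_lit 4) (nat_lit 318) (nat_lit 239) (nat_lit 223)))) (XT.nd (nat_lit 78) (nat_lit 0) (nat_lit 0) (XT.lf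 (nat_lit 0) (nat_lit 3290966977669) (nat_lit 76) (nat_lit 270076953777) (nat_lit 76) (nat_lit 269447332222) (nat_lit 1) (nat_lit 4) (nat_lit 2) (nat_lit 5) (nat_lit 2) (nat_lit 4) (nat_lit 319) (nat_lit 239) (nat_lit 222)) (XT.nd (nat_lit 78) (nat_lit 0) (nat_lit 0) (XT.lf (nat_lit 0) (nat_lit 3787023166306) (nat_lit 76) (nat_lit 309291038097) (nat_lit 76) (nat_lit 308653003232) (nat_lit 1) (nat_lit 4) (nat_lit 2) (nat_lit 5) (nat_lit 2) (nat_lit 4) (nat_lit 320) (nat_lit 239) (nat_lit 221)) (XT.lf (nat_lit 0) (nat_lit 4357441232673) (nat_lit 76) (nat_lit 354410274216) (nat_lit 76) (nat_lit 353764923428) (nat_lit 1) (nat_lit 4) (nat_lit 2) (nat_lit 5) (nat_lit 2) (nat_lit 4) (nat_lit 321) (nat_lit 239) (nat_lit 220))))) (XT.nd (nat_lit 234) (nat_lit 0) (nat_lit 0) (XT.nd (nat_lit 78) (nat_lit 0) (nat_lit 0) (XT.lf (nat_lit 0) (nat_lit 5013381530243) (nat_lit 76) (nat_lit 406317429796)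 (nat_lit 76) (nat_lit 405665717336) (nat_lit 1) (nat_lit 4) (nat_lit 2) (nat_lit 5) (nat_lit 2) (nat_lit 4) (nat_lit 322) (nat_lit 239) (nat_lit 219)) (XT.nd (nat_lit 78) (nat_lit 0) (nat_lit 0) (XT.lf (nat_lit 0) (nat_lit 5767677673532) (nat_lit 76) (nat_lit 466028079620) (nat_lit 76) (nat_lit 465370835272) (nat_lit 1) (nat_lit 4) (nat_lit 2) (nat_lit 5) (nat_lit 2) (nat_lit 4) (nat_lit 323) (nat_lit 239) (nat_lit 218)) (XT.lf (nat_lit 0) (nat_lit 6635087630563) (nat_lit 76) (nat_lit 534710475533) (nat_lit 76) (nat_lit 534048420847) (nat_lit 1) (nat_lit 4) (nat_lit 2) (nat_lit 5) (nat_lit 2) (nat_lit 4) (nat_lit 324) (nat_lit 239) (nat_lit 217)))) (XT.nd (nat_lit 156) (nat_lit 0) (nat_lit 0) (XT.nd (nat_lit 78) (nat_lit 0) (nat_lit 0) (XT.lf (nat_lit 0) (nat_lit 7632582465711) (nat_lit 76) (nat_lit 613708403541) (nat_lit 76) (nat_lit 613042165952) (nat_lit 1) (nat_lit 4) (nat_lit 2) (nat_lit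 5) (nat_lit 2) (nat_lit 4) (nat_lit 325) (nat_lit 239) (nat_lit 216)) (XT.lf (nat_lit 0) (nat_lit 8779678382273) (nat_lit 76) (nat_lit 704567475280) (nat_lit 76) (nat_lit 703897600384) (nat_lit 1) (nat_lit 4) (nat_lit 2) (nat_lit 5) (nat_lit 2) (nat_lit 4) (nat_lit 326) (nat_lit 239) (nat_lit 215))) (XT.nd (nat_lit 78) (nat_lit 0) (nat_lit 0) (XT.lf (nat_lit 0) (nat_lit 10098818561226) (nat_lit 76) (nat_lit 809065368239) (nat_lit 76) (nat_lit 808392330469) (nat_lit 1) (nat_lit 4) (nat_lit 2) (nat_lit 5) (nat_lit 2) (nat_lit 4) (nat_lit 327) (nat_lit 239) (nat_lit 214)) (XT.lf (nat_lit 0) (nat_lit 11615812266940) (nat_lit 76) (nat_lit 929246606413) (nat_lit 76) (nat_lit 928570818316) (nat_lit 1) (nat_lit 4) (nat_lit 2) (nat_lit 5) (nat_lit 2) (nat_lit 4) (nat_lit 328) (nat_lit 239) (nat_lit 213))))))))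
noncomputable def xc4 : XT := (XT.nd (nat_lit 1872) (nat_lit 0) (nat_lit 0) (XT.nd (nat_lit 936) (nat_lit 0) (nat_lit 0) (XT.nd (nat_lit 468) (nat_lit 0) (nat_lit 0) (XT.nd (nat_lit 234) (nat_lit 0) (nat_lit 0) (XT.nd (nat_lit 78) (nat_lit 0) (nat_lit 0) (XT.lf (nat_lit 0) (nat_lit 100396995496) (nat_lit 76) (nat_lit 17397748848) (nat_lit 76) (nat_lit 17397748848) (nat_lit 1) (nat_lit 4) (nat_lit 2) (nat_lit 5) (nat_lit 2) (nat_lit 4) (nat_lit 300) (nat_lit 240) (nat_lit 240)) (XT.nd (nat_lit 78) (nat_lit 0) (nat_lit 0) (XT.lf (nat_lit 0) (nat_lit 237692128890) (nat_lit 76) (nat_lit 36539953842) (nat_lit 76) (nat_lit 36435835301) (nat_lit 1) (nat_lit 4) (nat_lit 2) (nat_lit 5) (nat_lit 2) (nat_lit 4) (nat_lit 301) (nat_lit 240) (nat_lit 239)) (XT.lf (nat_lit 0) (nat_lit 279548903109) (nat_lit 76) (nat_lit 38831198339) (nat_lit 76) (nat_lit 38636541936) (nat_lit 1) (nat_lit 4) (nat_lit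 2) (nat_lit 5) (nat_lit 2) (nat_lit 4) (nat_lit 302) (nat_lit 240) (nat_lit 238)))) (XT.nd (nat_lit 78) (nat_lit 0) (nat_lit 0) (XT.lf (nat_lit 0) (nat_lit 327183250537) (nat_lit 76) (nat_lit 41714059883) (nat_lit 76) (nat_lit 41440674905) (nat_lit 1) (nat_lit 4) (nat_lit 2) (nat_lit 5) (nat_lit 2) (nat_lit 4) (nat_lit 303) (nat_lit 240) (nat_lit 237)) (XT.nd (nat_lit 78) (nat_lit 0) (nat_lit 0) (XT.lf (nat_lit 0) (nat_lit 381527147537) (nat_lit 76) (nat_lit 45244942287) (nat_lit 76) (nat_lit 44903097678) (nat_lit 1) (nat_lit 4) (nat_lit 2) (nat_lit 5) (nat_lit 2) (nat_lit 4) (nat_lit 304) (nat_lit 240) (nat_lit 236)) (XT.lf (nat_lit 0) (nat_lit 443643844266) (nat_lit 76) (nat_lit 49492928033) (nat_lit 76) (nat_lit 49091553311) (nat_lit 1) (nat_lit 4) (nat_lit 2) (nat_lit 5) (nat_lit 2) (nat_lit 4) (nat_lit 305) (nat_lit 240) (nat_lit 235))))) (XT.nd (nat_lit 234) (nat_lit 0) (nat_lit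 0) (XT.nd (nat_lit 78) (nat_lit 0) (nat_lit 0) (XT.lf (nat_lit 0) (nat_lit 514748667400) (nat_lit 76) (nat_lit 54541129886) (nat_lit 76) (nat_lit 54087989847) (nat_lit 1) (nat_lit 4) (nat_lit 2) (nat_lit 5) (nat_lit 2) (nat_lit 4) (nat_lit 306) (nat_lit 240) (nat_lit 234)) (XT.nd (nat_lit 78) (nat_lit 0) (nat_lit 0) (XT.lf (nat_lit 0) (nat_lit 596232798262) (nat_lit 76) (nat_lit 60488317012) (nat_lit 76) (nat_lit 59990163655) (nat_lit 1) (nat_lit 4) (nat_lit 2) (nat_lit 5) (nat_lit 2) (nat_lit 4) (nat_lit 307) (nat_lit 240) (nat_lit 233)) (XT.lf (nat_lit 0) (nat_lit 689690491585) (nat_lit 76) (nat_lit 67450847421) (nat_lit 76) (nat_lit 66913552048) (nat_lit 1) (nat_lit 4) (nat_lit 2) (nat_lit 5) (nat_lit 2) (nat_lit 4) (nat_lit 308) (nat_lit 240) (nat_lit 232)))) (XT.nd (nat_lit 78) (nat_lit 0) (nat_lit 0) (XT.lf (nat_lit 0) (nat_lit 796950267457) (nat_lit 76) (nat_lit 75564944533) (nat_lit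 76) (nat_lit 74993612624) (nat_lit 1) (nat_lit 4) (nat_lit 2) (nat_lit 5) (nat_lit 2) (nat_lit 4) (nat_lit 309) (nat_lit 240) (nat_lit 231)) (XT.nd (nat_lit 78) (nat_lit 0) (nat_lit 0) (XT.lf (nat_lit 0) (nat_lit 920110686709) (nat_lit 76) (nat_lit 84989362422) (nat_lit 76) (nat_lit 84388433526) (nat_lit 1) (nat_lit 4) (nat_lit 2) (nat_lit 5) (nat_lit 2) (nat_lit 4) (nat_lit 310) (nat_lit 240) (nat_lit 230)) (XT.lf (nat_lit 0) (nat_lit 1061581409718) (nat_lit 76) (nat_lit 95908491873) (nat_lit 76) (nat_lit 95281826466) (nat_lit 1) (nat_lit 4) (nat_lit 2) (nat_lit 5) (nat_lit 2) (nat_lit 4) (nat_lit 311) (nat_lit 240) (nat_lit 229)))))) (XT.nd (nat_lit 468) (nat_lit 0) (nat_lit 0) (XT.nd (nat_lit 234) (nat_lit 0) (nat_lit 0) (XT.nd (nat_lit 78) (nat_lit 0) (nat_lit 0) (XT.lf (nat_lit 0) (nat_lit 1224130341935) (nat_lit 76) (nat_lit 108535968028) (nat_lit 76) (nat_lit 107886923047) (nat_lit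 1) (nat_lit 4) (nat_lit 2) (nat_lit 5) (nat_lit 2) (nat_lit 4) (nat_lit 312) (nat_lit 240) (nat_lit 228)) (XT.nd (nat_lit 78) (nat_lit 0) (nat_lit 0) (XT.lf (nat_lit 0) (nat_lit 1410937788554) (nat_lit 76) (nat_lit 123118850203) (nat_lit 76) (nat_lit 122450344722) (nat_lit 1) (nat_lit 4) (nat_lit 2) (nat_lit 5) (nat_lit 2) (nat_lit 4) (nat_lit 313) (nat_lit 240) (nat_lit 227)) (XT.lf (nat_lit 0) (nat_lit 1625658677880) (nat_lit 76) (nat_lit 139942455657) (nat_lit 76) (nat_lit 139257028002) (nat_lit 1) (nat_lit 4) (nat_lit 2) (nat_lit 5) (nat_lit 2) (nat_lit 4) (nat_lit 314) (nat_lit 240) (nat_lit 226)))) (XT.nd (nat_lit 78) (nat_lit 0) (nat_lit 0) (XT.lf (nat_lit 0) (nat_lit 1872494070791) (nat_lit 76) (nat_lit 159335941889) (nat_lit 76) (nat_lit 158635799300) (nat_lit 1) (nat_lit 4) (nat_lit 2) (nat_lit 5) (nat_lit 2) (nat_lit 4) (nat_lit 315) (nat_lit 240) (nat_lit 225)) (XT.nd (nat_lit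 78) (nat_lit 0) (nat_lit 0) (XT.lf (nat_lit 0) (nat_lit 2156273355408) (nat_lit 76) (nat_lit 181678746673) (nat_lit 76) (nat_lit 180965808489) (nat_lit 1) (nat_lit 4) (nat_lit 2) (nat_lit 5) (nat_lit 2) (nat_lit 4) (nat_lit 316) (nat_lit 240) (nat_lit 224)) (XT.lf (nat_lit 0) (nat_lit 2482548735126) (nat_lit 76) (nat_lit 207408011841) (nat_lit 76) (nat_lit 206683947053) (nat_lit 1) (nat_lit 4) (nat_lit 2) (nat_lit 5) (nat_lit 2) (nat_lit 4) (nat_lit 317) (nat_lit 240) (nat_lit 223))))) (XT.nd (nat_lit 234) (nat_lit 0) (nat_lit 0) (XT.nd (nat_lit 78) (nat_lit 0) (nat_lit 0) (XT.lf (nat_lit 0) (nat_lit 2857703858680) (nat_lit 76) (nat_lit 237027136059) (nat_lit 76) (nat_lit 236293395964) (nat_lit 1) (nat_lit 4) (nat_lit 2) (nat_lit 5) (nat_lit 2) (nat_lit 4) (nat_lit 318) (nat_lit 240) (nat_lit 222)) (XT.nd (nat_lit 78) (nat_lit 0) (nat_lit 0) (XT.lf (nat_lit 0) (nat_lit 3289078717616) (nat_lit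 76) (nat_lit 271115623933) (nat_lit 76) (nat_lit 270373470527) (nat_lit 1) (nat_lit 4) (nat_lit 2) (nat_lit 5) (nat_lit 2) (nat_lit 4) (nat_lit 319) (nat_lit 240) (nat_lit 221)) (XT.lf (nat_lit 0) (nat_lit 3785113254827) (nat_lit 76) (nat_lit 310340424138) (nat_lit 76) (nat_lit 309590954809) (nat_lit 1) (nat_lit 4) (nat_lit 2) (nat_lit 5) (nat_lit 2) (nat_lit 4) (nat_lit 320) (nat_lit 240) (nat_lit 220)))) (XT.nd (nat_lit 78) (nat_lit 0) (nat_lit 0) (XT.lf (nat_lit 0) (nat_lit 4355512493867) (nat_lit 76) (nat_lit 355468978416) (nat_lit 76) (nat_lit 354713147415) (nat_lit 1) (nat_lit 4) (nat_lit 2) (nat_lit 5) (nat_lit 2) (nat_lit 4) (nat_lit 321) (nat_lit 240) (nat_lit 219)) (XT.nd (nat_lit 78) (nat_lit 0) (nat_lit 0) (XT.lf (nat_lit 0) (nat_lit 5011436419848) (nat_lit 76) (nat_lit 407384236743) (nat_lit 76) (nat_lit 406622873854) (nat_lit 1) (nat_lit 4) (nat_lit 2) (nat_lit 5) (nat_lit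 2) (nat_lit 4) (nat_lit 322) (nat_lit 240) (nat_lit 218)) (XT.lf (nat_lit 0) (nat_lit 5765718326974) (nat_lit 76) (nat_lit 467101932435) (nat_lit 76) (nat_lit 466335759208) (nat_lit 1) (nat_lit 4) (nat_lit 2) (nat_lit 5) (nat_lit 2) (nat_lit 4) (nat_lit 323) (nat_lit 240) (nat_lit 217))))))) (XT.nd (nat_lit 39156) (nat_lit 0) (nat_lit 0) (XT.nd (nat_lit 38688) (nat_lit 0) (nat_lit 0) (XT.nd (nat_lit 234) (nat_lit 0) (nat_lit 0) (XT.nd (nat_lit 78) (nat_lit 0) (nat_lit 0) (XT.lf (nat_lit 0) (nat_lit 6633115904731) (nat_lit 76) (nat_lit 535790455189) (nat_lit 76) (nat_lit 535020099059) (nat_lit 1) (nat_lit 4) (nat_lit 2) (nat_lit 5) (nat_lit 2) (nat_lit 4) (nat_lit 324) (nat_lit 240) (nat_lit 216)) (XT.nd (nat_lit 78) (nat_lit 0) (nat_lit 0) (XT.lf (nat_lit 0) (nat_lit 7630599975294) (nat_lit 76) (nat_lit 614793710885) (nat_lit 76) (nat_lit 614019717449) (nat_lit 1) (nat_lit 4) (nat_lit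 2) (nat_lit 5) (nat_lit 2) (nat_lit 4) (nat_lit 325) (nat_lit 240) (nat_lit 215)) (XT.lf (nat_lit 0) (nat_lit 8777686531348) (nat_lit 76) (nat_lit 705657415396) (nat_lit 76) (nat_lit 704880259084) (nat_lit 1) (nat_lit 4) (nat_lit 2) (nat_lit 5) (nat_lit 2) (nat_lit 4) (nat_lit 326) (nat_lit 240) (nat_lit 214)))) (XT.nd (nat_lit 78) (nat_lit 0) (nat_lit 0) (XT.lf (nat_lit 0) (nat_lit 10096818570728) (nat_lit 76) (nat_lit 810159336853) (nat_lit 76) (nat_lit 809379430215) (nat_lit 1) (nat_lit 4) (nat_lit 2) (nat_lit 5) (nat_lit 2) (nat_lit 4) (nat_lit 327) (nat_lit 240) (nat_lit 213)) (XT.nd (nat_lit 38298) (nat_lit 0) (nat_lit 0) (XT.lf (nat_lit 0) (nat_lit 11613805198552) (nat_lit 76) (nat_lit 930344078068) (nat_lit 76) (nat_lit 929561779842) (nat_lit 1) (nat_lit 4) (nat_lit 2) (nat_lit 5) (nat_lit 2) (nat_lit 4) (nat_lit 328) (nat_lit 240) (nat_lit 212)) (XT.lf (nat_lit 0) (nat_lit 69711597473)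 (nat_lit 76) (nat_lit 16382406237) (nat_lit 76) (nat_lit 16382406237) (nat_lit 1) (nat_lit 4) (nat_lit 2) (nat_lit 5) (nat_lit 2) (nat_lit 4) (nat_lit 298) (nat_lit 241) (nat_lit 241))))) (XT.nd (nat_lit 234) (nat_lit 0) (nat_lit 0) (XT.nd (nat_lit 78) (nat_lit 0) (nat_lit 0) (XT.lf (nat_lit 0) (nat_lit 168132569326) (nat_lit 76) (nat_lit 33683435560) (nat_lit 76) (nat_lit 33563699238) (nat_lit 1) (nat_lit 4) (nat_lit 2) (nat_lit 5) (nat_lit 2) (nat_lit 4) (nat_lit 299) (nat_lit 241) (nat_lit 240)) (XT.nd (nat_lit 78) (nat_lit 0) (nat_lit 0) (XT.lf (nat_lit 0) (nat_lit 200485852844) (nat_lit 76) (nat_lit 35067740027) (nat_lit 76) (nat_lit 34843885164) (nat_lit 1) (nat_lit 4) (nat_lit 2) (nat_lit 5) (nat_lit 2) (nat_lit 4) (nat_lit 300) (nat_lit 241) (nat_lit 239)) (XT.lf (nat_lit 0) (nat_lit 237116044527) (nat_lit 76) (nat_lit 36944810093) (nat_lit 76) (nat_lit 36630417369) (nat_lit 1)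 (nat_lit 4) (nat_lit 2) (nat_lit 5) (nat_lit 2) (nat_lit 4) (nat_lit 301) (nat_lit 241) (nat_lit 238)))) (XT.nd (nat_lit 78) (nat_lit 0) (nat_lit 0) (XT.lf (nat_lit 0) (nat_lit 278739822037) (nat_lit 76) (nat_lit 39351371042) (nat_lit 76) (nat_lit 38958249742) (nat_lit 1) (nat_lit 4) (nat_lit 2) (nat_lit 5) (nat_lit 2) (nat_lit 4) (nat_lit 302) (nat_lit 241) (nat_lit 237)) (XT.nd (nat_lit 78) (nat_lit 0) (nat_lit 0) (XT.lf (nat_lit 0) (nat_lit 326171563631) (nat_lit 76) (nat_lit 42334507762) (nat_lit 76) (nat_lit 41872926832) (nat_lit 1) (nat_lit 4) (nat_lit 2) (nat_lit 5) (nat_lit 2) (nat_lit 4) (nat_lit 303) (nat_lit 241) (nat_lit 236)) (XT.lf (nat_lit 0) (nat_lit 380339281645) (nat_lit 76) (nat_lit 45952585972) (nat_lit 76) (nat_lit 45431474928) (nat_lit 1) (nat_lit 4) (nat_lit 2) (nat_lit 5) (nat_lit 2) (nat_lit 4) (nat_lit 304) (nat_lit 241) (nat_lit 235)))))) (XT.nd (nat_lit 468)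 (nat_lit 0) (nat_lit 0) (XT.nd (nat_lit 234) (nat_lit 0) (nat_lit 0) (XT.nd (nat_lit 78) (nat_lit 0) (nat_lit 0) (XT.lf (nat_lit 0) (nat_lit 442302779256) (nat_lit 76) (nat_lit 50276394157) (nat_lit 76) (nat_lit 49703517797) (nat_lit 1) (nat_lit 4) (nat_lit 2) (nat_lit 5) (nat_lit 2) (nat_lit 4) (nat_lit 305) (nat_lit 241) (nat_lit 234)) (XT.nd (nat_lit 78) (nat_lit 0) (nat_lit 0) (XT.lf (nat_lit 0) (nat_lit 513274385765) (nat_lit 76) (nat_lit 55390528566) (nat_lit 76) (nat_lit 54772638887) (nat_lit 1) (nat_lit 4) (nat_lit 2) (nat_lit 5) (nat_lit 2) (nat_lit 4) (nat_lit 306) (nat_lit 241) (nat_lit 233)) (XT.lf (nat_lit 0) (nat_lit 594642676084) (nat_lit 76) (nat_lit 61395048350) (nat_lit 76) (nat_lit 60738016655) (nat_lit 1) (nat_lit 4) (nat_lit 2) (nat_lit 5) (nat_lit 2) (nat_lit 4) (nat_lit 307) (nat_lit 241) (nat_lit 232)))) (XT.nd (nat_lit 78) (nat_lit 0) (nat_lit 0) (XT.lf (nat_lit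 0) (nat_lit 687999638500) (nat_lit 76) (nat_lit 68407433243) (nat_lit 76) (nat_lit 67716365013) (nat_lit 1) (nat_lit 4) (nat_lit 2) (nat_lit 5) (nat_lit 2) (nat_lit 4) (nat_lit 308) (nat_lit 241) (nat_lit 231)) (XT.nd (nat_lit 78) (nat_lit 0) (nat_lit 0) (XT.lf (nat_lit 0) (nat_lit 795171822279) (nat_lit 76) (nat_lit 76564882081) (nat_lit 76) (nat_lit 75844216863) (nat_lit 1) (nat_lit 4) (nat_lit 2) (nat_lit 5) (nat_lit 2) (nat_lit 4) (nat_lit 309) (nat_lit 241) (nat_lit 230)) (XT.lf (nat_lit 0) (nat_lit 918256074493) (nat_lit 76) (nat_lit 86026997123) (nat_lit 76) (nat_lit 85280595394) (nat_lit 1) (nat_lit 4) (nat_lit 2) (nat_lit 5) (nat_lit 2) (nat_lit 4) (nat_lit 310) (nat_lit 241) (nat_lit 229))))) (XT.nd (nat_lit 234) (nat_lit 0) (nat_lit 0) (XT.nd (nat_lit 78) (nat_lit 0) (nat_lit 0) (XT.lf (nat_lit 0) (nat_lit 1059660565296) (nat_lit 76) (nat_lit 96978906708) (nat_lit 76) (nat_lit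 96210125404) (nat_lit 1) (nat_lit 4) (nat_lit 2) (nat_lit 5) (nat_lit 2) (nat_lit 4) (nat_lit 311) (nat_lit 241) (nat_lit 228)) (XT.nd (nat_lit 78) (nat_lit 0) (nat_lit 0) (XT.lf (nat_lit 0) (nat_lit 1222151904289) (nat_lit 76) (nat_lit 109634887326) (nat_lit 76) (nat_lit 108846645523) (nat_lit 1) (nat_lit 4) (nat_lit 2) (nat_lit 5) (nat_lit 2) (nat_lit 4) (nat_lit 312) (nat_lit 241) (nat_lit 227)) (XT.lf (nat_lit 0) (nat_lit 1408909269846) (nat_lit 76) (nat_lit 124242555991) (nat_lit 76) (nat_lit 123437392014) (nat_lit 1) (nat_lit 4) (nat_lit 2) (nat_lit 5) (nat_lit 2) (nat_lit 4) (nat_lit 313) (nat_lit 241) (nat_lit 226)))) (XT.nd (nat_lit 156) (nat_lit 0) (nat_lit 0) (XT.nd (nat_lit 78) (nat_lit 0) (nat_lit 0) (XT.lf (nat_lit 0) (nat_lit 1623586610421) (nat_lit 76) (nat_lit 141087714914) (nat_lit 76) (nat_lit 140267836004) (nat_lit 1) (nat_lit 4) (nat_lit 2) (nat_lit 5) (nat_lit 2)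 (nat_lit 4) (nat_lit 314) (nat_lit 241) (nat_lit 225)) (XT.lf (nat_lit 0) (nat_lit 1870384134852) (nat_lit 76) (nat_lit 160499943294) (nat_lit 76) (nat_lit 159667268788) (nat_lit 1) (nat_lit 4) (nat_lit 2) (nat_lit 5) (nat_lit 2) (nat_lit 4) (nat_lit 315) (nat_lit 241) (nat_lit 224))) (XT.nd (nat_lit 78) (nat_lit 0) (nat_lit 0) (XT.lf (nat_lit 0) (nat_lit 2154130490357) (nat_lit 76) (nat_lit 182859045597) (nat_lit 76) (nat_lit 182015244487) (nat_lit 1) (nat_lit 4) (nat_lit 2) (nat_lit 5) (nat_lit 2) (nat_lit 4) (nat_lit 316) (nat_lit 241) (nat_lit 223)) (XT.lf (nat_lit 0) (nat_lit 2480377236065) (nat_lit 76) (nat_lit 208602482521) (nat_lit 76) (nat_lit 207749006104) (nat_lit 1) (nat_lit 4) (nat_lit 2) (nat_lit 5) (nat_lit 2) (nat_lit 4) (nat_lit 317) (nat_lit 241) (nat_lit 222))))))))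
noncomputable def xc5 : XT := (XT.nd (nat_lit 39936) (nat_lit 0) (nat_lit 0) (XT.nd (nat_lit 39000) (nat_lit 0) (nat_lit 0) (XT.nd (nat_lit 468) (nat_lit 0) (nat_lit 0) (XT.nd (nat_lit 234) (nat_lit 0) (nat_lit 0) (XT.nd (nat_lit 78) (nat_lit 0) (nat_lit 0) (XT.lf (nat_lit 0) (nat_lit 2855507460478) (nat_lit 76) (nat_lit 238233930005) (nat_lit 76) (nat_lit 237372040278) (nat_lit 1) (nat_lit 4) (nat_lit 2) (nat_lit 5) (nat_lit 2) (nat_lit 4) (nat_lit 318) (nat_lit 241) (nat_lit 221)) (XT.nd (nat_lit 78) (nat_lit 0) (nat_lit 0) (XT.lf (nat_lit 0) (nat_lit 3286860667989) (nat_lit 76) (nat_lit 272333133763) (nat_lit 76) (nat_lit 271463928112) (nat_lit 1) (nat_lit 4) (nat_lit 2) (nat_lit 5) (nat_lit 2) (nat_lit 4) (nat_lit 319) (nat_lit 241) (nat_lit 220)) (XT.lf (nat_lit 0) (nat_lit 3782876377873) (nat_lit 76) (nat_lit 311567252127) (nat_lit 76) (nat_lit 310691684804) (nat_lit 1) (nat_lit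 4) (nat_lit 2) (nat_lit 5) (nat_lit 2) (nat_lit 4) (nat_lit 320) (nat_lit 241) (nat_lit 219)))) (XT.nd (nat_lit 78) (nat_lit 0) (nat_lit 0) (XT.lf (nat_lit 0) (nat_lit 4353259245325) (nat_lit 76) (nat_lit 356703909153) (nat_lit 76) (nat_lit 355822809942) (nat_lit 1) (nat_lit 4) (nat_lit 2) (nat_lit 5) (nat_lit 2) (nat_lit 4) (nat_lit 321) (nat_lit 241) (nat_lit 218)) (XT.nd (nat_lit 78) (nat_lit 0) (nat_lit 0) (XT.lf (nat_lit 0) (nat_lit 5009168935142) (nat_lit 76) (nat_lit 408626213348) (nat_lit 76) (nat_lit 407740303799) (nat_lit 1) (nat_lit 4) (nat_lit 2) (nat_lit 5) (nat_lit 2) (nat_lit 4) (nat_lit 322) (nat_lit 241) (nat_lit 217)) (XT.lf (nat_lit 0) (nat_lit 5763438462994) (nat_lit 76) (nat_lit 468350035880) (nat_lit 76) (nat_lit 467459943429) (nat_lit 1) (nat_lit 4) (nat_lit 2) (nat_lit 5) (nat_lit 2) (nat_lit 4) (nat_lit 323) (nat_lit 241) (nat_lit 216))))) (XT.nd (nat_lit 234)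 (nat_lit 0) (nat_lit 0) (XT.nd (nat_lit 78) (nat_lit 0) (nat_lit 0) (XT.lf (nat_lit 0) (nat_lit 6630825276167) (nat_lit 76) (nat_lit 537043886322) (nat_lit 76) (nat_lit 536150156564) (nat_lit 1) (nat_lit 4) (nat_lit 2) (nat_lit 5) (nat_lit 2) (nat_lit 4) (nat_lit 324) (nat_lit 241) (nat_lit 215)) (XT.nd (nat_lit 78) (nat_lit 0) (nat_lit 0) (XT.lf (nat_lit 0) (nat_lit 7628299986221) (nat_lit 76) (nat_lit 616051774791) (nat_lit 76) (nat_lit 615154882157) (nat_lit 1) (nat_lit 4) (nat_lit 2) (nat_lit 5) (nat_lit 2) (nat_lit 4) (nat_lit 325) (nat_lit 241) (nat_lit 214)) (XT.lf (nat_lit 0) (nat_lit 8775378402702) (nat_lit 76) (nat_lit 706919507799) (nat_lit 76) (nat_lit 706019864840) (nat_lit 1) (nat_lit 4) (nat_lit 2) (nat_lit 5) (nat_lit 2) (nat_lit 4) (nat_lit 326) (nat_lit 241) (nat_lit 213)))) (XT.nd (nat_lit 78) (nat_lit 0) (nat_lit 0) (XT.lf (nat_lit 0) (nat_lit 10094503364192) (nat_lit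 76) (nat_lit 811424932298) (nat_lit 76) (nat_lit 810522897750) (nat_lit 1) (nat_lit 4) (nat_lit 2) (nat_lit 5) (nat_lit 2) (nat_lit 4) (nat_lit 327) (nat_lit 241) (nat_lit 212)) (XT.nd (nat_lit 38142) (nat_lit 0) (nat_lit 0) (XT.lf (nat_lit 0) (nat_lit 11611483837330) (nat_lit 76) (nat_lit 931612719635) (nat_lit 76) (nat_lit 930708605446) (nat_lit 1) (nat_lit 4) (nat_lit 2) (nat_lit 5) (nat_lit 2) (nat_lit 4) (nat_lit 328) (nat_lit 241) (nat_lit 211)) (XT.lf (nat_lit 0) (nat_lit 45578584848) (nat_lit 76) (nat_lit 16098742644) (nat_lit 76) (nat_lit 16098742644) (nat_lit 1) (nat_lit 4) (nat_lit 2) (nat_lit 5) (nat_lit 2) (nat_lit 4) (nat_lit 296) (nat_lit 242) (nat_lit 242)))))) (XT.nd (nat_lit 468) (nat_lit 0) (nat_lit 0) (XT.nd (nat_lit 234) (nat_lit 0) (nat_lit 0) (XT.nd (nat_lit 78) (nat_lit 0) (nat_lit 0) (XT.lf (nat_lit 0) (nat_lit 113796024557) (nat_lit 76) (nat_lit 32431594479) (nat_lit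 76) (nat_lit 32293897709) (nat_lit 1) (nat_lit 4) (nat_lit 2) (nat_lit 5) (nat_lit 2) (nat_lit 4) (nat_lit 297) (nat_lit 242) (nat_lit 241)) (XT.nd (nat_lit 78) (nat_lit 0) (nat_lit 0) (XT.lf (nat_lit 0) (nat_lit 139068836077) (nat_lit 76) (nat_lit 33077891154) (nat_lit 76) (nat_lit 32820458062) (nat_lit 1) (nat_lit 4) (nat_lit 2) (nat_lit 5) (nat_lit 2) (nat_lit 4) (nat_lit 298) (nat_lit 242) (nat_lit 240)) (XT.lf (nat_lit 0) (nat_lit 167470072308) (nat_lit 76) (nat_lit 34149020249) (nat_lit 76) (nat_lit 33787468615) (nat_lit 1) (nat_lit 4) (nat_lit 2) (nat_lit 5) (nat_lit 2) (nat_lit 4) (nat_lit 299) (nat_lit 242) (nat_lit 239)))) (XT.nd (nat_lit 78) (nat_lit 0) (nat_lit 0) (XT.lf (nat_lit 0) (nat_lit 199555409611) (nat_lit 76) (nat_lit 35665938636) (nat_lit 76) (nat_lit 35213849141) (nat_lit 1) (nat_lit 4) (nat_lit 2) (nat_lit 5) (nat_lit 2) (nat_lit 4) (nat_lit 300) (nat_lit 242) (nat_lit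 238)) (XT.nd (nat_lit 78) (nat_lit 0) (nat_lit 0) (XT.lf (nat_lit 0) (nat_lit 235952604585) (nat_lit 76) (nat_lit 37658325155) (nat_lit 76) (nat_lit 37127507085) (nat_lit 1) (nat_lit 4) (nat_lit 2) (nat_lit 5) (nat_lit 2) (nat_lit 4) (nat_lit 301) (nat_lit 242) (nat_lit 237)) (XT.lf (nat_lit 0) (nat_lit 277373776261) (nat_lit 76) (nat_lit 40165161280) (nat_lit 76) (nat_lit 39565883579) (nat_lit 1) (nat_lit 4) (nat_lit 2) (nat_lit 5) (nat_lit 2) (nat_lit 4) (nat_lit 302) (nat_lit 242) (nat_lit 236))))) (XT.nd (nat_lit 234) (nat_lit 0) (nat_lit 0) (XT.nd (nat_lit 78) (nat_lit 0) (nat_lit 0) (XT.lf (nat_lit 0) (nat_lit 324629338869) (nat_lit 76) (nat_lit 43235493805) (nat_lit 76) (nat_lit 42576685991) (nat_lit 1) (nat_lit 4) (nat_lit 2) (nat_lit 5) (nat_lit 2) (nat_lit 4) (nat_lit 303) (nat_lit 242) (nat_lit 235)) (XT.nd (nat_lit 78) (nat_lit 0) (nat_lit 0) (XT.lf (nat_lit 0) (nat_lit 378643857764)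 (nat_lit 76) (nat_lit 46929394454) (nat_lit 76) (nat_lit 46218821323) (nat_lit 1) (nat_lit 4) (nat_lit 2) (nat_lit 5) (nat_lit 2) (nat_lit 4) (nat_lit 304) (nat_lit 242) (nat_lit 234)) (XT.lf (nat_lit 0) (nat_lit 440474138751) (nat_lit 76) (nat_lit 51319135196) (nat_lit 76) (nat_lit 50563548747) (nat_lit 1) (nat_lit 4) (nat_lit 2) (nat_lit 5) (nat_lit 2) (nat_lit 4) (nat_lit 305) (nat_lit 242) (nat_lit 233)))) (XT.nd (nat_lit 78) (nat_lit 0) (nat_lit 0) (XT.lf (nat_lit 0) (nat_lit 511329904718) (nat_lit 76) (nat_lit 56490602262) (nat_lit 76) (nat_lit 55695873797) (nat_lit 1) (nat_lit 4) (nat_lit 2) (nat_lit 5) (nat_lit 2) (nat_lit 4) (nat_lit 306) (nat_lit 242) (nat_lit 232)) (XT.nd (nat_lit 78) (nat_lit 0) (nat_lit 0) (XT.lf (nat_lit 0) (nat_lit 592597464129) (nat_lit 76) (nat_lit 62544976530) (nat_lit 76) (nat_lit 61716211530) (nat_lit 1) (nat_lit 4) (nat_lit 2) (nat_lit 5) (nat_lit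 2) (nat_lit 4) (nat_lit 307) (nat_lit 242) (nat_lit 231)) (XT.lf (nat_lit 0) (nat_lit 685866834452) (nat_lit 76) (nat_lit 69600713149) (nat_lit 76) (nat_lit 68742351161) (nat_lit 1) (nat_lit 4) (nat_lit 2) (nat_lit 5) (nat_lit 2) (nat_lit 4) (nat_lit 308) (nat_lit 242) (nat_lit 230))))))) (XT.nd (nat_lit 936) (nat_lit 0) (nat_lit 0) (XT.nd (nat_lit 468) (nat_lit 0) (nat_lit 0) (XT.nd (nat_lit 234) (nat_lit 0) (nat_lit 0) (XT.nd (nat_lit 78) (nat_lit 0) (nat_lit 0) (XT.lf (nat_lit 0) (nat_lit 792962851193) (nat_lit 76) (nat_lit 77795859140) (nat_lit 76) (nat_lit 76911760641) (nat_lit 1) (nat_lit 4) (nat_lit 2) (nat_lit 5) (nat_lit 2) (nat_lit 4) (nat_lit 309) (nat_lit 242) (nat_lit 229)) (XT.nd (nat_lit 78) (nat_lit 0) (nat_lit 0) (XT.lf (nat_lit 0) (nat_lit 915980871201) (nat_lit 76) (nat_lit 87290754315) (nat_lit 76) (nat_lit 86384276241) (nat_lit 1) (nat_lit 4) (nat_lit 2) (nat_lit 5)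 (nat_lit 2) (nat_lit 4) (nat_lit 310) (nat_lit 242) (nat_lit 228)) (XT.lf (nat_lit 0) (nat_lit 1057327768781) (nat_lit 76) (nat_lit 98271168363) (nat_lit 76) (nat_lit 97345229790) (nat_lit 1) (nat_lit 4) (nat_lit 2) (nat_lit 5) (nat_lit 2) (nat_lit 4) (nat_lit 311) (nat_lit 242) (nat_lit 227)))) (XT.nd (nat_lit 78) (nat_lit 0) (nat_lit 0) (XT.lf (nat_lit 0) (nat_lit 1219769026711) (nat_lit 76) (nat_lit 110951935472) (nat_lit 76) (nat_lit 110009074724) (nat_lit 1) (nat_lit 4) (nat_lit 2) (nat_lit 5) (nat_lit 2) (nat_lit 4) (nat_lit 312) (nat_lit 242) (nat_lit 226)) (XT.nd (nat_lit 78) (nat_lit 0) (nat_lit 0) (XT.lf (nat_lit 0) (nat_lit 1406482843516) (nat_lit 76) (nat_lit 125581157606) (nat_lit 76) (nat_lit 124623581925) (nat_lit 1) (nat_lit 4) (nat_lit 2) (nat_lit 5) (nat_lit 2) (nat_lit 4) (nat_lit 313) (nat_lit 242) (nat_lit 225)) (XT.lf (nat_lit 0) (nat_lit 1621122315612) (nat_lit 76)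 (nat_lit 142445058677) (nat_lit 76) (nat_lit 141474687401) (nat_lit 1) (nat_lit 4) (nat_lit 2) (nat_lit 5) (nat_lit 2) (nat_lit 4) (nat_lit 314) (nat_lit 242) (nat_lit 224))))) (XT.nd (nat_lit 234) (nat_lit 0) (nat_lit 0) (XT.nd (nat_lit 78) (nat_lit 0) (nat_lit 0) (XT.lf (nat_lit 0) (nat_lit 1867886910931) (nat_lit 76) (nat_lit 161873584576) (nat_lit 76) (nat_lit 160892086696) (nat_lit 1) (nat_lit 4) (nat_lit 2) (nat_lit 5) (nat_lit 2) (nat_lit 4) (nat_lit 315) (nat_lit 242) (nat_lit 223)) (XT.nd (nat_lit 78) (nat_lit 0) (nat_lit 0) (XT.lf (nat_lit 0) (nat_lit 2151604632426) (nat_lit 76) (nat_lit 184246858635) (nat_lit 76) (nat_lit 183255685448) (nat_lit 1) (nat_lit 4) (nat_lit 2) (nat_lit 5) (nat_lit 2) (nat_lit 4) (nat_lit 316) (nat_lit 242) (nat_lit 222)) (XT.lf (nat_lit 0) (nat_lit 2477826478994) (nat_lit 76) (nat_lit 210002618825) (nat_lit 76) (nat_lit 209003032327) (nat_lit 1) (nat_lit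 4) (nat_lit 2) (nat_lit 5) (nat_lit 2) (nat_lit 4) (nat_lit 317) (nat_lit 242) (nat_lit 221)))) (XT.nd (nat_lit 78) (nat_lit 0) (nat_lit 0) (XT.lf (nat_lit 0) (nat_lit 2852935051982) (nat_lit 76) (nat_lit 239644782193) (nat_lit 76) (nat_lit 238637879772) (nat_lit 1) (nat_lit 4) (nat_lit 2) (nat_lit 5) (nat_lit 2) (nat_lit 4) (nat_lit 318) (nat_lit 242) (nat_lit 220)) (XT.nd (nat_lit 78) (nat_lit 0) (nat_lit 0) (XT.lf (nat_lit 0) (nat_lit 3284269432165) (nat_lit 76) (nat_lit 273753304110) (nat_lit 76) (nat_lit 272740040017) (nat_lit 1) (nat_lit 4) (nat_lit 2) (nat_lit 5) (nat_lit 2) (nat_lit 4) (nat_lit 319) (nat_lit 242) (nat_lit 219)) (XT.lf (nat_lit 0) (nat_lit 3780268770461) (nat_lit 76) (nat_lit 312995525222) (nat_lit 76) (nat_lit 311976729241) (nat_lit 1) (nat_lit 4) (nat_lit 2) (nat_lit 5) (nat_lit 2) (nat_lit 4) (nat_lit 320) (nat_lit 242) (nat_lit 218)))))) (XT.nd (nat_lit 468)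 (nat_lit 0) (nat_lit 0) (XT.nd (nat_lit 234) (nat_lit 0) (nat_lit 0) (XT.nd (nat_lit 78) (nat_lit 0) (nat_lit 0) (XT.lf (nat_lit 0) (nat_lit 4350637401749) (nat_lit 76) (nat_lit 358139228115) (nat_lit 76) (nat_lit 357115621796) (nat_lit 1) (nat_lit 4) (nat_lit 2) (nat_lit 5) (nat_lit 2) (nat_lit 4) (nat_lit 321) (nat_lit 242) (nat_lit 217)) (XT.nd (nat_lit 78) (nat_lit 0) (nat_lit 0) (XT.lf (nat_lit 0) (nat_lit 5006534712293) (nat_lit 76) (nat_lit 410067659151) (nat_lit 76) (nat_lit 409039869930) (nat_lit 1) (nat_lit 4) (nat_lit 2) (nat_lit 5) (nat_lit 2) (nat_lit 4) (nat_lit 322) (nat_lit 242) (nat_lit 216)) (XT.lf (nat_lit 0) (nat_lit 5760793475560) (nat_lit 76) (nat_lit 469796809372) (nat_lit 76) (nat_lit 468765382844) (nat_lit 1) (nat_lit 4) (nat_lit 2) (nat_lit 5) (nat_lit 2) (nat_lit 4) (nat_lit 323) (nat_lit 242) (nat_lit 215)))) (XT.nd (nat_lit 78) (nat_lit 0) (nat_lit 0) (XT.lf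 (nat_lit 0) (nat_lit 6628170928224) (nat_lit 76) (nat_lit 538495292586) (nat_lit 76) (nat_lit 537460703183) (nat_lit 1) (nat_lit 4) (nat_lit 2) (nat_lit 5) (nat_lit 2) (nat_lit 4) (nat_lit 324) (nat_lit 242) (nat_lit 214)) (XT.nd (nat_lit 78) (nat_lit 0) (nat_lit 0) (XT.lf (nat_lit 0) (nat_lit 7625637498705) (nat_lit 76) (nat_lit 617507209552) (nat_lit 76) (nat_lit 616469869822) (nat_lit 1) (nat_lit 4) (nat_lit 2) (nat_lit 5) (nat_lit 2) (nat_lit 4) (nat_lit 325) (nat_lit 242) (nat_lit 213)) (XT.lf (nat_lit 0) (nat_lit 8772708837296) (nat_lit 76) (nat_lit 708378445602) (nat_lit 76) (nat_lit 707338714284) (nat_lit 1) (nat_lit 4) (nat_lit 2) (nat_lit 5) (nat_lit 2) (nat_lit 4) (nat_lit 326) (nat_lit 242) (nat_lit 212))))) (XT.nd (nat_lit 38142) (nat_lit 0) (nat_lit 0) (XT.nd (nat_lit 78) (nat_lit 0) (nat_lit 0) (XT.lf (nat_lit 0) (nat_lit 10091827644100) (nat_lit 76) (nat_lit 812886916224)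 (nat_lit 76) (nat_lit 811845105264) (nat_lit 1) (nat_lit 4) (nat_lit 2) (nat_lit 5) (nat_lit 2) (nat_lit 4) (nat_lit 327) (nat_lit 242) (nat_lit 211)) (XT.nd (nat_lit 37986) (nat_lit 0) (nat_lit 0) (XT.lf (nat_lit 0) (nat_lit 11608802765337) (nat_lit 76) (nat_lit 933077352364) (nat_lit 76) (nat_lit 932033733020) (nat_lit 1) (nat_lit 4) (nat_lit 2) (nat_lit 5) (nat_lit 2) (nat_lit 4) (nat_lit 328) (nat_lit 242) (nat_lit 210)) (XT.lf (nat_lit 0) (nat_lit 26260550460) (nat_lit 76) (nat_lit 16440945702) (nat_lit 76) (nat_lit 16440945702) (nat_lit 1) (nat_lit 4) (nat_lit 2) (nat_lit 5) (nat_lit 2) (nat_lit 4) (nat_lit 294) (nat_lit 243) (nat_lit 243)))) (XT.nd (nat_lit 156) (nat_lit 0) (nat_lit 0) (XT.nd (nat_lit 78) (nat_lit 0) (nat_lit 0) (XT.lf (nat_lit 0) (nat_lit 70709337376) (nat_lit 76) (nat_lit 32529334472) (nat_lit 76) (nat_lit 32370983186) (nat_lit 1) (nat_lit 4) (nat_lit 2) (nat_lit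 5) (nat_lit 2) (nat_lit 4) (nat_lit 295) (nat_lit 243) (nat_lit 242)) (XT.lf (nat_lit 0) (nat_lit 90749656995) (nat_lit 76) (nat_lit 32557525771) (nat_lit 76) (nat_lit 32261477715) (nat_lit 1) (nat_lit 4) (nat_lit 2) (nat_lit 5) (nat_lit 2) (nat_lit 4) (nat_lit 296) (nat_lit 243) (nat_lit 241))) (XT.nd (nat_lit 78) (nat_lit 0) (nat_lit 0) (XT.lf (nat_lit 0) (nat_lit 113034152987) (nat_lit 76) (nat_lit 32967016871) (nat_lit 76) (nat_lit 32551232493) (nat_lit 1) (nat_lit 4) (nat_lit 2) (nat_lit 5) (nat_lit 2) (nat_lit 4) (nat_lit 297) (nat_lit 243) (nat_lit 240)) (XT.lf (nat_lit 0) (nat_lit 137998826360) (nat_lit 76) (nat_lit 33765819554) (nat_lit 76) (nat_lit 33245916636) (nat_lit 1) (nat_lit 4) (nat_lit 2) (nat_lit 5) (nat_lit 2) (nat_lit 4) (nat_lit 298) (nat_lit 243) (nat_lit 239))))))))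
noncomputable def xc6 : XT := (XT.nd (nat_lit 1872) (nat_lit 0) (nat_lit 0) (XT.nd (nat_lit 936) (nat_lit 0) (nat_lit 0) (XT.nd (nat_lit 468) (nat_lit 0) (nat_lit 0) (XT.nd (nat_lit 234) (nat_lit 0) (nat_lit 0) (XT.nd (nat_lit 78) (nat_lit 0) (nat_lit 0) (XT.lf (nat_lit 0) (nat_lit 166132116375) (nat_lit 76) (nat_lit 34969562569) (nat_lit 76) (nat_lit 34359121789) (nat_lit 1) (nat_lit 4) (nat_lit 2) (nat_lit 5) (nat_lit 2) (nat_lit 4) (nat_lit 299) (nat_lit 243) (nat_lit 238)) (XT.nd (nat_lit 78) (nat_lit 0) (nat_lit 0) (XT.lf (nat_lit 0) (nat_lit 197984456969) (nat_lit 76) (nat_lit 36601797409) (nat_lit 76) (nat_lit 35912628054) (nat_lit 1) (nat_lit 4) (nat_lit 2) (nat_lit 5) (nat_lit 2) (nat_lit 4) (nat_lit 300) (nat_lit 243) (nat_lit 237)) (XT.lf (nat_lit 0) (nat_lit 234179046108) (nat_lit 76) (nat_lit 38694459104) (nat_lit 76) (nat_lit 37936830118) (nat_lit 1) (nat_lit 4) (nat_lit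 2) (nat_lit 5) (nat_lit 2) (nat_lit 4) (nat_lit 301) (nat_lit 243) (nat_lit 236)))) (XT.nd (nat_lit 78) (nat_lit 0) (nat_lit 0) (XT.lf (nat_lit 0) (nat_lit 275424038799) (nat_lit 76) (nat_lit 41288491035) (nat_lit 76) (nat_lit 40471331934) (nat_lit 1) (nat_lit 4) (nat_lit 2) (nat_lit 5) (nat_lit 2) (nat_lit 4) (nat_lit 302) (nat_lit 243) (nat_lit 235)) (XT.nd (nat_lit 78) (nat_lit 0) (nat_lit 0) (XT.lf (nat_lit 0) (nat_lit 322526402289) (nat_lit 76) (nat_lit 44434645999) (nat_lit 76) (nat_lit 43565721583) (nat_lit 1) (nat_lit 4) (nat_lit 2) (nat_lit 5) (nat_lit 2) (nat_lit 4) (nat_lit 303) (nat_lit 243) (nat_lit 234)) (XT.lf (nat_lit 0) (nat_lit 376407704559) (nat_lit 76) (nat_lit 48194479204) (nat_lit 76) (nat_lit 47280541469) (nat_lit 1) (nat_lit 4) (nat_lit 2) (nat_lit 5) (nat_lit 2) (nat_lit 4) (nat_lit 304) (nat_lit 243) (nat_lit 233))))) (XT.nd (nat_lit 234) (nat_lit 0) (nat_lit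 0) (XT.nd (nat_lit 78) (nat_lit 0) (nat_lit 0) (XT.lf (nat_lit 0) (nat_lit 438122145003) (nat_lit 76) (nat_lit 52641552603) (nat_lit 76) (nat_lit 51688472852) (nat_lit 1) (nat_lit 4) (nat_lit 2) (nat_lit 5) (nat_lit 2) (nat_lit 4) (nat_lit 305) (nat_lit 243) (nat_lit 232)) (XT.nd (nat_lit 78) (nat_lit 0) (nat_lit 0) (XT.lf (nat_lit 0) (nat_lit 508877180062) (nat_lit 76) (nat_lit 57862874154) (nat_lit 76) (nat_lit 56875757868) (nat_lit 1) (nat_lit 4) (nat_lit 2) (nat_lit 5) (nat_lit 2) (nat_lit 4) (nat_lit 306) (nat_lit 243) (nat_lit 231)) (XT.lf (nat_lit 0) (nat_lit 590057147381) (nat_lit 76) (nat_lit 63960600148) (nat_lit 76) (nat_lit 62943886874) (nat_lit 1) (nat_lit 4) (nat_lit 2) (nat_lit 5) (nat_lit 2) (nat_lit 4) (nat_lit 307) (nat_lit 243) (nat_lit 230)))) (XT.nd (nat_lit 78) (nat_lit 0) (nat_lit 0) (XT.lf (nat_lit 0) (nat_lit 683250350666) (nat_lit 76) (nat_lit 71054033920) (nat_lit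 76) (nat_lit 70011584135) (nat_lit 1) (nat_lit 4) (nat_lit 2) (nat_lit 5) (nat_lit 2) (nat_lit 4) (nat_lit 308) (nat_lit 243) (nat_lit 229)) (XT.nd (nat_lit 78) (nat_lit 0) (nat_lit 0) (XT.lf (nat_lit 0) (nat_lit 790280135201) (nat_lit 76) (nat_lit 79281960044) (nat_lit 76) (nat_lit 78217130684) (nat_lit 1) (nat_lit 4) (nat_lit 2) (nat_lit 5) (nat_lit 2) (nat_lit 4) (nat_lit 309) (nat_lit 243) (nat_lit 228)) (XT.lf (nat_lit 0) (nat_lit 913240561986) (nat_lit 76) (nat_lit 88805359683) (nat_lit 76) (nat_lit 87721069823) (nat_lit 1) (nat_lit 4) (nat_lit 2) (nat_lit 5) (nat_lit 2) (nat_lit 4) (nat_lit 310) (nat_lit 243) (nat_lit 227)))))) (XT.nd (nat_lit 468) (nat_lit 0) (nat_lit 0) (XT.nd (nat_lit 234) (nat_lit 0) (nat_lit 0) (XT.nd (nat_lit 78) (nat_lit 0) (nat_lit 0) (XT.lf (nat_lit 0) (nat_lit 1054537378502) (nat_lit 76) (nat_lit 99810560221) (nat_lit 76) (nat_lit 98709348187) (nat_lit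 1) (nat_lit 4) (nat_lit 2) (nat_lit 5) (nat_lit 2) (nat_lit 4) (nat_lit 311) (nat_lit 243) (nat_lit 226)) (XT.nd (nat_lit 78) (nat_lit 0) (nat_lit 0) (XT.lf (nat_lit 0) (nat_lit 1216935087681) (nat_lit 76) (nat_lit 112512880798) (nat_lit 76) (nat_lit 111396953832) (nat_lit 1) (nat_lit 4) (nat_lit 2) (nat_lit 5) (nat_lit 2) (nat_lit 4) (nat_lit 312) (nat_lit 243) (nat_lit 225)) (XT.lf (nat_lit 0) (nat_lit 1403611036007) (nat_lit 76) (nat_lit 127160845080) (nat_lit 76) (nat_lit 126032122519) (nat_lit 1) (nat_lit 4) (nat_lit 2) (nat_lit 5) (nat_lit 2) (nat_lit 4) (nat_lit 313) (nat_lit 243) (nat_lit 224)))) (XT.nd (nat_lit 78) (nat_lit 0) (nat_lit 0) (XT.lf (nat_lit 0) (nat_lit 1618217578991) (nat_lit 76) (nat_lit 144041043671) (nat_lit 76) (nat_lit 142901194505) (nat_lit 1) (nat_lit 4) (nat_lit 2) (nat_lit 5) (nat_lit 2) (nat_lit 4) (nat_lit 314) (nat_lit 243) (nat_lit 223)) (XT.nd (nat_lit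 78) (nat_lit 0) (nat_lit 0) (XT.lf (nat_lit 0) (nat_lit 1864953540300) (nat_lit 76) (nat_lit 163483741325) (nat_lit 76) (nat_lit 162334216852) (nat_lit 1) (nat_lit 4) (nat_lit 2) (nat_lit 5) (nat_lit 2) (nat_lit 4) (nat_lit 315) (nat_lit 243) (nat_lit 222)) (XT.lf (nat_lit 0) (nat_lit 2148646362654) (nat_lit 76) (nat_lit 185869338651) (nat_lit 76) (nat_lit 184711400867) (nat_lit 1) (nat_lit 4) (nat_lit 2) (nat_lit 5) (nat_lit 2) (nat_lit 4) (nat_lit 316) (nat_lit 243) (nat_lit 221))))) (XT.nd (nat_lit 234) (nat_lit 0) (nat_lit 0) (XT.nd (nat_lit 78) (nat_lit 0) (nat_lit 0) (XT.lf (nat_lit 0) (nat_lit 2474846557797) (nat_lit 76) (nat_lit 211635814724) (nat_lit 76) (nat_lit 210470561018) (nat_lit 1) (nat_lit 4) (nat_lit 2) (nat_lit 5) (nat_lit 2) (nat_lit 4) (nat_lit 317) (nat_lit 243) (nat_lit 220)) (XT.nd (nat_lit 78) (nat_lit 0) (nat_lit 0) (XT.lf (nat_lit 0) (nat_lit 2849936303458) (nat_lit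 76) (nat_lit 241287296252) (nat_lit 76) (nat_lit 240115680874) (nat_lit 1) (nat_lit 4) (nat_lit 2) (nat_lit 5) (nat_lit 2) (nat_lit 4) (nat_lit 318) (nat_lit 243) (nat_lit 219)) (XT.lf (nat_lit 0) (nat_lit 3281254312053) (nat_lit 76) (nat_lit 275403920917) (nat_lit 76) (nat_lit 274226773650) (nat_lit 1) (nat_lit 4) (nat_lit 2) (nat_lit 5) (nat_lit 2) (nat_lit 4) (nat_lit 319) (nat_lit 243) (nat_lit 218)))) (XT.nd (nat_lit 78) (nat_lit 0) (nat_lit 0) (XT.lf (nat_lit 0) (nat_lit 3777239414185) (nat_lit 76) (nat_lit 314653187896) (nat_lit 76) (nat_lit 313471230291) (nat_lit 1) (nat_lit 4) (nat_lit 2) (nat_lit 5) (nat_lit 2) (nat_lit 4) (nat_lit 320) (nat_lit 243) (nat_lit 217)) (XT.nd (nat_lit 78) (nat_lit 0) (nat_lit 0) (XT.lf (nat_lit 0) (nat_lit 4347595666199) (nat_lit 76) (nat_lit 359803017631) (nat_lit 76) (nat_lit 358616877123) (nat_lit 1) (nat_lit 4) (nat_lit 2) (nat_lit 5) (nat_lit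 2) (nat_lit 4) (nat_lit 321) (nat_lit 243) (nat_lit 216)) (XT.lf (nat_lit 0) (nat_lit 5003482212158) (nat_lit 76) (nat_lit 411736776355) (nat_lit 76) (nat_lit 410546998541) (nat_lit 1) (nat_lit 4) (nat_lit 2) (nat_lit 5) (nat_lit 2) (nat_lit 4) (nat_lit 322) (nat_lit 243) (nat_lit 215))))))) (XT.nd (nat_lit 38688) (nat_lit 0) (nat_lit 0) (XT.nd (nat_lit 38220) (nat_lit 0) (nat_lit 0) (XT.nd (nat_lit 234) (nat_lit 0) (nat_lit 0) (XT.nd (nat_lit 78) (nat_lit 0) (nat_lit 0) (XT.lf (nat_lit 0) (nat_lit 5757731614917) (nat_lit 76) (nat_lit 471470559348) (nat_lit 76) (nat_lit 470277618658) (nat_lit 1) (nat_lit 4) (nat_lit 2) (nat_lit 5) (nat_lit 2) (nat_lit 4) (nat_lit 323) (nat_lit 243) (nat_lit 214)) (XT.nd (nat_lit 78) (nat_lit 0) (nat_lit 0) (XT.lf (nat_lit 0) (nat_lit 6625100928008) (nat_lit 76) (nat_lit 540173071059) (nat_lit 76) (nat_lit 538977380044) (nat_lit 1) (nat_lit 4) (nat_lit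 2) (nat_lit 5) (nat_lit 2) (nat_lit 4) (nat_lit 324) (nat_lit 243) (nat_lit 213)) (XT.lf (nat_lit 0) (nat_lit 7622560420599) (nat_lit 76) (nat_lit 619188491067) (nat_lit 76) (nat_lit 617990408463) (nat_lit 1) (nat_lit 4) (nat_lit 2) (nat_lit 5) (nat_lit 2) (nat_lit 4) (nat_lit 325) (nat_lit 243) (nat_lit 212)))) (XT.nd (nat_lit 78) (nat_lit 0) (nat_lit 0) (XT.lf (nat_lit 0) (nat_lit 8769625604504) (nat_lit 76) (nat_lit 710062773239) (nat_lit 76) (nat_lit 708862610994) (nat_lit 1) (nat_lit 4) (nat_lit 2) (nat_lit 5) (nat_lit 2) (nat_lit 4) (nat_lit 326) (nat_lit 243) (nat_lit 211)) (XT.nd (nat_lit 78) (nat_lit 0) (nat_lit 0) (XT.lf (nat_lit 0) (nat_lit 10088739059406) (nat_lit 76) (nat_lit 814573892664) (nat_lit 76) (nat_lit 813371922034) (nat_lit 1) (nat_lit 4) (nat_lit 2) (nat_lit 5) (nat_lit 2) (nat_lit 4) (nat_lit 327) (nat_lit 243) (nat_lit 210)) (XT.lf (nat_lit 0) (nat_lit 11605709526816)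 (nat_lit 76) (nat_lit 934766632110) (nat_lit 76) (nat_lit 933563088972) (nat_lit 1) (nat_lit 4) (nat_lit 2) (nat_lit 5) (nat_lit 2) (nat_lit 4) (nat_lit 328) (nat_lit 243) (nat_lit 209))))) (XT.nd (nat_lit 234) (nat_lit 0) (nat_lit 0) (XT.nd (nat_lit 78) (nat_lit 0) (nat_lit 0) (XT.lf (nat_lit 0) (nat_lit 10422829917) (nat_lit 76) (nat_lit 17339897887) (nat_lit 76) (nat_lit 17339897887) (nat_lit 1) (nat_lit 4) (nat_lit 2) (nat_lit 5) (nat_lit 2) (nat_lit 4) (nat_lit 292) (nat_lit 244) (nat_lit 244)) (XT.nd (nat_lit 78) (nat_lit 0) (nat_lit 0) (XT.lf (nat_lit 0) (nat_lit 35829090826) (nat_lit 76) (nat_lit 33804198401) (nat_lit 76) (nat_lit 33622094422) (nat_lit 1) (nat_lit 4) (nat_lit 2) (nat_lit 5) (nat_lit 2) (nat_lit 4) (nat_lit 293) (nat_lit 244) (nat_lit 243)) (XT.lf (nat_lit 0) (nat_lit 52052461315) (nat_lit 76) (nat_lit 33295937959) (nat_lit 76) (nat_lit 32955482694) (nat_lit 1)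 (nat_lit 4) (nat_lit 2) (nat_lit 5) (nat_lit 2) (nat_lit 4) (nat_lit 294) (nat_lit 244) (nat_lit 242)))) (XT.nd (nat_lit 78) (nat_lit 0) (nat_lit 0) (XT.lf (nat_lit 0) (nat_lit 69833185071) (nat_lit 76) (nat_lit 33145070222) (nat_lit 76) (nat_lit 32666918188) (nat_lit 1) (nat_lit 4) (nat_lit 2) (nat_lit 5) (nat_lit 2) (nat_lit 4) (nat_lit 295) (nat_lit 244) (nat_lit 241)) (XT.nd (nat_lit 78) (nat_lit 0) (nat_lit 0) (XT.lf (nat_lit 0) (nat_lit 89519145820) (nat_lit 76) (nat_lit 33348643431) (nat_lit 76) (nat_lit 32750755075) (nat_lit 1) (nat_lit 4) (nat_lit 2) (nat_lit 5) (nat_lit 2) (nat_lit 4) (nat_lit 296) (nat_lit 244) (nat_lit 240)) (XT.lf (nat_lit 0) (nat_lit 111495503664) (nat_lit 76) (nat_lit 33910640540) (nat_lit 76) (nat_lit 33208633642) (nat_lit 1) (nat_lit 4) (nat_lit 2) (nat_lit 5) (nat_lit 2) (nat_lit 4) (nat_lit 297) (nat_lit 244) (nat_lit 239)))))) (XT.nd (nat_lit 468) (nat_lit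 0) (nat_lit 0) (XT.nd (nat_lit 234) (nat_lit 0) (nat_lit 0) (XT.nd (nat_lit 78) (nat_lit 0) (nat_lit 0) (XT.lf (nat_lit 0) (nat_lit 136192230821) (nat_lit 76) (nat_lit 34842057144) (nat_lit 76) (nat_lit 34049512385) (nat_lit 1) (nat_lit 4) (nat_lit 2) (nat_lit 5) (nat_lit 2) (nat_lit 4) (nat_lit 298) (nat_lit 244) (nat_lit 238)) (XT.nd (nat_lit 78) (nat_lit 0) (nat_lit 0) (XT.lf (nat_lit 0) (nat_lit 164092524128) (nat_lit 76) (nat_lit 36161116611) (nat_lit 76) (nat_lit 35289843277) (nat_lit 1) (nat_lit 4) (nat_lit 2) (nat_lit 5) (nat_lit 2) (nat_lit 4) (nat_lit 299) (nat_lit 244) (nat_lit 237)) (XT.lf (nat_lit 0) (nat_lit 195742258887) (nat_lit 76) (nat_lit 37893626627) (nat_lit 76) (nat_lit 36953893662) (nat_lit 1) (nat_lit 4) (nat_lit 2) (nat_lit 5) (nat_lit 2) (nat_lit 4) (nat_lit 300) (nat_lit 244) (nat_lit 236)))) (XT.nd (nat_lit 78) (nat_lit 0) (nat_lit 0) (XT.lf (nat_lit 0) (nat_lit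 231760669041) (nat_lit 76) (nat_lit 40073484127) (nat_lit 76) (nat_lit 39074221049) (nat_lit 1) (nat_lit 4) (nat_lit 2) (nat_lit 5) (nat_lit 2) (nat_lit 4) (nat_lit 301) (nat_lit 244) (nat_lit 235)) (XT.nd (nat_lit 78) (nat_lit 0) (nat_lit 0) (XT.lf (nat_lit 0) (nat_lit 272852462613) (nat_lit 76) (nat_lit 42743338497) (nat_lit 76) (nat_lit 41692310102) (nat_lit 1) (nat_lit 4) (nat_lit 2) (nat_lit 5) (nat_lit 2) (nat_lit 4) (nat_lit 302) (nat_lit 244) (nat_lit 234)) (XT.lf (nat_lit 0) (nat_lit 319821609478) (nat_lit 76) (nat_lit 45955426018) (nat_lit 76) (nat_lit 44859384305) (nat_lit 1) (nat_lit 4) (nat_lit 2) (nat_lit 5) (nat_lit 2) (nat_lit 4) (nat_lit 303) (nat_lit 244) (nat_lit 233))))) (XT.nd (nat_lit 234) (nat_lit 0) (nat_lit 0) (XT.nd (nat_lit 78) (nat_lit 0) (nat_lit 0) (XT.lf (nat_lit 0) (nat_lit 373587071206) (nat_lit 76) (nat_lit 49772591880) (nat_lit 76) (nat_lit 48637408151)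 (nat_lit 1) (nat_lit 4) (nat_lit 2) (nat_lit 5) (nat_lit 2) (nat_lit 4) (nat_lit 304) (nat_lit 244) (nat_lit 232)) (XT.nd (nat_lit 78) (nat_lit 0) (nat_lit 0) (XT.lf (nat_lit 0) (nat_lit 435200780742) (nat_lit 76) (nat_lit 54269519764) (nat_lit 76) (nat_lit 53100299499) (nat_lit 1) (nat_lit 4) (nat_lit 2) (nat_lit 5) (nat_lit 2) (nat_lit 4) (nat_lit 305) (nat_lit 244) (nat_lit 231)) (XT.lf (nat_lit 0) (nat_lit 505868223708) (nat_lit 76) (nat_lit 59534193041) (nat_lit 76) (nat_lit 58335375788) (nat_lit 1) (nat_lit 4) (nat_lit 2) (nat_lit 5) (nat_lit 2) (nat_lit 4) (nat_lit 306) (nat_lit 244) (nat_lit 230)))) (XT.nd (nat_lit 156) (nat_lit 0) (nat_lit 0) (XT.nd (nat_lit 78) (nat_lit 0) (nat_lit 0) (XT.lf (nat_lit 0) (nat_lit 586972023989) (nat_lit 76) (nat_lit 65669616188) (nat_lit 76) (nat_lit 64445062424) (nat_lit 1) (nat_lit 4) (nat_lit 2) (nat_lit 5) (nat_lit 2) (nat_lit 4) (nat_lit 307)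 (nat_lit 244) (nat_lit 229)) (XT.lf (nat_lit 0) (nat_lit 680098995068) (nat_lit 76) (nat_lit 72795830093) (nat_lit 76) (nat_lit 71548896755) (nat_lit 1) (nat_lit 4) (nat_lit 2) (nat_lit 5) (nat_lit 2) (nat_lit 4) (nat_lit 308) (nat_lit 244) (nat_lit 228))) (XT.nd (nat_lit 78) (nat_lit 0) (nat_lit 0) (XT.lf (nat_lit 0) (nat_lit 787071186380) (nat_lit 76) (nat_lit 81052260680) (nat_lit 76) (nat_lit 79785866842) (nat_lit 1) (nat_lit 4) (nat_lit 2) (nat_lit 5) (nat_lit 2) (nat_lit 4) (nat_lit 309) (nat_lit 244) (nat_lit 227)) (XT.lf (nat_lit 0) (nat_lit 909981532101) (nat_lit 76) (nat_lit 90600446809) (nat_lit 76) (nat_lit 89317130797) (nat_lit 1) (nat_lit 4) (nat_lit 2) (nat_lit 5) (nat_lit 2) (nat_lit 4) (nat_lit 310) (nat_lit 244) (nat_lit 226))))))))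
noncomputable def xc7 : XT := (XT.nd (nat_lit 39468) (nat_lit 0) (nat_lit 0) (XT.nd (nat_lit 936) (nat_lit 0) (nat_lit 0) (XT.nd (nat_lit 468) (nat_lit 0) (nat_lit 0) (XT.nd (nat_lit 234) (nat_lit 0) (nat_lit 0) (XT.nd (nat_lit 78) (nat_lit 0) (nat_lit 0) (XT.lf (nat_lit 0) (nat_lit 1051234799866) (nat_lit 76) (nat_lit 101627200816) (nat_lit 76) (nat_lit 100329169870) (nat_lit 1) (nat_lit 4) (nat_lit 2) (nat_lit 5) (nat_lit 2) (nat_lit 4) (nat_lit 311) (nat_lit 244) (nat_lit 225)) (XT.nd (nat_lit 78) (nat_lit 0) (nat_lit 0) (XT.lf (nat_lit 0) (nat_lit 1213594640567) (nat_lit 76) (nat_lit 114348263541) (nat_lit 76) (nat_lit 113037437001) (nat_lit 1) (nat_lit 4) (nat_lit 2) (nat_lit 5) (nat_lit 2) (nat_lit 4) (nat_lit 312) (nat_lit 244) (nat_lit 224)) (XT.lf (nat_lit 0) (nat_lit 1400237659781) (nat_lit 76) (nat_lit 129012525342) (nat_lit 76) (nat_lit 127690572198) (nat_lit 1) (nat_lit 4)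 (nat_lit 2) (nat_lit 5) (nat_lit 2) (nat_lit 4) (nat_lit 313) (nat_lit 244) (nat_lit 223)))) (XT.nd (nat_lit 78) (nat_lit 0) (nat_lit 0) (XT.lf (nat_lit 0) (nat_lit 1614815568754) (nat_lit 76) (nat_lit 145906895689) (nat_lit 76) (nat_lit 144575267237) (nat_lit 1) (nat_lit 4) (nat_lit 2) (nat_lit 5) (nat_lit 2) (nat_lit 4) (nat_lit 314) (nat_lit 244) (nat_lit 222)) (XT.nd (nat_lit 78) (nat_lit 0) (nat_lit 0) (XT.lf (nat_lit 0) (nat_lit 1861526630923) (nat_lit 76) (nat_lit 165361916610) (nat_lit 76) (nat_lit 164021874847) (nat_lit 1) (nat_lit 4) (nat_lit 2) (nat_lit 5) (nat_lit 2) (nat_lit 4) (nat_lit 315) (nat_lit 244) (nat_lit 221)) (XT.lf (nat_lit 0) (nat_lit 2145197801852) (nat_lit 76) (nat_lit 187758229819) (nat_lit 76) (nat_lit 186410872133) (nat_lit 1) (nat_lit 4) (nat_lit 2) (nat_lit 5) (nat_lit 2) (nat_lit 4) (nat_lit 316) (nat_lit 244) (nat_lit 220))))) (XT.nd (nat_lit 234) (nat_lit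 0) (nat_lit 0) (XT.nd (nat_lit 78) (nat_lit 0) (nat_lit 0) (XT.lf (nat_lit 0) (nat_lit 2471379169667) (nat_lit 76) (nat_lit 213534024052) (nat_lit 76) (nat_lit 212180304695) (nat_lit 1) (nat_lit 4) (nat_lit 2) (nat_lit 5) (nat_lit 2) (nat_lit 4) (nat_lit 317) (nat_lit 244) (nat_lit 219)) (XT.nd (nat_lit 78) (nat_lit 0) (nat_lit 0) (XT.lf (nat_lit 0) (nat_lit 2846452543740) (nat_lit 76) (nat_lit 243193608328) (nat_lit 76) (nat_lit 241834357082) (nat_lit 1) (nat_lit 4) (nat_lit 2) (nat_lit 5) (nat_lit 2) (nat_lit 4) (nat_lit 318) (nat_lit 244) (nat_lit 218)) (XT.lf (nat_lit 0) (nat_lit 3277756316171) (nat_lit 76) (nat_lit 277317278860) (nat_lit 76) (nat_lit 275953217276) (nat_lit 1) (nat_lit 4) (nat_lit 2) (nat_lit 5) (nat_lit 2) (nat_lit 4) (nat_lit 319) (nat_lit 244) (nat_lit 217)))) (XT.nd (nat_lit 78) (nat_lit 0) (nat_lit 0) (XT.lf (nat_lit 0) (nat_lit 3773729039030) (nat_lit 76) (nat_lit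 316572672680) (nat_lit 76) (nat_lit 315204428194) (nat_lit 1) (nat_lit 4) (nat_lit 2) (nat_lit 5) (nat_lit 2) (nat_lit 4) (nat_lit 320) (nat_lit 244) (nat_lit 216)) (XT.nd (nat_lit 78) (nat_lit 0) (nat_lit 0) (XT.lf (nat_lit 0) (nat_lit 4344074526460) (nat_lit 76) (nat_lit 361727830103) (nat_lit 76) (nat_lit 360355948310) (nat_lit 1) (nat_lit 4) (nat_lit 2) (nat_lit 5) (nat_lit 2) (nat_lit 4) (nat_lit 321) (nat_lit 244) (nat_lit 215)) (XT.lf (nat_lit 0) (nat_lit 4999951711910) (nat_lit 76) (nat_lit 413666221599) (nat_lit 76) (nat_lit 412291176931) (nat_lit 1) (nat_lit 4) (nat_lit 2) (nat_lit 5) (nat_lit 2) (nat_lit 4) (nat_lit 322) (nat_lit 244) (nat_lit 214)))))) (XT.nd (nat_lit 38064) (nat_lit 0) (nat_lit 0) (XT.nd (nat_lit 234) (nat_lit 0) (nat_lit 0) (XT.nd (nat_lit 78) (nat_lit 0) (nat_lit 0) (XT.lf (nat_lit 0) (nat_lit 5754192975095) (nat_lit 76) (nat_lit 473404033090) (nat_lit 76)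 (nat_lit 472026238095) (nat_lit 1) (nat_lit 4) (nat_lit 2) (nat_lit 5) (nat_lit 2) (nat_lit 4) (nat_lit 323) (nat_lit 244) (nat_lit 213)) (XT.nd (nat_lit 78) (nat_lit 0) (nat_lit 0) (XT.lf (nat_lit 0) (nat_lit 6621555210296) (nat_lit 76) (nat_lit 542110047843) (nat_lit 76) (nat_lit 540729861260) (nat_lit 1) (nat_lit 4) (nat_lit 2) (nat_lit 5) (nat_lit 2) (nat_lit 4) (nat_lit 324) (nat_lit 244) (nat_lit 212)) (XT.lf (nat_lit 0) (nat_lit 7619008548202) (nat_lit 76) (nat_lit 621128513973) (nat_lit 76) (nat_lit 619746247749) (nat_lit 1) (nat_lit 4) (nat_lit 2) (nat_lit 5) (nat_lit 2) (nat_lit 4) (nat_lit 325) (nat_lit 244) (nat_lit 211)))) (XT.nd (nat_lit 78) (nat_lit 0) (nat_lit 0) (XT.lf (nat_lit 0) (nat_lit 8766068380205) (nat_lit 76) (nat_lit 712005444948) (nat_lit 76) (nat_lit 710621370340) (nat_lit 1) (nat_lit 4) (nat_lit 2) (nat_lit 5) (nat_lit 2) (nat_lit 4) (nat_lit 326) (nat_lit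 244) (nat_lit 210)) (XT.nd (nat_lit 78) (nat_lit 0) (nat_lit 0) (XT.lf (nat_lit 0) (nat_lit 10085177181280) (nat_lit 76) (nat_lit 816518867679) (nat_lit 76) (nat_lit 815133220562) (nat_lit 1) (nat_lit 4) (nat_lit 2) (nat_lit 5) (nat_lit 2) (nat_lit 4) (nat_lit 327) (nat_lit 244) (nat_lit 209)) (XT.lf (nat_lit 0) (nat_lit 11602143601883) (nat_lit 76) (nat_lit 936713610001) (nat_lit 76) (nat_lit 935326595486) (nat_lit 1) (nat_lit 4) (nat_lit 2) (nat_lit 5) (nat_lit 2) (nat_lit 4) (nat_lit 328) (nat_lit 244) (nat_lit 208))))) (XT.nd (nat_lit 234) (nat_lit 0) (nat_lit 0) (XT.nd (nat_lit 78) (nat_lit 76) (nat_lit 0) (XT.lf (nat_lit 0) (nat_lit 15859388864) (nat_lit 152) (nat_lit 2819386148) (nat_lit 0) (nat_lit 15859388864) (nat_lit 2) (nat_lit 5) (nat_lit 4) (nat_lit 4) (nat_lit 2) (nat_lit 4) (nat_lit 290) (nat_lit 245) (nat_lit 245)) (XT.nd (nat_lit 78) (nat_lit 0) (nat_lit 0) (XT.lf (nat_lit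 0) (nat_lit 6809014257) (nat_lit 76) (nat_lit 36149280909) (nat_lit 76) (nat_lit 35939861333) (nat_lit 1) (nat_lit 4) (nat_lit 2) (nat_lit 5) (nat_lit 2) (nat_lit 4) (nat_lit 291) (nat_lit 245) (nat_lit 244)) (XT.lf (nat_lit 0) (nat_lit 20306724289) (nat_lit 76) (nat_lit 35155949312) (nat_lit 76) (nat_lit 34764425758) (nat_lit 1) (nat_lit 4) (nat_lit 2) (nat_lit 5) (nat_lit 2) (nat_lit 4) (nat_lit 292) (nat_lit 245) (nat_lit 243)))) (XT.nd (nat_lit 78) (nat_lit 0) (nat_lit 0) (XT.lf (nat_lit 0) (nat_lit 34821515675) (nat_lit 76) (nat_lit 34512294514) (nat_lit 76) (nat_lit 33962419674) (nat_lit 1) (nat_lit 4) (nat_lit 2) (nat_lit 5) (nat_lit 2) (nat_lit 4) (nat_lit 293) (nat_lit 245) (nat_lit 242)) (XT.nd (nat_lit 78) (nat_lit 0) (nat_lit 0) (XT.lf (nat_lit 0) (nat_lit 50637373463) (nat_lit 76) (nat_lit 34205723268) (nat_lit 76) (nat_lit 33518151658) (nat_lit 1) (nat_lit 4) (nat_lit 2)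 (nat_lit 5) (nat_lit 2) (nat_lit 4) (nat_lit 294) (nat_lit 245) (nat_lit 241)) (XT.lf (nat_lit 0) (nat_lit 68063738349) (nat_lit 76) (nat_lit 34230237441) (nat_lit 76) (nat_lit 33422929509) (nat_lit 1) (nat_lit 4) (nat_lit 2) (nat_lit 5) (nat_lit 2) (nat_lit 4) (nat_lit 295) (nat_lit 245) (nat_lit 240))))))) (XT.nd (nat_lit 936) (nat_lit 0) (nat_lit 0) (XT.nd (nat_lit 468) (nat_lit 0) (nat_lit 0) (XT.nd (nat_lit 234) (nat_lit 0) (nat_lit 0) (XT.nd (nat_lit 78) (nat_lit 0) (nat_lit 0) (XT.lf (nat_lit 0) (nat_lit 87441560950) (nat_lit 76) (nat_lit 34586316659) (nat_lit 76) (nat_lit 33674890186) (nat_lit 1) (nat_lit 4) (nat_lit 2) (nat_lit 5) (nat_lit 2) (nat_lit 4) (nat_lit 296) (nat_lit 245) (nat_lit 239)) (XT.nd (nat_lit 78) (nat_lit 0) (nat_lit 0) (XT.lf (nat_lit 0) (nat_lit 109149972579) (nat_lit 76) (nat_lit 35280927688) (nat_lit 76) (nat_lit 34278963353) (nat_lit 1) (nat_lit 4) (nat_lit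 2) (nat_lit 5) (nat_lit 2) (nat_lit 4) (nat_lit 297) (nat_lit 245) (nat_lit 238)) (XT.lf (nat_lit 0) (nat_lit 133613703027) (nat_lit 76) (nat_lit 36327660744) (nat_lit 76) (nat_lit 35246967834) (nat_lit 1) (nat_lit 4) (nat_lit 2) (nat_lit 5) (nat_lit 2) (nat_lit 4) (nat_lit 298) (nat_lit 245) (nat_lit 237)))) (XT.nd (nat_lit 78) (nat_lit 0) (nat_lit 0) (XT.lf (nat_lit 0) (nat_lit 161311390500) (nat_lit 76) (nat_lit 37746995388) (nat_lit 76) (nat_lit 36597842847) (nat_lit 1) (nat_lit 4) (nat_lit 2) (nat_lit 5) (nat_lit 2) (nat_lit 4) (nat_lit 299) (nat_lit 245) (nat_lit 236)) (XT.nd (nat_lit 78) (nat_lit 0) (nat_lit 0) (XT.lf (nat_lit 0) (nat_lit 192784946273) (nat_lit 76) (nat_lit 39566701209) (nat_lit 76) (nat_lit 38358018555) (nat_lit 1) (nat_lit 4) (nat_lit 2) (nat_lit 5) (nat_lit 2) (nat_lit 4) (nat_lit 300) (nat_lit 245) (nat_lit 235)) (XT.lf (nat_lit 0) (nat_lit 228650157309) (nat_lit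 76) (nat_lit 41822381149) (nat_lit 76) (nat_lit 40561933178) (nat_lit 1) (nat_lit 4) (nat_lit 2) (nat_lit 5) (nat_lit 2) (nat_lit 4) (nat_lit 301) (nat_lit 245) (nat_lit 234))))) (XT.nd (nat_lit 234) (nat_lit 0) (nat_lit 0) (XT.nd (nat_lit 78) (nat_lit 0) (nat_lit 0) (XT.lf (nat_lit 0) (nat_lit 269608734256) (nat_lit 76) (nat_lit 44558168075) (nat_lit 76) (nat_lit 43252706786) (nat_lit 1) (nat_lit 4) (nat_lit 2) (nat_lit 5) (nat_lit 2) (nat_lit 4) (nat_lit 302) (nat_lit 245) (nat_lit 233)) (XT.nd (nat_lit 78) (nat_lit 0) (nat_lit 0) (XT.lf (nat_lit 0) (nat_lit 316462040579) (nat_lit 76) (nat_lit 47827588253) (nat_lit 76) (nat_lit 46482984948) (nat_lit 1) (nat_lit 4) (nat_lit 2) (nat_lit 5) (nat_lit 2) (nat_lit 4) (nat_lit 303) (nat_lit 245) (nat_lit 232)) (XT.lf (nat_lit 0) (nat_lit 370126771399) (nat_lit 76) (nat_lit 51694608600) (nat_lit 76) (nat_lit 50315968759) (nat_lit 1) (nat_lit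 4) (nat_lit 2) (nat_lit 5) (nat_lit 2) (nat_lit 4) (nat_lit 304) (nat_lit 245) (nat_lit 231)))) (XT.nd (nat_lit 78) (nat_lit 0) (nat_lit 0) (XT.lf (nat_lit 0) (nat_lit 431652888842) (nat_lit 76) (nat_lit 56234888210) (nat_lit 76) (nat_lit 54826651381) (nat_lit 1) (nat_lit 4) (nat_lit 2) (nat_lit 5) (nat_lit 2) (nat_lit 4) (nat_lit 305) (nat_lit 245) (nat_lit 230)) (XT.nd (nat_lit 78) (nat_lit 0) (nat_lit 0) (XT.lf (nat_lit 0) (nat_lit 502244164771) (nat_lit 76) (nat_lit 61537258639) (nat_lit 76) (nat_lit 60103285300) (nat_lit 1) (nat_lit 4) (nat_lit 2) (nat_lit 5) (nat_lit 2) (nat_lit 4) (nat_lit 306) (nat_lit 245) (nat_lit 229)) (XT.lf (nat_lit 0) (nat_lit 583281732845) (nat_lit 76) (nat_lit 67705461919) (nat_lit 76) (nat_lit 66249109005) (nat_lit 1) (nat_lit 4) (nat_lit 2) (nat_lit 5) (nat_lit 2) (nat_lit 4) (nat_lit 307) (nat_lit 245) (nat_lit 228)))))) (XT.nd (nat_lit 468) (nat_lit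 0) (nat_lit 0) (XT.nd (nat_lit 234) (nat_lit 0) (nat_lit 0) (XT.nd (nat_lit 78) (nat_lit 0) (nat_lit 0) (XT.lf (nat_lit 0) (nat_lit 676351110701) (nat_lit 76) (nat_lit 74860180288) (nat_lit 76) (nat_lit 73384366874) (nat_lit 1) (nat_lit 4) (nat_lit 2) (nat_lit 5) (nat_lit 2) (nat_lit 4) (nat_lit 308) (nat_lit 245) (nat_lit 227)) (XT.nd (nat_lit 78) (nat_lit 0) (nat_lit 0) (XT.lf (nat_lit 0) (nat_lit 783273220949) (nat_lit 76) (nat_lit 83141397365) (nat_lit 76) (nat_lit 81648661777) (nat_lit 1) (nat_lit 4) (nat_lit 2) (nat_lit 5) (nat_lit 2) (nat_lit 4) (nat_lit 309) (nat_lit 245) (nat_lit 226)) (XT.lf (nat_lit 0) (nat_lit 906140017920) (nat_lit 76) (nat_lit 92711136963) (nat_lit 76) (nat_lit 91203686442) (nat_lit 1) (nat_lit 4) (nat_lit 2) (nat_lit 5) (nat_lit 2) (nat_lit 4) (nat_lit 310) (nat_lit 245) (nat_lit 225)))) (XT.nd (nat_lit 78) (nat_lit 0) (nat_lit 0) (XT.lf (nat_lit 0) (nat_lit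 1047355417206) (nat_lit 76) (nat_lit 103756633118) (nat_lit 76) (nat_lit 102236387002) (nat_lit 1) (nat_lit 4) (nat_lit 2) (nat_lit 5) (nat_lit 2) (nat_lit 4) (nat_lit 311) (nat_lit 245) (nat_lit 224)) (XT.nd (nat_lit 78) (nat_lit 0) (nat_lit 0) (XT.lf (nat_lit 0) (nat_lit 1209682328794) (nat_lit 76) (nat_lit 116493993362) (nat_lit 76) (nat_lit 114962620643) (nat_lit 1) (nat_lit 4) (nat_lit 2) (nat_lit 5) (nat_lit 2) (nat_lit 4) (nat_lit 312) (nat_lit 245) (nat_lit 223)) (XT.lf (nat_lit 0) (nat_lit 1396296713997) (nat_lit 76) (nat_lit 131172426919) (nat_lit 76) (nat_lit 129631378892) (nat_lit 1) (nat_lit 4) (nat_lit 2) (nat_lit 5) (nat_lit 2) (nat_lit 4) (nat_lit 313) (nat_lit 245) (nat_lit 222))))) (XT.nd (nat_lit 234) (nat_lit 0) (nat_lit 0) (XT.nd (nat_lit 78) (nat_lit 0) (nat_lit 0) (XT.lf (nat_lit 0) (nat_lit 1610849723831) (nat_lit 76) (nat_lit 148079120532) (nat_lit 76) (nat_lit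 146529659194) (nat_lit 1) (nat_lit 4) (nat_lit 2) (nat_lit 5) (nat_lit 2) (nat_lit 4) (nat_lit 314) (nat_lit 245) (nat_lit 221)) (XT.nd (nat_lit 78) (nat_lit 0) (nat_lit 0) (XT.lf (nat_lit 0) (nat_lit 1857539134574) (nat_lit 76) (nat_lit 167544857337) (nat_lit 76) (nat_lit 165988080076) (nat_lit 1) (nat_lit 4) (nat_lit 2) (nat_lit 5) (nat_lit 2) (nat_lit 4) (nat_lit 315) (nat_lit 245) (nat_lit 220)) (XT.lf (nat_lit 0) (nat_lit 2141191478176) (nat_lit 76) (nat_lit 189950488705) (nat_lit 76) (nat_lit 188387349773) (nat_lit 1) (nat_lit 4) (nat_lit 2) (nat_lit 5) (nat_lit 2) (nat_lit 4) (nat_lit 316) (nat_lit 245) (nat_lit 219)))) (XT.nd (nat_lit 156) (nat_lit 0) (nat_lit 0) (XT.nd (nat_lit 78) (nat_lit 0) (nat_lit 0) (XT.lf (nat_lit 0) (nat_lit 2467356474403) (nat_lit 76) (nat_lit 215734385686) (nat_lit 76) (nat_lit 214165714865) (nat_lit 1) (nat_lit 4) (nat_lit 2) (nat_lit 5) (nat_lit 2)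 (nat_lit 4) (nat_lit 317) (nat_lit 245) (nat_lit 218)) (XT.lf (nat_lit 0) (nat_lit 2842415612312) (nat_lit 76) (nat_lit 245401015829) (nat_lit 76) (nat_lit 243827534670) (nat_lit 1) (nat_lit 4) (nat_lit 2) (nat_lit 5) (nat_lit 2) (nat_lit 4) (nat_lit 318) (nat_lit 245) (nat_lit 217))) (XT.nd (nat_lit 78) (nat_lit 0) (nat_lit 0) (XT.lf (nat_lit 0) (nat_lit 3273707005470) (nat_lit 76) (nat_lit 279530813202) (nat_lit 76) (nat_lit 277953149141) (nat_lit 1) (nat_lit 4) (nat_lit 2) (nat_lit 5) (nat_lit 2) (nat_lit 4) (nat_lit 319) (nat_lit 245) (nat_lit 216)) (XT.lf (nat_lit 0) (nat_lit 3769668963744) (nat_lit 76) (nat_lit 318791534711) (nat_lit 76) (nat_lit 317210233343) (nat_lit 1) (nat_lit 4) (nat_lit 2) (nat_lit 5) (nat_lit 2) (nat_lit 4) (nat_lit 320) (nat_lit 245) (nat_lit 215))))))))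
noncomputable def xc8 : XT := (XT.nd (nat_lit 39390) (nat_lit 0) (nat_lit 0) (XT.nd (nat_lit 38454) (nat_lit 0) (nat_lit 0) (XT.nd (nat_lit 468) (nat_lit 0) (nat_lit 0) (XT.nd (nat_lit 234) (nat_lit 0) (nat_lit 0) (XT.nd (nat_lit 78) (nat_lit 0) (nat_lit 0) (XT.lf (nat_lit 0) (nat_lit 4340005090665) (nat_lit 76) (nat_lit 363951324906) (nat_lit 76) (nat_lit 362366860662) (nat_lit 1) (nat_lit 4) (nat_lit 2) (nat_lit 5) (nat_lit 2) (nat_lit 4) (nat_lit 321) (nat_lit 245) (nat_lit 214)) (XT.nd (nat_lit 78) (nat_lit 0) (nat_lit 0) (XT.lf (nat_lit 0) (nat_lit 4995874136542) (nat_lit 76) (nat_lit 415893744900) (nat_lit 76) (nat_lit 414306530330) (nat_lit 1) (nat_lit 4) (nat_lit 2) (nat_lit 5) (nat_lit 2) (nat_lit 4) (nat_lit 322) (nat_lit 245) (nat_lit 213)) (XT.lf (nat_lit 0) (nat_lit 5750108321838) (nat_lit 76) (nat_lit 475635059431) (nat_lit 76) (nat_lit 474045453274) (nat_lit 1) (nat_lit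 4) (nat_lit 2) (nat_lit 5) (nat_lit 2) (nat_lit 4) (nat_lit 323) (nat_lit 245) (nat_lit 212)))) (XT.nd (nat_lit 78) (nat_lit 0) (nat_lit 0) (XT.lf (nat_lit 0) (nat_lit 6617464402353) (nat_lit 76) (nat_lit 544344120307) (nat_lit 76) (nat_lit 542752434508) (nat_lit 1) (nat_lit 4) (nat_lit 2) (nat_lit 5) (nat_lit 2) (nat_lit 4) (nat_lit 324) (nat_lit 245) (nat_lit 211)) (XT.nd (nat_lit 78) (nat_lit 0) (nat_lit 0) (XT.lf (nat_lit 0) (nat_lit 7614912388357) (nat_lit 76) (nat_lit 623365235240) (nat_lit 76) (nat_lit 621771741056) (nat_lit 1) (nat_lit 4) (nat_lit 2) (nat_lit 5) (nat_lit 2) (nat_lit 4) (nat_lit 325) (nat_lit 245) (nat_lit 210)) (XT.lf (nat_lit 0) (nat_lit 8761967566533) (nat_lit 76) (nat_lit 714244469522) (nat_lit 76) (nat_lit 712649402830) (nat_lit 1) (nat_lit 4) (nat_lit 2) (nat_lit 5) (nat_lit 2) (nat_lit 4) (nat_lit 326) (nat_lit 245) (nat_lit 209))))) (XT.nd (nat_lit 37752)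 (nat_lit 0) (nat_lit 0) (XT.nd (nat_lit 37596) (nat_lit 0) (nat_lit 76) (XT.lf (nat_lit 0) (nat_lit 10081072320801) (nat_lit 76) (nat_lit 818759895128) (nat_lit 76) (nat_lit 817163461038) (nat_lit 1) (nat_lit 4) (nat_lit 2) (nat_lit 5) (nat_lit 2) (nat_lit 4) (nat_lit 327) (nat_lit 245) (nat_lit 208)) (XT.nd (nat_lit 78) (nat_lit 0) (nat_lit 0) (XT.lf (nat_lit 0) (nat_lit 6306744524) (nat_lit 152) (nat_lit 13984100924) (nat_lit 0) (nat_lit 6306744524) (nat_lit 2) (nat_lit 5) (nat_lit 4) (nat_lit 4) (nat_lit 2) (nat_lit 4) (nat_lit 288) (nat_lit 246) (nat_lit 246)) (XT.lf (nat_lit 0) (nat_lit 21771147801) (nat_lit 152) (nat_lit 17267496007) (nat_lit 0) (nat_lit 21530315289) (nat_lit 2) (nat_lit 5) (nat_lit 4) (nat_lit 4) (nat_lit 2) (nat_lit 4) (nat_lit 289) (nat_lit 246) (nat_lit 245)))) (XT.nd (nat_lit 78) (nat_lit 76) (nat_lit 0) (XT.lf (nat_lit 0) (nat_lit 31661484043) (nat_lit 152)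 (nat_lit 6227544475) (nat_lit 0) (nat_lit 31211231955) (nat_lit 2) (nat_lit 5) (nat_lit 4) (nat_lit 4) (nat_lit 2) (nat_lit 4) (nat_lit 290) (nat_lit 246) (nat_lit 244)) (XT.nd (nat_lit 78) (nat_lit 0) (nat_lit 0) (XT.lf (nat_lit 0) (nat_lit 5650302832) (nat_lit 76) (nat_lit 36963591439) (nat_lit 76) (nat_lit 36331235373) (nat_lit 1) (nat_lit 4) (nat_lit 2) (nat_lit 5) (nat_lit 2) (nat_lit 4) (nat_lit 291) (nat_lit 246) (nat_lit 243)) (XT.lf (nat_lit 0) (nat_lit 18679373260) (nat_lit 76) (nat_lit 36202202418) (nat_lit 76) (nat_lit 35411495066) (nat_lit 1) (nat_lit 4) (nat_lit 2) (nat_lit 5) (nat_lit 2) (nat_lit 4) (nat_lit 292) (nat_lit 246) (nat_lit 242)))))) (XT.nd (nat_lit 468) (nat_lit 0) (nat_lit 0) (XT.nd (nat_lit 234) (nat_lit 0) (nat_lit 0) (XT.nd (nat_lit 78) (nat_lit 0) (nat_lit 0) (XT.lf (nat_lit 0) (nat_lit 32786651945) (nat_lit 76) (nat_lit 35760236816) (nat_lit 76) (nat_lit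 34831832694) (nat_lit 1) (nat_lit 4) (nat_lit 2) (nat_lit 5) (nat_lit 2) (nat_lit 4) (nat_lit 293) (nat_lit 246) (nat_lit 241)) (XT.nd (nat_lit 78) (nat_lit 0) (nat_lit 0) (XT.lf (nat_lit 0) (nat_lit 48248150863) (nat_lit 76) (nat_lit 35629047480) (nat_lit 76) (nat_lit 34580907036) (nat_lit 1) (nat_lit 4) (nat_lit 2) (nat_lit 5) (nat_lit 2) (nat_lit 4) (nat_lit 294) (nat_lit 246) (nat_lit 240)) (XT.lf (nat_lit 0) (nat_lit 65366377601) (nat_lit 76) (nat_lit 35806067662) (nat_lit 76) (nat_lit 34653808677) (nat_lit 1) (nat_lit 4) (nat_lit 2) (nat_lit 5) (nat_lit 2) (nat_lit 4) (nat_lit 295) (nat_lit 246) (nat_lit 239)))) (XT.nd (nat_lit 78) (nat_lit 0) (nat_lit 0) (XT.lf (nat_lit 0) (nat_lit 84476253987) (nat_lit 76) (nat_lit 36294760800) (nat_lit 76) (nat_lit 35051963953) (nat_lit 1) (nat_lit 4) (nat_lit 2) (nat_lit 5) (nat_lit 2) (nat_lit 4) (nat_lit 296) (nat_lit 246) (nat_lit 238)) (XT.nd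 (nat_lit 78) (nat_lit 0) (nat_lit 0) (XT.lf (nat_lit 0) (nat_lit 105951668907) (nat_lit 76) (nat_lit 37104688281) (nat_lit 76) (nat_lit 35783162860) (nat_lit 1) (nat_lit 4) (nat_lit 2) (nat_lit 5) (nat_lit 2) (nat_lit 4) (nat_lit 297) (nat_lit 246) (nat_lit 237)) (XT.lf (nat_lit 0) (nat_lit 130212793521) (nat_lit 76) (nat_lit 38251696514) (nat_lit 76) (nat_lit 36861711461) (nat_lit 1) (nat_lit 4) (nat_lit 2) (nat_lit 5) (nat_lit 2) (nat_lit 4) (nat_lit 298) (nat_lit 246) (nat_lit 236))))) (XT.nd (nat_lit 234) (nat_lit 0) (nat_lit 0) (XT.nd (nat_lit 78) (nat_lit 0) (nat_lit 0) (XT.lf (nat_lit 0) (nat_lit 157734302008) (nat_lit 76) (nat_lit 39758226963) (nat_lit 76) (nat_lit 38308711797) (nat_lit 1) (nat_lit 4) (nat_lit 2) (nat_lit 5) (nat_lit 2) (nat_lit 4) (nat_lit 299) (nat_lit 246) (nat_lit 235)) (XT.nd (nat_lit 78) (nat_lit 0) (nat_lit 0) (XT.lf (nat_lit 0) (nat_lit 189054658663) (nat_lit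 76) (nat_lit 41653755224) (nat_lit 76) (nat_lit 40152474741) (nat_lit 1) (nat_lit 4) (nat_lit 2) (nat_lit 5) (nat_lit 2) (nat_lit 4) (nat_lit 300) (nat_lit 246) (nat_lit 234)) (XT.lf (nat_lit 0) (nat_lit 224786653074) (nat_lit 76) (nat_lit 43975367719) (nat_lit 76) (nat_lit 42429073918) (nat_lit 1) (nat_lit 4) (nat_lit 2) (nat_lit 5) (nat_lit 2) (nat_lit 4) (nat_lit 301) (nat_lit 246) (nat_lit 233)))) (XT.nd (nat_lit 78) (nat_lit 0) (nat_lit 0) (XT.lf (nat_lit 0) (nat_lit 265629389479) (nat_lit 76) (nat_lit 46768487302) (nat_lit 76) (nat_lit 45183051486) (nat_lit 1) (nat_lit 4) (nat_lit 2) (nat_lit 5) (nat_lit 2) (nat_lit 4) (nat_lit 302) (nat_lit 246) (nat_lit 232)) (XT.nd (nat_lit 78) (nat_lit 0) (nat_lit 0) (XT.lf (nat_lit 0) (nat_lit 312381964894) (nat_lit 76) (nat_lit 50087761965) (nat_lit 76) (nat_lit 48468289613) (nat_lit 1) (nat_lit 4) (nat_lit 2) (nat_lit 5) (nat_lit 2) (nat_lit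 4) (nat_lit 303) (nat_lit 246) (nat_lit 231)) (XT.lf (nat_lit 0) (nat_lit 365959103621) (nat_lit 76) (nat_lit 53998134038) (nat_lit 76) (nat_lit 52349064698) (nat_lit 1) (nat_lit 4) (nat_lit 2) (nat_lit 5) (nat_lit 2) (nat_lit 4) (nat_lit 304) (nat_lit 246) (nat_lit 230))))))) (XT.nd (nat_lit 936) (nat_lit 0) (nat_lit 0) (XT.nd (nat_lit 468) (nat_lit 0) (nat_lit 0) (XT.nd (nat_lit 234) (nat_lit 0) (nat_lit 0) (XT.nd (nat_lit 78) (nat_lit 0) (nat_lit 0) (XT.lf (nat_lit 0) (nat_lit 427409054026) (nat_lit 76) (nat_lit 58576110801) (nat_lit 76) (nat_lit 56901304950) (nat_lit 1) (nat_lit 4) (nat_lit 2) (nat_lit 5) (nat_lit 2) (nat_lit 4) (nat_lit 305) (nat_lit 246) (nat_lit 229)) (XT.nd (nat_lit 78) (nat_lit 0) (nat_lit 0) (XT.lf (nat_lit 0) (nat_lit 497934097749) (nat_lit 76) (nat_lit 63911261363) (nat_lit 76) (nat_lit 62214075938) (nat_lit 1) (nat_lit 4) (nat_lit 2) (nat_lit 5) (nat_lit 2)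 (nat_lit 4) (nat_lit 306) (nat_lit 246) (nat_lit 228)) (XT.lf (nat_lit 0) (nat_lit 578914072600) (nat_lit 76) (nat_lit 70107969107) (nat_lit 76) (nat_lit 68391323181) (nat_lit 1) (nat_lit 4) (nat_lit 2) (nat_lit 5) (nat_lit 2) (nat_lit 4) (nat_lit 307) (nat_lit 246) (nat_lit 227)))) (XT.nd (nat_lit 78) (nat_lit 0) (nat_lit 0) (XT.lf (nat_lit 0) (nat_lit 671933369393) (nat_lit 76) (nat_lit 77287473965) (nat_lit 76) (nat_lit 75553905866) (nat_lit 1) (nat_lit 4) (nat_lit 2) (nat_lit 5) (nat_lit 2) (nat_lit 4) (nat_lit 308) (nat_lit 246) (nat_lit 226)) (XT.nd (nat_lit 78) (nat_lit 0) (nat_lit 0) (XT.lf (nat_lit 0) (nat_lit 778811930890) (nat_lit 76) (nat_lit 85590244512) (nat_lit 76) (nat_lit 83841961479) (nat_lit 1) (nat_lit 4) (nat_lit 2) (nat_lit 5) (nat_lit 2) (nat_lit 4) (nat_lit 309) (nat_lit 246) (nat_lit 225)) (XT.lf (nat_lit 0) (nat_lit 901640859381) (nat_lit 76) (nat_lit 95178726257)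 (nat_lit 76) (nat_lit 93417647630) (nat_lit 1) (nat_lit 4) (nat_lit 2) (nat_lit 5) (nat_lit 2) (nat_lit 4) (nat_lit 310) (nat_lit 246) (nat_lit 224))))) (XT.nd (nat_lit 234) (nat_lit 0) (nat_lit 0) (XT.nd (nat_lit 78) (nat_lit 0) (nat_lit 0) (XT.lf (nat_lit 0) (nat_lit 1042823329555) (nat_lit 76) (nat_lit 106240519931) (nat_lit 76) (nat_lit 104468314700) (nat_lit 1) (nat_lit 4) (nat_lit 2) (nat_lit 5) (nat_lit 2) (nat_lit 4) (nat_lit 311) (nat_lit 246) (nat_lit 223)) (XT.nd (nat_lit 78) (nat_lit 0) (nat_lit 0) (XT.lf (nat_lit 0) (nat_lit 1205121607133) (nat_lit 76) (nat_lit 118992051932) (nat_lit 76) (nat_lit 117210171393) (nat_lit 1) (nat_lit 4) (nat_lit 2) (nat_lit 5) (nat_lit 2) (nat_lit 4) (nat_lit 312) (nat_lit 246) (nat_lit 222)) (XT.lf (nat_lit 0) (nat_lit 1391711093196) (nat_lit 76) (nat_lit 133682808755) (nat_lit 76) (nat_lit 131892514906) (nat_lit 1) (nat_lit 4) (nat_lit 2) (nat_lit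 5) (nat_lit 2) (nat_lit 4) (nat_lit 313) (nat_lit 246) (nat_lit 221)))) (XT.nd (nat_lit 78) (nat_lit 0) (nat_lit 0) (XT.lf (nat_lit 0) (nat_lit 1606242451604) (nat_lit 76) (nat_lit 150600218252) (nat_lit 76) (nat_lit 148802608479) (nat_lit 1) (nat_lit 4) (nat_lit 2) (nat_lit 5) (nat_lit 2) (nat_lit 4) (nat_lit 314) (nat_lit 246) (nat_lit 220)) (XT.nd (nat_lit 78) (nat_lit 0) (nat_lit 0) (XT.lf (nat_lit 0) (nat_lit 1852913035021) (nat_lit 76) (nat_lit 170075273216) (nat_lit 76) (nat_lit 168271301772) (nat_lit 1) (nat_lit 4) (nat_lit 2) (nat_lit 5) (nat_lit 2) (nat_lit 4) (nat_lit 315) (nat_lit 246) (nat_lit 219)) (XT.lf (nat_lit 0) (nat_lit 2136549007034) (nat_lit 76) (nat_lit 192489007332) (nat_lit 76) (nat_lit 190679503999) (nat_lit 1) (nat_lit 4) (nat_lit 2) (nat_lit 5) (nat_lit 2) (nat_lit 4) (nat_lit 316) (nat_lit 246) (nat_lit 218)))))) (XT.nd (nat_lit 468) (nat_lit 0) (nat_lit 0)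 (XT.nd (nat_lit 234) (nat_lit 0) (nat_lit 0) (XT.nd (nat_lit 78) (nat_lit 0) (nat_lit 0) (XT.lf (nat_lit 0) (nat_lit 2462699767097) (nat_lit 76) (nat_lit 218279950180) (nat_lit 76) (nat_lit 216465636510) (nat_lit 1) (nat_lit 4) (nat_lit 2) (nat_lit 5) (nat_lit 2) (nat_lit 4) (nat_lit 317) (nat_lit 246) (nat_lit 217)) (XT.nd (nat_lit 78) (nat_lit 0) (nat_lit 0) (XT.lf (nat_lit 0) (nat_lit 2837746525733) (nat_lit 76) (nat_lit 247952707165) (nat_lit 76) (nat_lit 246134210591) (nat_lit 1) (nat_lit 4) (nat_lit 2) (nat_lit 5) (nat_lit 2) (nat_lit 4) (nat_lit 318) (nat_lit 246) (nat_lit 216)) (XT.lf (nat_lit 0) (nat_lit 3269027154306) (nat_lit 76) (nat_lit 282087832226) (nat_lit 76) (nat_lit 280265698346) (nat_lit 1) (nat_lit 4) (nat_lit 2) (nat_lit 5) (nat_lit 2) (nat_lit 4) (nat_lit 319) (nat_lit 246) (nat_lit 215)))) (XT.nd (nat_lit 78) (nat_lit 0) (nat_lit 0) (XT.lf (nat_lit 0) (nat_lit 3764979752071)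 (nat_lit 76) (nat_lit 321353186507) (nat_lit 76) (nat_lit 319527889751) (nat_lit 1) (nat_lit 4) (nat_lit 2) (nat_lit 5) (nat_lit 2) (nat_lit 4) (nat_lit 320) (nat_lit 246) (nat_lit 214)) (XT.nd (nat_lit 78) (nat_lit 0) (nat_lit 0) (XT.lf (nat_lit 0) (nat_lit 4335307739419) (nat_lit 76) (nat_lit 366517005199) (nat_lit 76) (nat_lit 364688958117) (nat_lit 1) (nat_lit 4) (nat_lit 2) (nat_lit 5) (nat_lit 2) (nat_lit 4) (nat_lit 321) (nat_lit 246) (nat_lit 213)) (XT.lf (nat_lit 0) (nat_lit 4991169707406) (nat_lit 76) (nat_lit 418462928234) (nat_lit 76) (nat_lit 416632489564) (nat_lit 1) (nat_lit 4) (nat_lit 2) (nat_lit 5) (nat_lit 2) (nat_lit 4) (nat_lit 322) (nat_lit 246) (nat_lit 212))))) (XT.nd (nat_lit 234) (nat_lit 0) (nat_lit 0) (XT.nd (nat_lit 78) (nat_lit 0) (nat_lit 0) (XT.lf (nat_lit 0) (nat_lit 5745397738016) (nat_lit 76) (nat_lit 478207288889) (nat_lit 76) (nat_lit 476374770577)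 (nat_lit 1) (nat_lit 4) (nat_lit 2) (nat_lit 5) (nat_lit 2) (nat_lit 4) (nat_lit 323) (nat_lit 246) (nat_lit 211)) (XT.nd (nat_lit 78) (nat_lit 0) (nat_lit 0) (XT.lf (nat_lit 0) (nat_lit 6612748466629) (nat_lit 76) (nat_lit 546918998567) (nat_lit 76) (nat_lit 545084671872) (nat_lit 1) (nat_lit 4) (nat_lit 2) (nat_lit 5) (nat_lit 2) (nat_lit 4) (nat_lit 324) (nat_lit 246) (nat_lit 210)) (XT.lf (nat_lit 0) (nat_lit 7610191798806) (nat_lit 76) (nat_lit 625942416807) (nat_lit 76) (nat_lit 624106517603) (nat_lit 1) (nat_lit 4) (nat_lit 2) (nat_lit 5) (nat_lit 2) (nat_lit 4) (nat_lit 325) (nat_lit 246) (nat_lit 209)))) (XT.nd (nat_lit 37518) (nat_lit 0) (nat_lit 76) (XT.nd (nat_lit 78) (nat_lit 0) (nat_lit 0) (XT.lf (nat_lit 0) (nat_lit 8757242930176) (nat_lit 76) (nat_lit 716823653964) (nat_lit 76) (nat_lit 714986387362) (nat_lit 1) (nat_lit 4) (nat_lit 2) (nat_lit 5) (nat_lit 2) (nat_lit 4)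 (nat_lit 326) (nat_lit 246) (nat_lit 208)) (XT.lf (nat_lit 0) (nat_lit 10076344165483) (nat_lit 76) (nat_lit 821340821200) (nat_lit 76) (nat_lit 819502365556) (nat_lit 1) (nat_lit 4) (nat_lit 2) (nat_lit 5) (nat_lit 2) (nat_lit 4) (nat_lit 327) (nat_lit 246) (nat_lit 207))) (XT.nd (nat_lit 78) (nat_lit 152) (nat_lit 0) (XT.lf (nat_lit 0) (nat_lit 17202996468) (nat_lit 76) (nat_lit 1724421617) (nat_lit 76) (nat_lit 1724421617) (nat_lit 4) (nat_lit 4) (nat_lit 5) (nat_lit 5) (nat_lit 5) (nat_lit 4) (nat_lit 286) (nat_lit 247) (nat_lit 247)) (XT.lf (nat_lit 0) (nat_lit 4286293589) (nat_lit 152) (nat_lit 38539023632) (nat_lit 0) (nat_lit 4009336200) (nat_lit 2) (nat_lit 5) (nat_lit 4) (nat_lit 4) (nat_lit 2) (nat_lit 4) (nat_lit 287) (nat_lit 247) (nat_lit 246))))))))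
noncomputable def xc9 : XT := (XT.nd (nat_lit 1872) (nat_lit 0) (nat_lit 0) (XT.nd (nat_lit 936) (nat_lit 0) (nat_lit 0) (XT.nd (nat_lit 468) (nat_lit 0) (nat_lit 0) (XT.nd (nat_lit 234) (nat_lit 76) (nat_lit 0) (XT.nd (nat_lit 78) (nat_lit 0) (nat_lit 0) (XT.lf (nat_lit 0) (nat_lit 12547601310) (nat_lit 152) (nat_lit 28645289853) (nat_lit 0) (nat_lit 12029811410) (nat_lit 2) (nat_lit 5) (nat_lit 4) (nat_lit 4) (nat_lit 2) (nat_lit 4) (nat_lit 288) (nat_lit 247) (nat_lit 245)) (XT.nd (nat_lit 78) (nat_lit 0) (nat_lit 0) (XT.lf (nat_lit 0) (nat_lit 21407133866) (nat_lit 152) (nat_lit 18533356191) (nat_lit 0) (nat_lit 20679924390) (nat_lit 2) (nat_lit 5) (nat_lit 4) (nat_lit 4) (nat_lit 2) (nat_lit 4) (nat_lit 289) (nat_lit 247) (nat_lit 244)) (XT.lf (nat_lit 0) (nat_lit 31038229936) (nat_lit 152) (nat_lit 8005380466) (nat_lit 0) (nat_lit 30128916482) (nat_lit 2) (nat_lit 5) (nat_lit 4)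 (nat_lit 4) (nat_lit 2) (nat_lit 4) (nat_lit 290) (nat_lit 247) (nat_lit 243)))) (XT.nd (nat_lit 78) (nat_lit 0) (nat_lit 0) (XT.lf (nat_lit 0) (nat_lit 3310209543) (nat_lit 76) (nat_lit 38398725086) (nat_lit 76) (nat_lit 37331060346) (nat_lit 1) (nat_lit 4) (nat_lit 2) (nat_lit 5) (nat_lit 2) (nat_lit 4) (nat_lit 291) (nat_lit 247) (nat_lit 242)) (XT.nd (nat_lit 78) (nat_lit 0) (nat_lit 0) (XT.lf (nat_lit 0) (nat_lit 15931767270) (nat_lit 76) (nat_lit 37839025262) (nat_lit 76) (nat_lit 36633663751) (nat_lit 1) (nat_lit 4) (nat_lit 2) (nat_lit 5) (nat_lit 2) (nat_lit 4) (nat_lit 292) (nat_lit 247) (nat_lit 241)) (XT.lf (nat_lit 0) (nat_lit 29684687085) (nat_lit 76) (nat_lit 37572441570) (nat_lit 76) (nat_lit 36247343737) (nat_lit 1) (nat_lit 4) (nat_lit 2) (nat_lit 5) (nat_lit 2) (nat_lit 4) (nat_lit 293) (nat_lit 247) (nat_lit 240))))) (XT.nd (nat_lit 234) (nat_lit 0) (nat_lit 0) (XT.nd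 (nat_lit 78) (nat_lit 0) (nat_lit 0) (XT.lf (nat_lit 0) (nat_lit 44838047856) (nat_lit 76) (nat_lit 37593758242) (nat_lit 76) (nat_lit 36164541869) (nat_lit 1) (nat_lit 4) (nat_lit 2) (nat_lit 5) (nat_lit 2) (nat_lit 4) (nat_lit 294) (nat_lit 247) (nat_lit 239)) (XT.nd (nat_lit 78) (nat_lit 0) (nat_lit 0) (XT.lf (nat_lit 0) (nat_lit 61688328379) (nat_lit 76) (nat_lit 37903392344) (nat_lit 76) (nat_lit 36383638109) (nat_lit 1) (nat_lit 4) (nat_lit 2) (nat_lit 5) (nat_lit 2) (nat_lit 4) (nat_lit 295) (nat_lit 247) (nat_lit 238)) (XT.lf (nat_lit 0) (nat_lit 80565208056) (nat_lit 76) (nat_lit 38507401935) (nat_lit 76) (nat_lit 36908919124) (nat_lit 1) (nat_lit 4) (nat_lit 2) (nat_lit 5) (nat_lit 2) (nat_lit 4) (nat_lit 296) (nat_lit 247) (nat_lit 237)))) (XT.nd (nat_lit 78) (nat_lit 0) (nat_lit 0) (XT.lf (nat_lit 0) (nat_lit 101838017141) (nat_lit 76) (nat_lit 39417604592) (nat_lit 76) (nat_lit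 37750662151) (nat_lit 1) (nat_lit 4) (nat_lit 2) (nat_lit 5) (nat_lit 2) (nat_lit 4) (nat_lit 297) (nat_lit 247) (nat_lit 236)) (XT.nd (nat_lit 78) (nat_lit 0) (nat_lit 0) (XT.lf (nat_lit 0) (nat_lit 125922962770) (nat_lit 76) (nat_lit 40651808630) (nat_lit 76) (nat_lit 38925336076) (nat_lit 1) (nat_lit 4) (nat_lit 2) (nat_lit 5) (nat_lit 2) (nat_lit 4) (nat_lit 298) (nat_lit 247) (nat_lit 235)) (XT.lf (nat_lit 0) (nat_lit 153291272138) (nat_lit 76) (nat_lit 42234161518) (nat_lit 76) (nat_lit 40455923648) (nat_lit 1) (nat_lit 4) (nat_lit 2) (nat_lit 5) (nat_lit 2) (nat_lit 4) (nat_lit 299) (nat_lit 247) (nat_lit 234)))))) (XT.nd (nat_lit 468) (nat_lit 0) (nat_lit 0) (XT.nd (nat_lit 234) (nat_lit 0) (nat_lit 0) (XT.nd (nat_lit 78) (nat_lit 0) (nat_lit 0) (XT.lf (nat_lit 0) (nat_lit 184478412169) (nat_lit 76) (nat_lit 44195622335) (nat_lit 76) (nat_lit 42372371146) (nat_lit 1) (nat_lit 4)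 (nat_lit 2) (nat_lit 5) (nat_lit 2) (nat_lit 4) (nat_lit 300) (nat_lit 247) (nat_lit 233)) (XT.nd (nat_lit 78) (nat_lit 0) (nat_lit 0) (XT.lf (nat_lit 0) (nat_lit 220094566036) (nat_lit 76) (nat_lit 46574567488) (nat_lit 76) (nat_lit 44712174283) (nat_lit 1) (nat_lit 4) (nat_lit 2) (nat_lit 5) (nat_lit 2) (nat_lit 4) (nat_lit 301) (nat_lit 247) (nat_lit 232)) (XT.lf (nat_lit 0) (nat_lit 260836571534) (nat_lit 76) (nat_lit 49417541556) (nat_lit 76) (nat_lit 47521111815) (nat_lit 1) (nat_lit 4) (nat_lit 2) (nat_lit 5) (nat_lit 2) (nat_lit 4) (nat_lit 302) (nat_lit 247) (nat_lit 231)))) (XT.nd (nat_lit 78) (nat_lit 0) (nat_lit 0) (XT.lf (nat_lit 0) (nat_lit 307501554856) (nat_lit 76) (nat_lit 52780167945) (nat_lit 76) (nat_lit 50854141216) (nat_lit 1) (nat_lit 4) (nat_lit 2) (nat_lit 5) (nat_lit 2) (nat_lit 4) (nat_lit 303) (nat_lit 247) (nat_lit 230)) (XT.nd (nat_lit 78) (nat_lit 0) (nat_lit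 0) (XT.lf (nat_lit 0) (nat_lit 361002526545) (nat_lit 76) (nat_lit 56728237171) (nat_lit 76) (nat_lit 54776473931) (nat_lit 1) (nat_lit 4) (nat_lit 2) (nat_lit 5) (nat_lit 2) (nat_lit 4) (nat_lit 304) (nat_lit 247) (nat_lit 229)) (XT.lf (nat_lit 0) (nat_lit 422386244745) (nat_lit 76) (nat_lit 61338994066) (nat_lit 76) (nat_lit 59364851252) (nat_lit 1) (nat_lit 4) (nat_lit 2) (nat_lit 5) (nat_lit 2) (nat_lit 4) (nat_lit 305) (nat_lit 247) (nat_lit 228))))) (XT.nd (nat_lit 234) (nat_lit 0) (nat_lit 0) (XT.nd (nat_lit 78) (nat_lit 0) (nat_lit 0) (XT.lf (nat_lit 0) (nat_lit 492853695244) (nat_lit 76) (nat_lit 66702649092) (nat_lit 76) (nat_lit 64709045778) (nat_lit 1) (nat_lit 4) (nat_lit 2) (nat_lit 5) (nat_lit 2) (nat_lit 4) (nat_lit 306) (nat_lit 247) (nat_lit 227)) (XT.nd (nat_lit 78) (nat_lit 0) (nat_lit 0) (XT.lf (nat_lit 0) (nat_lit 573783589032) (nat_lit 76) (nat_lit 72924143326) (nat_lit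 76) (nat_lit 70913617838) (nat_lit 1) (nat_lit 4) (nat_lit 2) (nat_lit 5) (nat_lit 2) (nat_lit 4) (nat_lit 307) (nat_lit 247) (nat_lit 226)) (XT.lf (nat_lit 0) (nat_lit 666759337073) (nat_lit 76) (nat_lit 80125201654) (nat_lit 76) (nat_lit 78099961232) (nat_lit 1) (nat_lit 4) (nat_lit 2) (nat_lit 5) (nat_lit 2) (nat_lit 4) (nat_lit 308) (nat_lit 247) (nat_lit 225)))) (XT.nd (nat_lit 78) (nat_lit 0) (nat_lit 0) (XT.lf (nat_lit 0) (nat_lit 773600030091) (nat_lit 76) (nat_lit 88446714347) (nat_lit 76) (nat_lit 86408678332) (nat_lit 1) (nat_lit 4) (nat_lit 2) (nat_lit 5) (nat_lit 2) (nat_lit 4) (nat_lit 309) (nat_lit 247) (nat_lit 224)) (XT.nd (nat_lit 78) (nat_lit 0) (nat_lit 0) (XT.lf (nat_lit 0) (nat_lit 896396029471) (nat_lit 76) (nat_lit 98051493612) (nat_lit 76) (nat_lit 96002330993) (nat_lit 1) (nat_lit 4) (nat_lit 2) (nat_lit 5) (nat_lit 2) (nat_lit 4) (nat_lit 310) (nat_lit 247) (nat_lit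 223)) (XT.lf (nat_lit 0) (nat_lit 1037549865634) (nat_lit 76) (nat_lit 109127459043) (nat_lit 76) (nat_lit 107068621115) (nat_lit 1) (nat_lit 4) (nat_lit 2) (nat_lit 5) (nat_lit 2) (nat_lit 4) (nat_lit 311) (nat_lit 247) (nat_lit 222))))))) (XT.nd (nat_lit 936) (nat_lit 0) (nat_lit 0) (XT.nd (nat_lit 468) (nat_lit 0) (nat_lit 0) (XT.nd (nat_lit 234) (nat_lit 0) (nat_lit 0) (XT.nd (nat_lit 78) (nat_lit 0) (nat_lit 0) (XT.lf (nat_lit 0) (nat_lit 1199823244072) (nat_lit 76) (nat_lit 121891314310) (nat_lit 76) (nat_lit 119824063071) (nat_lit 1) (nat_lit 4) (nat_lit 2) (nat_lit 5) (nat_lit 2) (nat_lit 4) (nat_lit 312) (nat_lit 247) (nat_lit 221)) (XT.nd (nat_lit 78) (nat_lit 0) (nat_lit 0) (XT.lf (nat_lit 0) (nat_lit 1386391078710) (nat_lit 76) (nat_lit 136592787017) (nat_lit 76) (nat_lit 134518219855) (nat_lit 1) (nat_lit 4) (nat_lit 2) (nat_lit 5) (nat_lit 2) (nat_lit 4) (nat_lit 313) (nat_lit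 247) (nat_lit 220)) (XT.lf (nat_lit 0) (nat_lit 1600903609791) (nat_lit 76) (nat_lit 153519514673) (nat_lit 76) (nat_lit 151438585840) (nat_lit 1) (nat_lit 4) (nat_lit 2) (nat_lit 5) (nat_lit 2) (nat_lit 4) (nat_lit 314) (nat_lit 247) (nat_lit 219)))) (XT.nd (nat_lit 78) (nat_lit 0) (nat_lit 0) (XT.lf (nat_lit 0) (nat_lit 1847557821619) (nat_lit 76) (nat_lit 173002672384) (nat_lit 76) (nat_lit 170916211663) (nat_lit 1) (nat_lit 4) (nat_lit 2) (nat_lit 5) (nat_lit 2) (nat_lit 4) (nat_lit 315) (nat_lit 247) (nat_lit 218)) (XT.nd (nat_lit 78) (nat_lit 0) (nat_lit 0) (XT.lf (nat_lit 0) (nat_lit 2131179557468) (nat_lit 76) (nat_lit 195423452368) (nat_lit 76) (nat_lit 193332181308) (nat_lit 1) (nat_lit 4) (nat_lit 2) (nat_lit 5) (nat_lit 2) (nat_lit 4) (nat_lit 316) (nat_lit 247) (nat_lit 217)) (XT.lf (nat_lit 0) (nat_lit 2457317938258) (nat_lit 76) (nat_lit 221220522057) (nat_lit 76) (nat_lit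 219125068095) (nat_lit 1) (nat_lit 4) (nat_lit 2) (nat_lit 5) (nat_lit 2) (nat_lit 4) (nat_lit 317) (nat_lit 247) (nat_lit 216))))) (XT.nd (nat_lit 234) (nat_lit 0) (nat_lit 0) (XT.nd (nat_lit 78) (nat_lit 0) (nat_lit 0) (XT.lf (nat_lit 0) (nat_lit 2832353932309) (nat_lit 76) (nat_lit 250898606730) (nat_lit 76) (nat_lit 248799515461) (nat_lit 1) (nat_lit 4) (nat_lit 2) (nat_lit 5) (nat_lit 2) (nat_lit 4) (nat_lit 318) (nat_lit 247) (nat_lit 215)) (XT.nd (nat_lit 78) (nat_lit 0) (nat_lit 0) (XT.lf (nat_lit 0) (nat_lit 3263625200373) (nat_lit 76) (nat_lit 285038364563) (nat_lit 76) (nat_lit 282936110419) (nat_lit 1) (nat_lit 4) (nat_lit 2) (nat_lit 5) (nat_lit 2) (nat_lit 4) (nat_lit 319) (nat_lit 247) (nat_lit 214)) (XT.lf (nat_lit 0) (nat_lit 3759569658565) (nat_lit 76) (nat_lit 324307747341) (nat_lit 76) (nat_lit 322202742871) (nat_lit 1) (nat_lit 4) (nat_lit 2) (nat_lit 5) (nat_lit 2)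 (nat_lit 4) (nat_lit 320) (nat_lit 247) (nat_lit 213)))) (XT.nd (nat_lit 78) (nat_lit 0) (nat_lit 0) (XT.lf (nat_lit 0) (nat_lit 4329890568023) (nat_lit 76) (nat_lit 369475069075) (nat_lit 76) (nat_lit 367367673017) (nat_lit 1) (nat_lit 4) (nat_lit 2) (nat_lit 5) (nat_lit 2) (nat_lit 4) (nat_lit 321) (nat_lit 247) (nat_lit 212)) (XT.nd (nat_lit 78) (nat_lit 0) (nat_lit 0) (XT.lf (nat_lit 0) (nat_lit 4985746381325) (nat_lit 76) (nat_lit 421424038233) (nat_lit 76) (nat_lit 419314562533) (nat_lit 1) (nat_lit 4) (nat_lit 2) (nat_lit 5) (nat_lit 2) (nat_lit 4) (nat_lit 322) (nat_lit 247) (nat_lit 211)) (XT.lf (nat_lit 0) (nat_lit 5739969060033) (nat_lit 76) (nat_lit 481171047691) (nat_lit 76) (nat_lit 479059763606) (nat_lit 1) (nat_lit 4) (nat_lit 2) (nat_lit 5) (nat_lit 2) (nat_lit 4) (nat_lit 323) (nat_lit 247) (nat_lit 210)))))) (XT.nd (nat_lit 37674) (nat_lit 0) (nat_lit 0) (XT.nd (nat_lit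 234) (nat_lit 0) (nat_lit 0) (XT.nd (nat_lit 78) (nat_lit 0) (nat_lit 0) (XT.lf (nat_lit 0) (nat_lit 6607315134819) (nat_lit 76) (nat_lit 549885060676) (nat_lit 76) (nat_lit 547772204083) (nat_lit 1) (nat_lit 4) (nat_lit 2) (nat_lit 5) (nat_lit 2) (nat_lit 4) (nat_lit 324) (nat_lit 247) (nat_lit 209)) (XT.nd (nat_lit 78) (nat_lit 0) (nat_lit 0) (XT.lf (nat_lit 0) (nat_lit 7604754420189) (nat_lit 76) (nat_lit 628910481790) (nat_lit 76) (nat_lit 626796257800) (nat_lit 1) (nat_lit 4) (nat_lit 2) (nat_lit 5) (nat_lit 2) (nat_lit 4) (nat_lit 325) (nat_lit 247) (nat_lit 208)) (XT.lf (nat_lit 0) (nat_lit 8751802032597) (nat_lit 76) (nat_lit 719793460578) (nat_lit 76) (nat_lit 717678047545) (nat_lit 1) (nat_lit 4) (nat_lit 2) (nat_lit 5) (nat_lit 2) (nat_lit 4) (nat_lit 326) (nat_lit 247) (nat_lit 207)))) (XT.nd (nat_lit 37284) (nat_lit 0) (nat_lit 228) (XT.lf (nat_lit 0) (nat_lit 10070900207937)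 (nat_lit 76) (nat_lit 824312142276) (nat_lit 76) (nat_lit 822195695294) (nat_lit 1) (nat_lit 4) (nat_lit 2) (nat_lit 5) (nat_lit 2) (nat_lit 4) (nat_lit 327) (nat_lit 247) (nat_lit 206)) (XT.nd (nat_lit 78) (nat_lit 76) (nat_lit 0) (XT.lf (nat_lit 0) (nat_lit 7587710163) (nat_lit 152) (nat_lit 1016771885) (nat_lit 0) (nat_lit 7587710163) (nat_lit 5) (nat_lit 5) (nat_lit 7) (nat_lit 4) (nat_lit 5) (nat_lit 4) (nat_lit 284) (nat_lit 248) (nat_lit 248)) (XT.lf (nat_lit 0) (nat_lit 15231872843) (nat_lit 76) (nat_lit 10815916905) (nat_lit 76) (nat_lit 10471935829) (nat_lit 4) (nat_lit 4) (nat_lit 5) (nat_lit 5) (nat_lit 5) (nat_lit 4) (nat_lit 285) (nat_lit 248) (nat_lit 247))))) (XT.nd (nat_lit 234) (nat_lit 76) (nat_lit 0) (XT.nd (nat_lit 78) (nat_lit 152) (nat_lit 0) (XT.lf (nat_lit 0) (nat_lit 33706641419) (nat_lit 76) (nat_lit 4134435155) (nat_lit 76) (nat_lit 3491340099) (nat_lit 4) (nat_lit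 4) (nat_lit 5) (nat_lit 5) (nat_lit 5) (nat_lit 4) (nat_lit 286) (nat_lit 248) (nat_lit 246)) (XT.nd (nat_lit 78) (nat_lit 0) (nat_lit 0) (XT.lf (nat_lit 0) (nat_lit 3867677564) (nat_lit 152) (nat_lit 39994762844) (nat_lit 0) (nat_lit 3031386667) (nat_lit 2) (nat_lit 5) (nat_lit 4) (nat_lit 4) (nat_lit 2) (nat_lit 4) (nat_lit 287) (nat_lit 248) (nat_lit 245)) (XT.lf (nat_lit 0) (nat_lit 11830859088) (nat_lit 152) (nat_lit 30689801243) (nat_lit 0) (nat_lit 10785148615) (nat_lit 2) (nat_lit 5) (nat_lit 4) (nat_lit 4) (nat_lit 2) (nat_lit 4) (nat_lit 288) (nat_lit 248) (nat_lit 244)))) (XT.nd (nat_lit 156) (nat_lit 76) (nat_lit 0) (XT.nd (nat_lit 78) (nat_lit 0) (nat_lit 0) (XT.lf (nat_lit 0) (nat_lit 20431151472) (nat_lit 152) (nat_lit 21089843389) (nat_lit 0) (nat_lit 19203337021) (nat_lit 2) (nat_lit 5) (nat_lit 4) (nat_lit 4) (nat_lit 2) (nat_lit 4) (nat_lit 289) (nat_lit 248) (nat_lit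 243)) (XT.lf (nat_lit 0) (nat_lit 29836821307) (nat_lit 152) (nat_lit 11007064018) (nat_lit 0) (nat_lit 28450655570) (nat_lit 2) (nat_lit 5) (nat_lit 4) (nat_lit 4) (nat_lit 2) (nat_lit 4) (nat_lit 290) (nat_lit 248) (nat_lit 242))) (XT.nd (nat_lit 78) (nat_lit 76) (nat_lit 0) (XT.lf (nat_lit 0) (nat_lit 40231892567) (nat_lit 152) (nat_lit 244191360) (nat_lit 0) (nat_lit 38708030060) (nat_lit 2) (nat_lit 5) (nat_lit 4) (nat_lit 4) (nat_lit 2) (nat_lit 4) (nat_lit 291) (nat_lit 248) (nat_lit 241)) (XT.lf (nat_lit 0) (nat_lit 12010148811) (nat_lit 76) (nat_lit 40098442638) (nat_lit 76) (nat_lit 38454843808) (nat_lit 1) (nat_lit 4) (nat_lit 2) (nat_lit 5) (nat_lit 2) (nat_lit 4) (nat_lit 292) (nat_lit 248) (nat_lit 240))))))))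
noncomputable def xc10 : XT := (XT.nd (nat_lit 1872) (nat_lit 0) (nat_lit 0) (XT.nd (nat_lit 936) (nat_lit 0) (nat_lit 0) (XT.nd (nat_lit 468) (nat_lit 0) (nat_lit 0) (XT.nd (nat_lit 234) (nat_lit 0) (nat_lit 0) (XT.nd (nat_lit 78) (nat_lit 0) (nat_lit 0) (XT.lf (nat_lit 0) (nat_lit 25454930479) (nat_lit 76) (nat_lit 39984364954) (nat_lit 76) (nat_lit 38236647584) (nat_lit 1) (nat_lit 4) (nat_lit 2) (nat_lit 5) (nat_lit 2) (nat_lit 4) (nat_lit 293) (nat_lit 248) (nat_lit 239)) (XT.nd (nat_lit 78) (nat_lit 0) (nat_lit 0) (XT.lf (nat_lit 0) (nat_lit 40340345034) (nat_lit 76) (nat_lit 40138295547) (nat_lit 76) (nat_lit 38300040315) (nat_lit 1) (nat_lit 4) (nat_lit 2) (nat_lit 5) (nat_lit 2) (nat_lit 4) (nat_lit 294) (nat_lit 248) (nat_lit 238)) (XT.lf (nat_lit 0) (nat_lit 56957628848) (nat_lit 76) (nat_lit 40563246102) (nat_lit 76) (nat_lit 38646262295) (nat_lit 1) (nat_lit 4) (nat_lit 2)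 (nat_lit 5) (nat_lit 2) (nat_lit 4) (nat_lit 295) (nat_lit 248) (nat_lit 237)))) (XT.nd (nat_lit 78) (nat_lit 0) (nat_lit 0) (XT.lf (nat_lit 0) (nat_lit 75631902691) (nat_lit 76) (nat_lit 41267530868) (nat_lit 76) (nat_lit 39282087431) (nat_lit 1) (nat_lit 4) (nat_lit 2) (nat_lit 5) (nat_lit 2) (nat_lit 4) (nat_lit 296) (nat_lit 248) (nat_lit 236)) (XT.nd (nat_lit 78) (nat_lit 0) (nat_lit 0) (XT.lf (nat_lit 0) (nat_lit 96728532791) (nat_lit 76) (nat_lit 42264929331) (nat_lit 76) (nat_lit 40219955780) (nat_lit 1) (nat_lit 4) (nat_lit 2) (nat_lit 5) (nat_lit 2) (nat_lit 4) (nat_lit 297) (nat_lit 248) (nat_lit 235)) (XT.lf (nat_lit 0) (nat_lit 120660279301) (nat_lit 76) (nat_lit 43574955809) (nat_lit 76) (nat_lit 41478216941) (nat_lit 1) (nat_lit 4) (nat_lit 2) (nat_lit 5) (nat_lit 2) (nat_lit 4) (nat_lit 298) (nat_lit 248) (nat_lit 234))))) (XT.nd (nat_lit 234) (nat_lit 0) (nat_lit 0) (XT.nd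 (nat_lit 78) (nat_lit 0) (nat_lit 0) (XT.lf (nat_lit 0) (nat_lit 147895372045) (nat_lit 76) (nat_lit 45223241253) (nat_lit 76) (nat_lit 43081489067) (nat_lit 1) (nat_lit 4) (nat_lit 2) (nat_lit 5) (nat_lit 2) (nat_lit 4) (nat_lit 299) (nat_lit 248) (nat_lit 233)) (XT.nd (nat_lit 78) (nat_lit 0) (nat_lit 0) (XT.lf (nat_lit 0) (nat_lit 178966671532) (nat_lit 76) (nat_lit 47242034727) (nat_lit 76) (nat_lit 45061140525) (nat_lit 1) (nat_lit 4) (nat_lit 2) (nat_lit 5) (nat_lit 2) (nat_lit 4) (nat_lit 300) (nat_lit 248) (nat_lit 232)) (XT.lf (nat_lit 0) (nat_lit 214482094493) (nat_lit 76) (nat_lit 49670834365) (nat_lit 76) (nat_lit 47455903627) (nat_lit 1) (nat_lit 4) (nat_lit 2) (nat_lit 5) (nat_lit 2) (nat_lit 4) (nat_lit 301) (nat_lit 248) (nat_lit 231)))) (XT.nd (nat_lit 78) (nat_lit 0) (nat_lit 0) (XT.lf (nat_lit 0) (nat_lit 255136507897) (nat_lit 76) (nat_lit 52557160159) (nat_lit 76)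 (nat_lit 50312632433) (nat_lit 1) (nat_lit 4) (nat_lit 2) (nat_lit 5) (nat_lit 2) (nat_lit 4) (nat_lit 302) (nat_lit 248) (nat_lit 230)) (XT.nd (nat_lit 78) (nat_lit 0) (nat_lit 0) (XT.lf (nat_lit 0) (nat_lit 301725324182) (nat_lit 76) (nat_lit 55957483700) (nat_lit 76) (nat_lit 53687219464) (nat_lit 1) (nat_lit 4) (nat_lit 2) (nat_lit 5) (nat_lit 2) (nat_lit 4) (nat_lit 303) (nat_lit 248) (nat_lit 229)) (XT.lf (nat_lit 0) (nat_lit 355160063665) (nat_lit 76) (nat_lit 59938333059) (nat_lit 76) (nat_lit 57645689248) (nat_lit 1) (nat_lit 4) (nat_lit 2) (nat_lit 5) (nat_lit 2) (nat_lit 4) (nat_lit 304) (nat_lit 248) (nat_lit 228)))))) (XT.nd (nat_lit 468) (nat_lit 0) (nat_lit 0) (XT.nd (nat_lit 234) (nat_lit 0) (nat_lit 0) (XT.nd (nat_lit 78) (nat_lit 0) (nat_lit 0) (XT.lf (nat_lit 0) (nat_lit 416486188641) (nat_lit 76) (nat_lit 64577594418) (nat_lit 76) (nat_lit 62265490107) (nat_lit 1) (nat_lit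 4) (nat_lit 2) (nat_lit 5) (nat_lit 2) (nat_lit 4) (nat_lit 305) (nat_lit 248) (nat_lit 227)) (XT.nd (nat_lit 78) (nat_lit 0) (nat_lit 0) (XT.lf (nat_lit 0) (nat_lit 486903558077) (nat_lit 76) (nat_lit 69966035934) (nat_lit 76) (nat_lit 67637009449) (nat_lit 1) (nat_lit 4) (nat_lit 2) (nat_lit 5) (nat_lit 2) (nat_lit 4) (nat_lit 306) (nat_lit 248) (nat_lit 226)) (XT.lf (nat_lit 0) (nat_lit 567789903114) (nat_lit 76) (nat_lit 76209083637) (nat_lit 76) (nat_lit 73865342219) (nat_lit 1) (nat_lit 4) (nat_lit 2) (nat_lit 5) (nat_lit 2) (nat_lit 4) (nat_lit 307) (nat_lit 248) (nat_lit 225)))) (XT.nd (nat_lit 78) (nat_lit 0) (nat_lit 0) (XT.lf (nat_lit 0) (nat_lit 660727782676) (nat_lit 76) (nat_lit 83428884112) (nat_lit 76) (nat_lit 81072347100) (nat_lit 1) (nat_lit 4) (nat_lit 2) (nat_lit 5) (nat_lit 2) (nat_lit 4) (nat_lit 308) (nat_lit 248) (nat_lit 224)) (XT.nd (nat_lit 78) (nat_lit 0) (nat_lit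 0) (XT.lf (nat_lit 0) (nat_lit 767535546582) (nat_lit 76) (nat_lit 91766694326) (nat_lit 76) (nat_lit 89399030709) (nat_lit 1) (nat_lit 4) (nat_lit 2) (nat_lit 5) (nat_lit 2) (nat_lit 4) (nat_lit 309) (nat_lit 248) (nat_lit 223)) (XT.lf (nat_lit 0) (nat_lit 890302911951) (nat_lit 76) (nat_lit 101385645347) (nat_lit 76) (nat_lit 99008306422) (nat_lit 1) (nat_lit 4) (nat_lit 2) (nat_lit 5) (nat_lit 2) (nat_lit 4) (nat_lit 310) (nat_lit 248) (nat_lit 222))))) (XT.nd (nat_lit 234) (nat_lit 0) (nat_lit 0) (XT.nd (nat_lit 78) (nat_lit 0) (nat_lit 0) (XT.lf (nat_lit 0) (nat_lit 1031431848975) (nat_lit 76) (nat_lit 112473934043) (nat_lit 76) (nat_lit 110088181808) (nat_lit 1) (nat_lit 4) (nat_lit 2) (nat_lit 5) (nat_lit 2) (nat_lit 4) (nat_lit 311) (nat_lit 248) (nat_lit 221)) (XT.nd (nat_lit 78) (nat_lit 0) (nat_lit 0) (XT.lf (nat_lit 0) (nat_lit 1193683575986) (nat_lit 76) (nat_lit 125248505194)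 (nat_lit 76) (nat_lit 122855437036) (nat_lit 1) (nat_lit 4) (nat_lit 2) (nat_lit 5) (nat_lit 2) (nat_lit 4) (nat_lit 312) (nat_lit 248) (nat_lit 220)) (XT.lf (nat_lit 0) (nat_lit 1380232583298) (nat_lit 76) (nat_lit 139959296060) (nat_lit 76) (nat_lit 137559866230) (nat_lit 1) (nat_lit 4) (nat_lit 2) (nat_lit 5) (nat_lit 2) (nat_lit 4) (nat_lit 313) (nat_lit 248) (nat_lit 219)))) (XT.nd (nat_lit 78) (nat_lit 0) (nat_lit 0) (XT.lf (nat_lit 0) (nat_lit 1594728742790) (nat_lit 76) (nat_lit 156894126464) (nat_lit 76) (nat_lit 154489164745) (nat_lit 1) (nat_lit 4) (nat_lit 2) (nat_lit 5) (nat_lit 2) (nat_lit 4) (nat_lit 314) (nat_lit 248) (nat_lit 218)) (XT.nd (nat_lit 78) (nat_lit 0) (nat_lit 0) (XT.lf (nat_lit 0) (nat_lit 1841368718454) (nat_lit 76) (nat_lit 176384330043) (nat_lit 76) (nat_lit 173974557987) (nat_lit 1) (nat_lit 4) (nat_lit 2) (nat_lit 5) (nat_lit 2) (nat_lit 4) (nat_lit 315)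 (nat_lit 248) (nat_lit 217)) (XT.lf (nat_lit 0) (nat_lit 2124978075031) (nat_lit 76) (nat_lit 198811236868) (nat_lit 76) (nat_lit 196397281909) (nat_lit 1) (nat_lit 4) (nat_lit 2) (nat_lit 5) (nat_lit 2) (nat_lit 4) (nat_lit 316) (nat_lit 248) (nat_lit 216))))))) (XT.nd (nat_lit 37986) (nat_lit 0) (nat_lit 0) (XT.nd (nat_lit 468) (nat_lit 0) (nat_lit 0) (XT.nd (nat_lit 234) (nat_lit 0) (nat_lit 0) (XT.nd (nat_lit 78) (nat_lit 0) (nat_lit 0) (XT.lf (nat_lit 0) (nat_lit 2451105691236) (nat_lit 76) (nat_lit 224613634245) (nat_lit 76) (nat_lit 222196041980) (nat_lit 1) (nat_lit 4) (nat_lit 2) (nat_lit 5) (nat_lit 2) (nat_lit 4) (nat_lit 317) (nat_lit 248) (nat_lit 215)) (XT.nd (nat_lit 78) (nat_lit 0) (nat_lit 0) (XT.lf (nat_lit 0) (nat_lit 2826132324777) (nat_lit 76) (nat_lit 254296351690) (nat_lit 76) (nat_lit 251875596549) (nat_lit 1) (nat_lit 4) (nat_lit 2) (nat_lit 5) (nat_lit 2) (nat_lit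 4) (nat_lit 318) (nat_lit 248) (nat_lit 214)) (XT.lf (nat_lit 0) (nat_lit 3257395453269) (nat_lit 76) (nat_lit 288440138021) (nat_lit 76) (nat_lit 286016632554) (nat_lit 1) (nat_lit 4) (nat_lit 2) (nat_lit 5) (nat_lit 2) (nat_lit 4) (nat_lit 319) (nat_lit 248) (nat_lit 213)))) (XT.nd (nat_lit 78) (nat_lit 0) (nat_lit 0) (XT.lf (nat_lit 0) (nat_lit 3753332833571) (nat_lit 76) (nat_lit 327713023840) (nat_lit 76) (nat_lit 325287126785) (nat_lit 1) (nat_lit 4) (nat_lit 2) (nat_lit 5) (nat_lit 2) (nat_lit 4) (nat_lit 320) (nat_lit 248) (nat_lit 212)) (XT.nd (nat_lit 78) (nat_lit 0) (nat_lit 0) (XT.lf (nat_lit 0) (nat_lit 4323647588343) (nat_lit 76) (nat_lit 372883391697) (nat_lit 76) (nat_lit 370455415000) (nat_lit 1) (nat_lit 4) (nat_lit 2) (nat_lit 5) (nat_lit 2) (nat_lit 4) (nat_lit 321) (nat_lit 248) (nat_lit 211)) (XT.lf (nat_lit 0) (nat_lit 4979498049743) (nat_lit 76) (nat_lit 424835009658)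 (nat_lit 76) (nat_lit 422405224576) (nat_lit 1) (nat_lit 4) (nat_lit 2) (nat_lit 5) (nat_lit 2) (nat_lit 4) (nat_lit 322) (nat_lit 248) (nat_lit 210))))) (XT.nd (nat_lit 234) (nat_lit 0) (nat_lit 0) (XT.nd (nat_lit 78) (nat_lit 0) (nat_lit 0) (XT.lf (nat_lit 0) (nat_lit 5733716074624) (nat_lit 76) (nat_lit 484584322422) (nat_lit 76) (nat_lit 482152964832) (nat_lit 1) (nat_lit 4) (nat_lit 2) (nat_lit 5) (nat_lit 2) (nat_lit 4) (nat_lit 323) (nat_lit 248) (nat_lit 209)) (XT.nd (nat_lit 78) (nat_lit 0) (nat_lit 0) (XT.lf (nat_lit 0) (nat_lit 6601058102604) (nat_lit 76) (nat_lit 553300338282) (nat_lit 76) (nat_lit 550867613294) (nat_lit 1) (nat_lit 4) (nat_lit 2) (nat_lit 5) (nat_lit 2) (nat_lit 4) (nat_lit 324) (nat_lit 248) (nat_lit 208)) (XT.lf (nat_lit 0) (nat_lit 7598493869012) (nat_lit 76) (nat_lit 632327501027) (nat_lit 76) (nat_lit 629893586998) (nat_lit 1) (nat_lit 4) (nat_lit 2)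 (nat_lit 5) (nat_lit 2) (nat_lit 4) (nat_lit 325) (nat_lit 248) (nat_lit 207)))) (XT.nd (nat_lit 78) (nat_lit 0) (nat_lit 0) (XT.lf (nat_lit 0) (nat_lit 8745538421453) (nat_lit 76) (nat_lit 723211994276) (nat_lit 76) (nat_lit 720777046297) (nat_lit 1) (nat_lit 4) (nat_lit 2) (nat_lit 5) (nat_lit 2) (nat_lit 4) (nat_lit 326) (nat_lit 248) (nat_lit 206)) (XT.nd (nat_lit 37128) (nat_lit 0) (nat_lit 456) (XT.lf (nat_lit 0) (nat_lit 10064633935952) (nat_lit 76) (nat_lit 827731992897) (nat_lit 76) (nat_lit 825296145832) (nat_lit 1) (nat_lit 4) (nat_lit 2) (nat_lit 5) (nat_lit 2) (nat_lit 4) (nat_lit 327) (nat_lit 248) (nat_lit 205)) (XT.lf (nat_lit 0) (nat_lit 9676614175) (nat_lit 76) (nat_lit 1594183996) (nat_lit 76) (nat_lit 1594183996) (nat_lit 7) (nat_lit 4) (nat_lit 8) (nat_lit 5) (nat_lit 8) (nat_lit 4) (nat_lit 282) (nat_lit 249) (nat_lit 249)))))) (XT.nd (nat_lit 468) (nat_lit 76) (nat_lit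 0) (XT.nd (nat_lit 234) (nat_lit 152) (nat_lit 0) (XT.nd (nat_lit 78) (nat_lit 76) (nat_lit 0) (XT.lf (nat_lit 0) (nat_lit 5702328727) (nat_lit 152) (nat_lit 17812764951) (nat_lit 0) (nat_lit 5306750489) (nat_lit 5) (nat_lit 5) (nat_lit 7) (nat_lit 4) (nat_lit 5) (nat_lit 4) (nat_lit 283) (nat_lit 249) (nat_lit 248)) (XT.nd (nat_lit 78) (nat_lit 76) (nat_lit 0) (XT.lf (nat_lit 0) (nat_lit 15178939123) (nat_lit 152) (nat_lit 2797565962) (nat_lit 0) (nat_lit 14439379808) (nat_lit 5) (nat_lit 5) (nat_lit 7) (nat_lit 4) (nat_lit 5) (nat_lit 4) (nat_lit 284) (nat_lit 249) (nat_lit 247)) (XT.lf (nat_lit 0) (nat_lit 13728267079) (nat_lit 76) (nat_lit 11945958459) (nat_lit 76) (nat_lit 10907285164) (nat_lit 4) (nat_lit 4) (nat_lit 5) (nat_lit 5) (nat_lit 5) (nat_lit 4) (nat_lit 285) (nat_lit 249) (nat_lit 246)))) (XT.nd (nat_lit 78) (nat_lit 152) (nat_lit 0) (XT.lf (nat_lit 0) (nat_lit 31594903899)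 (nat_lit 76) (nat_lit 5561529617) (nat_lit 76) (nat_lit 4262757210) (nat_lit 4) (nat_lit 4) (nat_lit 5) (nat_lit 5) (nat_lit 5) (nat_lit 4) (nat_lit 286) (nat_lit 249) (nat_lit 245)) (XT.nd (nat_lit 78) (nat_lit 0) (nat_lit 0) (XT.lf (nat_lit 0) (nat_lit 2745297811) (nat_lit 152) (nat_lit 42934723121) (nat_lit 0) (nat_lit 1333311192) (nat_lit 2) (nat_lit 5) (nat_lit 4) (nat_lit 4) (nat_lit 2) (nat_lit 4) (nat_lit 287) (nat_lit 249) (nat_lit 244)) (XT.lf (nat_lit 0) (nat_lit 10449239164) (nat_lit 152) (nat_lit 34141737328) (nat_lit 0) (nat_lit 8855148566) (nat_lit 2) (nat_lit 5) (nat_lit 4) (nat_lit 4) (nat_lit 2) (nat_lit 4) (nat_lit 288) (nat_lit 249) (nat_lit 243))))) (XT.nd (nat_lit 234) (nat_lit 76) (nat_lit 0) (XT.nd (nat_lit 78) (nat_lit 0) (nat_lit 0) (XT.lf (nat_lit 0) (nat_lit 18824105312) (nat_lit 152) (nat_lit 24986975828) (nat_lit 0) (nat_lit 17071663429) (nat_lit 2) (nat_lit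 5) (nat_lit 4) (nat_lit 4) (nat_lit 2) (nat_lit 4) (nat_lit 289) (nat_lit 249) (nat_lit 242)) (XT.nd (nat_lit 78) (nat_lit 0) (nat_lit 0) (XT.lf (nat_lit 0) (nat_lit 28033752333) (nat_lit 152) (nat_lit 15291323721) (nat_lit 0) (nat_lit 26143613680) (nat_lit 2) (nat_lit 5) (nat_lit 4) (nat_lit 4) (nat_lit 2) (nat_lit 4) (nat_lit 290) (nat_lit 249) (nat_lit 241)) (XT.lf (nat_lit 0) (nat_lit 38258368973) (nat_lit 152) (nat_lit 4865083468) (nat_lit 0) (nat_lit 36248493997) (nat_lit 2) (nat_lit 5) (nat_lit 4) (nat_lit 4) (nat_lit 2) (nat_lit 4) (nat_lit 291) (nat_lit 249) (nat_lit 240)))) (XT.nd (nat_lit 156) (nat_lit 0) (nat_lit 0) (XT.nd (nat_lit 78) (nat_lit 0) (nat_lit 0) (XT.lf (nat_lit 0) (nat_lit 6837790567) (nat_lit 76) (nat_lit 43024660539) (nat_lit 76) (nat_lit 40910667022) (nat_lit 1) (nat_lit 4) (nat_lit 2) (nat_lit 5) (nat_lit 2) (nat_lit 4) (nat_lit 292) (nat_lit 249) (nat_lit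 239)) (XT.lf (nat_lit 0) (nat_lit 20014626019) (nat_lit 76) (nat_lit 43043196776) (nat_lit 76) (nat_lit 40838665397) (nat_lit 1) (nat_lit 4) (nat_lit 2) (nat_lit 5) (nat_lit 2) (nat_lit 4) (nat_lit 293) (nat_lit 249) (nat_lit 238))) (XT.nd (nat_lit 78) (nat_lit 0) (nat_lit 0) (XT.lf (nat_lit 0) (nat_lit 34667043865) (nat_lit 76) (nat_lit 43312443821) (nat_lit 76) (nat_lit 41029183867) (nat_lit 1) (nat_lit 4) (nat_lit 2) (nat_lit 5) (nat_lit 2) (nat_lit 4) (nat_lit 294) (nat_lit 249) (nat_lit 237)) (XT.lf (nat_lit 0) (nat_lit 51081721845) (nat_lit 76) (nat_lit 43837669552) (nat_lit 76) (nat_lit 41485949968) (nat_lit 1) (nat_lit 4) (nat_lit 2) (nat_lit 5) (nat_lit 2) (nat_lit 4) (nat_lit 295) (nat_lit 249) (nat_lit 236))))))))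
noncomputable def xc11 : XT := (XT.nd (nat_lit 1872) (nat_lit 0) (nat_lit 0) (XT.nd (nat_lit 936) (nat_lit 0) (nat_lit 0) (XT.nd (nat_lit 468) (nat_lit 0) (nat_lit 0) (XT.nd (nat_lit 234) (nat_lit 0) (nat_lit 0) (XT.nd (nat_lit 78) (nat_lit 0) (nat_lit 0) (XT.lf (nat_lit 0) (nat_lit 69579816702) (nat_lit 76) (nat_lit 44629150124) (nat_lit 76) (nat_lit 42217900426) (nat_lit 1) (nat_lit 4) (nat_lit 2) (nat_lit 5) (nat_lit 2) (nat_lit 4) (nat_lit 296) (nat_lit 249) (nat_lit 235)) (XT.nd (nat_lit 78) (nat_lit 0) (nat_lit 0) (XT.lf (nat_lit 0) (nat_lit 90523247683) (nat_lit 76) (nat_lit 45702371026) (nat_lit 76) (nat_lit 43239356012) (nat_lit 1) (nat_lit 4) (nat_lit 2) (nat_lit 5) (nat_lit 2) (nat_lit 4) (nat_lit 297) (nat_lit 249) (nat_lit 234)) (XT.lf (nat_lit 0) (nat_lit 114321777569) (nat_lit 76) (nat_lit 47078330059) (nat_lit 76) (nat_lit 44570301727) (nat_lit 1) (nat_lit 4) (nat_lit 2)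 (nat_lit 5) (nat_lit 2) (nat_lit 4) (nat_lit 298) (nat_lit 249) (nat_lit 233)))) (XT.nd (nat_lit 78) (nat_lit 0) (nat_lit 0) (XT.lf (nat_lit 0) (nat_lit 141441029770) (nat_lit 76) (nat_lit 48783948161) (nat_lit 76) (nat_lit 46236777813) (nat_lit 1) (nat_lit 4) (nat_lit 2) (nat_lit 5) (nat_lit 2) (nat_lit 4) (nat_lit 299) (nat_lit 249) (nat_lit 232)) (XT.nd (nat_lit 78) (nat_lit 0) (nat_lit 0) (XT.lf (nat_lit 0) (nat_lit 172411598350) (nat_lit 76) (nat_lit 50852596120) (nat_lit 76) (nat_lit 48271389236) (nat_lit 1) (nat_lit 4) (nat_lit 2) (nat_lit 5) (nat_lit 2) (nat_lit 4) (nat_lit 300) (nat_lit 249) (nat_lit 231)) (XT.lf (nat_lit 0) (nat_lit 207839429217) (nat_lit 76) (nat_lit 53324747484) (nat_lit 76) (nat_lit 50713943612) (nat_lit 1) (nat_lit 4) (nat_lit 2) (nat_lit 5) (nat_lit 2) (nat_lit 4) (nat_lit 301) (nat_lit 249) (nat_lit 230))))) (XT.nd (nat_lit 234) (nat_lit 0) (nat_lit 0)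 (XT.nd (nat_lit 78) (nat_lit 0) (nat_lit 0) (XT.lf (nat_lit 0) (nat_lit 248417675584) (nat_lit 76) (nat_lit 56248770430) (nat_lit 76) (nat_lit 53612230048) (nat_lit 1) (nat_lit 4) (nat_lit 2) (nat_lit 5) (nat_lit 2) (nat_lit 4) (nat_lit 302) (nat_lit 249) (nat_lit 229)) (XT.nd (nat_lit 78) (nat_lit 0) (nat_lit 0) (XT.lf (nat_lit 0) (nat_lit 294940259662) (nat_lit 76) (nat_lit 59681874105) (nat_lit 76) (nat_lit 57022954147) (nat_lit 1) (nat_lit 4) (nat_lit 2) (nat_lit 5) (nat_lit 2) (nat_lit 4) (nat_lit 303) (nat_lit 249) (nat_lit 228)) (XT.lf (nat_lit 0) (nat_lit 348317405923) (nat_lit 76) (nat_lit 63691227927) (nat_lit 76) (nat_lit 61012847470) (nat_lit 1) (nat_lit 4) (nat_lit 2) (nat_lit 5) (nat_lit 2) (nat_lit 4) (nat_lit 304) (nat_lit 249) (nat_lit 227)))) (XT.nd (nat_lit 78) (nat_lit 0) (nat_lit 0) (XT.lf (nat_lit 0) (nat_lit 409593449835) (nat_lit 76) (nat_lit 68355275776) (nat_lit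 76) (nat_lit 65659973145) (nat_lit 1) (nat_lit 4) (nat_lit 2) (nat_lit 5) (nat_lit 2) (nat_lit 4) (nat_lit 305) (nat_lit 249) (nat_lit 226)) (XT.nd (nat_lit 78) (nat_lit 0) (nat_lit 0) (XT.lf (nat_lit 0) (nat_lit 479967270520) (nat_lit 76) (nat_lit 73765270761) (nat_lit 76) (nat_lit 71055253197) (nat_lit 1) (nat_lit 4) (nat_lit 2) (nat_lit 5) (nat_lit 2) (nat_lit 4) (nat_lit 306) (nat_lit 249) (nat_lit 225)) (XT.lf (nat_lit 0) (nat_lit 560815747078) (nat_lit 76) (nat_lit 80027060612) (nat_lit 76) (nat_lit 77304247453) (nat_lit 1) (nat_lit 4) (nat_lit 2) (nat_lit 5) (nat_lit 2) (nat_lit 4) (nat_lit 307) (nat_lit 249) (nat_lit 224)))))) (XT.nd (nat_lit 468) (nat_lit 0) (nat_lit 0) (XT.nd (nat_lit 234) (nat_lit 0) (nat_lit 0) (XT.nd (nat_lit 78) (nat_lit 0) (nat_lit 0) (XT.lf (nat_lit 0) (nat_lit 653720697528) (nat_lit 76) (nat_lit 87263158606) (nat_lit 76) (nat_lit 84529218844) (nat_lit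 1) (nat_lit 4) (nat_lit 2) (nat_lit 5) (nat_lit 2) (nat_lit 4) (nat_lit 308) (nat_lit 249) (nat_lit 223)) (XT.nd (nat_lit 78) (nat_lit 0) (nat_lit 0) (XT.lf (nat_lit 0) (nat_lit 760499827423) (nat_lit 76) (nat_lit 95615140576) (nat_lit 76) (nat_lit 92871525505) (nat_lit 1) (nat_lit 4) (nat_lit 2) (nat_lit 5) (nat_lit 2) (nat_lit 4) (nat_lit 309) (nat_lit 249) (nat_lit 222)) (XT.lf (nat_lit 0) (nat_lit 883242293653) (nat_lit 76) (nat_lit 105246414863) (nat_lit 76) (nat_lit 102494386481) (nat_lit 1) (nat_lit 4) (nat_lit 2) (nat_lit 5) (nat_lit 2) (nat_lit 4) (nat_lit 310) (nat_lit 249) (nat_lit 221)))) (XT.nd (nat_lit 78) (nat_lit 0) (nat_lit 0) (XT.lf (nat_lit 0) (nat_lit 1024349579251) (nat_lit 76) (nat_lit 116345419443) (nat_lit 76) (nat_lit 113586075139) (nat_lit 1) (nat_lit 4) (nat_lit 2) (nat_lit 5) (nat_lit 2) (nat_lit 4) (nat_lit 311) (nat_lit 249) (nat_lit 220)) (XT.nd (nat_lit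 78) (nat_lit 0) (nat_lit 0) (XT.lf (nat_lit 0) (nat_lit 1186582478936) (nat_lit 76) (nat_lit 129129308753) (nat_lit 76) (nat_lit 126363602777) (nat_lit 1) (nat_lit 4) (nat_lit 2) (nat_lit 5) (nat_lit 2) (nat_lit 4) (nat_lit 312) (nat_lit 249) (nat_lit 219)) (XT.lf (nat_lit 0) (nat_lit 1373115114658) (nat_lit 76) (nat_lit 143848202367) (nat_lit 76) (nat_lit 141076964503) (nat_lit 1) (nat_lit 4) (nat_lit 2) (nat_lit 5) (nat_lit 2) (nat_lit 4) (nat_lit 313) (nat_lit 249) (nat_lit 218))))) (XT.nd (nat_lit 234) (nat_lit 0) (nat_lit 0) (XT.nd (nat_lit 78) (nat_lit 0) (nat_lit 0) (XT.lf (nat_lit 0) (nat_lit 1587597037987) (nat_lit 76) (nat_lit 160790078639) (nat_lit 76) (nat_lit 158014030436) (nat_lit 1) (nat_lit 4) (nat_lit 2) (nat_lit 5) (nat_lit 2) (nat_lit 4) (nat_lit 314) (nat_lit 249) (nat_lit 217)) (XT.nd (nat_lit 78) (nat_lit 0) (nat_lit 0) (XT.lf (nat_lit 0) (nat_lit 1834224634378) (nat_lit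 76) (nat_lit 180286409059) (nat_lit 76) (nat_lit 177506177954) (nat_lit 1) (nat_lit 4) (nat_lit 2) (nat_lit 5) (nat_lit 2) (nat_lit 4) (nat_lit 315) (nat_lit 249) (nat_lit 216)) (XT.lf (nat_lit 0) (nat_lit 2117823226369) (nat_lit 76) (nat_lit 202718643572) (nat_lit 76) (nat_lit 199934775160) (nat_lit 1) (nat_lit 4) (nat_lit 2) (nat_lit 5) (nat_lit 2) (nat_lit 4) (nat_lit 316) (nat_lit 249) (nat_lit 215)))) (XT.nd (nat_lit 78) (nat_lit 0) (nat_lit 0) (XT.lf (nat_lit 0) (nat_lit 2443941482066) (nat_lit 76) (nat_lit 228525673721) (nat_lit 76) (nat_lit 225738642434) (nat_lit 1) (nat_lit 4) (nat_lit 2) (nat_lit 5) (nat_lit 2) (nat_lit 4) (nat_lit 317) (nat_lit 249) (nat_lit 214)) (XT.nd (nat_lit 78) (nat_lit 0) (nat_lit 0) (XT.lf (nat_lit 0) (nat_lit 2818959976034) (nat_lit 76) (nat_lit 258212419664) (nat_lit 76) (nat_lit 255422638050) (nat_lit 1) (nat_lit 4) (nat_lit 2) (nat_lit 5) (nat_lit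 2) (nat_lit 4) (nat_lit 318) (nat_lit 249) (nat_lit 213)) (XT.lf (nat_lit 0) (nat_lit 3250216026636) (nat_lit 76) (nat_lit 292359709036) (nat_lit 76) (nat_lit 289567535834) (nat_lit 1) (nat_lit 4) (nat_lit 2) (nat_lit 5) (nat_lit 2) (nat_lit 4) (nat_lit 319) (nat_lit 249) (nat_lit 212))))))) (XT.nd (nat_lit 37830) (nat_lit 0) (nat_lit 0) (XT.nd (nat_lit 468) (nat_lit 0) (nat_lit 0) (XT.nd (nat_lit 234) (nat_lit 0) (nat_lit 0) (XT.nd (nat_lit 78) (nat_lit 0) (nat_lit 0) (XT.lf (nat_lit 0) (nat_lit 3746147252252) (nat_lit 76) (nat_lit 331635640978) (nat_lit 76) (nat_lit 328841388135) (nat_lit 1) (nat_lit 4) (nat_lit 2) (nat_lit 5) (nat_lit 2) (nat_lit 4) (nat_lit 320) (nat_lit 249) (nat_lit 211)) (XT.nd (nat_lit 78) (nat_lit 0) (nat_lit 0) (XT.lf (nat_lit 0) (nat_lit 4316456655122) (nat_lit 76) (nat_lit 376808657638) (nat_lit 76) (nat_lit 374012596410) (nat_lit 1) (nat_lit 4) (nat_lit 2)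 (nat_lit 5) (nat_lit 2) (nat_lit 4) (nat_lit 321) (nat_lit 249) (nat_lit 210)) (XT.lf (nat_lit 0) (nat_lit 4972302462695) (nat_lit 76) (nat_lit 428762578905) (nat_lit 76) (nat_lit 425964945169) (nat_lit 1) (nat_lit 4) (nat_lit 2) (nat_lit 5) (nat_lit 2) (nat_lit 4) (nat_lit 322) (nat_lit 249) (nat_lit 209)))) (XT.nd (nat_lit 78) (nat_lit 0) (nat_lit 0) (XT.lf (nat_lit 0) (nat_lit 5726516440770) (nat_lit 76) (nat_lit 488513894544) (nat_lit 76) (nat_lit 485714893410) (nat_lit 1) (nat_lit 4) (nat_lit 2) (nat_lit 5) (nat_lit 2) (nat_lit 4) (nat_lit 323) (nat_lit 249) (nat_lit 208)) (XT.nd (nat_lit 78) (nat_lit 0) (nat_lit 0) (XT.lf (nat_lit 0) (nat_lit 6593854949788) (nat_lit 76) (nat_lit 557231652035) (nat_lit 76) (nat_lit 554431461859) (nat_lit 1) (nat_lit 4) (nat_lit 2) (nat_lit 5) (nat_lit 2) (nat_lit 4) (nat_lit 324) (nat_lit 249) (nat_lit 207)) (XT.lf (nat_lit 0) (nat_lit 7591287656229)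 (nat_lit 76) (nat_lit 636260329242) (nat_lit 76) (nat_lit 633459105116) (nat_lit 1) (nat_lit 4) (nat_lit 2) (nat_lit 5) (nat_lit 2) (nat_lit 4) (nat_lit 325) (nat_lit 249) (nat_lit 206))))) (XT.nd (nat_lit 37128) (nat_lit 0) (nat_lit 304) (XT.nd (nat_lit 78) (nat_lit 0) (nat_lit 0) (XT.lf (nat_lit 0) (nat_lit 8738329547829) (nat_lit 76) (nat_lit 727146139414) (nat_lit 76) (nat_lit 724344016202) (nat_lit 1) (nat_lit 4) (nat_lit 2) (nat_lit 5) (nat_lit 2) (nat_lit 4) (nat_lit 326) (nat_lit 249) (nat_lit 205)) (XT.nd (nat_lit 36972) (nat_lit 0) (nat_lit 532) (XT.lf (nat_lit 0) (nat_lit 10057422748554) (nat_lit 76) (nat_lit 831667283185) (nat_lit 76) (nat_lit 828864378159) (nat_lit 1) (nat_lit 4) (nat_lit 2) (nat_lit 5) (nat_lit 2) (nat_lit 4) (nat_lit 327) (nat_lit 249) (nat_lit 204)) (XT.lf (nat_lit 0) (nat_lit 1126743440) (nat_lit 152) (nat_lit 8120930302) (nat_lit 0) (nat_lit 1126743440)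 (nat_lit 8) (nat_lit 5) (nat_lit 10) (nat_lit 4) (nat_lit 8) (nat_lit 4) (nat_lit 280) (nat_lit 250) (nat_lit 250)))) (XT.nd (nat_lit 78) (nat_lit 152) (nat_lit 0) (XT.lf (nat_lit 0) (nat_lit 278085910) (nat_lit 76) (nat_lit 11639418660) (nat_lit 76) (nat_lit 11148110489) (nat_lit 7) (nat_lit 4) (nat_lit 8) (nat_lit 5) (nat_lit 8) (nat_lit 4) (nat_lit 281) (nat_lit 250) (nat_lit 249)) (XT.nd (nat_lit 78) (nat_lit 152) (nat_lit 0) (XT.lf (nat_lit 0) (nat_lit 18565094621) (nat_lit 76) (nat_lit 4058171025) (nat_lit 76) (nat_lit 3139638356) (nat_lit 7) (nat_lit 4) (nat_lit 8) (nat_lit 5) (nat_lit 8) (nat_lit 4) (nat_lit 282) (nat_lit 250) (nat_lit 248)) (XT.lf (nat_lit 0) (nat_lit 5314315903) (nat_lit 152) (nat_lit 19455412663) (nat_lit 0) (nat_lit 4119841614) (nat_lit 5) (nat_lit 5) (nat_lit 7) (nat_lit 4) (nat_lit 5) (nat_lit 4) (nat_lit 283) (nat_lit 250) (nat_lit 247)))))) (XT.nd (nat_lit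 468) (nat_lit 76) (nat_lit 0) (XT.nd (nat_lit 234) (nat_lit 152) (nat_lit 0) (XT.nd (nat_lit 78) (nat_lit 76) (nat_lit 0) (XT.lf (nat_lit 0) (nat_lit 14450005045) (nat_lit 152) (nat_lit 5104580797) (nat_lit 0) (nat_lit 12956416777) (nat_lit 5) (nat_lit 5) (nat_lit 7) (nat_lit 4) (nat_lit 5) (nat_lit 4) (nat_lit 284) (nat_lit 250) (nat_lit 246)) (XT.nd (nat_lit 78) (nat_lit 0) (nat_lit 0) (XT.lf (nat_lit 0) (nat_lit 10691637176) (nat_lit 76) (nat_lit 13884169998) (nat_lit 76) (nat_lit 12130482617) (nat_lit 4) (nat_lit 4) (nat_lit 5) (nat_lit 5) (nat_lit 5) (nat_lit 4) (nat_lit 285) (nat_lit 250) (nat_lit 245)) (XT.lf (nat_lit 0) (nat_lit 28029463775) (nat_lit 76) (nat_lit 7758048033) (nat_lit 76) (nat_lit 5778187510) (nat_lit 4) (nat_lit 4) (nat_lit 5) (nat_lit 5) (nat_lit 5) (nat_lit 4) (nat_lit 286) (nat_lit 250) (nat_lit 244)))) (XT.nd (nat_lit 78) (nat_lit 76) (nat_lit 0) (XT.lf (nat_lit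 0) (nat_lit 931549735) (nat_lit 152) (nat_lit 238909369) (nat_lit 76) (nat_lit 46022299210) (nat_lit 3) (nat_lit 5) (nat_lit 5) (nat_lit 5) (nat_lit 4) (nat_lit 4) (nat_lit 287) (nat_lit 250) (nat_lit 243)) (XT.nd (nat_lit 78) (nat_lit 0) (nat_lit 0) (XT.lf (nat_lit 0) (nat_lit 8375709844) (nat_lit 152) (nat_lit 39068635987) (nat_lit 0) (nat_lit 6202050392) (nat_lit 2) (nat_lit 5) (nat_lit 4) (nat_lit 4) (nat_lit 2) (nat_lit 4) (nat_lit 288) (nat_lit 250) (nat_lit 242)) (XT.lf (nat_lit 0) (nat_lit 16554553179) (nat_lit 152) (nat_lit 30301001751) (nat_lit 0) (nat_lit 14243196957) (nat_lit 2) (nat_lit 5) (nat_lit 4) (nat_lit 4) (nat_lit 2) (nat_lit 4) (nat_lit 289) (nat_lit 250) (nat_lit 241))))) (XT.nd (nat_lit 234) (nat_lit 0) (nat_lit 0) (XT.nd (nat_lit 78) (nat_lit 76) (nat_lit 0) (XT.lf (nat_lit 0) (nat_lit 25593745579) (nat_lit 152) (nat_lit 20941982049) (nat_lit 0) (nat_lit 23162653035)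 (nat_lit 2) (nat_lit 5) (nat_lit 4) (nat_lit 4) (nat_lit 2) (nat_lit 4) (nat_lit 290) (nat_lit 250) (nat_lit 240)) (XT.nd (nat_lit 78) (nat_lit 76) (nat_lit 0) (XT.lf (nat_lit 0) (nat_lit 35670140809) (nat_lit 152) (nat_lit 10808465625) (nat_lit 0) (nat_lit 33134929724) (nat_lit 2) (nat_lit 5) (nat_lit 4) (nat_lit 4) (nat_lit 2) (nat_lit 4) (nat_lit 291) (nat_lit 250) (nat_lit 239)) (XT.lf (nat_lit 0) (nat_lit 313494222) (nat_lit 76) (nat_lit 46674931054) (nat_lit 76) (nat_lit 44049182107) (nat_lit 1) (nat_lit 4) (nat_lit 2) (nat_lit 5) (nat_lit 2) (nat_lit 4) (nat_lit 292) (nat_lit 250) (nat_lit 238)))) (XT.nd (nat_lit 156) (nat_lit 0) (nat_lit 0) (XT.nd (nat_lit 78) (nat_lit 0) (nat_lit 0) (XT.lf (nat_lit 0) (nat_lit 13257332966) (nat_lit 76) (nat_lit 46808783743) (nat_lit 76) (nat_lit 44104306221) (nat_lit 1) (nat_lit 4) (nat_lit 2) (nat_lit 5) (nat_lit 2) (nat_lit 4) (nat_lit 293)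 (nat_lit 250) (nat_lit 237)) (XT.lf (nat_lit 0) (nat_lit 27707144978) (nat_lit 76) (nat_lit 47178305964) (nat_lit 76) (nat_lit 44405368812) (nat_lit 1) (nat_lit 4) (nat_lit 2) (nat_lit 5) (nat_lit 2) (nat_lit 4) (nat_lit 294) (nat_lit 250) (nat_lit 236))) (XT.nd (nat_lit 78) (nat_lit 0) (nat_lit 0) (XT.lf (nat_lit 0) (nat_lit 43945643972) (nat_lit 76) (nat_lit 47790727501) (nat_lit 76) (nat_lit 44958260235) (nat_lit 1) (nat_lit 4) (nat_lit 2) (nat_lit 5) (nat_lit 2) (nat_lit 4) (nat_lit 295) (nat_lit 250) (nat_lit 235)) (XT.lf (nat_lit 0) (nat_lit 62290539710) (nat_lit 76) (nat_lit 48658030512) (nat_lit 76) (nat_lit 45773797930) (nat_lit 1) (nat_lit 4) (nat_lit 2) (nat_lit 5) (nat_lit 2) (nat_lit 4) (nat_lit 296) (nat_lit 250) (nat_lit 234))))))))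
noncomputable def xc12 : XT := (XT.nd (nat_lit 1872) (nat_lit 0) (nat_lit 0) (XT.nd (nat_lit 936) (nat_lit 0) (nat_lit 0) (XT.nd (nat_lit 468) (nat_lit 0) (nat_lit 0) (XT.nd (nat_lit 234) (nat_lit 0) (nat_lit 0) (XT.nd (nat_lit 78) (nat_lit 0) (nat_lit 0) (XT.lf (nat_lit 0) (nat_lit 83100754067) (nat_lit 76) (nat_lit 49797183971) (nat_lit 76) (nat_lit 46867938070) (nat_lit 1) (nat_lit 4) (nat_lit 2) (nat_lit 5) (nat_lit 2) (nat_lit 4) (nat_lit 297) (nat_lit 250) (nat_lit 233)) (XT.nd (nat_lit 78) (nat_lit 0) (nat_lit 0) (XT.lf (nat_lit 0) (nat_lit 106783443409) (nat_lit 76) (nat_lit 51230475661) (nat_lit 76) (nat_lit 48262087744) (nat_lit 1) (nat_lit 4) (nat_lit 2) (nat_lit 5) (nat_lit 2) (nat_lit 4) (nat_lit 298) (nat_lit 250) (nat_lit 232)) (XT.lf (nat_lit 0) (nat_lit 133801964703) (nat_lit 76) (nat_lit 52985948248) (nat_lit 76) (nat_lit 49983523795) (nat_lit 1) (nat_lit 4) (nat_lit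 2) (nat_lit 5) (nat_lit 2) (nat_lit 4) (nat_lit 299) (nat_lit 250) (nat_lit 231)))) (XT.nd (nat_lit 78) (nat_lit 0) (nat_lit 0) (XT.lf (nat_lit 0) (nat_lit 164684941190) (nat_lit 76) (nat_lit 55097947933) (nat_lit 76) (nat_lit 52065926492) (nat_lit 1) (nat_lit 4) (nat_lit 2) (nat_lit 5) (nat_lit 2) (nat_lit 4) (nat_lit 300) (nat_lit 250) (nat_lit 230)) (XT.nd (nat_lit 78) (nat_lit 0) (nat_lit 0) (XT.lf (nat_lit 0) (nat_lit 200036605020) (nat_lit 76) (nat_lit 57607796449) (nat_lit 76) (nat_lit 54550038498) (nat_lit 1) (nat_lit 4) (nat_lit 2) (nat_lit 5) (nat_lit 2) (nat_lit 4) (nat_lit 301) (nat_lit 250) (nat_lit 229)) (XT.lf (nat_lit 0) (nat_lit 240548619181) (nat_lit 76) (nat_lit 60564599528) (nat_lit 76) (nat_lit 57484462003) (nat_lit 1) (nat_lit 4) (nat_lit 2) (nat_lit 5) (nat_lit 2) (nat_lit 4) (nat_lit 302) (nat_lit 250) (nat_lit 228))))) (XT.nd (nat_lit 234) (nat_lit 0) (nat_lit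 0) (XT.nd (nat_lit 78) (nat_lit 0) (nat_lit 0) (XT.lf (nat_lit 0) (nat_lit 287013610036) (nat_lit 76) (nat_lit 64026207666) (nat_lit 76) (nat_lit 60926609641) (nat_lit 1) (nat_lit 4) (nat_lit 2) (nat_lit 5) (nat_lit 2) (nat_lit 4) (nat_lit 303) (nat_lit 250) (nat_lit 227)) (XT.nd (nat_lit 78) (nat_lit 0) (nat_lit 0) (XT.lf (nat_lit 0) (nat_lit 340340675232) (nat_lit 76) (nat_lit 68060347978) (nat_lit 76) (nat_lit 64943827779) (nat_lit 1) (nat_lit 4) (nat_lit 2) (nat_lit 5) (nat_lit 2) (nat_lit 4) (nat_lit 304) (nat_lit 250) (nat_lit 226)) (XT.lf (nat_lit 0) (nat_lit 401573170394) (nat_lit 76) (nat_lit 72745949297) (nat_lit 76) (nat_lit 69614714164) (nat_lit 1) (nat_lit 4) (nat_lit 2) (nat_lit 5) (nat_lit 2) (nat_lit 4) (nat_lit 305) (nat_lit 250) (nat_lit 225)))) (XT.nd (nat_lit 78) (nat_lit 0) (nat_lit 0) (XT.lf (nat_lit 0) (nat_lit 471909122600) (nat_lit 76) (nat_lit 78174686430) (nat_lit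 76) (nat_lit 75030655702) (nat_lit 1) (nat_lit 4) (nat_lit 2) (nat_lit 5) (nat_lit 2) (nat_lit 4) (nat_lit 306) (nat_lit 250) (nat_lit 224)) (XT.nd (nat_lit 78) (nat_lit 0) (nat_lit 0) (XT.lf (nat_lit 0) (nat_lit 552724670046) (nat_lit 76) (nat_lit 84452773800) (nat_lit 76) (nat_lit 81297616468) (nat_lit 1) (nat_lit 4) (nat_lit 2) (nat_lit 5) (nat_lit 2) (nat_lit 4) (nat_lit 307) (nat_lit 250) (nat_lit 223)) (XT.lf (nat_lit 0) (nat_lit 645600986485) (nat_lit 76) (nat_lit 91703043550) (nat_lit 76) (nat_lit 88538210912) (nat_lit 1) (nat_lit 4) (nat_lit 2) (nat_lit 5) (nat_lit 2) (nat_lit 4) (nat_lit 308) (nat_lit 250) (nat_lit 222)))))) (XT.nd (nat_lit 468) (nat_lit 0) (nat_lit 0) (XT.nd (nat_lit 234) (nat_lit 0) (nat_lit 0) (XT.nd (nat_lit 78) (nat_lit 0) (nat_lit 0) (XT.lf (nat_lit 0) (nat_lit 752355217241) (nat_lit 76) (nat_lit 100067348786) (nat_lit 76) (nat_lit 96894102836) (nat_lit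 1) (nat_lit 4) (nat_lit 2) (nat_lit 5) (nat_lit 2) (nat_lit 4) (nat_lit 309) (nat_lit 250) (nat_lit 221)) (XT.nd (nat_lit 78) (nat_lit 0) (nat_lit 0) (XT.lf (nat_lit 0) (nat_lit 875076032044) (nat_lit 76) (nat_lit 109709338957) (nat_lit 76) (nat_lit 106528777084) (nat_lit 1) (nat_lit 4) (nat_lit 2) (nat_lit 5) (nat_lit 2) (nat_lit 4) (nat_lit 310) (nat_lit 250) (nat_lit 220)) (XT.lf (nat_lit 0) (nat_lit 1016164490315) (nat_lit 76) (nat_lit 120817661697) (nat_lit 76) (nat_lit 117630738152) (nat_lit 1) (nat_lit 4) (nat_lit 2) (nat_lit 5) (nat_lit 2) (nat_lit 4) (nat_lit 311) (nat_lit 250) (nat_lit 219)))) (XT.nd (nat_lit 78) (nat_lit 0) (nat_lit 0) (XT.lf (nat_lit 0) (nat_lit 1178381018412) (nat_lit 76) (nat_lit 133609653754) (nat_lit 76) (nat_lit 130417198321) (nat_lit 1) (nat_lit 4) (nat_lit 2) (nat_lit 5) (nat_lit 2) (nat_lit 4) (nat_lit 312) (nat_lit 250) (nat_lit 218)) (XT.nd (nat_lit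 78) (nat_lit 0) (nat_lit 0) (XT.lf (nat_lit 0) (nat_lit 1364899417971) (nat_lit 76) (nat_lit 148335593236) (nat_lit 76) (nat_lit 145138327465) (nat_lit 1) (nat_lit 4) (nat_lit 2) (nat_lit 5) (nat_lit 2) (nat_lit 4) (nat_lit 313) (nat_lit 250) (nat_lit 217)) (XT.lf (nat_lit 0) (nat_lit 1579368962026) (nat_lit 76) (nat_lit 165283596348) (nat_lit 76) (nat_lit 162082147675) (nat_lit 1) (nat_lit 4) (nat_lit 2) (nat_lit 5) (nat_lit 2) (nat_lit 4) (nat_lit 314) (nat_lit 250) (nat_lit 216))))) (XT.nd (nat_lit 234) (nat_lit 0) (nat_lit 0) (XT.nd (nat_lit 78) (nat_lit 0) (nat_lit 0) (XT.lf (nat_lit 0) (nat_lit 1825985793832) (nat_lit 76) (nat_lit 184785254457) (nat_lit 76) (nat_lit 181580168476) (nat_lit 1) (nat_lit 4) (nat_lit 2) (nat_lit 5) (nat_lit 2) (nat_lit 4) (nat_lit 315) (nat_lit 250) (nat_lit 215)) (XT.nd (nat_lit 78) (nat_lit 0) (nat_lit 0) (XT.lf (nat_lit 0) (nat_lit 2109575025315) (nat_lit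 76) (nat_lit 207222121741) (nat_lit 76) (nat_lit 204013872886) (nat_lit 1) (nat_lit 4) (nat_lit 2) (nat_lit 5) (nat_lit 2) (nat_lit 4) (nat_lit 316) (nat_lit 250) (nat_lit 214)) (XT.lf (nat_lit 0) (nat_lit 2435685141438) (nat_lit 76) (nat_lit 233033180389) (nat_lit 76) (nat_lit 229822181207) (nat_lit 1) (nat_lit 4) (nat_lit 2) (nat_lit 5) (nat_lit 2) (nat_lit 4) (nat_lit 317) (nat_lit 250) (nat_lit 213)))) (XT.nd (nat_lit 78) (nat_lit 0) (nat_lit 0) (XT.lf (nat_lit 0) (nat_lit 2810696557517) (nat_lit 76) (nat_lit 262723429372) (nat_lit 76) (nat_lit 259510038602) (nat_lit 1) (nat_lit 4) (nat_lit 2) (nat_lit 5) (nat_lit 2) (nat_lit 4) (nat_lit 318) (nat_lit 250) (nat_lit 212)) (XT.nd (nat_lit 78) (nat_lit 0) (nat_lit 0) (XT.lf (nat_lit 0) (nat_lit 3241946453432) (nat_lit 76) (nat_lit 296873764868) (nat_lit 76) (nat_lit 293658294456) (nat_lit 1) (nat_lit 4) (nat_lit 2) (nat_lit 5) (nat_lit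 2) (nat_lit 4) (nat_lit 319) (nat_lit 250) (nat_lit 211)) (XT.lf (nat_lit 0) (nat_lit 3737872327147) (nat_lit 76) (nat_lit 336152345612) (nat_lit 76) (nat_lit 332935066817) (nat_lit 1) (nat_lit 4) (nat_lit 2) (nat_lit 5) (nat_lit 2) (nat_lit 4) (nat_lit 320) (nat_lit 250) (nat_lit 210))))))) (XT.nd (nat_lit 37674) (nat_lit 0) (nat_lit 0) (XT.nd (nat_lit 468) (nat_lit 0) (nat_lit 0) (XT.nd (nat_lit 234) (nat_lit 0) (nat_lit 0) (XT.nd (nat_lit 78) (nat_lit 0) (nat_lit 0) (XT.lf (nat_lit 0) (nat_lit 4308177076190) (nat_lit 76) (nat_lit 381327665578) (nat_lit 76) (nat_lit 378108814274) (nat_lit 1) (nat_lit 4) (nat_lit 2) (nat_lit 5) (nat_lit 2) (nat_lit 4) (nat_lit 321) (nat_lit 250) (nat_lit 209)) (XT.nd (nat_lit 78) (nat_lit 0) (nat_lit 0) (XT.lf (nat_lit 0) (nat_lit 4964018836957) (nat_lit 76) (nat_lit 433283589721) (nat_lit 76) (nat_lit 430063371019) (nat_lit 1) (nat_lit 4) (nat_lit 2)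 (nat_lit 5) (nat_lit 2) (nat_lit 4) (nat_lit 322) (nat_lit 250) (nat_lit 208)) (XT.lf (nat_lit 0) (nat_lit 5718229296069) (nat_lit 76) (nat_lit 493036646991) (nat_lit 76) (nat_lit 489815239247) (nat_lit 1) (nat_lit 4) (nat_lit 2) (nat_lit 5) (nat_lit 2) (nat_lit 4) (nat_lit 323) (nat_lit 250) (nat_lit 207)))) (XT.nd (nat_lit 78) (nat_lit 0) (nat_lit 0) (XT.lf (nat_lit 0) (nat_lit 6585564745120) (nat_lit 76) (nat_lit 561755918943) (nat_lit 76) (nat_lit 558533477249) (nat_lit 1) (nat_lit 4) (nat_lit 2) (nat_lit 5) (nat_lit 2) (nat_lit 4) (nat_lit 324) (nat_lit 250) (nat_lit 206)) (XT.nd (nat_lit 78) (nat_lit 0) (nat_lit 0) (XT.lf (nat_lit 0) (nat_lit 7582994790721) (nat_lit 76) (nat_lit 640785913073) (nat_lit 76) (nat_lit 637562572293) (nat_lit 1) (nat_lit 4) (nat_lit 2) (nat_lit 5) (nat_lit 2) (nat_lit 4) (nat_lit 325) (nat_lit 250) (nat_lit 205)) (XT.lf (nat_lit 0) (nat_lit 8730034368546)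 (nat_lit 76) (nat_lit 731672868395) (nat_lit 76) (nat_lit 728448745801) (nat_lit 1) (nat_lit 4) (nat_lit 2) (nat_lit 5) (nat_lit 2) (nat_lit 4) (nat_lit 326) (nat_lit 250) (nat_lit 204))))) (XT.nd (nat_lit 36972) (nat_lit 0) (nat_lit 456) (XT.nd (nat_lit 36816) (nat_lit 0) (nat_lit 684) (XT.lf (nat_lit 0) (nat_lit 10049125557293) (nat_lit 76) (nat_lit 836195007950) (nat_lit 76) (nat_lit 832970205517) (nat_lit 1) (nat_lit 4) (nat_lit 2) (nat_lit 5) (nat_lit 2) (nat_lit 4) (nat_lit 327) (nat_lit 250) (nat_lit 203)) (XT.nd (nat_lit 78) (nat_lit 76) (nat_lit 0) (XT.lf (nat_lit 0) (nat_lit 1396448673) (nat_lit 152) (nat_lit 5709414772) (nat_lit 0) (nat_lit 1396448673) (nat_lit 11) (nat_lit 5) (nat_lit 13) (nat_lit 4) (nat_lit 11) (nat_lit 4) (nat_lit 278) (nat_lit 251) (nat_lit 251)) (XT.lf (nat_lit 0) (nat_lit 5685060661) (nat_lit 76) (nat_lit 6837100132) (nat_lit 76) (nat_lit 6226895383)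 (nat_lit 10) (nat_lit 4) (nat_lit 11) (nat_lit 5) (nat_lit 11) (nat_lit 4) (nat_lit 279) (nat_lit 251) (nat_lit 250)))) (XT.nd (nat_lit 78) (nat_lit 76) (nat_lit 0) (XT.lf (nat_lit 0) (nat_lit 2369204410) (nat_lit 152) (nat_lit 17102874905) (nat_lit 0) (nat_lit 1312891840) (nat_lit 8) (nat_lit 5) (nat_lit 10) (nat_lit 4) (nat_lit 8) (nat_lit 4) (nat_lit 280) (nat_lit 251) (nat_lit 249)) (XT.nd (nat_lit 78) (nat_lit 76) (nat_lit 0) (XT.lf (nat_lit 0) (nat_lit 11635849895) (nat_lit 152) (nat_lit 1345547461) (nat_lit 0) (nat_lit 10152312829) (nat_lit 8) (nat_lit 5) (nat_lit 10) (nat_lit 4) (nat_lit 8) (nat_lit 4) (nat_lit 281) (nat_lit 251) (nat_lit 248)) (XT.lf (nat_lit 0) (nat_lit 16185273426) (nat_lit 76) (nat_lit 5766065340) (nat_lit 76) (nat_lit 3911028711) (nat_lit 7) (nat_lit 4) (nat_lit 8) (nat_lit 5) (nat_lit 8) (nat_lit 4) (nat_lit 282) (nat_lit 251) (nat_lit 247)))))) (XT.nd (nat_lit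 468) (nat_lit 76) (nat_lit 0) (XT.nd (nat_lit 234) (nat_lit 152) (nat_lit 0) (XT.nd (nat_lit 78) (nat_lit 76) (nat_lit 0) (XT.lf (nat_lit 0) (nat_lit 4135120460) (nat_lit 152) (nat_lit 22772846846) (nat_lit 0) (nat_lit 2118379972) (nat_lit 5) (nat_lit 5) (nat_lit 7) (nat_lit 4) (nat_lit 5) (nat_lit 4) (nat_lit 283) (nat_lit 251) (nat_lit 246)) (XT.nd (nat_lit 78) (nat_lit 76) (nat_lit 0) (XT.lf (nat_lit 0) (nat_lit 12974356340) (nat_lit 152) (nat_lit 8999725522) (nat_lit 0) (nat_lit 10697516739) (nat_lit 5) (nat_lit 5) (nat_lit 7) (nat_lit 4) (nat_lit 5) (nat_lit 4) (nat_lit 284) (nat_lit 251) (nat_lit 245)) (XT.lf (nat_lit 0) (nat_lit 6062570811) (nat_lit 76) (nat_lit 16668473053) (nat_lit 76) (nat_lit 14165460310) (nat_lit 4) (nat_lit 4) (nat_lit 5) (nat_lit 5) (nat_lit 5) (nat_lit 4) (nat_lit 285) (nat_lit 251) (nat_lit 244)))) (XT.nd (nat_lit 78) (nat_lit 152) (nat_lit 0) (XT.lf (nat_lit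 0) (nat_lit 22940562435) (nat_lit 76) (nat_lit 10766965763) (nat_lit 76) (nat_lit 8067280724) (nat_lit 4) (nat_lit 4) (nat_lit 5) (nat_lit 5) (nat_lit 5) (nat_lit 4) (nat_lit 286) (nat_lit 251) (nat_lit 243)) (XT.nd (nat_lit 78) (nat_lit 152) (nat_lit 0) (XT.lf (nat_lit 0) (nat_lit 41490561326) (nat_lit 76) (nat_lit 4400164164) (nat_lit 76) (nat_lit 1529459736) (nat_lit 4) (nat_lit 4) (nat_lit 5) (nat_lit 5) (nat_lit 5) (nat_lit 4) (nat_lit 287) (nat_lit 251) (nat_lit 242)) (XT.lf (nat_lit 0) (nat_lit 5569702077) (nat_lit 152) (nat_lit 45566893064) (nat_lit 0) (nat_lit 2773945651) (nat_lit 2) (nat_lit 5) (nat_lit 4) (nat_lit 4) (nat_lit 2) (nat_lit 4) (nat_lit 288) (nat_lit 251) (nat_lit 241))))) (XT.nd (nat_lit 234) (nat_lit 76) (nat_lit 0) (XT.nd (nat_lit 78) (nat_lit 0) (nat_lit 0) (XT.lf (nat_lit 0) (nat_lit 13578090791) (nat_lit 152) (nat_lit 37135891232) (nat_lit 0) (nat_lit 10662598043)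 (nat_lit 2) (nat_lit 5) (nat_lit 4) (nat_lit 4) (nat_lit 2) (nat_lit 4) (nat_lit 289) (nat_lit 251) (nat_lit 240)) (XT.nd (nat_lit 78) (nat_lit 0) (nat_lit 0) (XT.lf (nat_lit 0) (nat_lit 22469061782) (nat_lit 152) (nat_lit 28069595360) (nat_lit 0) (nat_lit 19449450493) (nat_lit 2) (nat_lit 5) (nat_lit 4) (nat_lit 4) (nat_lit 2) (nat_lit 4) (nat_lit 290) (nat_lit 251) (nat_lit 239)) (XT.lf (nat_lit 0) (nat_lit 32416568830) (nat_lit 152) (nat_lit 18190621396) (nat_lit 0) (nat_lit 29306419680) (nat_lit 2) (nat_lit 5) (nat_lit 4) (nat_lit 4) (nat_lit 2) (nat_lit 4) (nat_lit 291) (nat_lit 251) (nat_lit 238)))) (XT.nd (nat_lit 156) (nat_lit 0) (nat_lit 0) (XT.nd (nat_lit 78) (nat_lit 76) (nat_lit 0) (XT.lf (nat_lit 0) (nat_lit 43615237073) (nat_lit 152) (nat_lit 7305685068) (nat_lit 0) (nat_lit 40426359348) (nat_lit 2) (nat_lit 5) (nat_lit 4) (nat_lit 4) (nat_lit 2) (nat_lit 4) (nat_lit 292)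 (nat_lit 251) (nat_lit 237)) (XT.lf (nat_lit 0) (nat_lit 5050843411) (nat_lit 76) (nat_lit 51354800384) (nat_lit 76) (nat_lit 48097463028) (nat_lit 1) (nat_lit 4) (nat_lit 2) (nat_lit 5) (nat_lit 2) (nat_lit 4) (nat_lit 293) (nat_lit 251) (nat_lit 236))) (XT.nd (nat_lit 78) (nat_lit 0) (nat_lit 0) (XT.lf (nat_lit 0) (nat_lit 19324476437) (nat_lit 76) (nat_lit 51811518411) (nat_lit 76) (nat_lit 48494650941) (nat_lit 1) (nat_lit 4) (nat_lit 2) (nat_lit 5) (nat_lit 2) (nat_lit 4) (nat_lit 294) (nat_lit 251) (nat_lit 235)) (XT.lf (nat_lit 0) (nat_lit 35409776313) (nat_lit 76) (nat_lit 52499762387) (nat_lit 76) (nat_lit 49131129601) (nat_lit 1) (nat_lit 4) (nat_lit 2) (nat_lit 5) (nat_lit 2) (nat_lit 4) (nat_lit 295) (nat_lit 251) (nat_lit 234))))))))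
noncomputable def xc13 : XT := (XT.nd (nat_lit 1872) (nat_lit 0) (nat_lit 0) (XT.nd (nat_lit 936) (nat_lit 0) (nat_lit 0) (XT.nd (nat_lit 468) (nat_lit 0) (nat_lit 0) (XT.nd (nat_lit 234) (nat_lit 0) (nat_lit 0) (XT.nd (nat_lit 78) (nat_lit 0) (nat_lit 0) (XT.lf (nat_lit 0) (nat_lit 53621455427) (nat_lit 76) (nat_lit 53432997954) (nat_lit 76) (nat_lit 50019351850) (nat_lit 1) (nat_lit 4) (nat_lit 2) (nat_lit 5) (nat_lit 2) (nat_lit 4) (nat_lit 296) (nat_lit 251) (nat_lit 233)) (XT.nd (nat_lit 78) (nat_lit 0) (nat_lit 0) (XT.lf (nat_lit 0) (nat_lit 74315829241) (nat_lit 76) (nat_lit 54629484070) (nat_lit 76) (nat_lit 51176695950) (nat_lit 1) (nat_lit 4) (nat_lit 2) (nat_lit 5) (nat_lit 2) (nat_lit 4) (nat_lit 297) (nat_lit 251) (nat_lit 232)) (XT.lf (nat_lit 0) (nat_lit 97897787676) (nat_lit 76) (nat_lit 56112630245) (nat_lit 76) (nat_lit 52625805589) (nat_lit 1) (nat_lit 4) (nat_lit 2)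 (nat_lit 5) (nat_lit 2) (nat_lit 4) (nat_lit 298) (nat_lit 251) (nat_lit 231)))) (XT.nd (nat_lit 78) (nat_lit 0) (nat_lit 0) (XT.lf (nat_lit 0) (nat_lit 124828716876) (nat_lit 76) (nat_lit 57911454558) (nat_lit 76) (nat_lit 54395032914) (nat_lit 1) (nat_lit 4) (nat_lit 2) (nat_lit 5) (nat_lit 2) (nat_lit 4) (nat_lit 299) (nat_lit 251) (nat_lit 230)) (XT.nd (nat_lit 78) (nat_lit 0) (nat_lit 0) (XT.lf (nat_lit 0) (nat_lit 155635526326) (nat_lit 76) (nat_lit 60061151395) (nat_lit 76) (nat_lit 56518993241) (nat_lit 1) (nat_lit 4) (nat_lit 2) (nat_lit 5) (nat_lit 2) (nat_lit 4) (nat_lit 300) (nat_lit 251) (nat_lit 229)) (XT.lf (nat_lit 0) (nat_lit 190920957950) (nat_lit 76) (nat_lit 62603780045) (nat_lit 76) (nat_lit 59039242315) (nat_lit 1) (nat_lit 4) (nat_lit 2) (nat_lit 5) (nat_lit 2) (nat_lit 4) (nat_lit 301) (nat_lit 251) (nat_lit 228))))) (XT.nd (nat_lit 234) (nat_lit 0) (nat_lit 0)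 (XT.nd (nat_lit 78) (nat_lit 0) (nat_lit 0) (XT.lf (nat_lit 0) (nat_lit 231375378887) (nat_lit 76) (nat_lit 65589087588) (nat_lit 76) (nat_lit 62005089359) (nat_lit 1) (nat_lit 4) (nat_lit 2) (nat_lit 5) (nat_lit 2) (nat_lit 4) (nat_lit 302) (nat_lit 251) (nat_lit 227)) (XT.nd (nat_lit 78) (nat_lit 0) (nat_lit 0) (XT.lf (nat_lit 0) (nat_lit 277790288678) (nat_lit 76) (nat_lit 69075482216) (nat_lit 76) (nat_lit 65474561813) (nat_lit 1) (nat_lit 4) (nat_lit 2) (nat_lit 5) (nat_lit 2) (nat_lit 4) (nat_lit 303) (nat_lit 251) (nat_lit 226)) (XT.lf (nat_lit 0) (nat_lit 331073805124) (nat_lit 76) (nat_lit 73131175997) (nat_lit 76) (nat_lit 69515540661) (nat_lit 1) (nat_lit 4) (nat_lit 2) (nat_lit 5) (nat_lit 2) (nat_lit 4) (nat_lit 304) (nat_lit 251) (nat_lit 225)))) (XT.nd (nat_lit 78) (nat_lit 0) (nat_lit 0) (XT.lf (nat_lit 0) (nat_lit 392268431807) (nat_lit 76) (nat_lit 77835519463) (nat_lit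 76) (nat_lit 74207088532) (nat_lit 1) (nat_lit 4) (nat_lit 2) (nat_lit 5) (nat_lit 2) (nat_lit 4) (nat_lit 305) (nat_lit 251) (nat_lit 224)) (XT.nd (nat_lit 78) (nat_lit 0) (nat_lit 0) (XT.lf (nat_lit 0) (nat_lit 462571454901) (nat_lit 76) (nat_lit 83280554115) (nat_lit 76) (nat_lit 79640996581) (nat_lit 1) (nat_lit 4) (nat_lit 2) (nat_lit 5) (nat_lit 2) (nat_lit 4) (nat_lit 306) (nat_lit 251) (nat_lit 223)) (XT.lf (nat_lit 0) (nat_lit 543358368336) (nat_lit 76) (nat_lit 89572813241) (nat_lit 76) (nat_lit 85923580399) (nat_lit 1) (nat_lit 4) (nat_lit 2) (nat_lit 5) (nat_lit 2) (nat_lit 4) (nat_lit 307) (nat_lit 251) (nat_lit 222)))))) (XT.nd (nat_lit 468) (nat_lit 0) (nat_lit 0) (XT.nd (nat_lit 234) (nat_lit 0) (nat_lit 0) (XT.nd (nat_lit 78) (nat_lit 0) (nat_lit 0) (XT.lf (nat_lit 0) (nat_lit 636209785636) (nat_lit 76) (nat_lit 96835406258) (nat_lit 76) (nat_lit 93177760105) (nat_lit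 1) (nat_lit 4) (nat_lit 2) (nat_lit 5) (nat_lit 2) (nat_lit 4) (nat_lit 308) (nat_lit 251) (nat_lit 221)) (XT.nd (nat_lit 78) (nat_lit 0) (nat_lit 0) (XT.lf (nat_lit 0) (nat_lit 742942364965) (nat_lit 76) (nat_lit 105210427378) (nat_lit 76) (nat_lit 101545465301) (nat_lit 1) (nat_lit 4) (nat_lit 2) (nat_lit 5) (nat_lit 2) (nat_lit 4) (nat_lit 309) (nat_lit 251) (nat_lit 220)) (XT.lf (nat_lit 0) (nat_lit 865644352442) (nat_lit 76) (nat_lit 114861735708) (nat_lit 76) (nat_lit 111190411960) (nat_lit 1) (nat_lit 4) (nat_lit 2) (nat_lit 5) (nat_lit 2) (nat_lit 4) (nat_lit 310) (nat_lit 251) (nat_lit 219)))) (XT.nd (nat_lit 78) (nat_lit 0) (nat_lit 0) (XT.lf (nat_lit 0) (nat_lit 1006716439125) (nat_lit 76) (nat_lit 125978161195) (nat_lit 76) (nat_lit 122301305558) (nat_lit 1) (nat_lit 4) (nat_lit 2) (nat_lit 5) (nat_lit 2) (nat_lit 4) (nat_lit 311) (nat_lit 251) (nat_lit 218)) (XT.nd (nat_lit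 78) (nat_lit 0) (nat_lit 0) (XT.lf (nat_lit 0) (nat_lit 1168918731057) (nat_lit 76) (nat_lit 138777199120) (nat_lit 76) (nat_lit 135095533146) (nat_lit 1) (nat_lit 4) (nat_lit 2) (nat_lit 5) (nat_lit 2) (nat_lit 4) (nat_lit 312) (nat_lit 251) (nat_lit 217)) (XT.lf (nat_lit 0) (nat_lit 1355424751343) (nat_lit 76) (nat_lit 153509265443) (nat_lit 76) (nat_lit 149823416566) (nat_lit 1) (nat_lit 4) (nat_lit 2) (nat_lit 5) (nat_lit 2) (nat_lit 4) (nat_lit 313) (nat_lit 251) (nat_lit 216))))) (XT.nd (nat_lit 234) (nat_lit 0) (nat_lit 0) (XT.nd (nat_lit 78) (nat_lit 0) (nat_lit 0) (XT.lf (nat_lit 0) (nat_lit 1569883530814) (nat_lit 76) (nat_lit 170462596243) (nat_lit 76) (nat_lit 166773110060) (nat_lit 1) (nat_lit 4) (nat_lit 2) (nat_lit 5) (nat_lit 2) (nat_lit 4) (nat_lit 314) (nat_lit 251) (nat_lit 215)) (XT.nd (nat_lit 78) (nat_lit 0) (nat_lit 0) (XT.lf (nat_lit 0) (nat_lit 1816491002110) (nat_lit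 76) (nat_lit 189968887124) (nat_lit 76) (nat_lit 186276238065) (nat_lit 1) (nat_lit 4) (nat_lit 2) (nat_lit 5) (nat_lit 2) (nat_lit 4) (nat_lit 315) (nat_lit 251) (nat_lit 214)) (XT.lf (nat_lit 0) (nat_lit 2100072094020) (nat_lit 76) (nat_lit 212409782907) (nat_lit 76) (nat_lit 208714383521) (nat_lit 1) (nat_lit 4) (nat_lit 2) (nat_lit 5) (nat_lit 2) (nat_lit 4) (nat_lit 316) (nat_lit 251) (nat_lit 213)))) (XT.nd (nat_lit 78) (nat_lit 0) (nat_lit 0) (XT.lf (nat_lit 0) (nat_lit 2426175132254) (nat_lit 76) (nat_lit 238224344595) (nat_lit 76) (nat_lit 234526553622) (nat_lit 1) (nat_lit 4) (nat_lit 2) (nat_lit 5) (nat_lit 2) (nat_lit 4) (nat_lit 317) (nat_lit 251) (nat_lit 212)) (XT.nd (nat_lit 78) (nat_lit 0) (nat_lit 0) (XT.lf (nat_lit 0) (nat_lit 2801180393647) (nat_lit 76) (nat_lit 267917639702) (nat_lit 76) (nat_lit 264217769086) (nat_lit 1) (nat_lit 4) (nat_lit 2) (nat_lit 5) (nat_lit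 2) (nat_lit 4) (nat_lit 318) (nat_lit 251) (nat_lit 211)) (XT.lf (nat_lit 0) (nat_lit 3232424937661) (nat_lit 76) (nat_lit 302070623999) (nat_lit 76) (nat_lit 298368945000) (nat_lit 1) (nat_lit 4) (nat_lit 2) (nat_lit 5) (nat_lit 2) (nat_lit 4) (nat_lit 319) (nat_lit 251) (nat_lit 210))))))) (XT.nd (nat_lit 37518) (nat_lit 0) (nat_lit 76) (XT.nd (nat_lit 468) (nat_lit 0) (nat_lit 0) (XT.nd (nat_lit 234) (nat_lit 0) (nat_lit 0) (XT.nd (nat_lit 78) (nat_lit 0) (nat_lit 0) (XT.lf (nat_lit 0) (nat_lit 3728346157548) (nat_lit 76) (nat_lit 341351508051) (nat_lit 76) (nat_lit 337648256544) (nat_lit 1) (nat_lit 4) (nat_lit 2) (nat_lit 5) (nat_lit 2) (nat_lit 4) (nat_lit 320) (nat_lit 251) (nat_lit 209)) (XT.nd (nat_lit 78) (nat_lit 0) (nat_lit 0) (XT.lf (nat_lit 0) (nat_lit 4298646859785) (nat_lit 76) (nat_lit 386528830892) (nat_lit 76) (nat_lit 382824211986) (nat_lit 1) (nat_lit 4) (nat_lit 2)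 (nat_lit 5) (nat_lit 2) (nat_lit 4) (nat_lit 321) (nat_lit 251) (nat_lit 208)) (XT.lf (nat_lit 0) (nat_lit 4954485101589) (nat_lit 76) (nat_lit 438486496665) (nat_lit 76) (nat_lit 434780688718) (nat_lit 1) (nat_lit 4) (nat_lit 2) (nat_lit 5) (nat_lit 2) (nat_lit 4) (nat_lit 322) (nat_lit 251) (nat_lit 207)))) (XT.nd (nat_lit 78) (nat_lit 0) (nat_lit 0) (XT.lf (nat_lit 0) (nat_lit 5708692500735) (nat_lit 76) (nat_lit 498241068396) (nat_lit 76) (nat_lit 494534226499) (nat_lit 1) (nat_lit 4) (nat_lit 2) (nat_lit 5) (nat_lit 2) (nat_lit 4) (nat_lit 323) (nat_lit 251) (nat_lit 206)) (XT.nd (nat_lit 78) (nat_lit 0) (nat_lit 0) (XT.lf (nat_lit 0) (nat_lit 6576025288945) (nat_lit 76) (nat_lit 566961657272) (nat_lit 76) (nat_lit 563253916288) (nat_lit 1) (nat_lit 4) (nat_lit 2) (nat_lit 5) (nat_lit 2) (nat_lit 4) (nat_lit 324) (nat_lit 251) (nat_lit 205)) (XT.lf (nat_lit 0) (nat_lit 7573453020771)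 (nat_lit 76) (nat_lit 645992796552) (nat_lit 76) (nat_lit 642284273754) (nat_lit 1) (nat_lit 4) (nat_lit 2) (nat_lit 5) (nat_lit 2) (nat_lit 4) (nat_lit 325) (nat_lit 251) (nat_lit 204))))) (XT.nd (nat_lit 36816) (nat_lit 0) (nat_lit 684) (XT.nd (nat_lit 78) (nat_lit 0) (nat_lit 0) (XT.lf (nat_lit 0) (nat_lit 8720490586618) (nat_lit 76) (nat_lit 736880747658) (nat_lit 76) (nat_lit 733171545021) (nat_lit 1) (nat_lit 4) (nat_lit 2) (nat_lit 5) (nat_lit 2) (nat_lit 4) (nat_lit 326) (nat_lit 251) (nat_lit 203)) (XT.nd (nat_lit 36660) (nat_lit 0) (nat_lit 988) (XT.lf (nat_lit 0) (nat_lit 10039580025819) (nat_lit 76) (nat_lit 841403753110) (nat_lit 76) (nat_lit 837693959310) (nat_lit 1) (nat_lit 4) (nat_lit 2) (nat_lit 5) (nat_lit 2) (nat_lit 4) (nat_lit 327) (nat_lit 251) (nat_lit 202)) (XT.lf (nat_lit 0) (nat_lit 381552588) (nat_lit 152) (nat_lit 6325721221) (nat_lit 0) (nat_lit 381552588)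 (nat_lit 14) (nat_lit 5) (nat_lit 16) (nat_lit 4) (nat_lit 14) (nat_lit 4) (nat_lit 276) (nat_lit 252) (nat_lit 252)))) (XT.nd (nat_lit 78) (nat_lit 228) (nat_lit 0) (XT.lf (nat_lit 0) (nat_lit 3730806710) (nat_lit 76) (nat_lit 6262887833) (nat_lit 76) (nat_lit 5505013535) (nat_lit 13) (nat_lit 4) (nat_lit 14) (nat_lit 5) (nat_lit 14) (nat_lit 4) (nat_lit 277) (nat_lit 252) (nat_lit 251)) (XT.nd (nat_lit 78) (nat_lit 76) (nat_lit 0) (XT.lf (nat_lit 0) (nat_lit 3045753786) (nat_lit 152) (nat_lit 12261207948) (nat_lit 0) (nat_lit 1733813576) (nat_lit 11) (nat_lit 5) (nat_lit 13) (nat_lit 4) (nat_lit 11) (nat_lit 4) (nat_lit 278) (nat_lit 252) (nat_lit 250)) (XT.lf (nat_lit 0) (nat_lit 4027248836) (nat_lit 76) (nat_lit 8317568400) (nat_lit 76) (nat_lit 6475015363) (nat_lit 10) (nat_lit 4) (nat_lit 11) (nat_lit 5) (nat_lit 11) (nat_lit 4) (nat_lit 279) (nat_lit 252) (nat_lit 249)))))) (XT.nd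 (nat_lit 468) (nat_lit 228) (nat_lit 0) (XT.nd (nat_lit 234) (nat_lit 152) (nat_lit 0) (XT.nd (nat_lit 78) (nat_lit 76) (nat_lit 0) (XT.lf (nat_lit 0) (nat_lit 1178447287) (nat_lit 76) (nat_lit 495784818) (nat_lit 152) (nat_lit 19218902559) (nat_lit 8) (nat_lit 5) (nat_lit 9) (nat_lit 5) (nat_lit 10) (nat_lit 4) (nat_lit 280) (nat_lit 252) (nat_lit 248)) (XT.nd (nat_lit 78) (nat_lit 76) (nat_lit 0) (XT.lf (nat_lit 0) (nat_lit 10589228535) (nat_lit 152) (nat_lit 4596486808) (nat_lit 0) (nat_lit 8084436849) (nat_lit 8) (nat_lit 5) (nat_lit 10) (nat_lit 4) (nat_lit 8) (nat_lit 4) (nat_lit 281) (nat_lit 252) (nat_lit 247)) (XT.lf (nat_lit 0) (nat_lit 12167203047) (nat_lit 76) (nat_lit 8345466262) (nat_lit 76) (nat_lit 5517631478) (nat_lit 7) (nat_lit 4) (nat_lit 8) (nat_lit 5) (nat_lit 8) (nat_lit 4) (nat_lit 282) (nat_lit 252) (nat_lit 246)))) (XT.nd (nat_lit 78) (nat_lit 0) (nat_lit 0) (XT.lf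 (nat_lit 0) (nat_lit 1384732478) (nat_lit 76) (nat_lit 775591706) (nat_lit 152) (nat_lit 27073035113) (nat_lit 5) (nat_lit 5) (nat_lit 6) (nat_lit 5) (nat_lit 7) (nat_lit 4) (nat_lit 283) (nat_lit 252) (nat_lit 245)) (XT.nd (nat_lit 78) (nat_lit 0) (nat_lit 0) (XT.lf (nat_lit 0) (nat_lit 10723121618) (nat_lit 152) (nat_lit 14559209489) (nat_lit 0) (nat_lit 7618483823) (nat_lit 5) (nat_lit 5) (nat_lit 7) (nat_lit 4) (nat_lit 5) (nat_lit 4) (nat_lit 284) (nat_lit 252) (nat_lit 244)) (XT.lf (nat_lit 0) (nat_lit 20109842911) (nat_lit 152) (nat_lit 237019669) (nat_lit 0) (nat_lit 16808532819) (nat_lit 5) (nat_lit 5) (nat_lit 7) (nat_lit 4) (nat_lit 5) (nat_lit 4) (nat_lit 285) (nat_lit 252) (nat_lit 243))))) (XT.nd (nat_lit 234) (nat_lit 0) (nat_lit 0) (XT.nd (nat_lit 78) (nat_lit 152) (nat_lit 0) (XT.lf (nat_lit 0) (nat_lit 16228634418) (nat_lit 76) (nat_lit 14647152937) (nat_lit 76) (nat_lit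 11174823456) (nat_lit 4) (nat_lit 4) (nat_lit 5) (nat_lit 5) (nat_lit 5) (nat_lit 4) (nat_lit 286) (nat_lit 252) (nat_lit 242)) (XT.nd (nat_lit 78) (nat_lit 152) (nat_lit 0) (XT.lf (nat_lit 0) (nat_lit 34430932004) (nat_lit 76) (nat_lit 8450192302) (nat_lit 76) (nat_lit 4829150310) (nat_lit 4) (nat_lit 4) (nat_lit 5) (nat_lit 5) (nat_lit 5) (nat_lit 4) (nat_lit 287) (nat_lit 252) (nat_lit 241)) (XT.lf (nat_lit 0) (nat_lit 439168660) (nat_lit 76) (nat_lit 1575026474) (nat_lit 152) (nat_lit 52226501321) (nat_lit 2) (nat_lit 5) (nat_lit 3) (nat_lit 5) (nat_lit 4) (nat_lit 4) (nat_lit 288) (nat_lit 252) (nat_lit 240)))) (XT.nd (nat_lit 156) (nat_lit 0) (nat_lit 0) (XT.nd (nat_lit 78) (nat_lit 0) (nat_lit 0) (XT.lf (nat_lit 0) (nat_lit 9836483014) (nat_lit 152) (nat_lit 45625370369) (nat_lit 0) (nat_lit 6259811492) (nat_lit 2) (nat_lit 5) (nat_lit 4) (nat_lit 4) (nat_lit 2) (nat_lit 4) (nat_lit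 289) (nat_lit 252) (nat_lit 239)) (XT.lf (nat_lit 0) (nat_lit 18598565823) (nat_lit 152) (nat_lit 36813616957) (nat_lit 0) (nat_lit 14931356439) (nat_lit 2) (nat_lit 5) (nat_lit 4) (nat_lit 4) (nat_lit 2) (nat_lit 4) (nat_lit 290) (nat_lit 252) (nat_lit 238))) (XT.nd (nat_lit 78) (nat_lit 0) (nat_lit 0) (XT.lf (nat_lit 0) (nat_lit 28433996192) (nat_lit 152) (nat_lit 27155984263) (nat_lit 0) (nat_lit 24688058232) (nat_lit 2) (nat_lit 5) (nat_lit 4) (nat_lit 4) (nat_lit 2) (nat_lit 4) (nat_lit 291) (nat_lit 252) (nat_lit 237)) (XT.lf (nat_lit 0) (nat_lit 39535206452) (nat_lit 152) (nat_lit 16463518605) (nat_lit 0) (nat_lit 35720808862) (nat_lit 2) (nat_lit 5) (nat_lit 4) (nat_lit 4) (nat_lit 2) (nat_lit 4) (nat_lit 292) (nat_lit 252) (nat_lit 236))))))))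
noncomputable def xc14 : XT := (XT.nd (nat_lit 1872) (nat_lit 0) (nat_lit 0) (XT.nd (nat_lit 936) (nat_lit 0) (nat_lit 0) (XT.nd (nat_lit 468) (nat_lit 0) (nat_lit 0) (XT.nd (nat_lit 234) (nat_lit 0) (nat_lit 0) (XT.nd (nat_lit 78) (nat_lit 76) (nat_lit 0) (XT.lf (nat_lit 0) (nat_lit 52119394198) (nat_lit 152) (nat_lit 4527019567) (nat_lit 0) (nat_lit 48245466494) (nat_lit 2) (nat_lit 5) (nat_lit 4) (nat_lit 4) (nat_lit 2) (nat_lit 4) (nat_lit 293) (nat_lit 252) (nat_lit 235)) (XT.nd (nat_lit 78) (nat_lit 0) (nat_lit 0) (XT.lf (nat_lit 0) (nat_lit 9355029511) (nat_lit 76) (nat_lit 57302730969) (nat_lit 76) (nat_lit 53377037949) (nat_lit 1) (nat_lit 4) (nat_lit 2) (nat_lit 5) (nat_lit 2) (nat_lit 4) (nat_lit 294) (nat_lit 252) (nat_lit 234)) (XT.lf (nat_lit 0) (nat_lit 25307112762) (nat_lit 76) (nat_lit 58056907501) (nat_lit 76) (nat_lit 54086201163) (nat_lit 1) (nat_lit 4) (nat_lit 2)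 (nat_lit 5) (nat_lit 2) (nat_lit 4) (nat_lit 295) (nat_lit 252) (nat_lit 233)))) (XT.nd (nat_lit 78) (nat_lit 0) (nat_lit 0) (XT.lf (nat_lit 0) (nat_lit 43402951333) (nat_lit 76) (nat_lit 59047475726) (nat_lit 76) (nat_lit 55037627371) (nat_lit 1) (nat_lit 4) (nat_lit 2) (nat_lit 5) (nat_lit 2) (nat_lit 4) (nat_lit 296) (nat_lit 252) (nat_lit 232)) (XT.nd (nat_lit 78) (nat_lit 0) (nat_lit 0) (XT.lf (nat_lit 0) (nat_lit 63996594240) (nat_lit 76) (nat_lit 60293816326) (nat_lit 76) (nat_lit 56249931436) (nat_lit 1) (nat_lit 4) (nat_lit 2) (nat_lit 5) (nat_lit 2) (nat_lit 4) (nat_lit 297) (nat_lit 252) (nat_lit 231)) (XT.lf (nat_lit 0) (nat_lit 87490960582) (nat_lit 76) (nat_lit 61820314228) (nat_lit 76) (nat_lit 57746832350) (nat_lit 1) (nat_lit 4) (nat_lit 2) (nat_lit 5) (nat_lit 2) (nat_lit 4) (nat_lit 298) (nat_lit 252) (nat_lit 230))))) (XT.nd (nat_lit 234) (nat_lit 0) (nat_lit 0) (XT.nd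 (nat_lit 78) (nat_lit 0) (nat_lit 0) (XT.lf (nat_lit 0) (nat_lit 114345722745) (nat_lit 76) (nat_lit 63656835693) (nat_lit 76) (nat_lit 59557617304) (nat_lit 1) (nat_lit 4) (nat_lit 2) (nat_lit 5) (nat_lit 2) (nat_lit 4) (nat_lit 299) (nat_lit 252) (nat_lit 229)) (XT.nd (nat_lit 78) (nat_lit 0) (nat_lit 0) (XT.lf (nat_lit 0) (nat_lit 145086299988) (nat_lit 76) (nat_lit 65839312664) (nat_lit 76) (nat_lit 61717714700) (nat_lit 1) (nat_lit 4) (nat_lit 2) (nat_lit 5) (nat_lit 2) (nat_lit 4) (nat_lit 300) (nat_lit 252) (nat_lit 228)) (XT.lf (nat_lit 0) (nat_lit 180314138389) (nat_lit 76) (nat_lit 68410445776) (nat_lit 76) (nat_lit 64269387313) (nat_lit 1) (nat_lit 4) (nat_lit 2) (nat_lit 5) (nat_lit 2) (nat_lit 4) (nat_lit 301) (nat_lit 252) (nat_lit 227)))) (XT.nd (nat_lit 78) (nat_lit 0) (nat_lit 0) (XT.lf (nat_lit 0) (nat_lit 220718478263) (nat_lit 76) (nat_lit 71420539809) (nat_lit 76)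 (nat_lit 67262559172) (nat_lit 1) (nat_lit 4) (nat_lit 2) (nat_lit 5) (nat_lit 2) (nat_lit 4) (nat_lit 302) (nat_lit 252) (nat_lit 226)) (XT.nd (nat_lit 78) (nat_lit 0) (nat_lit 0) (XT.lf (nat_lit 0) (nat_lit 267089839303) (nat_lit 76) (nat_lit 74928487907) (nat_lit 76) (nat_lit 70755792336) (nat_lit 1) (nat_lit 4) (nat_lit 2) (nat_lit 5) (nat_lit 2) (nat_lit 4) (nat_lit 303) (nat_lit 252) (nat_lit 225)) (XT.lf (nat_lit 0) (nat_lit 320335487270) (nat_lit 76) (nat_lit 79002923836) (nat_lit 76) (nat_lit 74817432671) (nat_lit 1) (nat_lit 4) (nat_lit 2) (nat_lit 5) (nat_lit 2) (nat_lit 4) (nat_lit 304) (nat_lit 252) (nat_lit 224)))))) (XT.nd (nat_lit 468) (nat_lit 0) (nat_lit 0) (XT.nd (nat_lit 234) (nat_lit 0) (nat_lit 0) (XT.nd (nat_lit 78) (nat_lit 0) (nat_lit 0) (XT.lf (nat_lit 0) (nat_lit 381497184840) (nat_lit 76) (nat_lit 83723564821) (nat_lit 76) (nat_lit 79526947052) (nat_lit 1) (nat_lit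 4) (nat_lit 2) (nat_lit 5) (nat_lit 2) (nat_lit 4) (nat_lit 305) (nat_lit 252) (nat_lit 223)) (XT.nd (nat_lit 78) (nat_lit 0) (nat_lit 0) (XT.lf (nat_lit 0) (nat_lit 451771573924) (nat_lit 76) (nat_lit 89182771229) (nat_lit 76) (nat_lit 84976478153) (nat_lit 1) (nat_lit 4) (nat_lit 2) (nat_lit 5) (nat_lit 2) (nat_lit 4) (nat_lit 306) (nat_lit 252) (nat_lit 222)) (XT.lf (nat_lit 0) (nat_lit 532533588219) (nat_lit 76) (nat_lit 95487353621) (nat_lit 76) (nat_lit 91272647234) (nat_lit 1) (nat_lit 4) (nat_lit 2) (nat_lit 5) (nat_lit 2) (nat_lit 4) (nat_lit 307) (nat_lit 252) (nat_lit 221)))) (XT.nd (nat_lit 78) (nat_lit 0) (nat_lit 0) (XT.lf (nat_lit 0) (nat_lit 625363354093) (nat_lit 76) (nat_lit 102760662522) (nat_lit 76) (nat_lit 98538640212) (nat_lit 1) (nat_lit 4) (nat_lit 2) (nat_lit 5) (nat_lit 2) (nat_lit 4) (nat_lit 308) (nat_lit 252) (nat_lit 220)) (XT.nd (nat_lit 78) (nat_lit 0)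 (nat_lit 0) (XT.lf (nat_lit 0) (nat_lit 732077106096) (nat_lit 76) (nat_lit 111145001801) (nat_lit 76) (nat_lit 106916617819) (nat_lit 1) (nat_lit 4) (nat_lit 2) (nat_lit 5) (nat_lit 2) (nat_lit 4) (nat_lit 309) (nat_lit 252) (nat_lit 219)) (XT.lf (nat_lit 0) (nat_lit 854762721984) (nat_lit 76) (nat_lit 120804412879) (nat_lit 76) (nat_lit 116570497008) (nat_lit 1) (nat_lit 4) (nat_lit 2) (nat_lit 5) (nat_lit 2) (nat_lit 4) (nat_lit 310) (nat_lit 252) (nat_lit 218))))) (XT.nd (nat_lit 234) (nat_lit 0) (nat_lit 0) (XT.nd (nat_lit 78) (nat_lit 0) (nat_lit 0) (XT.lf (nat_lit 0) (nat_lit 995820572503) (nat_lit 76) (nat_lit 131927884234) (nat_lit 76) (nat_lit 127689158025) (nat_lit 1) (nat_lit 4) (nat_lit 2) (nat_lit 5) (nat_lit 2) (nat_lit 4) (nat_lit 311) (nat_lit 252) (nat_lit 217)) (XT.nd (nat_lit 78) (nat_lit 0) (nat_lit 0) (XT.lf (nat_lit 0) (nat_lit 1158010485163) (nat_lit 76) (nat_lit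 144733049000) (nat_lit 76) (nat_lit 140490139889) (nat_lit 1) (nat_lit 4) (nat_lit 2) (nat_lit 5) (nat_lit 2) (nat_lit 4) (nat_lit 312) (nat_lit 252) (nat_lit 216)) (XT.lf (nat_lit 0) (nat_lit 1344505740863) (nat_lit 76) (nat_lit 159470443011) (nat_lit 76) (nat_lit 155223896593) (nat_lit 1) (nat_lit 4) (nat_lit 2) (nat_lit 5) (nat_lit 2) (nat_lit 4) (nat_lit 313) (nat_lit 252) (nat_lit 215)))) (XT.nd (nat_lit 78) (nat_lit 0) (nat_lit 0) (XT.lf (nat_lit 0) (nat_lit 1558955159825) (nat_lit 76) (nat_lit 176428406583) (nat_lit 76) (nat_lit 172178697290) (nat_lit 1) (nat_lit 4) (nat_lit 2) (nat_lit 5) (nat_lit 2) (nat_lit 4) (nat_lit 314) (nat_lit 252) (nat_lit 214)) (XT.nd (nat_lit 78) (nat_lit 0) (nat_lit 0) (XT.lf (nat_lit 0) (nat_lit 1805554491549) (nat_lit 76) (nat_lit 195938725961) (nat_lit 76) (nat_lit 191686266342) (nat_lit 1) (nat_lit 4) (nat_lit 2) (nat_lit 5) (nat_lit 2) (nat_lit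 4) (nat_lit 315) (nat_lit 252) (nat_lit 213)) (XT.lf (nat_lit 0) (nat_lit 2089128505569) (nat_lit 76) (nat_lit 218383124785) (nat_lit 76) (nat_lit 214128273578) (nat_lit 1) (nat_lit 4) (nat_lit 2) (nat_lit 5) (nat_lit 2) (nat_lit 4) (nat_lit 316) (nat_lit 252) (nat_lit 212))))))) (XT.nd (nat_lit 37362) (nat_lit 0) (nat_lit 228) (XT.nd (nat_lit 468) (nat_lit 0) (nat_lit 0) (XT.nd (nat_lit 234) (nat_lit 0) (nat_lit 0) (XT.nd (nat_lit 78) (nat_lit 0) (nat_lit 0) (XT.lf (nat_lit 0) (nat_lit 2415225389116) (nat_lit 76) (nat_lit 244200732597) (nat_lit 76) (nat_lit 239943801748) (nat_lit 1) (nat_lit 4) (nat_lit 2) (nat_lit 5) (nat_lit 2) (nat_lit 4) (nat_lit 317) (nat_lit 252) (nat_lit 211)) (XT.nd (nat_lit 78) (nat_lit 0) (nat_lit 0) (XT.lf (nat_lit 0) (nat_lit 2790225298608) (nat_lit 76) (nat_lit 273896676506) (nat_lit 76) (nat_lit 269637937272) (nat_lit 1) (nat_lit 4) (nat_lit 2) (nat_lit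 5) (nat_lit 2) (nat_lit 4) (nat_lit 318) (nat_lit 252) (nat_lit 210)) (XT.lf (nat_lit 0) (nat_lit 3221465188794) (nat_lit 76) (nat_lit 308051964110) (nat_lit 76) (nat_lit 303791652369) (nat_lit 1) (nat_lit 4) (nat_lit 2) (nat_lit 5) (nat_lit 2) (nat_lit 4) (nat_lit 319) (nat_lit 252) (nat_lit 209)))) (XT.nd (nat_lit 78) (nat_lit 0) (nat_lit 0) (XT.lf (nat_lit 0) (nat_lit 3717382361875) (nat_lit 76) (nat_lit 347334851037) (nat_lit 76) (nat_lit 343073171897) (nat_lit 1) (nat_lit 4) (nat_lit 2) (nat_lit 5) (nat_lit 2) (nat_lit 4) (nat_lit 320) (nat_lit 252) (nat_lit 208)) (XT.nd (nat_lit 78) (nat_lit 0) (nat_lit 0) (XT.lf (nat_lit 0) (nat_lit 4287679545150) (nat_lit 76) (nat_lit 392513915509) (nat_lit 76) (nat_lit 388251047327) (nat_lit 1) (nat_lit 4) (nat_lit 2) (nat_lit 5) (nat_lit 2) (nat_lit 4) (nat_lit 321) (nat_lit 252) (nat_lit 207)) (XT.lf (nat_lit 0) (nat_lit 4943514726988) (nat_lit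 76) (nat_lit 444473095743) (nat_lit 76) (nat_lit 440209193612) (nat_lit 1) (nat_lit 4) (nat_lit 2) (nat_lit 5) (nat_lit 2) (nat_lit 4) (nat_lit 322) (nat_lit 252) (nat_lit 206))))) (XT.nd (nat_lit 234) (nat_lit 0) (nat_lit 0) (XT.nd (nat_lit 78) (nat_lit 0) (nat_lit 0) (XT.lf (nat_lit 0) (nat_lit 5697719465293) (nat_lit 76) (nat_lit 504228984398) (nat_lit 76) (nat_lit 499964183180) (nat_lit 1) (nat_lit 4) (nat_lit 2) (nat_lit 5) (nat_lit 2) (nat_lit 4) (nat_lit 323) (nat_lit 252) (nat_lit 205)) (XT.nd (nat_lit 78) (nat_lit 0) (nat_lit 0) (XT.lf (nat_lit 0) (nat_lit 6565049939728) (nat_lit 76) (nat_lit 572950718423) (nat_lit 76) (nat_lit 568685135391) (nat_lit 1) (nat_lit 4) (nat_lit 2) (nat_lit 5) (nat_lit 2) (nat_lit 4) (nat_lit 324) (nat_lit 252) (nat_lit 204)) (XT.lf (nat_lit 0) (nat_lit 7562475659576) (nat_lit 76) (nat_lit 651982853487) (nat_lit 76) (nat_lit 647716590616) (nat_lit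 1) (nat_lit 4) (nat_lit 2) (nat_lit 5) (nat_lit 2) (nat_lit 4) (nat_lit 325) (nat_lit 252) (nat_lit 203)))) (XT.nd (nat_lit 78) (nat_lit 0) (nat_lit 0) (XT.lf (nat_lit 0) (nat_lit 8709511475878) (nat_lit 76) (nat_lit 742871670490) (nat_lit 76) (nat_lit 738604816456) (nat_lit 1) (nat_lit 4) (nat_lit 2) (nat_lit 5) (nat_lit 2) (nat_lit 4) (nat_lit 326) (nat_lit 252) (nat_lit 202)) (XT.nd (nat_lit 36504) (nat_lit 0) (nat_lit 1368) (XT.lf (nat_lit 0) (nat_lit 10028599393734) (nat_lit 76) (nat_lit 847395428898) (nat_lit 76) (nat_lit 843128060808) (nat_lit 1) (nat_lit 4) (nat_lit 2) (nat_lit 5) (nat_lit 2) (nat_lit 4) (nat_lit 327) (nat_lit 252) (nat_lit 201)) (XT.lf (nat_lit 0) (nat_lit 3690265067) (nat_lit 152) (nat_lit 1157369990) (nat_lit 152) (nat_lit 1157369990) (nat_lit 19) (nat_lit 4) (nat_lit 21) (nat_lit 5) (nat_lit 21) (nat_lit 4) (nat_lit 274) (nat_lit 253) (nat_lit 253)))))) (XT.nd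 (nat_lit 468) (nat_lit 380) (nat_lit 0) (XT.nd (nat_lit 234) (nat_lit 304) (nat_lit 0) (XT.nd (nat_lit 78) (nat_lit 304) (nat_lit 0) (XT.lf (nat_lit 0) (nat_lit 6145759848) (nat_lit 152) (nat_lit 1677661431) (nat_lit 0) (nat_lit 5204479969) (nat_lit 17) (nat_lit 5) (nat_lit 19) (nat_lit 4) (nat_lit 17) (nat_lit 4) (nat_lit 275) (nat_lit 253) (nat_lit 252)) (XT.nd (nat_lit 78) (nat_lit 76) (nat_lit 0) (XT.lf (nat_lit 0) (nat_lit 727919355) (nat_lit 76) (nat_lit 468091931) (nat_lit 152) (nat_lit 13017032473) (nat_lit 14) (nat_lit 5) (nat_lit 15) (nat_lit 5) (nat_lit 16) (nat_lit 4) (nat_lit 276) (nat_lit 253) (nat_lit 251)) (XT.lf (nat_lit 0) (nat_lit 2112264748) (nat_lit 76) (nat_lit 7872928869) (nat_lit 76) (nat_lit 5584477998) (nat_lit 13) (nat_lit 4) (nat_lit 14) (nat_lit 5) (nat_lit 14) (nat_lit 4) (nat_lit 277) (nat_lit 253) (nat_lit 250)))) (XT.nd (nat_lit 78) (nat_lit 152) (nat_lit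 0) (XT.lf (nat_lit 0) (nat_lit 2340949431) (nat_lit 76) (nat_lit 160234296) (nat_lit 152) (nat_lit 14648443818) (nat_lit 11) (nat_lit 5) (nat_lit 12) (nat_lit 5) (nat_lit 13) (nat_lit 4) (nat_lit 278) (nat_lit 253) (nat_lit 249)) (XT.nd (nat_lit 78) (nat_lit 76) (nat_lit 0) (XT.lf (nat_lit 0) (nat_lit 679189737) (nat_lit 76) (nat_lit 10697265870) (nat_lit 76) (nat_lit 7586314596) (nat_lit 10) (nat_lit 4) (nat_lit 11) (nat_lit 5) (nat_lit 11) (nat_lit 4) (nat_lit 279) (nat_lit 253) (nat_lit 248)) (XT.lf (nat_lit 0) (nat_lit 272834716) (nat_lit 152) (nat_lit 2944674591) (nat_lit 76) (nat_lit 17848502863) (nat_lit 9) (nat_lit 5) (nat_lit 11) (nat_lit 5) (nat_lit 10) (nat_lit 4) (nat_lit 280) (nat_lit 253) (nat_lit 247))))) (XT.nd (nat_lit 234) (nat_lit 228) (nat_lit 0) (XT.nd (nat_lit 78) (nat_lit 76) (nat_lit 0) (XT.lf (nat_lit 0) (nat_lit 8750475143) (nat_lit 152) (nat_lit 9552248446) (nat_lit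 0) (nat_lit 5175422043) (nat_lit 8) (nat_lit 5) (nat_lit 10) (nat_lit 4) (nat_lit 8) (nat_lit 4) (nat_lit 281) (nat_lit 253) (nat_lit 246)) (XT.nd (nat_lit 78) (nat_lit 0) (nat_lit 0) (XT.lf (nat_lit 0) (nat_lit 6432269063) (nat_lit 76) (nat_lit 11846840329) (nat_lit 76) (nat_lit 7990880187) (nat_lit 7) (nat_lit 4) (nat_lit 8) (nat_lit 5) (nat_lit 8) (nat_lit 4) (nat_lit 282) (nat_lit 253) (nat_lit 245)) (XT.lf (nat_lit 0) (nat_lit 24424090609) (nat_lit 76) (nat_lit 4587495048) (nat_lit 76) (nat_lit 487267914) (nat_lit 7) (nat_lit 4) (nat_lit 8) (nat_lit 5) (nat_lit 8) (nat_lit 4) (nat_lit 283) (nat_lit 253) (nat_lit 244)))) (XT.nd (nat_lit 156) (nat_lit 76) (nat_lit 0) (XT.nd (nat_lit 78) (nat_lit 0) (nat_lit 0) (XT.lf (nat_lit 0) (nat_lit 7652254983) (nat_lit 152) (nat_lit 21891805213) (nat_lit 0) (nat_lit 3659076080) (nat_lit 5) (nat_lit 5) (nat_lit 7) (nat_lit 4) (nat_lit 5) (nat_lit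 4) (nat_lit 284) (nat_lit 253) (nat_lit 243)) (XT.lf (nat_lit 0) (nat_lit 16844053443) (nat_lit 152) (nat_lit 7949469451) (nat_lit 0) (nat_lit 12679855152) (nat_lit 5) (nat_lit 5) (nat_lit 7) (nat_lit 4) (nat_lit 5) (nat_lit 4) (nat_lit 285) (nat_lit 253) (nat_lit 242))) (XT.nd (nat_lit 78) (nat_lit 0) (nat_lit 0) (XT.lf (nat_lit 0) (nat_lit 7762359393) (nat_lit 76) (nat_lit 19474526260) (nat_lit 76) (nat_lit 15161615457) (nat_lit 4) (nat_lit 4) (nat_lit 5) (nat_lit 5) (nat_lit 5) (nat_lit 4) (nat_lit 286) (nat_lit 253) (nat_lit 241)) (XT.lf (nat_lit 0) (nat_lit 25662308019) (nat_lit 76) (nat_lit 13425253421) (nat_lit 76) (nat_lit 8983027390) (nat_lit 4) (nat_lit 4) (nat_lit 5) (nat_lit 5) (nat_lit 5) (nat_lit 4) (nat_lit 287) (nat_lit 253) (nat_lit 240))))))))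
noncomputable def xc15 : XT := (XT.nd (nat_lit 1872) (nat_lit 0) (nat_lit 0) (XT.nd (nat_lit 936) (nat_lit 0) (nat_lit 0) (XT.nd (nat_lit 468) (nat_lit 76) (nat_lit 0) (XT.nd (nat_lit 234) (nat_lit 0) (nat_lit 0) (XT.nd (nat_lit 78) (nat_lit 152) (nat_lit 0) (XT.lf (nat_lit 0) (nat_lit 45681987838) (nat_lit 76) (nat_lit 6744701621) (nat_lit 76) (nat_lit 2190027565) (nat_lit 4) (nat_lit 4) (nat_lit 5) (nat_lit 5) (nat_lit 5) (nat_lit 4) (nat_lit 288) (nat_lit 253) (nat_lit 239)) (XT.nd (nat_lit 78) (nat_lit 0) (nat_lit 0) (XT.lf (nat_lit 0) (nat_lit 5256524480) (nat_lit 152) (nat_lit 55935537666) (nat_lit 0) (nat_lit 948695827) (nat_lit 2) (nat_lit 5) (nat_lit 4) (nat_lit 4) (nat_lit 2) (nat_lit 4) (nat_lit 289) (nat_lit 253) (nat_lit 238)) (XT.lf (nat_lit 0) (nat_lit 13906530609) (nat_lit 152) (nat_lit 47345125524) (nat_lit 0) (nat_lit 9519973381) (nat_lit 2) (nat_lit 5) (nat_lit 4) (nat_lit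 4) (nat_lit 2) (nat_lit 4) (nat_lit 290) (nat_lit 253) (nat_lit 237)))) (XT.nd (nat_lit 78) (nat_lit 0) (nat_lit 0) (XT.lf (nat_lit 0) (nat_lit 23644502995) (nat_lit 152) (nat_lit 37879963500) (nat_lit 0) (nat_lit 19189486135) (nat_lit 2) (nat_lit 5) (nat_lit 4) (nat_lit 4) (nat_lit 2) (nat_lit 4) (nat_lit 291) (nat_lit 253) (nat_lit 236)) (XT.nd (nat_lit 78) (nat_lit 0) (nat_lit 0) (XT.lf (nat_lit 0) (nat_lit 34660967184) (nat_lit 152) (nat_lit 27354863641) (nat_lit 0) (nat_lit 30146420211) (nat_lit 2) (nat_lit 5) (nat_lit 4) (nat_lit 4) (nat_lit 2) (nat_lit 4) (nat_lit 292) (nat_lit 253) (nat_lit 235)) (XT.lf (nat_lit 0) (nat_lit 47171462693) (nat_lit 152) (nat_lit 15563900082) (nat_lit 0) (nat_lit 42605150403) (nat_lit 2) (nat_lit 5) (nat_lit 4) (nat_lit 4) (nat_lit 2) (nat_lit 4) (nat_lit 293) (nat_lit 253) (nat_lit 234))))) (XT.nd (nat_lit 234) (nat_lit 0) (nat_lit 0) (XT.nd (nat_lit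 78) (nat_lit 76) (nat_lit 0) (XT.lf (nat_lit 0) (nat_lit 61420760086) (nat_lit 152) (nat_lit 2276380056) (nat_lit 0) (nat_lit 56809434478) (nat_lit 2) (nat_lit 5) (nat_lit 4) (nat_lit 4) (nat_lit 2) (nat_lit 4) (nat_lit 294) (nat_lit 253) (nat_lit 233)) (XT.nd (nat_lit 78) (nat_lit 0) (nat_lit 0) (XT.lf (nat_lit 0) (nat_lit 13439992512) (nat_lit 76) (nat_lit 64570889596) (nat_lit 76) (nat_lit 59920421972) (nat_lit 1) (nat_lit 4) (nat_lit 2) (nat_lit 5) (nat_lit 2) (nat_lit 4) (nat_lit 295) (nat_lit 253) (nat_lit 232)) (XT.lf (nat_lit 0) (nat_lit 31435100176) (nat_lit 76) (nat_lit 65611312305) (nat_lit 76) (nat_lit 60926808146) (nat_lit 1) (nat_lit 4) (nat_lit 2) (nat_lit 5) (nat_lit 2) (nat_lit 4) (nat_lit 296) (nat_lit 253) (nat_lit 231)))) (XT.nd (nat_lit 78) (nat_lit 0) (nat_lit 0) (XT.lf (nat_lit 0) (nat_lit 51941150989) (nat_lit 76) (nat_lit 66901004632) (nat_lit 76) (nat_lit 62186903485)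 (nat_lit 1) (nat_lit 4) (nat_lit 2) (nat_lit 5) (nat_lit 2) (nat_lit 4) (nat_lit 297) (nat_lit 253) (nat_lit 230)) (XT.nd (nat_lit 78) (nat_lit 0) (nat_lit 0) (XT.lf (nat_lit 0) (nat_lit 75359350294) (nat_lit 76) (nat_lit 68465199686) (nat_lit 76) (nat_lit 63725362028) (nat_lit 1) (nat_lit 4) (nat_lit 2) (nat_lit 5) (nat_lit 2) (nat_lit 4) (nat_lit 298) (nat_lit 253) (nat_lit 229)) (XT.lf (nat_lit 0) (nat_lit 102147880250) (nat_lit 76) (nat_lit 70334501284) (nat_lit 76) (nat_lit 65572284051) (nat_lit 1) (nat_lit 4) (nat_lit 2) (nat_lit 5) (nat_lit 2) (nat_lit 4) (nat_lit 299) (nat_lit 253) (nat_lit 228)))))) (XT.nd (nat_lit 468) (nat_lit 0) (nat_lit 0) (XT.nd (nat_lit 234) (nat_lit 0) (nat_lit 0) (XT.nd (nat_lit 78) (nat_lit 0) (nat_lit 0) (XT.lf (nat_lit 0) (nat_lit 132830864270) (nat_lit 76) (nat_lit 72545482718) (nat_lit 76) (nat_lit 67763804986) (nat_lit 1) (nat_lit 4) (nat_lit 2)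 (nat_lit 5) (nat_lit 2) (nat_lit 4) (nat_lit 300) (nat_lit 253) (nat_lit 227)) (XT.nd (nat_lit 78) (nat_lit 0) (nat_lit 0) (XT.lf (nat_lit 0) (nat_lit 168008621607) (nat_lit 76) (nat_lit 75141402321) (nat_lit 76) (nat_lit 70342802415) (nat_lit 1) (nat_lit 4) (nat_lit 2) (nat_lit 5) (nat_lit 2) (nat_lit 4) (nat_lit 301) (nat_lit 253) (nat_lit 226)) (XT.lf (nat_lit 0) (nat_lit 208369412730) (nat_lit 76) (nat_lit 78173049823) (nat_lit 76) (nat_lit 73359734984) (nat_lit 1) (nat_lit 4) (nat_lit 2) (nat_lit 5) (nat_lit 2) (nat_lit 4) (nat_lit 302) (nat_lit 253) (nat_lit 225)))) (XT.nd (nat_lit 78) (nat_lit 0) (nat_lit 0) (XT.lf (nat_lit 0) (nat_lit 254702905292) (nat_lit 76) (nat_lit 81699740068) (nat_lit 76) (nat_lit 76873629634) (nat_lit 1) (nat_lit 4) (nat_lit 2) (nat_lit 5) (nat_lit 2) (nat_lit 4) (nat_lit 303) (nat_lit 253) (nat_lit 224)) (XT.nd (nat_lit 78) (nat_lit 0) (nat_lit 0) (XT.lf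 (nat_lit 0) (nat_lit 307915624146) (nat_lit 76) (nat_lit 85790473517) (nat_lit 76) (nat_lit 80953236479) (nat_lit 1) (nat_lit 4) (nat_lit 2) (nat_lit 5) (nat_lit 2) (nat_lit 4) (nat_lit 304) (nat_lit 253) (nat_lit 223)) (XT.lf (nat_lit 0) (nat_lit 369048687706) (nat_lit 76) (nat_lit 90525286258) (nat_lit 76) (nat_lit 85678373912) (nat_lit 1) (nat_lit 4) (nat_lit 2) (nat_lit 5) (nat_lit 2) (nat_lit 4) (nat_lit 305) (nat_lit 253) (nat_lit 222))))) (XT.nd (nat_lit 234) (nat_lit 0) (nat_lit 0) (XT.nd (nat_lit 78) (nat_lit 0) (nat_lit 0) (XT.lf (nat_lit 0) (nat_lit 439298177650) (nat_lit 76) (nat_lit 95996815933) (nat_lit 76) (nat_lit 91141490276) (nat_lit 1) (nat_lit 4) (nat_lit 2) (nat_lit 5) (nat_lit 2) (nat_lit 4) (nat_lit 306) (nat_lit 253) (nat_lit 221)) (XT.nd (nat_lit 78) (nat_lit 0) (nat_lit 0) (XT.lf (nat_lit 0) (nat_lit 520038540519) (nat_lit 76) (nat_lit 102312114208) (nat_lit 76)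 (nat_lit 97449472629) (nat_lit 1) (nat_lit 4) (nat_lit 2) (nat_lit 5) (nat_lit 2) (nat_lit 4) (nat_lit 307) (nat_lit 253) (nat_lit 220)) (XT.lf (nat_lit 0) (nat_lit 612849479067) (nat_lit 76) (nat_lit 109594741269) (nat_lit 76) (nat_lit 104725738017) (nat_lit 1) (nat_lit 4) (nat_lit 2) (nat_lit 5) (nat_lit 2) (nat_lit 4) (nat_lit 308) (nat_lit 253) (nat_lit 219)))) (XT.nd (nat_lit 78) (nat_lit 0) (nat_lit 0) (XT.lf (nat_lit 0) (nat_lit 719546859481) (nat_lit 76) (nat_lit 117987183295) (nat_lit 76) (nat_lit 113112648155) (nat_lit 1) (nat_lit 4) (nat_lit 2) (nat_lit 5) (nat_lit 2) (nat_lit 4) (nat_lit 309) (nat_lit 253) (nat_lit 218)) (XT.nd (nat_lit 78) (nat_lit 0) (nat_lit 0) (XT.lf (nat_lit 0) (nat_lit 842218239205) (nat_lit 76) (nat_lit 127653640240) (nat_lit 76) (nat_lit 122774294762) (nat_lit 1) (nat_lit 4) (nat_lit 2) (nat_lit 5) (nat_lit 2) (nat_lit 4) (nat_lit 310) (nat_lit 253)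 (nat_lit 217)) (XT.lf (nat_lit 0) (nat_lit 983263710451) (nat_lit 76) (nat_lit 138783238436) (nat_lit 76) (nat_lit 133899710056) (nat_lit 1) (nat_lit 4) (nat_lit 2) (nat_lit 5) (nat_lit 2) (nat_lit 4) (nat_lit 311) (nat_lit 253) (nat_lit 216))))))) (XT.nd (nat_lit 936) (nat_lit 0) (nat_lit 0) (XT.nd (nat_lit 468) (nat_lit 0) (nat_lit 0) (XT.nd (nat_lit 234) (nat_lit 0) (nat_lit 0) (XT.nd (nat_lit 78) (nat_lit 0) (nat_lit 0) (XT.lf (nat_lit 0) (nat_lit 1145442858526) (nat_lit 76) (nat_lit 151593730891) (nat_lit 76) (nat_lit 146706565204) (nat_lit 1) (nat_lit 4) (nat_lit 2) (nat_lit 5) (nat_lit 2) (nat_lit 4) (nat_lit 312) (nat_lit 253) (nat_lit 215)) (XT.nd (nat_lit 78) (nat_lit 0) (nat_lit 0) (XT.lf (nat_lit 0) (nat_lit 1331928753717) (nat_lit 76) (nat_lit 166335757674) (nat_lit 76) (nat_lit 161445429111) (nat_lit 1) (nat_lit 4) (nat_lit 2) (nat_lit 5) (nat_lit 2) (nat_lit 4) (nat_lit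 313) (nat_lit 253) (nat_lit 214)) (XT.lf (nat_lit 0) (nat_lit 1546370033106) (nat_lit 76) (nat_lit 183297749744) (nat_lit 76) (nat_lit 178404670855) (nat_lit 1) (nat_lit 4) (nat_lit 2) (nat_lit 5) (nat_lit 2) (nat_lit 4) (nat_lit 314) (nat_lit 253) (nat_lit 213)))) (XT.nd (nat_lit 78) (nat_lit 0) (nat_lit 0) (XT.lf (nat_lit 0) (nat_lit 1792962286940) (nat_lit 76) (nat_lit 202811572163) (nat_lit 76) (nat_lit 197916101687) (nat_lit 1) (nat_lit 4) (nat_lit 2) (nat_lit 5) (nat_lit 2) (nat_lit 4) (nat_lit 315) (nat_lit 253) (nat_lit 212)) (XT.nd (nat_lit 78) (nat_lit 0) (nat_lit 0) (XT.lf (nat_lit 0) (nat_lit 2076530146274) (nat_lit 76) (nat_lit 225259017110) (nat_lit 76) (nat_lit 220361466992) (nat_lit 1) (nat_lit 4) (nat_lit 2) (nat_lit 5) (nat_lit 2) (nat_lit 4) (nat_lit 316) (nat_lit 253) (nat_lit 211)) (XT.lf (nat_lit 0) (nat_lit 2402621677920) (nat_lit 76) (nat_lit 251079273724) (nat_lit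 76) (nat_lit 246179915222) (nat_lit 1) (nat_lit 4) (nat_lit 2) (nat_lit 5) (nat_lit 2) (nat_lit 4) (nat_lit 317) (nat_lit 253) (nat_lit 210))))) (XT.nd (nat_lit 234) (nat_lit 0) (nat_lit 0) (XT.nd (nat_lit 78) (nat_lit 0) (nat_lit 0) (XT.lf (nat_lit 0) (nat_lit 2777616933584) (nat_lit 76) (nat_lit 280777520940) (nat_lit 76) (nat_lit 275876589929) (nat_lit 1) (nat_lit 4) (nat_lit 2) (nat_lit 5) (nat_lit 2) (nat_lit 4) (nat_lit 318) (nat_lit 253) (nat_lit 209)) (XT.nd (nat_lit 78) (nat_lit 0) (nat_lit 0) (XT.lf (nat_lit 0) (nat_lit 3208852776965) (nat_lit 76) (nat_lit 314934811419) (nat_lit 76) (nat_lit 310032513010) (nat_lit 1) (nat_lit 4) (nat_lit 2) (nat_lit 5) (nat_lit 2) (nat_lit 4) (nat_lit 319) (nat_lit 253) (nat_lit 208)) (XT.lf (nat_lit 0) (nat_lit 3704766431084) (nat_lit 76) (nat_lit 354219439977) (nat_lit 76) (nat_lit 349315952526) (nat_lit 1) (nat_lit 4) (nat_lit 2) (nat_lit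 5) (nat_lit 2) (nat_lit 4) (nat_lit 320) (nat_lit 253) (nat_lit 207)))) (XT.nd (nat_lit 78) (nat_lit 0) (nat_lit 0) (XT.lf (nat_lit 0) (nat_lit 4275060554392) (nat_lit 76) (nat_lit 399400018910) (nat_lit 76) (nat_lit 394495497510) (nat_lit 1) (nat_lit 4) (nat_lit 2) (nat_lit 5) (nat_lit 2) (nat_lit 4) (nat_lit 321) (nat_lit 253) (nat_lit 206)) (XT.nd (nat_lit 78) (nat_lit 0) (nat_lit 0) (XT.lf (nat_lit 0) (nat_lit 4930893075388) (nat_lit 76) (nat_lit 451360516068) (nat_lit 76) (nat_lit 446455095581) (nat_lit 1) (nat_lit 4) (nat_lit 2) (nat_lit 5) (nat_lit 2) (nat_lit 4) (nat_lit 322) (nat_lit 253) (nat_lit 205)) (XT.lf (nat_lit 0) (nat_lit 5685095499919) (nat_lit 76) (nat_lit 511117549872) (nat_lit 76) (nat_lit 506211347571) (nat_lit 1) (nat_lit 4) (nat_lit 2) (nat_lit 5) (nat_lit 2) (nat_lit 4) (nat_lit 323) (nat_lit 253) (nat_lit 204)))))) (XT.nd (nat_lit 36738) (nat_lit 0) (nat_lit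 684) (XT.nd (nat_lit 234) (nat_lit 0) (nat_lit 0) (XT.nd (nat_lit 78) (nat_lit 0) (nat_lit 0) (XT.lf (nat_lit 0) (nat_lit 6552423962376) (nat_lit 76) (nat_lit 579840279681) (nat_lit 76) (nat_lit 574933397541) (nat_lit 1) (nat_lit 4) (nat_lit 2) (nat_lit 5) (nat_lit 2) (nat_lit 4) (nat_lit 324) (nat_lit 253) (nat_lit 203)) (XT.nd (nat_lit 78) (nat_lit 0) (nat_lit 0) (XT.lf (nat_lit 0) (nat_lit 7549847932678) (nat_lit 76) (nat_lit 658873280643) (nat_lit 76) (nat_lit 653965807339) (nat_lit 1) (nat_lit 4) (nat_lit 2) (nat_lit 5) (nat_lit 2) (nat_lit 4) (nat_lit 325) (nat_lit 253) (nat_lit 202)) (XT.lf (nat_lit 0) (nat_lit 8696882227635) (nat_lit 76) (nat_lit 749762850601) (nat_lit 76) (nat_lit 744854863242) (nat_lit 1) (nat_lit 4) (nat_lit 2) (nat_lit 5) (nat_lit 2) (nat_lit 4) (nat_lit 326) (nat_lit 253) (nat_lit 201)))) (XT.nd (nat_lit 36348) (nat_lit 0) (nat_lit 1520) (XT.lf (nat_lit 0)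 (nat_lit 10015968822583) (nat_lit 76) (nat_lit 854287263753) (nat_lit 76) (nat_lit 849378829388) (nat_lit 1) (nat_lit 4) (nat_lit 2) (nat_lit 5) (nat_lit 2) (nat_lit 4) (nat_lit 327) (nat_lit 253) (nat_lit 200)) (XT.nd (nat_lit 78) (nat_lit 304) (nat_lit 0) (XT.lf (nat_lit 0) (nat_lit 2378034896) (nat_lit 228) (nat_lit 415613869) (nat_lit 0) (nat_lit 2378034896) (nat_lit 25) (nat_lit 5) (nat_lit 28) (nat_lit 4) (nat_lit 25) (nat_lit 4) (nat_lit 272) (nat_lit 254) (nat_lit 254)) (XT.lf (nat_lit 0) (nat_lit 2104832566) (nat_lit 152) (nat_lit 8092233439) (nat_lit 0) (nat_lit 935762957) (nat_lit 21) (nat_lit 5) (nat_lit 23) (nat_lit 4) (nat_lit 21) (nat_lit 4) (nat_lit 273) (nat_lit 254) (nat_lit 253))))) (XT.nd (nat_lit 234) (nat_lit 380) (nat_lit 0) (XT.nd (nat_lit 78) (nat_lit 304) (nat_lit 0) (XT.lf (nat_lit 0) (nat_lit 6669282115) (nat_lit 152) (nat_lit 3779993054) (nat_lit 152) (nat_lit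 1594341175) (nat_lit 19) (nat_lit 4) (nat_lit 21) (nat_lit 5) (nat_lit 21) (nat_lit 4) (nat_lit 274) (nat_lit 254) (nat_lit 252)) (XT.nd (nat_lit 78) (nat_lit 152) (nat_lit 0) (XT.lf (nat_lit 0) (nat_lit 6381885970) (nat_lit 152) (nat_lit 3174787260) (nat_lit 0) (nat_lit 3539629989) (nat_lit 17) (nat_lit 5) (nat_lit 19) (nat_lit 4) (nat_lit 17) (nat_lit 4) (nat_lit 275) (nat_lit 254) (nat_lit 251)) (XT.lf (nat_lit 0) (nat_lit 931763371) (nat_lit 152) (nat_lit 1615930987) (nat_lit 76) (nat_lit 11767575227) (nat_lit 15) (nat_lit 5) (nat_lit 17) (nat_lit 5) (nat_lit 16) (nat_lit 4) (nat_lit 276) (nat_lit 254) (nat_lit 250)))) (XT.nd (nat_lit 156) (nat_lit 152) (nat_lit 0) (XT.nd (nat_lit 78) (nat_lit 152) (nat_lit 0) (XT.lf (nat_lit 0) (nat_lit 9237964666) (nat_lit 152) (nat_lit 1098634173) (nat_lit 0) (nat_lit 5374163184) (nat_lit 14) (nat_lit 5) (nat_lit 16) (nat_lit 4) (nat_lit 14) (nat_lit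 4) (nat_lit 277) (nat_lit 254) (nat_lit 249)) (XT.lf (nat_lit 0) (nat_lit 1254728648) (nat_lit 152) (nat_lit 1752280547) (nat_lit 76) (nat_lit 14317805774) (nat_lit 12) (nat_lit 5) (nat_lit 14) (nat_lit 5) (nat_lit 13) (nat_lit 4) (nat_lit 278) (nat_lit 254) (nat_lit 248))) (XT.nd (nat_lit 78) (nat_lit 76) (nat_lit 0) (XT.lf (nat_lit 0) (nat_lit 9704541970) (nat_lit 152) (nat_lit 4203284619) (nat_lit 0) (nat_lit 5264326021) (nat_lit 11) (nat_lit 5) (nat_lit 13) (nat_lit 4) (nat_lit 11) (nat_lit 4) (nat_lit 279) (nat_lit 254) (nat_lit 247)) (XT.lf (nat_lit 0) (nat_lit 12517990983) (nat_lit 76) (nat_lit 6788608300) (nat_lit 76) (nat_lit 1999505805) (nat_lit 10) (nat_lit 4) (nat_lit 11) (nat_lit 5) (nat_lit 11) (nat_lit 4) (nat_lit 280) (nat_lit 254) (nat_lit 246))))))))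
noncomputable def xc16 : XT := (XT.nd (nat_lit 1872) (nat_lit 0) (nat_lit 0) (XT.nd (nat_lit 936) (nat_lit 76) (nat_lit 0) (XT.nd (nat_lit 468) (nat_lit 228) (nat_lit 0) (XT.nd (nat_lit 234) (nat_lit 152) (nat_lit 0) (XT.nd (nat_lit 78) (nat_lit 76) (nat_lit 0) (XT.lf (nat_lit 0) (nat_lit 6083614109) (nat_lit 152) (nat_lit 16309792931) (nat_lit 0) (nat_lit 1368352905) (nat_lit 8) (nat_lit 5) (nat_lit 10) (nat_lit 4) (nat_lit 8) (nat_lit 4) (nat_lit 281) (nat_lit 254) (nat_lit 245)) (XT.nd (nat_lit 78) (nat_lit 76) (nat_lit 0) (XT.lf (nat_lit 0) (nat_lit 15234177155) (nat_lit 152) (nat_lit 1075119849) (nat_lit 0) (nat_lit 10274648957) (nat_lit 8) (nat_lit 5) (nat_lit 10) (nat_lit 4) (nat_lit 8) (nat_lit 4) (nat_lit 282) (nat_lit 254) (nat_lit 244)) (XT.lf (nat_lit 0) (nat_lit 16468246035) (nat_lit 76) (nat_lit 9267526245) (nat_lit 76) (nat_lit 4095591967) (nat_lit 7) (nat_lit 4) (nat_lit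 8) (nat_lit 5) (nat_lit 8) (nat_lit 4) (nat_lit 283) (nat_lit 254) (nat_lit 243)))) (XT.nd (nat_lit 78) (nat_lit 0) (nat_lit 0) (XT.lf (nat_lit 0) (nat_lit 2409100417) (nat_lit 76) (nat_lit 1324426330) (nat_lit 152) (nat_lit 29848402676) (nat_lit 5) (nat_lit 5) (nat_lit 6) (nat_lit 5) (nat_lit 7) (nat_lit 4) (nat_lit 284) (nat_lit 254) (nat_lit 242)) (XT.nd (nat_lit 78) (nat_lit 0) (nat_lit 0) (XT.lf (nat_lit 0) (nat_lit 12723974607) (nat_lit 152) (nat_lit 17528948636) (nat_lit 0) (nat_lit 7615414671) (nat_lit 5) (nat_lit 5) (nat_lit 7) (nat_lit 4) (nat_lit 5) (nat_lit 4) (nat_lit 285) (nat_lit 254) (nat_lit 241)) (XT.lf (nat_lit 0) (nat_lit 22782732222) (nat_lit 152) (nat_lit 2492648687) (nat_lit 0) (nat_lit 17544857058) (nat_lit 5) (nat_lit 5) (nat_lit 7) (nat_lit 4) (nat_lit 5) (nat_lit 4) (nat_lit 286) (nat_lit 254) (nat_lit 240))))) (XT.nd (nat_lit 234) (nat_lit 76) (nat_lit 0) (XT.nd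 (nat_lit 78) (nat_lit 76) (nat_lit 0) (XT.lf (nat_lit 0) (nat_lit 15013129335) (nat_lit 76) (nat_lit 19422685672) (nat_lit 76) (nat_lit 14072362485) (nat_lit 4) (nat_lit 4) (nat_lit 5) (nat_lit 5) (nat_lit 5) (nat_lit 4) (nat_lit 287) (nat_lit 254) (nat_lit 239)) (XT.nd (nat_lit 78) (nat_lit 76) (nat_lit 0) (XT.lf (nat_lit 0) (nat_lit 34804189903) (nat_lit 76) (nat_lit 12853807063) (nat_lit 76) (nat_lit 7405702985) (nat_lit 4) (nat_lit 4) (nat_lit 5) (nat_lit 5) (nat_lit 5) (nat_lit 4) (nat_lit 288) (nat_lit 254) (nat_lit 238)) (XT.lf (nat_lit 0) (nat_lit 23515669) (nat_lit 152) (nat_lit 5484218345) (nat_lit 76) (nat_lit 57112332324) (nat_lit 3) (nat_lit 5) (nat_lit 5) (nat_lit 5) (nat_lit 4) (nat_lit 4) (nat_lit 289) (nat_lit 254) (nat_lit 237)))) (XT.nd (nat_lit 78) (nat_lit 0) (nat_lit 0) (XT.lf (nat_lit 0) (nat_lit 8301155450) (nat_lit 152) (nat_lit 59870172315) (nat_lit 0) (nat_lit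 3109426431) (nat_lit 2) (nat_lit 5) (nat_lit 4) (nat_lit 4) (nat_lit 2) (nat_lit 4) (nat_lit 290) (nat_lit 254) (nat_lit 236)) (XT.nd (nat_lit 78) (nat_lit 0) (nat_lit 0) (XT.lf (nat_lit 0) (nat_lit 17954381764) (nat_lit 152) (nat_lit 50572376091) (nat_lit 0) (nat_lit 12703122631) (nat_lit 2) (nat_lit 5) (nat_lit 4) (nat_lit 4) (nat_lit 2) (nat_lit 4) (nat_lit 291) (nat_lit 254) (nat_lit 235)) (XT.lf (nat_lit 0) (nat_lit 28897153717) (nat_lit 152) (nat_lit 40192811711) (nat_lit 0) (nat_lit 23594129268) (nat_lit 2) (nat_lit 5) (nat_lit 4) (nat_lit 4) (nat_lit 2) (nat_lit 4) (nat_lit 292) (nat_lit 254) (nat_lit 234)))))) (XT.nd (nat_lit 468) (nat_lit 0) (nat_lit 0) (XT.nd (nat_lit 234) (nat_lit 76) (nat_lit 0) (XT.nd (nat_lit 78) (nat_lit 0) (nat_lit 0) (XT.lf (nat_lit 0) (nat_lit 41343569020) (nat_lit 152) (nat_lit 28528400741) (nat_lit 0) (nat_lit 35995531253) (nat_lit 2) (nat_lit 5) (nat_lit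 4) (nat_lit 4) (nat_lit 2) (nat_lit 4) (nat_lit 293) (nat_lit 254) (nat_lit 233)) (XT.nd (nat_lit 78) (nat_lit 0) (nat_lit 0) (XT.lf (nat_lit 0) (nat_lit 55537144495) (nat_lit 152) (nat_lit 15350926444) (nat_lit 0) (nat_lit 50149964712) (nat_lit 2) (nat_lit 5) (nat_lit 4) (nat_lit 4) (nat_lit 2) (nat_lit 4) (nat_lit 294) (nat_lit 254) (nat_lit 232)) (XT.lf (nat_lit 0) (nat_lit 71755580533) (nat_lit 152) (nat_lit 402568673) (nat_lit 0) (nat_lit 66334364214) (nat_lit 2) (nat_lit 5) (nat_lit 4) (nat_lit 4) (nat_lit 2) (nat_lit 4) (nat_lit 295) (nat_lit 254) (nat_lit 231)))) (XT.nd (nat_lit 78) (nat_lit 0) (nat_lit 0) (XT.lf (nat_lit 0) (nat_lit 17483748344) (nat_lit 76) (nat_lit 73252930583) (nat_lit 76) (nat_lit 67802117276) (nat_lit 1) (nat_lit 4) (nat_lit 2) (nat_lit 5) (nat_lit 2) (nat_lit 4) (nat_lit 296) (nat_lit 254) (nat_lit 230)) (XT.nd (nat_lit 78) (nat_lit 0) (nat_lit 0) (XT.lf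 (nat_lit 0) (nat_lit 37913632120) (nat_lit 76) (nat_lit 74580320062) (nat_lit 76) (nat_lit 69103770244) (nat_lit 1) (nat_lit 4) (nat_lit 2) (nat_lit 5) (nat_lit 2) (nat_lit 4) (nat_lit 297) (nat_lit 254) (nat_lit 229)) (XT.lf (nat_lit 0) (nat_lit 61265599218) (nat_lit 76) (nat_lit 76177295249) (nat_lit 76) (nat_lit 70678365857) (nat_lit 1) (nat_lit 4) (nat_lit 2) (nat_lit 5) (nat_lit 2) (nat_lit 4) (nat_lit 298) (nat_lit 254) (nat_lit 228))))) (XT.nd (nat_lit 234) (nat_lit 0) (nat_lit 0) (XT.nd (nat_lit 78) (nat_lit 0) (nat_lit 0) (XT.lf (nat_lit 0) (nat_lit 87996535951) (nat_lit 76) (nat_lit 78075101310) (nat_lit 76) (nat_lit 72556711418) (nat_lit 1) (nat_lit 4) (nat_lit 2) (nat_lit 5) (nat_lit 2) (nat_lit 4) (nat_lit 299) (nat_lit 254) (nat_lit 227)) (XT.nd (nat_lit 78) (nat_lit 0) (nat_lit 0) (XT.lf (nat_lit 0) (nat_lit 118629438908) (nat_lit 76) (nat_lit 80310869235) (nat_lit 76) (nat_lit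 74775557169) (nat_lit 1) (nat_lit 4) (nat_lit 2) (nat_lit 5) (nat_lit 2) (nat_lit 4) (nat_lit 300) (nat_lit 254) (nat_lit 226)) (XT.lf (nat_lit 0) (nat_lit 153763647494) (nat_lit 76) (nat_lit 82928342307) (nat_lit 76) (nat_lit 77378315307) (nat_lit 1) (nat_lit 4) (nat_lit 2) (nat_lit 5) (nat_lit 2) (nat_lit 4) (nat_lit 301) (nat_lit 254) (nat_lit 225)))) (XT.nd (nat_lit 78) (nat_lit 0) (nat_lit 0) (XT.lf (nat_lit 0) (nat_lit 194086570138) (nat_lit 76) (nat_lit 85978731957) (nat_lit 76) (nat_lit 80415909363) (nat_lit 1) (nat_lit 4) (nat_lit 2) (nat_lit 5) (nat_lit 2) (nat_lit 4) (nat_lit 302) (nat_lit 254) (nat_lit 224)) (XT.nd (nat_lit 78) (nat_lit 0) (nat_lit 0) (XT.lf (nat_lit 0) (nat_lit 240387133587) (nat_lit 76) (nat_lit 89521719721) (nat_lit 76) (nat_lit 83947770523) (nat_lit 1) (nat_lit 4) (nat_lit 2) (nat_lit 5) (nat_lit 2) (nat_lit 4) (nat_lit 303) (nat_lit 254) (nat_lit 223))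 (XT.lf (nat_lit 0) (nat_lit 293571218431) (nat_lit 76) (nat_lit 93626624926) (nat_lit 76) (nat_lit 88043000420) (nat_lit 1) (nat_lit 4) (nat_lit 2) (nat_lit 5) (nat_lit 2) (nat_lit 4) (nat_lit 304) (nat_lit 254) (nat_lit 222))))))) (XT.nd (nat_lit 936) (nat_lit 0) (nat_lit 0) (XT.nd (nat_lit 468) (nat_lit 0) (nat_lit 0) (XT.nd (nat_lit 234) (nat_lit 0) (nat_lit 0) (XT.nd (nat_lit 78) (nat_lit 0) (nat_lit 0) (XT.lf (nat_lit 0) (nat_lit 354679382851) (nat_lit 76) (nat_lit 98373760933) (nat_lit 76) (nat_lit 92781723116) (nat_lit 1) (nat_lit 4) (nat_lit 2) (nat_lit 5) (nat_lit 2) (nat_lit 4) (nat_lit 305) (nat_lit 254) (nat_lit 221)) (XT.nd (nat_lit 78) (nat_lit 0) (nat_lit 0) (XT.lf (nat_lit 0) (nat_lit 424907221369) (nat_lit 76) (nat_lit 103856006491) (nat_lit 76) (nat_lit 98256652752) (nat_lit 1) (nat_lit 4) (nat_lit 2) (nat_lit 5) (nat_lit 2) (nat_lit 4) (nat_lit 306) (nat_lit 254) (nat_lit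 220)) (XT.lf (nat_lit 0) (nat_lit 505628756912) (nat_lit 76) (nat_lit 110180622927) (nat_lit 76) (nat_lit 104574907515) (nat_lit 1) (nat_lit 4) (nat_lit 2) (nat_lit 5) (nat_lit 2) (nat_lit 4) (nat_lit 307) (nat_lit 254) (nat_lit 219)))) (XT.nd (nat_lit 78) (nat_lit 0) (nat_lit 0) (XT.lf (nat_lit 0) (nat_lit 598423323871) (nat_lit 76) (nat_lit 117471352734) (nat_lit 76) (nat_lit 111860105435) (nat_lit 1) (nat_lit 4) (nat_lit 2) (nat_lit 5) (nat_lit 2) (nat_lit 4) (nat_lit 308) (nat_lit 254) (nat_lit 218)) (XT.nd (nat_lit 78) (nat_lit 0) (nat_lit 0) (XT.lf (nat_lit 0) (nat_lit 705106468121) (nat_lit 76) (nat_lit 125870840628) (nat_lit 76) (nat_lit 120254782991) (nat_lit 1) (nat_lit 4) (nat_lit 2) (nat_lit 5) (nat_lit 2) (nat_lit 4) (nat_lit 309) (nat_lit 254) (nat_lit 217)) (XT.lf (nat_lit 0) (nat_lit 827765468573) (nat_lit 76) (nat_lit 135543424415) (nat_lit 76) (nat_lit 129923183875) (nat_lit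 1) (nat_lit 4) (nat_lit 2) (nat_lit 5) (nat_lit 2) (nat_lit 4) (nat_lit 310) (nat_lit 254) (nat_lit 216))))) (XT.nd (nat_lit 234) (nat_lit 0) (nat_lit 0) (XT.nd (nat_lit 78) (nat_lit 0) (nat_lit 0) (XT.lf (nat_lit 0) (nat_lit 968800175233) (nat_lit 76) (nat_lit 146678350299) (nat_lit 76) (nat_lit 141054472452) (nat_lit 1) (nat_lit 4) (nat_lit 2) (nat_lit 5) (nat_lit 2) (nat_lit 4) (nat_lit 311) (nat_lit 254) (nat_lit 215)) (XT.nd (nat_lit 78) (nat_lit 0) (nat_lit 0) (XT.lf (nat_lit 0) (nat_lit 1130969962799) (nat_lit 76) (nat_lit 159493475525) (nat_lit 76) (nat_lit 153866434804) (nat_lit 1) (nat_lit 4) (nat_lit 2) (nat_lit 5) (nat_lit 2) (nat_lit 4) (nat_lit 312) (nat_lit 254) (nat_lit 214)) (XT.lf (nat_lit 0) (nat_lit 1317447718418) (nat_lit 76) (nat_lit 174239530806) (nat_lit 76) (nat_lit 168609739758) (nat_lit 1) (nat_lit 4) (nat_lit 2) (nat_lit 5) (nat_lit 2) (nat_lit 4) (nat_lit 313)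 (nat_lit 254) (nat_lit 213)))) (XT.nd (nat_lit 78) (nat_lit 0) (nat_lit 0) (XT.lf (nat_lit 0) (nat_lit 1531881919917) (nat_lit 76) (nat_lit 191205025917) (nat_lit 76) (nat_lit 185572843281) (nat_lit 1) (nat_lit 4) (nat_lit 2) (nat_lit 5) (nat_lit 2) (nat_lit 4) (nat_lit 314) (nat_lit 254) (nat_lit 212)) (XT.nd (nat_lit 78) (nat_lit 0) (nat_lit 0) (XT.lf (nat_lit 0) (nat_lit 1778468019065) (nat_lit 76) (nat_lit 210721894460) (nat_lit 76) (nat_lit 205087632182) (nat_lit 1) (nat_lit 4) (nat_lit 2) (nat_lit 5) (nat_lit 2) (nat_lit 4) (nat_lit 315) (nat_lit 254) (nat_lit 211)) (XT.lf (nat_lit 0) (nat_lit 2062030526497) (nat_lit 76) (nat_lit 233171988209) (nat_lit 76) (nat_lit 227535917547) (nat_lit 1) (nat_lit 4) (nat_lit 2) (nat_lit 5) (nat_lit 2) (nat_lit 4) (nat_lit 316) (nat_lit 254) (nat_lit 210)))))) (XT.nd (nat_lit 468) (nat_lit 0) (nat_lit 0) (XT.nd (nat_lit 234) (nat_lit 0) (nat_lit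 0) (XT.nd (nat_lit 78) (nat_lit 0) (nat_lit 0) (XT.lf (nat_lit 0) (nat_lit 2388117404316) (nat_lit 76) (nat_lit 258994548130) (nat_lit 76) (nat_lit 253356904960) (nat_lit 1) (nat_lit 4) (nat_lit 2) (nat_lit 5) (nat_lit 2) (nat_lit 4) (nat_lit 317) (nat_lit 254) (nat_lit 209)) (XT.nd (nat_lit 78) (nat_lit 0) (nat_lit 0) (XT.lf (nat_lit 0) (nat_lit 2763108613174) (nat_lit 76) (nat_lit 288694798221) (nat_lit 76) (nat_lit 283055787652) (nat_lit 1) (nat_lit 4) (nat_lit 2) (nat_lit 5) (nat_lit 2) (nat_lit 4) (nat_lit 318) (nat_lit 254) (nat_lit 208)) (XT.lf (nat_lit 0) (nat_lit 3194340937592) (nat_lit 76) (nat_lit 322853830331) (nat_lit 76) (nat_lit 317213630720) (nat_lit 1) (nat_lit 4) (nat_lit 2) (nat_lit 5) (nat_lit 2) (nat_lit 4) (nat_lit 319) (nat_lit 254) (nat_lit 207)))) (XT.nd (nat_lit 78) (nat_lit 0) (nat_lit 0) (XT.lf (nat_lit 0) (nat_lit 3690251531744) (nat_lit 76) (nat_lit 362139973350)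 (nat_lit 76) (nat_lit 356498739790) (nat_lit 1) (nat_lit 4) (nat_lit 2) (nat_lit 5) (nat_lit 2) (nat_lit 4) (nat_lit 320) (nat_lit 254) (nat_lit 206)) (XT.nd (nat_lit 78) (nat_lit 0) (nat_lit 0) (XT.lf (nat_lit 0) (nat_lit 4260542994211) (nat_lit 76) (nat_lit 407321869206) (nat_lit 76) (nat_lit 401679736559) (nat_lit 1) (nat_lit 4) (nat_lit 2) (nat_lit 5) (nat_lit 2) (nat_lit 4) (nat_lit 321) (nat_lit 254) (nat_lit 205)) (XT.lf (nat_lit 0) (nat_lit 4916373201433) (nat_lit 76) (nat_lit 459283511514) (nat_lit 76) (nat_lit 453640597053) (nat_lit 1) (nat_lit 4) (nat_lit 2) (nat_lit 5) (nat_lit 2) (nat_lit 4) (nat_lit 322) (nat_lit 254) (nat_lit 204))))) (XT.nd (nat_lit 234) (nat_lit 0) (nat_lit 0) (XT.nd (nat_lit 78) (nat_lit 0) (nat_lit 0) (XT.lf (nat_lit 0) (nat_lit 5670573613986) (nat_lit 76) (nat_lit 519041541102) (nat_lit 76) (nat_lit 513397946802) (nat_lit 1) (nat_lit 4) (nat_lit 2)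 (nat_lit 5) (nat_lit 2) (nat_lit 4) (nat_lit 323) (nat_lit 254) (nat_lit 203)) (XT.nd (nat_lit 78) (nat_lit 0) (nat_lit 0) (XT.lf (nat_lit 0) (nat_lit 6537900326897) (nat_lit 76) (nat_lit 587765136809) (nat_lit 76) (nat_lit 582120951345) (nat_lit 1) (nat_lit 4) (nat_lit 2) (nat_lit 5) (nat_lit 2) (nat_lit 4) (nat_lit 324) (nat_lit 254) (nat_lit 202)) (XT.lf (nat_lit 0) (nat_lit 7535322775855) (nat_lit 76) (nat_lit 666798890725) (nat_lit 76) (nat_lit 661154191206) (nat_lit 1) (nat_lit 4) (nat_lit 2) (nat_lit 5) (nat_lit 2) (nat_lit 4) (nat_lit 325) (nat_lit 254) (nat_lit 201)))) (XT.nd (nat_lit 36270) (nat_lit 0) (nat_lit 2052) (XT.nd (nat_lit 78) (nat_lit 0) (nat_lit 0) (XT.lf (nat_lit 0) (nat_lit 8682355747904) (nat_lit 76) (nat_lit 757689115428) (nat_lit 76) (nat_lit 752043968903) (nat_lit 1) (nat_lit 4) (nat_lit 2) (nat_lit 5) (nat_lit 2) (nat_lit 4) (nat_lit 326) (nat_lit 254) (nat_lit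 200)) (XT.lf (nat_lit 0) (nat_lit 10001441192497) (nat_lit 76) (nat_lit 862214097921) (nat_lit 76) (nat_lit 856568562697) (nat_lit 1) (nat_lit 4) (nat_lit 2) (nat_lit 5) (nat_lit 2) (nat_lit 4) (nat_lit 327) (nat_lit 254) (nat_lit 199))) (XT.nd (nat_lit 78) (nat_lit 152) (nat_lit 0) (XT.lf (nat_lit 0) (nat_lit 308736308) (nat_lit 228) (nat_lit 3912095840) (nat_lit 0) (nat_lit 308736308) (nat_lit 30) (nat_lit 5) (nat_lit 33) (nat_lit 4) (nat_lit 30) (nat_lit 4) (nat_lit 270) (nat_lit 255) (nat_lit 255)) (XT.lf (nat_lit 0) (nat_lit 5041799064) (nat_lit 152) (nat_lit 3096122384) (nat_lit 152) (nat_lit 1527979173) (nat_lit 28) (nat_lit 4) (nat_lit 30) (nat_lit 5) (nat_lit 30) (nat_lit 4) (nat_lit 271) (nat_lit 255) (nat_lit 254))))))))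
noncomputable def xc17 : XT := (XT.nd (nat_lit 1872) (nat_lit 76) (nat_lit 0) (XT.nd (nat_lit 936) (nat_lit 380) (nat_lit 0) (XT.nd (nat_lit 468) (nat_lit 532) (nat_lit 0) (XT.nd (nat_lit 234) (nat_lit 380) (nat_lit 0) (XT.nd (nat_lit 78) (nat_lit 456) (nat_lit 0) (XT.lf (nat_lit 0) (nat_lit 5803463565) (nat_lit 228) (nat_lit 1483885229) (nat_lit 0) (nat_lit 3088883932) (nat_lit 25) (nat_lit 5) (nat_lit 28) (nat_lit 4) (nat_lit 25) (nat_lit 4) (nat_lit 272) (nat_lit 255) (nat_lit 253)) (XT.nd (nat_lit 78) (nat_lit 152) (nat_lit 0) (XT.lf (nat_lit 0) (nat_lit 1631615819) (nat_lit 76) (nat_lit 985742018) (nat_lit 152) (nat_lit 8582885842) (nat_lit 21) (nat_lit 5) (nat_lit 22) (nat_lit 5) (nat_lit 23) (nat_lit 4) (nat_lit 273) (nat_lit 255) (nat_lit 252)) (XT.lf (nat_lit 0) (nat_lit 4521622336) (nat_lit 152) (nat_lit 6018768393) (nat_lit 152) (nat_lit 1604701881) (nat_lit 19) (nat_lit 4)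 (nat_lit 21) (nat_lit 5) (nat_lit 21) (nat_lit 4) (nat_lit 274) (nat_lit 255) (nat_lit 251)))) (XT.nd (nat_lit 78) (nat_lit 228) (nat_lit 0) (XT.lf (nat_lit 0) (nat_lit 5917478195) (nat_lit 152) (nat_lit 6198330511) (nat_lit 0) (nat_lit 1118636754) (nat_lit 17) (nat_lit 5) (nat_lit 19) (nat_lit 4) (nat_lit 17) (nat_lit 4) (nat_lit 275) (nat_lit 255) (nat_lit 250)) (XT.nd (nat_lit 78) (nat_lit 152) (nat_lit 0) (XT.lf (nat_lit 0) (nat_lit 8987799515) (nat_lit 76) (nat_lit 5458247152) (nat_lit 76) (nat_lit 40498912) (nat_lit 16) (nat_lit 4) (nat_lit 17) (nat_lit 5) (nat_lit 17) (nat_lit 4) (nat_lit 276) (nat_lit 255) (nat_lit 249)) (XT.lf (nat_lit 0) (nat_lit 7801055970) (nat_lit 152) (nat_lit 5832282598) (nat_lit 0) (nat_lit 2286307761) (nat_lit 14) (nat_lit 5) (nat_lit 16) (nat_lit 4) (nat_lit 14) (nat_lit 4) (nat_lit 277) (nat_lit 255) (nat_lit 248))))) (XT.nd (nat_lit 234) (nat_lit 228)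 (nat_lit 0) (XT.nd (nat_lit 78) (nat_lit 228) (nat_lit 0) (XT.lf (nat_lit 0) (nat_lit 10128942028) (nat_lit 76) (nat_lit 6693326540) (nat_lit 76) (nat_lit 745261241) (nat_lit 13) (nat_lit 4) (nat_lit 14) (nat_lit 5) (nat_lit 14) (nat_lit 4) (nat_lit 278) (nat_lit 255) (nat_lit 247)) (XT.nd (nat_lit 78) (nat_lit 76) (nat_lit 0) (XT.lf (nat_lit 0) (nat_lit 7248832717) (nat_lit 152) (nat_lit 10814567995) (nat_lit 0) (nat_lit 1392478301) (nat_lit 11) (nat_lit 5) (nat_lit 13) (nat_lit 4) (nat_lit 11) (nat_lit 4) (nat_lit 279) (nat_lit 255) (nat_lit 246)) (XT.lf (nat_lit 0) (nat_lit 5117704353) (nat_lit 76) (nat_lit 11332036399) (nat_lit 76) (nat_lit 5172302378) (nat_lit 10) (nat_lit 4) (nat_lit 11) (nat_lit 5) (nat_lit 11) (nat_lit 4) (nat_lit 280) (nat_lit 255) (nat_lit 245)))) (XT.nd (nat_lit 78) (nat_lit 152) (nat_lit 0) (XT.lf (nat_lit 0) (nat_lit 2646110484) (nat_lit 152) (nat_lit 919632566)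 (nat_lit 76) (nat_lit 20552029633) (nat_lit 9) (nat_lit 5) (nat_lit 11) (nat_lit 5) (nat_lit 10) (nat_lit 4) (nat_lit 281) (nat_lit 255) (nat_lit 244)) (XT.nd (nat_lit 78) (nat_lit 76) (nat_lit 0) (XT.lf (nat_lit 0) (nat_lit 11492791652) (nat_lit 152) (nat_lit 10138900250) (nat_lit 0) (nat_lit 5332661151) (nat_lit 8) (nat_lit 5) (nat_lit 10) (nat_lit 4) (nat_lit 8) (nat_lit 4) (nat_lit 282) (nat_lit 255) (nat_lit 243)) (XT.lf (nat_lit 0) (nat_lit 6586451061) (nat_lit 76) (nat_lit 15001374735) (nat_lit 76) (nat_lit 8656543295) (nat_lit 7) (nat_lit 4) (nat_lit 8) (nat_lit 5) (nat_lit 8) (nat_lit 4) (nat_lit 283) (nat_lit 255) (nat_lit 242)))))) (XT.nd (nat_lit 468) (nat_lit 152) (nat_lit 0) (XT.nd (nat_lit 234) (nat_lit 76) (nat_lit 0) (XT.nd (nat_lit 78) (nat_lit 152) (nat_lit 0) (XT.lf (nat_lit 0) (nat_lit 25797565445) (nat_lit 76) (nat_lit 7363636178) (nat_lit 76) (nat_lit 858195225)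 (nat_lit 7) (nat_lit 4) (nat_lit 8) (nat_lit 5) (nat_lit 8) (nat_lit 4) (nat_lit 284) (nat_lit 255) (nat_lit 241)) (XT.nd (nat_lit 78) (nat_lit 0) (nat_lit 0) (XT.lf (nat_lit 0) (nat_lit 7668996164) (nat_lit 152) (nat_lit 29162881818) (nat_lit 0) (nat_lit 1516124498) (nat_lit 5) (nat_lit 5) (nat_lit 7) (nat_lit 4) (nat_lit 5) (nat_lit 4) (nat_lit 285) (nat_lit 255) (nat_lit 240)) (XT.lf (nat_lit 0) (nat_lit 17599588852) (nat_lit 152) (nat_lit 14376342079) (nat_lit 0) (nat_lit 11334269162) (nat_lit 5) (nat_lit 5) (nat_lit 7) (nat_lit 4) (nat_lit 5) (nat_lit 4) (nat_lit 286) (nat_lit 255) (nat_lit 239)))) (XT.nd (nat_lit 78) (nat_lit 0) (nat_lit 0) (XT.lf (nat_lit 0) (nat_lit 2275042458) (nat_lit 76) (nat_lit 26559830122) (nat_lit 76) (nat_lit 20196729542) (nat_lit 4) (nat_lit 4) (nat_lit 5) (nat_lit 5) (nat_lit 5) (nat_lit 4) (nat_lit 287) (nat_lit 255) (nat_lit 238)) (XT.nd (nat_lit 78)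 (nat_lit 0) (nat_lit 0) (XT.lf (nat_lit 0) (nat_lit 21867303676) (nat_lit 76) (nat_lit 20088058635) (nat_lit 76) (nat_lit 13639931193) (nat_lit 4) (nat_lit 4) (nat_lit 5) (nat_lit 5) (nat_lit 5) (nat_lit 4) (nat_lit 288) (nat_lit 255) (nat_lit 237)) (XT.lf (nat_lit 0) (nat_lit 44026735727) (nat_lit 76) (nat_lit 12827069524) (nat_lit 76) (nat_lit 6305005681) (nat_lit 4) (nat_lit 4) (nat_lit 5) (nat_lit 5) (nat_lit 5) (nat_lit 4) (nat_lit 289) (nat_lit 255) (nat_lit 236))))) (XT.nd (nat_lit 234) (nat_lit 0) (nat_lit 0) (XT.nd (nat_lit 78) (nat_lit 76) (nat_lit 0) (XT.lf (nat_lit 0) (nat_lit 1853931651) (nat_lit 152) (nat_lit 2730178529) (nat_lit 76) (nat_lit 67282271290) (nat_lit 3) (nat_lit 5) (nat_lit 5) (nat_lit 5) (nat_lit 4) (nat_lit 4) (nat_lit 290) (nat_lit 255) (nat_lit 235)) (XT.nd (nat_lit 78) (nat_lit 0) (nat_lit 0) (XT.lf (nat_lit 0) (nat_lit 11252304040) (nat_lit 152) (nat_lit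 65481551849) (nat_lit 0) (nat_lit 5102060608) (nat_lit 2) (nat_lit 5) (nat_lit 4) (nat_lit 4) (nat_lit 2) (nat_lit 4) (nat_lit 291) (nat_lit 255) (nat_lit 234)) (XT.lf (nat_lit 0) (nat_lit 22130995787) (nat_lit 152) (nat_lit 55228540058) (nat_lit 0) (nat_lit 15935739037) (nat_lit 2) (nat_lit 5) (nat_lit 4) (nat_lit 4) (nat_lit 2) (nat_lit 4) (nat_lit 292) (nat_lit 255) (nat_lit 233)))) (XT.nd (nat_lit 78) (nat_lit 0) (nat_lit 0) (XT.lf (nat_lit 0) (nat_lit 34521689173) (nat_lit 152) (nat_lit 43674174818) (nat_lit 0) (nat_lit 28287290406) (nat_lit 2) (nat_lit 5) (nat_lit 4) (nat_lit 4) (nat_lit 2) (nat_lit 4) (nat_lit 293) (nat_lit 255) (nat_lit 232)) (XT.nd (nat_lit 78) (nat_lit 0) (nat_lit 0) (XT.lf (nat_lit 0) (nat_lit 48666810807) (nat_lit 152) (nat_lit 30592392461) (nat_lit 0) (nat_lit 42398375504) (nat_lit 2) (nat_lit 5) (nat_lit 4) (nat_lit 4) (nat_lit 2) (nat_lit 4) (nat_lit 294)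 (nat_lit 255) (nat_lit 231)) (XT.lf (nat_lit 0) (nat_lit 64843113069) (nat_lit 152) (nat_lit 15727245071) (nat_lit 0) (nat_lit 58545080779) (nat_lit 2) (nat_lit 5) (nat_lit 4) (nat_lit 4) (nat_lit 2) (nat_lit 4) (nat_lit 295) (nat_lit 255) (nat_lit 230))))))) (XT.nd (nat_lit 936) (nat_lit 0) (nat_lit 0) (XT.nd (nat_lit 468) (nat_lit 0) (nat_lit 0) (XT.nd (nat_lit 234) (nat_lit 0) (nat_lit 0) (XT.nd (nat_lit 78) (nat_lit 0) (nat_lit 0) (XT.lf (nat_lit 0) (nat_lit 1275934607) (nat_lit 76) (nat_lit 82121840480) (nat_lit 76) (nat_lit 75798071679) (nat_lit 1) (nat_lit 4) (nat_lit 2) (nat_lit 5) (nat_lit 2) (nat_lit 4) (nat_lit 296) (nat_lit 255) (nat_lit 229)) (XT.nd (nat_lit 78) (nat_lit 0) (nat_lit 0) (XT.lf (nat_lit 0) (nat_lit 21639586176) (nat_lit 76) (nat_lit 83482010092) (nat_lit 76) (nat_lit 77135861716) (nat_lit 1) (nat_lit 4) (nat_lit 2) (nat_lit 5) (nat_lit 2) (nat_lit 4) (nat_lit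 297) (nat_lit 255) (nat_lit 228)) (XT.lf (nat_lit 0) (nat_lit 44933960051) (nat_lit 76) (nat_lit 85107489743) (nat_lit 76) (nat_lit 78741880867) (nat_lit 1) (nat_lit 4) (nat_lit 2) (nat_lit 5) (nat_lit 2) (nat_lit 4) (nat_lit 298) (nat_lit 255) (nat_lit 227)))) (XT.nd (nat_lit 78) (nat_lit 0) (nat_lit 0) (XT.lf (nat_lit 0) (nat_lit 71614815721) (nat_lit 76) (nat_lit 87030082294) (nat_lit 76) (nat_lit 80647551245) (nat_lit 1) (nat_lit 4) (nat_lit 2) (nat_lit 5) (nat_lit 2) (nat_lit 4) (nat_lit 299) (nat_lit 255) (nat_lit 226)) (XT.nd (nat_lit 78) (nat_lit 0) (nat_lit 0) (XT.lf (nat_lit 0) (nat_lit 102204169927) (nat_lit 76) (nat_lit 89287403688) (nat_lit 76) (nat_lit 82890157705) (nat_lit 1) (nat_lit 4) (nat_lit 2) (nat_lit 5) (nat_lit 2) (nat_lit 4) (nat_lit 300) (nat_lit 255) (nat_lit 225)) (XT.lf (nat_lit 0) (nat_lit 137300510034) (nat_lit 76) (nat_lit 91923618907) (nat_lit 76) (nat_lit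 85513577330) (nat_lit 1) (nat_lit 4) (nat_lit 2) (nat_lit 5) (nat_lit 2) (nat_lit 4) (nat_lit 301) (nat_lit 255) (nat_lit 224))))) (XT.nd (nat_lit 234) (nat_lit 0) (nat_lit 0) (XT.nd (nat_lit 78) (nat_lit 0) (nat_lit 0) (XT.lf (nat_lit 0) (nat_lit 177590503566) (nat_lit 76) (nat_lit 94990306077) (nat_lit 76) (nat_lit 88569137896) (nat_lit 1) (nat_lit 4) (nat_lit 2) (nat_lit 5) (nat_lit 2) (nat_lit 4) (nat_lit 302) (nat_lit 255) (nat_lit 223)) (XT.nd (nat_lit 78) (nat_lit 0) (nat_lit 0) (XT.lf (nat_lit 0) (nat_lit 223862433004) (nat_lit 76) (nat_lit 98547465597) (nat_lit 76) (nat_lit 92116622108) (nat_lit 1) (nat_lit 4) (nat_lit 2) (nat_lit 5) (nat_lit 2) (nat_lit 4) (nat_lit 303) (nat_lit 255) (nat_lit 222)) (XT.lf (nat_lit 0) (nat_lit 277021618709) (nat_lit 76) (nat_lit 102664694068) (nat_lit 76) (nat_lit 96225437268) (nat_lit 1) (nat_lit 4) (nat_lit 2) (nat_lit 5) (nat_lit 2) (nat_lit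 4) (nat_lit 304) (nat_lit 255) (nat_lit 221)))) (XT.nd (nat_lit 78) (nat_lit 0) (nat_lit 0) (XT.lf (nat_lit 0) (nat_lit 338108131703) (nat_lit 76) (nat_lit 107422545959) (nat_lit 76) (nat_lit 100975973236) (nat_lit 1) (nat_lit 4) (nat_lit 2) (nat_lit 5) (nat_lit 2) (nat_lit 4) (nat_lit 305) (nat_lit 255) (nat_lit 220)) (XT.nd (nat_lit 78) (nat_lit 0) (nat_lit 0) (XT.lf (nat_lit 0) (nat_lit 408317142894) (nat_lit 76) (nat_lit 112914109677) (nat_lit 76) (nat_lit 106461175282) (nat_lit 1) (nat_lit 4) (nat_lit 2) (nat_lit 5) (nat_lit 2) (nat_lit 4) (nat_lit 306) (nat_lit 255) (nat_lit 219)) (XT.lf (nat_lit 0) (nat_lit 489022306848) (nat_lit 76) (nat_lit 119246828860) (nat_lit 76) (nat_lit 112788362576) (nat_lit 1) (nat_lit 4) (nat_lit 2) (nat_lit 5) (nat_lit 2) (nat_lit 4) (nat_lit 307) (nat_lit 255) (nat_lit 218)))))) (XT.nd (nat_lit 468) (nat_lit 0) (nat_lit 0) (XT.nd (nat_lit 234) (nat_lit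 0) (nat_lit 0) (XT.nd (nat_lit 78) (nat_lit 0) (nat_lit 0) (XT.lf (nat_lit 0) (nat_lit 581802637643) (nat_lit 76) (nat_lit 126544604535) (nat_lit 76) (nat_lit 120081327914) (nat_lit 1) (nat_lit 4) (nat_lit 2) (nat_lit 5) (nat_lit 2) (nat_lit 4) (nat_lit 308) (nat_lit 255) (nat_lit 217)) (XT.nd (nat_lit 78) (nat_lit 0) (nat_lit 0) (XT.lf (nat_lit 0) (nat_lit 688473402621) (nat_lit 76) (nat_lit 134950219270) (nat_lit 76) (nat_lit 128482759746) (nat_lit 1) (nat_lit 4) (nat_lit 2) (nat_lit 5) (nat_lit 2) (nat_lit 4) (nat_lit 309) (nat_lit 255) (nat_lit 216)) (XT.lf (nat_lit 0) (nat_lit 811121638487) (nat_lit 76) (nat_lit 144628130745) (nat_lit 76) (nat_lit 138157033914) (nat_lit 1) (nat_lit 4) (nat_lit 2) (nat_lit 5) (nat_lit 2) (nat_lit 4) (nat_lit 310) (nat_lit 255) (nat_lit 215)))) (XT.nd (nat_lit 78) (nat_lit 0) (nat_lit 0) (XT.lf (nat_lit 0) (nat_lit 952146984639) (nat_lit 76) (nat_lit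 155767689401) (nat_lit 76) (nat_lit 149293429695) (nat_lit 1) (nat_lit 4) (nat_lit 2) (nat_lit 5) (nat_lit 2) (nat_lit 4) (nat_lit 311) (nat_lit 255) (nat_lit 214)) (XT.nd (nat_lit 78) (nat_lit 0) (nat_lit 0) (XT.lf (nat_lit 0) (nat_lit 1114308632631) (nat_lit 76) (nat_lit 168586843125) (nat_lit 76) (nat_lit 162109833093) (nat_lit 1) (nat_lit 4) (nat_lit 2) (nat_lit 5) (nat_lit 2) (nat_lit 4) (nat_lit 312) (nat_lit 255) (nat_lit 213)) (XT.lf (nat_lit 0) (nat_lit 1300779310361) (nat_lit 76) (nat_lit 183336401447) (nat_lit 76) (nat_lit 176856999827) (nat_lit 1) (nat_lit 4) (nat_lit 2) (nat_lit 5) (nat_lit 2) (nat_lit 4) (nat_lit 313) (nat_lit 255) (nat_lit 212))))) (XT.nd (nat_lit 234) (nat_lit 0) (nat_lit 0) (XT.nd (nat_lit 78) (nat_lit 0) (nat_lit 0) (XT.lf (nat_lit 0) (nat_lit 1515207357173) (nat_lit 76) (nat_lit 200304942681) (nat_lit 76) (nat_lit 193823461420) (nat_lit 1) (nat_lit 4)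 (nat_lit 2) (nat_lit 5) (nat_lit 2) (nat_lit 4) (nat_lit 314) (nat_lit 255) (nat_lit 211)) (XT.nd (nat_lit 78) (nat_lit 0) (nat_lit 0) (XT.lf (nat_lit 0) (nat_lit 1761788104420) (nat_lit 76) (nat_lit 219824460026) (nat_lit 76) (nat_lit 213341170380) (nat_lit 1) (nat_lit 4) (nat_lit 2) (nat_lit 5) (nat_lit 2) (nat_lit 4) (nat_lit 315) (nat_lit 255) (nat_lit 210)) (XT.lf (nat_lit 0) (nat_lit 2045345958025) (nat_lit 76) (nat_lit 242276857082) (nat_lit 76) (nat_lit 235791994928) (nat_lit 1) (nat_lit 4) (nat_lit 2) (nat_lit 5) (nat_lit 2) (nat_lit 4) (nat_lit 316) (nat_lit 255) (nat_lit 209)))) (XT.nd (nat_lit 156) (nat_lit 0) (nat_lit 0) (XT.nd (nat_lit 78) (nat_lit 0) (nat_lit 0) (XT.lf (nat_lit 0) (nat_lit 2371428789038) (nat_lit 76) (nat_lit 268101419878) (nat_lit 76) (nat_lit 261615190326) (nat_lit 1) (nat_lit 4) (nat_lit 2) (nat_lit 5) (nat_lit 2) (nat_lit 4) (nat_lit 317) (nat_lit 255)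 (nat_lit 208)) (XT.lf (nat_lit 0) (nat_lit 2746416478933) (nat_lit 76) (nat_lit 297803411599) (nat_lit 76) (nat_lit 291315993005) (nat_lit 1) (nat_lit 4) (nat_lit 2) (nat_lit 5) (nat_lit 2) (nat_lit 4) (nat_lit 318) (nat_lit 255) (nat_lit 207))) (XT.nd (nat_lit 78) (nat_lit 0) (nat_lit 0) (XT.lf (nat_lit 0) (nat_lit 3177645743385) (nat_lit 76) (nat_lit 331963958171) (nat_lit 76) (nat_lit 325475505628) (nat_lit 1) (nat_lit 4) (nat_lit 2) (nat_lit 5) (nat_lit 2) (nat_lit 4) (nat_lit 319) (nat_lit 255) (nat_lit 206)) (XT.lf (nat_lit 0) (nat_lit 3673553676696) (nat_lit 76) (nat_lit 371251418113) (nat_lit 76) (nat_lit 364762066483) (nat_lit 1) (nat_lit 4) (nat_lit 2) (nat_lit 5) (nat_lit 2) (nat_lit 4) (nat_lit 320) (nat_lit 255) (nat_lit 205))))))))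
noncomputable def xc18 : XT := (XT.nd (nat_lit 37830) (nat_lit 0) (nat_lit 0) (XT.nd (nat_lit 36894) (nat_lit 0) (nat_lit 456) (XT.nd (nat_lit 468) (nat_lit 0) (nat_lit 0) (XT.nd (nat_lit 234) (nat_lit 0) (nat_lit 0) (XT.nd (nat_lit 78) (nat_lit 0) (nat_lit 0) (XT.lf (nat_lit 0) (nat_lit 4243842825389) (nat_lit 76) (nat_lit 416434459120) (nat_lit 76) (nat_lit 409944325675) (nat_lit 1) (nat_lit 4) (nat_lit 2) (nat_lit 5) (nat_lit 2) (nat_lit 4) (nat_lit 321) (nat_lit 255) (nat_lit 204)) (XT.nd (nat_lit 78) (nat_lit 0) (nat_lit 0) (XT.lf (nat_lit 0) (nat_lit 4899671020633) (nat_lit 76) (nat_lit 468397097211) (nat_lit 76) (nat_lit 461906283928) (nat_lit 1) (nat_lit 4) (nat_lit 2) (nat_lit 5) (nat_lit 2) (nat_lit 4) (nat_lit 322) (nat_lit 255) (nat_lit 203)) (XT.lf (nat_lit 0) (nat_lit 5653869683639) (nat_lit 76) (nat_lit 528155992697) (nat_lit 76) (nat_lit 521664588250) (nat_lit 1) (nat_lit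 4) (nat_lit 2) (nat_lit 5) (nat_lit 2) (nat_lit 4) (nat_lit 323) (nat_lit 255) (nat_lit 202)))) (XT.nd (nat_lit 78) (nat_lit 0) (nat_lit 0) (XT.lf (nat_lit 0) (nat_lit 6521194875206) (nat_lit 76) (nat_lit 596880341359) (nat_lit 76) (nat_lit 590388422856) (nat_lit 1) (nat_lit 4) (nat_lit 2) (nat_lit 5) (nat_lit 2) (nat_lit 4) (nat_lit 324) (nat_lit 255) (nat_lit 201)) (XT.nd (nat_lit 78) (nat_lit 0) (nat_lit 0) (XT.lf (nat_lit 0) (nat_lit 7518616001256) (nat_lit 76) (nat_lit 675914750019) (nat_lit 76) (nat_lit 669422384511) (nat_lit 1) (nat_lit 4) (nat_lit 2) (nat_lit 5) (nat_lit 2) (nat_lit 4) (nat_lit 325) (nat_lit 255) (nat_lit 200)) (XT.lf (nat_lit 0) (nat_lit 8665647822949) (nat_lit 76) (nat_lit 766805544063) (nat_lit 76) (nat_lit 760312789856) (nat_lit 1) (nat_lit 4) (nat_lit 2) (nat_lit 5) (nat_lit 2) (nat_lit 4) (nat_lit 326) (nat_lit 255) (nat_lit 199))))) (XT.nd (nat_lit 36192)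 (nat_lit 0) (nat_lit 1824) (XT.nd (nat_lit 36036) (nat_lit 0) (nat_lit 2660) (XT.lf (nat_lit 0) (nat_lit 9984732267234) (nat_lit 76) (nat_lit 871331021637) (nat_lit 76) (nat_lit 864837929429) (nat_lit 1) (nat_lit 4) (nat_lit 2) (nat_lit 5) (nat_lit 2) (nat_lit 4) (nat_lit 327) (nat_lit 255) (nat_lit 198)) (XT.nd (nat_lit 78) (nat_lit 228) (nat_lit 0) (XT.lf (nat_lit 0) (nat_lit 1386532982) (nat_lit 228) (nat_lit 1324375832) (nat_lit 228) (nat_lit 1324375832) (nat_lit 39) (nat_lit 4) (nat_lit 42) (nat_lit 5) (nat_lit 42) (nat_lit 4) (nat_lit 268) (nat_lit 256) (nat_lit 256)) (XT.lf (nat_lit 0) (nat_lit 4031830376) (nat_lit 228) (nat_lit 2420859276) (nat_lit 0) (nat_lit 2084196507) (nat_lit 36) (nat_lit 5) (nat_lit 39) (nat_lit 4) (nat_lit 36) (nat_lit 4) (nat_lit 269) (nat_lit 256) (nat_lit 255)))) (XT.nd (nat_lit 78) (nat_lit 380) (nat_lit 0) (XT.lf (nat_lit 0) (nat_lit 604675681) (nat_lit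 152) (nat_lit 1436624423) (nat_lit 228) (nat_lit 7048818485) (nat_lit 30) (nat_lit 5) (nat_lit 32) (nat_lit 5) (nat_lit 33) (nat_lit 4) (nat_lit 270) (nat_lit 256) (nat_lit 254)) (XT.nd (nat_lit 78) (nat_lit 228) (nat_lit 0) (XT.lf (nat_lit 0) (nat_lit 3808444445) (nat_lit 152) (nat_lit 5329014861) (nat_lit 152) (nat_lit 593904164) (nat_lit 28) (nat_lit 4) (nat_lit 30) (nat_lit 5) (nat_lit 30) (nat_lit 4) (nat_lit 271) (nat_lit 256) (nat_lit 253)) (XT.lf (nat_lit 0) (nat_lit 6251557739) (nat_lit 228) (nat_lit 3454627084) (nat_lit 0) (nat_lit 769287132) (nat_lit 25) (nat_lit 5) (nat_lit 28) (nat_lit 4) (nat_lit 25) (nat_lit 4) (nat_lit 272) (nat_lit 256) (nat_lit 252)))))) (XT.nd (nat_lit 468) (nat_lit 456) (nat_lit 0) (XT.nd (nat_lit 234) (nat_lit 304) (nat_lit 0) (XT.nd (nat_lit 78) (nat_lit 380) (nat_lit 0) (XT.lf (nat_lit 0) (nat_lit 2531282180) (nat_lit 228) (nat_lit 1171907021) (nat_lit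 76) (nat_lit 7629369638) (nat_lit 22) (nat_lit 5) (nat_lit 25) (nat_lit 5) (nat_lit 23) (nat_lit 4) (nat_lit 273) (nat_lit 256) (nat_lit 251)) (XT.nd (nat_lit 78) (nat_lit 152) (nat_lit 0) (XT.lf (nat_lit 0) (nat_lit 895531365) (nat_lit 152) (nat_lit 9074868122) (nat_lit 152) (nat_lit 2346024807) (nat_lit 19) (nat_lit 4) (nat_lit 21) (nat_lit 5) (nat_lit 21) (nat_lit 4) (nat_lit 274) (nat_lit 256) (nat_lit 250)) (XT.lf (nat_lit 0) (nat_lit 2580005154) (nat_lit 76) (nat_lit 2216758217) (nat_lit 152) (nat_lit 8644002335) (nat_lit 17) (nat_lit 5) (nat_lit 18) (nat_lit 5) (nat_lit 19) (nat_lit 4) (nat_lit 275) (nat_lit 256) (nat_lit 249)))) (XT.nd (nat_lit 78) (nat_lit 228) (nat_lit 0) (XT.lf (nat_lit 0) (nat_lit 3654011617) (nat_lit 76) (nat_lit 9230898685) (nat_lit 76) (nat_lit 1843401582) (nat_lit 16) (nat_lit 4) (nat_lit 17) (nat_lit 5) (nat_lit 17) (nat_lit 4) (nat_lit 276) (nat_lit 256)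 (nat_lit 248)) (XT.nd (nat_lit 78) (nat_lit 76) (nat_lit 0) (XT.lf (nat_lit 0) (nat_lit 3871635442) (nat_lit 76) (nat_lit 1766400616) (nat_lit 152) (nat_lit 10563040786) (nat_lit 14) (nat_lit 5) (nat_lit 15) (nat_lit 5) (nat_lit 16) (nat_lit 4) (nat_lit 277) (nat_lit 256) (nat_lit 247)) (XT.lf (nat_lit 0) (nat_lit 2903951674) (nat_lit 76) (nat_lit 11315370541) (nat_lit 76) (nat_lit 3664980887) (nat_lit 13) (nat_lit 4) (nat_lit 14) (nat_lit 5) (nat_lit 14) (nat_lit 4) (nat_lit 278) (nat_lit 256) (nat_lit 246))))) (XT.nd (nat_lit 234) (nat_lit 228) (nat_lit 0) (XT.nd (nat_lit 78) (nat_lit 76) (nat_lit 0) (XT.lf (nat_lit 0) (nat_lit 408706086) (nat_lit 76) (nat_lit 3623383199) (nat_lit 152) (nat_lit 15781746663) (nat_lit 11) (nat_lit 5) (nat_lit 12) (nat_lit 5) (nat_lit 13) (nat_lit 4) (nat_lit 279) (nat_lit 256) (nat_lit 245)) (XT.nd (nat_lit 78) (nat_lit 76) (nat_lit 0) (XT.lf (nat_lit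 0) (nat_lit 12828711166) (nat_lit 152) (nat_lit 4005906788) (nat_lit 0) (nat_lit 5177829085) (nat_lit 11) (nat_lit 5) (nat_lit 13) (nat_lit 4) (nat_lit 11) (nat_lit 4) (nat_lit 280) (nat_lit 256) (nat_lit 244)) (XT.lf (nat_lit 0) (nat_lit 13602577256) (nat_lit 76) (nat_lit 9406792167) (nat_lit 76) (nat_lit 1526511518) (nat_lit 10) (nat_lit 4) (nat_lit 11) (nat_lit 5) (nat_lit 11) (nat_lit 4) (nat_lit 281) (nat_lit 256) (nat_lit 243)))) (XT.nd (nat_lit 78) (nat_lit 76) (nat_lit 0) (XT.lf (nat_lit 0) (nat_lit 6154967151) (nat_lit 76) (nat_lit 688650547) (nat_lit 152) (nat_lit 20586086635) (nat_lit 8) (nat_lit 5) (nat_lit 9) (nat_lit 5) (nat_lit 10) (nat_lit 4) (nat_lit 282) (nat_lit 256) (nat_lit 242)) (XT.nd (nat_lit 78) (nat_lit 76) (nat_lit 0) (XT.lf (nat_lit 0) (nat_lit 16616812801) (nat_lit 152) (nat_lit 5143771869) (nat_lit 0) (nat_lit 8974946192) (nat_lit 8) (nat_lit 5) (nat_lit 10)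 (nat_lit 4) (nat_lit 8) (nat_lit 4) (nat_lit 283) (nat_lit 256) (nat_lit 241)) (XT.lf (nat_lit 0) (nat_lit 13538838289) (nat_lit 76) (nat_lit 14387216594) (nat_lit 76) (nat_lit 6605689539) (nat_lit 7) (nat_lit 4) (nat_lit 8) (nat_lit 5) (nat_lit 8) (nat_lit 4) (nat_lit 284) (nat_lit 256) (nat_lit 240))))))) (XT.nd (nat_lit 936) (nat_lit 76) (nat_lit 0) (XT.nd (nat_lit 468) (nat_lit 152) (nat_lit 0) (XT.nd (nat_lit 234) (nat_lit 76) (nat_lit 0) (XT.nd (nat_lit 78) (nat_lit 76) (nat_lit 0) (XT.lf (nat_lit 0) (nat_lit 1829217569) (nat_lit 152) (nat_lit 4098198376) (nat_lit 76) (nat_lit 32974420442) (nat_lit 6) (nat_lit 5) (nat_lit 8) (nat_lit 5) (nat_lit 7) (nat_lit 4) (nat_lit 285) (nat_lit 256) (nat_lit 239)) (XT.nd (nat_lit 78) (nat_lit 0) (nat_lit 0) (XT.lf (nat_lit 0) (nat_lit 11399361287) (nat_lit 152) (nat_lit 28509532479) (nat_lit 0) (nat_lit 3984014730) (nat_lit 5) (nat_lit 5) (nat_lit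 7) (nat_lit 4) (nat_lit 5) (nat_lit 4) (nat_lit 286) (nat_lit 256) (nat_lit 238)) (XT.lf (nat_lit 0) (nat_lit 22483019092) (nat_lit 152) (nat_lit 12160809381) (nat_lit 0) (nat_lit 14982645673) (nat_lit 5) (nat_lit 5) (nat_lit 7) (nat_lit 4) (nat_lit 5) (nat_lit 4) (nat_lit 287) (nat_lit 256) (nat_lit 237)))) (XT.nd (nat_lit 78) (nat_lit 0) (nat_lit 0) (XT.lf (nat_lit 0) (nat_lit 6618216166) (nat_lit 76) (nat_lit 28588996042) (nat_lit 76) (nat_lit 21014686221) (nat_lit 4) (nat_lit 4) (nat_lit 5) (nat_lit 5) (nat_lit 5) (nat_lit 4) (nat_lit 288) (nat_lit 256) (nat_lit 236)) (XT.nd (nat_lit 78) (nat_lit 0) (nat_lit 0) (XT.lf (nat_lit 0) (nat_lit 28627327348) (nat_lit 76) (nat_lit 21401433866) (nat_lit 76) (nat_lit 13762831523) (nat_lit 4) (nat_lit 4) (nat_lit 5) (nat_lit 5) (nat_lit 5) (nat_lit 4) (nat_lit 289) (nat_lit 256) (nat_lit 235)) (XT.lf (nat_lit 0) (nat_lit 53656770540) (nat_lit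 76) (nat_lit 13273013810) (nat_lit 76) (nat_lit 5578504925) (nat_lit 4) (nat_lit 4) (nat_lit 5) (nat_lit 5) (nat_lit 5) (nat_lit 4) (nat_lit 290) (nat_lit 256) (nat_lit 234))))) (XT.nd (nat_lit 234) (nat_lit 0) (nat_lit 0) (XT.nd (nat_lit 78) (nat_lit 76) (nat_lit 0) (XT.lf (nat_lit 0) (nat_lit 3513411669) (nat_lit 152) (nat_lit 435226996) (nat_lit 76) (nat_lit 78586777667) (nat_lit 3) (nat_lit 5) (nat_lit 5) (nat_lit 5) (nat_lit 4) (nat_lit 4) (nat_lit 291) (nat_lit 256) (nat_lit 233)) (XT.nd (nat_lit 78) (nat_lit 0) (nat_lit 0) (XT.lf (nat_lit 0) (nat_lit 14230112045) (nat_lit 152) (nat_lit 72756225976) (nat_lit 0) (nat_lit 7021411447) (nat_lit 2) (nat_lit 5) (nat_lit 4) (nat_lit 4) (nat_lit 2) (nat_lit 4) (nat_lit 292) (nat_lit 256) (nat_lit 232)) (XT.lf (nat_lit 0) (nat_lit 26572351589) (nat_lit 152) (nat_lit 61297552676) (nat_lit 0) (nat_lit 19329614456) (nat_lit 2) (nat_lit 5) (nat_lit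 4) (nat_lit 4) (nat_lit 2) (nat_lit 4) (nat_lit 293) (nat_lit 256) (nat_lit 231)))) (XT.nd (nat_lit 78) (nat_lit 0) (nat_lit 0) (XT.lf (nat_lit 0) (nat_lit 40675339448) (nat_lit 152) (nat_lit 48298980700) (nat_lit 0) (nat_lit 33403005327) (nat_lit 2) (nat_lit 5) (nat_lit 4) (nat_lit 4) (nat_lit 2) (nat_lit 4) (nat_lit 294) (nat_lit 256) (nat_lit 230)) (XT.nd (nat_lit 78) (nat_lit 0) (nat_lit 0) (XT.lf (nat_lit 0) (nat_lit 56815003644) (nat_lit 152) (nat_lit 33506190165) (nat_lit 0) (nat_lit 49516933012) (nat_lit 2) (nat_lit 5) (nat_lit 4) (nat_lit 4) (nat_lit 2) (nat_lit 4) (nat_lit 295) (nat_lit 256) (nat_lit 229)) (XT.lf (nat_lit 0) (nat_lit 75307120217) (nat_lit 152) (nat_lit 16629756906) (nat_lit 0) (nat_lit 67986670011) (nat_lit 2) (nat_lit 5) (nat_lit 4) (nat_lit 4) (nat_lit 2) (nat_lit 4) (nat_lit 296) (nat_lit 256) (nat_lit 228)))))) (XT.nd (nat_lit 468) (nat_lit 0) (nat_lit 0)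 (XT.nd (nat_lit 234) (nat_lit 0) (nat_lit 0) (XT.nd (nat_lit 78) (nat_lit 0) (nat_lit 0) (XT.lf (nat_lit 0) (nat_lit 2800607911) (nat_lit 76) (nat_lit 93780238224) (nat_lit 76) (nat_lit 86440327517) (nat_lit 1) (nat_lit 4) (nat_lit 2) (nat_lit 5) (nat_lit 2) (nat_lit 4) (nat_lit 297) (nat_lit 256) (nat_lit 227)) (XT.nd (nat_lit 78) (nat_lit 0) (nat_lit 0) (XT.lf (nat_lit 0) (nat_lit 26044900723) (nat_lit 76) (nat_lit 95430504364) (nat_lit 76) (nat_lit 88073671484) (nat_lit 1) (nat_lit 4) (nat_lit 2) (nat_lit 5) (nat_lit 2) (nat_lit 4) (nat_lit 298) (nat_lit 256) (nat_lit 226)) (XT.lf (nat_lit 0) (nat_lit 52682207642) (nat_lit 76) (nat_lit 97374650385) (nat_lit 76) (nat_lit 90003102571) (nat_lit 1) (nat_lit 4) (nat_lit 2) (nat_lit 5) (nat_lit 2) (nat_lit 4) (nat_lit 299) (nat_lit 256) (nat_lit 225)))) (XT.nd (nat_lit 78) (nat_lit 0) (nat_lit 0) (XT.lf (nat_lit 0) (nat_lit 83233693369) (nat_lit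 76) (nat_lit 99650713926) (nat_lit 76) (nat_lit 92266370518) (nat_lit 1) (nat_lit 4) (nat_lit 2) (nat_lit 5) (nat_lit 2) (nat_lit 4) (nat_lit 300) (nat_lit 256) (nat_lit 224)) (XT.nd (nat_lit 78) (nat_lit 0) (nat_lit 0) (XT.lf (nat_lit 0) (nat_lit 118297104364) (nat_lit 76) (nat_lit 102303226665) (nat_lit 76) (nat_lit 94907756653) (nat_lit 1) (nat_lit 4) (nat_lit 2) (nat_lit 5) (nat_lit 2) (nat_lit 4) (nat_lit 301) (nat_lit 256) (nat_lit 223)) (XT.lf (nat_lit 0) (nat_lit 158558463885) (nat_lit 76) (nat_lit 105384085591) (nat_lit 76) (nat_lit 97978940270) (nat_lit 1) (nat_lit 4) (nat_lit 2) (nat_lit 5) (nat_lit 2) (nat_lit 4) (nat_lit 302) (nat_lit 256) (nat_lit 222))))) (XT.nd (nat_lit 234) (nat_lit 0) (nat_lit 0) (XT.nd (nat_lit 78) (nat_lit 0) (nat_lit 0) (XT.lf (nat_lit 0) (nat_lit 204805494184) (nat_lit 76) (nat_lit 108953568377) (nat_lit 76) (nat_lit 101540009746) (nat_lit 1) (nat_lit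 4) (nat_lit 2) (nat_lit 5) (nat_lit 2) (nat_lit 4) (nat_lit 303) (nat_lit 256) (nat_lit 221)) (XT.nd (nat_lit 78) (nat_lit 0) (nat_lit 0) (XT.lf (nat_lit 0) (nat_lit 257943028462) (nat_lit 76) (nat_lit 113081512731) (nat_lit 76) (nat_lit 105660638178) (nat_lit 1) (nat_lit 4) (nat_lit 2) (nat_lit 5) (nat_lit 2) (nat_lit 4) (nat_lit 304) (nat_lit 256) (nat_lit 220)) (XT.lf (nat_lit 0) (nat_lit 319010714130) (nat_lit 76) (nat_lit 117848682782) (nat_lit 76) (nat_lit 110421446556) (nat_lit 1) (nat_lit 4) (nat_lit 2) (nat_lit 5) (nat_lit 2) (nat_lit 4) (nat_lit 305) (nat_lit 256) (nat_lit 219)))) (XT.nd (nat_lit 156) (nat_lit 0) (nat_lit 0) (XT.nd (nat_lit 78) (nat_lit 0) (nat_lit 0) (XT.lf (nat_lit 0) (nat_lit 389203353732) (nat_lit 76) (nat_lit 123348349247) (nat_lit 76) (nat_lit 115915581133) (nat_lit 1) (nat_lit 4) (nat_lit 2) (nat_lit 5) (nat_lit 2) (nat_lit 4) (nat_lit 306) (nat_lit 256)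 (nat_lit 218)) (XT.lf (nat_lit 0) (nat_lit 469894281523) (nat_lit 76) (nat_lit 129688114298) (nat_lit 76) (nat_lit 122250535846) (nat_lit 1) (nat_lit 4) (nat_lit 2) (nat_lit 5) (nat_lit 2) (nat_lit 4) (nat_lit 307) (nat_lit 256) (nat_lit 217))) (XT.nd (nat_lit 78) (nat_lit 0) (nat_lit 0) (XT.lf (nat_lit 0) (nat_lit 562662233045) (nat_lit 76) (nat_lit 136992016814) (nat_lit 76) (nat_lit 129550255459) (nat_lit 1) (nat_lit 4) (nat_lit 2) (nat_lit 5) (nat_lit 2) (nat_lit 4) (nat_lit 308) (nat_lit 256) (nat_lit 216)) (XT.lf (nat_lit 0) (nat_lit 669322233437) (nat_lit 76) (nat_lit 145402959237) (nat_lit 76) (nat_lit 137957560576) (nat_lit 1) (nat_lit 4) (nat_lit 2) (nat_lit 5) (nat_lit 2) (nat_lit 4) (nat_lit 309) (nat_lit 256) (nat_lit 215))))))))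
noncomputable def xc19 : XT := (XT.nd (nat_lit 37674) (nat_lit 0) (nat_lit 76) (XT.nd (nat_lit 936) (nat_lit 0) (nat_lit 0) (XT.nd (nat_lit 468) (nat_lit 0) (nat_lit 0) (XT.nd (nat_lit 234) (nat_lit 0) (nat_lit 0) (XT.nd (nat_lit 78) (nat_lit 0) (nat_lit 0) (XT.lf (nat_lit 0) (nat_lit 791961108794) (nat_lit 76) (nat_lit 155085503484) (nat_lit 76) (nat_lit 147636941948) (nat_lit 1) (nat_lit 4) (nat_lit 2) (nat_lit 5) (nat_lit 2) (nat_lit 4) (nat_lit 310) (nat_lit 256) (nat_lit 214)) (XT.nd (nat_lit 78) (nat_lit 0) (nat_lit 0) (XT.lf (nat_lit 0) (nat_lit 932978315373) (nat_lit 76) (nat_lit 166229090638) (nat_lit 76) (nat_lit 158777778775) (nat_lit 1) (nat_lit 4) (nat_lit 2) (nat_lit 5) (nat_lit 2) (nat_lit 4) (nat_lit 311) (nat_lit 256) (nat_lit 213)) (XT.lf (nat_lit 0) (nat_lit 1095132885476) (nat_lit 76) (nat_lit 179051747403) (nat_lit 76) (nat_lit 171598043953) (nat_lit 1) (nat_lit 4)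 (nat_lit 2) (nat_lit 5) (nat_lit 2) (nat_lit 4) (nat_lit 312) (nat_lit 256) (nat_lit 212)))) (XT.nd (nat_lit 78) (nat_lit 0) (nat_lit 0) (XT.lf (nat_lit 0) (nat_lit 1281597408519) (nat_lit 76) (nat_lit 193804351848) (nat_lit 76) (nat_lit 186348568755) (nat_lit 1) (nat_lit 4) (nat_lit 2) (nat_lit 5) (nat_lit 2) (nat_lit 4) (nat_lit 313) (nat_lit 256) (nat_lit 211)) (XT.nd (nat_lit 78) (nat_lit 0) (nat_lit 0) (XT.lf (nat_lit 0) (nat_lit 1496020103430) (nat_lit 76) (nat_lit 210775541885) (nat_lit 76) (nat_lit 203317950408) (nat_lit 1) (nat_lit 4) (nat_lit 2) (nat_lit 5) (nat_lit 2) (nat_lit 4) (nat_lit 314) (nat_lit 256) (nat_lit 210)) (XT.lf (nat_lit 0) (nat_lit 1742596196850) (nat_lit 76) (nat_lit 230297362537) (nat_lit 76) (nat_lit 222838198552) (nat_lit 1) (nat_lit 4) (nat_lit 2) (nat_lit 5) (nat_lit 2) (nat_lit 4) (nat_lit 315) (nat_lit 256) (nat_lit 209))))) (XT.nd (nat_lit 234) (nat_lit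 0) (nat_lit 0) (XT.nd (nat_lit 78) (nat_lit 0) (nat_lit 0) (XT.lf (nat_lit 0) (nat_lit 2026150003649) (nat_lit 76) (nat_lit 252751762468) (nat_lit 76) (nat_lit 245291231085) (nat_lit 1) (nat_lit 4) (nat_lit 2) (nat_lit 5) (nat_lit 2) (nat_lit 4) (nat_lit 316) (nat_lit 256) (nat_lit 208)) (XT.nd (nat_lit 78) (nat_lit 0) (nat_lit 0) (XT.lf (nat_lit 0) (nat_lit 2352229315699) (nat_lit 76) (nat_lit 278578066894) (nat_lit 76) (nat_lit 271116346469) (nat_lit 1) (nat_lit 4) (nat_lit 2) (nat_lit 5) (nat_lit 2) (nat_lit 4) (nat_lit 317) (nat_lit 256) (nat_lit 207)) (XT.lf (nat_lit 0) (nat_lit 2727213945628) (nat_lit 76) (nat_lit 308281573077) (nat_lit 76) (nat_lit 300818818703) (nat_lit 1) (nat_lit 4) (nat_lit 2) (nat_lit 5) (nat_lit 2) (nat_lit 4) (nat_lit 318) (nat_lit 256) (nat_lit 206)))) (XT.nd (nat_lit 78) (nat_lit 0) (nat_lit 0) (XT.lf (nat_lit 0) (nat_lit 3158440549239) (nat_lit 76) (nat_lit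 342443436572) (nat_lit 76) (nat_lit 334979783111) (nat_lit 1) (nat_lit 4) (nat_lit 2) (nat_lit 5) (nat_lit 2) (nat_lit 4) (nat_lit 319) (nat_lit 256) (nat_lit 205)) (XT.nd (nat_lit 78) (nat_lit 0) (nat_lit 0) (XT.lf (nat_lit 0) (nat_lit 3654346168775) (nat_lit 76) (nat_lit 381732041664) (nat_lit 76) (nat_lit 374267606389) (nat_lit 1) (nat_lit 4) (nat_lit 2) (nat_lit 5) (nat_lit 2) (nat_lit 4) (nat_lit 320) (nat_lit 256) (nat_lit 204)) (XT.lf (nat_lit 0) (nat_lit 4224633305490) (nat_lit 76) (nat_lit 426916078454) (nat_lit 76) (nat_lit 419450963340) (nat_lit 1) (nat_lit 4) (nat_lit 2) (nat_lit 5) (nat_lit 2) (nat_lit 4) (nat_lit 321) (nat_lit 256) (nat_lit 203)))))) (XT.nd (nat_lit 36270) (nat_lit 0) (nat_lit 2052) (XT.nd (nat_lit 234) (nat_lit 0) (nat_lit 0) (XT.nd (nat_lit 78) (nat_lit 0) (nat_lit 0) (XT.lf (nat_lit 0) (nat_lit 4880459751188) (nat_lit 76) (nat_lit 478879582443) (nat_lit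 76) (nat_lit 471413876165) (nat_lit 1) (nat_lit 4) (nat_lit 2) (nat_lit 5) (nat_lit 2) (nat_lit 4) (nat_lit 322) (nat_lit 256) (nat_lit 202)) (XT.nd (nat_lit 78) (nat_lit 0) (nat_lit 0) (XT.lf (nat_lit 0) (nat_lit 5634656892850) (nat_lit 76) (nat_lit 538639230884) (nat_lit 76) (nat_lit 531173010550) (nat_lit 1) (nat_lit 4) (nat_lit 2) (nat_lit 5) (nat_lit 2) (nat_lit 4) (nat_lit 323) (nat_lit 256) (nat_lit 201)) (XT.lf (nat_lit 0) (nat_lit 6501980761509) (nat_lit 76) (nat_lit 607364234290) (nat_lit 76) (nat_lit 599897566951) (nat_lit 1) (nat_lit 4) (nat_lit 2) (nat_lit 5) (nat_lit 2) (nat_lit 4) (nat_lit 324) (nat_lit 256) (nat_lit 200)))) (XT.nd (nat_lit 78) (nat_lit 0) (nat_lit 0) (XT.lf (nat_lit 0) (nat_lit 7499400737203) (nat_lit 76) (nat_lit 686399212292) (nat_lit 76) (nat_lit 678932156253) (nat_lit 1) (nat_lit 4) (nat_lit 2) (nat_lit 5) (nat_lit 2) (nat_lit 4) (nat_lit 325) (nat_lit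 256) (nat_lit 199)) (XT.nd (nat_lit 78) (nat_lit 0) (nat_lit 0) (XT.lf (nat_lit 0) (nat_lit 8646431558589) (nat_lit 76) (nat_lit 777290501416) (nat_lit 76) (nat_lit 769823107378) (nat_lit 1) (nat_lit 4) (nat_lit 2) (nat_lit 5) (nat_lit 2) (nat_lit 4) (nat_lit 326) (nat_lit 256) (nat_lit 198)) (XT.lf (nat_lit 0) (nat_lit 9965515133040) (nat_lit 76) (nat_lit 881816409494) (nat_lit 76) (nat_lit 874348721543) (nat_lit 1) (nat_lit 4) (nat_lit 2) (nat_lit 5) (nat_lit 2) (nat_lit 4) (nat_lit 327) (nat_lit 256) (nat_lit 197))))) (XT.nd (nat_lit 234) (nat_lit 836) (nat_lit 0) (XT.nd (nat_lit 78) (nat_lit 836) (nat_lit 0) (XT.lf (nat_lit 0) (nat_lit 1189116499) (nat_lit 532) (nat_lit 1291525927) (nat_lit 0) (nat_lit 1189116499) (nat_lit 50) (nat_lit 5) (nat_lit 57) (nat_lit 4) (nat_lit 50) (nat_lit 4) (nat_lit 266) (nat_lit 257) (nat_lit 257)) (XT.nd (nat_lit 78) (nat_lit 456) (nat_lit 0) (XT.lf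 (nat_lit 0) (nat_lit 1103621676) (nat_lit 380) (nat_lit 316945077) (nat_lit 76) (nat_lit 6265420153) (nat_lit 45) (nat_lit 5) (nat_lit 50) (nat_lit 5) (nat_lit 46) (nat_lit 4) (nat_lit 267) (nat_lit 257) (nat_lit 256)) (XT.lf (nat_lit 0) (nat_lit 2257933816) (nat_lit 228) (nat_lit 5183893667) (nat_lit 228) (nat_lit 661487824) (nat_lit 39) (nat_lit 4) (nat_lit 42) (nat_lit 5) (nat_lit 42) (nat_lit 4) (nat_lit 268) (nat_lit 257) (nat_lit 255)))) (XT.nd (nat_lit 78) (nat_lit 608) (nat_lit 0) (XT.lf (nat_lit 0) (nat_lit 5053974092) (nat_lit 152) (nat_lit 429421184) (nat_lit 228) (nat_lit 3117984630) (nat_lit 36) (nat_lit 5) (nat_lit 38) (nat_lit 5) (nat_lit 39) (nat_lit 4) (nat_lit 269) (nat_lit 257) (nat_lit 254)) (XT.nd (nat_lit 78) (nat_lit 304) (nat_lit 0) (XT.lf (nat_lit 0) (nat_lit 2961217165) (nat_lit 304) (nat_lit 1194366796) (nat_lit 76) (nat_lit 5028719022) (nat_lit 32) (nat_lit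 5) (nat_lit 36) (nat_lit 5) (nat_lit 33) (nat_lit 4) (nat_lit 270) (nat_lit 257) (nat_lit 253)) (XT.lf (nat_lit 0) (nat_lit 1317604355) (nat_lit 152) (nat_lit 8270343629) (nat_lit 152) (nat_lit 275621977) (nat_lit 28) (nat_lit 4) (nat_lit 30) (nat_lit 5) (nat_lit 30) (nat_lit 4) (nat_lit 271) (nat_lit 257) (nat_lit 252))))))) (XT.nd (nat_lit 936) (nat_lit 456) (nat_lit 0) (XT.nd (nat_lit 468) (nat_lit 532) (nat_lit 0) (XT.nd (nat_lit 234) (nat_lit 456) (nat_lit 0) (XT.nd (nat_lit 78) (nat_lit 304) (nat_lit 0) (XT.lf (nat_lit 0) (nat_lit 3799548201) (nat_lit 152) (nat_lit 2366485197) (nat_lit 228) (nat_lit 4472440126) (nat_lit 25) (nat_lit 5) (nat_lit 27) (nat_lit 5) (nat_lit 28) (nat_lit 4) (nat_lit 272) (nat_lit 257) (nat_lit 251)) (XT.nd (nat_lit 78) (nat_lit 76) (nat_lit 0) (XT.lf (nat_lit 0) (nat_lit 1865978522) (nat_lit 228) (nat_lit 5306164895) (nat_lit 76) (nat_lit 4358535235) (nat_lit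 22) (nat_lit 5) (nat_lit 25) (nat_lit 5) (nat_lit 23) (nat_lit 4) (nat_lit 273) (nat_lit 257) (nat_lit 250)) (XT.lf (nat_lit 0) (nat_lit 8477481867) (nat_lit 76) (nat_lit 362313795) (nat_lit 152) (nat_lit 3712236178) (nat_lit 21) (nat_lit 5) (nat_lit 22) (nat_lit 5) (nat_lit 23) (nat_lit 4) (nat_lit 274) (nat_lit 257) (nat_lit 249)))) (XT.nd (nat_lit 78) (nat_lit 228) (nat_lit 0) (XT.lf (nat_lit 0) (nat_lit 3078603747) (nat_lit 228) (nat_lit 3353009816) (nat_lit 76) (nat_lit 7281223952) (nat_lit 18) (nat_lit 5) (nat_lit 21) (nat_lit 5) (nat_lit 19) (nat_lit 4) (nat_lit 275) (nat_lit 257) (nat_lit 248)) (XT.nd (nat_lit 78) (nat_lit 152) (nat_lit 0) (XT.lf (nat_lit 0) (nat_lit 10665342878) (nat_lit 152) (nat_lit 3211779152) (nat_lit 0) (nat_lit 1163558928) (nat_lit 17) (nat_lit 5) (nat_lit 19) (nat_lit 4) (nat_lit 17) (nat_lit 4) (nat_lit 276) (nat_lit 257) (nat_lit 247)) (XT.lf (nat_lit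 0) (nat_lit 2846280036) (nat_lit 152) (nat_lit 3988462741) (nat_lit 76) (nat_lit 9714641434) (nat_lit 15) (nat_lit 5) (nat_lit 17) (nat_lit 5) (nat_lit 16) (nat_lit 4) (nat_lit 277) (nat_lit 257) (nat_lit 246))))) (XT.nd (nat_lit 234) (nat_lit 228) (nat_lit 0) (XT.nd (nat_lit 78) (nat_lit 228) (nat_lit 0) (XT.lf (nat_lit 0) (nat_lit 10937728708) (nat_lit 152) (nat_lit 5898864870) (nat_lit 0) (nat_lit 1435333163) (nat_lit 14) (nat_lit 5) (nat_lit 16) (nat_lit 4) (nat_lit 14) (nat_lit 4) (nat_lit 278) (nat_lit 257) (nat_lit 245)) (XT.nd (nat_lit 78) (nat_lit 76) (nat_lit 0) (XT.lf (nat_lit 0) (nat_lit 201707300) (nat_lit 152) (nat_lit 9367757381) (nat_lit 76) (nat_lit 10666735685) (nat_lit 12) (nat_lit 5) (nat_lit 14) (nat_lit 5) (nat_lit 13) (nat_lit 4) (nat_lit 279) (nat_lit 257) (nat_lit 244)) (XT.lf (nat_lit 0) (nat_lit 7571594482) (nat_lit 76) (nat_lit 893142777) (nat_lit 152) (nat_lit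 14012852061) (nat_lit 11) (nat_lit 5) (nat_lit 12) (nat_lit 5) (nat_lit 13) (nat_lit 4) (nat_lit 280) (nat_lit 257) (nat_lit 243)))) (XT.nd (nat_lit 78) (nat_lit 152) (nat_lit 0) (XT.lf (nat_lit 0) (nat_lit 1861245342) (nat_lit 76) (nat_lit 16333551405) (nat_lit 76) (nat_lit 6842353077) (nat_lit 10) (nat_lit 4) (nat_lit 11) (nat_lit 5) (nat_lit 11) (nat_lit 4) (nat_lit 281) (nat_lit 257) (nat_lit 242)) (XT.nd (nat_lit 78) (nat_lit 76) (nat_lit 0) (XT.lf (nat_lit 0) (nat_lit 1508470589) (nat_lit 152) (nat_lit 6527037775) (nat_lit 76) (nat_lit 19928573948) (nat_lit 9) (nat_lit 5) (nat_lit 11) (nat_lit 5) (nat_lit 10) (nat_lit 4) (nat_lit 282) (nat_lit 257) (nat_lit 241)) (XT.lf (nat_lit 0) (nat_lit 10807724766) (nat_lit 152) (nat_lit 18780846242) (nat_lit 0) (nat_lit 1719308208) (nat_lit 8) (nat_lit 5) (nat_lit 10) (nat_lit 4) (nat_lit 8) (nat_lit 4) (nat_lit 283) (nat_lit 257) (nat_lit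 240)))))) (XT.nd (nat_lit 468) (nat_lit 152) (nat_lit 0) (XT.nd (nat_lit 234) (nat_lit 152) (nat_lit 0) (XT.nd (nat_lit 78) (nat_lit 152) (nat_lit 0) (XT.lf (nat_lit 0) (nat_lit 21680300620) (nat_lit 152) (nat_lit 988333174) (nat_lit 0) (nat_lit 12470440196) (nat_lit 8) (nat_lit 5) (nat_lit 10) (nat_lit 4) (nat_lit 8) (nat_lit 4) (nat_lit 284) (nat_lit 257) (nat_lit 239)) (XT.nd (nat_lit 78) (nat_lit 76) (nat_lit 0) (XT.lf (nat_lit 0) (nat_lit 20079622119) (nat_lit 76) (nat_lit 14379428118) (nat_lit 76) (nat_lit 5063964331) (nat_lit 7) (nat_lit 4) (nat_lit 8) (nat_lit 5) (nat_lit 8) (nat_lit 4) (nat_lit 285) (nat_lit 257) (nat_lit 238)) (XT.lf (nat_lit 0) (nat_lit 4195677420) (nat_lit 152) (nat_lit 680283762) (nat_lit 76) (nat_lit 39693007878) (nat_lit 6) (nat_lit 5) (nat_lit 8) (nat_lit 5) (nat_lit 7) (nat_lit 4) (nat_lit 286) (nat_lit 257) (nat_lit 237)))) (XT.nd (nat_lit 78) (nat_lit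 76) (nat_lit 0) (XT.lf (nat_lit 0) (nat_lit 15060128013) (nat_lit 152) (nat_lit 28984237125) (nat_lit 0) (nat_lit 6275735319) (nat_lit 5) (nat_lit 5) (nat_lit 7) (nat_lit 4) (nat_lit 5) (nat_lit 4) (nat_lit 287) (nat_lit 257) (nat_lit 236)) (XT.nd (nat_lit 78) (nat_lit 76) (nat_lit 0) (XT.lf (nat_lit 0) (nat_lit 27551874158) (nat_lit 152) (nat_lit 10679082765) (nat_lit 0) (nat_lit 18703188941) (nat_lit 5) (nat_lit 5) (nat_lit 7) (nat_lit 4) (nat_lit 5) (nat_lit 4) (nat_lit 288) (nat_lit 257) (nat_lit 235)) (XT.lf (nat_lit 0) (nat_lit 10636973044) (nat_lit 76) (nat_lit 31399229305) (nat_lit 76) (nat_lit 22494637547) (nat_lit 4) (nat_lit 4) (nat_lit 5) (nat_lit 5) (nat_lit 5) (nat_lit 4) (nat_lit 289) (nat_lit 257) (nat_lit 234))))) (XT.nd (nat_lit 234) (nat_lit 0) (nat_lit 0) (XT.nd (nat_lit 78) (nat_lit 152) (nat_lit 0) (XT.lf (nat_lit 0) (nat_lit 35552752062) (nat_lit 76) (nat_lit 23326330561)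 (nat_lit 76) (nat_lit 14373124419) (nat_lit 4) (nat_lit 4) (nat_lit 5) (nat_lit 5) (nat_lit 5) (nat_lit 4) (nat_lit 290) (nat_lit 257) (nat_lit 233)) (XT.nd (nat_lit 78) (nat_lit 152) (nat_lit 0) (XT.lf (nat_lit 0) (nat_lit 63993395348) (nat_lit 76) (nat_lit 14146297721) (nat_lit 76) (nat_lit 5150818201) (nat_lit 4) (nat_lit 4) (nat_lit 5) (nat_lit 5) (nat_lit 5) (nat_lit 4) (nat_lit 291) (nat_lit 257) (nat_lit 232)) (XT.lf (nat_lit 0) (nat_lit 1625791792) (nat_lit 76) (nat_lit 3498261462) (nat_lit 152) (nat_lit 89704674262) (nat_lit 2) (nat_lit 5) (nat_lit 3) (nat_lit 5) (nat_lit 4) (nat_lit 4) (nat_lit 292) (nat_lit 257) (nat_lit 231)))) (XT.nd (nat_lit 156) (nat_lit 0) (nat_lit 0) (XT.nd (nat_lit 78) (nat_lit 0) (nat_lit 0) (XT.lf (nat_lit 0) (nat_lit 17340025751) (nat_lit 152) (nat_lit 81743339533) (nat_lit 0) (nat_lit 8947244524) (nat_lit 2) (nat_lit 5) (nat_lit 4) (nat_lit 4) (nat_lit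 2) (nat_lit 4) (nat_lit 293) (nat_lit 257) (nat_lit 230)) (XT.lf (nat_lit 0) (nat_lit 31406375544) (nat_lit 152) (nat_lit 68817124412) (nat_lit 0) (nat_lit 22987857806) (nat_lit 2) (nat_lit 5) (nat_lit 4) (nat_lit 4) (nat_lit 2) (nat_lit 4) (nat_lit 294) (nat_lit 257) (nat_lit 229))) (XT.nd (nat_lit 78) (nat_lit 0) (nat_lit 0) (XT.lf (nat_lit 0) (nat_lit 47514180553) (nat_lit 152) (nat_lit 54087252879) (nat_lit 0) (nat_lit 39073283241) (nat_lit 2) (nat_lit 5) (nat_lit 4) (nat_lit 4) (nat_lit 2) (nat_lit 4) (nat_lit 295) (nat_lit 257) (nat_lit 228)) (XT.lf (nat_lit 0) (nat_lit 65978593485) (nat_lit 152) (nat_lit 37265531797) (nat_lit 0) (nat_lit 57518235673) (nat_lit 2) (nat_lit 5) (nat_lit 4) (nat_lit 4) (nat_lit 2) (nat_lit 4) (nat_lit 296) (nat_lit 257) (nat_lit 227))))))))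
noncomputable def xc20 : XT := (XT.nd (nat_lit 1872) (nat_lit 0) (nat_lit 0) (XT.nd (nat_lit 936) (nat_lit 0) (nat_lit 0) (XT.nd (nat_lit 468) (nat_lit 0) (nat_lit 0) (XT.nd (nat_lit 234) (nat_lit 0) (nat_lit 0) (XT.nd (nat_lit 78) (nat_lit 76) (nat_lit 0) (XT.lf (nat_lit 0) (nat_lit 87160874593) (nat_lit 152) (nat_lit 18022840535) (nat_lit 0) (nat_lit 78683594607) (nat_lit 2) (nat_lit 5) (nat_lit 4) (nat_lit 4) (nat_lit 2) (nat_lit 4) (nat_lit 297) (nat_lit 257) (nat_lit 226)) (XT.nd (nat_lit 78) (nat_lit 0) (nat_lit 0) (XT.lf (nat_lit 0) (nat_lit 4228852681) (nat_lit 76) (nat_lit 107348311138) (nat_lit 76) (nat_lit 98856316218) (nat_lit 1) (nat_lit 4) (nat_lit 2) (nat_lit 5) (nat_lit 2) (nat_lit 4) (nat_lit 298) (nat_lit 257) (nat_lit 225)) (XT.lf (nat_lit 0) (nat_lit 30828291121) (nat_lit 76) (nat_lit 109311199306) (nat_lit 76) (nat_lit 100806408792) (nat_lit 1) (nat_lit 4) (nat_lit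 2) (nat_lit 5) (nat_lit 2) (nat_lit 4) (nat_lit 299) (nat_lit 257) (nat_lit 224)))) (XT.nd (nat_lit 78) (nat_lit 0) (nat_lit 0) (XT.lf (nat_lit 0) (nat_lit 61346847736) (nat_lit 76) (nat_lit 111603560367) (nat_lit 76) (nat_lit 103087643249) (nat_lit 1) (nat_lit 4) (nat_lit 2) (nat_lit 5) (nat_lit 2) (nat_lit 4) (nat_lit 300) (nat_lit 257) (nat_lit 223)) (XT.nd (nat_lit 78) (nat_lit 0) (nat_lit 0) (XT.lf (nat_lit 0) (nat_lit 96381624720) (nat_lit 76) (nat_lit 114270244862) (nat_lit 76) (nat_lit 105744652436) (nat_lit 1) (nat_lit 4) (nat_lit 2) (nat_lit 5) (nat_lit 2) (nat_lit 4) (nat_lit 301) (nat_lit 257) (nat_lit 222)) (XT.lf (nat_lit 0) (nat_lit 136618085101) (nat_lit 76) (nat_lit 117363427054) (nat_lit 76) (nat_lit 108829421317) (nat_lit 1) (nat_lit 4) (nat_lit 2) (nat_lit 5) (nat_lit 2) (nat_lit 4) (nat_lit 302) (nat_lit 257) (nat_lit 221))))) (XT.nd (nat_lit 234) (nat_lit 0) (nat_lit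 0) (XT.nd (nat_lit 78) (nat_lit 0) (nat_lit 0) (XT.lf (nat_lit 0) (nat_lit 182843463975) (nat_lit 76) (nat_lit 120943625724) (nat_lit 76) (nat_lit 112402304064) (nat_lit 1) (nat_lit 4) (nat_lit 2) (nat_lit 5) (nat_lit 2) (nat_lit 4) (nat_lit 303) (nat_lit 257) (nat_lit 220)) (XT.nd (nat_lit 78) (nat_lit 0) (nat_lit 0) (XT.lf (nat_lit 0) (nat_lit 235962170926) (nat_lit 76) (nat_lit 125080888238) (nat_lit 76) (nat_lit 116533204906) (nat_lit 1) (nat_lit 4) (nat_lit 2) (nat_lit 5) (nat_lit 2) (nat_lit 4) (nat_lit 304) (nat_lit 257) (nat_lit 219)) (XT.lf (nat_lit 0) (nat_lit 297013485005) (nat_lit 76) (nat_lit 129856161036) (nat_lit 76) (nat_lit 121302945816) (nat_lit 1) (nat_lit 4) (nat_lit 2) (nat_lit 5) (nat_lit 2) (nat_lit 4) (nat_lit 305) (nat_lit 257) (nat_lit 218)))) (XT.nd (nat_lit 78) (nat_lit 0) (nat_lit 0) (XT.lf (nat_lit 0) (nat_lit 367191888444) (nat_lit 76) (nat_lit 135362873369)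 (nat_lit 76) (nat_lit 126804847811) (nat_lit 1) (nat_lit 4) (nat_lit 2) (nat_lit 5) (nat_lit 2) (nat_lit 4) (nat_lit 306) (nat_lit 257) (nat_lit 217)) (XT.nd (nat_lit 78) (nat_lit 0) (nat_lit 0) (XT.lf (nat_lit 0) (nat_lit 447870436962) (nat_lit 76) (nat_lit 141708765260) (nat_lit 76) (nat_lit 133146556800) (nat_lit 1) (nat_lit 4) (nat_lit 2) (nat_lit 5) (nat_lit 2) (nat_lit 4) (nat_lit 307) (nat_lit 257) (nat_lit 216)) (XT.lf (nat_lit 0) (nat_lit 540627623898) (nat_lit 76) (nat_lit 149017995465) (nat_lit 76) (nat_lit 140452149698) (nat_lit 1) (nat_lit 4) (nat_lit 2) (nat_lit 5) (nat_lit 2) (nat_lit 4) (nat_lit 308) (nat_lit 257) (nat_lit 215)))))) (XT.nd (nat_lit 468) (nat_lit 0) (nat_lit 0) (XT.nd (nat_lit 234) (nat_lit 0) (nat_lit 0) (XT.nd (nat_lit 78) (nat_lit 0) (nat_lit 0) (XT.lf (nat_lit 0) (nat_lit 647278263782) (nat_lit 76) (nat_lit 157433570660) (nat_lit 76) (nat_lit 148864562018)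 (nat_lit 1) (nat_lit 4) (nat_lit 2) (nat_lit 5) (nat_lit 2) (nat_lit 4) (nat_lit 309) (nat_lit 257) (nat_lit 214)) (XT.nd (nat_lit 78) (nat_lit 0) (nat_lit 0) (XT.lf (nat_lit 0) (nat_lit 769908999566) (nat_lit 76) (nat_lit 167120143404) (nat_lit 76) (nat_lit 158548384436) (nat_lit 1) (nat_lit 4) (nat_lit 2) (nat_lit 5) (nat_lit 2) (nat_lit 4) (nat_lit 310) (nat_lit 257) (nat_lit 213)) (XT.lf (nat_lit 0) (nat_lit 910919128255) (nat_lit 76) (nat_lit 178267233599) (nat_lit 76) (nat_lit 169693083043) (nat_lit 1) (nat_lit 4) (nat_lit 2) (nat_lit 5) (nat_lit 2) (nat_lit 4) (nat_lit 311) (nat_lit 257) (nat_lit 212)))) (XT.nd (nat_lit 78) (nat_lit 0) (nat_lit 0) (XT.lf (nat_lit 0) (nat_lit 1073067543672) (nat_lit 76) (nat_lit 191092936488) (nat_lit 76) (nat_lit 182516706289) (nat_lit 1) (nat_lit 4) (nat_lit 2) (nat_lit 5) (nat_lit 2) (nat_lit 4) (nat_lit 312) (nat_lit 257) (nat_lit 211)) (XT.nd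 (nat_lit 78) (nat_lit 0) (nat_lit 0) (XT.lf (nat_lit 0) (nat_lit 1259526714814) (nat_lit 76) (nat_lit 205848189735) (nat_lit 76) (nat_lit 197270151153) (nat_lit 1) (nat_lit 4) (nat_lit 2) (nat_lit 5) (nat_lit 2) (nat_lit 4) (nat_lit 313) (nat_lit 257) (nat_lit 210)) (XT.lf (nat_lit 0) (nat_lit 1473944755898) (nat_lit 76) (nat_lit 222821683079) (nat_lit 76) (nat_lit 214242071988) (nat_lit 1) (nat_lit 4) (nat_lit 2) (nat_lit 5) (nat_lit 2) (nat_lit 4) (nat_lit 314) (nat_lit 257) (nat_lit 209))))) (XT.nd (nat_lit 234) (nat_lit 0) (nat_lit 0) (XT.nd (nat_lit 78) (nat_lit 0) (nat_lit 0) (XT.lf (nat_lit 0) (nat_lit 1720516802511) (nat_lit 76) (nat_lit 242345506606) (nat_lit 76) (nat_lit 233764528117) (nat_lit 1) (nat_lit 4) (nat_lit 2) (nat_lit 5) (nat_lit 2) (nat_lit 4) (nat_lit 315) (nat_lit 257) (nat_lit 208)) (XT.nd (nat_lit 78) (nat_lit 0) (nat_lit 0) (XT.lf (nat_lit 0) (nat_lit 2004067090348)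 (nat_lit 76) (nat_lit 264801648167) (nat_lit 76) (nat_lit 256219480636) (nat_lit 1) (nat_lit 4) (nat_lit 2) (nat_lit 5) (nat_lit 2) (nat_lit 4) (nat_lit 316) (nat_lit 257) (nat_lit 207)) (XT.lf (nat_lit 0) (nat_lit 2330143342431) (nat_lit 76) (nat_lit 290629467055) (nat_lit 76) (nat_lit 282046265575) (nat_lit 1) (nat_lit 4) (nat_lit 2) (nat_lit 5) (nat_lit 2) (nat_lit 4) (nat_lit 317) (nat_lit 257) (nat_lit 206)))) (XT.nd (nat_lit 78) (nat_lit 0) (nat_lit 0) (XT.lf (nat_lit 0) (nat_lit 2705125311519) (nat_lit 76) (nat_lit 320334290161) (nat_lit 76) (nat_lit 311750189594) (nat_lit 1) (nat_lit 4) (nat_lit 2) (nat_lit 5) (nat_lit 2) (nat_lit 4) (nat_lit 318) (nat_lit 257) (nat_lit 205)) (XT.nd (nat_lit 78) (nat_lit 0) (nat_lit 0) (XT.lf (nat_lit 0) (nat_lit 3136349601355) (nat_lit 76) (nat_lit 354497298806) (nat_lit 76) (nat_lit 345912416425) (nat_lit 1) (nat_lit 4) (nat_lit 2) (nat_lit 5)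 (nat_lit 2) (nat_lit 4) (nat_lit 319) (nat_lit 257) (nat_lit 204)) (XT.lf (nat_lit 0) (nat_lit 3632253208914) (nat_lit 76) (nat_lit 393786899682) (nat_lit 76) (nat_lit 385201337462) (nat_lit 1) (nat_lit 4) (nat_lit 2) (nat_lit 5) (nat_lit 2) (nat_lit 4) (nat_lit 320) (nat_lit 257) (nat_lit 203))))))) (XT.nd (nat_lit 36582) (nat_lit 0) (nat_lit 760) (XT.nd (nat_lit 468) (nat_lit 0) (nat_lit 0) (XT.nd (nat_lit 234) (nat_lit 0) (nat_lit 0) (XT.nd (nat_lit 78) (nat_lit 0) (nat_lit 0) (XT.lf (nat_lit 0) (nat_lit 4202538596082) (nat_lit 76) (nat_lit 438971802370) (nat_lit 76) (nat_lit 430385648986) (nat_lit 1) (nat_lit 4) (nat_lit 2) (nat_lit 5) (nat_lit 2) (nat_lit 4) (nat_lit 321) (nat_lit 257) (nat_lit 202)) (XT.nd (nat_lit 78) (nat_lit 0) (nat_lit 0) (XT.lf (nat_lit 0) (nat_lit 4858363520436) (nat_lit 76) (nat_lit 490936059314) (nat_lit 76) (nat_lit 482349391874) (nat_lit 1) (nat_lit 4)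 (nat_lit 2) (nat_lit 5) (nat_lit 2) (nat_lit 4) (nat_lit 322) (nat_lit 257) (nat_lit 201)) (XT.lf (nat_lit 0) (nat_lit 5612559339190) (nat_lit 76) (nat_lit 550696362498) (nat_lit 76) (nat_lit 542109248054) (nat_lit 1) (nat_lit 4) (nat_lit 2) (nat_lit 5) (nat_lit 2) (nat_lit 4) (nat_lit 323) (nat_lit 257) (nat_lit 200)))) (XT.nd (nat_lit 78) (nat_lit 0) (nat_lit 0) (XT.lf (nat_lit 0) (nat_lit 6479882057494) (nat_lit 76) (nat_lit 619421935246) (nat_lit 76) (nat_lit 610834432102) (nat_lit 1) (nat_lit 4) (nat_lit 2) (nat_lit 5) (nat_lit 2) (nat_lit 4) (nat_lit 324) (nat_lit 257) (nat_lit 199)) (XT.nd (nat_lit 78) (nat_lit 0) (nat_lit 0) (XT.lf (nat_lit 0) (nat_lit 7477301032880) (nat_lit 76) (nat_lit 698457408328) (nat_lit 76) (nat_lit 689869567184) (nat_lit 1) (nat_lit 4) (nat_lit 2) (nat_lit 5) (nat_lit 2) (nat_lit 4) (nat_lit 325) (nat_lit 257) (nat_lit 198)) (XT.lf (nat_lit 0) (nat_lit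 8624330984431) (nat_lit 76) (nat_lit 789349127957) (nat_lit 76) (nat_lit 780760992900) (nat_lit 1) (nat_lit 4) (nat_lit 2) (nat_lit 5) (nat_lit 2) (nat_lit 4) (nat_lit 326) (nat_lit 257) (nat_lit 197))))) (XT.nd (nat_lit 35880) (nat_lit 0) (nat_lit 2812) (XT.nd (nat_lit 35724) (nat_lit 0) (nat_lit 4256) (XT.lf (nat_lit 0) (nat_lit 9943413802505) (nat_lit 76) (nat_lit 893875410387) (nat_lit 76) (nat_lit 885287019753) (nat_lit 1) (nat_lit 4) (nat_lit 2) (nat_lit 5) (nat_lit 2) (nat_lit 4) (nat_lit 327) (nat_lit 257) (nat_lit 196)) (XT.nd (nat_lit 78) (nat_lit 380) (nat_lit 0) (XT.lf (nat_lit 0) (nat_lit 244625094) (nat_lit 380) (nat_lit 2928914309) (nat_lit 0) (nat_lit 244625094) (nat_lit 62) (nat_lit 5) (nat_lit 67) (nat_lit 4) (nat_lit 62) (nat_lit 4) (nat_lit 264) (nat_lit 258) (nat_lit 258)) (XT.lf (nat_lit 0) (nat_lit 2482822952) (nat_lit 380) (nat_lit 3915078081) (nat_lit 380) (nat_lit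 670380199) (nat_lit 57) (nat_lit 4) (nat_lit 62) (nat_lit 5) (nat_lit 62) (nat_lit 4) (nat_lit 265) (nat_lit 258) (nat_lit 257)))) (XT.nd (nat_lit 78) (nat_lit 912) (nat_lit 0) (XT.lf (nat_lit 0) (nat_lit 4317967057) (nat_lit 456) (nat_lit 674408595) (nat_lit 532) (nat_lit 2379389514) (nat_lit 50) (nat_lit 5) (nat_lit 56) (nat_lit 5) (nat_lit 57) (nat_lit 4) (nat_lit 266) (nat_lit 258) (nat_lit 256)) (XT.nd (nat_lit 78) (nat_lit 532) (nat_lit 0) (XT.lf (nat_lit 0) (nat_lit 3154201800) (nat_lit 380) (nat_lit 1327808456) (nat_lit 76) (nat_lit 3264258964) (nat_lit 45) (nat_lit 5) (nat_lit 50) (nat_lit 5) (nat_lit 46) (nat_lit 4) (nat_lit 267) (nat_lit 258) (nat_lit 255)) (XT.lf (nat_lit 0) (nat_lit 678655020) (nat_lit 228) (nat_lit 99662364) (nat_lit 304) (nat_lit 7422113410) (nat_lit 38) (nat_lit 5) (nat_lit 41) (nat_lit 5) (nat_lit 42) (nat_lit 5) (nat_lit 268) (nat_lit 258) (nat_lit 254))))))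 (XT.nd (nat_lit 468) (nat_lit 760) (nat_lit 0) (XT.nd (nat_lit 234) (nat_lit 684) (nat_lit 0) (XT.nd (nat_lit 78) (nat_lit 456) (nat_lit 0) (XT.lf (nat_lit 0) (nat_lit 2847254787) (nat_lit 152) (nat_lit 3677290704) (nat_lit 228) (nat_lit 2202503416) (nat_lit 36) (nat_lit 5) (nat_lit 38) (nat_lit 5) (nat_lit 39) (nat_lit 4) (nat_lit 269) (nat_lit 258) (nat_lit 253)) (XT.nd (nat_lit 78) (nat_lit 152) (nat_lit 0) (XT.lf (nat_lit 0) (nat_lit 3393395384) (nat_lit 304) (nat_lit 4151782775) (nat_lit 76) (nat_lit 1798500817) (nat_lit 32) (nat_lit 5) (nat_lit 36) (nat_lit 5) (nat_lit 33) (nat_lit 4) (nat_lit 270) (nat_lit 258) (nat_lit 252)) (XT.lf (nat_lit 0) (nat_lit 7654251537) (nat_lit 152) (nat_lit 1950490144) (nat_lit 228) (nat_lit 451841840) (nat_lit 30) (nat_lit 5) (nat_lit 32) (nat_lit 5) (nat_lit 33) (nat_lit 4) (nat_lit 271) (nat_lit 258) (nat_lit 251)))) (XT.nd (nat_lit 78) (nat_lit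 456) (nat_lit 0) (XT.lf (nat_lit 0) (nat_lit 5545393262) (nat_lit 228) (nat_lit 772924059) (nat_lit 76) (nat_lit 4550095192) (nat_lit 27) (nat_lit 5) (nat_lit 30) (nat_lit 5) (nat_lit 28) (nat_lit 4) (nat_lit 272) (nat_lit 258) (nat_lit 250)) (XT.nd (nat_lit 78) (nat_lit 76) (nat_lit 0) (XT.lf (nat_lit 0) (nat_lit 569189655) (nat_lit 228) (nat_lit 10933665487) (nat_lit 76) (nat_lit 298763467) (nat_lit 22) (nat_lit 5) (nat_lit 25) (nat_lit 5) (nat_lit 23) (nat_lit 4) (nat_lit 273) (nat_lit 258) (nat_lit 249)) (XT.lf (nat_lit 0) (nat_lit 2181926075) (nat_lit 76) (nat_lit 4994631133) (nat_lit 152) (nat_lit 5675959880) (nat_lit 21) (nat_lit 5) (nat_lit 22) (nat_lit 5) (nat_lit 23) (nat_lit 4) (nat_lit 274) (nat_lit 258) (nat_lit 248))))) (XT.nd (nat_lit 234) (nat_lit 380) (nat_lit 0) (XT.nd (nat_lit 78) (nat_lit 152) (nat_lit 0) (XT.lf (nat_lit 0) (nat_lit 718470487) (nat_lit 228) (nat_lit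 10812218105) (nat_lit 76) (nat_lit 2526168456) (nat_lit 18) (nat_lit 5) (nat_lit 21) (nat_lit 5) (nat_lit 19) (nat_lit 4) (nat_lit 275) (nat_lit 258) (nat_lit 247)) (XT.nd (nat_lit 78) (nat_lit 76) (nat_lit 0) (XT.lf (nat_lit 0) (nat_lit 3674651180) (nat_lit 76) (nat_lit 4219956737) (nat_lit 152) (nat_lit 7523101266) (nat_lit 17) (nat_lit 5) (nat_lit 18) (nat_lit 5) (nat_lit 19) (nat_lit 4) (nat_lit 276) (nat_lit 258) (nat_lit 246)) (XT.lf (nat_lit 0) (nat_lit 3448158777) (nat_lit 76) (nat_lit 12839705934) (nat_lit 76) (nat_lit 683868696) (nat_lit 16) (nat_lit 4) (nat_lit 17) (nat_lit 5) (nat_lit 17) (nat_lit 4) (nat_lit 277) (nat_lit 258) (nat_lit 245)))) (XT.nd (nat_lit 156) (nat_lit 228) (nat_lit 0) (XT.nd (nat_lit 78) (nat_lit 0) (nat_lit 0) (XT.lf (nat_lit 0) (nat_lit 2093413152) (nat_lit 76) (nat_lit 4905123603) (nat_lit 152) (nat_lit 11732627605) (nat_lit 14) (nat_lit 5) (nat_lit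 15) (nat_lit 5) (nat_lit 16) (nat_lit 4) (nat_lit 278) (nat_lit 258) (nat_lit 244)) (XT.lf (nat_lit 0) (nat_lit 15983183110) (nat_lit 152) (nat_lit 559771372) (nat_lit 0) (nat_lit 4195114787) (nat_lit 14) (nat_lit 5) (nat_lit 16) (nat_lit 4) (nat_lit 14) (nat_lit 4) (nat_lit 279) (nat_lit 258) (nat_lit 243))) (XT.nd (nat_lit 78) (nat_lit 76) (nat_lit 0) (XT.lf (nat_lit 0) (nat_lit 3411999353) (nat_lit 152) (nat_lit 4906544844) (nat_lit 76) (nat_lit 14696861388) (nat_lit 12) (nat_lit 5) (nat_lit 14) (nat_lit 5) (nat_lit 13) (nat_lit 4) (nat_lit 280) (nat_lit 258) (nat_lit 242)) (XT.lf (nat_lit 0) (nat_lit 12663672606) (nat_lit 152) (nat_lit 11573773577) (nat_lit 0) (nat_lit 1375859241) (nat_lit 11) (nat_lit 5) (nat_lit 13) (nat_lit 4) (nat_lit 11) (nat_lit 4) (nat_lit 281) (nat_lit 258) (nat_lit 241))))))))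
noncomputable def xc21 : XT := (XT.nd (nat_lit 1872) (nat_lit 0) (nat_lit 0) (XT.nd (nat_lit 936) (nat_lit 76) (nat_lit 0) (XT.nd (nat_lit 468) (nat_lit 228) (nat_lit 0) (XT.nd (nat_lit 234) (nat_lit 228) (nat_lit 0) (XT.nd (nat_lit 78) (nat_lit 152) (nat_lit 0) (XT.lf (nat_lit 0) (nat_lit 7214627755) (nat_lit 76) (nat_lit 16400055100) (nat_lit 76) (nat_lit 4961408452) (nat_lit 10) (nat_lit 4) (nat_lit 11) (nat_lit 5) (nat_lit 11) (nat_lit 4) (nat_lit 282) (nat_lit 258) (nat_lit 240)) (XT.nd (nat_lit 78) (nat_lit 76) (nat_lit 0) (XT.lf (nat_lit 0) (nat_lit 4136360992) (nat_lit 152) (nat_lit 2966175159) (nat_lit 76) (nat_lit 24862919694) (nat_lit 9) (nat_lit 5) (nat_lit 11) (nat_lit 5) (nat_lit 10) (nat_lit 4) (nat_lit 283) (nat_lit 258) (nat_lit 239)) (XT.lf (nat_lit 0) (nat_lit 14664506002) (nat_lit 152) (nat_lit 17313621461) (nat_lit 0) (nat_lit 3846119286) (nat_lit 8) (nat_lit 5) (nat_lit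 10) (nat_lit 4) (nat_lit 8) (nat_lit 4) (nat_lit 284) (nat_lit 258) (nat_lit 238)))) (XT.nd (nat_lit 78) (nat_lit 152) (nat_lit 0) (XT.lf (nat_lit 0) (nat_lit 2725269078) (nat_lit 76) (nat_lit 24216639005) (nat_lit 76) (nat_lit 13306423279) (nat_lit 7) (nat_lit 4) (nat_lit 8) (nat_lit 5) (nat_lit 8) (nat_lit 4) (nat_lit 285) (nat_lit 258) (nat_lit 237)) (XT.nd (nat_lit 78) (nat_lit 152) (nat_lit 0) (XT.lf (nat_lit 0) (nat_lit 26501741684) (nat_lit 76) (nat_lit 14898632721) (nat_lit 76) (nat_lit 3908565682) (nat_lit 7) (nat_lit 4) (nat_lit 8) (nat_lit 5) (nat_lit 8) (nat_lit 4) (nat_lit 286) (nat_lit 258) (nat_lit 236)) (XT.lf (nat_lit 0) (nat_lit 2386304808) (nat_lit 76) (nat_lit 4078025851) (nat_lit 152) (nat_lit 44658252402) (nat_lit 5) (nat_lit 5) (nat_lit 6) (nat_lit 5) (nat_lit 7) (nat_lit 4) (nat_lit 287) (nat_lit 258) (nat_lit 235))))) (XT.nd (nat_lit 234) (nat_lit 152) (nat_lit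 0) (XT.nd (nat_lit 78) (nat_lit 76) (nat_lit 0) (XT.lf (nat_lit 0) (nat_lit 18794279565) (nat_lit 152) (nat_lit 30457222240) (nat_lit 0) (nat_lit 8498092501) (nat_lit 5) (nat_lit 5) (nat_lit 7) (nat_lit 4) (nat_lit 5) (nat_lit 4) (nat_lit 288) (nat_lit 258) (nat_lit 234)) (XT.nd (nat_lit 78) (nat_lit 76) (nat_lit 0) (XT.lf (nat_lit 0) (nat_lit 32967379064) (nat_lit 152) (nat_lit 9781249133) (nat_lit 0) (nat_lit 22622577616) (nat_lit 5) (nat_lit 5) (nat_lit 7) (nat_lit 4) (nat_lit 5) (nat_lit 4) (nat_lit 289) (nat_lit 258) (nat_lit 233)) (XT.lf (nat_lit 0) (nat_lit 14520628228) (nat_lit 76) (nat_lit 34991445540) (nat_lit 76) (nat_lit 24604370715) (nat_lit 4) (nat_lit 4) (nat_lit 5) (nat_lit 5) (nat_lit 5) (nat_lit 4) (nat_lit 290) (nat_lit 258) (nat_lit 232)))) (XT.nd (nat_lit 78) (nat_lit 152) (nat_lit 0) (XT.lf (nat_lit 0) (nat_lit 42875325069) (nat_lit 76) (nat_lit 25853394789) (nat_lit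 76) (nat_lit 15429560505) (nat_lit 4) (nat_lit 4) (nat_lit 5) (nat_lit 5) (nat_lit 5) (nat_lit 4) (nat_lit 291) (nat_lit 258) (nat_lit 231)) (XT.nd (nat_lit 78) (nat_lit 152) (nat_lit 0) (XT.lf (nat_lit 0) (nat_lit 75322543953) (nat_lit 76) (nat_lit 15423124677) (nat_lit 76) (nat_lit 4967325646) (nat_lit 4) (nat_lit 4) (nat_lit 5) (nat_lit 5) (nat_lit 5) (nat_lit 4) (nat_lit 292) (nat_lit 258) (nat_lit 230)) (XT.lf (nat_lit 0) (nat_lit 3497379929) (nat_lit 76) (nat_lit 3224242374) (nat_lit 152) (nat_lit 102264862387) (nat_lit 2) (nat_lit 5) (nat_lit 3) (nat_lit 5) (nat_lit 4) (nat_lit 4) (nat_lit 293) (nat_lit 258) (nat_lit 229)))))) (XT.nd (nat_lit 468) (nat_lit 0) (nat_lit 0) (XT.nd (nat_lit 234) (nat_lit 76) (nat_lit 0) (XT.nd (nat_lit 78) (nat_lit 0) (nat_lit 0) (XT.lf (nat_lit 0) (nat_lit 20678569802) (nat_lit 152) (nat_lit 92548265537) (nat_lit 0) (nat_lit 10949158318) (nat_lit 2)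 (nat_lit 5) (nat_lit 4) (nat_lit 4) (nat_lit 2) (nat_lit 4) (nat_lit 294) (nat_lit 258) (nat_lit 228)) (XT.nd (nat_lit 78) (nat_lit 0) (nat_lit 0) (XT.lf (nat_lit 0) (nat_lit 36758671170) (nat_lit 152) (nat_lit 77873106181) (nat_lit 0) (nat_lit 27009799186) (nat_lit 2) (nat_lit 5) (nat_lit 4) (nat_lit 4) (nat_lit 2) (nat_lit 4) (nat_lit 295) (nat_lit 258) (nat_lit 227)) (XT.lf (nat_lit 0) (nat_lit 55198993979) (nat_lit 152) (nat_lit 61098960905) (nat_lit 0) (nat_lit 45433199821) (nat_lit 2) (nat_lit 5) (nat_lit 4) (nat_lit 4) (nat_lit 2) (nat_lit 4) (nat_lit 296) (nat_lit 258) (nat_lit 226)))) (XT.nd (nat_lit 78) (nat_lit 76) (nat_lit 0) (XT.lf (nat_lit 0) (nat_lit 76360327154) (nat_lit 152) (nat_lit 41897639909) (nat_lit 0) (nat_lit 66579818063) (nat_lit 2) (nat_lit 5) (nat_lit 4) (nat_lit 4) (nat_lit 2) (nat_lit 4) (nat_lit 297) (nat_lit 258) (nat_lit 225)) (XT.nd (nat_lit 78) (nat_lit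 76) (nat_lit 0) (XT.lf (nat_lit 0) (nat_lit 100656696778) (nat_lit 152) (nat_lit 19893465174) (nat_lit 0) (nat_lit 90863392092) (nat_lit 2) (nat_lit 5) (nat_lit 4) (nat_lit 4) (nat_lit 2) (nat_lit 4) (nat_lit 298) (nat_lit 258) (nat_lit 224)) (XT.lf (nat_lit 0) (nat_lit 5625489531) (nat_lit 76) (nat_lit 123073270233) (nat_lit 76) (nat_lit 113268838943) (nat_lit 1) (nat_lit 4) (nat_lit 2) (nat_lit 5) (nat_lit 2) (nat_lit 4) (nat_lit 299) (nat_lit 258) (nat_lit 223))))) (XT.nd (nat_lit 234) (nat_lit 0) (nat_lit 0) (XT.nd (nat_lit 78) (nat_lit 0) (nat_lit 0) (XT.lf (nat_lit 0) (nat_lit 36115412135) (nat_lit 76) (nat_lit 125379803049) (nat_lit 76) (nat_lit 115565696452) (nat_lit 1) (nat_lit 4) (nat_lit 2) (nat_lit 5) (nat_lit 2) (nat_lit 4) (nat_lit 300) (nat_lit 258) (nat_lit 222)) (XT.nd (nat_lit 78) (nat_lit 0) (nat_lit 0) (XT.lf (nat_lit 0) (nat_lit 71125289980) (nat_lit 76) (nat_lit 128058810810)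 (nat_lit 76) (nat_lit 118236290902) (nat_lit 1) (nat_lit 4) (nat_lit 2) (nat_lit 5) (nat_lit 2) (nat_lit 4) (nat_lit 301) (nat_lit 258) (nat_lit 221)) (XT.lf (nat_lit 0) (nat_lit 111340098935) (nat_lit 76) (nat_lit 131162708886) (nat_lit 76) (nat_lit 121332873055) (nat_lit 1) (nat_lit 4) (nat_lit 2) (nat_lit 5) (nat_lit 2) (nat_lit 4) (nat_lit 302) (nat_lit 258) (nat_lit 220)))) (XT.nd (nat_lit 78) (nat_lit 0) (nat_lit 0) (XT.lf (nat_lit 0) (nat_lit 157546650482) (nat_lit 76) (nat_lit 134752225715) (nat_lit 76) (nat_lit 124916028212) (nat_lit 1) (nat_lit 4) (nat_lit 2) (nat_lit 5) (nat_lit 2) (nat_lit 4) (nat_lit 303) (nat_lit 258) (nat_lit 219)) (XT.nd (nat_lit 78) (nat_lit 0) (nat_lit 0) (XT.lf (nat_lit 0) (nat_lit 210648985845) (nat_lit 76) (nat_lit 138897590977) (nat_lit 76) (nat_lit 129055861585) (nat_lit 1) (nat_lit 4) (nat_lit 2) (nat_lit 5) (nat_lit 2) (nat_lit 4) (nat_lit 304)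 (nat_lit 258) (nat_lit 218)) (XT.lf (nat_lit 0) (nat_lit 271686063760) (nat_lit 76) (nat_lit 143679909643) (nat_lit 76) (nat_lit 133833369913) (nat_lit 1) (nat_lit 4) (nat_lit 2) (nat_lit 5) (nat_lit 2) (nat_lit 4) (nat_lit 305) (nat_lit 258) (nat_lit 217))))))) (XT.nd (nat_lit 936) (nat_lit 0) (nat_lit 0) (XT.nd (nat_lit 468) (nat_lit 0) (nat_lit 0) (XT.nd (nat_lit 234) (nat_lit 0) (nat_lit 0) (XT.nd (nat_lit 78) (nat_lit 0) (nat_lit 0) (XT.lf (nat_lit 0) (nat_lit 341852087926) (nat_lit 76) (nat_lit 149192748817) (nat_lit 76) (nat_lit 139342026185) (nat_lit 1) (nat_lit 4) (nat_lit 2) (nat_lit 5) (nat_lit 2) (nat_lit 4) (nat_lit 306) (nat_lit 258) (nat_lit 216)) (XT.nd (nat_lit 78) (nat_lit 0) (nat_lit 0) (XT.lf (nat_lit 0) (nat_lit 422519871858) (nat_lit 76) (nat_lit 155543968396) (nat_lit 76) (nat_lit 145689608458) (nat_lit 1) (nat_lit 4) (nat_lit 2) (nat_lit 5) (nat_lit 2) (nat_lit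 4) (nat_lit 307) (nat_lit 258) (nat_lit 215)) (XT.lf (nat_lit 0) (nat_lit 515267698286) (nat_lit 76) (nat_lit 162857831373) (nat_lit 76) (nat_lit 153000308559) (nat_lit 1) (nat_lit 4) (nat_lit 2) (nat_lit 5) (nat_lit 2) (nat_lit 4) (nat_lit 308) (nat_lit 258) (nat_lit 214)))) (XT.nd (nat_lit 78) (nat_lit 0) (nat_lit 0) (XT.lf (nat_lit 0) (nat_lit 621910198596) (nat_lit 76) (nat_lit 171277435066) (nat_lit 76) (nat_lit 161417161926) (nat_lit 1) (nat_lit 4) (nat_lit 2) (nat_lit 5) (nat_lit 2) (nat_lit 4) (nat_lit 309) (nat_lit 258) (nat_lit 213)) (XT.nd (nat_lit 78) (nat_lit 0) (nat_lit 0) (XT.lf (nat_lit 0) (nat_lit 744533856491) (nat_lit 76) (nat_lit 180967510852) (nat_lit 76) (nat_lit 171104846123) (nat_lit 1) (nat_lit 4) (nat_lit 2) (nat_lit 5) (nat_lit 2) (nat_lit 4) (nat_lit 310) (nat_lit 258) (nat_lit 212)) (XT.lf (nat_lit 0) (nat_lit 885537830494) (nat_lit 76) (nat_lit 192117647170)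 (nat_lit 76) (nat_lit 182252902799) (nat_lit 1) (nat_lit 4) (nat_lit 2) (nat_lit 5) (nat_lit 2) (nat_lit 4) (nat_lit 311) (nat_lit 258) (nat_lit 211))))) (XT.nd (nat_lit 234) (nat_lit 0) (nat_lit 0) (XT.nd (nat_lit 78) (nat_lit 0) (nat_lit 0) (XT.lf (nat_lit 0) (nat_lit 1047680894009) (nat_lit 76) (nat_lit 204945998861) (nat_lit 76) (nat_lit 195079446106) (nat_lit 1) (nat_lit 4) (nat_lit 2) (nat_lit 5) (nat_lit 2) (nat_lit 4) (nat_lit 312) (nat_lit 258) (nat_lit 210)) (XT.nd (nat_lit 78) (nat_lit 0) (nat_lit 0) (XT.lf (nat_lit 0) (nat_lit 1234135411324) (nat_lit 76) (nat_lit 219703555414) (nat_lit 76) (nat_lit 209835430152) (nat_lit 1) (nat_lit 4) (nat_lit 2) (nat_lit 5) (nat_lit 2) (nat_lit 4) (nat_lit 313) (nat_lit 258) (nat_lit 209)) (XT.lf (nat_lit 0) (nat_lit 1448549405601) (nat_lit 76) (nat_lit 236679051633) (nat_lit 76) (nat_lit 226809558973) (nat_lit 1) (nat_lit 4) (nat_lit 2)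 (nat_lit 5) (nat_lit 2) (nat_lit 4) (nat_lit 314) (nat_lit 258) (nat_lit 208)))) (XT.nd (nat_lit 78) (nat_lit 0) (nat_lit 0) (XT.lf (nat_lit 0) (nat_lit 1695117933252) (nat_lit 76) (nat_lit 256204616791) (nat_lit 76) (nat_lit 246333935088) (nat_lit 1) (nat_lit 4) (nat_lit 2) (nat_lit 5) (nat_lit 2) (nat_lit 4) (nat_lit 315) (nat_lit 258) (nat_lit 207)) (XT.nd (nat_lit 78) (nat_lit 0) (nat_lit 0) (XT.lf (nat_lit 0) (nat_lit 1978665161122) (nat_lit 76) (nat_lit 278662272814) (nat_lit 76) (nat_lit 268790557162) (nat_lit 1) (nat_lit 4) (nat_lit 2) (nat_lit 5) (nat_lit 2) (nat_lit 4) (nat_lit 316) (nat_lit 258) (nat_lit 206)) (XT.lf (nat_lit 0) (nat_lit 2304738752365) (nat_lit 76) (nat_lit 304491408625) (nat_lit 76) (nat_lit 294618793886) (nat_lit 1) (nat_lit 4) (nat_lit 2) (nat_lit 5) (nat_lit 2) (nat_lit 4) (nat_lit 317) (nat_lit 258) (nat_lit 205)))))) (XT.nd (nat_lit 468) (nat_lit 0) (nat_lit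 0) (XT.nd (nat_lit 234) (nat_lit 0) (nat_lit 0) (XT.nd (nat_lit 78) (nat_lit 0) (nat_lit 0) (XT.lf (nat_lit 0) (nat_lit 2679718407679) (nat_lit 76) (nat_lit 334197376881) (nat_lit 76) (nat_lit 324323980328) (nat_lit 1) (nat_lit 4) (nat_lit 2) (nat_lit 5) (nat_lit 2) (nat_lit 4) (nat_lit 318) (nat_lit 258) (nat_lit 204)) (XT.nd (nat_lit 78) (nat_lit 0) (nat_lit 0) (XT.lf (nat_lit 0) (nat_lit 3110940685537) (nat_lit 76) (nat_lit 368361381309) (nat_lit 76) (nat_lit 358487304918) (nat_lit 1) (nat_lit 4) (nat_lit 2) (nat_lit 5) (nat_lit 2) (nat_lit 4) (nat_lit 319) (nat_lit 258) (nat_lit 203)) (XT.lf (nat_lit 0) (nat_lit 3606842543549) (nat_lit 76) (nat_lit 407651848083) (nat_lit 76) (nat_lit 397777180527) (nat_lit 1) (nat_lit 4) (nat_lit 2) (nat_lit 5) (nat_lit 2) (nat_lit 4) (nat_lit 320) (nat_lit 258) (nat_lit 202)))) (XT.nd (nat_lit 78) (nat_lit 0) (nat_lit 0) (XT.lf (nat_lit 0) (nat_lit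 4177126409373) (nat_lit 76) (nat_lit 452837503726) (nat_lit 76) (nat_lit 442962322115) (nat_lit 1) (nat_lit 4) (nat_lit 2) (nat_lit 5) (nat_lit 2) (nat_lit 4) (nat_lit 321) (nat_lit 258) (nat_lit 201)) (XT.nd (nat_lit 78) (nat_lit 0) (nat_lit 0) (XT.lf (nat_lit 0) (nat_lit 4832950010819) (nat_lit 76) (nat_lit 504802415414) (nat_lit 76) (nat_lit 494926786798) (nat_lit 1) (nat_lit 4) (nat_lit 2) (nat_lit 5) (nat_lit 2) (nat_lit 4) (nat_lit 322) (nat_lit 258) (nat_lit 200)) (XT.lf (nat_lit 0) (nat_lit 5587144679218) (nat_lit 76) (nat_lit 564563287940) (nat_lit 76) (nat_lit 554687270624) (nat_lit 1) (nat_lit 4) (nat_lit 2) (nat_lit 5) (nat_lit 2) (nat_lit 4) (nat_lit 323) (nat_lit 258) (nat_lit 199))))) (XT.nd (nat_lit 234) (nat_lit 0) (nat_lit 0) (XT.nd (nat_lit 78) (nat_lit 0) (nat_lit 0) (XT.lf (nat_lit 0) (nat_lit 6454466397213) (nat_lit 76) (nat_lit 633289355768) (nat_lit 76) (nat_lit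 623413000452) (nat_lit 1) (nat_lit 4) (nat_lit 2) (nat_lit 5) (nat_lit 2) (nat_lit 4) (nat_lit 324) (nat_lit 258) (nat_lit 198)) (XT.nd (nat_lit 78) (nat_lit 0) (nat_lit 0) (XT.lf (nat_lit 0) (nat_lit 7451884502765) (nat_lit 76) (nat_lit 712325259355) (nat_lit 76) (nat_lit 702448610126) (nat_lit 1) (nat_lit 4) (nat_lit 2) (nat_lit 5) (nat_lit 2) (nat_lit 4) (nat_lit 325) (nat_lit 258) (nat_lit 197)) (XT.lf (nat_lit 0) (nat_lit 8598913697940) (nat_lit 76) (nat_lit 803217353336) (nat_lit 76) (nat_lit 793340448530) (nat_lit 1) (nat_lit 4) (nat_lit 2) (nat_lit 5) (nat_lit 2) (nat_lit 4) (nat_lit 326) (nat_lit 258) (nat_lit 196)))) (XT.nd (nat_lit 35646) (nat_lit 0) (nat_lit 4636) (XT.nd (nat_lit 35568) (nat_lit 0) (nat_lit 5472) (XT.lf (nat_lit 0) (nat_lit 9917995858295) (nat_lit 76) (nat_lit 907743961288) (nat_lit 76) (nat_lit 897866834242) (nat_lit 1) (nat_lit 4) (nat_lit 2) (nat_lit 5)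 (nat_lit 2) (nat_lit 4) (nat_lit 327) (nat_lit 258) (nat_lit 195)) (XT.lf (nat_lit 0) (nat_lit 2967509770) (nat_lit 76) (nat_lit 151071505) (nat_lit 76) (nat_lit 151071505) (nat_lit 73) (nat_lit 4) (nat_lit 74) (nat_lit 5) (nat_lit 74) (nat_lit 4) (nat_lit 262) (nat_lit 259) (nat_lit 259))) (XT.nd (nat_lit 78) (nat_lit 608) (nat_lit 0) (XT.lf (nat_lit 0) (nat_lit 5240965896) (nat_lit 228) (nat_lit 217437345) (nat_lit 0) (nat_lit 1211051127) (nat_lit 70) (nat_lit 5) (nat_lit 73) (nat_lit 4) (nat_lit 70) (nat_lit 4) (nat_lit 263) (nat_lit 259) (nat_lit 258)) (XT.lf (nat_lit 0) (nat_lit 513782379) (nat_lit 304) (nat_lit 3355434380) (nat_lit 380) (nat_lit 2996507289) (nat_lit 62) (nat_lit 5) (nat_lit 66) (nat_lit 5) (nat_lit 67) (nat_lit 4) (nat_lit 264) (nat_lit 259) (nat_lit 257))))))))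
noncomputable def xc22 : XT := (XT.nd (nat_lit 1872) (nat_lit 304) (nat_lit 0) (XT.nd (nat_lit 936) (nat_lit 988) (nat_lit 0) (XT.nd (nat_lit 468) (nat_lit 1064) (nat_lit 0) (XT.nd (nat_lit 234) (nat_lit 988) (nat_lit 0) (XT.nd (nat_lit 78) (nat_lit 836) (nat_lit 0) (XT.lf (nat_lit 0) (nat_lit 1600853570) (nat_lit 380) (nat_lit 467039551) (nat_lit 456) (nat_lit 5063915142) (nat_lit 56) (nat_lit 5) (nat_lit 61) (nat_lit 5) (nat_lit 62) (nat_lit 5) (nat_lit 265) (nat_lit 259) (nat_lit 256)) (XT.nd (nat_lit 78) (nat_lit 380) (nat_lit 0) (XT.lf (nat_lit 0) (nat_lit 2951117402) (nat_lit 456) (nat_lit 4357609532) (nat_lit 532) (nat_lit 157242696) (nat_lit 50) (nat_lit 5) (nat_lit 56) (nat_lit 5) (nat_lit 57) (nat_lit 4) (nat_lit 266) (nat_lit 259) (nat_lit 255)) (XT.lf (nat_lit 0) (nat_lit 4559799808) (nat_lit 304) (nat_lit 260147408) (nat_lit 380) (nat_lit 3052591954) (nat_lit 45) (nat_lit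 5) (nat_lit 49) (nat_lit 5) (nat_lit 50) (nat_lit 5) (nat_lit 267) (nat_lit 259) (nat_lit 254)))) (XT.nd (nat_lit 78) (nat_lit 684) (nat_lit 0) (XT.lf (nat_lit 0) (nat_lit 1867557510) (nat_lit 304) (nat_lit 1968317585) (nat_lit 76) (nat_lit 4518302699) (nat_lit 41) (nat_lit 5) (nat_lit 45) (nat_lit 5) (nat_lit 42) (nat_lit 5) (nat_lit 268) (nat_lit 259) (nat_lit 253)) (XT.nd (nat_lit 78) (nat_lit 456) (nat_lit 0) (XT.lf (nat_lit 0) (nat_lit 7134679099) (nat_lit 304) (nat_lit 465792536) (nat_lit 76) (nat_lit 1319158048) (nat_lit 38) (nat_lit 5) (nat_lit 42) (nat_lit 5) (nat_lit 39) (nat_lit 4) (nat_lit 269) (nat_lit 259) (nat_lit 252)) (XT.lf (nat_lit 0) (nat_lit 1159019932) (nat_lit 228) (nat_lit 2226269869) (nat_lit 304) (nat_lit 6182955042) (nat_lit 32) (nat_lit 5) (nat_lit 35) (nat_lit 5) (nat_lit 36) (nat_lit 5) (nat_lit 270) (nat_lit 259) (nat_lit 251))))) (XT.nd (nat_lit 234) (nat_lit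 532) (nat_lit 0) (XT.nd (nat_lit 78) (nat_lit 380) (nat_lit 0) (XT.lf (nat_lit 0) (nat_lit 2887161394) (nat_lit 152) (nat_lit 6315337867) (nat_lit 228) (nat_lit 1110534819) (nat_lit 30) (nat_lit 5) (nat_lit 32) (nat_lit 5) (nat_lit 33) (nat_lit 4) (nat_lit 271) (nat_lit 259) (nat_lit 250)) (XT.nd (nat_lit 78) (nat_lit 152) (nat_lit 0) (XT.lf (nat_lit 0) (nat_lit 4464586930) (nat_lit 228) (nat_lit 6543337830) (nat_lit 76) (nat_lit 154895563) (nat_lit 27) (nat_lit 5) (nat_lit 30) (nat_lit 5) (nat_lit 28) (nat_lit 4) (nat_lit 272) (nat_lit 259) (nat_lit 249)) (XT.lf (nat_lit 0) (nat_lit 6265638661) (nat_lit 152) (nat_lit 4683048306) (nat_lit 228) (nat_lit 1178535133) (nat_lit 25) (nat_lit 5) (nat_lit 27) (nat_lit 5) (nat_lit 28) (nat_lit 4) (nat_lit 273) (nat_lit 259) (nat_lit 248)))) (XT.nd (nat_lit 78) (nat_lit 304) (nat_lit 0) (XT.lf (nat_lit 0) (nat_lit 4983443350) (nat_lit 228) (nat_lit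 5465135375) (nat_lit 76) (nat_lit 2772356301) (nat_lit 22) (nat_lit 5) (nat_lit 25) (nat_lit 5) (nat_lit 23) (nat_lit 4) (nat_lit 274) (nat_lit 259) (nat_lit 247)) (XT.nd (nat_lit 78) (nat_lit 228) (nat_lit 0) (XT.lf (nat_lit 0) (nat_lit 9016089037) (nat_lit 76) (nat_lit 3157681575) (nat_lit 152) (nat_lit 2288951431) (nat_lit 21) (nat_lit 5) (nat_lit 22) (nat_lit 5) (nat_lit 23) (nat_lit 4) (nat_lit 275) (nat_lit 259) (nat_lit 246)) (XT.lf (nat_lit 0) (nat_lit 4535665546) (nat_lit 228) (nat_lit 6045536442) (nat_lit 76) (nat_lit 5284197596) (nat_lit 18) (nat_lit 5) (nat_lit 21) (nat_lit 5) (nat_lit 19) (nat_lit 4) (nat_lit 276) (nat_lit 259) (nat_lit 245)))))) (XT.nd (nat_lit 468) (nat_lit 456) (nat_lit 0) (XT.nd (nat_lit 234) (nat_lit 228) (nat_lit 0) (XT.nd (nat_lit 78) (nat_lit 228) (nat_lit 0) (XT.lf (nat_lit 0) (nat_lit 10073607314) (nat_lit 76) (nat_lit 2371417032) (nat_lit 152) (nat_lit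 5013232706) (nat_lit 17) (nat_lit 5) (nat_lit 18) (nat_lit 5) (nat_lit 19) (nat_lit 4) (nat_lit 277) (nat_lit 259) (nat_lit 244)) (XT.nd (nat_lit 78) (nat_lit 76) (nat_lit 0) (XT.lf (nat_lit 0) (nat_lit 2448516778) (nat_lit 152) (nat_lit 9815436447) (nat_lit 76) (nat_lit 6997140496) (nat_lit 15) (nat_lit 5) (nat_lit 17) (nat_lit 5) (nat_lit 16) (nat_lit 4) (nat_lit 278) (nat_lit 259) (nat_lit 243)) (XT.lf (nat_lit 0) (nat_lit 7641205458) (nat_lit 76) (nat_lit 3311788192) (nat_lit 152) (nat_lit 10353503536) (nat_lit 14) (nat_lit 5) (nat_lit 15) (nat_lit 5) (nat_lit 16) (nat_lit 4) (nat_lit 279) (nat_lit 259) (nat_lit 242)))) (XT.nd (nat_lit 78) (nat_lit 152) (nat_lit 0) (XT.lf (nat_lit 0) (nat_lit 4276364107) (nat_lit 76) (nat_lit 16781657379) (nat_lit 76) (nat_lit 2574858243) (nat_lit 13) (nat_lit 4) (nat_lit 14) (nat_lit 5) (nat_lit 14) (nat_lit 4) (nat_lit 280) (nat_lit 259) (nat_lit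 241)) (XT.nd (nat_lit 78) (nat_lit 76) (nat_lit 0) (XT.lf (nat_lit 0) (nat_lit 6328363308) (nat_lit 152) (nat_lit 1206703399) (nat_lit 76) (nat_lit 18738906928) (nat_lit 12) (nat_lit 5) (nat_lit 14) (nat_lit 5) (nat_lit 13) (nat_lit 4) (nat_lit 281) (nat_lit 259) (nat_lit 240)) (XT.lf (nat_lit 0) (nat_lit 16796816601) (nat_lit 152) (nat_lit 9118218922) (nat_lit 0) (nat_lit 3360380299) (nat_lit 11) (nat_lit 5) (nat_lit 13) (nat_lit 4) (nat_lit 11) (nat_lit 4) (nat_lit 282) (nat_lit 259) (nat_lit 239))))) (XT.nd (nat_lit 234) (nat_lit 228) (nat_lit 0) (XT.nd (nat_lit 78) (nat_lit 152) (nat_lit 0) (XT.lf (nat_lit 0) (nat_lit 12133642796) (nat_lit 76) (nat_lit 17057772994) (nat_lit 76) (nat_lit 3507285062) (nat_lit 10) (nat_lit 4) (nat_lit 11) (nat_lit 5) (nat_lit 11) (nat_lit 4) (nat_lit 283) (nat_lit 259) (nat_lit 238)) (XT.nd (nat_lit 78) (nat_lit 0) (nat_lit 0) (XT.lf (nat_lit 0) (nat_lit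 22873238) (nat_lit 76) (nat_lit 6550461618) (nat_lit 152) (nat_lit 30040779051) (nat_lit 8) (nat_lit 5) (nat_lit 9) (nat_lit 5) (nat_lit 10) (nat_lit 4) (nat_lit 284) (nat_lit 259) (nat_lit 237)) (XT.lf (nat_lit 0) (nat_lit 18554633715) (nat_lit 152) (nat_lit 16671079261) (nat_lit 0) (nat_lit 5836205306) (nat_lit 8) (nat_lit 5) (nat_lit 10) (nat_lit 4) (nat_lit 8) (nat_lit 4) (nat_lit 285) (nat_lit 259) (nat_lit 236)))) (XT.nd (nat_lit 78) (nat_lit 152) (nat_lit 0) (XT.lf (nat_lit 0) (nat_lit 6099430089) (nat_lit 76) (nat_lit 26425039539) (nat_lit 76) (nat_lit 13637175206) (nat_lit 7) (nat_lit 4) (nat_lit 8) (nat_lit 5) (nat_lit 8) (nat_lit 4) (nat_lit 286) (nat_lit 259) (nat_lit 235)) (XT.nd (nat_lit 78) (nat_lit 152) (nat_lit 0) (XT.lf (nat_lit 0) (nat_lit 33055586110) (nat_lit 76) (nat_lit 15895083876) (nat_lit 76) (nat_lit 3046840477) (nat_lit 7) (nat_lit 4) (nat_lit 8) (nat_lit 5)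 (nat_lit 8) (nat_lit 4) (nat_lit 287) (nat_lit 259) (nat_lit 234)) (XT.lf (nat_lit 0) (nat_lit 5171340928) (nat_lit 76) (nat_lit 3517162851) (nat_lit 152) (nat_lit 50001660832) (nat_lit 5) (nat_lit 5) (nat_lit 6) (nat_lit 5) (nat_lit 7) (nat_lit 4) (nat_lit 288) (nat_lit 259) (nat_lit 233))))))) (XT.nd (nat_lit 936) (nat_lit 0) (nat_lit 0) (XT.nd (nat_lit 468) (nat_lit 76) (nat_lit 0) (XT.nd (nat_lit 234) (nat_lit 152) (nat_lit 0) (XT.nd (nat_lit 78) (nat_lit 76) (nat_lit 0) (XT.lf (nat_lit 0) (nat_lit 22728833484) (nat_lit 152) (nat_lit 32852156839) (nat_lit 0) (nat_lit 10741424058) (nat_lit 5) (nat_lit 5) (nat_lit 7) (nat_lit 4) (nat_lit 5) (nat_lit 4) (nat_lit 289) (nat_lit 259) (nat_lit 232)) (XT.nd (nat_lit 78) (nat_lit 76) (nat_lit 0) (XT.lf (nat_lit 0) (nat_lit 38882409389) (nat_lit 152) (nat_lit 9358307166) (nat_lit 0) (nat_lit 26858240504) (nat_lit 5) (nat_lit 5) (nat_lit 7) (nat_lit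 4) (nat_lit 5) (nat_lit 4) (nat_lit 290) (nat_lit 259) (nat_lit 231)) (XT.lf (nat_lit 0) (nat_lit 18428861764) (nat_lit 76) (nat_lit 39395044670) (nat_lit 76) (nat_lit 27338911038) (nat_lit 4) (nat_lit 4) (nat_lit 5) (nat_lit 5) (nat_lit 5) (nat_lit 4) (nat_lit 291) (nat_lit 259) (nat_lit 230)))) (XT.nd (nat_lit 78) (nat_lit 152) (nat_lit 0) (XT.lf (nat_lit 0) (nat_lit 50811092788) (nat_lit 76) (nat_lit 28996519049) (nat_lit 76) (nat_lit 16912589985) (nat_lit 4) (nat_lit 4) (nat_lit 5) (nat_lit 5) (nat_lit 5) (nat_lit 4) (nat_lit 292) (nat_lit 259) (nat_lit 229)) (XT.nd (nat_lit 78) (nat_lit 152) (nat_lit 0) (XT.lf (nat_lit 0) (nat_lit 87929159423) (nat_lit 76) (nat_lit 17097562980) (nat_lit 76) (nat_lit 4989463976) (nat_lit 4) (nat_lit 4) (nat_lit 5) (nat_lit 5) (nat_lit 5) (nat_lit 4) (nat_lit 293) (nat_lit 259) (nat_lit 228)) (XT.lf (nat_lit 0) (nat_lit 5252776610) (nat_lit 76) (nat_lit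 3103902694) (nat_lit 152) (nat_lit 116927455251) (nat_lit 2) (nat_lit 5) (nat_lit 3) (nat_lit 5) (nat_lit 4) (nat_lit 4) (nat_lit 294) (nat_lit 259) (nat_lit 227))))) (XT.nd (nat_lit 234) (nat_lit 76) (nat_lit 0) (XT.nd (nat_lit 78) (nat_lit 0) (nat_lit 0) (XT.lf (nat_lit 0) (nat_lit 24338041615) (nat_lit 152) (nat_lit 105329125461) (nat_lit 0) (nat_lit 13090456160) (nat_lit 2) (nat_lit 5) (nat_lit 4) (nat_lit 4) (nat_lit 2) (nat_lit 4) (nat_lit 295) (nat_lit 259) (nat_lit 226)) (XT.nd (nat_lit 78) (nat_lit 0) (nat_lit 0) (XT.lf (nat_lit 0) (nat_lit 42757416491) (nat_lit 152) (nat_lit 88596350451) (nat_lit 0) (nat_lit 31495116103) (nat_lit 2) (nat_lit 5) (nat_lit 4) (nat_lit 4) (nat_lit 2) (nat_lit 4) (nat_lit 296) (nat_lit 259) (nat_lit 225)) (XT.lf (nat_lit 0) (nat_lit 63900534072) (nat_lit 152) (nat_lit 69431003599) (nat_lit 0) (nat_lit 52625438089) (nat_lit 2) (nat_lit 5) (nat_lit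 4) (nat_lit 4) (nat_lit 2) (nat_lit 4) (nat_lit 297) (nat_lit 259) (nat_lit 224)))) (XT.nd (nat_lit 78) (nat_lit 76) (nat_lit 0) (XT.lf (nat_lit 0) (nat_lit 88181064050) (nat_lit 152) (nat_lit 47458110729) (nat_lit 0) (nat_lit 76894841463) (nat_lit 2) (nat_lit 5) (nat_lit 4) (nat_lit 4) (nat_lit 2) (nat_lit 4) (nat_lit 298) (nat_lit 259) (nat_lit 223)) (XT.nd (nat_lit 78) (nat_lit 76) (nat_lit 0) (XT.lf (nat_lit 0) (nat_lit 116074060271) (nat_lit 152) (nat_lit 22247767414) (nat_lit 0) (nat_lit 104778162377) (nat_lit 2) (nat_lit 5) (nat_lit 4) (nat_lit 4) (nat_lit 2) (nat_lit 4) (nat_lit 299) (nat_lit 259) (nat_lit 222)) (XT.lf (nat_lit 0) (nat_lit 7045728044) (nat_lit 76) (nat_lit 141248977156) (nat_lit 76) (nat_lit 129944665950) (nat_lit 1) (nat_lit 4) (nat_lit 2) (nat_lit 5) (nat_lit 2) (nat_lit 4) (nat_lit 300) (nat_lit 259) (nat_lit 221)))))) (XT.nd (nat_lit 468) (nat_lit 0) (nat_lit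 0) (XT.nd (nat_lit 234) (nat_lit 0) (nat_lit 0) (XT.nd (nat_lit 78) (nat_lit 0) (nat_lit 0) (XT.lf (nat_lit 0) (nat_lit 42033954462) (nat_lit 76) (nat_lit 143938700801) (nat_lit 76) (nat_lit 132627073673) (nat_lit 1) (nat_lit 4) (nat_lit 2) (nat_lit 5) (nat_lit 2) (nat_lit 4) (nat_lit 301) (nat_lit 259) (nat_lit 220)) (XT.nd (nat_lit 78) (nat_lit 0) (nat_lit 0) (XT.lf (nat_lit 0) (nat_lit 82229936091) (nat_lit 76) (nat_lit 147051917036) (nat_lit 76) (nat_lit 135733928236) (nat_lit 1) (nat_lit 4) (nat_lit 2) (nat_lit 5) (nat_lit 2) (nat_lit 4) (nat_lit 302) (nat_lit 259) (nat_lit 219)) (XT.lf (nat_lit 0) (nat_lit 128420116049) (nat_lit 76) (nat_lit 150649536613) (nat_lit 76) (nat_lit 139326015924) (nat_lit 1) (nat_lit 4) (nat_lit 2) (nat_lit 5) (nat_lit 2) (nat_lit 4) (nat_lit 303) (nat_lit 259) (nat_lit 218)))) (XT.nd (nat_lit 78) (nat_lit 0) (nat_lit 0) (XT.lf (nat_lit 0) (nat_lit 181508215249)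 (nat_lit 76) (nat_lit 154801947742) (nat_lit 76) (nat_lit 143473616715) (nat_lit 1) (nat_lit 4) (nat_lit 2) (nat_lit 5) (nat_lit 2) (nat_lit 4) (nat_lit 304) (nat_lit 259) (nat_lit 217)) (XT.nd (nat_lit 78) (nat_lit 0) (nat_lit 0) (XT.lf (nat_lit 0) (nat_lit 242532913891) (nat_lit 76) (nat_lit 159590393249) (nat_lit 76) (nat_lit 148257879320) (nat_lit 1) (nat_lit 4) (nat_lit 2) (nat_lit 5) (nat_lit 2) (nat_lit 4) (nat_lit 305) (nat_lit 259) (nat_lit 216)) (XT.lf (nat_lit 0) (nat_lit 312688173471) (nat_lit 76) (nat_lit 165108560111) (nat_lit 76) (nat_lit 153772408875) (nat_lit 1) (nat_lit 4) (nat_lit 2) (nat_lit 5) (nat_lit 2) (nat_lit 4) (nat_lit 306) (nat_lit 259) (nat_lit 215))))) (XT.nd (nat_lit 234) (nat_lit 0) (nat_lit 0) (XT.nd (nat_lit 78) (nat_lit 0) (nat_lit 0) (XT.lf (nat_lit 0) (nat_lit 393346596895) (nat_lit 76) (nat_lit 171464412463) (nat_lit 76) (nat_lit 160125098352) (nat_lit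 1) (nat_lit 4) (nat_lit 2) (nat_lit 5) (nat_lit 2) (nat_lit 4) (nat_lit 307) (nat_lit 259) (nat_lit 214)) (XT.nd (nat_lit 78) (nat_lit 0) (nat_lit 0) (XT.lf (nat_lit 0) (nat_lit 486086283750) (nat_lit 76) (nat_lit 178782303937) (nat_lit 76) (nat_lit 167440239500) (nat_lit 1) (nat_lit 4) (nat_lit 2) (nat_lit 5) (nat_lit 2) (nat_lit 4) (nat_lit 308) (nat_lit 259) (nat_lit 213)) (XT.lf (nat_lit 0) (nat_lit 592721706171) (nat_lit 76) (nat_lit 187205410671) (nat_lit 76) (nat_lit 175860954646) (nat_lit 1) (nat_lit 4) (nat_lit 2) (nat_lit 5) (nat_lit 2) (nat_lit 4) (nat_lit 309) (nat_lit 259) (nat_lit 212)))) (XT.nd (nat_lit 156) (nat_lit 0) (nat_lit 0) (XT.nd (nat_lit 78) (nat_lit 0) (nat_lit 0) (XT.lf (nat_lit 0) (nat_lit 715339209379) (nat_lit 76) (nat_lit 196898532580) (nat_lit 76) (nat_lit 185551996913) (nat_lit 1) (nat_lit 4) (nat_lit 2) (nat_lit 5) (nat_lit 2) (nat_lit 4) (nat_lit 310)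 (nat_lit 259) (nat_lit 211)) (XT.lf (nat_lit 0) (nat_lit 856337831480) (nat_lit 76) (nat_lit 208051317701) (nat_lit 76) (nat_lit 196702973649) (nat_lit 1) (nat_lit 4) (nat_lit 2) (nat_lit 5) (nat_lit 2) (nat_lit 4) (nat_lit 311) (nat_lit 259) (nat_lit 210))) (XT.nd (nat_lit 78) (nat_lit 0) (nat_lit 0) (XT.lf (nat_lit 0) (nat_lit 1018476241169) (nat_lit 76) (nat_lit 220881972698) (nat_lit 76) (nat_lit 209532056139) (nat_lit 1) (nat_lit 4) (nat_lit 2) (nat_lit 5) (nat_lit 2) (nat_lit 4) (nat_lit 312) (nat_lit 259) (nat_lit 209)) (XT.lf (nat_lit 0) (nat_lit 1204926711677) (nat_lit 76) (nat_lit 235641532127) (nat_lit 76) (nat_lit 224290248169) (nat_lit 1) (nat_lit 4) (nat_lit 2) (nat_lit 5) (nat_lit 2) (nat_lit 4) (nat_lit 313) (nat_lit 259) (nat_lit 208))))))))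
noncomputable def xc23 : XT := (XT.nd (nat_lit 37206) (nat_lit 0) (nat_lit 228) (XT.nd (nat_lit 936) (nat_lit 0) (nat_lit 0) (XT.nd (nat_lit 468) (nat_lit 0) (nat_lit 0) (XT.nd (nat_lit 234) (nat_lit 0) (nat_lit 0) (XT.nd (nat_lit 78) (nat_lit 0) (nat_lit 0) (XT.lf (nat_lit 0) (nat_lit 1419337186992) (nat_lit 76) (nat_lit 252618769977) (nat_lit 76) (nat_lit 241266296977) (nat_lit 1) (nat_lit 4) (nat_lit 2) (nat_lit 5) (nat_lit 2) (nat_lit 4) (nat_lit 314) (nat_lit 259) (nat_lit 207)) (XT.nd (nat_lit 78) (nat_lit 0) (nat_lit 0) (XT.lf (nat_lit 0) (nat_lit 1665902654677) (nat_lit 76) (nat_lit 272145849596) (nat_lit 76) (nat_lit 260792342646) (nat_lit 1) (nat_lit 4) (nat_lit 2) (nat_lit 5) (nat_lit 2) (nat_lit 4) (nat_lit 315) (nat_lit 259) (nat_lit 206)) (XT.lf (nat_lit 0) (nat_lit 1949447221706) (nat_lit 76) (nat_lit 294604822542) (nat_lit 76) (nat_lit 283250416506) (nat_lit 1) (nat_lit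 4) (nat_lit 2) (nat_lit 5) (nat_lit 2) (nat_lit 4) (nat_lit 316) (nat_lit 259) (nat_lit 205)))) (XT.nd (nat_lit 78) (nat_lit 0) (nat_lit 0) (XT.lf (nat_lit 0) (nat_lit 2275518499174) (nat_lit 76) (nat_lit 320435103503) (nat_lit 76) (nat_lit 309079915653) (nat_lit 1) (nat_lit 4) (nat_lit 2) (nat_lit 5) (nat_lit 2) (nat_lit 4) (nat_lit 317) (nat_lit 259) (nat_lit 204)) (XT.nd (nat_lit 78) (nat_lit 0) (nat_lit 0) (XT.lf (nat_lit 0) (nat_lit 2650496142509) (nat_lit 76) (nat_lit 350142067543) (nat_lit 76) (nat_lit 338786199854) (nat_lit 1) (nat_lit 4) (nat_lit 2) (nat_lit 5) (nat_lit 2) (nat_lit 4) (nat_lit 318) (nat_lit 259) (nat_lit 203)) (XT.lf (nat_lit 0) (nat_lit 3081716670821) (nat_lit 76) (nat_lit 384306937869) (nat_lit 76) (nat_lit 372950479016) (nat_lit 1) (nat_lit 4) (nat_lit 2) (nat_lit 5) (nat_lit 2) (nat_lit 4) (nat_lit 319) (nat_lit 259) (nat_lit 202))))) (XT.nd (nat_lit 234)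 (nat_lit 0) (nat_lit 0) (XT.nd (nat_lit 78) (nat_lit 0) (nat_lit 0) (XT.lf (nat_lit 0) (nat_lit 3577617007489) (nat_lit 76) (nat_lit 423598157598) (nat_lit 76) (nat_lit 412241184689) (nat_lit 1) (nat_lit 4) (nat_lit 2) (nat_lit 5) (nat_lit 2) (nat_lit 4) (nat_lit 320) (nat_lit 259) (nat_lit 201)) (XT.nd (nat_lit 78) (nat_lit 0) (nat_lit 0) (XT.lf (nat_lit 0) (nat_lit 4147899550405) (nat_lit 76) (nat_lit 468784467984) (nat_lit 76) (nat_lit 457427048071) (nat_lit 1) (nat_lit 4) (nat_lit 2) (nat_lit 5) (nat_lit 2) (nat_lit 4) (nat_lit 321) (nat_lit 259) (nat_lit 200)) (XT.lf (nat_lit 0) (nat_lit 4803722001496) (nat_lit 76) (nat_lit 520749949014) (nat_lit 76) (nat_lit 509392140401) (nat_lit 1) (nat_lit 4) (nat_lit 2) (nat_lit 5) (nat_lit 2) (nat_lit 4) (nat_lit 322) (nat_lit 259) (nat_lit 199)))) (XT.nd (nat_lit 78) (nat_lit 0) (nat_lit 0) (XT.lf (nat_lit 0) (nat_lit 5557915669586) (nat_lit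 76) (nat_lit 580511316621) (nat_lit 76) (nat_lit 569153170007) (nat_lit 1) (nat_lit 4) (nat_lit 2) (nat_lit 5) (nat_lit 2) (nat_lit 4) (nat_lit 323) (nat_lit 259) (nat_lit 198)) (XT.nd (nat_lit 78) (nat_lit 0) (nat_lit 0) (XT.lf (nat_lit 0) (nat_lit 6425236517748) (nat_lit 76) (nat_lit 649237814953) (nat_lit 76) (nat_lit 637879374427) (nat_lit 1) (nat_lit 4) (nat_lit 2) (nat_lit 5) (nat_lit 2) (nat_lit 4) (nat_lit 324) (nat_lit 259) (nat_lit 197)) (XT.lf (nat_lit 0) (nat_lit 7422653866923) (nat_lit 76) (nat_lit 728274092891) (nat_lit 76) (nat_lit 716915396788) (nat_lit 1) (nat_lit 4) (nat_lit 2) (nat_lit 5) (nat_lit 2) (nat_lit 4) (nat_lit 325) (nat_lit 259) (nat_lit 196)))))) (XT.nd (nat_lit 35802) (nat_lit 0) (nat_lit 2812) (XT.nd (nat_lit 35568) (nat_lit 0) (nat_lit 5168) (XT.nd (nat_lit 78) (nat_lit 0) (nat_lit 0) (XT.lf (nat_lit 0) (nat_lit 8569682404379) (nat_lit 76) (nat_lit 819166512395)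 (nat_lit 76) (nat_lit 807807594052) (nat_lit 1) (nat_lit 4) (nat_lit 2) (nat_lit 5) (nat_lit 2) (nat_lit 4) (nat_lit 326) (nat_lit 259) (nat_lit 195)) (XT.nd (nat_lit 35412) (nat_lit 0) (nat_lit 5624) (XT.lf (nat_lit 0) (nat_lit 9888763992804) (nat_lit 76) (nat_lit 923693403412) (nat_lit 76) (nat_lit 912334291816) (nat_lit 1) (nat_lit 4) (nat_lit 2) (nat_lit 5) (nat_lit 2) (nat_lit 4) (nat_lit 327) (nat_lit 259) (nat_lit 194)) (XT.lf (nat_lit 0) (nat_lit 1073741823) (nat_lit 0) (nat_lit 0) (nat_lit 0) (nat_lit 0) (nat_lit 75) (nat_lit 0) (nat_lit 1) (nat_lit 0) (nat_lit 1) (nat_lit 0) (nat_lit 260) (nat_lit 260) (nat_lit 260)))) (XT.nd (nat_lit 78) (nat_lit 380) (nat_lit 0) (XT.lf (nat_lit 0) (nat_lit 5398416254) (nat_lit 76) (nat_lit 681348209) (nat_lit 0) (nat_lit 393262111) (nat_lit 74) (nat_lit 5) (nat_lit 75) (nat_lit 0) (nat_lit 74) (nat_lit 4) (nat_lit 261) (nat_lit 260) (nat_lit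 259)) (XT.nd (nat_lit 78) (nat_lit 228) (nat_lit 0) (XT.lf (nat_lit 0) (nat_lit 4006874840) (nat_lit 152) (nat_lit 1023162426) (nat_lit 76) (nat_lit 1538679481) (nat_lit 72) (nat_lit 5) (nat_lit 74) (nat_lit 5) (nat_lit 73) (nat_lit 4) (nat_lit 262) (nat_lit 260) (nat_lit 258)) (XT.lf (nat_lit 0) (nat_lit 2232775423) (nat_lit 228) (nat_lit 1035448457) (nat_lit 76) (nat_lit 3462835903) (nat_lit 69) (nat_lit 5) (nat_lit 72) (nat_lit 5) (nat_lit 70) (nat_lit 5) (nat_lit 263) (nat_lit 260) (nat_lit 257))))) (XT.nd (nat_lit 234) (nat_lit 836) (nat_lit 0) (XT.nd (nat_lit 78) (nat_lit 1216) (nat_lit 0) (XT.lf (nat_lit 0) (nat_lit 31425531) (nat_lit 304) (nat_lit 721057419) (nat_lit 76) (nat_lit 6210203004) (nat_lit 65) (nat_lit 5) (nat_lit 69) (nat_lit 5) (nat_lit 66) (nat_lit 5) (nat_lit 264) (nat_lit 260) (nat_lit 256)) (XT.nd (nat_lit 78) (nat_lit 912) (nat_lit 0) (XT.lf (nat_lit 0) (nat_lit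 4533367857) (nat_lit 380) (nat_lit 206972738) (nat_lit 76) (nat_lit 2516565433) (nat_lit 61) (nat_lit 5) (nat_lit 66) (nat_lit 5) (nat_lit 62) (nat_lit 5) (nat_lit 265) (nat_lit 260) (nat_lit 255)) (XT.lf (nat_lit 0) (nat_lit 624524291) (nat_lit 456) (nat_lit 998885350) (nat_lit 532) (nat_lit 6000220283) (nat_lit 49) (nat_lit 5) (nat_lit 55) (nat_lit 5) (nat_lit 56) (nat_lit 5) (nat_lit 266) (nat_lit 260) (nat_lit 254)))) (XT.nd (nat_lit 78) (nat_lit 532) (nat_lit 0) (XT.lf (nat_lit 0) (nat_lit 1658503463) (nat_lit 304) (nat_lit 4565862165) (nat_lit 380) (nat_lit 1835628268) (nat_lit 45) (nat_lit 5) (nat_lit 49) (nat_lit 5) (nat_lit 50) (nat_lit 5) (nat_lit 267) (nat_lit 260) (nat_lit 253)) (XT.nd (nat_lit 78) (nat_lit 228) (nat_lit 0) (XT.lf (nat_lit 0) (nat_lit 2579785922) (nat_lit 304) (nat_lit 5653474219) (nat_lit 76) (nat_lit 342044817) (nat_lit 41) (nat_lit 5) (nat_lit 45) (nat_lit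 5) (nat_lit 42) (nat_lit 5) (nat_lit 268) (nat_lit 260) (nat_lit 252)) (XT.lf (nat_lit 0) (nat_lit 4321110741) (nat_lit 228) (nat_lit 3165985990) (nat_lit 304) (nat_lit 1682884327) (nat_lit 38) (nat_lit 5) (nat_lit 41) (nat_lit 5) (nat_lit 42) (nat_lit 5) (nat_lit 269) (nat_lit 260) (nat_lit 251))))))) (XT.nd (nat_lit 936) (nat_lit 684) (nat_lit 0) (XT.nd (nat_lit 468) (nat_lit 684) (nat_lit 0) (XT.nd (nat_lit 234) (nat_lit 532) (nat_lit 0) (XT.nd (nat_lit 78) (nat_lit 456) (nat_lit 0) (XT.lf (nat_lit 0) (nat_lit 3047894449) (nat_lit 228) (nat_lit 3988556992) (nat_lit 76) (nat_lit 2817050614) (nat_lit 35) (nat_lit 5) (nat_lit 38) (nat_lit 5) (nat_lit 36) (nat_lit 5) (nat_lit 270) (nat_lit 260) (nat_lit 250)) (XT.nd (nat_lit 78) (nat_lit 228) (nat_lit 0) (XT.lf (nat_lit 0) (nat_lit 7542870747) (nat_lit 228) (nat_lit 857664756) (nat_lit 304) (nat_lit 2235228865) (nat_lit 32) (nat_lit 5)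 (nat_lit 35) (nat_lit 5) (nat_lit 36) (nat_lit 5) (nat_lit 271) (nat_lit 260) (nat_lit 249)) (XT.lf (nat_lit 0) (nat_lit 2998153787) (nat_lit 228) (nat_lit 2298077649) (nat_lit 76) (nat_lit 6223570825) (nat_lit 29) (nat_lit 5) (nat_lit 32) (nat_lit 5) (nat_lit 30) (nat_lit 5) (nat_lit 272) (nat_lit 260) (nat_lit 248)))) (XT.nd (nat_lit 78) (nat_lit 380) (nat_lit 0) (XT.lf (nat_lit 0) (nat_lit 8978445365) (nat_lit 228) (nat_lit 1576083107) (nat_lit 76) (nat_lit 1970195605) (nat_lit 27) (nat_lit 5) (nat_lit 30) (nat_lit 5) (nat_lit 28) (nat_lit 4) (nat_lit 273) (nat_lit 260) (nat_lit 247)) (XT.nd (nat_lit 78) (nat_lit 152) (nat_lit 0) (XT.lf (nat_lit 0) (nat_lit 2280542410) (nat_lit 228) (nat_lit 1071100794) (nat_lit 76) (nat_lit 10307810862) (nat_lit 24) (nat_lit 5) (nat_lit 27) (nat_lit 5) (nat_lit 25) (nat_lit 5) (nat_lit 274) (nat_lit 260) (nat_lit 246)) (XT.lf (nat_lit 0) (nat_lit 9004211457)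 (nat_lit 228) (nat_lit 909797979) (nat_lit 76) (nat_lit 5024715087) (nat_lit 22) (nat_lit 5) (nat_lit 25) (nat_lit 5) (nat_lit 23) (nat_lit 4) (nat_lit 275) (nat_lit 260) (nat_lit 245))))) (XT.nd (nat_lit 234) (nat_lit 304) (nat_lit 0) (XT.nd (nat_lit 78) (nat_lit 228) (nat_lit 0) (XT.lf (nat_lit 0) (nat_lit 543905890) (nat_lit 152) (nat_lit 1117059989) (nat_lit 76) (nat_lit 14729856758) (nat_lit 20) (nat_lit 5) (nat_lit 22) (nat_lit 5) (nat_lit 21) (nat_lit 5) (nat_lit 276) (nat_lit 260) (nat_lit 244)) (XT.nd (nat_lit 78) (nat_lit 76) (nat_lit 0) (XT.lf (nat_lit 0) (nat_lit 8020873212) (nat_lit 228) (nat_lit 2121732218) (nat_lit 76) (nat_lit 7875771562) (nat_lit 18) (nat_lit 5) (nat_lit 21) (nat_lit 5) (nat_lit 19) (nat_lit 4) (nat_lit 277) (nat_lit 260) (nat_lit 243)) (XT.lf (nat_lit 0) (nat_lit 16006393935) (nat_lit 76) (nat_lit 850733960) (nat_lit 152) (nat_lit 3014114588) (nat_lit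 17) (nat_lit 5) (nat_lit 18) (nat_lit 5) (nat_lit 19) (nat_lit 4) (nat_lit 278) (nat_lit 260) (nat_lit 242)))) (XT.nd (nat_lit 78) (nat_lit 152) (nat_lit 0) (XT.lf (nat_lit 0) (nat_lit 5232145459) (nat_lit 152) (nat_lit 6964303701) (nat_lit 76) (nat_lit 9758789467) (nat_lit 15) (nat_lit 5) (nat_lit 17) (nat_lit 5) (nat_lit 16) (nat_lit 4) (nat_lit 279) (nat_lit 260) (nat_lit 241)) (XT.nd (nat_lit 78) (nat_lit 76) (nat_lit 0) (XT.lf (nat_lit 0) (nat_lit 12744876132) (nat_lit 76) (nat_lit 2047419218) (nat_lit 152) (nat_lit 9532980326) (nat_lit 14) (nat_lit 5) (nat_lit 15) (nat_lit 5) (nat_lit 16) (nat_lit 4) (nat_lit 280) (nat_lit 260) (nat_lit 240)) (XT.lf (nat_lit 0) (nat_lit 8663753877) (nat_lit 76) (nat_lit 17589763310) (nat_lit 76) (nat_lit 760057298) (nat_lit 13) (nat_lit 4) (nat_lit 14) (nat_lit 5) (nat_lit 14) (nat_lit 4) (nat_lit 281) (nat_lit 260) (nat_lit 239)))))) (XT.nd (nat_lit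 468) (nat_lit 228) (nat_lit 0) (XT.nd (nat_lit 234) (nat_lit 228) (nat_lit 0) (XT.nd (nat_lit 78) (nat_lit 76) (nat_lit 0) (XT.lf (nat_lit 0) (nat_lit 2069958393) (nat_lit 76) (nat_lit 7075637840) (nat_lit 152) (nat_lit 20918993461) (nat_lit 11) (nat_lit 5) (nat_lit 12) (nat_lit 5) (nat_lit 13) (nat_lit 4) (nat_lit 282) (nat_lit 260) (nat_lit 238)) (XT.nd (nat_lit 78) (nat_lit 76) (nat_lit 0) (XT.lf (nat_lit 0) (nat_lit 21005256371) (nat_lit 152) (nat_lit 7316484318) (nat_lit 0) (nat_lit 5208968287) (nat_lit 11) (nat_lit 5) (nat_lit 13) (nat_lit 4) (nat_lit 11) (nat_lit 4) (nat_lit 283) (nat_lit 260) (nat_lit 237)) (XT.lf (nat_lit 0) (nat_lit 16854877024) (nat_lit 76) (nat_lit 18253648492) (nat_lit 76) (nat_lit 2371120990) (nat_lit 10) (nat_lit 4) (nat_lit 11) (nat_lit 5) (nat_lit 11) (nat_lit 4) (nat_lit 284) (nat_lit 260) (nat_lit 236)))) (XT.nd (nat_lit 78) (nat_lit 76) (nat_lit 0)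 (XT.lf (nat_lit 0) (nat_lit 2758702884) (nat_lit 76) (nat_lit 6239480377) (nat_lit 152) (nat_lit 32992305672) (nat_lit 8) (nat_lit 5) (nat_lit 9) (nat_lit 5) (nat_lit 10) (nat_lit 4) (nat_lit 285) (nat_lit 260) (nat_lit 235)) (XT.nd (nat_lit 78) (nat_lit 76) (nat_lit 0) (XT.lf (nat_lit 0) (nat_lit 22616053204) (nat_lit 152) (nat_lit 16722149150) (nat_lit 0) (nat_lit 7780194231) (nat_lit 8) (nat_lit 5) (nat_lit 10) (nat_lit 4) (nat_lit 8) (nat_lit 4) (nat_lit 286) (nat_lit 260) (nat_lit 234)) (XT.lf (nat_lit 0) (nat_lit 9256590840) (nat_lit 76) (nat_lit 29311974815) (nat_lit 76) (nat_lit 14423612307) (nat_lit 7) (nat_lit 4) (nat_lit 8) (nat_lit 5) (nat_lit 8) (nat_lit 4) (nat_lit 287) (nat_lit 260) (nat_lit 233))))) (XT.nd (nat_lit 234) (nat_lit 76) (nat_lit 0) (XT.nd (nat_lit 78) (nat_lit 152) (nat_lit 0) (XT.lf (nat_lit 0) (nat_lit 39963703364) (nat_lit 76) (nat_lit 17342980670) (nat_lit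 76) (nat_lit 2408962915) (nat_lit 7) (nat_lit 4) (nat_lit 8) (nat_lit 5) (nat_lit 8) (nat_lit 4) (nat_lit 288) (nat_lit 260) (nat_lit 232)) (XT.nd (nat_lit 78) (nat_lit 0) (nat_lit 0) (XT.lf (nat_lit 0) (nat_lit 7782271102) (nat_lit 76) (nat_lit 3158108259) (nat_lit 152) (nat_lit 56477086191) (nat_lit 5) (nat_lit 5) (nat_lit 6) (nat_lit 5) (nat_lit 7) (nat_lit 4) (nat_lit 289) (nat_lit 260) (nat_lit 231)) (XT.lf (nat_lit 0) (nat_lit 26981570215) (nat_lit 152) (nat_lit 36136389637) (nat_lit 0) (nat_lit 13085051792) (nat_lit 5) (nat_lit 5) (nat_lit 7) (nat_lit 4) (nat_lit 5) (nat_lit 4) (nat_lit 290) (nat_lit 260) (nat_lit 230)))) (XT.nd (nat_lit 156) (nat_lit 0) (nat_lit 0) (XT.nd (nat_lit 78) (nat_lit 76) (nat_lit 0) (XT.lf (nat_lit 0) (nat_lit 45448172283) (nat_lit 152) (nat_lit 9332843913) (nat_lit 0) (nat_lit 31523858428) (nat_lit 5) (nat_lit 5) (nat_lit 7) (nat_lit 4) (nat_lit 5) (nat_lit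 4) (nat_lit 291) (nat_lit 260) (nat_lit 229)) (XT.lf (nat_lit 0) (nat_lit 22501424906) (nat_lit 76) (nat_lit 44665270972) (nat_lit 76) (nat_lit 30716787177) (nat_lit 4) (nat_lit 4) (nat_lit 5) (nat_lit 5) (nat_lit 5) (nat_lit 4) (nat_lit 292) (nat_lit 260) (nat_lit 228))) (XT.nd (nat_lit 78) (nat_lit 0) (nat_lit 0) (XT.lf (nat_lit 0) (nat_lit 59570351382) (nat_lit 76) (nat_lit 32790318299) (nat_lit 76) (nat_lit 18820817164) (nat_lit 4) (nat_lit 4) (nat_lit 5) (nat_lit 5) (nat_lit 5) (nat_lit 4) (nat_lit 293) (nat_lit 260) (nat_lit 227)) (XT.lf (nat_lit 0) (nat_lit 102107746097) (nat_lit 76) (nat_lit 19178998638) (nat_lit 76) (nat_lit 5191221556) (nat_lit 4) (nat_lit 4) (nat_lit 5) (nat_lit 5) (nat_lit 5) (nat_lit 4) (nat_lit 294) (nat_lit 260) (nat_lit 226))))))))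
noncomputable def xc24 : XT := (XT.nd (nat_lit 1872) (nat_lit 0) (nat_lit 0) (XT.nd (nat_lit 936) (nat_lit 0) (nat_lit 0) (XT.nd (nat_lit 468) (nat_lit 76) (nat_lit 0) (XT.nd (nat_lit 234) (nat_lit 0) (nat_lit 0) (XT.nd (nat_lit 78) (nat_lit 0) (nat_lit 0) (XT.lf (nat_lit 0) (nat_lit 6971346933) (nat_lit 76) (nat_lit 3112795443) (nat_lit 152) (nat_lit 133954561066) (nat_lit 2) (nat_lit 5) (nat_lit 3) (nat_lit 5) (nat_lit 4) (nat_lit 4) (nat_lit 295) (nat_lit 260) (nat_lit 225)) (XT.nd (nat_lit 78) (nat_lit 0) (nat_lit 0) (XT.lf (nat_lit 0) (nat_lit 28410438854) (nat_lit 152) (nat_lit 120295692839) (nat_lit 0) (nat_lit 15431282879) (nat_lit 2) (nat_lit 5) (nat_lit 4) (nat_lit 4) (nat_lit 2) (nat_lit 4) (nat_lit 296) (nat_lit 260) (nat_lit 224)) (XT.lf (nat_lit 0) (nat_lit 49537716788) (nat_lit 152) (nat_lit 101161627852) (nat_lit 0) (nat_lit 36547434209) (nat_lit 2) (nat_lit 5) (nat_lit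 4) (nat_lit 4) (nat_lit 2) (nat_lit 4) (nat_lit 297) (nat_lit 260) (nat_lit 223)))) (XT.nd (nat_lit 78) (nat_lit 0) (nat_lit 0) (XT.lf (nat_lit 0) (nat_lit 73804473160) (nat_lit 152) (nat_lit 79215936603) (nat_lit 0) (nat_lit 60804515273) (nat_lit 2) (nat_lit 5) (nat_lit 4) (nat_lit 4) (nat_lit 2) (nat_lit 4) (nat_lit 298) (nat_lit 260) (nat_lit 222)) (XT.nd (nat_lit 78) (nat_lit 0) (nat_lit 0) (XT.lf (nat_lit 0) (nat_lit 101685492333) (nat_lit 152) (nat_lit 54029246872) (nat_lit 0) (nat_lit 88677121135) (nat_lit 2) (nat_lit 5) (nat_lit 4) (nat_lit 4) (nat_lit 2) (nat_lit 4) (nat_lit 299) (nat_lit 260) (nat_lit 221)) (XT.lf (nat_lit 0) (nat_lit 133726272508) (nat_lit 152) (nat_lit 25108775599) (nat_lit 0) (nat_lit 120710585388) (nat_lit 2) (nat_lit 5) (nat_lit 4) (nat_lit 4) (nat_lit 2) (nat_lit 4) (nat_lit 300) (nat_lit 260) (nat_lit 220))))) (XT.nd (nat_lit 234) (nat_lit 0) (nat_lit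 0) (XT.nd (nat_lit 78) (nat_lit 0) (nat_lit 0) (XT.lf (nat_lit 0) (nat_lit 8538439865) (nat_lit 76) (nat_lit 162220608334) (nat_lit 76) (nat_lit 149198559541) (nat_lit 1) (nat_lit 4) (nat_lit 2) (nat_lit 5) (nat_lit 2) (nat_lit 4) (nat_lit 301) (nat_lit 260) (nat_lit 219)) (XT.nd (nat_lit 78) (nat_lit 0) (nat_lit 0) (XT.lf (nat_lit 0) (nat_lit 48718049906) (nat_lit 76) (nat_lit 165341927316) (nat_lit 76) (nat_lit 152314346635) (nat_lit 1) (nat_lit 4) (nat_lit 2) (nat_lit 5) (nat_lit 2) (nat_lit 4) (nat_lit 302) (nat_lit 260) (nat_lit 218)) (XT.lf (nat_lit 0) (nat_lit 94893993700) (nat_lit 76) (nat_lit 168946592761) (nat_lit 76) (nat_lit 155914201742) (nat_lit 1) (nat_lit 4) (nat_lit 2) (nat_lit 5) (nat_lit 2) (nat_lit 4) (nat_lit 303) (nat_lit 260) (nat_lit 217)))) (XT.nd (nat_lit 78) (nat_lit 0) (nat_lit 0) (XT.lf (nat_lit 0) (nat_lit 147969713626) (nat_lit 76) (nat_lit 173105130731)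 (nat_lit 76) (nat_lit 160068556810) (nat_lit 1) (nat_lit 4) (nat_lit 2) (nat_lit 5) (nat_lit 2) (nat_lit 4) (nat_lit 304) (nat_lit 260) (nat_lit 216)) (XT.nd (nat_lit 78) (nat_lit 0) (nat_lit 0) (XT.lf (nat_lit 0) (nat_lit 208983647683) (nat_lit 76) (nat_lit 177898903926) (nat_lit 76) (nat_lit 164858692698) (nat_lit 1) (nat_lit 4) (nat_lit 2) (nat_lit 5) (nat_lit 2) (nat_lit 4) (nat_lit 305) (nat_lit 260) (nat_lit 215)) (XT.lf (nat_lit 0) (nat_lit 279129546755) (nat_lit 76) (nat_lit 183421703560) (nat_lit 76) (nat_lit 170378329457) (nat_lit 1) (nat_lit 4) (nat_lit 2) (nat_lit 5) (nat_lit 2) (nat_lit 4) (nat_lit 306) (nat_lit 260) (nat_lit 214)))))) (XT.nd (nat_lit 468) (nat_lit 0) (nat_lit 0) (XT.nd (nat_lit 234) (nat_lit 0) (nat_lit 0) (XT.nd (nat_lit 78) (nat_lit 0) (nat_lit 0) (XT.lf (nat_lit 0) (nat_lit 359779830605) (nat_lit 76) (nat_lit 189781584409) (nat_lit 76) (nat_lit 176735459980)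 (nat_lit 1) (nat_lit 4) (nat_lit 2) (nat_lit 5) (nat_lit 2) (nat_lit 4) (nat_lit 307) (nat_lit 260) (nat_lit 213)) (XT.nd (nat_lit 78) (nat_lit 0) (nat_lit 0) (XT.lf (nat_lit 0) (nat_lit 452512439571) (nat_lit 76) (nat_lit 197102978925) (nat_lit 76) (nat_lit 184054462907) (nat_lit 1) (nat_lit 4) (nat_lit 2) (nat_lit 5) (nat_lit 2) (nat_lit 4) (nat_lit 308) (nat_lit 260) (nat_lit 212)) (XT.lf (nat_lit 0) (nat_lit 559141707305) (nat_lit 76) (nat_lit 205529131782) (nat_lit 76) (nat_lit 192478536123) (nat_lit 1) (nat_lit 4) (nat_lit 2) (nat_lit 5) (nat_lit 2) (nat_lit 4) (nat_lit 309) (nat_lit 260) (nat_lit 211)))) (XT.nd (nat_lit 78) (nat_lit 0) (nat_lit 0) (XT.lf (nat_lit 0) (nat_lit 681753858612) (nat_lit 76) (nat_lit 215224902493) (nat_lit 76) (nat_lit 202172498450) (nat_lit 1) (nat_lit 4) (nat_lit 2) (nat_lit 5) (nat_lit 2) (nat_lit 4) (nat_lit 310) (nat_lit 260) (nat_lit 210)) (XT.nd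 (nat_lit 78) (nat_lit 0) (nat_lit 0) (XT.lf (nat_lit 0) (nat_lit 822747826886) (nat_lit 76) (nat_lit 226379990920) (nat_lit 76) (nat_lit 213326014369) (nat_lit 1) (nat_lit 4) (nat_lit 2) (nat_lit 5) (nat_lit 2) (nat_lit 4) (nat_lit 311) (nat_lit 260) (nat_lit 209)) (XT.lf (nat_lit 0) (nat_lit 984882189768) (nat_lit 76) (nat_lit 239212648793) (nat_lit 76) (nat_lit 226157304843) (nat_lit 1) (nat_lit 4) (nat_lit 2) (nat_lit 5) (nat_lit 2) (nat_lit 4) (nat_lit 312) (nat_lit 260) (nat_lit 208))))) (XT.nd (nat_lit 234) (nat_lit 0) (nat_lit 0) (XT.nd (nat_lit 78) (nat_lit 0) (nat_lit 0) (XT.lf (nat_lit 0) (nat_lit 1171329141314) (nat_lit 76) (nat_lit 253973949853) (nat_lit 76) (nat_lit 240917416861) (nat_lit 1) (nat_lit 4) (nat_lit 2) (nat_lit 5) (nat_lit 2) (nat_lit 4) (nat_lit 313) (nat_lit 260) (nat_lit 207)) (XT.nd (nat_lit 78) (nat_lit 0) (nat_lit 0) (XT.lf (nat_lit 0) (nat_lit 1385736556663)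 (nat_lit 76) (nat_lit 270952702164) (nat_lit 76) (nat_lit 257895135223) (nat_lit 1) (nat_lit 4) (nat_lit 2) (nat_lit 5) (nat_lit 2) (nat_lit 4) (nat_lit 314) (nat_lit 260) (nat_lit 206)) (XT.lf (nat_lit 0) (nat_lit 1632299363506) (nat_lit 76) (nat_lit 290481098706) (nat_lit 76) (nat_lit 277422632678) (nat_lit 1) (nat_lit 4) (nat_lit 2) (nat_lit 5) (nat_lit 2) (nat_lit 4) (nat_lit 315) (nat_lit 260) (nat_lit 205)))) (XT.nd (nat_lit 78) (nat_lit 0) (nat_lit 0) (XT.lf (nat_lit 0) (nat_lit 1915841616761) (nat_lit 76) (nat_lit 312941216803) (nat_lit 76) (nat_lit 299881968960) (nat_lit 1) (nat_lit 4) (nat_lit 2) (nat_lit 5) (nat_lit 2) (nat_lit 4) (nat_lit 316) (nat_lit 260) (nat_lit 204)) (XT.nd (nat_lit 78) (nat_lit 0) (nat_lit 0) (XT.lf (nat_lit 0) (nat_lit 2241910882251) (nat_lit 76) (nat_lit 338772493547) (nat_lit 76) (nat_lit 325712565866) (nat_lit 1) (nat_lit 4) (nat_lit 2) (nat_lit 5)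 (nat_lit 2) (nat_lit 4) (nat_lit 317) (nat_lit 260) (nat_lit 203)) (XT.lf (nat_lit 0) (nat_lit 2616886776040) (nat_lit 76) (nat_lit 368480323485) (nat_lit 76) (nat_lit 355419804640) (nat_lit 1) (nat_lit 4) (nat_lit 2) (nat_lit 5) (nat_lit 2) (nat_lit 4) (nat_lit 318) (nat_lit 260) (nat_lit 202))))))) (XT.nd (nat_lit 36426) (nat_lit 0) (nat_lit 1292) (XT.nd (nat_lit 468) (nat_lit 0) (nat_lit 0) (XT.nd (nat_lit 234) (nat_lit 0) (nat_lit 0) (XT.nd (nat_lit 78) (nat_lit 0) (nat_lit 0) (XT.lf (nat_lit 0) (nat_lit 3048105783008) (nat_lit 76) (nat_lit 402645946766) (nat_lit 76) (nat_lit 389584913865) (nat_lit 1) (nat_lit 4) (nat_lit 2) (nat_lit 5) (nat_lit 2) (nat_lit 4) (nat_lit 319) (nat_lit 260) (nat_lit 201)) (XT.nd (nat_lit 78) (nat_lit 0) (nat_lit 0) (XT.lf (nat_lit 0) (nat_lit 3544004796768) (nat_lit 76) (nat_lit 441937821238) (nat_lit 76) (nat_lit 428876341333) (nat_lit 1) (nat_lit 4)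 (nat_lit 2) (nat_lit 5) (nat_lit 2) (nat_lit 4) (nat_lit 320) (nat_lit 260) (nat_lit 200)) (XT.lf (nat_lit 0) (nat_lit 4114286189329) (nat_lit 76) (nat_lit 487124700967) (nat_lit 76) (nat_lit 474062832361) (nat_lit 1) (nat_lit 4) (nat_lit 2) (nat_lit 5) (nat_lit 2) (nat_lit 4) (nat_lit 321) (nat_lit 260) (nat_lit 199)))) (XT.nd (nat_lit 78) (nat_lit 0) (nat_lit 0) (XT.lf (nat_lit 0) (nat_lit 4770107640111) (nat_lit 76) (nat_lit 539090677077) (nat_lit 76) (nat_lit 526028470471) (nat_lit 1) (nat_lit 4) (nat_lit 2) (nat_lit 5) (nat_lit 2) (nat_lit 4) (nat_lit 322) (nat_lit 260) (nat_lit 198)) (XT.nd (nat_lit 78) (nat_lit 0) (nat_lit 0) (XT.lf (nat_lit 0) (nat_lit 5524300438368) (nat_lit 76) (nat_lit 598852475188) (nat_lit 76) (nat_lit 585789974670) (nat_lit 1) (nat_lit 4) (nat_lit 2) (nat_lit 5) (nat_lit 2) (nat_lit 4) (nat_lit 323) (nat_lit 260) (nat_lit 197)) (XT.lf (nat_lit 0) (nat_lit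 6391620530153) (nat_lit 76) (nat_lit 667579347872) (nat_lit 76) (nat_lit 654516591777) (nat_lit 1) (nat_lit 4) (nat_lit 2) (nat_lit 5) (nat_lit 2) (nat_lit 4) (nat_lit 324) (nat_lit 260) (nat_lit 196))))) (XT.nd (nat_lit 35724) (nat_lit 0) (nat_lit 4864) (XT.nd (nat_lit 78) (nat_lit 0) (nat_lit 0) (XT.lf (nat_lit 0) (nat_lit 7389037221609) (nat_lit 76) (nat_lit 746615951333) (nat_lit 76) (nat_lit 733552972998) (nat_lit 1) (nat_lit 4) (nat_lit 2) (nat_lit 5) (nat_lit 2) (nat_lit 4) (nat_lit 325) (nat_lit 260) (nat_lit 195)) (XT.nd (nat_lit 35568) (nat_lit 0) (nat_lit 5320) (XT.lf (nat_lit 0) (nat_lit 8536065187135) (nat_lit 76) (nat_lit 837508653901) (nat_lit 76) (nat_lit 824445482313) (nat_lit 1) (nat_lit 4) (nat_lit 2) (nat_lit 5) (nat_lit 2) (nat_lit 4) (nat_lit 326) (nat_lit 260) (nat_lit 194)) (XT.lf (nat_lit 0) (nat_lit 1799282435) (nat_lit 228) (nat_lit 734189795) (nat_lit 228) (nat_lit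 734189795) (nat_lit 71) (nat_lit 3) (nat_lit 74) (nat_lit 3) (nat_lit 74) (nat_lit 5) (nat_lit 261) (nat_lit 261) (nat_lit 258)))) (XT.nd (nat_lit 78) (nat_lit 228) (nat_lit 0) (XT.lf (nat_lit 0) (nat_lit 1429713454) (nat_lit 228) (nat_lit 2209541245) (nat_lit 304) (nat_lit 3024546702) (nat_lit 68) (nat_lit 5) (nat_lit 71) (nat_lit 3) (nat_lit 72) (nat_lit 5) (nat_lit 262) (nat_lit 261) (nat_lit 257)) (XT.nd (nat_lit 78) (nat_lit 228) (nat_lit 0) (XT.lf (nat_lit 76) (nat_lit 4204693391) (nat_lit 0) (nat_lit 1443167770) (nat_lit 304) (nat_lit 1210332758) (nat_lit 69) (nat_lit 5) (nat_lit 68) (nat_lit 5) (nat_lit 72) (nat_lit 5) (nat_lit 263) (nat_lit 261) (nat_lit 256)) (XT.lf (nat_lit 0) (nat_lit 2745935319) (nat_lit 304) (nat_lit 2857794754) (nat_lit 76) (nat_lit 1513377495) (nat_lit 65) (nat_lit 5) (nat_lit 69) (nat_lit 5) (nat_lit 66) (nat_lit 5) (nat_lit 264) (nat_lit 261) (nat_lit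 255)))))) (XT.nd (nat_lit 468) (nat_lit 1444) (nat_lit 0) (XT.nd (nat_lit 234) (nat_lit 912) (nat_lit 0) (XT.nd (nat_lit 78) (nat_lit 912) (nat_lit 0) (XT.lf (nat_lit 0) (nat_lit 4631707317) (nat_lit 304) (nat_lit 2203751283) (nat_lit 380) (nat_lit 609641950) (nat_lit 61) (nat_lit 5) (nat_lit 65) (nat_lit 5) (nat_lit 66) (nat_lit 5) (nat_lit 265) (nat_lit 261) (nat_lit 254)) (XT.nd (nat_lit 78) (nat_lit 456) (nat_lit 0) (XT.lf (nat_lit 0) (nat_lit 3227625011) (nat_lit 456) (nat_lit 2595927714) (nat_lit 76) (nat_lit 2017146921) (nat_lit 55) (nat_lit 5) (nat_lit 61) (nat_lit 5) (nat_lit 56) (nat_lit 5) (nat_lit 266) (nat_lit 261) (nat_lit 253)) (XT.lf (nat_lit 0) (nat_lit 6141741357) (nat_lit 456) (nat_lit 1254918083) (nat_lit 532) (nat_lit 915503575) (nat_lit 49) (nat_lit 5) (nat_lit 55) (nat_lit 5) (nat_lit 56) (nat_lit 5) (nat_lit 267) (nat_lit 261) (nat_lit 252)))) (XT.nd (nat_lit 78)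 (nat_lit 532) (nat_lit 0) (XT.lf (nat_lit 0) (nat_lit 3068978037) (nat_lit 380) (nat_lit 1650269984) (nat_lit 76) (nat_lit 4137687422) (nat_lit 44) (nat_lit 5) (nat_lit 49) (nat_lit 5) (nat_lit 45) (nat_lit 5) (nat_lit 268) (nat_lit 261) (nat_lit 251)) (XT.nd (nat_lit 78) (nat_lit 304) (nat_lit 0) (XT.lf (nat_lit 0) (nat_lit 7519347530) (nat_lit 304) (nat_lit 963654913) (nat_lit 76) (nat_lit 1005546450) (nat_lit 41) (nat_lit 5) (nat_lit 45) (nat_lit 5) (nat_lit 42) (nat_lit 5) (nat_lit 269) (nat_lit 261) (nat_lit 250)) (XT.lf (nat_lit 0) (nat_lit 2355482201) (nat_lit 304) (nat_lit 232597681) (nat_lit 76) (nat_lit 7618481921) (nat_lit 37) (nat_lit 5) (nat_lit 41) (nat_lit 5) (nat_lit 38) (nat_lit 5) (nat_lit 270) (nat_lit 261) (nat_lit 249))))) (XT.nd (nat_lit 234) (nat_lit 684) (nat_lit 0) (XT.nd (nat_lit 78) (nat_lit 380) (nat_lit 0) (XT.lf (nat_lit 0) (nat_lit 571622672) (nat_lit 228)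 (nat_lit 6736857077) (nat_lit 304) (nat_lit 3712583328) (nat_lit 32) (nat_lit 5) (nat_lit 35) (nat_lit 5) (nat_lit 36) (nat_lit 5) (nat_lit 271) (nat_lit 261) (nat_lit 248)) (XT.nd (nat_lit 78) (nat_lit 152) (nat_lit 0) (XT.lf (nat_lit 0) (nat_lit 1104039884) (nat_lit 228) (nat_lit 10493740070) (nat_lit 76) (nat_lit 349631828) (nat_lit 29) (nat_lit 5) (nat_lit 32) (nat_lit 5) (nat_lit 30) (nat_lit 5) (nat_lit 272) (nat_lit 261) (nat_lit 247)) (XT.lf (nat_lit 0) (nat_lit 2161728149) (nat_lit 152) (nat_lit 4522548424) (nat_lit 228) (nat_lit 6300248689) (nat_lit 27) (nat_lit 5) (nat_lit 29) (nat_lit 5) (nat_lit 30) (nat_lit 5) (nat_lit 273) (nat_lit 261) (nat_lit 246)))) (XT.nd (nat_lit 156) (nat_lit 304) (nat_lit 0) (XT.nd (nat_lit 78) (nat_lit 228) (nat_lit 0) (XT.lf (nat_lit 0) (nat_lit 2827038041) (nat_lit 152) (nat_lit 10472909561) (nat_lit 228) (nat_lit 861736373) (nat_lit 25) (nat_lit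 5) (nat_lit 27) (nat_lit 5) (nat_lit 28) (nat_lit 4) (nat_lit 274) (nat_lit 261) (nat_lit 245)) (XT.lf (nat_lit 0) (nat_lit 3190302133) (nat_lit 152) (nat_lit 2207014037) (nat_lit 228) (nat_lit 10086045285) (nat_lit 22) (nat_lit 5) (nat_lit 24) (nat_lit 5) (nat_lit 25) (nat_lit 5) (nat_lit 275) (nat_lit 261) (nat_lit 244))) (XT.nd (nat_lit 78) (nat_lit 228) (nat_lit 0) (XT.lf (nat_lit 0) (nat_lit 3177013031) (nat_lit 76) (nat_lit 9729285856) (nat_lit 152) (nat_lit 4066478442) (nat_lit 21) (nat_lit 5) (nat_lit 22) (nat_lit 5) (nat_lit 23) (nat_lit 4) (nat_lit 276) (nat_lit 261) (nat_lit 243)) (XT.lf (nat_lit 0) (nat_lit 2693812196) (nat_lit 152) (nat_lit 298561873) (nat_lit 228) (nat_lit 15665596246) (nat_lit 18) (nat_lit 5) (nat_lit 20) (nat_lit 5) (nat_lit 21) (nat_lit 5) (nat_lit 277) (nat_lit 261) (nat_lit 242))))))))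
noncomputable def xc25 : XT := (XT.nd (nat_lit 1872) (nat_lit 76) (nat_lit 0) (XT.nd (nat_lit 936) (nat_lit 380) (nat_lit 0) (XT.nd (nat_lit 468) (nat_lit 304) (nat_lit 0) (XT.nd (nat_lit 234) (nat_lit 304) (nat_lit 0) (XT.nd (nat_lit 78) (nat_lit 152) (nat_lit 0) (XT.lf (nat_lit 0) (nat_lit 1276518400) (nat_lit 76) (nat_lit 10099061581) (nat_lit 152) (nat_lit 9171579554) (nat_lit 17) (nat_lit 5) (nat_lit 18) (nat_lit 5) (nat_lit 19) (nat_lit 4) (nat_lit 278) (nat_lit 261) (nat_lit 241)) (XT.nd (nat_lit 78) (nat_lit 152) (nat_lit 0) (XT.lf (nat_lit 0) (nat_lit 21320940857) (nat_lit 152) (nat_lit 956115600) (nat_lit 0) (nat_lit 418445990) (nat_lit 17) (nat_lit 5) (nat_lit 19) (nat_lit 4) (nat_lit 17) (nat_lit 4) (nat_lit 279) (nat_lit 261) (nat_lit 240)) (XT.lf (nat_lit 0) (nat_lit 7844075909) (nat_lit 152) (nat_lit 4739801270) (nat_lit 76) (nat_lit 12517184747) (nat_lit 15) (nat_lit 5)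 (nat_lit 17) (nat_lit 5) (nat_lit 16) (nat_lit 4) (nat_lit 280) (nat_lit 261) (nat_lit 239)))) (XT.nd (nat_lit 78) (nat_lit 228) (nat_lit 0) (XT.lf (nat_lit 0) (nat_lit 17649038444) (nat_lit 76) (nat_lit 1022859357) (nat_lit 152) (nat_lit 9168183526) (nat_lit 14) (nat_lit 5) (nat_lit 15) (nat_lit 5) (nat_lit 16) (nat_lit 4) (nat_lit 281) (nat_lit 261) (nat_lit 238)) (XT.nd (nat_lit 78) (nat_lit 76) (nat_lit 0) (XT.lf (nat_lit 0) (nat_lit 750698318) (nat_lit 152) (nat_lit 18164646655) (nat_lit 76) (nat_lit 12024558362) (nat_lit 12) (nat_lit 5) (nat_lit 14) (nat_lit 5) (nat_lit 13) (nat_lit 4) (nat_lit 282) (nat_lit 261) (nat_lit 237)) (XT.lf (nat_lit 0) (nat_lit 5050200049) (nat_lit 76) (nat_lit 6906260421) (nat_lit 152) (nat_lit 22501908011) (nat_lit 11) (nat_lit 5) (nat_lit 12) (nat_lit 5) (nat_lit 13) (nat_lit 4) (nat_lit 283) (nat_lit 261) (nat_lit 236))))) (XT.nd (nat_lit 234) (nat_lit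 76) (nat_lit 0) (XT.nd (nat_lit 78) (nat_lit 228) (nat_lit 0) (XT.lf (nat_lit 0) (nat_lit 25433108933) (nat_lit 152) (nat_lit 6017384231) (nat_lit 0) (nat_lit 7006972089) (nat_lit 11) (nat_lit 5) (nat_lit 13) (nat_lit 4) (nat_lit 11) (nat_lit 4) (nat_lit 284) (nat_lit 261) (nat_lit 235)) (XT.nd (nat_lit 78) (nat_lit 152) (nat_lit 0) (XT.lf (nat_lit 0) (nat_lit 21576823368) (nat_lit 76) (nat_lit 19961230397) (nat_lit 76) (nat_lit 1469884163) (nat_lit 10) (nat_lit 4) (nat_lit 11) (nat_lit 5) (nat_lit 11) (nat_lit 4) (nat_lit 285) (nat_lit 261) (nat_lit 234)) (XT.lf (nat_lit 0) (nat_lit 5238594260) (nat_lit 76) (nat_lit 6197292428) (nat_lit 152) (nat_lit 36765657960) (nat_lit 8) (nat_lit 5) (nat_lit 9) (nat_lit 5) (nat_lit 10) (nat_lit 4) (nat_lit 286) (nat_lit 261) (nat_lit 233)))) (XT.nd (nat_lit 78) (nat_lit 76) (nat_lit 0) (XT.lf (nat_lit 0) (nat_lit 26974982495) (nat_lit 152) (nat_lit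 17378228045) (nat_lit 0) (nat_lit 9755206829) (nat_lit 8) (nat_lit 5) (nat_lit 10) (nat_lit 4) (nat_lit 8) (nat_lit 4) (nat_lit 287) (nat_lit 261) (nat_lit 232)) (XT.nd (nat_lit 78) (nat_lit 0) (nat_lit 0) (XT.lf (nat_lit 0) (nat_lit 12340539760) (nat_lit 76) (nat_lit 32894539918) (nat_lit 76) (nat_lit 15635064036) (nat_lit 7) (nat_lit 4) (nat_lit 8) (nat_lit 5) (nat_lit 8) (nat_lit 4) (nat_lit 288) (nat_lit 261) (nat_lit 231)) (XT.lf (nat_lit 0) (nat_lit 47432572167) (nat_lit 76) (nat_lit 19236400710) (nat_lit 76) (nat_lit 1942402903) (nat_lit 7) (nat_lit 4) (nat_lit 8) (nat_lit 5) (nat_lit 8) (nat_lit 4) (nat_lit 289) (nat_lit 261) (nat_lit 230)))))) (XT.nd (nat_lit 468) (nat_lit 152) (nat_lit 0) (XT.nd (nat_lit 234) (nat_lit 76) (nat_lit 0) (XT.nd (nat_lit 78) (nat_lit 0) (nat_lit 0) (XT.lf (nat_lit 0) (nat_lit 10337308580) (nat_lit 76) (nat_lit 2961405579) (nat_lit 152) (nat_lit 64173735119)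 (nat_lit 5) (nat_lit 5) (nat_lit 6) (nat_lit 5) (nat_lit 7) (nat_lit 4) (nat_lit 290) (nat_lit 261) (nat_lit 229)) (XT.nd (nat_lit 78) (nat_lit 0) (nat_lit 0) (XT.lf (nat_lit 0) (nat_lit 31666546170) (nat_lit 152) (nat_lit 40314057363) (nat_lit 0) (nat_lit 15601619865) (nat_lit 5) (nat_lit 5) (nat_lit 7) (nat_lit 4) (nat_lit 5) (nat_lit 4) (nat_lit 291) (nat_lit 261) (nat_lit 228)) (XT.lf (nat_lit 0) (nat_lit 52819955014) (nat_lit 152) (nat_lit 9652082917) (nat_lit 0) (nat_lit 36734011369) (nat_lit 5) (nat_lit 5) (nat_lit 7) (nat_lit 4) (nat_lit 5) (nat_lit 4) (nat_lit 292) (nat_lit 261) (nat_lit 227)))) (XT.nd (nat_lit 78) (nat_lit 0) (nat_lit 0) (XT.lf (nat_lit 0) (nat_lit 26865851403) (nat_lit 76) (nat_lit 50881862829) (nat_lit 76) (nat_lit 34777643236) (nat_lit 4) (nat_lit 4) (nat_lit 5) (nat_lit 5) (nat_lit 5) (nat_lit 4) (nat_lit 293) (nat_lit 261) (nat_lit 226)) (XT.nd (nat_lit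 78) (nat_lit 0) (nat_lit 0) (XT.lf (nat_lit 0) (nat_lit 69366089099) (nat_lit 76) (nat_lit 37288693184) (nat_lit 76) (nat_lit 21168581463) (nat_lit 4) (nat_lit 4) (nat_lit 5) (nat_lit 5) (nat_lit 5) (nat_lit 4) (nat_lit 294) (nat_lit 261) (nat_lit 225)) (XT.lf (nat_lit 0) (nat_lit 118171894977) (nat_lit 76) (nat_lit 21690480730) (nat_lit 76) (nat_lit 5556549767) (nat_lit 4) (nat_lit 4) (nat_lit 5) (nat_lit 5) (nat_lit 5) (nat_lit 4) (nat_lit 295) (nat_lit 261) (nat_lit 224))))) (XT.nd (nat_lit 234) (nat_lit 0) (nat_lit 0) (XT.nd (nat_lit 78) (nat_lit 0) (nat_lit 0) (XT.lf (nat_lit 0) (nat_lit 8720756975) (nat_lit 76) (nat_lit 3234389500) (nat_lit 152) (nat_lit 153660590238) (nat_lit 2) (nat_lit 5) (nat_lit 3) (nat_lit 5) (nat_lit 4) (nat_lit 4) (nat_lit 296) (nat_lit 261) (nat_lit 223)) (XT.nd (nat_lit 78) (nat_lit 0) (nat_lit 0) (XT.lf (nat_lit 0) (nat_lit 32990863659) (nat_lit 152) (nat_lit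 137710329228) (nat_lit 0) (nat_lit 18031236781) (nat_lit 2) (nat_lit 5) (nat_lit 4) (nat_lit 4) (nat_lit 2) (nat_lit 4) (nat_lit 297) (nat_lit 261) (nat_lit 222)) (XT.lf (nat_lit 0) (nat_lit 57245642982) (nat_lit 152) (nat_lit 115788291563) (nat_lit 0) (nat_lit 42277602793) (nat_lit 2) (nat_lit 5) (nat_lit 4) (nat_lit 4) (nat_lit 2) (nat_lit 4) (nat_lit 298) (nat_lit 261) (nat_lit 221)))) (XT.nd (nat_lit 78) (nat_lit 0) (nat_lit 0) (XT.lf (nat_lit 0) (nat_lit 85116247330) (nat_lit 152) (nat_lit 90622170166) (nat_lit 0) (nat_lit 70140891219) (nat_lit 2) (nat_lit 5) (nat_lit 4) (nat_lit 4) (nat_lit 2) (nat_lit 4) (nat_lit 299) (nat_lit 261) (nat_lit 220)) (XT.nd (nat_lit 78) (nat_lit 0) (nat_lit 0) (XT.lf (nat_lit 0) (nat_lit 117147971135) (nat_lit 152) (nat_lit 61719584401) (nat_lit 0) (nat_lit 102166253352) (nat_lit 2) (nat_lit 5) (nat_lit 4) (nat_lit 4) (nat_lit 2) (nat_lit 4) (nat_lit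 300) (nat_lit 261) (nat_lit 219)) (XT.lf (nat_lit 0) (nat_lit 153967522039) (nat_lit 152) (nat_lit 28515048894) (nat_lit 0) (nat_lit 138980272367) (nat_lit 2) (nat_lit 5) (nat_lit 4) (nat_lit 4) (nat_lit 2) (nat_lit 4) (nat_lit 301) (nat_lit 261) (nat_lit 218))))))) (XT.nd (nat_lit 936) (nat_lit 0) (nat_lit 0) (XT.nd (nat_lit 468) (nat_lit 0) (nat_lit 0) (XT.nd (nat_lit 234) (nat_lit 0) (nat_lit 0) (XT.nd (nat_lit 78) (nat_lit 0) (nat_lit 0) (XT.lf (nat_lit 0) (nat_lit 10148773040) (nat_lit 76) (nat_lit 186390587753) (nat_lit 76) (nat_lit 171398527743) (nat_lit 1) (nat_lit 4) (nat_lit 2) (nat_lit 5) (nat_lit 2) (nat_lit 4) (nat_lit 302) (nat_lit 261) (nat_lit 217)) (XT.nd (nat_lit 78) (nat_lit 0) (nat_lit 0) (XT.lf (nat_lit 0) (nat_lit 56312337561) (nat_lit 76) (nat_lit 190001380039) (nat_lit 76) (nat_lit 175005137127) (nat_lit 1) (nat_lit 4) (nat_lit 2) (nat_lit 5) (nat_lit 2) (nat_lit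 4) (nat_lit 303) (nat_lit 261) (nat_lit 216)) (XT.lf (nat_lit 0) (nat_lit 109377292902) (nat_lit 76) (nat_lit 194165245697) (nat_lit 76) (nat_lit 179165365478) (nat_lit 1) (nat_lit 4) (nat_lit 2) (nat_lit 5) (nat_lit 2) (nat_lit 4) (nat_lit 304) (nat_lit 261) (nat_lit 215)))) (XT.nd (nat_lit 78) (nat_lit 0) (nat_lit 0) (XT.lf (nat_lit 0) (nat_lit 170381866450) (nat_lit 76) (nat_lit 198963651664) (nat_lit 76) (nat_lit 183960608570) (nat_lit 1) (nat_lit 4) (nat_lit 2) (nat_lit 5) (nat_lit 2) (nat_lit 4) (nat_lit 305) (nat_lit 261) (nat_lit 214)) (XT.nd (nat_lit 78) (nat_lit 0) (nat_lit 0) (XT.lf (nat_lit 0) (nat_lit 240519625949) (nat_lit 76) (nat_lit 204490479796) (nat_lit 76) (nat_lit 189484686376) (nat_lit 1) (nat_lit 4) (nat_lit 2) (nat_lit 5) (nat_lit 2) (nat_lit 4) (nat_lit 306) (nat_lit 261) (nat_lit 213)) (XT.lf (nat_lit 0) (nat_lit 321162831910) (nat_lit 76) (nat_lit 210853863687)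 (nat_lit 76) (nat_lit 195845678678) (nat_lit 1) (nat_lit 4) (nat_lit 2) (nat_lit 5) (nat_lit 2) (nat_lit 4) (nat_lit 307) (nat_lit 261) (nat_lit 212))))) (XT.nd (nat_lit 234) (nat_lit 0) (nat_lit 0) (XT.nd (nat_lit 78) (nat_lit 0) (nat_lit 0) (XT.lf (nat_lit 0) (nat_lit 413889286189) (nat_lit 76) (nat_lit 218178304325) (nat_lit 76) (nat_lit 203168039675) (nat_lit 1) (nat_lit 4) (nat_lit 2) (nat_lit 5) (nat_lit 2) (nat_lit 4) (nat_lit 308) (nat_lit 261) (nat_lit 211)) (XT.nd (nat_lit 78) (nat_lit 0) (nat_lit 0) (XT.lf (nat_lit 0) (nat_lit 520513202022) (nat_lit 76) (nat_lit 226607105985) (nat_lit 76) (nat_lit 211595032951) (nat_lit 1) (nat_lit 4) (nat_lit 2) (nat_lit 5) (nat_lit 2) (nat_lit 4) (nat_lit 309) (nat_lit 261) (nat_lit 210)) (XT.lf (nat_lit 0) (nat_lit 643120699502) (nat_lit 76) (nat_lit 236305180003) (nat_lit 76) (nat_lit 221291534460) (nat_lit 1) (nat_lit 4) (nat_lit 2) (nat_lit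 5) (nat_lit 2) (nat_lit 4) (nat_lit 310) (nat_lit 261) (nat_lit 209)))) (XT.nd (nat_lit 78) (nat_lit 0) (nat_lit 0) (XT.lf (nat_lit 0) (nat_lit 784110620970) (nat_lit 76) (nat_lit 247462271305) (nat_lit 76) (nat_lit 232447258364) (nat_lit 1) (nat_lit 4) (nat_lit 2) (nat_lit 5) (nat_lit 2) (nat_lit 4) (nat_lit 311) (nat_lit 261) (nat_lit 208)) (XT.nd (nat_lit 78) (nat_lit 0) (nat_lit 0) (XT.lf (nat_lit 0) (nat_lit 946241464890) (nat_lit 76) (nat_lit 260296670809) (nat_lit 76) (nat_lit 245280468826) (nat_lit 1) (nat_lit 4) (nat_lit 2) (nat_lit 5) (nat_lit 2) (nat_lit 4) (nat_lit 312) (nat_lit 261) (nat_lit 207)) (XT.lf (nat_lit 0) (nat_lit 1132685356468) (nat_lit 76) (nat_lit 275059486330) (nat_lit 76) (nat_lit 260042250398) (nat_lit 1) (nat_lit 4) (nat_lit 2) (nat_lit 5) (nat_lit 2) (nat_lit 4) (nat_lit 313) (nat_lit 261) (nat_lit 206)))))) (XT.nd (nat_lit 468) (nat_lit 0) (nat_lit 0) (XT.nd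 (nat_lit 234) (nat_lit 0) (nat_lit 0) (XT.nd (nat_lit 78) (nat_lit 0) (nat_lit 0) (XT.lf (nat_lit 0) (nat_lit 1347090110976) (nat_lit 76) (nat_lit 292039555564) (nat_lit 76) (nat_lit 277021420545) (nat_lit 1) (nat_lit 4) (nat_lit 2) (nat_lit 5) (nat_lit 2) (nat_lit 4) (nat_lit 314) (nat_lit 261) (nat_lit 205)) (XT.nd (nat_lit 78) (nat_lit 0) (nat_lit 0) (XT.lf (nat_lit 0) (nat_lit 1593650604045) (nat_lit 76) (nat_lit 311569097256) (nat_lit 76) (nat_lit 296550180423) (nat_lit 1) (nat_lit 4) (nat_lit 2) (nat_lit 5) (nat_lit 2) (nat_lit 4) (nat_lit 315) (nat_lit 261) (nat_lit 204)) (XT.lf (nat_lit 0) (nat_lit 1877190845322) (nat_lit 76) (nat_lit 334030211136) (nat_lit 76) (nat_lit 319010614464) (nat_lit 1) (nat_lit 4) (nat_lit 2) (nat_lit 5) (nat_lit 2) (nat_lit 4) (nat_lit 316) (nat_lit 261) (nat_lit 203)))) (XT.nd (nat_lit 78) (nat_lit 0) (nat_lit 0) (XT.lf (nat_lit 0) (nat_lit 2203258361266)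 (nat_lit 76) (nat_lit 359862353779) (nat_lit 76) (nat_lit 344842165943) (nat_lit 1) (nat_lit 4) (nat_lit 2) (nat_lit 5) (nat_lit 2) (nat_lit 4) (nat_lit 317) (nat_lit 261) (nat_lit 202)) (XT.nd (nat_lit 78) (nat_lit 0) (nat_lit 0) (XT.lf (nat_lit 0) (nat_lit 2578232733711) (nat_lit 76) (nat_lit 389570936671) (nat_lit 76) (nat_lit 374550234780) (nat_lit 1) (nat_lit 4) (nat_lit 2) (nat_lit 5) (nat_lit 2) (nat_lit 4) (nat_lit 318) (nat_lit 261) (nat_lit 201)) (XT.lf (nat_lit 0) (nat_lit 3009450417770) (nat_lit 76) (nat_lit 423737214696) (nat_lit 76) (nat_lit 408716065800) (nat_lit 1) (nat_lit 4) (nat_lit 2) (nat_lit 5) (nat_lit 2) (nat_lit 4) (nat_lit 319) (nat_lit 261) (nat_lit 200))))) (XT.nd (nat_lit 234) (nat_lit 0) (nat_lit 0) (XT.nd (nat_lit 78) (nat_lit 0) (nat_lit 0) (XT.lf (nat_lit 0) (nat_lit 3505348281176) (nat_lit 76) (nat_lit 463029658510) (nat_lit 76) (nat_lit 448008120914)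 (nat_lit 1) (nat_lit 4) (nat_lit 2) (nat_lit 5) (nat_lit 2) (nat_lit 4) (nat_lit 320) (nat_lit 261) (nat_lit 199)) (XT.nd (nat_lit 78) (nat_lit 0) (nat_lit 0) (XT.lf (nat_lit 0) (nat_lit 4075628673428) (nat_lit 76) (nat_lit 508217033319) (nat_lit 76) (nat_lit 493195157723) (nat_lit 1) (nat_lit 4) (nat_lit 2) (nat_lit 5) (nat_lit 2) (nat_lit 4) (nat_lit 321) (nat_lit 261) (nat_lit 198)) (XT.lf (nat_lit 0) (nat_lit 4731449254376) (nat_lit 76) (nat_lit 560183439933) (nat_lit 76) (nat_lit 545161270424) (nat_lit 1) (nat_lit 4) (nat_lit 2) (nat_lit 5) (nat_lit 2) (nat_lit 4) (nat_lit 322) (nat_lit 261) (nat_lit 197)))) (XT.nd (nat_lit 156) (nat_lit 0) (nat_lit 0) (XT.nd (nat_lit 78) (nat_lit 0) (nat_lit 0) (XT.lf (nat_lit 0) (nat_lit 5485641296256) (nat_lit 76) (nat_lit 619945612396) (nat_lit 76) (nat_lit 604923187311) (nat_lit 1) (nat_lit 4) (nat_lit 2) (nat_lit 5) (nat_lit 2) (nat_lit 4) (nat_lit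 323) (nat_lit 261) (nat_lit 196)) (XT.lf (nat_lit 0) (nat_lit 6352960730322) (nat_lit 76) (nat_lit 688672810603) (nat_lit 76) (nat_lit 673650163277) (nat_lit 1) (nat_lit 4) (nat_lit 2) (nat_lit 5) (nat_lit 2) (nat_lit 4) (nat_lit 324) (nat_lit 261) (nat_lit 195))) (XT.nd (nat_lit 78) (nat_lit 0) (nat_lit 0) (XT.lf (nat_lit 0) (nat_lit 7350376849848) (nat_lit 76) (nat_lit 767709697129) (nat_lit 76) (nat_lit 752686856550) (nat_lit 1) (nat_lit 4) (nat_lit 2) (nat_lit 5) (nat_lit 2) (nat_lit 4) (nat_lit 325) (nat_lit 261) (nat_lit 194)) (XT.lf (nat_lit 0) (nat_lit 8497404318044) (nat_lit 76) (nat_lit 858602645839) (nat_lit 76) (nat_lit 843579637214) (nat_lit 1) (nat_lit 4) (nat_lit 2) (nat_lit 5) (nat_lit 2) (nat_lit 4) (nat_lit 326) (nat_lit 261) (nat_lit 193))))))))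
noncomputable def xc26 : XT := (XT.nd (nat_lit 1872) (nat_lit 760) (nat_lit 0) (XT.nd (nat_lit 936) (nat_lit 1368) (nat_lit 0) (XT.nd (nat_lit 468) (nat_lit 1520) (nat_lit 0) (XT.nd (nat_lit 234) (nat_lit 1140) (nat_lit 0) (XT.nd (nat_lit 78) (nat_lit 304) (nat_lit 0) (XT.lf (nat_lit 0) (nat_lit 1300450760) (nat_lit 0) (nat_lit 1300450760) (nat_lit 228) (nat_lit 810868265) (nat_lit 68) (nat_lit 5) (nat_lit 68) (nat_lit 3) (nat_lit 71) (nat_lit 3) (nat_lit 262) (nat_lit 262) (nat_lit 256)) (XT.nd (nat_lit 78) (nat_lit 0) (nat_lit 0) (XT.lf (nat_lit 0) (nat_lit 1837781243) (nat_lit 304) (nat_lit 5148388435) (nat_lit 380) (nat_lit 63563511) (nat_lit 64) (nat_lit 5) (nat_lit 68) (nat_lit 5) (nat_lit 69) (nat_lit 5) (nat_lit 263) (nat_lit 262) (nat_lit 255)) (XT.lf (nat_lit 76) (nat_lit 1444168160) (nat_lit 0) (nat_lit 3896028054) (nat_lit 380) (nat_lit 1998365916) (nat_lit 65) (nat_lit 5)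 (nat_lit 64) (nat_lit 5) (nat_lit 69) (nat_lit 5) (nat_lit 264) (nat_lit 262) (nat_lit 254)))) (XT.nd (nat_lit 78) (nat_lit 836) (nat_lit 0) (XT.lf (nat_lit 0) (nat_lit 1238907468) (nat_lit 380) (nat_lit 6405473465) (nat_lit 76) (nat_lit 54293875) (nat_lit 60) (nat_lit 5) (nat_lit 65) (nat_lit 5) (nat_lit 61) (nat_lit 5) (nat_lit 265) (nat_lit 262) (nat_lit 253)) (XT.nd (nat_lit 78) (nat_lit 456) (nat_lit 0) (XT.lf (nat_lit 0) (nat_lit 1300719996) (nat_lit 380) (nat_lit 3368593169) (nat_lit 456) (nat_lit 3454442621) (nat_lit 55) (nat_lit 5) (nat_lit 60) (nat_lit 5) (nat_lit 61) (nat_lit 5) (nat_lit 266) (nat_lit 262) (nat_lit 252)) (XT.lf (nat_lit 0) (nat_lit 1573601998) (nat_lit 456) (nat_lit 6871057254) (nat_lit 532) (nat_lit 182529467) (nat_lit 49) (nat_lit 5) (nat_lit 55) (nat_lit 5) (nat_lit 56) (nat_lit 5) (nat_lit 267) (nat_lit 262) (nat_lit 251))))) (XT.nd (nat_lit 234) (nat_lit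 608) (nat_lit 0) (XT.nd (nat_lit 78) (nat_lit 532) (nat_lit 0) (XT.lf (nat_lit 0) (nat_lit 1963765048) (nat_lit 304) (nat_lit 1382256471) (nat_lit 380) (nat_lit 5858452573) (nat_lit 44) (nat_lit 5) (nat_lit 48) (nat_lit 5) (nat_lit 49) (nat_lit 5) (nat_lit 268) (nat_lit 262) (nat_lit 250)) (XT.nd (nat_lit 78) (nat_lit 304) (nat_lit 0) (XT.lf (nat_lit 0) (nat_lit 2507929940) (nat_lit 228) (nat_lit 4918649067) (nat_lit 304) (nat_lit 2439425706) (nat_lit 41) (nat_lit 5) (nat_lit 44) (nat_lit 5) (nat_lit 45) (nat_lit 5) (nat_lit 269) (nat_lit 262) (nat_lit 249)) (XT.lf (nat_lit 0) (nat_lit 1466862506) (nat_lit 304) (nat_lit 7419304835) (nat_lit 76) (nat_lit 1734375907) (nat_lit 37) (nat_lit 5) (nat_lit 41) (nat_lit 5) (nat_lit 38) (nat_lit 5) (nat_lit 270) (nat_lit 262) (nat_lit 248)))) (XT.nd (nat_lit 78) (nat_lit 456) (nat_lit 0) (XT.lf (nat_lit 0) (nat_lit 3934678668) (nat_lit 152) (nat_lit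 2040011527) (nat_lit 228) (nat_lit 5496200509) (nat_lit 35) (nat_lit 5) (nat_lit 37) (nat_lit 5) (nat_lit 38) (nat_lit 5) (nat_lit 271) (nat_lit 262) (nat_lit 247)) (XT.nd (nat_lit 78) (nat_lit 228) (nat_lit 0) (XT.lf (nat_lit 0) (nat_lit 4740540447) (nat_lit 228) (nat_lit 6627934275) (nat_lit 304) (nat_lit 1063967788) (nat_lit 32) (nat_lit 5) (nat_lit 35) (nat_lit 5) (nat_lit 36) (nat_lit 5) (nat_lit 272) (nat_lit 262) (nat_lit 246)) (XT.lf (nat_lit 0) (nat_lit 4038698132) (nat_lit 228) (nat_lit 7983993211) (nat_lit 76) (nat_lit 1491538147) (nat_lit 29) (nat_lit 5) (nat_lit 32) (nat_lit 5) (nat_lit 30) (nat_lit 5) (nat_lit 273) (nat_lit 262) (nat_lit 245)))))) (XT.nd (nat_lit 468) (nat_lit 456) (nat_lit 0) (XT.nd (nat_lit 234) (nat_lit 380) (nat_lit 0) (XT.nd (nat_lit 78) (nat_lit 380) (nat_lit 0) (XT.lf (nat_lit 0) (nat_lit 6224121245) (nat_lit 152) (nat_lit 3960570559) (nat_lit 228)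 (nat_lit 4544412194) (nat_lit 27) (nat_lit 5) (nat_lit 29) (nat_lit 5) (nat_lit 30) (nat_lit 5) (nat_lit 274) (nat_lit 262) (nat_lit 244)) (XT.nd (nat_lit 78) (nat_lit 152) (nat_lit 0) (XT.lf (nat_lit 0) (nat_lit 1404633850) (nat_lit 228) (nat_lit 9304508272) (nat_lit 76) (nat_lit 5388377152) (nat_lit 24) (nat_lit 5) (nat_lit 27) (nat_lit 5) (nat_lit 25) (nat_lit 5) (nat_lit 275) (nat_lit 262) (nat_lit 243)) (XT.lf (nat_lit 0) (nat_lit 7061611655) (nat_lit 152) (nat_lit 1266947571) (nat_lit 228) (nat_lit 9305279652) (nat_lit 22) (nat_lit 5) (nat_lit 24) (nat_lit 5) (nat_lit 25) (nat_lit 5) (nat_lit 276) (nat_lit 262) (nat_lit 242)))) (XT.nd (nat_lit 78) (nat_lit 304) (nat_lit 0) (XT.lf (nat_lit 0) (nat_lit 6888631383) (nat_lit 76) (nat_lit 9902907990) (nat_lit 152) (nat_lit 2569215125) (nat_lit 21) (nat_lit 5) (nat_lit 22) (nat_lit 5) (nat_lit 23) (nat_lit 4) (nat_lit 277) (nat_lit 262)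 (nat_lit 241)) (XT.nd (nat_lit 78) (nat_lit 76) (nat_lit 0) (XT.lf (nat_lit 0) (nat_lit 5277212253) (nat_lit 228) (nat_lit 15174303632) (nat_lit 76) (nat_lit 856664506) (nat_lit 18) (nat_lit 5) (nat_lit 21) (nat_lit 5) (nat_lit 19) (nat_lit 4) (nat_lit 278) (nat_lit 262) (nat_lit 240)) (XT.lf (nat_lit 0) (nat_lit 4375365618) (nat_lit 76) (nat_lit 10380160235) (nat_lit 152) (nat_lit 8738421592) (nat_lit 17) (nat_lit 5) (nat_lit 18) (nat_lit 5) (nat_lit 19) (nat_lit 4) (nat_lit 279) (nat_lit 262) (nat_lit 239))))) (XT.nd (nat_lit 234) (nat_lit 228) (nat_lit 0) (XT.nd (nat_lit 78) (nat_lit 76) (nat_lit 0) (XT.lf (nat_lit 0) (nat_lit 58560294) (nat_lit 152) (nat_lit 24378009740) (nat_lit 76) (nat_lit 1540355625) (nat_lit 15) (nat_lit 5) (nat_lit 17) (nat_lit 5) (nat_lit 16) (nat_lit 4) (nat_lit 280) (nat_lit 262) (nat_lit 238)) (XT.nd (nat_lit 78) (nat_lit 76) (nat_lit 0) (XT.lf (nat_lit 0)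 (nat_lit 10402243916) (nat_lit 152) (nat_lit 2978825913) (nat_lit 76) (nat_lit 15373648553) (nat_lit 15) (nat_lit 5) (nat_lit 17) (nat_lit 5) (nat_lit 16) (nat_lit 4) (nat_lit 281) (nat_lit 262) (nat_lit 237)) (XT.lf (nat_lit 0) (nat_lit 22559101880) (nat_lit 76) (nat_lit 169352349) (nat_lit 152) (nat_lit 9186326860) (nat_lit 14) (nat_lit 5) (nat_lit 15) (nat_lit 5) (nat_lit 16) (nat_lit 4) (nat_lit 282) (nat_lit 262) (nat_lit 236)))) (XT.nd (nat_lit 78) (nat_lit 76) (nat_lit 0) (XT.lf (nat_lit 0) (nat_lit 2058796371) (nat_lit 152) (nat_lit 18683955570) (nat_lit 76) (nat_lit 14741812487) (nat_lit 12) (nat_lit 5) (nat_lit 14) (nat_lit 5) (nat_lit 13) (nat_lit 4) (nat_lit 283) (nat_lit 262) (nat_lit 235)) (XT.nd (nat_lit 78) (nat_lit 0) (nat_lit 0) (XT.lf (nat_lit 0) (nat_lit 7826443023) (nat_lit 76) (nat_lit 7011596009) (nat_lit 152) (nat_lit 24701440361) (nat_lit 11) (nat_lit 5) (nat_lit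 12) (nat_lit 5) (nat_lit 13) (nat_lit 4) (nat_lit 284) (nat_lit 262) (nat_lit 234)) (XT.lf (nat_lit 0) (nat_lit 30213719210) (nat_lit 152) (nat_lit 5107838569) (nat_lit 0) (nat_lit 8826757832) (nat_lit 11) (nat_lit 5) (nat_lit 13) (nat_lit 4) (nat_lit 11) (nat_lit 4) (nat_lit 285) (nat_lit 262) (nat_lit 233))))))) (XT.nd (nat_lit 936) (nat_lit 76) (nat_lit 0) (XT.nd (nat_lit 468) (nat_lit 228) (nat_lit 0) (XT.nd (nat_lit 234) (nat_lit 228) (nat_lit 0) (XT.nd (nat_lit 78) (nat_lit 152) (nat_lit 0) (XT.lf (nat_lit 0) (nat_lit 26472110419) (nat_lit 76) (nat_lit 22176235094) (nat_lit 76) (nat_lit 739966049) (nat_lit 10) (nat_lit 4) (nat_lit 11) (nat_lit 5) (nat_lit 11) (nat_lit 4) (nat_lit 286) (nat_lit 262) (nat_lit 232)) (XT.nd (nat_lit 78) (nat_lit 0) (nat_lit 0) (XT.lf (nat_lit 0) (nat_lit 7586641201) (nat_lit 76) (nat_lit 6387294605) (nat_lit 152) (nat_lit 41391664640) (nat_lit 8) (nat_lit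 5) (nat_lit 9) (nat_lit 5) (nat_lit 10) (nat_lit 4) (nat_lit 287) (nat_lit 262) (nat_lit 231)) (XT.lf (nat_lit 0) (nat_lit 31752058837) (nat_lit 152) (nat_lit 18584400076) (nat_lit 0) (nat_lit 11829439432) (nat_lit 8) (nat_lit 5) (nat_lit 10) (nat_lit 4) (nat_lit 8) (nat_lit 4) (nat_lit 288) (nat_lit 262) (nat_lit 230)))) (XT.nd (nat_lit 78) (nat_lit 152) (nat_lit 0) (XT.lf (nat_lit 0) (nat_lit 15473632288) (nat_lit 76) (nat_lit 37213045201) (nat_lit 76) (nat_lit 17260406729) (nat_lit 7) (nat_lit 4) (nat_lit 8) (nat_lit 5) (nat_lit 8) (nat_lit 4) (nat_lit 289) (nat_lit 262) (nat_lit 229)) (XT.nd (nat_lit 78) (nat_lit 152) (nat_lit 0) (XT.lf (nat_lit 0) (nat_lit 55662250656) (nat_lit 76) (nat_lit 21586490639) (nat_lit 76) (nat_lit 1607748632) (nat_lit 7) (nat_lit 4) (nat_lit 8) (nat_lit 5) (nat_lit 8) (nat_lit 4) (nat_lit 290) (nat_lit 262) (nat_lit 228)) (XT.lf (nat_lit 0) (nat_lit 12937203025)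 (nat_lit 76) (nat_lit 2898683397) (nat_lit 152) (nat_lit 73213849072) (nat_lit 5) (nat_lit 5) (nat_lit 6) (nat_lit 5) (nat_lit 7) (nat_lit 4) (nat_lit 291) (nat_lit 262) (nat_lit 227))))) (XT.nd (nat_lit 234) (nat_lit 152) (nat_lit 0) (XT.nd (nat_lit 78) (nat_lit 76) (nat_lit 0) (XT.lf (nat_lit 0) (nat_lit 36898751477) (nat_lit 152) (nat_lit 45421437635) (nat_lit 0) (nat_lit 18360622998) (nat_lit 5) (nat_lit 5) (nat_lit 7) (nat_lit 4) (nat_lit 5) (nat_lit 4) (nat_lit 292) (nat_lit 262) (nat_lit 226)) (XT.nd (nat_lit 78) (nat_lit 76) (nat_lit 0) (XT.lf (nat_lit 0) (nat_lit 61162272946) (nat_lit 152) (nat_lit 10282740283) (nat_lit 0) (nat_lit 42608252339) (nat_lit 5) (nat_lit 5) (nat_lit 7) (nat_lit 4) (nat_lit 5) (nat_lit 4) (nat_lit 293) (nat_lit 262) (nat_lit 225)) (XT.lf (nat_lit 0) (nat_lit 31643716079) (nat_lit 76) (nat_lit 58148774549) (nat_lit 76) (nat_lit 39580934699) (nat_lit 4)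 (nat_lit 4) (nat_lit 5) (nat_lit 5) (nat_lit 5) (nat_lit 4) (nat_lit 294) (nat_lit 262) (nat_lit 224)))) (XT.nd (nat_lit 78) (nat_lit 152) (nat_lit 0) (XT.lf (nat_lit 0) (nat_lit 80421425912) (nat_lit 76) (nat_lit 42564286114) (nat_lit 76) (nat_lit 23984429532) (nat_lit 4) (nat_lit 4) (nat_lit 5) (nat_lit 5) (nat_lit 5) (nat_lit 4) (nat_lit 295) (nat_lit 262) (nat_lit 223)) (XT.nd (nat_lit 78) (nat_lit 152) (nat_lit 0) (XT.lf (nat_lit 0) (nat_lit 136463264831) (nat_lit 76) (nat_lit 24667782363) (nat_lit 76) (nat_lit 6077476449) (nat_lit 4) (nat_lit 4) (nat_lit 5) (nat_lit 5) (nat_lit 5) (nat_lit 4) (nat_lit 296) (nat_lit 262) (nat_lit 222)) (XT.lf (nat_lit 0) (nat_lit 10560974870) (nat_lit 76) (nat_lit 3458432418) (nat_lit 152) (nat_lit 176416933981) (nat_lit 2) (nat_lit 5) (nat_lit 3) (nat_lit 5) (nat_lit 4) (nat_lit 4) (nat_lit 297) (nat_lit 262) (nat_lit 221)))))) (XT.nd (nat_lit 468)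 (nat_lit 0) (nat_lit 0) (XT.nd (nat_lit 234) (nat_lit 76) (nat_lit 0) (XT.nd (nat_lit 78) (nat_lit 0) (nat_lit 0) (XT.lf (nat_lit 0) (nat_lit 38180596403) (nat_lit 152) (nat_lit 157890721686) (nat_lit 0) (nat_lit 20951620953) (nat_lit 2) (nat_lit 5) (nat_lit 4) (nat_lit 4) (nat_lit 2) (nat_lit 4) (nat_lit 298) (nat_lit 262) (nat_lit 220)) (XT.nd (nat_lit 78) (nat_lit 0) (nat_lit 0) (XT.lf (nat_lit 0) (nat_lit 66042144382) (nat_lit 152) (nat_lit 132742485796) (nat_lit 0) (nat_lit 48806807260) (nat_lit 2) (nat_lit 5) (nat_lit 4) (nat_lit 4) (nat_lit 2) (nat_lit 4) (nat_lit 299) (nat_lit 262) (nat_lit 219)) (XT.lf (nat_lit 0) (nat_lit 98065993084) (nat_lit 152) (nat_lit 103855452646) (nat_lit 0) (nat_lit 80825124073) (nat_lit 2) (nat_lit 5) (nat_lit 4) (nat_lit 4) (nat_lit 2) (nat_lit 4) (nat_lit 300) (nat_lit 262) (nat_lit 218)))) (XT.nd (nat_lit 78) (nat_lit 76) (nat_lit 0) (XT.lf (nat_lit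 0) (nat_lit 134878696071) (nat_lit 152) (nat_lit 70664441152) (nat_lit 0) (nat_lit 117633016722) (nat_lit 2) (nat_lit 5) (nat_lit 4) (nat_lit 4) (nat_lit 2) (nat_lit 4) (nat_lit 301) (nat_lit 262) (nat_lit 217)) (XT.nd (nat_lit 78) (nat_lit 76) (nat_lit 0) (XT.lf (nat_lit 0) (nat_lit 177200501880) (nat_lit 152) (nat_lit 32520061960) (nat_lit 0) (nat_lit 159950639628) (nat_lit 2) (nat_lit 5) (nat_lit 4) (nat_lit 4) (nat_lit 2) (nat_lit 4) (nat_lit 302) (nat_lit 262) (nat_lit 216)) (XT.lf (nat_lit 0) (nat_lit 11920289143) (nat_lit 76) (nat_lit 214225839938) (nat_lit 76) (nat_lit 196972340380) (nat_lit 1) (nat_lit 4) (nat_lit 2) (nat_lit 5) (nat_lit 2) (nat_lit 4) (nat_lit 303) (nat_lit 262) (nat_lit 215))))) (XT.nd (nat_lit 234) (nat_lit 0) (nat_lit 0) (XT.nd (nat_lit 78) (nat_lit 0) (nat_lit 0) (XT.lf (nat_lit 0) (nat_lit 64975883975) (nat_lit 76) (nat_lit 218394338368) (nat_lit 76) (nat_lit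 201137675935) (nat_lit 1) (nat_lit 4) (nat_lit 2) (nat_lit 5) (nat_lit 2) (nat_lit 4) (nat_lit 304) (nat_lit 262) (nat_lit 214)) (XT.nd (nat_lit 78) (nat_lit 0) (nat_lit 0) (XT.lf (nat_lit 0) (nat_lit 125972317950) (nat_lit 76) (nat_lit 223196772833) (nat_lit 76) (nat_lit 205937360074) (nat_lit 1) (nat_lit 4) (nat_lit 2) (nat_lit 5) (nat_lit 2) (nat_lit 4) (nat_lit 305) (nat_lit 262) (nat_lit 213)) (XT.lf (nat_lit 0) (nat_lit 196102999560) (nat_lit 76) (nat_lit 228727104006) (nat_lit 76) (nat_lit 211465299659) (nat_lit 1) (nat_lit 4) (nat_lit 2) (nat_lit 5) (nat_lit 2) (nat_lit 4) (nat_lit 306) (nat_lit 262) (nat_lit 212)))) (XT.nd (nat_lit 156) (nat_lit 0) (nat_lit 0) (XT.nd (nat_lit 78) (nat_lit 0) (nat_lit 0) (XT.lf (nat_lit 0) (nat_lit 276740050834) (nat_lit 76) (nat_lit 235093534020) (nat_lit 76) (nat_lit 217829650030) (nat_lit 1) (nat_lit 4) (nat_lit 2) (nat_lit 5) (nat_lit 2) (nat_lit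 4) (nat_lit 307) (nat_lit 262) (nat_lit 211)) (XT.lf (nat_lit 0) (nat_lit 369461153212) (nat_lit 76) (nat_lit 242420623461) (nat_lit 76) (nat_lit 225154931087) (nat_lit 1) (nat_lit 4) (nat_lit 2) (nat_lit 5) (nat_lit 2) (nat_lit 4) (nat_lit 308) (nat_lit 262) (nat_lit 210))) (XT.nd (nat_lit 78) (nat_lit 0) (nat_lit 0) (XT.lf (nat_lit 0) (nat_lit 476080415218) (nat_lit 76) (nat_lit 250851728427) (nat_lit 76) (nat_lit 233584463546) (nat_lit 1) (nat_lit 4) (nat_lit 2) (nat_lit 5) (nat_lit 2) (nat_lit 4) (nat_lit 309) (nat_lit 262) (nat_lit 209)) (XT.lf (nat_lit 0) (nat_lit 598683865891) (nat_lit 76) (nat_lit 260551805320) (nat_lit 76) (nat_lit 243283173040) (nat_lit 1) (nat_lit 4) (nat_lit 2) (nat_lit 5) (nat_lit 2) (nat_lit 4) (nat_lit 310) (nat_lit 262) (nat_lit 208))))))))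
noncomputable def xc27 : XT := (XT.nd (nat_lit 37518) (nat_lit 0) (nat_lit 228) (XT.nd (nat_lit 936) (nat_lit 0) (nat_lit 0) (XT.nd (nat_lit 468) (nat_lit 0) (nat_lit 0) (XT.nd (nat_lit 234) (nat_lit 0) (nat_lit 0) (XT.nd (nat_lit 78) (nat_lit 0) (nat_lit 0) (XT.lf (nat_lit 0) (nat_lit 739670268397) (nat_lit 76) (nat_lit 271710638253) (nat_lit 76) (nat_lit 254440816931) (nat_lit 1) (nat_lit 4) (nat_lit 2) (nat_lit 5) (nat_lit 2) (nat_lit 4) (nat_lit 311) (nat_lit 262) (nat_lit 207)) (XT.nd (nat_lit 78) (nat_lit 0) (nat_lit 0) (XT.lf (nat_lit 0) (nat_lit 901798052350) (nat_lit 76) (nat_lit 284546552218) (nat_lit 76) (nat_lit 267275696947) (nat_lit 1) (nat_lit 4) (nat_lit 2) (nat_lit 5) (nat_lit 2) (nat_lit 4) (nat_lit 312) (nat_lit 262) (nat_lit 206)) (XT.lf (nat_lit 0) (nat_lit 1088239283088) (nat_lit 76) (nat_lit 299310684663) (nat_lit 76) (nat_lit 282038930305) (nat_lit 1) (nat_lit 4)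 (nat_lit 2) (nat_lit 5) (nat_lit 2) (nat_lit 4) (nat_lit 313) (nat_lit 262) (nat_lit 205)))) (XT.nd (nat_lit 78) (nat_lit 0) (nat_lit 0) (XT.lf (nat_lit 0) (nat_lit 1302641723822) (nat_lit 76) (nat_lit 316291899047) (nat_lit 76) (nat_lit 299019362875) (nat_lit 1) (nat_lit 4) (nat_lit 2) (nat_lit 5) (nat_lit 2) (nat_lit 4) (nat_lit 314) (nat_lit 262) (nat_lit 204)) (XT.nd (nat_lit 78) (nat_lit 0) (nat_lit 0) (XT.lf (nat_lit 0) (nat_lit 1549200204912) (nat_lit 76) (nat_lit 335822436522) (nat_lit 76) (nat_lit 318549220511) (nat_lit 1) (nat_lit 4) (nat_lit 2) (nat_lit 5) (nat_lit 2) (nat_lit 4) (nat_lit 315) (nat_lit 262) (nat_lit 203)) (XT.lf (nat_lit 0) (nat_lit 1832738696643) (nat_lit 76) (nat_lit 358284416300) (nat_lit 76) (nat_lit 341010609125) (nat_lit 1) (nat_lit 4) (nat_lit 2) (nat_lit 5) (nat_lit 2) (nat_lit 4) (nat_lit 316) (nat_lit 262) (nat_lit 202))))) (XT.nd (nat_lit 234) (nat_lit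 0) (nat_lit 0) (XT.nd (nat_lit 78) (nat_lit 0) (nat_lit 0) (XT.lf (nat_lit 0) (nat_lit 2158804691242) (nat_lit 76) (nat_lit 384117311898) (nat_lit 76) (nat_lit 366842990667) (nat_lit 1) (nat_lit 4) (nat_lit 2) (nat_lit 5) (nat_lit 2) (nat_lit 4) (nat_lit 317) (nat_lit 262) (nat_lit 201)) (XT.nd (nat_lit 78) (nat_lit 0) (nat_lit 0) (XT.lf (nat_lit 0) (nat_lit 2533777740779) (nat_lit 76) (nat_lit 413826549534) (nat_lit 76) (nat_lit 396551781298) (nat_lit 1) (nat_lit 4) (nat_lit 2) (nat_lit 5) (nat_lit 2) (nat_lit 4) (nat_lit 318) (nat_lit 262) (nat_lit 200)) (XT.lf (nat_lit 0) (nat_lit 2964994274484) (nat_lit 76) (nat_lit 447993396901) (nat_lit 76) (nat_lit 430718239965) (nat_lit 1) (nat_lit 4) (nat_lit 2) (nat_lit 5) (nat_lit 2) (nat_lit 4) (nat_lit 319) (nat_lit 262) (nat_lit 199)))) (XT.nd (nat_lit 78) (nat_lit 0) (nat_lit 0) (XT.lf (nat_lit 0) (nat_lit 3460891137581) (nat_lit 76) (nat_lit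 487286335795) (nat_lit 76) (nat_lit 470010840860) (nat_lit 1) (nat_lit 4) (nat_lit 2) (nat_lit 5) (nat_lit 2) (nat_lit 4) (nat_lit 320) (nat_lit 262) (nat_lit 198)) (XT.nd (nat_lit 78) (nat_lit 0) (nat_lit 0) (XT.lf (nat_lit 0) (nat_lit 4031170659999) (nat_lit 76) (nat_lit 532474141108) (nat_lit 76) (nat_lit 515198352260) (nat_lit 1) (nat_lit 4) (nat_lit 2) (nat_lit 5) (nat_lit 2) (nat_lit 4) (nat_lit 321) (nat_lit 262) (nat_lit 197)) (XT.lf (nat_lit 0) (nat_lit 4686990484571) (nat_lit 76) (nat_lit 584440922075) (nat_lit 76) (nat_lit 567164877650) (nat_lit 1) (nat_lit 4) (nat_lit 2) (nat_lit 5) (nat_lit 2) (nat_lit 4) (nat_lit 322) (nat_lit 262) (nat_lit 196)))))) (XT.nd (nat_lit 36114) (nat_lit 0) (nat_lit 2964) (XT.nd (nat_lit 234) (nat_lit 0) (nat_lit 0) (XT.nd (nat_lit 78) (nat_lit 0) (nat_lit 0) (XT.lf (nat_lit 0) (nat_lit 5441181868731) (nat_lit 76) (nat_lit 644203420061) (nat_lit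 76) (nat_lit 626927153395) (nat_lit 1) (nat_lit 4) (nat_lit 2) (nat_lit 5) (nat_lit 2) (nat_lit 4) (nat_lit 323) (nat_lit 262) (nat_lit 195)) (XT.nd (nat_lit 78) (nat_lit 0) (nat_lit 0) (XT.lf (nat_lit 0) (nat_lit 6308500730867) (nat_lit 76) (nat_lit 712930901332) (nat_lit 76) (nat_lit 695654441414) (nat_lit 1) (nat_lit 4) (nat_lit 2) (nat_lit 5) (nat_lit 2) (nat_lit 4) (nat_lit 324) (nat_lit 262) (nat_lit 194)) (XT.lf (nat_lit 0) (nat_lit 7305916353063) (nat_lit 76) (nat_lit 791968033999) (nat_lit 76) (nat_lit 774691406036) (nat_lit 1) (nat_lit 4) (nat_lit 2) (nat_lit 5) (nat_lit 2) (nat_lit 4) (nat_lit 325) (nat_lit 262) (nat_lit 193)))) (XT.nd (nat_lit 35724) (nat_lit 0) (nat_lit 4332) (XT.lf (nat_lit 0) (nat_lit 8452943388798) (nat_lit 76) (nat_lit 882861196746) (nat_lit 76) (nat_lit 865584422656) (nat_lit 1) (nat_lit 4) (nat_lit 2) (nat_lit 5) (nat_lit 2) (nat_lit 4) (nat_lit 326)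 (nat_lit 262) (nat_lit 192)) (XT.nd (nat_lit 78) (nat_lit 380) (nat_lit 0) (XT.lf (nat_lit 0) (nat_lit 2417993534) (nat_lit 380) (nat_lit 617003447) (nat_lit 380) (nat_lit 617003447) (nat_lit 63) (nat_lit 3) (nat_lit 68) (nat_lit 3) (nat_lit 68) (nat_lit 5) (nat_lit 263) (nat_lit 263) (nat_lit 254)) (XT.lf (nat_lit 0) (nat_lit 294945786) (nat_lit 380) (nat_lit 2170224766) (nat_lit 456) (nat_lit 5159918680) (nat_lit 58) (nat_lit 5) (nat_lit 63) (nat_lit 3) (nat_lit 64) (nat_lit 5) (nat_lit 264) (nat_lit 263) (nat_lit 253))))) (XT.nd (nat_lit 234) (nat_lit 1064) (nat_lit 0) (XT.nd (nat_lit 78) (nat_lit 380) (nat_lit 0) (XT.lf (nat_lit 0) (nat_lit 3057697274) (nat_lit 380) (nat_lit 2940427751) (nat_lit 456) (nat_lit 2013742142) (nat_lit 59) (nat_lit 5) (nat_lit 64) (nat_lit 5) (nat_lit 65) (nat_lit 5) (nat_lit 265) (nat_lit 263) (nat_lit 252)) (XT.nd (nat_lit 78) (nat_lit 380) (nat_lit 0)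 (XT.lf (nat_lit 76) (nat_lit 4951544292) (nat_lit 0) (nat_lit 1112162294) (nat_lit 456) (nat_lit 2407667768) (nat_lit 60) (nat_lit 5) (nat_lit 59) (nat_lit 5) (nat_lit 65) (nat_lit 5) (nat_lit 266) (nat_lit 263) (nat_lit 251)) (XT.lf (nat_lit 0) (nat_lit 437465951) (nat_lit 456) (nat_lit 3974979479) (nat_lit 76) (nat_lit 4591764802) (nat_lit 54) (nat_lit 5) (nat_lit 60) (nat_lit 5) (nat_lit 55) (nat_lit 5) (nat_lit 267) (nat_lit 263) (nat_lit 250)))) (XT.nd (nat_lit 78) (nat_lit 608) (nat_lit 0) (XT.lf (nat_lit 0) (nat_lit 3538813568) (nat_lit 532) (nat_lit 4335973017) (nat_lit 76) (nat_lit 1740135844) (nat_lit 48) (nat_lit 5) (nat_lit 55) (nat_lit 5) (nat_lit 49) (nat_lit 5) (nat_lit 268) (nat_lit 263) (nat_lit 249)) (XT.nd (nat_lit 78) (nat_lit 304) (nat_lit 0) (XT.lf (nat_lit 0) (nat_lit 5709770407) (nat_lit 304) (nat_lit 1471789364) (nat_lit 380) (nat_lit 3130207063) (nat_lit 44) (nat_lit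 5) (nat_lit 48) (nat_lit 5) (nat_lit 49) (nat_lit 5) (nat_lit 269) (nat_lit 263) (nat_lit 248)) (XT.lf (nat_lit 0) (nat_lit 401219014) (nat_lit 304) (nat_lit 4820532867) (nat_lit 76) (nat_lit 5878868570) (nat_lit 40) (nat_lit 5) (nat_lit 44) (nat_lit 5) (nat_lit 41) (nat_lit 5) (nat_lit 270) (nat_lit 263) (nat_lit 247))))))) (XT.nd (nat_lit 936) (nat_lit 836) (nat_lit 0) (XT.nd (nat_lit 468) (nat_lit 684) (nat_lit 0) (XT.nd (nat_lit 234) (nat_lit 532) (nat_lit 0) (XT.nd (nat_lit 78) (nat_lit 456) (nat_lit 0) (XT.lf (nat_lit 0) (nat_lit 4444506271) (nat_lit 304) (nat_lit 5049298439) (nat_lit 76) (nat_lit 2494528686) (nat_lit 37) (nat_lit 5) (nat_lit 41) (nat_lit 5) (nat_lit 38) (nat_lit 5) (nat_lit 271) (nat_lit 263) (nat_lit 246)) (XT.nd (nat_lit 78) (nat_lit 304) (nat_lit 0) (XT.lf (nat_lit 0) (nat_lit 7712972273) (nat_lit 152) (nat_lit 1632520692) (nat_lit 228) (nat_lit 3643991936) (nat_lit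 35) (nat_lit 5) (nat_lit 37) (nat_lit 5) (nat_lit 38) (nat_lit 5) (nat_lit 272) (nat_lit 263) (nat_lit 245)) (XT.lf (nat_lit 0) (nat_lit 1140216106) (nat_lit 304) (nat_lit 5604266721) (nat_lit 76) (nat_lit 7367696323) (nat_lit 31) (nat_lit 5) (nat_lit 35) (nat_lit 5) (nat_lit 32) (nat_lit 5) (nat_lit 273) (nat_lit 263) (nat_lit 244)))) (XT.nd (nat_lit 78) (nat_lit 380) (nat_lit 0) (XT.lf (nat_lit 0) (nat_lit 6738304186) (nat_lit 228) (nat_lit 6093646735) (nat_lit 76) (nat_lit 2539058317) (nat_lit 29) (nat_lit 5) (nat_lit 32) (nat_lit 5) (nat_lit 30) (nat_lit 5) (nat_lit 274) (nat_lit 263) (nat_lit 243)) (XT.nd (nat_lit 78) (nat_lit 228) (nat_lit 0) (XT.lf (nat_lit 0) (nat_lit 9984305687) (nat_lit 152) (nat_lit 3616765686) (nat_lit 228) (nat_lit 3183825404) (nat_lit 27) (nat_lit 5) (nat_lit 29) (nat_lit 5) (nat_lit 30) (nat_lit 5) (nat_lit 275) (nat_lit 263) (nat_lit 242)) (XT.lf (nat_lit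 0) (nat_lit 3389285076) (nat_lit 228) (nat_lit 7897537212) (nat_lit 76) (nat_lit 7081412609) (nat_lit 24) (nat_lit 5) (nat_lit 27) (nat_lit 5) (nat_lit 25) (nat_lit 5) (nat_lit 276) (nat_lit 263) (nat_lit 241))))) (XT.nd (nat_lit 234) (nat_lit 228) (nat_lit 0) (XT.nd (nat_lit 78) (nat_lit 304) (nat_lit 0) (XT.lf (nat_lit 0) (nat_lit 10686270569) (nat_lit 152) (nat_lit 495841449) (nat_lit 228) (nat_lit 8966725721) (nat_lit 22) (nat_lit 5) (nat_lit 24) (nat_lit 5) (nat_lit 25) (nat_lit 5) (nat_lit 277) (nat_lit 263) (nat_lit 240)) (XT.nd (nat_lit 78) (nat_lit 228) (nat_lit 0) (XT.lf (nat_lit 0) (nat_lit 10368101061) (nat_lit 76) (nat_lit 10416116783) (nat_lit 152) (nat_lit 1361224930) (nat_lit 21) (nat_lit 5) (nat_lit 22) (nat_lit 5) (nat_lit 23) (nat_lit 4) (nat_lit 278) (nat_lit 263) (nat_lit 239)) (XT.lf (nat_lit 0) (nat_lit 7463304152) (nat_lit 228) (nat_lit 15048769992) (nat_lit 76)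 (nat_lit 1879557449) (nat_lit 18) (nat_lit 5) (nat_lit 21) (nat_lit 5) (nat_lit 19) (nat_lit 4) (nat_lit 279) (nat_lit 263) (nat_lit 238)))) (XT.nd (nat_lit 78) (nat_lit 152) (nat_lit 0) (XT.lf (nat_lit 0) (nat_lit 7230059465) (nat_lit 76) (nat_lit 11004284019) (nat_lit 152) (nat_lit 8681400410) (nat_lit 17) (nat_lit 5) (nat_lit 18) (nat_lit 5) (nat_lit 19) (nat_lit 4) (nat_lit 280) (nat_lit 263) (nat_lit 237)) (XT.nd (nat_lit 78) (nat_lit 0) (nat_lit 0) (XT.lf (nat_lit 0) (nat_lit 1268697922) (nat_lit 152) (nat_lit 25885193334) (nat_lit 76) (nat_lit 2622614268) (nat_lit 15) (nat_lit 5) (nat_lit 17) (nat_lit 5) (nat_lit 16) (nat_lit 4) (nat_lit 281) (nat_lit 263) (nat_lit 236)) (XT.lf (nat_lit 0) (nat_lit 13007235794) (nat_lit 152) (nat_lit 1556503828) (nat_lit 76) (nat_lit 18419874358) (nat_lit 15) (nat_lit 5) (nat_lit 17) (nat_lit 5) (nat_lit 16) (nat_lit 4) (nat_lit 282) (nat_lit 263)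 (nat_lit 235)))))) (XT.nd (nat_lit 468) (nat_lit 304) (nat_lit 0) (XT.nd (nat_lit 234) (nat_lit 228) (nat_lit 0) (XT.nd (nat_lit 78) (nat_lit 228) (nat_lit 0) (XT.lf (nat_lit 0) (nat_lit 27100893763) (nat_lit 152) (nat_lit 8985119794) (nat_lit 0) (nat_lit 538287733) (nat_lit 14) (nat_lit 5) (nat_lit 16) (nat_lit 4) (nat_lit 14) (nat_lit 4) (nat_lit 283) (nat_lit 263) (nat_lit 234)) (XT.nd (nat_lit 78) (nat_lit 76) (nat_lit 0) (XT.lf (nat_lit 0) (nat_lit 3271580519) (nat_lit 152) (nat_lit 19818958673) (nat_lit 76) (nat_lit 17643874811) (nat_lit 12) (nat_lit 5) (nat_lit 14) (nat_lit 5) (nat_lit 13) (nat_lit 4) (nat_lit 284) (nat_lit 263) (nat_lit 233)) (XT.lf (nat_lit 0) (nat_lit 10526846501) (nat_lit 76) (nat_lit 7359665486) (nat_lit 152) (nat_lit 27517617585) (nat_lit 11) (nat_lit 5) (nat_lit 12) (nat_lit 5) (nat_lit 13) (nat_lit 4) (nat_lit 285) (nat_lit 263) (nat_lit 232)))) (XT.nd (nat_lit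 78) (nat_lit 228) (nat_lit 0) (XT.lf (nat_lit 0) (nat_lit 35475942639) (nat_lit 152) (nat_lit 4503766115) (nat_lit 0) (nat_lit 10732049338) (nat_lit 11) (nat_lit 5) (nat_lit 13) (nat_lit 4) (nat_lit 11) (nat_lit 4) (nat_lit 286) (nat_lit 263) (nat_lit 231)) (XT.nd (nat_lit 78) (nat_lit 152) (nat_lit 0) (XT.lf (nat_lit 0) (nat_lit 31697190533) (nat_lit 76) (nat_lit 24913498438) (nat_lit 76) (nat_lit 132321457) (nat_lit 10) (nat_lit 4) (nat_lit 11) (nat_lit 5) (nat_lit 11) (nat_lit 4) (nat_lit 287) (nat_lit 263) (nat_lit 230)) (XT.lf (nat_lit 0) (nat_lit 9905928725) (nat_lit 76) (nat_lit 6786151225) (nat_lit 152) (nat_lit 46928322077) (nat_lit 8) (nat_lit 5) (nat_lit 9) (nat_lit 5) (nat_lit 10) (nat_lit 4) (nat_lit 288) (nat_lit 263) (nat_lit 229))))) (XT.nd (nat_lit 234) (nat_lit 228) (nat_lit 0) (XT.nd (nat_lit 78) (nat_lit 76) (nat_lit 0) (XT.lf (nat_lit 0) (nat_lit 37067479358) (nat_lit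 152) (nat_lit 20313033867) (nat_lit 0) (nat_lit 14065822514) (nat_lit 8) (nat_lit 5) (nat_lit 10) (nat_lit 4) (nat_lit 8) (nat_lit 4) (nat_lit 289) (nat_lit 263) (nat_lit 228)) (XT.nd (nat_lit 78) (nat_lit 0) (nat_lit 0) (XT.lf (nat_lit 0) (nat_lit 18764062056) (nat_lit 76) (nat_lit 42329462696) (nat_lit 76) (nat_lit 19305107125) (nat_lit 7) (nat_lit 4) (nat_lit 8) (nat_lit 5) (nat_lit 8) (nat_lit 4) (nat_lit 290) (nat_lit 263) (nat_lit 227)) (XT.lf (nat_lit 0) (nat_lit 64854531668) (nat_lit 76) (nat_lit 24419647465) (nat_lit 76) (nat_lit 1375553870) (nat_lit 7) (nat_lit 4) (nat_lit 8) (nat_lit 5) (nat_lit 8) (nat_lit 4) (nat_lit 291) (nat_lit 263) (nat_lit 226)))) (XT.nd (nat_lit 156) (nat_lit 76) (nat_lit 0) (XT.nd (nat_lit 78) (nat_lit 0) (nat_lit 0) (XT.lf (nat_lit 0) (nat_lit 15671203635) (nat_lit 76) (nat_lit 2950171714) (nat_lit 152) (nat_lit 83752866838) (nat_lit 5) (nat_lit 5)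 (nat_lit 6) (nat_lit 5) (nat_lit 7) (nat_lit 4) (nat_lit 292) (nat_lit 263) (nat_lit 225)) (XT.lf (nat_lit 0) (nat_lit 42798194355) (nat_lit 152) (nat_lit 51524083652) (nat_lit 0) (nat_lit 21431359286) (nat_lit 5) (nat_lit 5) (nat_lit 7) (nat_lit 4) (nat_lit 5) (nat_lit 4) (nat_lit 293) (nat_lit 263) (nat_lit 224))) (XT.nd (nat_lit 78) (nat_lit 76) (nat_lit 0) (XT.lf (nat_lit 0) (nat_lit 70653683589) (nat_lit 152) (nat_lit 11207264693) (nat_lit 0) (nat_lit 49274831788) (nat_lit 5) (nat_lit 5) (nat_lit 7) (nat_lit 4) (nat_lit 5) (nat_lit 4) (nat_lit 294) (nat_lit 263) (nat_lit 223)) (XT.lf (nat_lit 0) (nat_lit 36955859098) (nat_lit 76) (nat_lit 66594820255) (nat_lit 76) (nat_lit 45205519122) (nat_lit 4) (nat_lit 4) (nat_lit 5) (nat_lit 5) (nat_lit 5) (nat_lit 4) (nat_lit 295) (nat_lit 263) (nat_lit 222))))))))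
noncomputable def xc28 : XT := (XT.nd (nat_lit 1872) (nat_lit 0) (nat_lit 0) (XT.nd (nat_lit 936) (nat_lit 0) (nat_lit 0) (XT.nd (nat_lit 468) (nat_lit 76) (nat_lit 0) (XT.nd (nat_lit 234) (nat_lit 0) (nat_lit 0) (XT.nd (nat_lit 78) (nat_lit 152) (nat_lit 0) (XT.lf (nat_lit 0) (nat_lit 92976453370) (nat_lit 76) (nat_lit 48708693835) (nat_lit 76) (nat_lit 27310306326) (nat_lit 4) (nat_lit 4) (nat_lit 5) (nat_lit 5) (nat_lit 5) (nat_lit 4) (nat_lit 296) (nat_lit 263) (nat_lit 221)) (XT.nd (nat_lit 78) (nat_lit 152) (nat_lit 0) (XT.lf (nat_lit 0) (nat_lit 157360418530) (nat_lit 76) (nat_lit 28159049547) (nat_lit 76) (nat_lit 6752760841) (nat_lit 4) (nat_lit 4) (nat_lit 5) (nat_lit 5) (nat_lit 5) (nat_lit 4) (nat_lit 297) (nat_lit 263) (nat_lit 220)) (XT.lf (nat_lit 0) (nat_lit 12547468434) (nat_lit 76) (nat_lit 3779756443) (nat_lit 152) (nat_lit 202658116957) (nat_lit 2) (nat_lit 5) (nat_lit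 3) (nat_lit 5) (nat_lit 4) (nat_lit 4) (nat_lit 298) (nat_lit 263) (nat_lit 219)))) (XT.nd (nat_lit 78) (nat_lit 0) (nat_lit 0) (XT.lf (nat_lit 0) (nat_lit 44089994519) (nat_lit 152) (nat_lit 181214286893) (nat_lit 0) (nat_lit 24257463267) (nat_lit 2) (nat_lit 5) (nat_lit 4) (nat_lit 4) (nat_lit 2) (nat_lit 4) (nat_lit 299) (nat_lit 263) (nat_lit 218)) (XT.nd (nat_lit 78) (nat_lit 0) (nat_lit 0) (XT.lf (nat_lit 0) (nat_lit 76106995304) (nat_lit 152) (nat_lit 152340777757) (nat_lit 0) (nat_lit 56269653715) (nat_lit 2) (nat_lit 5) (nat_lit 4) (nat_lit 4) (nat_lit 2) (nat_lit 4) (nat_lit 300) (nat_lit 263) (nat_lit 217)) (XT.lf (nat_lit 0) (nat_lit 112913743581) (nat_lit 152) (nat_lit 119161526275) (nat_lit 0) (nat_lit 93072219090) (nat_lit 2) (nat_lit 5) (nat_lit 4) (nat_lit 4) (nat_lit 2) (nat_lit 4) (nat_lit 301) (nat_lit 263) (nat_lit 216))))) (XT.nd (nat_lit 234) (nat_lit 0) (nat_lit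 0) (XT.nd (nat_lit 78) (nat_lit 76) (nat_lit 0) (XT.lf (nat_lit 0) (nat_lit 155230371381) (nat_lit 152) (nat_lit 81027373179) (nat_lit 0) (nat_lit 135385209583) (nat_lit 2) (nat_lit 5) (nat_lit 4) (nat_lit 4) (nat_lit 2) (nat_lit 4) (nat_lit 302) (nat_lit 263) (nat_lit 215)) (XT.nd (nat_lit 78) (nat_lit 76) (nat_lit 0) (XT.lf (nat_lit 0) (nat_lit 203884812727) (nat_lit 152) (nat_lit 37192215474) (nat_lit 0) (nat_lit 184036488053) (nat_lit 2) (nat_lit 5) (nat_lit 4) (nat_lit 4) (nat_lit 2) (nat_lit 4) (nat_lit 303) (nat_lit 263) (nat_lit 214)) (XT.lf (nat_lit 0) (nat_lit 13896763628) (nat_lit 76) (nat_lit 246266456210) (nat_lit 76) (nat_lit 226415381211) (nat_lit 1) (nat_lit 4) (nat_lit 2) (nat_lit 5) (nat_lit 2) (nat_lit 4) (nat_lit 304) (nat_lit 263) (nat_lit 213)))) (XT.nd (nat_lit 78) (nat_lit 0) (nat_lit 0) (XT.lf (nat_lit 0) (nat_lit 74886119713) (nat_lit 76) (nat_lit 251072393716)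 (nat_lit 76) (nat_lit 231218927128) (nat_lit 1) (nat_lit 4) (nat_lit 2) (nat_lit 5) (nat_lit 2) (nat_lit 4) (nat_lit 305) (nat_lit 263) (nat_lit 212)) (XT.nd (nat_lit 78) (nat_lit 0) (nat_lit 0) (XT.lf (nat_lit 0) (nat_lit 145010646636) (nat_lit 76) (nat_lit 256605771012) (nat_lit 76) (nat_lit 236750224783) (nat_lit 1) (nat_lit 4) (nat_lit 2) (nat_lit 5) (nat_lit 2) (nat_lit 4) (nat_lit 306) (nat_lit 263) (nat_lit 211)) (XT.lf (nat_lit 0) (nat_lit 225642346009) (nat_lit 76) (nat_lit 262974849829) (nat_lit 76) (nat_lit 243117495215) (nat_lit 1) (nat_lit 4) (nat_lit 2) (nat_lit 5) (nat_lit 2) (nat_lit 4) (nat_lit 307) (nat_lit 263) (nat_lit 210)))))) (XT.nd (nat_lit 468) (nat_lit 0) (nat_lit 0) (XT.nd (nat_lit 234) (nat_lit 0) (nat_lit 0) (XT.nd (nat_lit 78) (nat_lit 0) (nat_lit 0) (XT.lf (nat_lit 0) (nat_lit 318358794560) (nat_lit 76) (nat_lit 270304242576) (nat_lit 76) (nat_lit 250445315454)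 (nat_lit 1) (nat_lit 4) (nat_lit 2) (nat_lit 5) (nat_lit 2) (nat_lit 4) (nat_lit 308) (nat_lit 263) (nat_lit 209)) (XT.nd (nat_lit 78) (nat_lit 0) (nat_lit 0) (XT.lf (nat_lit 0) (nat_lit 424974009759) (nat_lit 76) (nat_lit 278737350418) (nat_lit 76) (nat_lit 258877055898) (nat_lit 1) (nat_lit 4) (nat_lit 2) (nat_lit 5) (nat_lit 2) (nat_lit 4) (nat_lit 309) (nat_lit 263) (nat_lit 208)) (XT.lf (nat_lit 0) (nat_lit 547573941471) (nat_lit 76) (nat_lit 288439168941) (nat_lit 76) (nat_lit 268577685379) (nat_lit 1) (nat_lit 4) (nat_lit 2) (nat_lit 5) (nat_lit 2) (nat_lit 4) (nat_lit 310) (nat_lit 263) (nat_lit 207)))) (XT.nd (nat_lit 78) (nat_lit 0) (nat_lit 0) (XT.lf (nat_lit 0) (nat_lit 688557284010) (nat_lit 76) (nat_lit 299599516336) (nat_lit 76) (nat_lit 279736998824) (nat_lit 1) (nat_lit 4) (nat_lit 2) (nat_lit 5) (nat_lit 2) (nat_lit 4) (nat_lit 311) (nat_lit 263) (nat_lit 206)) (XT.nd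 (nat_lit 78) (nat_lit 0) (nat_lit 0) (XT.lf (nat_lit 0) (nat_lit 850682407122) (nat_lit 76) (nat_lit 312436747224) (nat_lit 76) (nat_lit 292573330626) (nat_lit 1) (nat_lit 4) (nat_lit 2) (nat_lit 5) (nat_lit 2) (nat_lit 4) (nat_lit 312) (nat_lit 263) (nat_lit 205)) (XT.lf (nat_lit 0) (nat_lit 1037121324085) (nat_lit 76) (nat_lit 327202024819) (nat_lit 76) (nat_lit 307337826406) (nat_lit 1) (nat_lit 4) (nat_lit 2) (nat_lit 5) (nat_lit 2) (nat_lit 4) (nat_lit 313) (nat_lit 263) (nat_lit 204))))) (XT.nd (nat_lit 234) (nat_lit 0) (nat_lit 0) (XT.nd (nat_lit 78) (nat_lit 0) (nat_lit 0) (XT.lf (nat_lit 0) (nat_lit 1251521752841) (nat_lit 76) (nat_lit 344184234986) (nat_lit 76) (nat_lit 324319356735) (nat_lit 1) (nat_lit 4) (nat_lit 2) (nat_lit 5) (nat_lit 2) (nat_lit 4) (nat_lit 314) (nat_lit 263) (nat_lit 203)) (XT.nd (nat_lit 78) (nat_lit 0) (nat_lit 0) (XT.lf (nat_lit 0) (nat_lit 1498078484386)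 (nat_lit 76) (nat_lit 363715638359) (nat_lit 76) (nat_lit 343850168944) (nat_lit 1) (nat_lit 4) (nat_lit 2) (nat_lit 5) (nat_lit 2) (nat_lit 4) (nat_lit 315) (nat_lit 263) (nat_lit 202)) (XT.lf (nat_lit 0) (nat_lit 1781615454772) (nat_lit 76) (nat_lit 386178371092) (nat_lit 76) (nat_lit 366312387622) (nat_lit 1) (nat_lit 4) (nat_lit 2) (nat_lit 5) (nat_lit 2) (nat_lit 4) (nat_lit 316) (nat_lit 263) (nat_lit 201)))) (XT.nd (nat_lit 78) (nat_lit 0) (nat_lit 0) (XT.lf (nat_lit 0) (nat_lit 2107680126463) (nat_lit 76) (nat_lit 412011921434) (nat_lit 76) (nat_lit 392145490958) (nat_lit 1) (nat_lit 4) (nat_lit 2) (nat_lit 5) (nat_lit 2) (nat_lit 4) (nat_lit 317) (nat_lit 263) (nat_lit 200)) (XT.nd (nat_lit 78) (nat_lit 0) (nat_lit 0) (XT.lf (nat_lit 0) (nat_lit 2482652025645) (nat_lit 76) (nat_lit 441721728412) (nat_lit 76) (nat_lit 421854909236) (nat_lit 1) (nat_lit 4) (nat_lit 2) (nat_lit 5)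 (nat_lit 2) (nat_lit 4) (nat_lit 318) (nat_lit 263) (nat_lit 199)) (XT.lf (nat_lit 0) (nat_lit 2913867559041) (nat_lit 76) (nat_lit 475889070859) (nat_lit 76) (nat_lit 456021913683) (nat_lit 1) (nat_lit 4) (nat_lit 2) (nat_lit 5) (nat_lit 2) (nat_lit 4) (nat_lit 319) (nat_lit 263) (nat_lit 198))))))) (XT.nd (nat_lit 36660) (nat_lit 0) (nat_lit 1216) (XT.nd (nat_lit 468) (nat_lit 0) (nat_lit 0) (XT.nd (nat_lit 234) (nat_lit 0) (nat_lit 0) (XT.nd (nat_lit 78) (nat_lit 0) (nat_lit 0) (XT.lf (nat_lit 0) (nat_lit 3409763552304) (nat_lit 76) (nat_lit 515182440258) (nat_lit 76) (nat_lit 495314989169) (nat_lit 1) (nat_lit 4) (nat_lit 2) (nat_lit 5) (nat_lit 2) (nat_lit 4) (nat_lit 320) (nat_lit 263) (nat_lit 197)) (XT.nd (nat_lit 78) (nat_lit 0) (nat_lit 0) (XT.lf (nat_lit 0) (nat_lit 3980042318346) (nat_lit 76) (nat_lit 560370619923) (nat_lit 76) (nat_lit 540502913257) (nat_lit 1) (nat_lit 4)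 (nat_lit 2) (nat_lit 5) (nat_lit 2) (nat_lit 4) (nat_lit 321) (nat_lit 263) (nat_lit 196)) (XT.lf (nat_lit 0) (nat_lit 4635861485198) (nat_lit 76) (nat_lit 612337726412) (nat_lit 76) (nat_lit 592469797506) (nat_lit 1) (nat_lit 4) (nat_lit 2) (nat_lit 5) (nat_lit 2) (nat_lit 4) (nat_lit 322) (nat_lit 263) (nat_lit 195)))) (XT.nd (nat_lit 78) (nat_lit 0) (nat_lit 0) (XT.lf (nat_lit 0) (nat_lit 5390052297429) (nat_lit 76) (nat_lit 672100507462) (nat_lit 76) (nat_lit 652232385304) (nat_lit 1) (nat_lit 4) (nat_lit 2) (nat_lit 5) (nat_lit 2) (nat_lit 4) (nat_lit 323) (nat_lit 263) (nat_lit 194)) (XT.nd (nat_lit 78) (nat_lit 0) (nat_lit 0) (XT.lf (nat_lit 0) (nat_lit 6257370662235) (nat_lit 76) (nat_lit 740828234875) (nat_lit 76) (nat_lit 720959944671) (nat_lit 1) (nat_lit 4) (nat_lit 2) (nat_lit 5) (nat_lit 2) (nat_lit 4) (nat_lit 324) (nat_lit 263) (nat_lit 193)) (XT.lf (nat_lit 0) (nat_lit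 7254785851970) (nat_lit 76) (nat_lit 819865581579) (nat_lit 76) (nat_lit 799997145249) (nat_lit 1) (nat_lit 4) (nat_lit 2) (nat_lit 5) (nat_lit 2) (nat_lit 4) (nat_lit 325) (nat_lit 263) (nat_lit 192))))) (XT.nd (nat_lit 35958) (nat_lit 0) (nat_lit 3952) (XT.nd (nat_lit 35802) (nat_lit 0) (nat_lit 4332) (XT.lf (nat_lit 0) (nat_lit 8401812511651) (nat_lit 76) (nat_lit 910758930445) (nat_lit 76) (nat_lit 890890367048) (nat_lit 1) (nat_lit 4) (nat_lit 2) (nat_lit 5) (nat_lit 2) (nat_lit 4) (nat_lit 326) (nat_lit 263) (nat_lit 191)) (XT.nd (nat_lit 78) (nat_lit 0) (nat_lit 0) (XT.lf (nat_lit 0) (nat_lit 626599325) (nat_lit 0) (nat_lit 626599325) (nat_lit 380) (nat_lit 2734910678) (nat_lit 58) (nat_lit 5) (nat_lit 58) (nat_lit 3) (nat_lit 63) (nat_lit 3) (nat_lit 264) (nat_lit 264) (nat_lit 252)) (XT.lf (nat_lit 76) (nat_lit 241759567) (nat_lit 0) (nat_lit 4633115975) (nat_lit 456) (nat_lit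 3520137410) (nat_lit 59) (nat_lit 5) (nat_lit 58) (nat_lit 5) (nat_lit 64) (nat_lit 5) (nat_lit 265) (nat_lit 264) (nat_lit 251)))) (XT.nd (nat_lit 78) (nat_lit 456) (nat_lit 0) (XT.lf (nat_lit 0) (nat_lit 7479192523) (nat_lit 380) (nat_lit 521109717) (nat_lit 456) (nat_lit 886765893) (nat_lit 59) (nat_lit 5) (nat_lit 64) (nat_lit 5) (nat_lit 65) (nat_lit 5) (nat_lit 266) (nat_lit 264) (nat_lit 250)) (XT.nd (nat_lit 78) (nat_lit 0) (nat_lit 76) (XT.lf (nat_lit 0) (nat_lit 977638474) (nat_lit 456) (nat_lit 1165270441) (nat_lit 532) (nat_lit 7308172183) (nat_lit 53) (nat_lit 5) (nat_lit 59) (nat_lit 5) (nat_lit 60) (nat_lit 5) (nat_lit 267) (nat_lit 264) (nat_lit 249)) (XT.lf (nat_lit 0) (nat_lit 3687470701) (nat_lit 456) (nat_lit 1716050343) (nat_lit 76) (nat_lit 4689882364) (nat_lit 54) (nat_lit 5) (nat_lit 60) (nat_lit 5) (nat_lit 55) (nat_lit 5) (nat_lit 268) (nat_lit 264) (nat_lit 248))))))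 (XT.nd (nat_lit 468) (nat_lit 1064) (nat_lit 0) (XT.nd (nat_lit 234) (nat_lit 684) (nat_lit 0) (XT.nd (nat_lit 78) (nat_lit 608) (nat_lit 0) (XT.lf (nat_lit 0) (nat_lit 6896268469) (nat_lit 532) (nat_lit 2135251087) (nat_lit 76) (nat_lit 1793695330) (nat_lit 48) (nat_lit 5) (nat_lit 55) (nat_lit 5) (nat_lit 49) (nat_lit 5) (nat_lit 269) (nat_lit 264) (nat_lit 247)) (XT.nd (nat_lit 78) (nat_lit 304) (nat_lit 0) (XT.lf (nat_lit 0) (nat_lit 9176020922) (nat_lit 304) (nat_lit 1603479827) (nat_lit 380) (nat_lit 872317784) (nat_lit 44) (nat_lit 5) (nat_lit 48) (nat_lit 5) (nat_lit 49) (nat_lit 5) (nat_lit 270) (nat_lit 264) (nat_lit 246)) (XT.lf (nat_lit 0) (nat_lit 2779907825) (nat_lit 304) (nat_lit 2841318175) (nat_lit 76) (nat_lit 6954935574) (nat_lit 40) (nat_lit 5) (nat_lit 44) (nat_lit 5) (nat_lit 41) (nat_lit 5) (nat_lit 271) (nat_lit 264) (nat_lit 245)))) (XT.nd (nat_lit 78) (nat_lit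 456) (nat_lit 0) (XT.lf (nat_lit 0) (nat_lit 7196334869) (nat_lit 304) (nat_lit 3173118822) (nat_lit 76) (nat_lit 3246777094) (nat_lit 37) (nat_lit 5) (nat_lit 41) (nat_lit 5) (nat_lit 38) (nat_lit 5) (nat_lit 272) (nat_lit 264) (nat_lit 244)) (XT.nd (nat_lit 78) (nat_lit 304) (nat_lit 0) (XT.lf (nat_lit 0) (nat_lit 11280573543) (nat_lit 152) (nat_lit 1337895912) (nat_lit 228) (nat_lit 2166667363) (nat_lit 35) (nat_lit 5) (nat_lit 37) (nat_lit 5) (nat_lit 38) (nat_lit 5) (nat_lit 273) (nat_lit 264) (nat_lit 243)) (XT.lf (nat_lit 0) (nat_lit 3052323372) (nat_lit 304) (nat_lit 4016177857) (nat_lit 76) (nat_lit 9018740050) (nat_lit 31) (nat_lit 5) (nat_lit 35) (nat_lit 5) (nat_lit 32) (nat_lit 5) (nat_lit 274) (nat_lit 264) (nat_lit 242))))) (XT.nd (nat_lit 234) (nat_lit 532) (nat_lit 0) (XT.nd (nat_lit 78) (nat_lit 380) (nat_lit 0) (XT.lf (nat_lit 0) (nat_lit 9332264434) (nat_lit 228) (nat_lit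 4672763341) (nat_lit 76) (nat_lit 3542820239) (nat_lit 29) (nat_lit 5) (nat_lit 32) (nat_lit 5) (nat_lit 30) (nat_lit 5) (nat_lit 275) (nat_lit 264) (nat_lit 241)) (XT.nd (nat_lit 78) (nat_lit 228) (nat_lit 0) (XT.lf (nat_lit 0) (nat_lit 13619241715) (nat_lit 152) (nat_lit 3450100609) (nat_lit 228) (nat_lit 2117165854) (nat_lit 27) (nat_lit 5) (nat_lit 29) (nat_lit 5) (nat_lit 30) (nat_lit 5) (nat_lit 276) (nat_lit 264) (nat_lit 240)) (XT.lf (nat_lit 0) (nat_lit 5239043544) (nat_lit 228) (nat_lit 6962963786) (nat_lit 76) (nat_lit 8812644450) (nat_lit 24) (nat_lit 5) (nat_lit 27) (nat_lit 5) (nat_lit 25) (nat_lit 5) (nat_lit 277) (nat_lit 264) (nat_lit 239)))) (XT.nd (nat_lit 156) (nat_lit 304) (nat_lit 0) (XT.nd (nat_lit 78) (nat_lit 76) (nat_lit 0) (XT.lf (nat_lit 0) (nat_lit 14076251592) (nat_lit 228) (nat_lit 8847536418) (nat_lit 76) (nat_lit 148717312) (nat_lit 22) (nat_lit 5) (nat_lit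 25) (nat_lit 5) (nat_lit 23) (nat_lit 4) (nat_lit 278) (nat_lit 264) (nat_lit 238)) (XT.lf (nat_lit 0) (nat_lit 13772975932) (nat_lit 76) (nat_lit 11243390704) (nat_lit 152) (nat_lit 360590171) (nat_lit 21) (nat_lit 5) (nat_lit 22) (nat_lit 5) (nat_lit 23) (nat_lit 4) (nat_lit 279) (nat_lit 264) (nat_lit 237))) (XT.nd (nat_lit 78) (nat_lit 76) (nat_lit 0) (XT.lf (nat_lit 0) (nat_lit 9637249726) (nat_lit 228) (nat_lit 15490070984) (nat_lit 76) (nat_lit 2837780871) (nat_lit 18) (nat_lit 5) (nat_lit 21) (nat_lit 5) (nat_lit 19) (nat_lit 4) (nat_lit 280) (nat_lit 264) (nat_lit 236)) (XT.lf (nat_lit 0) (nat_lit 9976866308) (nat_lit 76) (nat_lit 11949520005) (nat_lit 152) (nat_lit 8949368944) (nat_lit 17) (nat_lit 5) (nat_lit 18) (nat_lit 5) (nat_lit 19) (nat_lit 4) (nat_lit 281) (nat_lit 264) (nat_lit 235))))))))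
noncomputable def xc29 : XT := (XT.nd (nat_lit 1872) (nat_lit 0) (nat_lit 0) (XT.nd (nat_lit 936) (nat_lit 304) (nat_lit 0) (XT.nd (nat_lit 468) (nat_lit 456) (nat_lit 0) (XT.nd (nat_lit 234) (nat_lit 228) (nat_lit 0) (XT.nd (nat_lit 78) (nat_lit 76) (nat_lit 0) (XT.lf (nat_lit 0) (nat_lit 2367398514) (nat_lit 152) (nat_lit 28142628011) (nat_lit 76) (nat_lit 3659639905) (nat_lit 15) (nat_lit 5) (nat_lit 17) (nat_lit 5) (nat_lit 16) (nat_lit 4) (nat_lit 282) (nat_lit 264) (nat_lit 234)) (XT.nd (nat_lit 78) (nat_lit 76) (nat_lit 0) (XT.lf (nat_lit 0) (nat_lit 15748230645) (nat_lit 152) (nat_lit 376636512) (nat_lit 76) (nat_lit 21742536813) (nat_lit 15) (nat_lit 5) (nat_lit 17) (nat_lit 5) (nat_lit 16) (nat_lit 4) (nat_lit 283) (nat_lit 264) (nat_lit 233)) (XT.lf (nat_lit 0) (nat_lit 31897865459) (nat_lit 152) (nat_lit 8995097646) (nat_lit 0) (nat_lit 1165949979) (nat_lit 14) (nat_lit 5)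 (nat_lit 16) (nat_lit 4) (nat_lit 14) (nat_lit 4) (nat_lit 284) (nat_lit 264) (nat_lit 232)))) (XT.nd (nat_lit 78) (nat_lit 76) (nat_lit 0) (XT.lf (nat_lit 0) (nat_lit 4445844774) (nat_lit 152) (nat_lit 21530864680) (nat_lit 76) (nat_lit 20812792858) (nat_lit 12) (nat_lit 5) (nat_lit 14) (nat_lit 5) (nat_lit 13) (nat_lit 4) (nat_lit 285) (nat_lit 264) (nat_lit 231)) (XT.nd (nat_lit 78) (nat_lit 0) (nat_lit 0) (XT.lf (nat_lit 0) (nat_lit 13260079167) (nat_lit 76) (nat_lit 7931539752) (nat_lit 152) (nat_lit 30973019142) (nat_lit 11) (nat_lit 5) (nat_lit 12) (nat_lit 5) (nat_lit 13) (nat_lit 4) (nat_lit 286) (nat_lit 264) (nat_lit 230)) (XT.lf (nat_lit 0) (nat_lit 41349444089) (nat_lit 152) (nat_lit 4143226504) (nat_lit 0) (nat_lit 12781386289) (nat_lit 11) (nat_lit 5) (nat_lit 13) (nat_lit 4) (nat_lit 11) (nat_lit 4) (nat_lit 287) (nat_lit 264) (nat_lit 229))))) (XT.nd (nat_lit 234) (nat_lit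 228) (nat_lit 0) (XT.nd (nat_lit 78) (nat_lit 76) (nat_lit 0) (XT.lf (nat_lit 0) (nat_lit 371654369) (nat_lit 152) (nat_lit 27823208530) (nat_lit 76) (nat_lit 37018356495) (nat_lit 9) (nat_lit 5) (nat_lit 11) (nat_lit 5) (nat_lit 10) (nat_lit 4) (nat_lit 288) (nat_lit 264) (nat_lit 228)) (XT.nd (nat_lit 78) (nat_lit 0) (nat_lit 0) (XT.lf (nat_lit 0) (nat_lit 12285044002) (nat_lit 76) (nat_lit 7381209962) (nat_lit 152) (nat_lit 53459372082) (nat_lit 8) (nat_lit 5) (nat_lit 9) (nat_lit 5) (nat_lit 10) (nat_lit 4) (nat_lit 289) (nat_lit 264) (nat_lit 227)) (XT.lf (nat_lit 0) (nat_lit 43045455096) (nat_lit 152) (nat_lit 22559212977) (nat_lit 0) (nat_lit 16525009439) (nat_lit 8) (nat_lit 5) (nat_lit 10) (nat_lit 4) (nat_lit 8) (nat_lit 4) (nat_lit 290) (nat_lit 264) (nat_lit 226)))) (XT.nd (nat_lit 78) (nat_lit 152) (nat_lit 0) (XT.lf (nat_lit 0) (nat_lit 22311665637) (nat_lit 76) (nat_lit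 48326867518) (nat_lit 76) (nat_lit 21789258362) (nat_lit 7) (nat_lit 4) (nat_lit 8) (nat_lit 5) (nat_lit 8) (nat_lit 4) (nat_lit 291) (nat_lit 264) (nat_lit 225)) (XT.nd (nat_lit 78) (nat_lit 152) (nat_lit 0) (XT.lf (nat_lit 0) (nat_lit 75220097742) (nat_lit 76) (nat_lit 27776494948) (nat_lit 76) (nat_lit 1223961011) (nat_lit 7) (nat_lit 4) (nat_lit 8) (nat_lit 5) (nat_lit 8) (nat_lit 4) (nat_lit 292) (nat_lit 264) (nat_lit 224)) (XT.lf (nat_lit 0) (nat_lit 18621823808) (nat_lit 76) (nat_lit 3102856872) (nat_lit 152) (nat_lit 95980780157) (nat_lit 5) (nat_lit 5) (nat_lit 6) (nat_lit 5) (nat_lit 7) (nat_lit 4) (nat_lit 293) (nat_lit 264) (nat_lit 223)))))) (XT.nd (nat_lit 468) (nat_lit 76) (nat_lit 0) (XT.nd (nat_lit 234) (nat_lit 152) (nat_lit 0) (XT.nd (nat_lit 78) (nat_lit 76) (nat_lit 0) (XT.lf (nat_lit 0) (nat_lit 49493636292) (nat_lit 152) (nat_lit 58715403476) (nat_lit 0) (nat_lit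 24885490657) (nat_lit 5) (nat_lit 5) (nat_lit 7) (nat_lit 4) (nat_lit 5) (nat_lit 4) (nat_lit 294) (nat_lit 264) (nat_lit 222)) (XT.nd (nat_lit 78) (nat_lit 76) (nat_lit 0) (XT.lf (nat_lit 0) (nat_lit 81491486374) (nat_lit 152) (nat_lit 12421143332) (nat_lit 0) (nat_lit 56874254363) (nat_lit 5) (nat_lit 5) (nat_lit 7) (nat_lit 4) (nat_lit 5) (nat_lit 4) (nat_lit 295) (nat_lit 264) (nat_lit 221)) (XT.lf (nat_lit 0) (nat_lit 42926901937) (nat_lit 76) (nat_lit 76375143123) (nat_lit 76) (nat_lit 51750009915) (nat_lit 4) (nat_lit 4) (nat_lit 5) (nat_lit 5) (nat_lit 5) (nat_lit 4) (nat_lit 296) (nat_lit 264) (nat_lit 220)))) (XT.nd (nat_lit 78) (nat_lit 152) (nat_lit 0) (XT.lf (nat_lit 0) (nat_lit 107294803093) (nat_lit 76) (nat_lit 55833345588) (nat_lit 76) (nat_lit 31201341774) (nat_lit 4) (nat_lit 4) (nat_lit 5) (nat_lit 5) (nat_lit 5) (nat_lit 4) (nat_lit 297) (nat_lit 264) (nat_lit 219))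 (XT.nd (nat_lit 78) (nat_lit 152) (nat_lit 0) (XT.lf (nat_lit 0) (nat_lit 181287856717) (nat_lit 76) (nat_lit 32224948438) (nat_lit 76) (nat_lit 7586970184) (nat_lit 4) (nat_lit 4) (nat_lit 5) (nat_lit 5) (nat_lit 5) (nat_lit 4) (nat_lit 298) (nat_lit 264) (nat_lit 218)) (XT.lf (nat_lit 0) (nat_lit 14733821087) (nat_lit 76) (nat_lit 4197426271) (nat_lit 152) (nat_lit 232889456716) (nat_lit 2) (nat_lit 5) (nat_lit 3) (nat_lit 5) (nat_lit 4) (nat_lit 4) (nat_lit 299) (nat_lit 264) (nat_lit 217))))) (XT.nd (nat_lit 234) (nat_lit 76) (nat_lit 0) (XT.nd (nat_lit 78) (nat_lit 0) (nat_lit 0) (XT.lf (nat_lit 0) (nat_lit 50841345231) (nat_lit 152) (nat_lit 208124185659) (nat_lit 0) (nat_lit 28019409163) (nat_lit 2) (nat_lit 5) (nat_lit 4) (nat_lit 4) (nat_lit 2) (nat_lit 4) (nat_lit 300) (nat_lit 264) (nat_lit 216)) (XT.nd (nat_lit 78) (nat_lit 0) (nat_lit 0) (XT.lf (nat_lit 0) (nat_lit 87642915500)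 (nat_lit 152) (nat_lit 174955160274) (nat_lit 0) (nat_lit 64817342125) (nat_lit 2) (nat_lit 5) (nat_lit 4) (nat_lit 4) (nat_lit 2) (nat_lit 4) (nat_lit 301) (nat_lit 264) (nat_lit 215)) (XT.lf (nat_lit 0) (nat_lit 129955040683) (nat_lit 152) (nat_lit 136829899436) (nat_lit 0) (nat_lit 107126304434) (nat_lit 2) (nat_lit 5) (nat_lit 4) (nat_lit 4) (nat_lit 2) (nat_lit 4) (nat_lit 302) (nat_lit 264) (nat_lit 214)))) (XT.nd (nat_lit 78) (nat_lit 76) (nat_lit 0) (XT.lf (nat_lit 0) (nat_lit 178605566710) (nat_lit 152) (nat_lit 93002474130) (nat_lit 0) (nat_lit 155774080134) (nat_lit 2) (nat_lit 5) (nat_lit 4) (nat_lit 4) (nat_lit 2) (nat_lit 4) (nat_lit 303) (nat_lit 264) (nat_lit 213)) (XT.nd (nat_lit 78) (nat_lit 76) (nat_lit 0) (XT.lf (nat_lit 0) (nat_lit 234546351698) (nat_lit 152) (nat_lit 42615391251) (nat_lit 0) (nat_lit 211712473534) (nat_lit 2) (nat_lit 5) (nat_lit 4) (nat_lit 4) (nat_lit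 2) (nat_lit 4) (nat_lit 304) (nat_lit 264) (nat_lit 212)) (XT.lf (nat_lit 0) (nat_lit 16123759165) (nat_lit 76) (nat_lit 283135906896) (nat_lit 76) (nat_lit 260299949090) (nat_lit 1) (nat_lit 4) (nat_lit 2) (nat_lit 5) (nat_lit 2) (nat_lit 4) (nat_lit 305) (nat_lit 264) (nat_lit 211))))))) (XT.nd (nat_lit 936) (nat_lit 0) (nat_lit 0) (XT.nd (nat_lit 468) (nat_lit 0) (nat_lit 0) (XT.nd (nat_lit 234) (nat_lit 0) (nat_lit 0) (XT.nd (nat_lit 78) (nat_lit 0) (nat_lit 0) (XT.lf (nat_lit 0) (nat_lit 86242934186) (nat_lit 76) (nat_lit 288671932995) (nat_lit 76) (nat_lit 265834166805) (nat_lit 1) (nat_lit 4) (nat_lit 2) (nat_lit 5) (nat_lit 2) (nat_lit 4) (nat_lit 306) (nat_lit 264) (nat_lit 210)) (XT.nd (nat_lit 78) (nat_lit 0) (nat_lit 0) (XT.lf (nat_lit 0) (nat_lit 166869979732) (nat_lit 76) (nat_lit 295043315118) (nat_lit 76) (nat_lit 272203976420) (nat_lit 1) (nat_lit 4) (nat_lit 2) (nat_lit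 5) (nat_lit 2) (nat_lit 4) (nat_lit 307) (nat_lit 264) (nat_lit 209)) (XT.lf (nat_lit 0) (nat_lit 259582381476) (nat_lit 76) (nat_lit 302374710740) (nat_lit 76) (nat_lit 279534004644) (nat_lit 1) (nat_lit 4) (nat_lit 2) (nat_lit 5) (nat_lit 2) (nat_lit 4) (nat_lit 308) (nat_lit 264) (nat_lit 208)))) (XT.nd (nat_lit 78) (nat_lit 0) (nat_lit 0) (XT.lf (nat_lit 0) (nat_lit 366194077714) (nat_lit 76) (nat_lit 310809560213) (nat_lit 76) (nat_lit 287967665074) (nat_lit 1) (nat_lit 4) (nat_lit 2) (nat_lit 5) (nat_lit 2) (nat_lit 4) (nat_lit 309) (nat_lit 264) (nat_lit 207)) (XT.nd (nat_lit 78) (nat_lit 0) (nat_lit 0) (XT.lf (nat_lit 0) (nat_lit 488790949458) (nat_lit 76) (nat_lit 320512893198) (nat_lit 76) (nat_lit 297669964110) (nat_lit 1) (nat_lit 4) (nat_lit 2) (nat_lit 5) (nat_lit 2) (nat_lit 4) (nat_lit 310) (nat_lit 264) (nat_lit 206)) (XT.lf (nat_lit 0) (nat_lit 629771631157) (nat_lit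 76) (nat_lit 331674557515) (nat_lit 76) (nat_lit 308830729341) (nat_lit 1) (nat_lit 4) (nat_lit 2) (nat_lit 5) (nat_lit 2) (nat_lit 4) (nat_lit 311) (nat_lit 264) (nat_lit 205))))) (XT.nd (nat_lit 234) (nat_lit 0) (nat_lit 0) (XT.nd (nat_lit 78) (nat_lit 0) (nat_lit 0) (XT.lf (nat_lit 0) (nat_lit 791894440494) (nat_lit 76) (nat_lit 344512933554) (nat_lit 76) (nat_lit 321668323565) (nat_lit 1) (nat_lit 4) (nat_lit 2) (nat_lit 5) (nat_lit 2) (nat_lit 4) (nat_lit 312) (nat_lit 264) (nat_lit 204)) (XT.nd (nat_lit 78) (nat_lit 0) (nat_lit 0) (XT.lf (nat_lit 0) (nat_lit 978331345480) (nat_lit 76) (nat_lit 359279206931) (nat_lit 76) (nat_lit 336433917104) (nat_lit 1) (nat_lit 4) (nat_lit 2) (nat_lit 5) (nat_lit 2) (nat_lit 4) (nat_lit 313) (nat_lit 264) (nat_lit 203)) (XT.lf (nat_lit 0) (nat_lit 1192730024689) (nat_lit 76) (nat_lit 376262282997) (nat_lit 76) (nat_lit 353416402006) (nat_lit 1)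 (nat_lit 4) (nat_lit 2) (nat_lit 5) (nat_lit 2) (nat_lit 4) (nat_lit 314) (nat_lit 264) (nat_lit 202)))) (XT.nd (nat_lit 78) (nat_lit 0) (nat_lit 0) (XT.lf (nat_lit 0) (nat_lit 1439285234889) (nat_lit 76) (nat_lit 395794439326) (nat_lit 76) (nat_lit 372948044278) (nat_lit 1) (nat_lit 4) (nat_lit 2) (nat_lit 5) (nat_lit 2) (nat_lit 4) (nat_lit 315) (nat_lit 264) (nat_lit 201)) (XT.nd (nat_lit 78) (nat_lit 0) (nat_lit 0) (XT.lf (nat_lit 0) (nat_lit 1722820882367) (nat_lit 76) (nat_lit 418257826802) (nat_lit 76) (nat_lit 395410984750) (nat_lit 1) (nat_lit 4) (nat_lit 2) (nat_lit 5) (nat_lit 2) (nat_lit 4) (nat_lit 316) (nat_lit 264) (nat_lit 200)) (XT.lf (nat_lit 0) (nat_lit 2048884403704) (nat_lit 76) (nat_lit 444091946485) (nat_lit 76) (nat_lit 421244715733) (nat_lit 1) (nat_lit 4) (nat_lit 2) (nat_lit 5) (nat_lit 2) (nat_lit 4) (nat_lit 317) (nat_lit 264) (nat_lit 199)))))) (XT.nd (nat_lit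 468) (nat_lit 0) (nat_lit 0) (XT.nd (nat_lit 234) (nat_lit 0) (nat_lit 0) (XT.nd (nat_lit 78) (nat_lit 0) (nat_lit 0) (XT.lf (nat_lit 0) (nat_lit 2423855302577) (nat_lit 76) (nat_lit 473802248544) (nat_lit 76) (nat_lit 450954679792) (nat_lit 1) (nat_lit 4) (nat_lit 2) (nat_lit 5) (nat_lit 2) (nat_lit 4) (nat_lit 318) (nat_lit 264) (nat_lit 198)) (XT.nd (nat_lit 78) (nat_lit 0) (nat_lit 0) (XT.lf (nat_lit 0) (nat_lit 2855069966140) (nat_lit 76) (nat_lit 507970021495) (nat_lit 76) (nat_lit 485122158830) (nat_lit 1) (nat_lit 4) (nat_lit 2) (nat_lit 5) (nat_lit 2) (nat_lit 4) (nat_lit 319) (nat_lit 264) (nat_lit 197)) (XT.lf (nat_lit 0) (nat_lit 3350965203026) (nat_lit 76) (nat_lit 547263765246) (nat_lit 76) (nat_lit 524415647004) (nat_lit 1) (nat_lit 4) (nat_lit 2) (nat_lit 5) (nat_lit 2) (nat_lit 4) (nat_lit 320) (nat_lit 264) (nat_lit 196)))) (XT.nd (nat_lit 78) (nat_lit 0) (nat_lit 0)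 (XT.lf (nat_lit 0) (nat_lit 3921243311348) (nat_lit 76) (nat_lit 592452270434) (nat_lit 76) (nat_lit 569603929952) (nat_lit 1) (nat_lit 4) (nat_lit 2) (nat_lit 5) (nat_lit 2) (nat_lit 4) (nat_lit 321) (nat_lit 264) (nat_lit 195)) (XT.nd (nat_lit 78) (nat_lit 0) (nat_lit 0) (XT.lf (nat_lit 0) (nat_lit 4577061906271) (nat_lit 76) (nat_lit 644419659987) (nat_lit 76) (nat_lit 621571126253) (nat_lit 1) (nat_lit 4) (nat_lit 2) (nat_lit 5) (nat_lit 2) (nat_lit 4) (nat_lit 322) (nat_lit 264) (nat_lit 194)) (XT.lf (nat_lit 0) (nat_lit 5331252221171) (nat_lit 76) (nat_lit 704182687179) (nat_lit 76) (nat_lit 681333985399) (nat_lit 1) (nat_lit 4) (nat_lit 2) (nat_lit 5) (nat_lit 2) (nat_lit 4) (nat_lit 323) (nat_lit 264) (nat_lit 193))))) (XT.nd (nat_lit 36036) (nat_lit 0) (nat_lit 3952) (XT.nd (nat_lit 78) (nat_lit 0) (nat_lit 0) (XT.lf (nat_lit 0) (nat_lit 6198570153516) (nat_lit 76) (nat_lit 772910628629)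 (nat_lit 76) (nat_lit 750061780722) (nat_lit 1) (nat_lit 4) (nat_lit 2) (nat_lit 5) (nat_lit 2) (nat_lit 4) (nat_lit 324) (nat_lit 264) (nat_lit 192)) (XT.nd (nat_lit 78) (nat_lit 0) (nat_lit 0) (XT.lf (nat_lit 0) (nat_lit 7195984967198) (nat_lit 76) (nat_lit 851948161452) (nat_lit 76) (nat_lit 829099186479) (nat_lit 1) (nat_lit 4) (nat_lit 2) (nat_lit 5) (nat_lit 2) (nat_lit 4) (nat_lit 325) (nat_lit 264) (nat_lit 191)) (XT.lf (nat_lit 0) (nat_lit 8343011299877) (nat_lit 76) (nat_lit 942841672161) (nat_lit 76) (nat_lit 919992586695) (nat_lit 1) (nat_lit 4) (nat_lit 2) (nat_lit 5) (nat_lit 2) (nat_lit 4) (nat_lit 326) (nat_lit 264) (nat_lit 190)))) (XT.nd (nat_lit 156) (nat_lit 380) (nat_lit 0) (XT.nd (nat_lit 78) (nat_lit 0) (nat_lit 0) (XT.lf (nat_lit 0) (nat_lit 1717330169) (nat_lit 0) (nat_lit 1717330169) (nat_lit 380) (nat_lit 987410911) (nat_lit 58) (nat_lit 5) (nat_lit 58) (nat_lit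 3) (nat_lit 63) (nat_lit 3) (nat_lit 265) (nat_lit 265) (nat_lit 250)) (XT.lf (nat_lit 76) (nat_lit 2447354517) (nat_lit 0) (nat_lit 6636160029) (nat_lit 456) (nat_lit 284251772) (nat_lit 59) (nat_lit 5) (nat_lit 58) (nat_lit 5) (nat_lit 64) (nat_lit 5) (nat_lit 266) (nat_lit 265) (nat_lit 249))) (XT.nd (nat_lit 78) (nat_lit 0) (nat_lit 0) (XT.lf (nat_lit 0) (nat_lit 1583716106) (nat_lit 456) (nat_lit 8364195698) (nat_lit 532) (nat_lit 18901545) (nat_lit 53) (nat_lit 5) (nat_lit 59) (nat_lit 5) (nat_lit 60) (nat_lit 5) (nat_lit 267) (nat_lit 265) (nat_lit 248)) (XT.lf (nat_lit 76) (nat_lit 830754936) (nat_lit 0) (nat_lit 3041636713) (nat_lit 532) (nat_lit 6770687743) (nat_lit 54) (nat_lit 5) (nat_lit 53) (nat_lit 5) (nat_lit 60) (nat_lit 5) (nat_lit 268) (nat_lit 265) (nat_lit 247))))))))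
noncomputable def xc30 : XT := (XT.nd (nat_lit 1872) (nat_lit 456) (nat_lit 0) (XT.nd (nat_lit 936) (nat_lit 988) (nat_lit 0) (XT.nd (nat_lit 468) (nat_lit 1140) (nat_lit 0) (XT.nd (nat_lit 234) (nat_lit 608) (nat_lit 0) (XT.nd (nat_lit 78) (nat_lit 380) (nat_lit 0) (XT.lf (nat_lit 0) (nat_lit 195231680) (nat_lit 456) (nat_lit 6457907396) (nat_lit 532) (nat_lit 4756214257) (nat_lit 48) (nat_lit 5) (nat_lit 54) (nat_lit 5) (nat_lit 55) (nat_lit 5) (nat_lit 269) (nat_lit 265) (nat_lit 246)) (XT.nd (nat_lit 78) (nat_lit 380) (nat_lit 0) (XT.lf (nat_lit 0) (nat_lit 10068049280) (nat_lit 532) (nat_lit 299684019) (nat_lit 76) (nat_lit 1905879391) (nat_lit 48) (nat_lit 5) (nat_lit 55) (nat_lit 5) (nat_lit 49) (nat_lit 5) (nat_lit 270) (nat_lit 265) (nat_lit 245)) (XT.lf (nat_lit 0) (nat_lit 1006172883) (nat_lit 380) (nat_lit 742962647) (nat_lit 76) (nat_lit 11492112994) (nat_lit 43) (nat_lit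 5) (nat_lit 48) (nat_lit 5) (nat_lit 44) (nat_lit 5) (nat_lit 271) (nat_lit 265) (nat_lit 244)))) (XT.nd (nat_lit 78) (nat_lit 380) (nat_lit 0) (XT.lf (nat_lit 0) (nat_lit 4950017597) (nat_lit 304) (nat_lit 1224192935) (nat_lit 76) (nat_lit 8145046775) (nat_lit 40) (nat_lit 5) (nat_lit 44) (nat_lit 5) (nat_lit 41) (nat_lit 5) (nat_lit 272) (nat_lit 265) (nat_lit 243)) (XT.nd (nat_lit 78) (nat_lit 152) (nat_lit 0) (XT.lf (nat_lit 0) (nat_lit 9852460077) (nat_lit 304) (nat_lit 1657726053) (nat_lit 76) (nat_lit 4019668218) (nat_lit 37) (nat_lit 5) (nat_lit 41) (nat_lit 5) (nat_lit 38) (nat_lit 5) (nat_lit 273) (nat_lit 265) (nat_lit 242)) (XT.lf (nat_lit 0) (nat_lit 14795461411) (nat_lit 152) (nat_lit 1130638610) (nat_lit 228) (nat_lit 961290633) (nat_lit 35) (nat_lit 5) (nat_lit 37) (nat_lit 5) (nat_lit 38) (nat_lit 5) (nat_lit 274) (nat_lit 265) (nat_lit 241))))) (XT.nd (nat_lit 234) (nat_lit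 532) (nat_lit 0) (XT.nd (nat_lit 78) (nat_lit 304) (nat_lit 0) (XT.lf (nat_lit 0) (nat_lit 4826674600) (nat_lit 304) (nat_lit 2782136579) (nat_lit 76) (nat_lit 10784321778) (nat_lit 31) (nat_lit 5) (nat_lit 35) (nat_lit 5) (nat_lit 32) (nat_lit 5) (nat_lit 275) (nat_lit 265) (nat_lit 240)) (XT.nd (nat_lit 78) (nat_lit 152) (nat_lit 0) (XT.lf (nat_lit 0) (nat_lit 11929241808) (nat_lit 228) (nat_lit 3608135004) (nat_lit 76) (nat_lit 4545247565) (nat_lit 29) (nat_lit 5) (nat_lit 32) (nat_lit 5) (nat_lit 30) (nat_lit 5) (nat_lit 276) (nat_lit 265) (nat_lit 239)) (XT.lf (nat_lit 0) (nat_lit 17278226403) (nat_lit 152) (nat_lit 3431373788) (nat_lit 228) (nat_lit 1267078456) (nat_lit 27) (nat_lit 5) (nat_lit 29) (nat_lit 5) (nat_lit 30) (nat_lit 5) (nat_lit 277) (nat_lit 265) (nat_lit 238)))) (XT.nd (nat_lit 78) (nat_lit 304) (nat_lit 0) (XT.lf (nat_lit 0) (nat_lit 7039165261) (nat_lit 228) (nat_lit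 6404985663) (nat_lit 76) (nat_lit 10640416315) (nat_lit 24) (nat_lit 5) (nat_lit 27) (nat_lit 5) (nat_lit 25) (nat_lit 5) (nat_lit 278) (nat_lit 265) (nat_lit 237)) (XT.nd (nat_lit 78) (nat_lit 152) (nat_lit 0) (XT.lf (nat_lit 0) (nat_lit 17118151727) (nat_lit 228) (nat_lit 8646725800) (nat_lit 76) (nat_lit 693074347) (nat_lit 22) (nat_lit 5) (nat_lit 25) (nat_lit 5) (nat_lit 23) (nat_lit 4) (nat_lit 279) (nat_lit 265) (nat_lit 236)) (XT.lf (nat_lit 0) (nat_lit 471508384) (nat_lit 152) (nat_lit 11889624876) (nat_lit 76) (nat_lit 16753130541) (nat_lit 20) (nat_lit 5) (nat_lit 22) (nat_lit 5) (nat_lit 21) (nat_lit 5) (nat_lit 280) (nat_lit 265) (nat_lit 235)))))) (XT.nd (nat_lit 468) (nat_lit 380) (nat_lit 0) (XT.nd (nat_lit 234) (nat_lit 228) (nat_lit 0) (XT.nd (nat_lit 78) (nat_lit 228) (nat_lit 0) (XT.lf (nat_lit 0) (nat_lit 11880152838) (nat_lit 228) (nat_lit 16440413763) (nat_lit 76)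 (nat_lit 3774820255) (nat_lit 18) (nat_lit 5) (nat_lit 21) (nat_lit 5) (nat_lit 19) (nat_lit 4) (nat_lit 281) (nat_lit 265) (nat_lit 234)) (XT.nd (nat_lit 78) (nat_lit 152) (nat_lit 0) (XT.lf (nat_lit 0) (nat_lit 12730332303) (nat_lit 76) (nat_lit 13208559259) (nat_lit 152) (nat_lit 9509739105) (nat_lit 17) (nat_lit 5) (nat_lit 18) (nat_lit 5) (nat_lit 19) (nat_lit 4) (nat_lit 282) (nat_lit 265) (nat_lit 233)) (XT.lf (nat_lit 0) (nat_lit 3409386102) (nat_lit 152) (nat_lit 31135028395) (nat_lit 76) (nat_lit 4695265283) (nat_lit 15) (nat_lit 5) (nat_lit 17) (nat_lit 5) (nat_lit 16) (nat_lit 4) (nat_lit 283) (nat_lit 265) (nat_lit 232)))) (XT.nd (nat_lit 78) (nat_lit 152) (nat_lit 0) (XT.lf (nat_lit 0) (nat_lit 669025659) (nat_lit 76) (nat_lit 18054814718) (nat_lit 152) (nat_lit 24774181231) (nat_lit 14) (nat_lit 5) (nat_lit 15) (nat_lit 5) (nat_lit 16) (nat_lit 4) (nat_lit 284) (nat_lit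 265) (nat_lit 231)) (XT.nd (nat_lit 78) (nat_lit 152) (nat_lit 0) (XT.lf (nat_lit 0) (nat_lit 37235919667) (nat_lit 152) (nat_lit 9332800769) (nat_lit 0) (nat_lit 1754391879) (nat_lit 14) (nat_lit 5) (nat_lit 16) (nat_lit 4) (nat_lit 14) (nat_lit 4) (nat_lit 285) (nat_lit 265) (nat_lit 230)) (XT.lf (nat_lit 0) (nat_lit 5629566236) (nat_lit 152) (nat_lit 23807044254) (nat_lit 76) (nat_lit 24329673469) (nat_lit 12) (nat_lit 5) (nat_lit 14) (nat_lit 5) (nat_lit 13) (nat_lit 4) (nat_lit 286) (nat_lit 265) (nat_lit 229))))) (XT.nd (nat_lit 234) (nat_lit 152) (nat_lit 0) (XT.nd (nat_lit 78) (nat_lit 152) (nat_lit 0) (XT.lf (nat_lit 0) (nat_lit 16121836365) (nat_lit 76) (nat_lit 8718945152) (nat_lit 152) (nat_lit 35110661177) (nat_lit 11) (nat_lit 5) (nat_lit 12) (nat_lit 5) (nat_lit 13) (nat_lit 4) (nat_lit 287) (nat_lit 265) (nat_lit 228)) (XT.nd (nat_lit 78) (nat_lit 152) (nat_lit 0) (XT.lf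 (nat_lit 0) (nat_lit 47969335224) (nat_lit 152) (nat_lit 3981266601) (nat_lit 0) (nat_lit 15030941718) (nat_lit 11) (nat_lit 5) (nat_lit 13) (nat_lit 4) (nat_lit 11) (nat_lit 4) (nat_lit 288) (nat_lit 265) (nat_lit 227)) (XT.lf (nat_lit 0) (nat_lit 817732886) (nat_lit 152) (nat_lit 31258826167) (nat_lit 76) (nat_lit 42887236540) (nat_lit 9) (nat_lit 5) (nat_lit 11) (nat_lit 5) (nat_lit 10) (nat_lit 4) (nat_lit 289) (nat_lit 265) (nat_lit 226)))) (XT.nd (nat_lit 78) (nat_lit 76) (nat_lit 0) (XT.lf (nat_lit 0) (nat_lit 14803207763) (nat_lit 76) (nat_lit 8168645560) (nat_lit 152) (nat_lit 61094006964) (nat_lit 8) (nat_lit 5) (nat_lit 9) (nat_lit 5) (nat_lit 10) (nat_lit 4) (nat_lit 290) (nat_lit 265) (nat_lit 225)) (XT.nd (nat_lit 78) (nat_lit 76) (nat_lit 0) (XT.lf (nat_lit 0) (nat_lit 49818230891) (nat_lit 152) (nat_lit 25337593245) (nat_lit 0) (nat_lit 19267892082) (nat_lit 8) (nat_lit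 5) (nat_lit 10) (nat_lit 4) (nat_lit 8) (nat_lit 4) (nat_lit 291) (nat_lit 265) (nat_lit 224)) (XT.lf (nat_lit 0) (nat_lit 26212664460) (nat_lit 76) (nat_lit 55309724048) (nat_lit 76) (nat_lit 24746407168) (nat_lit 7) (nat_lit 4) (nat_lit 8) (nat_lit 5) (nat_lit 8) (nat_lit 4) (nat_lit 292) (nat_lit 265) (nat_lit 223))))))) (XT.nd (nat_lit 936) (nat_lit 76) (nat_lit 0) (XT.nd (nat_lit 468) (nat_lit 152) (nat_lit 0) (XT.nd (nat_lit 234) (nat_lit 76) (nat_lit 0) (XT.nd (nat_lit 78) (nat_lit 152) (nat_lit 0) (XT.lf (nat_lit 0) (nat_lit 86985068036) (nat_lit 76) (nat_lit 31711513888) (nat_lit 76) (nat_lit 1136911729) (nat_lit 7) (nat_lit 4) (nat_lit 8) (nat_lit 5) (nat_lit 8) (nat_lit 4) (nat_lit 293) (nat_lit 265) (nat_lit 222)) (XT.nd (nat_lit 78) (nat_lit 0) (nat_lit 0) (XT.lf (nat_lit 0) (nat_lit 21868737929) (nat_lit 76) (nat_lit 3349124269) (nat_lit 152) (nat_lit 110124576419) (nat_lit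 5) (nat_lit 5) (nat_lit 6) (nat_lit 5) (nat_lit 7) (nat_lit 4) (nat_lit 294) (nat_lit 265) (nat_lit 221)) (XT.lf (nat_lit 0) (nat_lit 57126160212) (nat_lit 152) (nat_lit 67116443507) (nat_lit 0) (nat_lit 28799355826) (nat_lit 5) (nat_lit 5) (nat_lit 7) (nat_lit 4) (nat_lit 5) (nat_lit 4) (nat_lit 295) (nat_lit 265) (nat_lit 220)))) (XT.nd (nat_lit 78) (nat_lit 76) (nat_lit 0) (XT.lf (nat_lit 0) (nat_lit 93896494961) (nat_lit 152) (nat_lit 13931036144) (nat_lit 0) (nat_lit 65562819970) (nat_lit 5) (nat_lit 5) (nat_lit 7) (nat_lit 4) (nat_lit 5) (nat_lit 4) (nat_lit 296) (nat_lit 265) (nat_lit 219)) (XT.nd (nat_lit 78) (nat_lit 0) (nat_lit 0) (XT.lf (nat_lit 0) (nat_lit 49689312634) (nat_lit 76) (nat_lit 87673456050) (nat_lit 76) (nat_lit 59333806619) (nat_lit 4) (nat_lit 4) (nat_lit 5) (nat_lit 5) (nat_lit 5) (nat_lit 4) (nat_lit 297) (nat_lit 265) (nat_lit 218)) (XT.lf (nat_lit 0) (nat_lit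 123670219562) (nat_lit 76) (nat_lit 64070992173) (nat_lit 76) (nat_lit 35726147577) (nat_lit 4) (nat_lit 4) (nat_lit 5) (nat_lit 5) (nat_lit 5) (nat_lit 4) (nat_lit 298) (nat_lit 265) (nat_lit 217))))) (XT.nd (nat_lit 234) (nat_lit 0) (nat_lit 0) (XT.nd (nat_lit 78) (nat_lit 152) (nat_lit 0) (XT.lf (nat_lit 0) (nat_lit 208725553490) (nat_lit 76) (nat_lit 36939251353) (nat_lit 76) (nat_lit 8589889222) (nat_lit 4) (nat_lit 4) (nat_lit 5) (nat_lit 5) (nat_lit 5) (nat_lit 4) (nat_lit 299) (nat_lit 265) (nat_lit 216)) (XT.nd (nat_lit 78) (nat_lit 0) (nat_lit 0) (XT.lf (nat_lit 0) (nat_lit 17173937644) (nat_lit 76) (nat_lit 4714152772) (nat_lit 152) (nat_lit 267696313571) (nat_lit 2) (nat_lit 5) (nat_lit 3) (nat_lit 5) (nat_lit 4) (nat_lit 4) (nat_lit 300) (nat_lit 265) (nat_lit 215)) (XT.lf (nat_lit 0) (nat_lit 58571782581) (nat_lit 152) (nat_lit 239136957728) (nat_lit 0) (nat_lit 32315573018)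 (nat_lit 2) (nat_lit 5) (nat_lit 4) (nat_lit 4) (nat_lit 2) (nat_lit 4) (nat_lit 301) (nat_lit 265) (nat_lit 214)))) (XT.nd (nat_lit 78) (nat_lit 0) (nat_lit 0) (XT.lf (nat_lit 0) (nat_lit 100879992446) (nat_lit 152) (nat_lit 201019429289) (nat_lit 0) (nat_lit 74621032558) (nat_lit 2) (nat_lit 5) (nat_lit 4) (nat_lit 4) (nat_lit 2) (nat_lit 4) (nat_lit 302) (nat_lit 265) (nat_lit 213)) (XT.nd (nat_lit 78) (nat_lit 0) (nat_lit 0) (XT.lf (nat_lit 0) (nat_lit 149527113848) (nat_lit 152) (nat_lit 157198727808) (nat_lit 0) (nat_lit 123265762372) (nat_lit 2) (nat_lit 5) (nat_lit 4) (nat_lit 4) (nat_lit 2) (nat_lit 4) (nat_lit 303) (nat_lit 265) (nat_lit 212)) (XT.lf (nat_lit 0) (nat_lit 205464938293) (nat_lit 152) (nat_lit 106817491733) (nat_lit 0) (nat_lit 179201507174) (nat_lit 2) (nat_lit 5) (nat_lit 4) (nat_lit 4) (nat_lit 2) (nat_lit 4) (nat_lit 304) (nat_lit 265) (nat_lit 211)))))) (XT.nd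 (nat_lit 468) (nat_lit 0) (nat_lit 0) (XT.nd (nat_lit 234) (nat_lit 0) (nat_lit 0) (XT.nd (nat_lit 78) (nat_lit 76) (nat_lit 0) (XT.lf (nat_lit 0) (nat_lit 269787901475) (nat_lit 152) (nat_lit 48890001229) (nat_lit 0) (nat_lit 243522661973) (nat_lit 2) (nat_lit 5) (nat_lit 4) (nat_lit 4) (nat_lit 2) (nat_lit 4) (nat_lit 305) (nat_lit 265) (nat_lit 210)) (XT.nd (nat_lit 78) (nat_lit 0) (nat_lit 0) (XT.lf (nat_lit 0) (nat_lit 18650059140) (nat_lit 76) (nat_lit 325552971384) (nat_lit 76) (nat_lit 299286159373) (nat_lit 1) (nat_lit 4) (nat_lit 2) (nat_lit 5) (nat_lit 2) (nat_lit 4) (nat_lit 306) (nat_lit 265) (nat_lit 209)) (XT.lf (nat_lit 0) (nat_lit 99273057880) (nat_lit 76) (nat_lit 331926356382) (nat_lit 76) (nat_lit 305658176973) (nat_lit 1) (nat_lit 4) (nat_lit 2) (nat_lit 5) (nat_lit 2) (nat_lit 4) (nat_lit 307) (nat_lit 265) (nat_lit 208)))) (XT.nd (nat_lit 78) (nat_lit 0) (nat_lit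 0) (XT.lf (nat_lit 0) (nat_lit 191981940662) (nat_lit 76) (nat_lit 339259493635) (nat_lit 76) (nat_lit 312990125184) (nat_lit 1) (nat_lit 4) (nat_lit 2) (nat_lit 5) (nat_lit 2) (nat_lit 4) (nat_lit 308) (nat_lit 265) (nat_lit 207)) (XT.nd (nat_lit 78) (nat_lit 0) (nat_lit 0) (XT.lf (nat_lit 0) (nat_lit 298590576933) (nat_lit 76) (nat_lit 347695857569) (nat_lit 76) (nat_lit 321425455168) (nat_lit 1) (nat_lit 4) (nat_lit 2) (nat_lit 5) (nat_lit 2) (nat_lit 4) (nat_lit 309) (nat_lit 265) (nat_lit 206)) (XT.lf (nat_lit 0) (nat_lit 421184787836) (nat_lit 76) (nat_lit 357400507477) (nat_lit 76) (nat_lit 331129205990) (nat_lit 1) (nat_lit 4) (nat_lit 2) (nat_lit 5) (nat_lit 2) (nat_lit 4) (nat_lit 310) (nat_lit 265) (nat_lit 205))))) (XT.nd (nat_lit 234) (nat_lit 0) (nat_lit 0) (XT.nd (nat_lit 78) (nat_lit 0) (nat_lit 0) (XT.lf (nat_lit 0) (nat_lit 562163155760) (nat_lit 76) (nat_lit 368563316945)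 (nat_lit 76) (nat_lit 342291233644) (nat_lit 1) (nat_lit 4) (nat_lit 2) (nat_lit 5) (nat_lit 2) (nat_lit 4) (nat_lit 311) (nat_lit 265) (nat_lit 204)) (XT.nd (nat_lit 78) (nat_lit 0) (nat_lit 0) (XT.lf (nat_lit 0) (nat_lit 724283953119) (nat_lit 76) (nat_lit 381402688767) (nat_lit 76) (nat_lit 355129925626) (nat_lit 1) (nat_lit 4) (nat_lit 2) (nat_lit 5) (nat_lit 2) (nat_lit 4) (nat_lit 312) (nat_lit 265) (nat_lit 203)) (XT.lf (nat_lit 0) (nat_lit 910719108559) (nat_lit 76) (nat_lit 396169828042) (nat_lit 76) (nat_lit 369896473738) (nat_lit 1) (nat_lit 4) (nat_lit 2) (nat_lit 5) (nat_lit 2) (nat_lit 4) (nat_lit 313) (nat_lit 265) (nat_lit 202)))) (XT.nd (nat_lit 156) (nat_lit 0) (nat_lit 0) (XT.nd (nat_lit 78) (nat_lit 0) (nat_lit 0) (XT.lf (nat_lit 0) (nat_lit 1125116266424) (nat_lit 76) (nat_lit 413153657063) (nat_lit 76) (nat_lit 386879788703) (nat_lit 1) (nat_lit 4) (nat_lit 2) (nat_lit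 5) (nat_lit 2) (nat_lit 4) (nat_lit 314) (nat_lit 265) (nat_lit 201)) (XT.lf (nat_lit 0) (nat_lit 1371670153716) (nat_lit 76) (nat_lit 432686468135) (nat_lit 76) (nat_lit 406412152770) (nat_lit 1) (nat_lit 4) (nat_lit 2) (nat_lit 5) (nat_lit 2) (nat_lit 4) (nat_lit 315) (nat_lit 265) (nat_lit 200))) (XT.nd (nat_lit 78) (nat_lit 0) (nat_lit 0) (XT.lf (nat_lit 0) (nat_lit 1655204650839) (nat_lit 76) (nat_lit 455150424954) (nat_lit 76) (nat_lit 428875720889) (nat_lit 1) (nat_lit 4) (nat_lit 2) (nat_lit 5) (nat_lit 2) (nat_lit 4) (nat_lit 316) (nat_lit 265) (nat_lit 199)) (XT.lf (nat_lit 0) (nat_lit 1981267171867) (nat_lit 76) (nat_lit 480985039717) (nat_lit 76) (nat_lit 454709997653) (nat_lit 1) (nat_lit 4) (nat_lit 2) (nat_lit 5) (nat_lit 2) (nat_lit 4) (nat_lit 317) (nat_lit 265) (nat_lit 198))))))))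
noncomputable def xc31 : XT := (XT.nd (nat_lit 37830) (nat_lit 0) (nat_lit 76) (XT.nd (nat_lit 36816) (nat_lit 0) (nat_lit 1444) (XT.nd (nat_lit 468) (nat_lit 0) (nat_lit 0) (XT.nd (nat_lit 234) (nat_lit 0) (nat_lit 0) (XT.nd (nat_lit 78) (nat_lit 0) (nat_lit 0) (XT.lf (nat_lit 0) (nat_lit 2356237200907) (nat_lit 76) (nat_lit 510695772280) (nat_lit 76) (nat_lit 484420436302) (nat_lit 1) (nat_lit 4) (nat_lit 2) (nat_lit 5) (nat_lit 2) (nat_lit 4) (nat_lit 318) (nat_lit 265) (nat_lit 197)) (XT.nd (nat_lit 78) (nat_lit 0) (nat_lit 0) (XT.lf (nat_lit 0) (nat_lit 2787451108092) (nat_lit 76) (nat_lit 544863919583) (nat_lit 76) (nat_lit 518588328029) (nat_lit 1) (nat_lit 4) (nat_lit 2) (nat_lit 5) (nat_lit 2) (nat_lit 4) (nat_lit 319) (nat_lit 265) (nat_lit 196)) (XT.lf (nat_lit 0) (nat_lit 3283345687259) (nat_lit 76) (nat_lit 584157988857) (nat_lit 76) (nat_lit 557882175062) (nat_lit 1) (nat_lit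 4) (nat_lit 2) (nat_lit 5) (nat_lit 2) (nat_lit 4) (nat_lit 320) (nat_lit 265) (nat_lit 195)))) (XT.nd (nat_lit 78) (nat_lit 0) (nat_lit 0) (XT.lf (nat_lit 0) (nat_lit 3853623223652) (nat_lit 76) (nat_lit 629346777109) (nat_lit 76) (nat_lit 603070770062) (nat_lit 1) (nat_lit 4) (nat_lit 2) (nat_lit 5) (nat_lit 2) (nat_lit 4) (nat_lit 321) (nat_lit 265) (nat_lit 194)) (XT.nd (nat_lit 78) (nat_lit 0) (nat_lit 0) (XT.lf (nat_lit 0) (nat_lit 4509441321244) (nat_lit 76) (nat_lit 681314412804) (nat_lit 76) (nat_lit 655038237711) (nat_lit 1) (nat_lit 4) (nat_lit 2) (nat_lit 5) (nat_lit 2) (nat_lit 4) (nat_lit 322) (nat_lit 265) (nat_lit 193)) (XT.lf (nat_lit 0) (nat_lit 5263631203684) (nat_lit 76) (nat_lit 741077654033) (nat_lit 76) (nat_lit 714801332814) (nat_lit 1) (nat_lit 4) (nat_lit 2) (nat_lit 5) (nat_lit 2) (nat_lit 4) (nat_lit 323) (nat_lit 265) (nat_lit 192))))) (XT.nd (nat_lit 36114)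 (nat_lit 0) (nat_lit 3800) (XT.nd (nat_lit 78) (nat_lit 0) (nat_lit 0) (XT.lf (nat_lit 0) (nat_lit 6130948759976) (nat_lit 76) (nat_lit 809805781602) (nat_lit 76) (nat_lit 783529333316) (nat_lit 1) (nat_lit 4) (nat_lit 2) (nat_lit 5) (nat_lit 2) (nat_lit 4) (nat_lit 324) (nat_lit 265) (nat_lit 191)) (XT.nd (nat_lit 78) (nat_lit 0) (nat_lit 0) (XT.lf (nat_lit 0) (nat_lit 7128363246655) (nat_lit 76) (nat_lit 888843476268) (nat_lit 76) (nat_lit 862566917489) (nat_lit 1) (nat_lit 4) (nat_lit 2) (nat_lit 5) (nat_lit 2) (nat_lit 4) (nat_lit 325) (nat_lit 265) (nat_lit 190)) (XT.lf (nat_lit 0) (nat_lit 8275389294984) (nat_lit 76) (nat_lit 979737127709) (nat_lit 76) (nat_lit 953460472849) (nat_lit 1) (nat_lit 4) (nat_lit 2) (nat_lit 5) (nat_lit 2) (nat_lit 4) (nat_lit 326) (nat_lit 265) (nat_lit 189)))) (XT.nd (nat_lit 78) (nat_lit 0) (nat_lit 76) (XT.lf (nat_lit 0) (nat_lit 471222405) (nat_lit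 532) (nat_lit 2244502586) (nat_lit 532) (nat_lit 2244502586) (nat_lit 51) (nat_lit 3) (nat_lit 58) (nat_lit 3) (nat_lit 58) (nat_lit 5) (nat_lit 266) (nat_lit 266) (nat_lit 248)) (XT.nd (nat_lit 78) (nat_lit 0) (nat_lit 0) (XT.lf (nat_lit 0) (nat_lit 2393145533) (nat_lit 456) (nat_lit 6162099541) (nat_lit 532) (nat_lit 1996205231) (nat_lit 52) (nat_lit 5) (nat_lit 58) (nat_lit 5) (nat_lit 59) (nat_lit 5) (nat_lit 267) (nat_lit 266) (nat_lit 247)) (XT.lf (nat_lit 76) (nat_lit 3480728290) (nat_lit 0) (nat_lit 730396261) (nat_lit 532) (nat_lit 7054465954) (nat_lit 53) (nat_lit 5) (nat_lit 52) (nat_lit 5) (nat_lit 59) (nat_lit 5) (nat_lit 268) (nat_lit 266) (nat_lit 246)))))) (XT.nd (nat_lit 468) (nat_lit 1292) (nat_lit 0) (XT.nd (nat_lit 234) (nat_lit 532) (nat_lit 0) (XT.nd (nat_lit 78) (nat_lit 684) (nat_lit 0) (XT.lf (nat_lit 76) (nat_lit 2650174363) (nat_lit 0) (nat_lit 3906692669) (nat_lit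 532) (nat_lit 5509987752) (nat_lit 54) (nat_lit 5) (nat_lit 53) (nat_lit 5) (nat_lit 60) (nat_lit 5) (nat_lit 269) (nat_lit 266) (nat_lit 245)) (XT.nd (nat_lit 78) (nat_lit 304) (nat_lit 0) (XT.lf (nat_lit 0) (nat_lit 1942934860) (nat_lit 456) (nat_lit 7570185459) (nat_lit 532) (nat_lit 3454851543) (nat_lit 48) (nat_lit 5) (nat_lit 54) (nat_lit 5) (nat_lit 55) (nat_lit 5) (nat_lit 270) (nat_lit 266) (nat_lit 244)) (XT.lf (nat_lit 0) (nat_lit 1353191394) (nat_lit 304) (nat_lit 11873746078) (nat_lit 380) (nat_lit 752497753) (nat_lit 44) (nat_lit 5) (nat_lit 48) (nat_lit 5) (nat_lit 49) (nat_lit 5) (nat_lit 271) (nat_lit 266) (nat_lit 243)))) (XT.nd (nat_lit 78) (nat_lit 228) (nat_lit 0) (XT.lf (nat_lit 0) (nat_lit 756262414) (nat_lit 228) (nat_lit 1900427885) (nat_lit 304) (nat_lit 12448101128) (nat_lit 40) (nat_lit 5) (nat_lit 43) (nat_lit 5) (nat_lit 44) (nat_lit 5) (nat_lit 272) (nat_lit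 266) (nat_lit 242)) (XT.nd (nat_lit 78) (nat_lit 0) (nat_lit 0) (XT.lf (nat_lit 0) (nat_lit 144449809) (nat_lit 228) (nat_lit 6877157755) (nat_lit 304) (nat_lit 9336883477) (nat_lit 37) (nat_lit 5) (nat_lit 40) (nat_lit 5) (nat_lit 41) (nat_lit 5) (nat_lit 273) (nat_lit 266) (nat_lit 241)) (XT.lf (nat_lit 0) (nat_lit 12522521888) (nat_lit 304) (nat_lit 400630260) (nat_lit 76) (nat_lit 4838780689) (nat_lit 37) (nat_lit 5) (nat_lit 41) (nat_lit 5) (nat_lit 38) (nat_lit 5) (nat_lit 274) (nat_lit 266) (nat_lit 240))))) (XT.nd (nat_lit 234) (nat_lit 684) (nat_lit 0) (XT.nd (nat_lit 78) (nat_lit 380) (nat_lit 0) (XT.lf (nat_lit 0) (nat_lit 49114254) (nat_lit 228) (nat_lit 941314752) (nat_lit 76) (nat_lit 18342623563) (nat_lit 34) (nat_lit 5) (nat_lit 37) (nat_lit 5) (nat_lit 35) (nat_lit 5) (nat_lit 275) (nat_lit 266) (nat_lit 239)) (XT.nd (nat_lit 78) (nat_lit 152) (nat_lit 0) (XT.lf (nat_lit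 0) (nat_lit 6546140986) (nat_lit 304) (nat_lit 1810823450) (nat_lit 76) (nat_lit 12714084012) (nat_lit 31) (nat_lit 5) (nat_lit 35) (nat_lit 5) (nat_lit 32) (nat_lit 5) (nat_lit 276) (nat_lit 266) (nat_lit 238)) (XT.lf (nat_lit 0) (nat_lit 14623836176) (nat_lit 228) (nat_lit 2814351219) (nat_lit 76) (nat_lit 5583181612) (nat_lit 29) (nat_lit 5) (nat_lit 32) (nat_lit 5) (nat_lit 30) (nat_lit 5) (nat_lit 277) (nat_lit 266) (nat_lit 237)))) (XT.nd (nat_lit 156) (nat_lit 304) (nat_lit 0) (XT.nd (nat_lit 78) (nat_lit 228) (nat_lit 0) (XT.lf (nat_lit 0) (nat_lit 21091962958) (nat_lit 152) (nat_lit 3540603930) (nat_lit 228) (nat_lit 574219789) (nat_lit 27) (nat_lit 5) (nat_lit 29) (nat_lit 5) (nat_lit 30) (nat_lit 5) (nat_lit 278) (nat_lit 266) (nat_lit 236)) (XT.lf (nat_lit 0) (nat_lit 8861970247) (nat_lit 228) (nat_lit 6154071743) (nat_lit 76) (nat_lit 12618993090) (nat_lit 24) (nat_lit 5)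 (nat_lit 27) (nat_lit 5) (nat_lit 25) (nat_lit 5) (nat_lit 279) (nat_lit 266) (nat_lit 235))) (XT.nd (nat_lit 78) (nat_lit 152) (nat_lit 0) (XT.lf (nat_lit 0) (nat_lit 20389437734) (nat_lit 228) (nat_lit 8788391699) (nat_lit 76) (nat_lit 1191779875) (nat_lit 22) (nat_lit 5) (nat_lit 25) (nat_lit 5) (nat_lit 23) (nat_lit 4) (nat_lit 280) (nat_lit 266) (nat_lit 234)) (XT.lf (nat_lit 0) (nat_lit 1196634017) (nat_lit 152) (nat_lit 12580456057) (nat_lit 76) (nat_lit 19651357252) (nat_lit 20) (nat_lit 5) (nat_lit 22) (nat_lit 5) (nat_lit 21) (nat_lit 5) (nat_lit 281) (nat_lit 266) (nat_lit 233))))))) (XT.nd (nat_lit 936) (nat_lit 380) (nat_lit 0) (XT.nd (nat_lit 468) (nat_lit 380) (nat_lit 0) (XT.nd (nat_lit 234) (nat_lit 228) (nat_lit 0) (XT.nd (nat_lit 78) (nat_lit 228) (nat_lit 0) (XT.lf (nat_lit 0) (nat_lit 14265060946) (nat_lit 228) (nat_lit 17868163639) (nat_lit 76) (nat_lit 4727714185)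 (nat_lit 18) (nat_lit 5) (nat_lit 21) (nat_lit 5) (nat_lit 19) (nat_lit 4) (nat_lit 282) (nat_lit 266) (nat_lit 232)) (XT.nd (nat_lit 78) (nat_lit 152) (nat_lit 0) (XT.lf (nat_lit 0) (nat_lit 15590306382) (nat_lit 76) (nat_lit 14786524625) (nat_lit 152) (nat_lit 10344869020) (nat_lit 17) (nat_lit 5) (nat_lit 18) (nat_lit 5) (nat_lit 19) (nat_lit 4) (nat_lit 283) (nat_lit 266) (nat_lit 231)) (XT.lf (nat_lit 0) (nat_lit 4440172324) (nat_lit 152) (nat_lit 34875986763) (nat_lit 76) (nat_lit 5767554616) (nat_lit 15) (nat_lit 5) (nat_lit 17) (nat_lit 5) (nat_lit 16) (nat_lit 4) (nat_lit 284) (nat_lit 266) (nat_lit 230)))) (XT.nd (nat_lit 78) (nat_lit 152) (nat_lit 0) (XT.lf (nat_lit 0) (nat_lit 1620015131) (nat_lit 76) (nat_lit 20384492420) (nat_lit 152) (nat_lit 27980130200) (nat_lit 14) (nat_lit 5) (nat_lit 15) (nat_lit 5) (nat_lit 16) (nat_lit 4) (nat_lit 285) (nat_lit 266) (nat_lit 229))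 (XT.nd (nat_lit 78) (nat_lit 152) (nat_lit 0) (XT.lf (nat_lit 0) (nat_lit 43239738158) (nat_lit 152) (nat_lit 9967835043) (nat_lit 0) (nat_lit 2330253424) (nat_lit 14) (nat_lit 5) (nat_lit 16) (nat_lit 4) (nat_lit 14) (nat_lit 4) (nat_lit 286) (nat_lit 266) (nat_lit 228)) (XT.lf (nat_lit 0) (nat_lit 6864810054) (nat_lit 152) (nat_lit 26657155616) (nat_lit 76) (nat_lit 28277772264) (nat_lit 12) (nat_lit 5) (nat_lit 14) (nat_lit 5) (nat_lit 13) (nat_lit 4) (nat_lit 287) (nat_lit 266) (nat_lit 227))))) (XT.nd (nat_lit 234) (nat_lit 152) (nat_lit 0) (XT.nd (nat_lit 78) (nat_lit 152) (nat_lit 0) (XT.lf (nat_lit 0) (nat_lit 19200032670) (nat_lit 76) (nat_lit 9722570998) (nat_lit 152) (nat_lit 39992904334) (nat_lit 11) (nat_lit 5) (nat_lit 12) (nat_lit 5) (nat_lit 13) (nat_lit 4) (nat_lit 288) (nat_lit 266) (nat_lit 226)) (XT.nd (nat_lit 78) (nat_lit 152) (nat_lit 0) (XT.lf (nat_lit 0) (nat_lit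 55480406224) (nat_lit 152) (nat_lit 3986060464) (nat_lit 0) (nat_lit 17536885423) (nat_lit 11) (nat_lit 5) (nat_lit 13) (nat_lit 4) (nat_lit 11) (nat_lit 4) (nat_lit 289) (nat_lit 266) (nat_lit 225)) (XT.lf (nat_lit 0) (nat_lit 1235538650) (nat_lit 152) (nat_lit 35389719172) (nat_lit 76) (nat_lit 49559359126) (nat_lit 9) (nat_lit 5) (nat_lit 11) (nat_lit 5) (nat_lit 10) (nat_lit 4) (nat_lit 290) (nat_lit 266) (nat_lit 224)))) (XT.nd (nat_lit 78) (nat_lit 76) (nat_lit 0) (XT.lf (nat_lit 0) (nat_lit 17534393774) (nat_lit 76) (nat_lit 9152168560) (nat_lit 152) (nat_lit 69967543978) (nat_lit 8) (nat_lit 5) (nat_lit 9) (nat_lit 5) (nat_lit 10) (nat_lit 4) (nat_lit 291) (nat_lit 266) (nat_lit 223)) (XT.nd (nat_lit 78) (nat_lit 76) (nat_lit 0) (XT.lf (nat_lit 0) (nat_lit 57529874811) (nat_lit 152) (nat_lit 28680385972) (nat_lit 0) (nat_lit 22357797050) (nat_lit 8) (nat_lit 5) (nat_lit 10) (nat_lit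 4) (nat_lit 8) (nat_lit 4) (nat_lit 292) (nat_lit 266) (nat_lit 222)) (XT.lf (nat_lit 0) (nat_lit 30563655984) (nat_lit 76) (nat_lit 63404917175) (nat_lit 76) (nat_lit 28223026128) (nat_lit 7) (nat_lit 4) (nat_lit 8) (nat_lit 5) (nat_lit 8) (nat_lit 4) (nat_lit 293) (nat_lit 266) (nat_lit 221)))))) (XT.nd (nat_lit 468) (nat_lit 152) (nat_lit 0) (XT.nd (nat_lit 234) (nat_lit 76) (nat_lit 0) (XT.nd (nat_lit 78) (nat_lit 152) (nat_lit 0) (XT.lf (nat_lit 0) (nat_lit 100397255941) (nat_lit 76) (nat_lit 36293227511) (nat_lit 76) (nat_lit 1102803171) (nat_lit 7) (nat_lit 4) (nat_lit 8) (nat_lit 5) (nat_lit 8) (nat_lit 4) (nat_lit 294) (nat_lit 266) (nat_lit 220)) (XT.nd (nat_lit 78) (nat_lit 0) (nat_lit 0) (XT.lf (nat_lit 0) (nat_lit 25492066047) (nat_lit 76) (nat_lit 3685775606) (nat_lit 152) (nat_lit 126451715992) (nat_lit 5) (nat_lit 5) (nat_lit 6) (nat_lit 5) (nat_lit 7) (nat_lit 4) (nat_lit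 295) (nat_lit 266) (nat_lit 219)) (XT.lf (nat_lit 0) (nat_lit 65852723922) (nat_lit 152) (nat_lit 76876711174) (nat_lit 0) (nat_lit 33256152637) (nat_lit 5) (nat_lit 5) (nat_lit 7) (nat_lit 4) (nat_lit 5) (nat_lit 4) (nat_lit 296) (nat_lit 266) (nat_lit 218)))) (XT.nd (nat_lit 78) (nat_lit 76) (nat_lit 0) (XT.lf (nat_lit 0) (nat_lit 108118047187) (nat_lit 152) (nat_lit 15753562124) (nat_lit 0) (nat_lit 75516280737) (nat_lit 5) (nat_lit 5) (nat_lit 7) (nat_lit 4) (nat_lit 5) (nat_lit 4) (nat_lit 297) (nat_lit 266) (nat_lit 217)) (XT.nd (nat_lit 78) (nat_lit 0) (nat_lit 0) (XT.lf (nat_lit 0) (nat_lit 57387227795) (nat_lit 76) (nat_lit 100705035107) (nat_lit 76) (nat_lit 68098751122) (nat_lit 4) (nat_lit 4) (nat_lit 5) (nat_lit 5) (nat_lit 5) (nat_lit 4) (nat_lit 298) (nat_lit 266) (nat_lit 216)) (XT.lf (nat_lit 0) (nat_lit 142433377076) (nat_lit 76) (nat_lit 73577780694) (nat_lit 76) (nat_lit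 40967568417) (nat_lit 4) (nat_lit 4) (nat_lit 5) (nat_lit 5) (nat_lit 5) (nat_lit 4) (nat_lit 299) (nat_lit 266) (nat_lit 215))))) (XT.nd (nat_lit 234) (nat_lit 0) (nat_lit 0) (XT.nd (nat_lit 78) (nat_lit 152) (nat_lit 0) (XT.lf (nat_lit 0) (nat_lit 240219277452) (nat_lit 76) (nat_lit 42389825748) (nat_lit 76) (nat_lit 9776197566) (nat_lit 4) (nat_lit 4) (nat_lit 5) (nat_lit 5) (nat_lit 5) (nat_lit 4) (nat_lit 300) (nat_lit 266) (nat_lit 214)) (XT.nd (nat_lit 78) (nat_lit 0) (nat_lit 0) (XT.lf (nat_lit 0) (nat_lit 19923974146) (nat_lit 76) (nat_lit 5335916565) (nat_lit 152) (nat_lit 307755061814) (nat_lit 2) (nat_lit 5) (nat_lit 3) (nat_lit 5) (nat_lit 4) (nat_lit 4) (nat_lit 301) (nat_lit 266) (nat_lit 213)) (XT.lf (nat_lit 0) (nat_lit 67436367030) (nat_lit 152) (nat_lit 274851844843) (nat_lit 0) (nat_lit 37233421244) (nat_lit 2) (nat_lit 5) (nat_lit 4) (nat_lit 4) (nat_lit 2) (nat_lit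 4) (nat_lit 302) (nat_lit 266) (nat_lit 212)))) (XT.nd (nat_lit 156) (nat_lit 0) (nat_lit 0) (XT.nd (nat_lit 78) (nat_lit 0) (nat_lit 0) (XT.lf (nat_lit 0) (nat_lit 116080527889) (nat_lit 152) (nat_lit 231036990166) (nat_lit 0) (nat_lit 85875502461) (nat_lit 2) (nat_lit 5) (nat_lit 4) (nat_lit 4) (nat_lit 2) (nat_lit 4) (nat_lit 303) (nat_lit 266) (nat_lit 211)) (XT.lf (nat_lit 0) (nat_lit 172015777948) (nat_lit 152) (nat_lit 180660838269) (nat_lit 0) (nat_lit 141808944136) (nat_lit 2) (nat_lit 5) (nat_lit 4) (nat_lit 4) (nat_lit 2) (nat_lit 4) (nat_lit 304) (nat_lit 266) (nat_lit 210))) (XT.nd (nat_lit 78) (nat_lit 0) (nat_lit 0) (XT.lf (nat_lit 0) (nat_lit 236336502535) (nat_lit 152) (nat_lit 122737768789) (nat_lit 0) (nat_lit 206128096214) (nat_lit 2) (nat_lit 5) (nat_lit 4) (nat_lit 4) (nat_lit 2) (nat_lit 4) (nat_lit 305) (nat_lit 266) (nat_lit 209)) (XT.lf (nat_lit 0) (nat_lit 310301150608)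 (nat_lit 152) (nat_lit 56134504279) (nat_lit 0) (nat_lit 280091376889) (nat_lit 2) (nat_lit 5) (nat_lit 4) (nat_lit 4) (nat_lit 2) (nat_lit 4) (nat_lit 306) (nat_lit 266) (nat_lit 208))))))))
noncomputable def xc32 : XT := (XT.nd (nat_lit 37830) (nat_lit 0) (nat_lit 456) (XT.nd (nat_lit 936) (nat_lit 0) (nat_lit 0) (XT.nd (nat_lit 468) (nat_lit 0) (nat_lit 0) (XT.nd (nat_lit 234) (nat_lit 0) (nat_lit 0) (XT.nd (nat_lit 78) (nat_lit 0) (nat_lit 0) (XT.lf (nat_lit 0) (nat_lit 21529031981) (nat_lit 76) (nat_lit 374345598342) (nat_lit 76) (nat_lit 344134635581) (nat_lit 1) (nat_lit 4) (nat_lit 2) (nat_lit 5) (nat_lit 2) (nat_lit 4) (nat_lit 307) (nat_lit 266) (nat_lit 207)) (XT.nd (nat_lit 78) (nat_lit 0) (nat_lit 0) (XT.lf (nat_lit 0) (nat_lit 114234854797) (nat_lit 76) (nat_lit 381680250057) (nat_lit 76) (nat_lit 351468253346) (nat_lit 1) (nat_lit 4) (nat_lit 2) (nat_lit 5) (nat_lit 2) (nat_lit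 4) (nat_lit 308) (nat_lit 266) (nat_lit 206)) (XT.lf (nat_lit 0) (nat_lit 220840830227) (nat_lit 76) (nat_lit 390117930913) (nat_lit 76) (nat_lit 359905035117) (nat_lit 1) (nat_lit 4) (nat_lit 2) (nat_lit 5) (nat_lit 2) (nat_lit 4) (nat_lit 309) (nat_lit 266) (nat_lit 205)))) (XT.nd (nat_lit 78) (nat_lit 0) (nat_lit 0) (XT.lf (nat_lit 0) (nat_lit 343432727355) (nat_lit 76) (nat_lit 399823725972) (nat_lit 76) (nat_lit 369610048361) (nat_lit 1) (nat_lit 4) (nat_lit 2) (nat_lit 5) (nat_lit 2) (nat_lit 4) (nat_lit 310) (nat_lit 266) (nat_lit 204)) (XT.nd (nat_lit 78) (nat_lit 0) (nat_lit 0) (XT.lf (nat_lit 0) (nat_lit 484409083301) (nat_lit 76) (nat_lit 410987531223) (nat_lit 76) (nat_lit 380773173773) (nat_lit 1) (nat_lit 4) (nat_lit 2) (nat_lit 5) (nat_lit 2) (nat_lit 4) (nat_lit 311) (nat_lit 266) (nat_lit 203)) (XT.lf (nat_lit 0) (nat_lit 646528131115) (nat_lit 76) (nat_lit 423827768942)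 (nat_lit 76) (nat_lit 393612820329) (nat_lit 1) (nat_lit 4) (nat_lit 2) (nat_lit 5) (nat_lit 2) (nat_lit 4) (nat_lit 312) (nat_lit 266) (nat_lit 202))))) (XT.nd (nat_lit 234) (nat_lit 0) (nat_lit 0) (XT.nd (nat_lit 78) (nat_lit 0) (nat_lit 0) (XT.lf (nat_lit 0) (nat_lit 832961765210) (nat_lit 76) (nat_lit 438595661173) (nat_lit 76) (nat_lit 408380198504) (nat_lit 1) (nat_lit 4) (nat_lit 2) (nat_lit 5) (nat_lit 2) (nat_lit 4) (nat_lit 313) (nat_lit 266) (nat_lit 201)) (XT.nd (nat_lit 78) (nat_lit 0) (nat_lit 0) (XT.lf (nat_lit 0) (nat_lit 1047357600167) (nat_lit 76) (nat_lit 455580144937) (nat_lit 76) (nat_lit 425364235263) (nat_lit 1) (nat_lit 4) (nat_lit 2) (nat_lit 5) (nat_lit 2) (nat_lit 4) (nat_lit 314) (nat_lit 266) (nat_lit 200)) (XT.lf (nat_lit 0) (nat_lit 1293910337104) (nat_lit 76) (nat_lit 475113525352) (nat_lit 76) (nat_lit 444897226977) (nat_lit 1) (nat_lit 4) (nat_lit 2) (nat_lit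 5) (nat_lit 2) (nat_lit 4) (nat_lit 315) (nat_lit 266) (nat_lit 199)))) (XT.nd (nat_lit 78) (nat_lit 0) (nat_lit 0) (XT.lf (nat_lit 0) (nat_lit 1577443833918) (nat_lit 76) (nat_lit 497577977250) (nat_lit 76) (nat_lit 467361340876) (nat_lit 1) (nat_lit 4) (nat_lit 2) (nat_lit 5) (nat_lit 2) (nat_lit 4) (nat_lit 316) (nat_lit 266) (nat_lit 198)) (XT.nd (nat_lit 78) (nat_lit 0) (nat_lit 0) (XT.lf (nat_lit 0) (nat_lit 1903505485113) (nat_lit 76) (nat_lit 523413022518) (nat_lit 76) (nat_lit 493196092231) (nat_lit 1) (nat_lit 4) (nat_lit 2) (nat_lit 5) (nat_lit 2) (nat_lit 4) (nat_lit 317) (nat_lit 266) (nat_lit 197)) (XT.lf (nat_lit 0) (nat_lit 2278474757776) (nat_lit 76) (nat_lit 553124129433) (nat_lit 76) (nat_lit 522906943569) (nat_lit 1) (nat_lit 4) (nat_lit 2) (nat_lit 5) (nat_lit 2) (nat_lit 4) (nat_lit 318) (nat_lit 266) (nat_lit 196)))))) (XT.nd (nat_lit 468) (nat_lit 0) (nat_lit 0)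 (XT.nd (nat_lit 234) (nat_lit 0) (nat_lit 0) (XT.nd (nat_lit 78) (nat_lit 0) (nat_lit 0) (XT.lf (nat_lit 0) (nat_lit 2709688007242) (nat_lit 76) (nat_lit 587292602259) (nat_lit 76) (nat_lit 557075194155) (nat_lit 1) (nat_lit 4) (nat_lit 2) (nat_lit 5) (nat_lit 2) (nat_lit 4) (nat_lit 319) (nat_lit 266) (nat_lit 195)) (XT.nd (nat_lit 78) (nat_lit 0) (nat_lit 0) (XT.lf (nat_lit 0) (nat_lit 3205582014479) (nat_lit 76) (nat_lit 626586954597) (nat_lit 76) (nat_lit 596369353240) (nat_lit 1) (nat_lit 4) (nat_lit 2) (nat_lit 5) (nat_lit 2) (nat_lit 4) (nat_lit 320) (nat_lit 266) (nat_lit 194)) (XT.lf (nat_lit 0) (nat_lit 3775859053542) (nat_lit 76) (nat_lit 671775988991) (nat_lit 76) (nat_lit 641558219588) (nat_lit 1) (nat_lit 4) (nat_lit 2) (nat_lit 5) (nat_lit 2) (nat_lit 4) (nat_lit 321) (nat_lit 266) (nat_lit 193)))) (XT.nd (nat_lit 78) (nat_lit 0) (nat_lit 0) (XT.lf (nat_lit 0) (nat_lit 4431676718673)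 (nat_lit 76) (nat_lit 723743838723) (nat_lit 76) (nat_lit 693525923194) (nat_lit 1) (nat_lit 4) (nat_lit 2) (nat_lit 5) (nat_lit 2) (nat_lit 4) (nat_lit 322) (nat_lit 266) (nat_lit 192)) (XT.nd (nat_lit 78) (nat_lit 0) (nat_lit 0) (XT.lf (nat_lit 0) (nat_lit 5185866225059) (nat_lit 76) (nat_lit 783507266071) (nat_lit 76) (nat_lit 753289223475) (nat_lit 1) (nat_lit 4) (nat_lit 2) (nat_lit 5) (nat_lit 2) (nat_lit 4) (nat_lit 323) (nat_lit 266) (nat_lit 191)) (XT.lf (nat_lit 0) (nat_lit 6053183454348) (nat_lit 76) (nat_lit 852235555482) (nat_lit 76) (nat_lit 822017402394) (nat_lit 1) (nat_lit 4) (nat_lit 2) (nat_lit 5) (nat_lit 2) (nat_lit 4) (nat_lit 324) (nat_lit 266) (nat_lit 190))))) (XT.nd (nat_lit 36192) (nat_lit 0) (nat_lit 3876) (XT.nd (nat_lit 78) (nat_lit 0) (nat_lit 0) (XT.lf (nat_lit 0) (nat_lit 7050597656678) (nat_lit 76) (nat_lit 931273390881) (nat_lit 76) (nat_lit 901055141712)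 (nat_lit 1) (nat_lit 4) (nat_lit 2) (nat_lit 5) (nat_lit 2) (nat_lit 4) (nat_lit 325) (nat_lit 266) (nat_lit 189)) (XT.nd (nat_lit 36036) (nat_lit 0) (nat_lit 3800) (XT.lf (nat_lit 0) (nat_lit 8197623457745) (nat_lit 76) (nat_lit 1022167164698) (nat_lit 76) (nat_lit 991948831981) (nat_lit 1) (nat_lit 4) (nat_lit 2) (nat_lit 5) (nat_lit 2) (nat_lit 4) (nat_lit 326) (nat_lit 266) (nat_lit 188)) (XT.lf (nat_lit 0) (nat_lit 1713884229) (nat_lit 532) (nat_lit 1947045413) (nat_lit 532) (nat_lit 1947045413) (nat_lit 51) (nat_lit 3) (nat_lit 58) (nat_lit 3) (nat_lit 58) (nat_lit 5) (nat_lit 267) (nat_lit 267) (nat_lit 246)))) (XT.nd (nat_lit 78) (nat_lit 0) (nat_lit 0) (XT.lf (nat_lit 0) (nat_lit 4796489940) (nat_lit 456) (nat_lit 5734042200) (nat_lit 532) (nat_lit 1435688718) (nat_lit 52) (nat_lit 5) (nat_lit 58) (nat_lit 5) (nat_lit 59) (nat_lit 5) (nat_lit 268) (nat_lit 267) (nat_lit 245))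 (XT.nd (nat_lit 78) (nat_lit 0) (nat_lit 76) (XT.lf (nat_lit 76) (nat_lit 5240738228) (nat_lit 0) (nat_lit 1409541831) (nat_lit 532) (nat_lit 6156726435) (nat_lit 53) (nat_lit 5) (nat_lit 52) (nat_lit 5) (nat_lit 59) (nat_lit 5) (nat_lit 269) (nat_lit 267) (nat_lit 244)) (XT.lf (nat_lit 76) (nat_lit 4329217483) (nat_lit 0) (nat_lit 4801816001) (nat_lit 532) (nat_lit 4615273702) (nat_lit 54) (nat_lit 5) (nat_lit 53) (nat_lit 5) (nat_lit 60) (nat_lit 5) (nat_lit 270) (nat_lit 267) (nat_lit 243))))))) (XT.nd (nat_lit 936) (nat_lit 988) (nat_lit 0) (XT.nd (nat_lit 468) (nat_lit 836) (nat_lit 0) (XT.nd (nat_lit 234) (nat_lit 684) (nat_lit 0) (XT.nd (nat_lit 78) (nat_lit 608) (nat_lit 0) (XT.lf (nat_lit 0) (nat_lit 3533746301) (nat_lit 456) (nat_lit 8814289425) (nat_lit 532) (nat_lit 2449604906) (nat_lit 48) (nat_lit 5) (nat_lit 54) (nat_lit 5) (nat_lit 55) (nat_lit 5) (nat_lit 271) (nat_lit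 267) (nat_lit 242)) (XT.nd (nat_lit 78) (nat_lit 228) (nat_lit 0) (XT.lf (nat_lit 0) (nat_lit 466093846) (nat_lit 380) (nat_lit 13131682831) (nat_lit 76) (nat_lit 2374856789) (nat_lit 43) (nat_lit 5) (nat_lit 48) (nat_lit 5) (nat_lit 44) (nat_lit 5) (nat_lit 272) (nat_lit 267) (nat_lit 241)) (XT.lf (nat_lit 0) (nat_lit 2121619372) (nat_lit 228) (nat_lit 2083836886) (nat_lit 304) (nat_lit 13071008651) (nat_lit 40) (nat_lit 5) (nat_lit 43) (nat_lit 5) (nat_lit 44) (nat_lit 5) (nat_lit 273) (nat_lit 267) (nat_lit 240)))) (XT.nd (nat_lit 78) (nat_lit 456) (nat_lit 0) (XT.lf (nat_lit 0) (nat_lit 1395913191) (nat_lit 228) (nat_lit 7710866237) (nat_lit 304) (nat_lit 9621170604) (nat_lit 37) (nat_lit 5) (nat_lit 40) (nat_lit 5) (nat_lit 41) (nat_lit 5) (nat_lit 274) (nat_lit 267) (nat_lit 239)) (XT.nd (nat_lit 78) (nat_lit 304) (nat_lit 0) (XT.lf (nat_lit 0) (nat_lit 713536045) (nat_lit 152) (nat_lit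 14605993721) (nat_lit 228) (nat_lit 5031672014) (nat_lit 35) (nat_lit 5) (nat_lit 37) (nat_lit 5) (nat_lit 38) (nat_lit 5) (nat_lit 275) (nat_lit 267) (nat_lit 238)) (XT.lf (nat_lit 0) (nat_lit 4930882) (nat_lit 228) (nat_lit 882896079) (nat_lit 304) (nat_lit 21277443468) (nat_lit 31) (nat_lit 5) (nat_lit 34) (nat_lit 5) (nat_lit 35) (nat_lit 5) (nat_lit 276) (nat_lit 267) (nat_lit 237))))) (XT.nd (nat_lit 234) (nat_lit 456) (nat_lit 0) (XT.nd (nat_lit 78) (nat_lit 380) (nat_lit 0) (XT.lf (nat_lit 0) (nat_lit 8280776838) (nat_lit 304) (nat_lit 1032440453) (nat_lit 76) (nat_lit 14857199613) (nat_lit 31) (nat_lit 5) (nat_lit 35) (nat_lit 5) (nat_lit 32) (nat_lit 5) (nat_lit 277) (nat_lit 267) (nat_lit 236)) (XT.nd (nat_lit 78) (nat_lit 228) (nat_lit 0) (XT.lf (nat_lit 0) (nat_lit 17501878973) (nat_lit 228) (nat_lit 2227049054) (nat_lit 76) (nat_lit 6689957085) (nat_lit 29) (nat_lit 5) (nat_lit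 32) (nat_lit 5) (nat_lit 30) (nat_lit 5) (nat_lit 278) (nat_lit 267) (nat_lit 235)) (XT.lf (nat_lit 0) (nat_lit 6898667) (nat_lit 228) (nat_lit 3758009176) (nat_lit 76) (nat_lit 25172679635) (nat_lit 26) (nat_lit 5) (nat_lit 29) (nat_lit 5) (nat_lit 27) (nat_lit 5) (nat_lit 279) (nat_lit 267) (nat_lit 234)))) (XT.nd (nat_lit 78) (nat_lit 304) (nat_lit 0) (XT.lf (nat_lit 0) (nat_lit 10771175195) (nat_lit 228) (nat_lit 6160992130) (nat_lit 76) (nat_lit 14801077840) (nat_lit 24) (nat_lit 5) (nat_lit 27) (nat_lit 5) (nat_lit 25) (nat_lit 5) (nat_lit 280) (nat_lit 267) (nat_lit 233)) (XT.nd (nat_lit 78) (nat_lit 152) (nat_lit 0) (XT.lf (nat_lit 0) (nat_lit 23979848289) (nat_lit 228) (nat_lit 9233045182) (nat_lit 76) (nat_lit 1669030317) (nat_lit 22) (nat_lit 5) (nat_lit 25) (nat_lit 5) (nat_lit 23) (nat_lit 4) (nat_lit 281) (nat_lit 267) (nat_lit 232)) (XT.lf (nat_lit 0) (nat_lit 1870949063)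 (nat_lit 152) (nat_lit 13641352404) (nat_lit 76) (nat_lit 22890370579) (nat_lit 20) (nat_lit 5) (nat_lit 22) (nat_lit 5) (nat_lit 21) (nat_lit 5) (nat_lit 282) (nat_lit 267) (nat_lit 231)))))) (XT.nd (nat_lit 468) (nat_lit 380) (nat_lit 0) (XT.nd (nat_lit 234) (nat_lit 228) (nat_lit 0) (XT.nd (nat_lit 78) (nat_lit 228) (nat_lit 0) (XT.lf (nat_lit 0) (nat_lit 16860687901) (nat_lit 228) (nat_lit 19763275000) (nat_lit 76) (nat_lit 5729250058) (nat_lit 18) (nat_lit 5) (nat_lit 21) (nat_lit 5) (nat_lit 19) (nat_lit 4) (nat_lit 283) (nat_lit 267) (nat_lit 230)) (XT.nd (nat_lit 78) (nat_lit 152) (nat_lit 0) (XT.lf (nat_lit 0) (nat_lit 18647509604) (nat_lit 76) (nat_lit 16699536572) (nat_lit 152) (nat_lit 11449468220) (nat_lit 17) (nat_lit 5) (nat_lit 18) (nat_lit 5) (nat_lit 19) (nat_lit 4) (nat_lit 284) (nat_lit 267) (nat_lit 229)) (XT.lf (nat_lit 0) (nat_lit 5498922790) (nat_lit 152) (nat_lit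 39404703573) (nat_lit 76) (nat_lit 6910948331) (nat_lit 15) (nat_lit 5) (nat_lit 17) (nat_lit 5) (nat_lit 16) (nat_lit 4) (nat_lit 285) (nat_lit 267) (nat_lit 228)))) (XT.nd (nat_lit 78) (nat_lit 152) (nat_lit 0) (XT.lf (nat_lit 0) (nat_lit 2506220140) (nat_lit 76) (nat_lit 23155932252) (nat_lit 152) (nat_lit 31791381703) (nat_lit 14) (nat_lit 5) (nat_lit 15) (nat_lit 5) (nat_lit 16) (nat_lit 4) (nat_lit 286) (nat_lit 267) (nat_lit 227)) (XT.nd (nat_lit 78) (nat_lit 152) (nat_lit 0) (XT.lf (nat_lit 0) (nat_lit 50042092485) (nat_lit 152) (nat_lit 10884646715) (nat_lit 0) (nat_lit 2916239651) (nat_lit 14) (nat_lit 5) (nat_lit 16) (nat_lit 4) (nat_lit 14) (nat_lit 4) (nat_lit 287) (nat_lit 267) (nat_lit 226)) (XT.lf (nat_lit 0) (nat_lit 8190039223) (nat_lit 152) (nat_lit 30110590753) (nat_lit 76) (nat_lit 32745258727) (nat_lit 12) (nat_lit 5) (nat_lit 14) (nat_lit 5) (nat_lit 13) (nat_lit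 4) (nat_lit 288) (nat_lit 267) (nat_lit 225))))) (XT.nd (nat_lit 234) (nat_lit 152) (nat_lit 0) (XT.nd (nat_lit 78) (nat_lit 152) (nat_lit 0) (XT.lf (nat_lit 0) (nat_lit 22579032542) (nat_lit 76) (nat_lit 10950925701) (nat_lit 152) (nat_lit 45701211613) (nat_lit 11) (nat_lit 5) (nat_lit 12) (nat_lit 5) (nat_lit 13) (nat_lit 4) (nat_lit 289) (nat_lit 267) (nat_lit 224)) (XT.nd (nat_lit 78) (nat_lit 152) (nat_lit 0) (XT.lf (nat_lit 0) (nat_lit 64041159570) (nat_lit 152) (nat_lit 4136032954) (nat_lit 0) (nat_lit 20357438990) (nat_lit 11) (nat_lit 5) (nat_lit 13) (nat_lit 4) (nat_lit 11) (nat_lit 4) (nat_lit 290) (nat_lit 267) (nat_lit 223)) (XT.lf (nat_lit 0) (nat_lit 1644042098) (nat_lit 152) (nat_lit 40276301116) (nat_lit 76) (nat_lit 57174009388) (nat_lit 9) (nat_lit 5) (nat_lit 11) (nat_lit 5) (nat_lit 10) (nat_lit 4) (nat_lit 291) (nat_lit 267) (nat_lit 222)))) (XT.nd (nat_lit 156) (nat_lit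 76) (nat_lit 0) (XT.nd (nat_lit 78) (nat_lit 0) (nat_lit 0) (XT.lf (nat_lit 0) (nat_lit 20550719076) (nat_lit 76) (nat_lit 10342178090) (nat_lit 152) (nat_lit 80242967423) (nat_lit 8) (nat_lit 5) (nat_lit 9) (nat_lit 5) (nat_lit 10) (nat_lit 4) (nat_lit 292) (nat_lit 267) (nat_lit 221)) (XT.lf (nat_lit 0) (nat_lit 66340005776) (nat_lit 152) (nat_lit 32636246318) (nat_lit 0) (nat_lit 25862484494) (nat_lit 8) (nat_lit 5) (nat_lit 10) (nat_lit 4) (nat_lit 8) (nat_lit 4) (nat_lit 293) (nat_lit 267) (nat_lit 220))) (XT.nd (nat_lit 78) (nat_lit 0) (nat_lit 0) (XT.lf (nat_lit 0) (nat_lit 35465098033) (nat_lit 76) (nat_lit 72763469134) (nat_lit 76) (nat_lit 32278527597) (nat_lit 7) (nat_lit 4) (nat_lit 8) (nat_lit 5) (nat_lit 8) (nat_lit 4) (nat_lit 294) (nat_lit 267) (nat_lit 219)) (XT.lf (nat_lit 0) (nat_lit 115732404030) (nat_lit 76) (nat_lit 41604876317) (nat_lit 76) (nat_lit 1113482385) (nat_lit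 7) (nat_lit 4) (nat_lit 8) (nat_lit 5) (nat_lit 8) (nat_lit 4) (nat_lit 295) (nat_lit 267) (nat_lit 218))))))))
noncomputable def xc33 : XT := (XT.nd (nat_lit 1872) (nat_lit 0) (nat_lit 0) (XT.nd (nat_lit 936) (nat_lit 76) (nat_lit 0) (XT.nd (nat_lit 468) (nat_lit 152) (nat_lit 0) (XT.nd (nat_lit 234) (nat_lit 76) (nat_lit 0) (XT.nd (nat_lit 78) (nat_lit 0) (nat_lit 0) (XT.lf (nat_lit 0) (nat_lit 29575246411) (nat_lit 76) (nat_lit 4113335858) (nat_lit 152) (nat_lit 145274636423) (nat_lit 5) (nat_lit 5) (nat_lit 6) (nat_lit 5) (nat_lit 7) (nat_lit 4) (nat_lit 296) (nat_lit 267) (nat_lit 217)) (XT.nd (nat_lit 78) (nat_lit 0) (nat_lit 0) (XT.lf (nat_lit 0) (nat_lit 75849830756) (nat_lit 152) (nat_lit 88175931378) (nat_lit 0) (nat_lit 38348086638) (nat_lit 5) (nat_lit 5) (nat_lit 7) (nat_lit 4) (nat_lit 5) (nat_lit 4) (nat_lit 297) (nat_lit 267) (nat_lit 216)) (XT.lf (nat_lit 0) (nat_lit 124439404913)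 (nat_lit 152) (nat_lit 17914608206) (nat_lit 0) (nat_lit 86933732504) (nat_lit 5) (nat_lit 5) (nat_lit 7) (nat_lit 4) (nat_lit 5) (nat_lit 4) (nat_lit 298) (nat_lit 267) (nat_lit 215)))) (XT.nd (nat_lit 78) (nat_lit 0) (nat_lit 0) (XT.lf (nat_lit 0) (nat_lit 66180202903) (nat_lit 76) (nat_lit 115720477065) (nat_lit 76) (nat_lit 78211388751) (nat_lit 4) (nat_lit 4) (nat_lit 5) (nat_lit 5) (nat_lit 5) (nat_lit 4) (nat_lit 299) (nat_lit 267) (nat_lit 214)) (XT.nd (nat_lit 78) (nat_lit 0) (nat_lit 0) (XT.lf (nat_lit 0) (nat_lit 163959158366) (nat_lit 76) (nat_lit 84535914486) (nat_lit 76) (nat_lit 47023855820) (nat_lit 4) (nat_lit 4) (nat_lit 5) (nat_lit 5) (nat_lit 5) (nat_lit 4) (nat_lit 300) (nat_lit 267) (nat_lit 213)) (XT.lf (nat_lit 0) (nat_lit 276391973181) (nat_lit 76) (nat_lit 48680009774) (nat_lit 76) (nat_lit 11165368192) (nat_lit 4) (nat_lit 4) (nat_lit 5) (nat_lit 5) (nat_lit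 5) (nat_lit 4) (nat_lit 301) (nat_lit 267) (nat_lit 212))))) (XT.nd (nat_lit 234) (nat_lit 0) (nat_lit 0) (XT.nd (nat_lit 78) (nat_lit 0) (nat_lit 0) (XT.lf (nat_lit 0) (nat_lit 23044098325) (nat_lit 76) (nat_lit 6071760290) (nat_lit 152) (nat_lit 353845959051) (nat_lit 2) (nat_lit 5) (nat_lit 3) (nat_lit 5) (nat_lit 4) (nat_lit 4) (nat_lit 302) (nat_lit 267) (nat_lit 211)) (XT.nd (nat_lit 78) (nat_lit 0) (nat_lit 0) (XT.lf (nat_lit 0) (nat_lit 77611419108) (nat_lit 152) (nat_lit 315961922860) (nat_lit 0) (nat_lit 42871751839) (nat_lit 2) (nat_lit 5) (nat_lit 4) (nat_lit 4) (nat_lit 2) (nat_lit 4) (nat_lit 303) (nat_lit 267) (nat_lit 210)) (XT.lf (nat_lit 0) (nat_lit 133544430571) (nat_lit 152) (nat_lit 265590191987) (nat_lit 0) (nat_lit 98803190794) (nat_lit 2) (nat_lit 5) (nat_lit 4) (nat_lit 4) (nat_lit 2) (nat_lit 4) (nat_lit 304) (nat_lit 267) (nat_lit 209)))) (XT.nd (nat_lit 78)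 (nat_lit 0) (nat_lit 0) (XT.lf (nat_lit 0) (nat_lit 197863208552) (nat_lit 152) (nat_lit 207670966875) (nat_lit 0) (nat_lit 163120601377) (nat_lit 2) (nat_lit 5) (nat_lit 4) (nat_lit 4) (nat_lit 2) (nat_lit 4) (nat_lit 305) (nat_lit 267) (nat_lit 208)) (XT.nd (nat_lit 78) (nat_lit 0) (nat_lit 0) (XT.lf (nat_lit 0) (nat_lit 271826163925) (nat_lit 152) (nat_lit 141071045294) (nat_lit 0) (nat_lit 237082367708) (nat_lit 2) (nat_lit 5) (nat_lit 4) (nat_lit 4) (nat_lit 2) (nat_lit 4) (nat_lit 306) (nat_lit 267) (nat_lit 207)) (XT.lf (nat_lit 0) (nat_lit 356880397990) (nat_lit 152) (nat_lit 64487385301) (nat_lit 0) (nat_lit 322135567824) (nat_lit 2) (nat_lit 5) (nat_lit 4) (nat_lit 4) (nat_lit 2) (nat_lit 4) (nat_lit 307) (nat_lit 267) (nat_lit 206)))))) (XT.nd (nat_lit 468) (nat_lit 0) (nat_lit 0) (XT.nd (nat_lit 234) (nat_lit 0) (nat_lit 0) (XT.nd (nat_lit 78) (nat_lit 0) (nat_lit 0) (XT.lf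 (nat_lit 0) (nat_lit 24819985244) (nat_lit 76) (nat_lit 430466951326) (nat_lit 76) (nat_lit 395721222073) (nat_lit 1) (nat_lit 4) (nat_lit 2) (nat_lit 5) (nat_lit 2) (nat_lit 4) (nat_lit 308) (nat_lit 267) (nat_lit 205)) (XT.nd (nat_lit 78) (nat_lit 0) (nat_lit 0) (XT.lf (nat_lit 0) (nat_lit 131423646899) (nat_lit 76) (nat_lit 438905777333) (nat_lit 76) (nat_lit 404159266265) (nat_lit 1) (nat_lit 4) (nat_lit 2) (nat_lit 5) (nat_lit 2) (nat_lit 4) (nat_lit 309) (nat_lit 267) (nat_lit 204)) (XT.lf (nat_lit 0) (nat_lit 254013532050) (nat_lit 76) (nat_lit 448612568174) (nat_lit 76) (nat_lit 413865377268) (nat_lit 1) (nat_lit 4) (nat_lit 2) (nat_lit 5) (nat_lit 2) (nat_lit 4) (nat_lit 310) (nat_lit 267) (nat_lit 203)))) (XT.nd (nat_lit 78) (nat_lit 0) (nat_lit 0) (XT.lf (nat_lit 0) (nat_lit 394988138450) (nat_lit 76) (nat_lit 459777239323) (nat_lit 76) (nat_lit 425029457254) (nat_lit 1) (nat_lit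 4) (nat_lit 2) (nat_lit 5) (nat_lit 2) (nat_lit 4) (nat_lit 311) (nat_lit 267) (nat_lit 202)) (XT.nd (nat_lit 78) (nat_lit 0) (nat_lit 0) (XT.lf (nat_lit 0) (nat_lit 557105664919) (nat_lit 76) (nat_lit 472618229998) (nat_lit 76) (nat_lit 437869933873) (nat_lit 1) (nat_lit 4) (nat_lit 2) (nat_lit 5) (nat_lit 2) (nat_lit 4) (nat_lit 312) (nat_lit 267) (nat_lit 201)) (XT.lf (nat_lit 0) (nat_lit 743537976106) (nat_lit 76) (nat_lit 487386776972) (nat_lit 76) (nat_lit 452638033842) (nat_lit 1) (nat_lit 4) (nat_lit 2) (nat_lit 5) (nat_lit 2) (nat_lit 4) (nat_lit 313) (nat_lit 267) (nat_lit 200))))) (XT.nd (nat_lit 234) (nat_lit 0) (nat_lit 0) (XT.nd (nat_lit 78) (nat_lit 0) (nat_lit 0) (XT.lf (nat_lit 0) (nat_lit 957932660708) (nat_lit 76) (nat_lit 504371830079) (nat_lit 76) (nat_lit 469622698248) (nat_lit 1) (nat_lit 4) (nat_lit 2) (nat_lit 5) (nat_lit 2) (nat_lit 4) (nat_lit 314) (nat_lit 267)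 (nat_lit 199)) (XT.nd (nat_lit 78) (nat_lit 0) (nat_lit 0) (XT.lf (nat_lit 0) (nat_lit 1204484397336) (nat_lit 76) (nat_lit 523905705573) (nat_lit 76) (nat_lit 489156235743) (nat_lit 1) (nat_lit 4) (nat_lit 2) (nat_lit 5) (nat_lit 2) (nat_lit 4) (nat_lit 315) (nat_lit 267) (nat_lit 198)) (XT.lf (nat_lit 0) (nat_lit 1488017024317) (nat_lit 76) (nat_lit 546370587976) (nat_lit 76) (nat_lit 511620824233) (nat_lit 1) (nat_lit 4) (nat_lit 2) (nat_lit 5) (nat_lit 2) (nat_lit 4) (nat_lit 316) (nat_lit 267) (nat_lit 197)))) (XT.nd (nat_lit 78) (nat_lit 0) (nat_lit 0) (XT.lf (nat_lit 0) (nat_lit 1814077919134) (nat_lit 76) (nat_lit 572206007596) (nat_lit 76) (nat_lit 537455988276) (nat_lit 1) (nat_lit 4) (nat_lit 2) (nat_lit 5) (nat_lit 2) (nat_lit 4) (nat_lit 317) (nat_lit 267) (nat_lit 196)) (XT.nd (nat_lit 78) (nat_lit 0) (nat_lit 0) (XT.lf (nat_lit 0) (nat_lit 2189046534078) (nat_lit 76) (nat_lit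 601917440034) (nat_lit 76) (nat_lit 567167198473) (nat_lit 1) (nat_lit 4) (nat_lit 2) (nat_lit 5) (nat_lit 2) (nat_lit 4) (nat_lit 318) (nat_lit 267) (nat_lit 195)) (XT.lf (nat_lit 0) (nat_lit 2620259211615) (nat_lit 76) (nat_lit 636086195924) (nat_lit 76) (nat_lit 601335761111) (nat_lit 1) (nat_lit 4) (nat_lit 2) (nat_lit 5) (nat_lit 2) (nat_lit 4) (nat_lit 319) (nat_lit 267) (nat_lit 194))))))) (XT.nd (nat_lit 36972) (nat_lit 0) (nat_lit 1216) (XT.nd (nat_lit 468) (nat_lit 0) (nat_lit 0) (XT.nd (nat_lit 234) (nat_lit 0) (nat_lit 0) (XT.nd (nat_lit 78) (nat_lit 0) (nat_lit 0) (XT.lf (nat_lit 0) (nat_lit 3116152721522) (nat_lit 76) (nat_lit 675380794403) (nat_lit 76) (nat_lit 640630191545) (nat_lit 1) (nat_lit 4) (nat_lit 2) (nat_lit 5) (nat_lit 2) (nat_lit 4) (nat_lit 320) (nat_lit 267) (nat_lit 193)) (XT.nd (nat_lit 78) (nat_lit 0) (nat_lit 0) (XT.lf (nat_lit 0) (nat_lit 3686429328123)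 (nat_lit 76) (nat_lit 720570042834) (nat_lit 76) (nat_lit 685819293849) (nat_lit 1) (nat_lit 4) (nat_lit 2) (nat_lit 5) (nat_lit 2) (nat_lit 4) (nat_lit 321) (nat_lit 267) (nat_lit 192)) (XT.lf (nat_lit 0) (nat_lit 4342246617201) (nat_lit 76) (nat_lit 772538078686) (nat_lit 76) (nat_lit 737787202634) (nat_lit 1) (nat_lit 4) (nat_lit 2) (nat_lit 5) (nat_lit 2) (nat_lit 4) (nat_lit 322) (nat_lit 267) (nat_lit 191)))) (XT.nd (nat_lit 78) (nat_lit 0) (nat_lit 0) (XT.lf (nat_lit 0) (nat_lit 5096435796585) (nat_lit 76) (nat_lit 832301667876) (nat_lit 76) (nat_lit 797550681331) (nat_lit 1) (nat_lit 4) (nat_lit 2) (nat_lit 5) (nat_lit 2) (nat_lit 4) (nat_lit 323) (nat_lit 267) (nat_lit 190)) (XT.nd (nat_lit 78) (nat_lit 0) (nat_lit 0) (XT.lf (nat_lit 0) (nat_lit 5963752741524) (nat_lit 76) (nat_lit 901030098020) (nat_lit 76) (nat_lit 866279015395) (nat_lit 1) (nat_lit 4) (nat_lit 2) (nat_lit 5)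 (nat_lit 2) (nat_lit 4) (nat_lit 324) (nat_lit 267) (nat_lit 189)) (XT.lf (nat_lit 0) (nat_lit 6961166696593) (nat_lit 76) (nat_lit 980068055795) (nat_lit 76) (nat_lit 945316889621) (nat_lit 1) (nat_lit 4) (nat_lit 2) (nat_lit 5) (nat_lit 2) (nat_lit 4) (nat_lit 325) (nat_lit 267) (nat_lit 188))))) (XT.nd (nat_lit 36270) (nat_lit 0) (nat_lit 3572) (XT.nd (nat_lit 36114) (nat_lit 0) (nat_lit 3800) (XT.lf (nat_lit 0) (nat_lit 8108192282651) (nat_lit 76) (nat_lit 1070961936026) (nat_lit 76) (nat_lit 1036210697202) (nat_lit 1) (nat_lit 4) (nat_lit 2) (nat_lit 5) (nat_lit 2) (nat_lit 4) (nat_lit 326) (nat_lit 267) (nat_lit 187)) (XT.nd (nat_lit 78) (nat_lit 0) (nat_lit 76) (XT.lf (nat_lit 0) (nat_lit 2857150957) (nat_lit 532) (nat_lit 1759606904) (nat_lit 532) (nat_lit 1759606904) (nat_lit 51) (nat_lit 3) (nat_lit 58) (nat_lit 3) (nat_lit 58) (nat_lit 5) (nat_lit 268) (nat_lit 268) (nat_lit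 244)) (XT.lf (nat_lit 0) (nat_lit 7061802809) (nat_lit 456) (nat_lit 5571560801) (nat_lit 532) (nat_lit 1000798323) (nat_lit 52) (nat_lit 5) (nat_lit 58) (nat_lit 5) (nat_lit 59) (nat_lit 5) (nat_lit 269) (nat_lit 268) (nat_lit 243)))) (XT.nd (nat_lit 78) (nat_lit 304) (nat_lit 0) (XT.lf (nat_lit 76) (nat_lit 6962879734) (nat_lit 0) (nat_lit 2051662052) (nat_lit 532) (nat_lit 5601286885) (nat_lit 53) (nat_lit 5) (nat_lit 52) (nat_lit 5) (nat_lit 59) (nat_lit 5) (nat_lit 270) (nat_lit 268) (nat_lit 242)) (XT.nd (nat_lit 78) (nat_lit 380) (nat_lit 0) (XT.lf (nat_lit 76) (nat_lit 5947611044) (nat_lit 0) (nat_lit 5755827101) (nat_lit 532) (nat_lit 4006081042) (nat_lit 54) (nat_lit 5) (nat_lit 53) (nat_lit 5) (nat_lit 60) (nat_lit 5) (nat_lit 271) (nat_lit 268) (nat_lit 241)) (XT.lf (nat_lit 0) (nat_lit 5046319559) (nat_lit 456) (nat_lit 10218532005) (nat_lit 532) (nat_lit 1665080146) (nat_lit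 48) (nat_lit 5) (nat_lit 54) (nat_lit 5) (nat_lit 55) (nat_lit 5) (nat_lit 272) (nat_lit 268) (nat_lit 240)))))) (XT.nd (nat_lit 468) (nat_lit 1064) (nat_lit 0) (XT.nd (nat_lit 234) (nat_lit 456) (nat_lit 0) (XT.nd (nat_lit 78) (nat_lit 456) (nat_lit 0) (XT.lf (nat_lit 0) (nat_lit 1510054676) (nat_lit 380) (nat_lit 14067268641) (nat_lit 76) (nat_lit 2711521220) (nat_lit 43) (nat_lit 5) (nat_lit 48) (nat_lit 5) (nat_lit 44) (nat_lit 5) (nat_lit 273) (nat_lit 268) (nat_lit 239)) (XT.nd (nat_lit 78) (nat_lit 228) (nat_lit 0) (XT.lf (nat_lit 0) (nat_lit 3386491839) (nat_lit 228) (nat_lit 2319546497) (nat_lit 304) (nat_lit 14090784602) (nat_lit 40) (nat_lit 5) (nat_lit 43) (nat_lit 5) (nat_lit 44) (nat_lit 5) (nat_lit 274) (nat_lit 268) (nat_lit 238)) (XT.lf (nat_lit 0) (nat_lit 2535202559) (nat_lit 228) (nat_lit 8717881668) (nat_lit 304) (nat_lit 10220304308) (nat_lit 37) (nat_lit 5) (nat_lit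 40) (nat_lit 5) (nat_lit 41) (nat_lit 5) (nat_lit 275) (nat_lit 268) (nat_lit 237)))) (XT.nd (nat_lit 78) (nat_lit 304) (nat_lit 0) (XT.lf (nat_lit 0) (nat_lit 1726821118) (nat_lit 152) (nat_lit 16594073662) (nat_lit 228) (nat_lit 5025555058) (nat_lit 35) (nat_lit 5) (nat_lit 37) (nat_lit 5) (nat_lit 38) (nat_lit 5) (nat_lit 276) (nat_lit 268) (nat_lit 236)) (XT.nd (nat_lit 78) (nat_lit 0) (nat_lit 0) (XT.lf (nat_lit 0) (nat_lit 871036118) (nat_lit 228) (nat_lit 799303970) (nat_lit 304) (nat_lit 23766841923) (nat_lit 31) (nat_lit 5) (nat_lit 34) (nat_lit 5) (nat_lit 35) (nat_lit 5) (nat_lit 277) (nat_lit 268) (nat_lit 235)) (XT.lf (nat_lit 0) (nat_lit 10092053821) (nat_lit 304) (nat_lit 393350744) (nat_lit 76) (nat_lit 17264231728) (nat_lit 31) (nat_lit 5) (nat_lit 35) (nat_lit 5) (nat_lit 32) (nat_lit 5) (nat_lit 278) (nat_lit 268) (nat_lit 234))))) (XT.nd (nat_lit 234) (nat_lit 532)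 (nat_lit 0) (XT.nd (nat_lit 78) (nat_lit 380) (nat_lit 0) (XT.lf (nat_lit 0) (nat_lit 20644716487) (nat_lit 228) (nat_lit 1797813521) (nat_lit 76) (nat_lit 7897078801) (nat_lit 29) (nat_lit 5) (nat_lit 32) (nat_lit 5) (nat_lit 30) (nat_lit 5) (nat_lit 279) (nat_lit 268) (nat_lit 233)) (XT.nd (nat_lit 78) (nat_lit 152) (nat_lit 0) (XT.lf (nat_lit 0) (nat_lit 487493319) (nat_lit 228) (nat_lit 3597206507) (nat_lit 76) (nat_lit 29154593661) (nat_lit 26) (nat_lit 5) (nat_lit 29) (nat_lit 5) (nat_lit 27) (nat_lit 5) (nat_lit 280) (nat_lit 268) (nat_lit 232)) (XT.lf (nat_lit 0) (nat_lit 12825346304) (nat_lit 228) (nat_lit 6392369400) (nat_lit 76) (nat_lit 17239943325) (nat_lit 24) (nat_lit 5) (nat_lit 27) (nat_lit 5) (nat_lit 25) (nat_lit 5) (nat_lit 281) (nat_lit 268) (nat_lit 231)))) (XT.nd (nat_lit 156) (nat_lit 228) (nat_lit 0) (XT.nd (nat_lit 78) (nat_lit 152) (nat_lit 0) (XT.lf (nat_lit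 0) (nat_lit 27979090104) (nat_lit 228) (nat_lit 9957430865) (nat_lit 76) (nat_lit 2145081243) (nat_lit 22) (nat_lit 5) (nat_lit 25) (nat_lit 5) (nat_lit 23) (nat_lit 4) (nat_lit 282) (nat_lit 268) (nat_lit 230)) (XT.lf (nat_lit 0) (nat_lit 2525746389) (nat_lit 152) (nat_lit 15062850493) (nat_lit 76) (nat_lit 26544198180) (nat_lit 20) (nat_lit 5) (nat_lit 22) (nat_lit 5) (nat_lit 21) (nat_lit 5) (nat_lit 283) (nat_lit 268) (nat_lit 229))) (XT.nd (nat_lit 78) (nat_lit 76) (nat_lit 0) (XT.lf (nat_lit 0) (nat_lit 19734492646) (nat_lit 228) (nat_lit 22134107886) (nat_lit 76) (nat_lit 6809717903) (nat_lit 18) (nat_lit 5) (nat_lit 21) (nat_lit 5) (nat_lit 19) (nat_lit 4) (nat_lit 284) (nat_lit 268) (nat_lit 228)) (XT.lf (nat_lit 0) (nat_lit 21988044185) (nat_lit 76) (nat_lit 18973868383) (nat_lit 152) (nat_lit 12828793064) (nat_lit 17) (nat_lit 5) (nat_lit 18) (nat_lit 5) (nat_lit 19) (nat_lit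 4) (nat_lit 285) (nat_lit 268) (nat_lit 227))))))))
noncomputable def xc34 : XT := (XT.nd (nat_lit 1872) (nat_lit 0) (nat_lit 0) (XT.nd (nat_lit 936) (nat_lit 304) (nat_lit 0) (XT.nd (nat_lit 468) (nat_lit 456) (nat_lit 0) (XT.nd (nat_lit 234) (nat_lit 228) (nat_lit 0) (XT.nd (nat_lit 78) (nat_lit 76) (nat_lit 0) (XT.lf (nat_lit 0) (nat_lit 6620717441) (nat_lit 152) (nat_lit 44784081167) (nat_lit 76) (nat_lit 8157995513) (nat_lit 15) (nat_lit 5) (nat_lit 17) (nat_lit 5) (nat_lit 16) (nat_lit 4) (nat_lit 286) (nat_lit 268) (nat_lit 226)) (XT.nd (nat_lit 78) (nat_lit 0) (nat_lit 0) (XT.lf (nat_lit 0) (nat_lit 3368506840) (nat_lit 76) (nat_lit 26412888039) (nat_lit 152) (nat_lit 36268392908) (nat_lit 14) (nat_lit 5) (nat_lit 15) (nat_lit 5) (nat_lit 16) (nat_lit 4) (nat_lit 287) (nat_lit 268) (nat_lit 225)) (XT.lf (nat_lit 0) (nat_lit 57787645378) (nat_lit 152) (nat_lit 12080017760) (nat_lit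 0) (nat_lit 3532464418) (nat_lit 14) (nat_lit 5) (nat_lit 16) (nat_lit 4) (nat_lit 14) (nat_lit 4) (nat_lit 288) (nat_lit 268) (nat_lit 224)))) (XT.nd (nat_lit 78) (nat_lit 76) (nat_lit 0) (XT.lf (nat_lit 0) (nat_lit 9641991354) (nat_lit 152) (nat_lit 34214976565) (nat_lit 76) (nat_lit 37827800371) (nat_lit 12) (nat_lit 5) (nat_lit 14) (nat_lit 5) (nat_lit 13) (nat_lit 4) (nat_lit 289) (nat_lit 268) (nat_lit 223)) (XT.nd (nat_lit 78) (nat_lit 0) (nat_lit 0) (XT.lf (nat_lit 0) (nat_lit 26343199310) (nat_lit 76) (nat_lit 12419628113) (nat_lit 152) (nat_lit 52336636554) (nat_lit 11) (nat_lit 5) (nat_lit 12) (nat_lit 5) (nat_lit 13) (nat_lit 4) (nat_lit 290) (nat_lit 268) (nat_lit 222)) (XT.lf (nat_lit 0) (nat_lit 73827819262) (nat_lit 152) (nat_lit 4417733488) (nat_lit 0) (nat_lit 23554737829) (nat_lit 11) (nat_lit 5) (nat_lit 13) (nat_lit 4) (nat_lit 11) (nat_lit 4) (nat_lit 291) (nat_lit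 268) (nat_lit 221))))) (XT.nd (nat_lit 234) (nat_lit 228) (nat_lit 0) (XT.nd (nat_lit 78) (nat_lit 76) (nat_lit 0) (XT.lf (nat_lit 0) (nat_lit 2059398999) (nat_lit 152) (nat_lit 45998747469) (nat_lit 76) (nat_lit 65886781037) (nat_lit 9) (nat_lit 5) (nat_lit 11) (nat_lit 5) (nat_lit 10) (nat_lit 4) (nat_lit 292) (nat_lit 268) (nat_lit 220)) (XT.nd (nat_lit 78) (nat_lit 0) (nat_lit 0) (XT.lf (nat_lit 0) (nat_lit 23925324091) (nat_lit 76) (nat_lit 11755269829) (nat_lit 152) (nat_lit 92113281608) (nat_lit 8) (nat_lit 5) (nat_lit 9) (nat_lit 5) (nat_lit 10) (nat_lit 4) (nat_lit 293) (nat_lit 268) (nat_lit 219)) (XT.lf (nat_lit 0) (nat_lit 76427603803) (nat_lit 152) (nat_lit 37269908181) (nat_lit 0) (nat_lit 29856048386) (nat_lit 8) (nat_lit 5) (nat_lit 10) (nat_lit 4) (nat_lit 8) (nat_lit 4) (nat_lit 294) (nat_lit 268) (nat_lit 218)))) (XT.nd (nat_lit 78) (nat_lit 152) (nat_lit 0) (XT.lf (nat_lit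 0) (nat_lit 41024479866) (nat_lit 76) (nat_lit 83562915312) (nat_lit 76) (nat_lit 36985749118) (nat_lit 7) (nat_lit 4) (nat_lit 8) (nat_lit 5) (nat_lit 8) (nat_lit 4) (nat_lit 295) (nat_lit 268) (nat_lit 217)) (XT.nd (nat_lit 78) (nat_lit 152) (nat_lit 0) (XT.lf (nat_lit 0) (nat_lit 133300627354) (nat_lit 76) (nat_lit 47745543250) (nat_lit 76) (nat_lit 1163498118) (nat_lit 7) (nat_lit 4) (nat_lit 8) (nat_lit 5) (nat_lit 8) (nat_lit 4) (nat_lit 296) (nat_lit 268) (nat_lit 216)) (XT.lf (nat_lit 0) (nat_lit 34207654701) (nat_lit 76) (nat_lit 4635586831) (nat_lit 152) (nat_lit 166956314331) (nat_lit 5) (nat_lit 5) (nat_lit 6) (nat_lit 5) (nat_lit 7) (nat_lit 4) (nat_lit 297) (nat_lit 268) (nat_lit 215)))))) (XT.nd (nat_lit 468) (nat_lit 76) (nat_lit 0) (XT.nd (nat_lit 234) (nat_lit 152) (nat_lit 0) (XT.nd (nat_lit 78) (nat_lit 76) (nat_lit 0) (XT.lf (nat_lit 0) (nat_lit 87317436367) (nat_lit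 152) (nat_lit 101226679140) (nat_lit 0) (nat_lit 44178568900) (nat_lit 5) (nat_lit 5) (nat_lit 7) (nat_lit 4) (nat_lit 5) (nat_lit 4) (nat_lit 298) (nat_lit 268) (nat_lit 214)) (XT.nd (nat_lit 78) (nat_lit 76) (nat_lit 0) (XT.lf (nat_lit 0) (nat_lit 143183690431) (nat_lit 152) (nat_lit 20449067311) (nat_lit 0) (nat_lit 100041852612) (nat_lit 5) (nat_lit 5) (nat_lit 7) (nat_lit 4) (nat_lit 5) (nat_lit 4) (nat_lit 299) (nat_lit 268) (nat_lit 213)) (XT.lf (nat_lit 0) (nat_lit 76247037451) (nat_lit 76) (nat_lit 133010258788) (nat_lit 76) (nat_lit 89865838054) (nat_lit 4) (nat_lit 4) (nat_lit 5) (nat_lit 5) (nat_lit 5) (nat_lit 4) (nat_lit 300) (nat_lit 268) (nat_lit 212)))) (XT.nd (nat_lit 78) (nat_lit 152) (nat_lit 0) (XT.lf (nat_lit 0) (nat_lit 188674600914) (nat_lit 76) (nat_lit 97156919193) (nat_lit 76) (nat_lit 54010252445) (nat_lit 4) (nat_lit 4) (nat_lit 5) (nat_lit 5) (nat_lit 5) (nat_lit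 4) (nat_lit 301) (nat_lit 268) (nat_lit 211)) (XT.nd (nat_lit 78) (nat_lit 152) (nat_lit 0) (XT.lf (nat_lit 0) (nat_lit 317956481153) (nat_lit 76) (nat_lit 55930374312) (nat_lit 76) (nat_lit 12781754510) (nat_lit 4) (nat_lit 4) (nat_lit 5) (nat_lit 5) (nat_lit 5) (nat_lit 4) (nat_lit 302) (nat_lit 268) (nat_lit 210)) (XT.lf (nat_lit 0) (nat_lit 26600167182) (nat_lit 76) (nat_lit 6933719978) (nat_lit 152) (nat_lit 406868136814) (nat_lit 2) (nat_lit 5) (nat_lit 3) (nat_lit 5) (nat_lit 4) (nat_lit 4) (nat_lit 303) (nat_lit 268) (nat_lit 209))))) (XT.nd (nat_lit 234) (nat_lit 76) (nat_lit 0) (XT.nd (nat_lit 78) (nat_lit 0) (nat_lit 0) (XT.lf (nat_lit 0) (nat_lit 89298195885) (nat_lit 152) (nat_lit 363267214155) (nat_lit 0) (nat_lit 49342830236) (nat_lit 2) (nat_lit 5) (nat_lit 4) (nat_lit 4) (nat_lit 2) (nat_lit 4) (nat_lit 304) (nat_lit 268) (nat_lit 208)) (XT.nd (nat_lit 78) (nat_lit 0)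 (nat_lit 0) (XT.lf (nat_lit 0) (nat_lit 153615281166) (nat_lit 152) (nat_lit 305351331972) (nat_lit 0) (nat_lit 113658726475) (nat_lit 2) (nat_lit 5) (nat_lit 4) (nat_lit 4) (nat_lit 2) (nat_lit 4) (nat_lit 305) (nat_lit 268) (nat_lit 207)) (XT.lf (nat_lit 0) (nat_lit 227576764626) (nat_lit 152) (nat_lit 238754317287) (nat_lit 0) (nat_lit 187619175985) (nat_lit 2) (nat_lit 5) (nat_lit 4) (nat_lit 4) (nat_lit 2) (nat_lit 4) (nat_lit 306) (nat_lit 268) (nat_lit 206)))) (XT.nd (nat_lit 78) (nat_lit 76) (nat_lit 0) (XT.lf (nat_lit 0) (nat_lit 312629718767) (nat_lit 152) (nat_lit 162173185028) (nat_lit 0) (nat_lit 272671231040) (nat_lit 2) (nat_lit 5) (nat_lit 4) (nat_lit 4) (nat_lit 2) (nat_lit 4) (nat_lit 307) (nat_lit 268) (nat_lit 205)) (XT.nd (nat_lit 78) (nat_lit 76) (nat_lit 0) (XT.lf (nat_lit 0) (nat_lit 410438223126) (nat_lit 152) (nat_lit 74109608696) (nat_lit 0) (nat_lit 370478953585)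 (nat_lit 2) (nat_lit 5) (nat_lit 4) (nat_lit 4) (nat_lit 2) (nat_lit 4) (nat_lit 308) (nat_lit 268) (nat_lit 204)) (XT.lf (nat_lit 0) (nat_lit 28589560320) (nat_lit 76) (nat_lit 495013941648) (nat_lit 76) (nat_lit 455053992268) (nat_lit 1) (nat_lit 4) (nat_lit 2) (nat_lit 5) (nat_lit 2) (nat_lit 4) (nat_lit 309) (nat_lit 268) (nat_lit 203))))))) (XT.nd (nat_lit 936) (nat_lit 0) (nat_lit 0) (XT.nd (nat_lit 468) (nat_lit 0) (nat_lit 0) (XT.nd (nat_lit 234) (nat_lit 0) (nat_lit 0) (XT.nd (nat_lit 78) (nat_lit 0) (nat_lit 0) (XT.lf (nat_lit 0) (nat_lit 151177695925) (nat_lit 76) (nat_lit 504721598388) (nat_lit 76) (nat_lit 464761057844) (nat_lit 1) (nat_lit 4) (nat_lit 2) (nat_lit 5) (nat_lit 2) (nat_lit 4) (nat_lit 310) (nat_lit 268) (nat_lit 202)) (XT.nd (nat_lit 78) (nat_lit 0) (nat_lit 0) (XT.lf (nat_lit 0) (nat_lit 292150780980) (nat_lit 76) (nat_lit 515887022492) (nat_lit 76) (nat_lit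 475925967892) (nat_lit 1) (nat_lit 4) (nat_lit 2) (nat_lit 5) (nat_lit 2) (nat_lit 4) (nat_lit 311) (nat_lit 268) (nat_lit 201)) (XT.lf (nat_lit 0) (nat_lit 454266984541) (nat_lit 76) (nat_lit 528728667910) (nat_lit 76) (nat_lit 488767166306) (nat_lit 1) (nat_lit 4) (nat_lit 2) (nat_lit 5) (nat_lit 2) (nat_lit 4) (nat_lit 312) (nat_lit 268) (nat_lit 200)))) (XT.nd (nat_lit 78) (nat_lit 0) (nat_lit 0) (XT.lf (nat_lit 0) (nat_lit 640698145373) (nat_lit 76) (nat_lit 543497784227) (nat_lit 76) (nat_lit 503535893922) (nat_lit 1) (nat_lit 4) (nat_lit 2) (nat_lit 5) (nat_lit 2) (nat_lit 4) (nat_lit 313) (nat_lit 268) (nat_lit 199)) (XT.nd (nat_lit 78) (nat_lit 0) (nat_lit 0) (XT.lf (nat_lit 0) (nat_lit 855091829666) (nat_lit 76) (nat_lit 560483332413) (nat_lit 76) (nat_lit 520521104109) (nat_lit 1) (nat_lit 4) (nat_lit 2) (nat_lit 5) (nat_lit 2) (nat_lit 4) (nat_lit 314) (nat_lit 268) (nat_lit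 198)) (XT.lf (nat_lit 0) (nat_lit 1101642696461) (nat_lit 76) (nat_lit 580017638412) (nat_lit 76) (nat_lit 540055116194) (nat_lit 1) (nat_lit 4) (nat_lit 2) (nat_lit 5) (nat_lit 2) (nat_lit 4) (nat_lit 315) (nat_lit 268) (nat_lit 197))))) (XT.nd (nat_lit 234) (nat_lit 0) (nat_lit 0) (XT.nd (nat_lit 78) (nat_lit 0) (nat_lit 0) (XT.lf (nat_lit 0) (nat_lit 1385174567065) (nat_lit 76) (nat_lit 602482895167) (nat_lit 76) (nat_lit 562520117373) (nat_lit 1) (nat_lit 4) (nat_lit 2) (nat_lit 5) (nat_lit 2) (nat_lit 4) (nat_lit 316) (nat_lit 268) (nat_lit 196)) (XT.nd (nat_lit 78) (nat_lit 0) (nat_lit 0) (XT.lf (nat_lit 0) (nat_lit 1711234804163) (nat_lit 76) (nat_lit 628318640310) (nat_lit 76) (nat_lit 588355640275) (nat_lit 1) (nat_lit 4) (nat_lit 2) (nat_lit 5) (nat_lit 2) (nat_lit 4) (nat_lit 317) (nat_lit 268) (nat_lit 195)) (XT.lf (nat_lit 0) (nat_lit 2086202847177) (nat_lit 76) (nat_lit 658030355811)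 (nat_lit 76) (nat_lit 618067162524) (nat_lit 1) (nat_lit 4) (nat_lit 2) (nat_lit 5) (nat_lit 2) (nat_lit 4) (nat_lit 318) (nat_lit 268) (nat_lit 194)))) (XT.nd (nat_lit 78) (nat_lit 0) (nat_lit 0) (XT.lf (nat_lit 0) (nat_lit 2517415027384) (nat_lit 76) (nat_lit 692199357844) (nat_lit 76) (nat_lit 652235996511) (nat_lit 1) (nat_lit 4) (nat_lit 2) (nat_lit 5) (nat_lit 2) (nat_lit 4) (nat_lit 319) (nat_lit 268) (nat_lit 193)) (XT.nd (nat_lit 78) (nat_lit 0) (nat_lit 0) (XT.lf (nat_lit 0) (nat_lit 3013308104829) (nat_lit 76) (nat_lit 731494170360) (nat_lit 76) (nat_lit 691530662901) (nat_lit 1) (nat_lit 4) (nat_lit 2) (nat_lit 5) (nat_lit 2) (nat_lit 4) (nat_lit 320) (nat_lit 268) (nat_lit 192)) (XT.lf (nat_lit 0) (nat_lit 3583584335378) (nat_lit 76) (nat_lit 776683604910) (nat_lit 76) (nat_lit 736719970384) (nat_lit 1) (nat_lit 4) (nat_lit 2) (nat_lit 5) (nat_lit 2) (nat_lit 4) (nat_lit 321)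 (nat_lit 268) (nat_lit 191)))))) (XT.nd (nat_lit 36582) (nat_lit 0) (nat_lit 2736) (XT.nd (nat_lit 234) (nat_lit 0) (nat_lit 0) (XT.nd (nat_lit 78) (nat_lit 0) (nat_lit 0) (XT.lf (nat_lit 0) (nat_lit 4239401297454) (nat_lit 76) (nat_lit 828651802604) (nat_lit 76) (nat_lit 788688057585) (nat_lit 1) (nat_lit 4) (nat_lit 2) (nat_lit 5) (nat_lit 2) (nat_lit 4) (nat_lit 322) (nat_lit 268) (nat_lit 190)) (XT.nd (nat_lit 78) (nat_lit 0) (nat_lit 0) (XT.lf (nat_lit 0) (nat_lit 4993590192487) (nat_lit 76) (nat_lit 888415532527) (nat_lit 76) (nat_lit 848451691427) (nat_lit 1) (nat_lit 4) (nat_lit 2) (nat_lit 5) (nat_lit 2) (nat_lit 4) (nat_lit 323) (nat_lit 268) (nat_lit 189)) (XT.lf (nat_lit 0) (nat_lit 5860906890165) (nat_lit 76) (nat_lit 957144085048) (nat_lit 76) (nat_lit 917180160399) (nat_lit 1) (nat_lit 4) (nat_lit 2) (nat_lit 5) (nat_lit 2) (nat_lit 4) (nat_lit 324) (nat_lit 268) (nat_lit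 188)))) (XT.nd (nat_lit 78) (nat_lit 0) (nat_lit 0) (XT.lf (nat_lit 0) (nat_lit 6858320630224) (nat_lit 76) (nat_lit 1036182149236) (nat_lit 76) (nat_lit 996218151937) (nat_lit 1) (nat_lit 4) (nat_lit 2) (nat_lit 5) (nat_lit 2) (nat_lit 4) (nat_lit 325) (nat_lit 268) (nat_lit 187)) (XT.nd (nat_lit 36192) (nat_lit 0) (nat_lit 3800) (XT.lf (nat_lit 0) (nat_lit 8005346029317) (nat_lit 76) (nat_lit 1127076122002) (nat_lit 76) (nat_lit 1087112061528) (nat_lit 1) (nat_lit 4) (nat_lit 2) (nat_lit 5) (nat_lit 2) (nat_lit 4) (nat_lit 326) (nat_lit 268) (nat_lit 186)) (XT.lf (nat_lit 0) (nat_lit 3955806090) (nat_lit 532) (nat_lit 1660980590) (nat_lit 532) (nat_lit 1660980590) (nat_lit 51) (nat_lit 3) (nat_lit 58) (nat_lit 3) (nat_lit 58) (nat_lit 5) (nat_lit 269) (nat_lit 269) (nat_lit 242))))) (XT.nd (nat_lit 234) (nat_lit 1140) (nat_lit 0) (XT.nd (nat_lit 78) (nat_lit 0) (nat_lit 0) (XT.lf (nat_lit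 0) (nat_lit 9289949886) (nat_lit 456) (nat_lit 5634071685) (nat_lit 532) (nat_lit 659240413) (nat_lit 52) (nat_lit 5) (nat_lit 58) (nat_lit 5) (nat_lit 59) (nat_lit 5) (nat_lit 270) (nat_lit 269) (nat_lit 241)) (XT.nd (nat_lit 78) (nat_lit 0) (nat_lit 76) (XT.lf (nat_lit 76) (nat_lit 8715085434) (nat_lit 0) (nat_lit 2685074079) (nat_lit 532) (nat_lit 5323182363) (nat_lit 53) (nat_lit 5) (nat_lit 52) (nat_lit 5) (nat_lit 59) (nat_lit 5) (nat_lit 271) (nat_lit 269) (nat_lit 240)) (XT.lf (nat_lit 76) (nat_lit 7572464185) (nat_lit 0) (nat_lit 6795941205) (nat_lit 532) (nat_lit 3622884529) (nat_lit 54) (nat_lit 5) (nat_lit 53) (nat_lit 5) (nat_lit 60) (nat_lit 5) (nat_lit 272) (nat_lit 269) (nat_lit 239)))) (XT.nd (nat_lit 156) (nat_lit 456) (nat_lit 0) (XT.nd (nat_lit 78) (nat_lit 380) (nat_lit 0) (XT.lf (nat_lit 0) (nat_lit 6546187201) (nat_lit 456) (nat_lit 11813390570) (nat_lit 532) (nat_lit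 1043790753) (nat_lit 48) (nat_lit 5) (nat_lit 54) (nat_lit 5) (nat_lit 55) (nat_lit 5) (nat_lit 273) (nat_lit 269) (nat_lit 238)) (XT.lf (nat_lit 0) (nat_lit 2473082161) (nat_lit 380) (nat_lit 15395380400) (nat_lit 76) (nat_lit 3103456144) (nat_lit 43) (nat_lit 5) (nat_lit 48) (nat_lit 5) (nat_lit 44) (nat_lit 5) (nat_lit 274) (nat_lit 269) (nat_lit 237))) (XT.nd (nat_lit 78) (nat_lit 228) (nat_lit 0) (XT.lf (nat_lit 0) (nat_lit 4610253564) (nat_lit 228) (nat_lit 2609356792) (nat_lit 304) (nat_lit 15492965357) (nat_lit 40) (nat_lit 5) (nat_lit 43) (nat_lit 5) (nat_lit 44) (nat_lit 5) (nat_lit 275) (nat_lit 269) (nat_lit 236)) (XT.lf (nat_lit 0) (nat_lit 3618622746) (nat_lit 228) (nat_lit 9912433859) (nat_lit 304) (nat_lit 11115133027) (nat_lit 37) (nat_lit 5) (nat_lit 40) (nat_lit 5) (nat_lit 41) (nat_lit 5) (nat_lit 276) (nat_lit 269) (nat_lit 235))))))))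
noncomputable def xc35 : XT := (XT.nd (nat_lit 1872) (nat_lit 304) (nat_lit 0) (XT.nd (nat_lit 936) (nat_lit 684) (nat_lit 0) (XT.nd (nat_lit 468) (nat_lit 760) (nat_lit 0) (XT.nd (nat_lit 234) (nat_lit 380) (nat_lit 0) (XT.nd (nat_lit 78) (nat_lit 456) (nat_lit 0) (XT.lf (nat_lit 0) (nat_lit 2671103012) (nat_lit 152) (nat_lit 18929824320) (nat_lit 228) (nat_lit 5204062979) (nat_lit 35) (nat_lit 5) (nat_lit 37) (nat_lit 5) (nat_lit 38) (nat_lit 5) (nat_lit 277) (nat_lit 269) (nat_lit 234)) (XT.nd (nat_lit 78) (nat_lit 152) (nat_lit 0) (XT.lf (nat_lit 0) (nat_lit 1656032257) (nat_lit 228) (nat_lit 755852480) (nat_lit 304) (nat_lit 26800890468) (nat_lit 31) (nat_lit 5) (nat_lit 34) (nat_lit 5) (nat_lit 35) (nat_lit 5) (nat_lit 278) (nat_lit 269) (nat_lit 233)) (XT.lf (nat_lit 0) (nat_lit 155784234) (nat_lit 152) (nat_lit 11884191349) (nat_lit 228) (nat_lit 19836764349) (nat_lit 29) (nat_lit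 5) (nat_lit 31) (nat_lit 5) (nat_lit 32) (nat_lit 5) (nat_lit 279) (nat_lit 269) (nat_lit 232)))) (XT.nd (nat_lit 78) (nat_lit 380) (nat_lit 0) (XT.lf (nat_lit 0) (nat_lit 24132770400) (nat_lit 228) (nat_lit 1490326464) (nat_lit 76) (nat_lit 9235612759) (nat_lit 29) (nat_lit 5) (nat_lit 32) (nat_lit 5) (nat_lit 30) (nat_lit 5) (nat_lit 280) (nat_lit 269) (nat_lit 231)) (XT.nd (nat_lit 78) (nat_lit 152) (nat_lit 0) (XT.lf (nat_lit 0) (nat_lit 923233463) (nat_lit 228) (nat_lit 3588958337) (nat_lit 76) (nat_lit 33683557440) (nat_lit 26) (nat_lit 5) (nat_lit 29) (nat_lit 5) (nat_lit 27) (nat_lit 5) (nat_lit 281) (nat_lit 269) (nat_lit 230)) (XT.lf (nat_lit 0) (nat_lit 15080713338) (nat_lit 228) (nat_lit 6827389990) (nat_lit 76) (nat_lit 19991306323) (nat_lit 24) (nat_lit 5) (nat_lit 27) (nat_lit 5) (nat_lit 25) (nat_lit 5) (nat_lit 282) (nat_lit 269) (nat_lit 229))))) (XT.nd (nat_lit 234)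 (nat_lit 304) (nat_lit 0) (XT.nd (nat_lit 78) (nat_lit 304) (nat_lit 0) (XT.lf (nat_lit 0) (nat_lit 32480123427) (nat_lit 228) (nat_lit 10951558846) (nat_lit 76) (nat_lit 2637502317) (nat_lit 22) (nat_lit 5) (nat_lit 25) (nat_lit 5) (nat_lit 23) (nat_lit 4) (nat_lit 283) (nat_lit 269) (nat_lit 228)) (XT.nd (nat_lit 78) (nat_lit 152) (nat_lit 0) (XT.lf (nat_lit 0) (nat_lit 3187523256) (nat_lit 152) (nat_lit 16849911509) (nat_lit 76) (nat_lit 30692385196) (nat_lit 20) (nat_lit 5) (nat_lit 22) (nat_lit 5) (nat_lit 21) (nat_lit 5) (nat_lit 284) (nat_lit 269) (nat_lit 227)) (XT.lf (nat_lit 0) (nat_lit 22955310444) (nat_lit 228) (nat_lit 25005333057) (nat_lit 76) (nat_lit 7998344086) (nat_lit 18) (nat_lit 5) (nat_lit 21) (nat_lit 5) (nat_lit 19) (nat_lit 4) (nat_lit 285) (nat_lit 269) (nat_lit 226)))) (XT.nd (nat_lit 78) (nat_lit 228) (nat_lit 0) (XT.lf (nat_lit 0) (nat_lit 25697145436) (nat_lit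 76) (nat_lit 21645582913) (nat_lit 152) (nat_lit 14497463335) (nat_lit 17) (nat_lit 5) (nat_lit 18) (nat_lit 5) (nat_lit 19) (nat_lit 4) (nat_lit 286) (nat_lit 269) (nat_lit 225)) (XT.nd (nat_lit 78) (nat_lit 76) (nat_lit 0) (XT.lf (nat_lit 0) (nat_lit 7838366632) (nat_lit 152) (nat_lit 51099933083) (nat_lit 76) (nat_lit 9540791197) (nat_lit 15) (nat_lit 5) (nat_lit 17) (nat_lit 5) (nat_lit 16) (nat_lit 4) (nat_lit 287) (nat_lit 269) (nat_lit 224)) (XT.lf (nat_lit 0) (nat_lit 4241536120) (nat_lit 76) (nat_lit 30211166009) (nat_lit 152) (nat_lit 41488087723) (nat_lit 14) (nat_lit 5) (nat_lit 15) (nat_lit 5) (nat_lit 16) (nat_lit 4) (nat_lit 288) (nat_lit 269) (nat_lit 223)))))) (XT.nd (nat_lit 468) (nat_lit 228) (nat_lit 0) (XT.nd (nat_lit 234) (nat_lit 228) (nat_lit 0) (XT.nd (nat_lit 78) (nat_lit 228) (nat_lit 0) (XT.lf (nat_lit 0) (nat_lit 66636691254) (nat_lit 152) (nat_lit 13561339167)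 (nat_lit 0) (nat_lit 4197524114) (nat_lit 14) (nat_lit 5) (nat_lit 16) (nat_lit 4) (nat_lit 14) (nat_lit 4) (nat_lit 289) (nat_lit 269) (nat_lit 222)) (XT.nd (nat_lit 78) (nat_lit 76) (nat_lit 0) (XT.lf (nat_lit 0) (nat_lit 11257247521) (nat_lit 152) (nat_lit 39035538511) (nat_lit 76) (nat_lit 43631084101) (nat_lit 12) (nat_lit 5) (nat_lit 14) (nat_lit 5) (nat_lit 13) (nat_lit 4) (nat_lit 290) (nat_lit 269) (nat_lit 221)) (XT.lf (nat_lit 0) (nat_lit 30579981201) (nat_lit 76) (nat_lit 14151051389) (nat_lit 152) (nat_lit 60020964323) (nat_lit 11) (nat_lit 5) (nat_lit 12) (nat_lit 5) (nat_lit 13) (nat_lit 4) (nat_lit 291) (nat_lit 269) (nat_lit 220)))) (XT.nd (nat_lit 78) (nat_lit 228) (nat_lit 0) (XT.lf (nat_lit 0) (nat_lit 85038465313) (nat_lit 152) (nat_lit 4824284318) (nat_lit 0) (nat_lit 27196593486) (nat_lit 11) (nat_lit 5) (nat_lit 13) (nat_lit 4) (nat_lit 11) (nat_lit 4) (nat_lit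 292) (nat_lit 269) (nat_lit 219)) (XT.nd (nat_lit 78) (nat_lit 76) (nat_lit 0) (XT.lf (nat_lit 0) (nat_lit 2495908537) (nat_lit 152) (nat_lit 52657350656) (nat_lit 76) (nat_lit 75873140529) (nat_lit 9) (nat_lit 5) (nat_lit 11) (nat_lit 5) (nat_lit 10) (nat_lit 4) (nat_lit 293) (nat_lit 269) (nat_lit 218)) (XT.lf (nat_lit 0) (nat_lit 27734914503) (nat_lit 76) (nat_lit 13414034802) (nat_lit 152) (nat_lit 105804655001) (nat_lit 8) (nat_lit 5) (nat_lit 9) (nat_lit 5) (nat_lit 10) (nat_lit 4) (nat_lit 294) (nat_lit 269) (nat_lit 217))))) (XT.nd (nat_lit 234) (nat_lit 152) (nat_lit 0) (XT.nd (nat_lit 78) (nat_lit 76) (nat_lit 0) (XT.lf (nat_lit 0) (nat_lit 87995031450) (nat_lit 152) (nat_lit 42662454835) (nat_lit 0) (nat_lit 34420800611) (nat_lit 8) (nat_lit 5) (nat_lit 10) (nat_lit 4) (nat_lit 8) (nat_lit 4) (nat_lit 295) (nat_lit 269) (nat_lit 216)) (XT.nd (nat_lit 78) (nat_lit 0) (nat_lit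 0) (XT.lf (nat_lit 0) (nat_lit 47359336820) (nat_lit 76) (nat_lit 96010339988) (nat_lit 76) (nat_lit 42431866594) (nat_lit 7) (nat_lit 4) (nat_lit 8) (nat_lit 5) (nat_lit 8) (nat_lit 4) (nat_lit 296) (nat_lit 269) (nat_lit 215)) (XT.lf (nat_lit 0) (nat_lit 153453273608) (nat_lit 76) (nat_lit 54831711589) (nat_lit 76) (nat_lit 1249549018) (nat_lit 7) (nat_lit 4) (nat_lit 8) (nat_lit 5) (nat_lit 8) (nat_lit 4) (nat_lit 297) (nat_lit 269) (nat_lit 214)))) (XT.nd (nat_lit 78) (nat_lit 0) (nat_lit 0) (XT.lf (nat_lit 0) (nat_lit 39487098806) (nat_lit 76) (nat_lit 5259280692) (nat_lit 152) (nat_lit 191916950475) (nat_lit 5) (nat_lit 5) (nat_lit 6) (nat_lit 5) (nat_lit 7) (nat_lit 4) (nat_lit 298) (nat_lit 269) (nat_lit 213)) (XT.nd (nat_lit 78) (nat_lit 0) (nat_lit 0) (XT.lf (nat_lit 0) (nat_lit 100483203806) (nat_lit 152) (nat_lit 116277870467) (nat_lit 0) (nat_lit 50864537046) (nat_lit 5) (nat_lit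 5) (nat_lit 7) (nat_lit 4) (nat_lit 5) (nat_lit 4) (nat_lit 299) (nat_lit 269) (nat_lit 212)) (XT.lf (nat_lit 0) (nat_lit 164720506590) (nat_lit 152) (nat_lit 23400939978) (nat_lit 0) (nat_lit 115099593817) (nat_lit 5) (nat_lit 5) (nat_lit 7) (nat_lit 4) (nat_lit 5) (nat_lit 4) (nat_lit 300) (nat_lit 269) (nat_lit 211))))))) (XT.nd (nat_lit 936) (nat_lit 0) (nat_lit 0) (XT.nd (nat_lit 468) (nat_lit 76) (nat_lit 0) (XT.nd (nat_lit 234) (nat_lit 152) (nat_lit 0) (XT.nd (nat_lit 78) (nat_lit 0) (nat_lit 0) (XT.lf (nat_lit 0) (nat_lit 87789805062) (nat_lit 76) (nat_lit 152910160679) (nat_lit 76) (nat_lit 103287294852) (nat_lit 4) (nat_lit 4) (nat_lit 5) (nat_lit 5) (nat_lit 5) (nat_lit 4) (nat_lit 301) (nat_lit 269) (nat_lit 210)) (XT.nd (nat_lit 78) (nat_lit 0) (nat_lit 0) (XT.lf (nat_lit 0) (nat_lit 217067714524) (nat_lit 76) (nat_lit 111685555396) (nat_lit 76) (nat_lit 62060991260) (nat_lit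 4) (nat_lit 4) (nat_lit 5) (nat_lit 5) (nat_lit 5) (nat_lit 4) (nat_lit 302) (nat_lit 269) (nat_lit 209)) (XT.lf (nat_lit 0) (nat_lit 365729886780) (nat_lit 76) (nat_lit 64280885524) (nat_lit 76) (nat_lit 14654844597) (nat_lit 4) (nat_lit 4) (nat_lit 5) (nat_lit 5) (nat_lit 5) (nat_lit 4) (nat_lit 303) (nat_lit 269) (nat_lit 208)))) (XT.nd (nat_lit 78) (nat_lit 0) (nat_lit 0) (XT.lf (nat_lit 0) (nat_lit 30665393852) (nat_lit 76) (nat_lit 7936874870) (nat_lit 152) (nat_lit 467856984107) (nat_lit 2) (nat_lit 5) (nat_lit 3) (nat_lit 5) (nat_lit 4) (nat_lit 4) (nat_lit 304) (nat_lit 269) (nat_lit 207)) (XT.nd (nat_lit 78) (nat_lit 0) (nat_lit 0) (XT.lf (nat_lit 0) (nat_lit 102727000059) (nat_lit 152) (nat_lit 417690001659) (nat_lit 0) (nat_lit 56774739173) (nat_lit 2) (nat_lit 5) (nat_lit 4) (nat_lit 4) (nat_lit 2) (nat_lit 4) (nat_lit 305) (nat_lit 269) (nat_lit 206)) (XT.lf (nat_lit 0) (nat_lit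 176687203594) (nat_lit 152) (nat_lit 351095514708) (nat_lit 0) (nat_lit 130734043621) (nat_lit 2) (nat_lit 5) (nat_lit 4) (nat_lit 4) (nat_lit 2) (nat_lit 4) (nat_lit 306) (nat_lit 269) (nat_lit 205))))) (XT.nd (nat_lit 234) (nat_lit 76) (nat_lit 0) (XT.nd (nat_lit 78) (nat_lit 0) (nat_lit 0) (XT.lf (nat_lit 0) (nat_lit 261739044757) (nat_lit 152) (nat_lit 274516580480) (nat_lit 0) (nat_lit 215785102970) (nat_lit 2) (nat_lit 5) (nat_lit 4) (nat_lit 4) (nat_lit 2) (nat_lit 4) (nat_lit 307) (nat_lit 269) (nat_lit 204)) (XT.nd (nat_lit 78) (nat_lit 0) (nat_lit 0) (XT.lf (nat_lit 0) (nat_lit 359546581310) (nat_lit 152) (nat_lit 186454915478) (nat_lit 0) (nat_lit 313591959684) (nat_lit 2) (nat_lit 5) (nat_lit 4) (nat_lit 4) (nat_lit 2) (nat_lit 4) (nat_lit 308) (nat_lit 269) (nat_lit 203)) (XT.lf (nat_lit 0) (nat_lit 472023438968) (nat_lit 152) (nat_lit 85187574083) (nat_lit 0) (nat_lit 426068226178)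 (nat_lit 2) (nat_lit 5) (nat_lit 4) (nat_lit 4) (nat_lit 2) (nat_lit 4) (nat_lit 309) (nat_lit 269) (nat_lit 202)))) (XT.nd (nat_lit 78) (nat_lit 0) (nat_lit 0) (XT.lf (nat_lit 0) (nat_lit 32913213490) (nat_lit 76) (nat_lit 569248601987) (nat_lit 76) (nat_lit 523292875142) (nat_lit 1) (nat_lit 4) (nat_lit 2) (nat_lit 5) (nat_lit 2) (nat_lit 4) (nat_lit 310) (nat_lit 269) (nat_lit 201)) (XT.nd (nat_lit 78) (nat_lit 0) (nat_lit 0) (XT.lf (nat_lit 0) (nat_lit 173884975637) (nat_lit 76) (nat_lit 580414680835) (nat_lit 76) (nat_lit 534458506984) (nat_lit 1) (nat_lit 4) (nat_lit 2) (nat_lit 5) (nat_lit 2) (nat_lit 4) (nat_lit 311) (nat_lit 269) (nat_lit 200)) (XT.lf (nat_lit 0) (nat_lit 336000028843) (nat_lit 76) (nat_lit 593256895595) (nat_lit 76) (nat_lit 547300333045) (nat_lit 1) (nat_lit 4) (nat_lit 2) (nat_lit 5) (nat_lit 2) (nat_lit 4) (nat_lit 312) (nat_lit 269) (nat_lit 199)))))) (XT.nd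 (nat_lit 468) (nat_lit 0) (nat_lit 0) (XT.nd (nat_lit 234) (nat_lit 0) (nat_lit 0) (XT.nd (nat_lit 78) (nat_lit 0) (nat_lit 0) (XT.lf (nat_lit 0) (nat_lit 522430189367) (nat_lit 76) (nat_lit 608026506992) (nat_lit 76) (nat_lit 562069606442) (nat_lit 1) (nat_lit 4) (nat_lit 2) (nat_lit 5) (nat_lit 2) (nat_lit 4) (nat_lit 313) (nat_lit 269) (nat_lit 198)) (XT.nd (nat_lit 78) (nat_lit 0) (nat_lit 0) (XT.lf (nat_lit 0) (nat_lit 736823003827) (nat_lit 76) (nat_lit 625012485683) (nat_lit 76) (nat_lit 579055291219) (nat_lit 1) (nat_lit 4) (nat_lit 2) (nat_lit 5) (nat_lit 2) (nat_lit 4) (nat_lit 314) (nat_lit 269) (nat_lit 197)) (XT.lf (nat_lit 0) (nat_lit 983373114245) (nat_lit 76) (nat_lit 644547166033) (nat_lit 76) (nat_lit 598589715993) (nat_lit 1) (nat_lit 4) (nat_lit 2) (nat_lit 5) (nat_lit 2) (nat_lit 4) (nat_lit 315) (nat_lit 269) (nat_lit 196)))) (XT.nd (nat_lit 78) (nat_lit 0) (nat_lit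 0) (XT.lf (nat_lit 0) (nat_lit 1266904327129) (nat_lit 76) (nat_lit 667012748311) (nat_lit 76) (nat_lit 621055076031) (nat_lit 1) (nat_lit 4) (nat_lit 2) (nat_lit 5) (nat_lit 2) (nat_lit 4) (nat_lit 316) (nat_lit 269) (nat_lit 195)) (XT.nd (nat_lit 78) (nat_lit 0) (nat_lit 0) (XT.lf (nat_lit 0) (nat_lit 1592963992298) (nat_lit 76) (nat_lit 692848776518) (nat_lit 76) (nat_lit 646890910985) (nat_lit 1) (nat_lit 4) (nat_lit 2) (nat_lit 5) (nat_lit 2) (nat_lit 4) (nat_lit 317) (nat_lit 269) (nat_lit 194)) (XT.lf (nat_lit 0) (nat_lit 1967931537981) (nat_lit 76) (nat_lit 722560738162) (nat_lit 76) (nat_lit 676602704583) (nat_lit 1) (nat_lit 4) (nat_lit 2) (nat_lit 5) (nat_lit 2) (nat_lit 4) (nat_lit 318) (nat_lit 269) (nat_lit 193))))) (XT.nd (nat_lit 234) (nat_lit 0) (nat_lit 0) (XT.nd (nat_lit 78) (nat_lit 0) (nat_lit 0) (XT.lf (nat_lit 0) (nat_lit 2399143285727) (nat_lit 76) (nat_lit 756729954231)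 (nat_lit 76) (nat_lit 710771774526) (nat_lit 1) (nat_lit 4) (nat_lit 2) (nat_lit 5) (nat_lit 2) (nat_lit 4) (nat_lit 319) (nat_lit 269) (nat_lit 192)) (XT.nd (nat_lit 78) (nat_lit 0) (nat_lit 0) (XT.lf (nat_lit 0) (nat_lit 2895035987120) (nat_lit 76) (nat_lit 796024952867) (nat_lit 76) (nat_lit 750066646095) (nat_lit 1) (nat_lit 4) (nat_lit 2) (nat_lit 5) (nat_lit 2) (nat_lit 4) (nat_lit 320) (nat_lit 269) (nat_lit 191)) (XT.lf (nat_lit 0) (nat_lit 3465311890666) (nat_lit 76) (nat_lit 841214549259) (nat_lit 76) (nat_lit 795256131994) (nat_lit 1) (nat_lit 4) (nat_lit 2) (nat_lit 5) (nat_lit 2) (nat_lit 4) (nat_lit 321) (nat_lit 269) (nat_lit 190)))) (XT.nd (nat_lit 156) (nat_lit 0) (nat_lit 0) (XT.nd (nat_lit 78) (nat_lit 0) (nat_lit 0) (XT.lf (nat_lit 0) (nat_lit 4121128568391) (nat_lit 76) (nat_lit 893182887685) (nat_lit 76) (nat_lit 847224374340) (nat_lit 1) (nat_lit 4) (nat_lit 2) (nat_lit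 5) (nat_lit 2) (nat_lit 4) (nat_lit 322) (nat_lit 269) (nat_lit 189)) (XT.lf (nat_lit 0) (nat_lit 4875317216164) (nat_lit 76) (nat_lit 952946739985) (nat_lit 76) (nat_lit 906988143091) (nat_lit 1) (nat_lit 4) (nat_lit 2) (nat_lit 5) (nat_lit 2) (nat_lit 4) (nat_lit 323) (nat_lit 269) (nat_lit 188))) (XT.nd (nat_lit 78) (nat_lit 0) (nat_lit 0) (XT.lf (nat_lit 0) (nat_lit 5742633698832) (nat_lit 76) (nat_lit 1021675398919) (nat_lit 76) (nat_lit 975716729375) (nat_lit 1) (nat_lit 4) (nat_lit 2) (nat_lit 5) (nat_lit 2) (nat_lit 4) (nat_lit 324) (nat_lit 269) (nat_lit 187)) (XT.lf (nat_lit 0) (nat_lit 6740047251926) (nat_lit 76) (nat_lit 1100713555642) (nat_lit 76) (nat_lit 1054754822923) (nat_lit 1) (nat_lit 4) (nat_lit 2) (nat_lit 5) (nat_lit 2) (nat_lit 4) (nat_lit 325) (nat_lit 269) (nat_lit 186))))))))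
noncomputable def xc36 : XT := (XT.nd (nat_lit 38064) (nat_lit 0) (nat_lit 0) (XT.nd (nat_lit 37128) (nat_lit 0) (nat_lit 760) (XT.nd (nat_lit 36660) (nat_lit 0) (nat_lit 2128) (XT.nd (nat_lit 36426) (nat_lit 0) (nat_lit 3572) (XT.nd (nat_lit 36270) (nat_lit 0) (nat_lit 3800) (XT.lf (nat_lit 0) (nat_lit 7887072488441) (nat_lit 76) (nat_lit 1191607608872) (nat_lit 76) (nat_lit 1145648821218) (nat_lit 1) (nat_lit 4) (nat_lit 2) (nat_lit 5) (nat_lit 2) (nat_lit 4) (nat_lit 326) (nat_lit 269) (nat_lit 185)) (XT.nd (nat_lit 78) (nat_lit 0) (nat_lit 76) (XT.lf (nat_lit 0) (nat_lit 5055855636) (nat_lit 532) (nat_lit 1635974673) (nat_lit 532) (nat_lit 1635974673) (nat_lit 51) (nat_lit 3) (nat_lit 58) (nat_lit 3) (nat_lit 58) (nat_lit 5) (nat_lit 270) (nat_lit 270) (nat_lit 240)) (XT.lf (nat_lit 0) (nat_lit 11567281050) (nat_lit 456) (nat_lit 5894514585) (nat_lit 532) (nat_lit 386347527) (nat_lit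 52) (nat_lit 5) (nat_lit 58) (nat_lit 5) (nat_lit 59) (nat_lit 5) (nat_lit 271) (nat_lit 270) (nat_lit 239)))) (XT.nd (nat_lit 78) (nat_lit 304) (nat_lit 0) (XT.lf (nat_lit 76) (nat_lit 10557526881) (nat_lit 0) (nat_lit 3334082993) (nat_lit 532) (nat_lit 5276066104) (nat_lit 53) (nat_lit 5) (nat_lit 52) (nat_lit 5) (nat_lit 59) (nat_lit 5) (nat_lit 272) (nat_lit 270) (nat_lit 238)) (XT.nd (nat_lit 78) (nat_lit 380) (nat_lit 0) (XT.lf (nat_lit 76) (nat_lit 9262368961) (nat_lit 0) (nat_lit 7948973247) (nat_lit 532) (nat_lit 3422189671) (nat_lit 54) (nat_lit 5) (nat_lit 53) (nat_lit 5) (nat_lit 60) (nat_lit 5) (nat_lit 273) (nat_lit 270) (nat_lit 237)) (XT.lf (nat_lit 0) (nat_lit 8089869313) (nat_lit 456) (nat_lit 13632339621) (nat_lit 532) (nat_lit 541719355) (nat_lit 48) (nat_lit 5) (nat_lit 54) (nat_lit 5) (nat_lit 55) (nat_lit 5) (nat_lit 274) (nat_lit 270) (nat_lit 236))))) (XT.nd (nat_lit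 234) (nat_lit 608) (nat_lit 0) (XT.nd (nat_lit 78) (nat_lit 456) (nat_lit 0) (XT.lf (nat_lit 0) (nat_lit 3400958877) (nat_lit 380) (nat_lit 17113399342) (nat_lit 76) (nat_lit 3557788735) (nat_lit 43) (nat_lit 5) (nat_lit 48) (nat_lit 5) (nat_lit 44) (nat_lit 5) (nat_lit 275) (nat_lit 270) (nat_lit 235)) (XT.nd (nat_lit 78) (nat_lit 228) (nat_lit 0) (XT.lf (nat_lit 0) (nat_lit 5843030123) (nat_lit 228) (nat_lit 2956811970) (nat_lit 304) (nat_lit 17278961627) (nat_lit 40) (nat_lit 5) (nat_lit 43) (nat_lit 5) (nat_lit 44) (nat_lit 5) (nat_lit 276) (nat_lit 270) (nat_lit 234)) (XT.lf (nat_lit 0) (nat_lit 4693090867) (nat_lit 228) (nat_lit 11313756360) (nat_lit 304) (nat_lit 12299819293) (nat_lit 37) (nat_lit 5) (nat_lit 40) (nat_lit 5) (nat_lit 41) (nat_lit 5) (nat_lit 277) (nat_lit 270) (nat_lit 233)))) (XT.nd (nat_lit 78) (nat_lit 456) (nat_lit 0) (XT.lf (nat_lit 0) (nat_lit 3589922511)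 (nat_lit 152) (nat_lit 21653335480) (nat_lit 228) (nat_lit 5549643816) (nat_lit 35) (nat_lit 5) (nat_lit 37) (nat_lit 5) (nat_lit 38) (nat_lit 5) (nat_lit 278) (nat_lit 270) (nat_lit 232)) (XT.nd (nat_lit 78) (nat_lit 152) (nat_lit 0) (XT.lf (nat_lit 0) (nat_lit 2399212688) (nat_lit 228) (nat_lit 745716487) (nat_lit 304) (nat_lit 30419528580) (nat_lit 31) (nat_lit 5) (nat_lit 34) (nat_lit 5) (nat_lit 35) (nat_lit 5) (nat_lit 279) (nat_lit 270) (nat_lit 231)) (XT.lf (nat_lit 0) (nat_lit 657002695) (nat_lit 152) (nat_lit 13525880888) (nat_lit 228) (nat_lit 22447951109) (nat_lit 29) (nat_lit 5) (nat_lit 31) (nat_lit 5) (nat_lit 32) (nat_lit 5) (nat_lit 280) (nat_lit 270) (nat_lit 230)))))) (XT.nd (nat_lit 468) (nat_lit 532) (nat_lit 0) (XT.nd (nat_lit 234) (nat_lit 456) (nat_lit 0) (XT.nd (nat_lit 78) (nat_lit 380) (nat_lit 0) (XT.lf (nat_lit 0) (nat_lit 28048600093) (nat_lit 228) (nat_lit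 1277460246) (nat_lit 76) (nat_lit 10737379730) (nat_lit 29) (nat_lit 5) (nat_lit 32) (nat_lit 5) (nat_lit 30) (nat_lit 5) (nat_lit 281) (nat_lit 270) (nat_lit 229)) (XT.nd (nat_lit 78) (nat_lit 152) (nat_lit 0) (XT.lf (nat_lit 0) (nat_lit 1335908385) (nat_lit 228) (nat_lit 3713064548) (nat_lit 76) (nat_lit 38853879132) (nat_lit 26) (nat_lit 5) (nat_lit 29) (nat_lit 5) (nat_lit 27) (nat_lit 5) (nat_lit 282) (nat_lit 270) (nat_lit 228)) (XT.lf (nat_lit 0) (nat_lit 17593531180) (nat_lit 228) (nat_lit 7455404107) (nat_lit 76) (nat_lit 23115046884) (nat_lit 24) (nat_lit 5) (nat_lit 27) (nat_lit 5) (nat_lit 25) (nat_lit 5) (nat_lit 283) (nat_lit 270) (nat_lit 227)))) (XT.nd (nat_lit 78) (nat_lit 304) (nat_lit 0) (XT.lf (nat_lit 0) (nat_lit 37582138016) (nat_lit 228) (nat_lit 12216609005) (nat_lit 76) (nat_lit 3162170302) (nat_lit 22) (nat_lit 5) (nat_lit 25) (nat_lit 5) (nat_lit 23) (nat_lit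 4) (nat_lit 284) (nat_lit 270) (nat_lit 226)) (XT.nd (nat_lit 78) (nat_lit 152) (nat_lit 0) (XT.lf (nat_lit 0) (nat_lit 3879576061) (nat_lit 152) (nat_lit 19020221255) (nat_lit 76) (nat_lit 35422184215) (nat_lit 20) (nat_lit 5) (nat_lit 22) (nat_lit 5) (nat_lit 21) (nat_lit 5) (nat_lit 285) (nat_lit 270) (nat_lit 225)) (XT.lf (nat_lit 0) (nat_lit 26595691246) (nat_lit 228) (nat_lit 28416706919) (nat_lit 76) (nat_lit 9324499099) (nat_lit 18) (nat_lit 5) (nat_lit 21) (nat_lit 5) (nat_lit 19) (nat_lit 4) (nat_lit 286) (nat_lit 270) (nat_lit 224))))) (XT.nd (nat_lit 234) (nat_lit 228) (nat_lit 0) (XT.nd (nat_lit 78) (nat_lit 228) (nat_lit 0) (XT.lf (nat_lit 0) (nat_lit 29862412620) (nat_lit 76) (nat_lit 24760574810) (nat_lit 152) (nat_lit 16478775699) (nat_lit 17) (nat_lit 5) (nat_lit 18) (nat_lit 5) (nat_lit 19) (nat_lit 4) (nat_lit 287) (nat_lit 270) (nat_lit 223)) (XT.nd (nat_lit 78) (nat_lit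 76) (nat_lit 0) (XT.lf (nat_lit 0) (nat_lit 9183907316) (nat_lit 152) (nat_lit 58461134570) (nat_lit 76) (nat_lit 11092209579) (nat_lit 15) (nat_lit 5) (nat_lit 17) (nat_lit 5) (nat_lit 16) (nat_lit 4) (nat_lit 288) (nat_lit 270) (nat_lit 222)) (XT.lf (nat_lit 0) (nat_lit 5155840832) (nat_lit 76) (nat_lit 34619094040) (nat_lit 152) (nat_lit 47544522718) (nat_lit 14) (nat_lit 5) (nat_lit 15) (nat_lit 5) (nat_lit 16) (nat_lit 4) (nat_lit 289) (nat_lit 270) (nat_lit 221)))) (XT.nd (nat_lit 78) (nat_lit 228) (nat_lit 0) (XT.lf (nat_lit 0) (nat_lit 76768980628) (nat_lit 152) (nat_lit 15345497504) (nat_lit 0) (nat_lit 4929375819) (nat_lit 14) (nat_lit 5) (nat_lit 16) (nat_lit 4) (nat_lit 14) (nat_lit 4) (nat_lit 290) (nat_lit 270) (nat_lit 220)) (XT.nd (nat_lit 78) (nat_lit 76) (nat_lit 0) (XT.lf (nat_lit 0) (nat_lit 13073590766) (nat_lit 152) (nat_lit 44655190998) (nat_lit 76) (nat_lit 50273375204)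 (nat_lit 12) (nat_lit 5) (nat_lit 14) (nat_lit 5) (nat_lit 13) (nat_lit 4) (nat_lit 291) (nat_lit 270) (nat_lit 219)) (XT.lf (nat_lit 0) (nat_lit 35382707678) (nat_lit 76) (nat_lit 16174260372) (nat_lit 152) (nat_lit 68898462306) (nat_lit 11) (nat_lit 5) (nat_lit 12) (nat_lit 5) (nat_lit 13) (nat_lit 4) (nat_lit 292) (nat_lit 270) (nat_lit 218))))))) (XT.nd (nat_lit 936) (nat_lit 228) (nat_lit 0) (XT.nd (nat_lit 468) (nat_lit 228) (nat_lit 0) (XT.nd (nat_lit 234) (nat_lit 76) (nat_lit 0) (XT.nd (nat_lit 78) (nat_lit 228) (nat_lit 0) (XT.lf (nat_lit 0) (nat_lit 97897428427) (nat_lit 152) (nat_lit 5354271621) (nat_lit 0) (nat_lit 31358233724) (nat_lit 11) (nat_lit 5) (nat_lit 13) (nat_lit 4) (nat_lit 11) (nat_lit 4) (nat_lit 293) (nat_lit 270) (nat_lit 217)) (XT.nd (nat_lit 78) (nat_lit 76) (nat_lit 0) (XT.lf (nat_lit 0) (nat_lit 2966778513) (nat_lit 152) (nat_lit 60373564647) (nat_lit 76)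 (nat_lit 87332253262) (nat_lit 9) (nat_lit 5) (nat_lit 11) (nat_lit 5) (nat_lit 10) (nat_lit 4) (nat_lit 294) (nat_lit 270) (nat_lit 216)) (XT.lf (nat_lit 0) (nat_lit 32062101999) (nat_lit 76) (nat_lit 15347103728) (nat_lit 152) (nat_lit 121580367354) (nat_lit 8) (nat_lit 5) (nat_lit 9) (nat_lit 5) (nat_lit 10) (nat_lit 4) (nat_lit 295) (nat_lit 270) (nat_lit 215)))) (XT.nd (nat_lit 78) (nat_lit 76) (nat_lit 0) (XT.lf (nat_lit 0) (nat_lit 101272386037) (nat_lit 152) (nat_lit 48912152306) (nat_lit 0) (nat_lit 39649209903) (nat_lit 8) (nat_lit 5) (nat_lit 10) (nat_lit 4) (nat_lit 8) (nat_lit 4) (nat_lit 296) (nat_lit 270) (nat_lit 214)) (XT.nd (nat_lit 78) (nat_lit 0) (nat_lit 0) (XT.lf (nat_lit 0) (nat_lit 54600239214) (nat_lit 76) (nat_lit 110346096944) (nat_lit 76) (nat_lit 48719712828) (nat_lit 7) (nat_lit 4) (nat_lit 8) (nat_lit 5) (nat_lit 8) (nat_lit 4) (nat_lit 297) (nat_lit 270)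 (nat_lit 213)) (XT.lf (nat_lit 0) (nat_lit 176590396711) (nat_lit 76) (nat_lit 62999256117) (nat_lit 76) (nat_lit 1370082453) (nat_lit 7) (nat_lit 4) (nat_lit 8) (nat_lit 5) (nat_lit 8) (nat_lit 4) (nat_lit 298) (nat_lit 270) (nat_lit 212))))) (XT.nd (nat_lit 234) (nat_lit 76) (nat_lit 0) (XT.nd (nat_lit 78) (nat_lit 0) (nat_lit 0) (XT.lf (nat_lit 0) (nat_lit 45522296633) (nat_lit 76) (nat_lit 5993999516) (nat_lit 152) (nat_lit 220641876028) (nat_lit 5) (nat_lit 5) (nat_lit 6) (nat_lit 5) (nat_lit 7) (nat_lit 4) (nat_lit 299) (nat_lit 270) (nat_lit 211)) (XT.nd (nat_lit 78) (nat_lit 0) (nat_lit 0) (XT.lf (nat_lit 0) (nat_lit 115607217067) (nat_lit 152) (nat_lit 133619127186) (nat_lit 0) (nat_lit 58538968310) (nat_lit 5) (nat_lit 5) (nat_lit 7) (nat_lit 4) (nat_lit 5) (nat_lit 4) (nat_lit 300) (nat_lit 270) (nat_lit 210)) (XT.lf (nat_lit 0) (nat_lit 189473393614) (nat_lit 152) (nat_lit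 26823755886) (nat_lit 0) (nat_lit 132403446549) (nat_lit 5) (nat_lit 5) (nat_lit 7) (nat_lit 4) (nat_lit 5) (nat_lit 4) (nat_lit 301) (nat_lit 270) (nat_lit 209)))) (XT.nd (nat_lit 78) (nat_lit 0) (nat_lit 0) (XT.lf (nat_lit 0) (nat_lit 101038209276) (nat_lit 76) (nat_lit 175807639846) (nat_lit 76) (nat_lit 118736215990) (nat_lit 4) (nat_lit 4) (nat_lit 5) (nat_lit 5) (nat_lit 5) (nat_lit 4) (nat_lit 302) (nat_lit 270) (nat_lit 208)) (XT.nd (nat_lit 78) (nat_lit 0) (nat_lit 0) (XT.lf (nat_lit 0) (nat_lit 249697379055) (nat_lit 76) (nat_lit 128404436588) (nat_lit 76) (nat_lit 71331728567) (nat_lit 4) (nat_lit 4) (nat_lit 5) (nat_lit 5) (nat_lit 5) (nat_lit 4) (nat_lit 303) (nat_lit 270) (nat_lit 207)) (XT.lf (nat_lit 0) (nat_lit 420649810973) (nat_lit 76) (nat_lit 73893494771) (nat_lit 76) (nat_lit 16819670085) (nat_lit 4) (nat_lit 4) (nat_lit 5) (nat_lit 5) (nat_lit 5) (nat_lit 4) (nat_lit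 304) (nat_lit 270) (nat_lit 206)))))) (XT.nd (nat_lit 468) (nat_lit 76) (nat_lit 0) (XT.nd (nat_lit 234) (nat_lit 0) (nat_lit 0) (XT.nd (nat_lit 78) (nat_lit 0) (nat_lit 0) (XT.lf (nat_lit 0) (nat_lit 35322066139) (nat_lit 76) (nat_lit 9099502052) (nat_lit 152) (nat_lit 538004247618) (nat_lit 2) (nat_lit 5) (nat_lit 3) (nat_lit 5) (nat_lit 4) (nat_lit 4) (nat_lit 305) (nat_lit 270) (nat_lit 205)) (XT.nd (nat_lit 78) (nat_lit 0) (nat_lit 0) (XT.lf (nat_lit 0) (nat_lit 118161815506) (nat_lit 152) (nat_lit 480292617507) (nat_lit 0) (nat_lit 65314000636) (nat_lit 2) (nat_lit 5) (nat_lit 4) (nat_lit 4) (nat_lit 2) (nat_lit 4) (nat_lit 306) (nat_lit 270) (nat_lit 204)) (XT.lf (nat_lit 0) (nat_lit 203212688862) (nat_lit 152) (nat_lit 403715594609) (nat_lit 0) (nat_lit 150364194153) (nat_lit 2) (nat_lit 5) (nat_lit 4) (nat_lit 4) (nat_lit 2) (nat_lit 4) (nat_lit 307) (nat_lit 270) (nat_lit 203))))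 (XT.nd (nat_lit 78) (nat_lit 0) (nat_lit 0) (XT.lf (nat_lit 0) (nat_lit 301019383843) (nat_lit 152) (nat_lit 315655591634) (nat_lit 0) (nat_lit 248170297971) (nat_lit 2) (nat_lit 5) (nat_lit 4) (nat_lit 4) (nat_lit 2) (nat_lit 4) (nat_lit 308) (nat_lit 270) (nat_lit 202)) (XT.nd (nat_lit 78) (nat_lit 0) (nat_lit 0) (XT.lf (nat_lit 0) (nat_lit 413495509700) (nat_lit 152) (nat_lit 214389695480) (nat_lit 0) (nat_lit 360645909772) (nat_lit 2) (nat_lit 5) (nat_lit 4) (nat_lit 4) (nat_lit 2) (nat_lit 4) (nat_lit 309) (nat_lit 270) (nat_lit 201)) (XT.lf (nat_lit 0) (nat_lit 542841686286) (nat_lit 152) (nat_lit 97936616875) (nat_lit 0) (nat_lit 489991639353) (nat_lit 2) (nat_lit 5) (nat_lit 4) (nat_lit 4) (nat_lit 2) (nat_lit 4) (nat_lit 310) (nat_lit 270) (nat_lit 200))))) (XT.nd (nat_lit 234) (nat_lit 0) (nat_lit 0) (XT.nd (nat_lit 78) (nat_lit 0) (nat_lit 0) (XT.lf (nat_lit 0) (nat_lit 37876826230)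 (nat_lit 76) (nat_lit 654622712015) (nat_lit 76) (nat_lit 601772276382) (nat_lit 1) (nat_lit 4) (nat_lit 2) (nat_lit 5) (nat_lit 2) (nat_lit 4) (nat_lit 311) (nat_lit 270) (nat_lit 199)) (XT.nd (nat_lit 78) (nat_lit 0) (nat_lit 0) (XT.lf (nat_lit 0) (nat_lit 199990879128) (nat_lit 76) (nat_lit 667465421855) (nat_lit 76) (nat_lit 614614648222) (nat_lit 1) (nat_lit 4) (nat_lit 2) (nat_lit 5) (nat_lit 2) (nat_lit 4) (nat_lit 312) (nat_lit 270) (nat_lit 198)) (XT.lf (nat_lit 0) (nat_lit 386420169817) (nat_lit 76) (nat_lit 682235463756) (nat_lit 76) (nat_lit 629384396210) (nat_lit 1) (nat_lit 4) (nat_lit 2) (nat_lit 5) (nat_lit 2) (nat_lit 4) (nat_lit 313) (nat_lit 270) (nat_lit 197)))) (XT.nd (nat_lit 156) (nat_lit 0) (nat_lit 0) (XT.nd (nat_lit 78) (nat_lit 0) (nat_lit 0) (XT.lf (nat_lit 0) (nat_lit 600812227900) (nat_lit 76) (nat_lit 699221816799) (nat_lit 76) (nat_lit 646370493676) (nat_lit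 1) (nat_lit 4) (nat_lit 2) (nat_lit 5) (nat_lit 2) (nat_lit 4) (nat_lit 314) (nat_lit 270) (nat_lit 196)) (XT.lf (nat_lit 0) (nat_lit 847361680599) (nat_lit 76) (nat_lit 718756822673) (nat_lit 76) (nat_lit 665905277310) (nat_lit 1) (nat_lit 4) (nat_lit 2) (nat_lit 5) (nat_lit 2) (nat_lit 4) (nat_lit 315) (nat_lit 270) (nat_lit 195))) (XT.nd (nat_lit 78) (nat_lit 0) (nat_lit 0) (XT.lf (nat_lit 0) (nat_lit 1130892321554) (nat_lit 76) (nat_lit 741222688014) (nat_lit 76) (nat_lit 688370949399) (nat_lit 1) (nat_lit 4) (nat_lit 2) (nat_lit 5) (nat_lit 2) (nat_lit 4) (nat_lit 316) (nat_lit 270) (nat_lit 194)) (XT.lf (nat_lit 0) (nat_lit 1456951489392) (nat_lit 76) (nat_lit 767058962363) (nat_lit 76) (nat_lit 714207055702) (nat_lit 1) (nat_lit 4) (nat_lit 2) (nat_lit 5) (nat_lit 2) (nat_lit 4) (nat_lit 317) (nat_lit 270) (nat_lit 193))))))))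
noncomputable def xc37 : XT := (XT.nd (nat_lit 38220) (nat_lit 0) (nat_lit 76) (XT.nd (nat_lit 37284) (nat_lit 0) (nat_lit 1444) (XT.nd (nat_lit 468) (nat_lit 0) (nat_lit 0) (XT.nd (nat_lit 234) (nat_lit 0) (nat_lit 0) (XT.nd (nat_lit 78) (nat_lit 0) (nat_lit 0) (XT.lf (nat_lit 0) (nat_lit 1831918602615) (nat_lit 76) (nat_lit 796771138044) (nat_lit 76) (nat_lit 743919085256) (nat_lit 1) (nat_lit 4) (nat_lit 2) (nat_lit 5) (nat_lit 2) (nat_lit 4) (nat_lit 318) (nat_lit 270) (nat_lit 192)) (XT.nd (nat_lit 78) (nat_lit 0) (nat_lit 0) (XT.lf (nat_lit 0) (nat_lit 2263129974307) (nat_lit 76) (nat_lit 830940540232) (nat_lit 76) (nat_lit 778088360378) (nat_lit 1) (nat_lit 4) (nat_lit 2) (nat_lit 5) (nat_lit 2) (nat_lit 4) (nat_lit 319) (nat_lit 270) (nat_lit 191)) (XT.lf (nat_lit 0) (nat_lit 2759022348697) (nat_lit 76) (nat_lit 870235700710) (nat_lit 76) (nat_lit 817383410363) (nat_lit 1) (nat_lit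 4) (nat_lit 2) (nat_lit 5) (nat_lit 2) (nat_lit 4) (nat_lit 320) (nat_lit 270) (nat_lit 190)))) (XT.nd (nat_lit 78) (nat_lit 0) (nat_lit 0) (XT.lf (nat_lit 0) (nat_lit 3329297967893) (nat_lit 76) (nat_lit 915425437835) (nat_lit 76) (nat_lit 862573051407) (nat_lit 1) (nat_lit 4) (nat_lit 2) (nat_lit 5) (nat_lit 2) (nat_lit 4) (nat_lit 321) (nat_lit 270) (nat_lit 189)) (XT.nd (nat_lit 78) (nat_lit 0) (nat_lit 0) (XT.lf (nat_lit 0) (nat_lit 3985114398358) (nat_lit 76) (nat_lit 967393898638) (nat_lit 76) (nat_lit 914541428662) (nat_lit 1) (nat_lit 4) (nat_lit 2) (nat_lit 5) (nat_lit 2) (nat_lit 4) (nat_lit 322) (nat_lit 270) (nat_lit 188)) (XT.lf (nat_lit 0) (nat_lit 4739302831121) (nat_lit 76) (nat_lit 1027157857351) (nat_lit 76) (nat_lit 974305314724) (nat_lit 1) (nat_lit 4) (nat_lit 2) (nat_lit 5) (nat_lit 2) (nat_lit 4) (nat_lit 323) (nat_lit 270) (nat_lit 187))))) (XT.nd (nat_lit 36582)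 (nat_lit 0) (nat_lit 3876) (XT.nd (nat_lit 78) (nat_lit 0) (nat_lit 0) (XT.lf (nat_lit 0) (nat_lit 5606619126824) (nat_lit 76) (nat_lit 1095886608820) (nat_lit 76) (nat_lit 1043034003018) (nat_lit 1) (nat_lit 4) (nat_lit 2) (nat_lit 5) (nat_lit 2) (nat_lit 4) (nat_lit 324) (nat_lit 270) (nat_lit 186)) (XT.nd (nat_lit 36426) (nat_lit 0) (nat_lit 3800) (XT.lf (nat_lit 0) (nat_lit 6604032517340) (nat_lit 76) (nat_lit 1174924846007) (nat_lit 76) (nat_lit 1122072185271) (nat_lit 1) (nat_lit 4) (nat_lit 2) (nat_lit 5) (nat_lit 2) (nat_lit 4) (nat_lit 325) (nat_lit 270) (nat_lit 185)) (XT.lf (nat_lit 0) (nat_lit 6197355819) (nat_lit 532) (nat_lit 1674071815) (nat_lit 532) (nat_lit 1674071815) (nat_lit 51) (nat_lit 3) (nat_lit 58) (nat_lit 3) (nat_lit 58) (nat_lit 5) (nat_lit 271) (nat_lit 271) (nat_lit 238)))) (XT.nd (nat_lit 78) (nat_lit 0) (nat_lit 0) (XT.lf (nat_lit 0) (nat_lit 13970682230)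 (nat_lit 456) (nat_lit 6336598878) (nat_lit 532) (nat_lit 163181359) (nat_lit 52) (nat_lit 5) (nat_lit 58) (nat_lit 5) (nat_lit 59) (nat_lit 5) (nat_lit 272) (nat_lit 271) (nat_lit 237)) (XT.nd (nat_lit 78) (nat_lit 0) (nat_lit 76) (XT.lf (nat_lit 76) (nat_lit 12545827846) (nat_lit 0) (nat_lit 4020394159) (nat_lit 532) (nat_lit 5428085763) (nat_lit 53) (nat_lit 5) (nat_lit 52) (nat_lit 5) (nat_lit 59) (nat_lit 5) (nat_lit 273) (nat_lit 271) (nat_lit 236)) (XT.lf (nat_lit 76) (nat_lit 11070654475) (nat_lit 0) (nat_lit 9242370924) (nat_lit 532) (nat_lit 3372850796) (nat_lit 54) (nat_lit 5) (nat_lit 53) (nat_lit 5) (nat_lit 60) (nat_lit 5) (nat_lit 274) (nat_lit 271) (nat_lit 235)))))) (XT.nd (nat_lit 468) (nat_lit 836) (nat_lit 0) (XT.nd (nat_lit 234) (nat_lit 684) (nat_lit 0) (XT.nd (nat_lit 78) (nat_lit 608) (nat_lit 0) (XT.lf (nat_lit 0) (nat_lit 9728116464) (nat_lit 456) (nat_lit 15712684299)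 (nat_lit 532) (nat_lit 124950784) (nat_lit 48) (nat_lit 5) (nat_lit 54) (nat_lit 5) (nat_lit 55) (nat_lit 5) (nat_lit 275) (nat_lit 271) (nat_lit 234)) (XT.nd (nat_lit 78) (nat_lit 228) (nat_lit 0) (XT.lf (nat_lit 0) (nat_lit 4332210000) (nat_lit 380) (nat_lit 19233310477) (nat_lit 76) (nat_lit 4082998951) (nat_lit 43) (nat_lit 5) (nat_lit 48) (nat_lit 5) (nat_lit 44) (nat_lit 5) (nat_lit 276) (nat_lit 271) (nat_lit 233)) (XT.lf (nat_lit 0) (nat_lit 7128738724) (nat_lit 228) (nat_lit 3367102507) (nat_lit 304) (nat_lit 19464039494) (nat_lit 40) (nat_lit 5) (nat_lit 43) (nat_lit 5) (nat_lit 44) (nat_lit 5) (nat_lit 277) (nat_lit 271) (nat_lit 232)))) (XT.nd (nat_lit 78) (nat_lit 456) (nat_lit 0) (XT.lf (nat_lit 0) (nat_lit 5799076961) (nat_lit 228) (nat_lit 12946137335) (nat_lit 304) (nat_lit 13779889587) (nat_lit 37) (nat_lit 5) (nat_lit 40) (nat_lit 5) (nat_lit 41) (nat_lit 5) (nat_lit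 278) (nat_lit 271) (nat_lit 231)) (XT.nd (nat_lit 78) (nat_lit 304) (nat_lit 0) (XT.lf (nat_lit 0) (nat_lit 4520209789) (nat_lit 152) (nat_lit 24813651500) (nat_lit 228) (nat_lit 6053146260) (nat_lit 35) (nat_lit 5) (nat_lit 37) (nat_lit 5) (nat_lit 38) (nat_lit 5) (nat_lit 279) (nat_lit 271) (nat_lit 230)) (XT.lf (nat_lit 0) (nat_lit 3133216022) (nat_lit 228) (nat_lit 764179734) (nat_lit 304) (nat_lit 34678869620) (nat_lit 31) (nat_lit 5) (nat_lit 34) (nat_lit 5) (nat_lit 35) (nat_lit 5) (nat_lit 280) (nat_lit 271) (nat_lit 229))))) (XT.nd (nat_lit 234) (nat_lit 456) (nat_lit 0) (XT.nd (nat_lit 78) (nat_lit 228) (nat_lit 0) (XT.lf (nat_lit 0) (nat_lit 1116876975) (nat_lit 152) (nat_lit 15448192766) (nat_lit 228) (nat_lit 25539659546) (nat_lit 29) (nat_lit 5) (nat_lit 31) (nat_lit 5) (nat_lit 32) (nat_lit 5) (nat_lit 281) (nat_lit 271) (nat_lit 228)) (XT.nd (nat_lit 78) (nat_lit 228) (nat_lit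 0) (XT.lf (nat_lit 0) (nat_lit 32479643705) (nat_lit 228) (nat_lit 1139086702) (nat_lit 76) (nat_lit 12436020759) (nat_lit 29) (nat_lit 5) (nat_lit 32) (nat_lit 5) (nat_lit 30) (nat_lit 5) (nat_lit 282) (nat_lit 271) (nat_lit 227)) (XT.lf (nat_lit 0) (nat_lit 1743621601) (nat_lit 228) (nat_lit 3956801137) (nat_lit 76) (nat_lit 44771025709) (nat_lit 26) (nat_lit 5) (nat_lit 29) (nat_lit 5) (nat_lit 27) (nat_lit 5) (nat_lit 283) (nat_lit 271) (nat_lit 226)))) (XT.nd (nat_lit 78) (nat_lit 304) (nat_lit 0) (XT.lf (nat_lit 0) (nat_lit 20422134272) (nat_lit 228) (nat_lit 8274210465) (nat_lit 76) (nat_lit 26676855608) (nat_lit 24) (nat_lit 5) (nat_lit 27) (nat_lit 5) (nat_lit 25) (nat_lit 5) (nat_lit 284) (nat_lit 271) (nat_lit 225)) (XT.nd (nat_lit 78) (nat_lit 152) (nat_lit 0) (XT.lf (nat_lit 0) (nat_lit 43393368793) (nat_lit 228) (nat_lit 13763517243) (nat_lit 76) (nat_lit 3734070620) (nat_lit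 22) (nat_lit 5) (nat_lit 25) (nat_lit 5) (nat_lit 23) (nat_lit 4) (nat_lit 285) (nat_lit 271) (nat_lit 224)) (XT.lf (nat_lit 0) (nat_lit 4623269988) (nat_lit 152) (nat_lit 21603177331) (nat_lit 76) (nat_lit 40830741518) (nat_lit 20) (nat_lit 5) (nat_lit 22) (nat_lit 5) (nat_lit 21) (nat_lit 5) (nat_lit 286) (nat_lit 271) (nat_lit 223))))))) (XT.nd (nat_lit 936) (nat_lit 380) (nat_lit 0) (XT.nd (nat_lit 468) (nat_lit 380) (nat_lit 0) (XT.nd (nat_lit 234) (nat_lit 228) (nat_lit 0) (XT.nd (nat_lit 78) (nat_lit 228) (nat_lit 0) (XT.lf (nat_lit 0) (nat_lit 30734068930) (nat_lit 228) (nat_lit 32422558064) (nat_lit 76) (nat_lit 10818753094) (nat_lit 18) (nat_lit 5) (nat_lit 21) (nat_lit 5) (nat_lit 19) (nat_lit 4) (nat_lit 287) (nat_lit 271) (nat_lit 222)) (XT.nd (nat_lit 78) (nat_lit 152) (nat_lit 0) (XT.lf (nat_lit 0) (nat_lit 34576704847) (nat_lit 76) (nat_lit 28374966861) (nat_lit 152) (nat_lit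 18804424087) (nat_lit 17) (nat_lit 5) (nat_lit 18) (nat_lit 5) (nat_lit 19) (nat_lit 4) (nat_lit 288) (nat_lit 271) (nat_lit 221)) (XT.lf (nat_lit 0) (nat_lit 10689875788) (nat_lit 152) (nat_lit 67000597024) (nat_lit 76) (nat_lit 12847004874) (nat_lit 15) (nat_lit 5) (nat_lit 17) (nat_lit 5) (nat_lit 16) (nat_lit 4) (nat_lit 289) (nat_lit 271) (nat_lit 220)))) (XT.nd (nat_lit 78) (nat_lit 152) (nat_lit 0) (XT.lf (nat_lit 0) (nat_lit 6139481074) (nat_lit 76) (nat_lit 39718387733) (nat_lit 152) (nat_lit 54550092873) (nat_lit 14) (nat_lit 5) (nat_lit 15) (nat_lit 5) (nat_lit 16) (nat_lit 4) (nat_lit 290) (nat_lit 271) (nat_lit 219)) (XT.nd (nat_lit 78) (nat_lit 152) (nat_lit 0) (XT.lf (nat_lit 0) (nat_lit 88387757353) (nat_lit 152) (nat_lit 17458254048) (nat_lit 0) (nat_lit 5746077532) (nat_lit 14) (nat_lit 5) (nat_lit 16) (nat_lit 4) (nat_lit 14) (nat_lit 4) (nat_lit 291) (nat_lit 271) (nat_lit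 218)) (XT.lf (nat_lit 0) (nat_lit 15131231360) (nat_lit 152) (nat_lit 51175263002) (nat_lit 76) (nat_lit 57888202647) (nat_lit 12) (nat_lit 5) (nat_lit 14) (nat_lit 5) (nat_lit 13) (nat_lit 4) (nat_lit 292) (nat_lit 271) (nat_lit 217))))) (XT.nd (nat_lit 234) (nat_lit 152) (nat_lit 0) (XT.nd (nat_lit 78) (nat_lit 152) (nat_lit 0) (XT.lf (nat_lit 0) (nat_lit 40853236171) (nat_lit 76) (nat_lit 18525201903) (nat_lit 152) (nat_lit 79138224723) (nat_lit 11) (nat_lit 5) (nat_lit 12) (nat_lit 5) (nat_lit 13) (nat_lit 4) (nat_lit 293) (nat_lit 271) (nat_lit 216)) (XT.nd (nat_lit 78) (nat_lit 152) (nat_lit 0) (XT.lf (nat_lit 0) (nat_lit 112660071664) (nat_lit 152) (nat_lit 6010981102) (nat_lit 0) (nat_lit 36124086904) (nat_lit 11) (nat_lit 5) (nat_lit 13) (nat_lit 4) (nat_lit 11) (nat_lit 4) (nat_lit 294) (nat_lit 271) (nat_lit 215)) (XT.lf (nat_lit 0) (nat_lit 3484750825) (nat_lit 152) (nat_lit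 69291687353) (nat_lit 76) (nat_lit 100491177568) (nat_lit 9) (nat_lit 5) (nat_lit 11) (nat_lit 5) (nat_lit 10) (nat_lit 4) (nat_lit 295) (nat_lit 271) (nat_lit 214)))) (XT.nd (nat_lit 78) (nat_lit 76) (nat_lit 0) (XT.lf (nat_lit 0) (nat_lit 36997655726) (nat_lit 76) (nat_lit 17589406493) (nat_lit 152) (nat_lit 139745599472) (nat_lit 8) (nat_lit 5) (nat_lit 9) (nat_lit 5) (nat_lit 10) (nat_lit 4) (nat_lit 296) (nat_lit 271) (nat_lit 213)) (XT.nd (nat_lit 78) (nat_lit 76) (nat_lit 0) (XT.lf (nat_lit 0) (nat_lit 116522298665) (nat_lit 152) (nat_lit 56135802559) (nat_lit 0) (nat_lit 45645959403) (nat_lit 8) (nat_lit 5) (nat_lit 10) (nat_lit 4) (nat_lit 8) (nat_lit 4) (nat_lit 297) (nat_lit 271) (nat_lit 212)) (XT.lf (nat_lit 0) (nat_lit 62893868193) (nat_lit 76) (nat_lit 126848261737) (nat_lit 76) (nat_lit 55969496781) (nat_lit 7) (nat_lit 4) (nat_lit 8) (nat_lit 5) (nat_lit 8) (nat_lit 4)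 (nat_lit 298) (nat_lit 271) (nat_lit 211)))))) (XT.nd (nat_lit 468) (nat_lit 152) (nat_lit 0) (XT.nd (nat_lit 234) (nat_lit 76) (nat_lit 0) (XT.nd (nat_lit 78) (nat_lit 152) (nat_lit 0) (XT.lf (nat_lit 0) (nat_lit 203169037172) (nat_lit 76) (nat_lit 72405883884) (nat_lit 76) (nat_lit 1525009628) (nat_lit 7) (nat_lit 4) (nat_lit 8) (nat_lit 5) (nat_lit 8) (nat_lit 4) (nat_lit 299) (nat_lit 271) (nat_lit 210)) (XT.nd (nat_lit 78) (nat_lit 0) (nat_lit 0) (XT.lf (nat_lit 0) (nat_lit 52435429791) (nat_lit 76) (nat_lit 6852136660) (nat_lit 152) (nat_lit 253690809971) (nat_lit 5) (nat_lit 5) (nat_lit 6) (nat_lit 5) (nat_lit 7) (nat_lit 4) (nat_lit 300) (nat_lit 271) (nat_lit 209)) (XT.lf (nat_lit 0) (nat_lit 132987265745) (nat_lit 152) (nat_lit 153586061404) (nat_lit 0) (nat_lit 67353651521) (nat_lit 5) (nat_lit 5) (nat_lit 7) (nat_lit 4) (nat_lit 5) (nat_lit 4) (nat_lit 301) (nat_lit 271) (nat_lit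 208)))) (XT.nd (nat_lit 78) (nat_lit 76) (nat_lit 0) (XT.lf (nat_lit 0) (nat_lit 217928286237) (nat_lit 152) (nat_lit 30781288957) (nat_lit 0) (nat_lit 152293387848) (nat_lit 5) (nat_lit 5) (nat_lit 7) (nat_lit 4) (nat_lit 5) (nat_lit 4) (nat_lit 302) (nat_lit 271) (nat_lit 207)) (XT.nd (nat_lit 78) (nat_lit 0) (nat_lit 0) (XT.lf (nat_lit 0) (nat_lit 116254381844) (nat_lit 76) (nat_lit 202149262242) (nat_lit 76) (nat_lit 136513247187) (nat_lit 4) (nat_lit 4) (nat_lit 5) (nat_lit 5) (nat_lit 5) (nat_lit 4) (nat_lit 303) (nat_lit 271) (nat_lit 206)) (XT.lf (nat_lit 0) (nat_lit 287204543457) (nat_lit 76) (nat_lit 147639429397) (nat_lit 76) (nat_lit 82002443328) (nat_lit 4) (nat_lit 4) (nat_lit 5) (nat_lit 5) (nat_lit 5) (nat_lit 4) (nat_lit 304) (nat_lit 271) (nat_lit 205))))) (XT.nd (nat_lit 234) (nat_lit 0) (nat_lit 0) (XT.nd (nat_lit 78) (nat_lit 152) (nat_lit 0) (XT.lf (nat_lit 0) (nat_lit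 483792984831) (nat_lit 76) (nat_lit 84955194919) (nat_lit 76) (nat_lit 19317364491) (nat_lit 4) (nat_lit 4) (nat_lit 5) (nat_lit 5) (nat_lit 5) (nat_lit 4) (nat_lit 305) (nat_lit 271) (nat_lit 204)) (XT.nd (nat_lit 78) (nat_lit 0) (nat_lit 0) (XT.lf (nat_lit 0) (nat_lit 40663372815) (nat_lit 76) (nat_lit 10443327890) (nat_lit 152) (nat_lit 618681229483) (nat_lit 2) (nat_lit 5) (nat_lit 3) (nat_lit 5) (nat_lit 4) (nat_lit 4) (nat_lit 306) (nat_lit 271) (nat_lit 203)) (XT.lf (nat_lit 0) (nat_lit 135905570204) (nat_lit 152) (nat_lit 552298034216) (nat_lit 0) (nat_lit 75128530287) (nat_lit 2) (nat_lit 5) (nat_lit 4) (nat_lit 4) (nat_lit 2) (nat_lit 4) (nat_lit 307) (nat_lit 271) (nat_lit 202)))) (XT.nd (nat_lit 156) (nat_lit 0) (nat_lit 0) (XT.nd (nat_lit 78) (nat_lit 0) (nat_lit 0) (XT.lf (nat_lit 0) (nat_lit 233711533385) (nat_lit 152) (nat_lit 464239476482) (nat_lit 0) (nat_lit 172933979412)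 (nat_lit 2) (nat_lit 5) (nat_lit 4) (nat_lit 4) (nat_lit 2) (nat_lit 4) (nat_lit 308) (nat_lit 271) (nat_lit 201)) (XT.lf (nat_lit 0) (nat_lit 346187022893) (nat_lit 152) (nat_lit 362974837059) (nat_lit 0) (nat_lit 285409021915) (nat_lit 2) (nat_lit 5) (nat_lit 4) (nat_lit 4) (nat_lit 2) (nat_lit 4) (nat_lit 309) (nat_lit 271) (nat_lit 200))) (XT.nd (nat_lit 78) (nat_lit 0) (nat_lit 0) (XT.lf (nat_lit 0) (nat_lit 475532646131) (nat_lit 152) (nat_lit 246522851263) (nat_lit 0) (nat_lit 414754256454) (nat_lit 2) (nat_lit 5) (nat_lit 4) (nat_lit 4) (nat_lit 2) (nat_lit 4) (nat_lit 310) (nat_lit 271) (nat_lit 199)) (XT.lf (nat_lit 0) (nat_lit 624279078338) (nat_lit 152) (nat_lit 112605110676) (nat_lit 0) (nat_lit 563500350661) (nat_lit 2) (nat_lit 5) (nat_lit 4) (nat_lit 4) (nat_lit 2) (nat_lit 4) (nat_lit 311) (nat_lit 271) (nat_lit 198))))))))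
noncomputable def xc38 : XT := (XT.nd (nat_lit 38298) (nat_lit 0) (nat_lit 228) (XT.nd (nat_lit 936) (nat_lit 0) (nat_lit 0) (XT.nd (nat_lit 468) (nat_lit 0) (nat_lit 0) (XT.nd (nat_lit 234) (nat_lit 0) (nat_lit 0) (XT.nd (nat_lit 78) (nat_lit 0) (nat_lit 0) (XT.lf (nat_lit 0) (nat_lit 43578486812) (nat_lit 76) (nat_lit 752806152639) (nat_lit 76) (nat_lit 692027131048) (nat_lit 1) (nat_lit 4) (nat_lit 2) (nat_lit 5) (nat_lit 2) (nat_lit 4) (nat_lit 312) (nat_lit 271) (nat_lit 197)) (XT.nd (nat_lit 78) (nat_lit 0) (nat_lit 0) (XT.lf (nat_lit 0) (nat_lit 230007021125) (nat_lit 76) (nat_lit 767576568892) (nat_lit 76) (nat_lit 706797291724) (nat_lit 1) (nat_lit 4) (nat_lit 2) (nat_lit 5) (nat_lit 2) (nat_lit 4) (nat_lit 313) (nat_lit 271) (nat_lit 196)) (XT.lf (nat_lit 0) (nat_lit 444398421489) (nat_lit 76) (nat_lit 784563247457) (nat_lit 76) (nat_lit 723783748050) (nat_lit 1) (nat_lit 4)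 (nat_lit 2) (nat_lit 5) (nat_lit 2) (nat_lit 4) (nat_lit 314) (nat_lit 271) (nat_lit 195)))) (XT.nd (nat_lit 78) (nat_lit 0) (nat_lit 0) (XT.lf (nat_lit 0) (nat_lit 690947302258) (nat_lit 76) (nat_lit 804098536395) (nat_lit 76) (nat_lit 743318843734) (nat_lit 1) (nat_lit 4) (nat_lit 2) (nat_lit 5) (nat_lit 2) (nat_lit 4) (nat_lit 315) (nat_lit 271) (nat_lit 194)) (XT.nd (nat_lit 78) (nat_lit 0) (nat_lit 0) (XT.lf (nat_lit 0) (nat_lit 974477445883) (nat_lit 76) (nat_lit 826564647879) (nat_lit 76) (nat_lit 765784787173) (nat_lit 1) (nat_lit 4) (nat_lit 2) (nat_lit 5) (nat_lit 2) (nat_lit 4) (nat_lit 316) (nat_lit 271) (nat_lit 193)) (XT.lf (nat_lit 0) (nat_lit 1300536181260) (nat_lit 76) (nat_lit 852401136265) (nat_lit 76) (nat_lit 791621129432) (nat_lit 1) (nat_lit 4) (nat_lit 2) (nat_lit 5) (nat_lit 2) (nat_lit 4) (nat_lit 317) (nat_lit 271) (nat_lit 192))))) (XT.nd (nat_lit 234) (nat_lit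 0) (nat_lit 0) (XT.nd (nat_lit 78) (nat_lit 0) (nat_lit 0) (XT.lf (nat_lit 0) (nat_lit 1675502918430) (nat_lit 76) (nat_lit 882113498064) (nat_lit 76) (nat_lit 821333364165) (nat_lit 1) (nat_lit 4) (nat_lit 2) (nat_lit 5) (nat_lit 2) (nat_lit 4) (nat_lit 318) (nat_lit 271) (nat_lit 191)) (XT.nd (nat_lit 78) (nat_lit 0) (nat_lit 0) (XT.lf (nat_lit 0) (nat_lit 2106713963119) (nat_lit 76) (nat_lit 916283062095) (nat_lit 76) (nat_lit 855502817703) (nat_lit 1) (nat_lit 4) (nat_lit 2) (nat_lit 5) (nat_lit 2) (nat_lit 4) (nat_lit 319) (nat_lit 271) (nat_lit 190)) (XT.lf (nat_lit 0) (nat_lit 2602606053159) (nat_lit 76) (nat_lit 955578363306) (nat_lit 76) (nat_lit 894798022833) (nat_lit 1) (nat_lit 4) (nat_lit 2) (nat_lit 5) (nat_lit 2) (nat_lit 4) (nat_lit 320) (nat_lit 271) (nat_lit 189)))) (XT.nd (nat_lit 78) (nat_lit 0) (nat_lit 0) (XT.lf (nat_lit 0) (nat_lit 3172881425094) (nat_lit 76) (nat_lit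 1000768222807) (nat_lit 76) (nat_lit 939987798786) (nat_lit 1) (nat_lit 4) (nat_lit 2) (nat_lit 5) (nat_lit 2) (nat_lit 4) (nat_lit 321) (nat_lit 271) (nat_lit 188)) (XT.nd (nat_lit 78) (nat_lit 0) (nat_lit 0) (XT.lf (nat_lit 0) (nat_lit 3828697640549) (nat_lit 76) (nat_lit 1052736790024) (nat_lit 76) (nat_lit 991956293352) (nat_lit 1) (nat_lit 4) (nat_lit 2) (nat_lit 5) (nat_lit 2) (nat_lit 4) (nat_lit 322) (nat_lit 271) (nat_lit 187)) (XT.lf (nat_lit 0) (nat_lit 4582885886347) (nat_lit 76) (nat_lit 1112500841271) (nat_lit 76) (nat_lit 1051720281425) (nat_lit 1) (nat_lit 4) (nat_lit 2) (nat_lit 5) (nat_lit 2) (nat_lit 4) (nat_lit 323) (nat_lit 271) (nat_lit 186)))))) (XT.nd (nat_lit 36894) (nat_lit 0) (nat_lit 2280) (XT.nd (nat_lit 36660) (nat_lit 0) (nat_lit 3800) (XT.nd (nat_lit 78) (nat_lit 0) (nat_lit 0) (XT.lf (nat_lit 0) (nat_lit 5450202019472) (nat_lit 76) (nat_lit 1181229673204)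 (nat_lit 76) (nat_lit 1120449058423) (nat_lit 1) (nat_lit 4) (nat_lit 2) (nat_lit 5) (nat_lit 2) (nat_lit 4) (nat_lit 324) (nat_lit 271) (nat_lit 185)) (XT.nd (nat_lit 36504) (nat_lit 0) (nat_lit 3800) (XT.lf (nat_lit 0) (nat_lit 6447615268616) (nat_lit 76) (nat_lit 1260267980360) (nat_lit 76) (nat_lit 1199487317810) (nat_lit 1) (nat_lit 4) (nat_lit 2) (nat_lit 5) (nat_lit 2) (nat_lit 4) (nat_lit 325) (nat_lit 271) (nat_lit 184)) (XT.lf (nat_lit 0) (nat_lit 7416654344) (nat_lit 532) (nat_lit 1768434717) (nat_lit 532) (nat_lit 1768434717) (nat_lit 51) (nat_lit 3) (nat_lit 58) (nat_lit 3) (nat_lit 58) (nat_lit 5) (nat_lit 272) (nat_lit 272) (nat_lit 236)))) (XT.nd (nat_lit 78) (nat_lit 0) (nat_lit 76) (XT.lf (nat_lit 76) (nat_lit 16546033934) (nat_lit 0) (nat_lit 26218828) (nat_lit 532) (nat_lit 6927214703) (nat_lit 52) (nat_lit 5) (nat_lit 51) (nat_lit 3) (nat_lit 58) (nat_lit 5) (nat_lit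 273) (nat_lit 272) (nat_lit 235)) (XT.nd (nat_lit 78) (nat_lit 0) (nat_lit 76) (XT.lf (nat_lit 76) (nat_lit 14733692142) (nat_lit 0) (nat_lit 4764246263) (nat_lit 532) (nat_lit 5758827734) (nat_lit 53) (nat_lit 5) (nat_lit 52) (nat_lit 5) (nat_lit 59) (nat_lit 5) (nat_lit 274) (nat_lit 272) (nat_lit 234)) (XT.lf (nat_lit 76) (nat_lit 13048024041) (nat_lit 0) (nat_lit 10705136159) (nat_lit 532) (nat_lit 3453321080) (nat_lit 54) (nat_lit 5) (nat_lit 53) (nat_lit 5) (nat_lit 60) (nat_lit 5) (nat_lit 275) (nat_lit 272) (nat_lit 233))))) (XT.nd (nat_lit 234) (nat_lit 684) (nat_lit 0) (XT.nd (nat_lit 78) (nat_lit 532) (nat_lit 0) (XT.lf (nat_lit 0) (nat_lit 221236252) (nat_lit 532) (nat_lit 17869140063) (nat_lit 76) (nat_lit 11281233381) (nat_lit 47) (nat_lit 5) (nat_lit 54) (nat_lit 5) (nat_lit 48) (nat_lit 5) (nat_lit 276) (nat_lit 272) (nat_lit 232)) (XT.nd (nat_lit 78) (nat_lit 228) (nat_lit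 0) (XT.lf (nat_lit 0) (nat_lit 5300459111) (nat_lit 380) (nat_lit 21780236148) (nat_lit 76) (nat_lit 4689053259) (nat_lit 43) (nat_lit 5) (nat_lit 48) (nat_lit 5) (nat_lit 44) (nat_lit 5) (nat_lit 277) (nat_lit 272) (nat_lit 231)) (XT.lf (nat_lit 0) (nat_lit 8507504415) (nat_lit 228) (nat_lit 3847040277) (nat_lit 304) (nat_lit 22076071598) (nat_lit 40) (nat_lit 5) (nat_lit 43) (nat_lit 5) (nat_lit 44) (nat_lit 5) (nat_lit 278) (nat_lit 272) (nat_lit 230)))) (XT.nd (nat_lit 78) (nat_lit 456) (nat_lit 0) (XT.lf (nat_lit 0) (nat_lit 6972925246) (nat_lit 228) (nat_lit 14839148689) (nat_lit 304) (nat_lit 15570954235) (nat_lit 37) (nat_lit 5) (nat_lit 40) (nat_lit 5) (nat_lit 41) (nat_lit 5) (nat_lit 279) (nat_lit 272) (nat_lit 229)) (XT.nd (nat_lit 78) (nat_lit 304) (nat_lit 0) (XT.lf (nat_lit 0) (nat_lit 5494497515) (nat_lit 152) (nat_lit 28469397296) (nat_lit 228) (nat_lit 6712389179) (nat_lit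 35) (nat_lit 5) (nat_lit 37) (nat_lit 5) (nat_lit 38) (nat_lit 5) (nat_lit 280) (nat_lit 272) (nat_lit 228)) (XT.lf (nat_lit 0) (nat_lit 3886087976) (nat_lit 228) (nat_lit 808187241) (nat_lit 304) (nat_lit 39651143732) (nat_lit 31) (nat_lit 5) (nat_lit 34) (nat_lit 5) (nat_lit 35) (nat_lit 5) (nat_lit 281) (nat_lit 272) (nat_lit 227))))))) (XT.nd (nat_lit 936) (nat_lit 608) (nat_lit 0) (XT.nd (nat_lit 468) (nat_lit 608) (nat_lit 0) (XT.nd (nat_lit 234) (nat_lit 456) (nat_lit 0) (XT.nd (nat_lit 78) (nat_lit 228) (nat_lit 0) (XT.lf (nat_lit 0) (nat_lit 1557621282) (nat_lit 152) (nat_lit 17684839257) (nat_lit 228) (nat_lit 29162302823) (nat_lit 29) (nat_lit 5) (nat_lit 31) (nat_lit 5) (nat_lit 32) (nat_lit 5) (nat_lit 282) (nat_lit 272) (nat_lit 226)) (XT.nd (nat_lit 78) (nat_lit 228) (nat_lit 0) (XT.lf (nat_lit 0) (nat_lit 37520780126) (nat_lit 228) (nat_lit 1060427908) (nat_lit 76) (nat_lit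 14367990278) (nat_lit 29) (nat_lit 5) (nat_lit 32) (nat_lit 5) (nat_lit 30) (nat_lit 5) (nat_lit 283) (nat_lit 272) (nat_lit 225)) (XT.lf (nat_lit 0) (nat_lit 2161933808) (nat_lit 228) (nat_lit 4313479650) (nat_lit 76) (nat_lit 51554025280) (nat_lit 26) (nat_lit 5) (nat_lit 29) (nat_lit 5) (nat_lit 27) (nat_lit 5) (nat_lit 284) (nat_lit 272) (nat_lit 224)))) (XT.nd (nat_lit 78) (nat_lit 304) (nat_lit 0) (XT.lf (nat_lit 0) (nat_lit 23628799151) (nat_lit 228) (nat_lit 9288873786) (nat_lit 76) (nat_lit 30749878612) (nat_lit 24) (nat_lit 5) (nat_lit 27) (nat_lit 5) (nat_lit 25) (nat_lit 5) (nat_lit 285) (nat_lit 272) (nat_lit 223)) (XT.nd (nat_lit 78) (nat_lit 152) (nat_lit 0) (XT.lf (nat_lit 0) (nat_lit 50033875114) (nat_lit 228) (nat_lit 15612102968) (nat_lit 76) (nat_lit 4367961759) (nat_lit 22) (nat_lit 5) (nat_lit 25) (nat_lit 5) (nat_lit 23) (nat_lit 4) (nat_lit 286) (nat_lit 272) (nat_lit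 222)) (XT.lf (nat_lit 0) (nat_lit 5439072408) (nat_lit 152) (nat_lit 24639436832) (nat_lit 76) (nat_lit 47027360058) (nat_lit 20) (nat_lit 5) (nat_lit 22) (nat_lit 5) (nat_lit 21) (nat_lit 5) (nat_lit 287) (nat_lit 272) (nat_lit 221))))) (XT.nd (nat_lit 234) (nat_lit 228) (nat_lit 0) (XT.nd (nat_lit 78) (nat_lit 228) (nat_lit 0) (XT.lf (nat_lit 0) (nat_lit 35456862821) (nat_lit 228) (nat_lit 37091873802) (nat_lit 76) (nat_lit 12513837613) (nat_lit 18) (nat_lit 5) (nat_lit 21) (nat_lit 5) (nat_lit 19) (nat_lit 4) (nat_lit 288) (nat_lit 272) (nat_lit 220)) (XT.nd (nat_lit 78) (nat_lit 152) (nat_lit 0) (XT.lf (nat_lit 0) (nat_lit 39940851659) (nat_lit 76) (nat_lit 32555828774) (nat_lit 152) (nat_lit 21514563717) (nat_lit 17) (nat_lit 5) (nat_lit 18) (nat_lit 5) (nat_lit 19) (nat_lit 4) (nat_lit 289) (nat_lit 272) (nat_lit 219)) (XT.lf (nat_lit 0) (nat_lit 12390432675) (nat_lit 152) (nat_lit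 76876994531) (nat_lit 76) (nat_lit 14842837351) (nat_lit 15) (nat_lit 5) (nat_lit 17) (nat_lit 5) (nat_lit 16) (nat_lit 4) (nat_lit 290) (nat_lit 272) (nat_lit 218)))) (XT.nd (nat_lit 78) (nat_lit 152) (nat_lit 0) (XT.lf (nat_lit 0) (nat_lit 7219393115) (nat_lit 76) (nat_lit 45605393219) (nat_lit 152) (nat_lit 62637250848) (nat_lit 14) (nat_lit 5) (nat_lit 15) (nat_lit 5) (nat_lit 16) (nat_lit 4) (nat_lit 291) (nat_lit 272) (nat_lit 217)) (XT.nd (nat_lit 78) (nat_lit 152) (nat_lit 0) (XT.lf (nat_lit 0) (nat_lit 101724128616) (nat_lit 152) (nat_lit 19934029522) (nat_lit 0) (nat_lit 6666435545) (nat_lit 14) (nat_lit 5) (nat_lit 16) (nat_lit 4) (nat_lit 14) (nat_lit 4) (nat_lit 292) (nat_lit 272) (nat_lit 216)) (XT.lf (nat_lit 0) (nat_lit 17473961038) (nat_lit 152) (nat_lit 58716802625) (nat_lit 76) (nat_lit 66627252449) (nat_lit 12) (nat_lit 5) (nat_lit 14) (nat_lit 5) (nat_lit 13) (nat_lit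 4) (nat_lit 293) (nat_lit 272) (nat_lit 215)))))) (XT.nd (nat_lit 468) (nat_lit 228) (nat_lit 0) (XT.nd (nat_lit 234) (nat_lit 152) (nat_lit 0) (XT.nd (nat_lit 78) (nat_lit 152) (nat_lit 0) (XT.lf (nat_lit 0) (nat_lit 47104565522) (nat_lit 76) (nat_lit 21247122057) (nat_lit 152) (nat_lit 90937119543) (nat_lit 11) (nat_lit 5) (nat_lit 12) (nat_lit 5) (nat_lit 13) (nat_lit 4) (nat_lit 294) (nat_lit 272) (nat_lit 214)) (XT.nd (nat_lit 78) (nat_lit 152) (nat_lit 0) (XT.lf (nat_lit 0) (nat_lit 129618083527) (nat_lit 152) (nat_lit 6801905195) (nat_lit 0) (nat_lit 41589670164) (nat_lit 11) (nat_lit 5) (nat_lit 13) (nat_lit 4) (nat_lit 11) (nat_lit 4) (nat_lit 295) (nat_lit 272) (nat_lit 213)) (XT.lf (nat_lit 0) (nat_lit 4062628315) (nat_lit 152) (nat_lit 79581159178) (nat_lit 76) (nat_lit 115609531948) (nat_lit 9) (nat_lit 5) (nat_lit 11) (nat_lit 5) (nat_lit 10) (nat_lit 4) (nat_lit 296) (nat_lit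 272) (nat_lit 212)))) (XT.nd (nat_lit 78) (nat_lit 76) (nat_lit 0) (XT.lf (nat_lit 0) (nat_lit 42642758473) (nat_lit 76) (nat_lit 20182628208) (nat_lit 152) (nat_lit 160653130898) (nat_lit 8) (nat_lit 5) (nat_lit 9) (nat_lit 5) (nat_lit 10) (nat_lit 4) (nat_lit 297) (nat_lit 272) (nat_lit 211)) (XT.nd (nat_lit 78) (nat_lit 76) (nat_lit 0) (XT.lf (nat_lit 0) (nat_lit 134045297318) (nat_lit 152) (nat_lit 64470598203) (nat_lit 0) (nat_lit 52530182625) (nat_lit 8) (nat_lit 5) (nat_lit 10) (nat_lit 4) (nat_lit 8) (nat_lit 4) (nat_lit 298) (nat_lit 272) (nat_lit 210)) (XT.lf (nat_lit 0) (nat_lit 72406279686) (nat_lit 76) (nat_lit 145837883040) (nat_lit 76) (nat_lit 64320934174) (nat_lit 7) (nat_lit 4) (nat_lit 8) (nat_lit 5) (nat_lit 8) (nat_lit 4) (nat_lit 299) (nat_lit 272) (nat_lit 209))))) (XT.nd (nat_lit 234) (nat_lit 76) (nat_lit 0) (XT.nd (nat_lit 78) (nat_lit 152) (nat_lit 0) (XT.lf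 (nat_lit 0) (nat_lit 233712506890) (nat_lit 76) (nat_lit 83234055199) (nat_lit 76) (nat_lit 1715511400) (nat_lit 7) (nat_lit 4) (nat_lit 8) (nat_lit 5) (nat_lit 8) (nat_lit 4) (nat_lit 300) (nat_lit 272) (nat_lit 208)) (XT.nd (nat_lit 78) (nat_lit 0) (nat_lit 0) (XT.lf (nat_lit 0) (nat_lit 60364856669) (nat_lit 76) (nat_lit 7848983410) (nat_lit 152) (nat_lit 291708629983) (nat_lit 5) (nat_lit 5) (nat_lit 6) (nat_lit 5) (nat_lit 7) (nat_lit 4) (nat_lit 301) (nat_lit 272) (nat_lit 207)) (XT.lf (nat_lit 0) (nat_lit 152964819590) (nat_lit 152) (nat_lit 176566552951) (nat_lit 0) (nat_lit 77482285611) (nat_lit 5) (nat_lit 5) (nat_lit 7) (nat_lit 4) (nat_lit 5) (nat_lit 4) (nat_lit 302) (nat_lit 272) (nat_lit 206)))) (XT.nd (nat_lit 156) (nat_lit 0) (nat_lit 0) (XT.nd (nat_lit 78) (nat_lit 76) (nat_lit 0) (XT.lf (nat_lit 0) (nat_lit 250643150027) (nat_lit 152) (nat_lit 35348553897) (nat_lit 0)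 (nat_lit 175159645035) (nat_lit 5) (nat_lit 5) (nat_lit 7) (nat_lit 4) (nat_lit 5) (nat_lit 4) (nat_lit 303) (nat_lit 272) (nat_lit 205)) (XT.lf (nat_lit 0) (nat_lit 133738241332) (nat_lit 76) (nat_lit 232449327510) (nat_lit 76) (nat_lit 156964978158) (nat_lit 4) (nat_lit 4) (nat_lit 5) (nat_lit 5) (nat_lit 5) (nat_lit 4) (nat_lit 304) (nat_lit 272) (nat_lit 204))) (XT.nd (nat_lit 78) (nat_lit 0) (nat_lit 0) (XT.lf (nat_lit 0) (nat_lit 330324966030) (nat_lit 76) (nat_lit 169765931573) (nat_lit 76) (nat_lit 94280847995) (nat_lit 4) (nat_lit 4) (nat_lit 5) (nat_lit 5) (nat_lit 5) (nat_lit 4) (nat_lit 305) (nat_lit 272) (nat_lit 203)) (XT.lf (nat_lit 0) (nat_lit 556396489995) (nat_lit 76) (nat_lit 97681593953) (nat_lit 76) (nat_lit 22195871919) (nat_lit 4) (nat_lit 4) (nat_lit 5) (nat_lit 5) (nat_lit 5) (nat_lit 4) (nat_lit 306) (nat_lit 272) (nat_lit 202))))))))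
noncomputable def xc39 : XT := (XT.nd (nat_lit 38376) (nat_lit 0) (nat_lit 304) (XT.nd (nat_lit 936) (nat_lit 0) (nat_lit 0) (XT.nd (nat_lit 468) (nat_lit 76) (nat_lit 0) (XT.nd (nat_lit 234) (nat_lit 0) (nat_lit 0) (XT.nd (nat_lit 78) (nat_lit 0) (nat_lit 0) (XT.lf (nat_lit 0) (nat_lit 46795390462) (nat_lit 76) (nat_lit 11993872843) (nat_lit 152) (nat_lit 711465527117) (nat_lit 2) (nat_lit 5) (nat_lit 3) (nat_lit 5) (nat_lit 4) (nat_lit 4) (nat_lit 307) (nat_lit 272) (nat_lit 201)) (XT.nd (nat_lit 78) (nat_lit 0) (nat_lit 0) (XT.lf (nat_lit 0) (nat_lit 156306137207) (nat_lit 152) (nat_lit 635113646027) (nat_lit 0) (nat_lit 86410989078) (nat_lit 2) (nat_lit 5) (nat_lit 4) (nat_lit 4) (nat_lit 2) (nat_lit 4) (nat_lit 308) (nat_lit 272) (nat_lit 200)) (XT.lf (nat_lit 0) (nat_lit 268781073368) (nat_lit 152) (nat_lit 533850099414) (nat_lit 0) (nat_lit 198885536539) (nat_lit 2) (nat_lit 5)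 (nat_lit 4) (nat_lit 4) (nat_lit 2) (nat_lit 4) (nat_lit 309) (nat_lit 272) (nat_lit 199)))) (XT.nd (nat_lit 78) (nat_lit 0) (nat_lit 0) (XT.lf (nat_lit 0) (nat_lit 398126215436) (nat_lit 152) (nat_lit 417399063887) (nat_lit 0) (nat_lit 328230340607) (nat_lit 2) (nat_lit 5) (nat_lit 4) (nat_lit 4) (nat_lit 2) (nat_lit 4) (nat_lit 310) (nat_lit 272) (nat_lit 198)) (XT.nd (nat_lit 78) (nat_lit 0) (nat_lit 0) (XT.lf (nat_lit 0) (nat_lit 546872229233) (nat_lit 152) (nat_lit 283482149621) (nat_lit 0) (nat_lit 476976060491) (nat_lit 2) (nat_lit 5) (nat_lit 4) (nat_lit 4) (nat_lit 2) (nat_lit 4) (nat_lit 311) (nat_lit 272) (nat_lit 197)) (XT.lf (nat_lit 0) (nat_lit 717929362856) (nat_lit 152) (nat_lit 129479243076) (nat_lit 0) (nat_lit 648032938537) (nat_lit 2) (nat_lit 5) (nat_lit 4) (nat_lit 4) (nat_lit 2) (nat_lit 4) (nat_lit 312) (nat_lit 272) (nat_lit 196))))) (XT.nd (nat_lit 234) (nat_lit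 0) (nat_lit 0) (XT.nd (nat_lit 78) (nat_lit 0) (nat_lit 0) (XT.lf (nat_lit 0) (nat_lit 50130486033) (nat_lit 76) (nat_lit 865719539672) (nat_lit 76) (nat_lit 795822893113) (nat_lit 1) (nat_lit 4) (nat_lit 2) (nat_lit 5) (nat_lit 2) (nat_lit 4) (nat_lit 313) (nat_lit 272) (nat_lit 195)) (XT.nd (nat_lit 78) (nat_lit 0) (nat_lit 0) (XT.lf (nat_lit 0) (nat_lit 264521314467) (nat_lit 76) (nat_lit 882706501301) (nat_lit 76) (nat_lit 812809661489) (nat_lit 1) (nat_lit 4) (nat_lit 2) (nat_lit 5) (nat_lit 2) (nat_lit 4) (nat_lit 314) (nat_lit 272) (nat_lit 194)) (XT.lf (nat_lit 0) (nat_lit 511069697906) (nat_lit 76) (nat_lit 902242036381) (nat_lit 76) (nat_lit 832345028524) (nat_lit 1) (nat_lit 4) (nat_lit 2) (nat_lit 5) (nat_lit 2) (nat_lit 4) (nat_lit 315) (nat_lit 272) (nat_lit 193)))) (XT.nd (nat_lit 78) (nat_lit 0) (nat_lit 0) (XT.lf (nat_lit 0) (nat_lit 794599409069) (nat_lit 76) (nat_lit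 924708361902) (nat_lit 76) (nat_lit 854811207918) (nat_lit 1) (nat_lit 4) (nat_lit 2) (nat_lit 5) (nat_lit 2) (nat_lit 4) (nat_lit 316) (nat_lit 272) (nat_lit 192)) (XT.nd (nat_lit 78) (nat_lit 0) (nat_lit 0) (XT.lf (nat_lit 0) (nat_lit 1120657768393) (nat_lit 76) (nat_lit 950545036407) (nat_lit 76) (nat_lit 880647755356) (nat_lit 1) (nat_lit 4) (nat_lit 2) (nat_lit 5) (nat_lit 2) (nat_lit 4) (nat_lit 317) (nat_lit 272) (nat_lit 191)) (XT.lf (nat_lit 0) (nat_lit 1495624178561) (nat_lit 76) (nat_lit 980257560049) (nat_lit 76) (nat_lit 910360168505) (nat_lit 1) (nat_lit 4) (nat_lit 2) (nat_lit 5) (nat_lit 2) (nat_lit 4) (nat_lit 318) (nat_lit 272) (nat_lit 190)))))) (XT.nd (nat_lit 468) (nat_lit 0) (nat_lit 0) (XT.nd (nat_lit 234) (nat_lit 0) (nat_lit 0) (XT.nd (nat_lit 78) (nat_lit 0) (nat_lit 0) (XT.lf (nat_lit 0) (nat_lit 1926834938900) (nat_lit 76) (nat_lit 1014427264812) (nat_lit 76)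 (nat_lit 944529777188) (nat_lit 1) (nat_lit 4) (nat_lit 2) (nat_lit 5) (nat_lit 2) (nat_lit 4) (nat_lit 319) (nat_lit 272) (nat_lit 189)) (XT.nd (nat_lit 78) (nat_lit 0) (nat_lit 0) (XT.lf (nat_lit 0) (nat_lit 2422726781679) (nat_lit 76) (nat_lit 1053722688399) (nat_lit 76) (nat_lit 983825117226) (nat_lit 1) (nat_lit 4) (nat_lit 2) (nat_lit 5) (nat_lit 2) (nat_lit 4) (nat_lit 320) (nat_lit 272) (nat_lit 188)) (XT.lf (nat_lit 0) (nat_lit 2993001938604) (nat_lit 76) (nat_lit 1098912654315) (nat_lit 76) (nat_lit 1029015010491) (nat_lit 1) (nat_lit 4) (nat_lit 2) (nat_lit 5) (nat_lit 2) (nat_lit 4) (nat_lit 321) (nat_lit 272) (nat_lit 187)))) (XT.nd (nat_lit 78) (nat_lit 0) (nat_lit 0) (XT.lf (nat_lit 0) (nat_lit 3648817967094) (nat_lit 76) (nat_lit 1150881314065) (nat_lit 76) (nat_lit 1080983607067) (nat_lit 1) (nat_lit 4) (nat_lit 2) (nat_lit 5) (nat_lit 2) (nat_lit 4) (nat_lit 322) (nat_lit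 272) (nat_lit 186)) (XT.nd (nat_lit 78) (nat_lit 0) (nat_lit 0) (XT.lf (nat_lit 0) (nat_lit 4403006050314) (nat_lit 76) (nat_lit 1210645445777) (nat_lit 76) (nat_lit 1140747683845) (nat_lit 1) (nat_lit 4) (nat_lit 2) (nat_lit 5) (nat_lit 2) (nat_lit 4) (nat_lit 323) (nat_lit 272) (nat_lit 185)) (XT.lf (nat_lit 0) (nat_lit 5270322042068) (nat_lit 76) (nat_lit 1279374347679) (nat_lit 76) (nat_lit 1209476537978) (nat_lit 1) (nat_lit 4) (nat_lit 2) (nat_lit 5) (nat_lit 2) (nat_lit 4) (nat_lit 324) (nat_lit 272) (nat_lit 184))))) (XT.nd (nat_lit 36738) (nat_lit 0) (nat_lit 3496) (XT.nd (nat_lit 36582) (nat_lit 0) (nat_lit 3800) (XT.lf (nat_lit 0) (nat_lit 6267735168279) (nat_lit 76) (nat_lit 1358412715678) (nat_lit 76) (nat_lit 1288514864438) (nat_lit 1) (nat_lit 4) (nat_lit 2) (nat_lit 5) (nat_lit 2) (nat_lit 4) (nat_lit 325) (nat_lit 272) (nat_lit 183)) (XT.nd (nat_lit 78) (nat_lit 0) (nat_lit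 0) (XT.lf (nat_lit 0) (nat_lit 8748203651) (nat_lit 532) (nat_lit 1915176015) (nat_lit 532) (nat_lit 1915176015) (nat_lit 51) (nat_lit 3) (nat_lit 58) (nat_lit 3) (nat_lit 58) (nat_lit 5) (nat_lit 273) (nat_lit 273) (nat_lit 234)) (XT.lf (nat_lit 76) (nat_lit 19244921927) (nat_lit 0) (nat_lit 199345723) (nat_lit 532) (nat_lit 7548403911) (nat_lit 52) (nat_lit 5) (nat_lit 51) (nat_lit 3) (nat_lit 58) (nat_lit 5) (nat_lit 274) (nat_lit 273) (nat_lit 233)))) (XT.nd (nat_lit 78) (nat_lit 380) (nat_lit 0) (XT.lf (nat_lit 76) (nat_lit 17175118455) (nat_lit 0) (nat_lit 5585342923) (nat_lit 532) (nat_lit 6257078440) (nat_lit 53) (nat_lit 5) (nat_lit 52) (nat_lit 5) (nat_lit 59) (nat_lit 5) (nat_lit 275) (nat_lit 273) (nat_lit 232)) (XT.nd (nat_lit 78) (nat_lit 456) (nat_lit 0) (XT.lf (nat_lit 76) (nat_lit 15244752331) (nat_lit 0) (nat_lit 12368683215) (nat_lit 532) (nat_lit 3649612372) (nat_lit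 54) (nat_lit 5) (nat_lit 53) (nat_lit 5) (nat_lit 60) (nat_lit 5) (nat_lit 276) (nat_lit 273) (nat_lit 231)) (XT.lf (nat_lit 0) (nat_lit 524925682) (nat_lit 532) (nat_lit 20291904680) (nat_lit 76) (nat_lit 12938380109) (nat_lit 47) (nat_lit 5) (nat_lit 54) (nat_lit 5) (nat_lit 48) (nat_lit 5) (nat_lit 277) (nat_lit 273) (nat_lit 230))))))) (XT.nd (nat_lit 936) (nat_lit 988) (nat_lit 0) (XT.nd (nat_lit 468) (nat_lit 836) (nat_lit 0) (XT.nd (nat_lit 234) (nat_lit 608) (nat_lit 0) (XT.nd (nat_lit 78) (nat_lit 456) (nat_lit 0) (XT.lf (nat_lit 0) (nat_lit 6336297438) (nat_lit 380) (nat_lit 24791641399) (nat_lit 76) (nat_lit 5387575305) (nat_lit 43) (nat_lit 5) (nat_lit 48) (nat_lit 5) (nat_lit 44) (nat_lit 5) (nat_lit 278) (nat_lit 273) (nat_lit 229)) (XT.nd (nat_lit 78) (nat_lit 228) (nat_lit 0) (XT.lf (nat_lit 0) (nat_lit 10017622427) (nat_lit 228) (nat_lit 4405096238) (nat_lit 304) (nat_lit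 25154912342) (nat_lit 40) (nat_lit 5) (nat_lit 43) (nat_lit 5) (nat_lit 44) (nat_lit 5) (nat_lit 279) (nat_lit 273) (nat_lit 228)) (XT.lf (nat_lit 0) (nat_lit 8248721682) (nat_lit 228) (nat_lit 17028038575) (nat_lit 304) (nat_lit 17697963125) (nat_lit 37) (nat_lit 5) (nat_lit 40) (nat_lit 5) (nat_lit 41) (nat_lit 5) (nat_lit 280) (nat_lit 273) (nat_lit 227)))) (XT.nd (nat_lit 78) (nat_lit 456) (nat_lit 0) (XT.lf (nat_lit 0) (nat_lit 6542684436) (nat_lit 152) (nat_lit 32689673107) (nat_lit 228) (nat_lit 7531172683) (nat_lit 35) (nat_lit 5) (nat_lit 37) (nat_lit 5) (nat_lit 38) (nat_lit 5) (nat_lit 281) (nat_lit 273) (nat_lit 226)) (XT.nd (nat_lit 78) (nat_lit 152) (nat_lit 0) (XT.lf (nat_lit 0) (nat_lit 4682906314) (nat_lit 228) (nat_lit 876016876) (nat_lit 304) (nat_lit 45425237725) (nat_lit 31) (nat_lit 5) (nat_lit 34) (nat_lit 5) (nat_lit 35) (nat_lit 5) (nat_lit 282) (nat_lit 273) (nat_lit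 225)) (XT.lf (nat_lit 0) (nat_lit 1997852573) (nat_lit 152) (nat_lit 20276633255) (nat_lit 228) (nat_lit 33379139245) (nat_lit 29) (nat_lit 5) (nat_lit 31) (nat_lit 5) (nat_lit 32) (nat_lit 5) (nat_lit 283) (nat_lit 273) (nat_lit 224))))) (XT.nd (nat_lit 234) (nat_lit 456) (nat_lit 0) (XT.nd (nat_lit 78) (nat_lit 380) (nat_lit 0) (XT.lf (nat_lit 0) (nat_lit 43276828991) (nat_lit 228) (nat_lit 1030817765) (nat_lit 76) (nat_lit 16573522584) (nat_lit 29) (nat_lit 5) (nat_lit 32) (nat_lit 5) (nat_lit 30) (nat_lit 5) (nat_lit 284) (nat_lit 273) (nat_lit 223)) (XT.nd (nat_lit 78) (nat_lit 152) (nat_lit 0) (XT.lf (nat_lit 0) (nat_lit 2604763740) (nat_lit 228) (nat_lit 4781415278) (nat_lit 76) (nat_lit 59338052107) (nat_lit 26) (nat_lit 5) (nat_lit 29) (nat_lit 5) (nat_lit 27) (nat_lit 5) (nat_lit 285) (nat_lit 273) (nat_lit 222)) (XT.lf (nat_lit 0) (nat_lit 27281508239) (nat_lit 228) (nat_lit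 10510962323) (nat_lit 76) (nat_lit 35416420641) (nat_lit 24) (nat_lit 5) (nat_lit 27) (nat_lit 5) (nat_lit 25) (nat_lit 5) (nat_lit 286) (nat_lit 273) (nat_lit 221)))) (XT.nd (nat_lit 78) (nat_lit 304) (nat_lit 0) (XT.lf (nat_lit 0) (nat_lit 57638390030) (nat_lit 228) (nat_lit 17790635341) (nat_lit 76) (nat_lit 5078944716) (nat_lit 22) (nat_lit 5) (nat_lit 25) (nat_lit 5) (nat_lit 23) (nat_lit 4) (nat_lit 287) (nat_lit 273) (nat_lit 220)) (XT.nd (nat_lit 78) (nat_lit 152) (nat_lit 0) (XT.lf (nat_lit 0) (nat_lit 6347418655) (nat_lit 152) (nat_lit 28180934891) (nat_lit 76) (nat_lit 54135911940) (nat_lit 20) (nat_lit 5) (nat_lit 22) (nat_lit 5) (nat_lit 21) (nat_lit 5) (nat_lit 288) (nat_lit 273) (nat_lit 219)) (XT.lf (nat_lit 0) (nat_lit 40860597198) (nat_lit 228) (nat_lit 42508911604) (nat_lit 76) (nat_lit 14445560933) (nat_lit 18) (nat_lit 5) (nat_lit 21) (nat_lit 5) (nat_lit 19) (nat_lit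 4) (nat_lit 289) (nat_lit 273) (nat_lit 218)))))) (XT.nd (nat_lit 468) (nat_lit 456) (nat_lit 0) (XT.nd (nat_lit 234) (nat_lit 228) (nat_lit 0) (XT.nd (nat_lit 78) (nat_lit 228) (nat_lit 0) (XT.lf (nat_lit 0) (nat_lit 46066301590) (nat_lit 76) (nat_lit 37382202625) (nat_lit 152) (nat_lit 24658176265) (nat_lit 17) (nat_lit 5) (nat_lit 18) (nat_lit 5) (nat_lit 19) (nat_lit 4) (nat_lit 290) (nat_lit 273) (nat_lit 217)) (XT.nd (nat_lit 78) (nat_lit 76) (nat_lit 0) (XT.lf (nat_lit 0) (nat_lit 14322400615) (nat_lit 152) (nat_lit 88277207569) (nat_lit 76) (nat_lit 17121271834) (nat_lit 15) (nat_lit 5) (nat_lit 17) (nat_lit 5) (nat_lit 16) (nat_lit 4) (nat_lit 291) (nat_lit 273) (nat_lit 216)) (XT.lf (nat_lit 0) (nat_lit 8422521274) (nat_lit 76) (nat_lit 52392703014) (nat_lit 152) (nat_lit 71960735673) (nat_lit 14) (nat_lit 5) (nat_lit 15) (nat_lit 5) (nat_lit 16) (nat_lit 4) (nat_lit 292) (nat_lit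 273) (nat_lit 215)))) (XT.nd (nat_lit 78) (nat_lit 228) (nat_lit 0) (XT.lf (nat_lit 0) (nat_lit 117041884135) (nat_lit 152) (nat_lit 22816033661) (nat_lit 0) (nat_lit 7710594738) (nat_lit 14) (nat_lit 5) (nat_lit 16) (nat_lit 4) (nat_lit 14) (nat_lit 4) (nat_lit 293) (nat_lit 273) (nat_lit 214)) (XT.nd (nat_lit 78) (nat_lit 76) (nat_lit 0) (XT.lf (nat_lit 0) (nat_lit 20150287689) (nat_lit 152) (nat_lit 67422432791) (nat_lit 76) (nat_lit 76663547805) (nat_lit 12) (nat_lit 5) (nat_lit 14) (nat_lit 5) (nat_lit 13) (nat_lit 4) (nat_lit 294) (nat_lit 273) (nat_lit 213)) (XT.lf (nat_lit 0) (nat_lit 54263516079) (nat_lit 76) (nat_lit 24391195937) (nat_lit 152) (nat_lit 104523366954) (nat_lit 11) (nat_lit 5) (nat_lit 12) (nat_lit 5) (nat_lit 13) (nat_lit 4) (nat_lit 295) (nat_lit 273) (nat_lit 212))))) (XT.nd (nat_lit 234) (nat_lit 228) (nat_lit 0) (XT.nd (nat_lit 78) (nat_lit 228) (nat_lit 0)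 (XT.lf (nat_lit 0) (nat_lit 149105409375) (nat_lit 152) (nat_lit 7738468425) (nat_lit 0) (nat_lit 47863636927) (nat_lit 11) (nat_lit 5) (nat_lit 13) (nat_lit 4) (nat_lit 11) (nat_lit 4) (nat_lit 296) (nat_lit 273) (nat_lit 211)) (XT.nd (nat_lit 78) (nat_lit 76) (nat_lit 0) (XT.lf (nat_lit 0) (nat_lit 4713735127) (nat_lit 152) (nat_lit 91439481426) (nat_lit 76) (nat_lit 132984744533) (nat_lit 9) (nat_lit 5) (nat_lit 11) (nat_lit 5) (nat_lit 10) (nat_lit 4) (nat_lit 297) (nat_lit 273) (nat_lit 210)) (XT.lf (nat_lit 0) (nat_lit 49111349474) (nat_lit 76) (nat_lit 23175852868) (nat_lit 152) (nat_lit 184710035509) (nat_lit 8) (nat_lit 5) (nat_lit 9) (nat_lit 5) (nat_lit 10) (nat_lit 4) (nat_lit 298) (nat_lit 273) (nat_lit 209)))) (XT.nd (nat_lit 156) (nat_lit 152) (nat_lit 0) (XT.nd (nat_lit 78) (nat_lit 76) (nat_lit 0) (XT.lf (nat_lit 0) (nat_lit 154185856645) (nat_lit 152) (nat_lit 74076481136)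 (nat_lit 0) (nat_lit 60437936342) (nat_lit 8) (nat_lit 5) (nat_lit 10) (nat_lit 4) (nat_lit 8) (nat_lit 4) (nat_lit 299) (nat_lit 273) (nat_lit 208)) (XT.lf (nat_lit 0) (nat_lit 83326451328) (nat_lit 76) (nat_lit 167685120916) (nat_lit 76) (nat_lit 73935813715) (nat_lit 7) (nat_lit 4) (nat_lit 8) (nat_lit 5) (nat_lit 8) (nat_lit 4) (nat_lit 300) (nat_lit 273) (nat_lit 207))) (XT.nd (nat_lit 78) (nat_lit 152) (nat_lit 0) (XT.lf (nat_lit 0) (nat_lit 268820887002) (nat_lit 76) (nat_lit 95694429062) (nat_lit 76) (nat_lit 1943915861) (nat_lit 7) (nat_lit 4) (nat_lit 8) (nat_lit 5) (nat_lit 8) (nat_lit 4) (nat_lit 301) (nat_lit 273) (nat_lit 206)) (XT.lf (nat_lit 0) (nat_lit 69468063363) (nat_lit 76) (nat_lit 9002910318) (nat_lit 152) (nat_lit 335437853416) (nat_lit 5) (nat_lit 5) (nat_lit 6) (nat_lit 5) (nat_lit 7) (nat_lit 4) (nat_lit 302) (nat_lit 273) (nat_lit 205))))))))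
noncomputable def xc40 : XT := (XT.nd (nat_lit 38454) (nat_lit 0) (nat_lit 532) (XT.nd (nat_lit 936) (nat_lit 0) (nat_lit 0) (XT.nd (nat_lit 468) (nat_lit 76) (nat_lit 0) (XT.nd (nat_lit 234) (nat_lit 152) (nat_lit 0) (XT.nd (nat_lit 78) (nat_lit 76) (nat_lit 0) (XT.lf (nat_lit 0) (nat_lit 175931821533) (nat_lit 152) (nat_lit 203008119892) (nat_lit 0) (nat_lit 89123975419) (nat_lit 5) (nat_lit 5) (nat_lit 7) (nat_lit 4) (nat_lit 5) (nat_lit 4) (nat_lit 303) (nat_lit 273) (nat_lit 204)) (XT.nd (nat_lit 78) (nat_lit 76) (nat_lit 0) (XT.lf (nat_lit 0) (nat_lit 288258995579) (nat_lit 152) (nat_lit 40613083937) (nat_lit 0) (nat_lit 201450415239) (nat_lit 5) (nat_lit 5) (nat_lit 7) (nat_lit 4) (nat_lit 5) (nat_lit 4) (nat_lit 304) (nat_lit 273) (nat_lit 203)) (XT.lf (nat_lit 0) (nat_lit 153833534971) (nat_lit 76) (nat_lit 267299846433) (nat_lit 76) (nat_lit 180490627636) (nat_lit 4) (nat_lit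 4) (nat_lit 5) (nat_lit 5) (nat_lit 5) (nat_lit 4) (nat_lit 305) (nat_lit 273) (nat_lit 202)))) (XT.nd (nat_lit 78) (nat_lit 152) (nat_lit 0) (XT.lf (nat_lit 0) (nat_lit 379903760881) (nat_lit 76) (nat_lit 195216142871) (nat_lit 76) (nat_lit 108406368894) (nat_lit 4) (nat_lit 4) (nat_lit 5) (nat_lit 5) (nat_lit 5) (nat_lit 4) (nat_lit 306) (nat_lit 273) (nat_lit 201)) (XT.nd (nat_lit 78) (nat_lit 152) (nat_lit 0) (XT.lf (nat_lit 0) (nat_lit 639882093882) (nat_lit 76) (nat_lit 112321069188) (nat_lit 76) (nat_lit 25510812446) (nat_lit 4) (nat_lit 4) (nat_lit 5) (nat_lit 5) (nat_lit 5) (nat_lit 4) (nat_lit 307) (nat_lit 273) (nat_lit 200)) (XT.lf (nat_lit 0) (nat_lit 53839282565) (nat_lit 76) (nat_lit 13780890080) (nat_lit 152) (nat_lit 818171831203) (nat_lit 2) (nat_lit 5) (nat_lit 3) (nat_lit 5) (nat_lit 4) (nat_lit 4) (nat_lit 308) (nat_lit 273) (nat_lit 199))))) (XT.nd (nat_lit 234) (nat_lit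 76) (nat_lit 0) (XT.nd (nat_lit 78) (nat_lit 0) (nat_lit 0) (XT.lf (nat_lit 0) (nat_lit 179763196898) (nat_lit 152) (nat_lit 730358694201) (nat_lit 0) (nat_lit 99382602844) (nat_lit 2) (nat_lit 5) (nat_lit 4) (nat_lit 4) (nat_lit 2) (nat_lit 4) (nat_lit 309) (nat_lit 273) (nat_lit 198)) (XT.nd (nat_lit 78) (nat_lit 0) (nat_lit 0) (XT.lf (nat_lit 0) (nat_lit 309107920556) (nat_lit 152) (nat_lit 613908484995) (nat_lit 0) (nat_lit 228727032589) (nat_lit 2) (nat_lit 5) (nat_lit 4) (nat_lit 4) (nat_lit 2) (nat_lit 4) (nat_lit 310) (nat_lit 273) (nat_lit 197)) (XT.lf (nat_lit 0) (nat_lit 457853570519) (nat_lit 152) (nat_lit 479992289269) (nat_lit 0) (nat_lit 377472426976) (nat_lit 2) (nat_lit 5) (nat_lit 4) (nat_lit 4) (nat_lit 2) (nat_lit 4) (nat_lit 311) (nat_lit 273) (nat_lit 196)))) (XT.nd (nat_lit 78) (nat_lit 76) (nat_lit 0) (XT.lf (nat_lit 0) (nat_lit 628910387764) (nat_lit 152) (nat_lit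 325990007542) (nat_lit 0) (nat_lit 548529021980) (nat_lit 2) (nat_lit 5) (nat_lit 4) (nat_lit 4) (nat_lit 2) (nat_lit 4) (nat_lit 312) (nat_lit 273) (nat_lit 195)) (XT.nd (nat_lit 78) (nat_lit 76) (nat_lit 0) (XT.lf (nat_lit 0) (nat_lit 825625136107) (nat_lit 152) (nat_lit 148888551692) (nat_lit 0) (nat_lit 745243577071) (nat_lit 2) (nat_lit 5) (nat_lit 4) (nat_lit 4) (nat_lit 2) (nat_lit 4) (nat_lit 313) (nat_lit 273) (nat_lit 194)) (XT.lf (nat_lit 0) (nat_lit 57661572131) (nat_lit 76) (nat_lit 995571772428) (nat_lit 76) (nat_lit 915190045346) (nat_lit 1) (nat_lit 4) (nat_lit 2) (nat_lit 5) (nat_lit 2) (nat_lit 4) (nat_lit 314) (nat_lit 273) (nat_lit 193)))))) (XT.nd (nat_lit 468) (nat_lit 0) (nat_lit 0) (XT.nd (nat_lit 234) (nat_lit 0) (nat_lit 0) (XT.nd (nat_lit 78) (nat_lit 0) (nat_lit 0) (XT.lf (nat_lit 0) (nat_lit 304209523109) (nat_lit 76) (nat_lit 1015107521545) (nat_lit 76) (nat_lit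 934725648336) (nat_lit 1) (nat_lit 4) (nat_lit 2) (nat_lit 5) (nat_lit 2) (nat_lit 4) (nat_lit 315) (nat_lit 273) (nat_lit 192)) (XT.nd (nat_lit 78) (nat_lit 0) (nat_lit 0) (XT.lf (nat_lit 0) (nat_lit 587738858220) (nat_lit 76) (nat_lit 1037574033184) (nat_lit 76) (nat_lit 957192032909) (nat_lit 1) (nat_lit 4) (nat_lit 2) (nat_lit 5) (nat_lit 2) (nat_lit 4) (nat_lit 316) (nat_lit 273) (nat_lit 191)) (XT.lf (nat_lit 0) (nat_lit 913796890541) (nat_lit 76) (nat_lit 1063410869532) (nat_lit 76) (nat_lit 983028758764) (nat_lit 1) (nat_lit 4) (nat_lit 2) (nat_lit 5) (nat_lit 2) (nat_lit 4) (nat_lit 317) (nat_lit 273) (nat_lit 190)))) (XT.nd (nat_lit 78) (nat_lit 0) (nat_lit 0) (XT.lf (nat_lit 0) (nat_lit 1288763016358) (nat_lit 76) (nat_lit 1093123533906) (nat_lit 76) (nat_lit 1012741327058) (nat_lit 1) (nat_lit 4) (nat_lit 2) (nat_lit 5) (nat_lit 2) (nat_lit 4) (nat_lit 318) (nat_lit 273) (nat_lit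 189)) (XT.nd (nat_lit 78) (nat_lit 0) (nat_lit 0) (XT.lf (nat_lit 0) (nat_lit 1719973529437) (nat_lit 76) (nat_lit 1127293361046) (nat_lit 76) (nat_lit 1046911070649) (nat_lit 1) (nat_lit 4) (nat_lit 2) (nat_lit 5) (nat_lit 2) (nat_lit 4) (nat_lit 319) (nat_lit 273) (nat_lit 188)) (XT.lf (nat_lit 0) (nat_lit 2215865157206) (nat_lit 76) (nat_lit 1166588891047) (nat_lit 76) (nat_lit 1086206527999) (nat_lit 1) (nat_lit 4) (nat_lit 2) (nat_lit 5) (nat_lit 2) (nat_lit 4) (nat_lit 320) (nat_lit 273) (nat_lit 187))))) (XT.nd (nat_lit 234) (nat_lit 0) (nat_lit 0) (XT.nd (nat_lit 78) (nat_lit 0) (nat_lit 0) (XT.lf (nat_lit 0) (nat_lit 2786140127167) (nat_lit 76) (nat_lit 1211778949497) (nat_lit 76) (nat_lit 1131396523274) (nat_lit 1) (nat_lit 4) (nat_lit 2) (nat_lit 5) (nat_lit 2) (nat_lit 4) (nat_lit 321) (nat_lit 273) (nat_lit 186)) (XT.nd (nat_lit 78) (nat_lit 0) (nat_lit 0) (XT.lf (nat_lit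 0) (nat_lit 3441955993078) (nat_lit 76) (nat_lit 1263747689712) (nat_lit 76) (nat_lit 1183365208555) (nat_lit 1) (nat_lit 4) (nat_lit 2) (nat_lit 5) (nat_lit 2) (nat_lit 4) (nat_lit 322) (nat_lit 273) (nat_lit 185)) (XT.lf (nat_lit 0) (nat_lit 4196143934927) (nat_lit 76) (nat_lit 1323511891393) (nat_lit 76) (nat_lit 1243129362467) (nat_lit 1) (nat_lit 4) (nat_lit 2) (nat_lit 5) (nat_lit 2) (nat_lit 4) (nat_lit 323) (nat_lit 273) (nat_lit 184)))) (XT.nd (nat_lit 78) (nat_lit 0) (nat_lit 0) (XT.lf (nat_lit 0) (nat_lit 5063459803747) (nat_lit 76) (nat_lit 1392240854137) (nat_lit 76) (nat_lit 1311858283673) (nat_lit 1) (nat_lit 4) (nat_lit 2) (nat_lit 5) (nat_lit 2) (nat_lit 4) (nat_lit 324) (nat_lit 273) (nat_lit 183)) (XT.nd (nat_lit 36660) (nat_lit 0) (nat_lit 3800) (XT.lf (nat_lit 0) (nat_lit 6060872823061) (nat_lit 76) (nat_lit 1471279275043) (nat_lit 76) (nat_lit 1390896668458) (nat_lit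 1) (nat_lit 4) (nat_lit 2) (nat_lit 5) (nat_lit 2) (nat_lit 4) (nat_lit 325) (nat_lit 273) (nat_lit 182)) (XT.lf (nat_lit 0) (nat_lit 10226068342) (nat_lit 532) (nat_lit 2112831313) (nat_lit 532) (nat_lit 2112831313) (nat_lit 51) (nat_lit 3) (nat_lit 58) (nat_lit 3) (nat_lit 58) (nat_lit 5) (nat_lit 274) (nat_lit 274) (nat_lit 232))))))) (XT.nd (nat_lit 936) (nat_lit 1368) (nat_lit 0) (XT.nd (nat_lit 468) (nat_lit 1064) (nat_lit 0) (XT.nd (nat_lit 234) (nat_lit 836) (nat_lit 0) (XT.nd (nat_lit 78) (nat_lit 0) (nat_lit 76) (XT.lf (nat_lit 76) (nat_lit 22295730464) (nat_lit 0) (nat_lit 357182608) (nat_lit 532) (nat_lit 8364677354) (nat_lit 52) (nat_lit 5) (nat_lit 51) (nat_lit 3) (nat_lit 58) (nat_lit 5) (nat_lit 275) (nat_lit 274) (nat_lit 231)) (XT.nd (nat_lit 78) (nat_lit 0) (nat_lit 76) (XT.lf (nat_lit 76) (nat_lit 19926337067) (nat_lit 0) (nat_lit 6503643205) (nat_lit 532) (nat_lit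 6919214154) (nat_lit 53) (nat_lit 5) (nat_lit 52) (nat_lit 5) (nat_lit 59) (nat_lit 5) (nat_lit 276) (nat_lit 274) (nat_lit 230)) (XT.lf (nat_lit 76) (nat_lit 17712580254) (nat_lit 0) (nat_lit 14267673131) (nat_lit 532) (nat_lit 3953797616) (nat_lit 54) (nat_lit 5) (nat_lit 53) (nat_lit 5) (nat_lit 60) (nat_lit 5) (nat_lit 277) (nat_lit 274) (nat_lit 229)))) (XT.nd (nat_lit 78) (nat_lit 532) (nat_lit 0) (XT.lf (nat_lit 0) (nat_lit 808204414) (nat_lit 532) (nat_lit 23140902940) (nat_lit 76) (nat_lit 14852643151) (nat_lit 47) (nat_lit 5) (nat_lit 54) (nat_lit 5) (nat_lit 48) (nat_lit 5) (nat_lit 278) (nat_lit 274) (nat_lit 228)) (XT.nd (nat_lit 78) (nat_lit 228) (nat_lit 0) (XT.lf (nat_lit 0) (nat_lit 7468798357) (nat_lit 380) (nat_lit 28317094475) (nat_lit 76) (nat_lit 6192054934) (nat_lit 43) (nat_lit 5) (nat_lit 48) (nat_lit 5) (nat_lit 44) (nat_lit 5) (nat_lit 279) (nat_lit 274) (nat_lit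 227)) (XT.lf (nat_lit 0) (nat_lit 11697197625) (nat_lit 228) (nat_lit 5051493883) (nat_lit 304) (nat_lit 28752292864) (nat_lit 40) (nat_lit 5) (nat_lit 43) (nat_lit 5) (nat_lit 44) (nat_lit 5) (nat_lit 280) (nat_lit 274) (nat_lit 226))))) (XT.nd (nat_lit 234) (nat_lit 380) (nat_lit 0) (XT.nd (nat_lit 78) (nat_lit 456) (nat_lit 0) (XT.lf (nat_lit 0) (nat_lit 9659835339) (nat_lit 228) (nat_lit 19554280341) (nat_lit 304) (nat_lit 20194900130) (nat_lit 37) (nat_lit 5) (nat_lit 40) (nat_lit 5) (nat_lit 41) (nat_lit 5) (nat_lit 281) (nat_lit 274) (nat_lit 225)) (XT.nd (nat_lit 78) (nat_lit 304) (nat_lit 0) (XT.lf (nat_lit 0) (nat_lit 7693472578) (nat_lit 152) (nat_lit 37555215730) (nat_lit 228) (nat_lit 8518636961) (nat_lit 35) (nat_lit 5) (nat_lit 37) (nat_lit 5) (nat_lit 38) (nat_lit 5) (nat_lit 282) (nat_lit 274) (nat_lit 224)) (XT.lf (nat_lit 0) (nat_lit 5547085280) (nat_lit 228) (nat_lit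 967042506) (nat_lit 304) (nat_lit 52107773807) (nat_lit 31) (nat_lit 5) (nat_lit 34) (nat_lit 5) (nat_lit 35) (nat_lit 5) (nat_lit 283) (nat_lit 274) (nat_lit 223)))) (XT.nd (nat_lit 78) (nat_lit 228) (nat_lit 0) (XT.lf (nat_lit 0) (nat_lit 2453740741) (nat_lit 152) (nat_lit 23272054981) (nat_lit 228) (nat_lit 38266910697) (nat_lit 29) (nat_lit 5) (nat_lit 31) (nat_lit 5) (nat_lit 32) (nat_lit 5) (nat_lit 284) (nat_lit 274) (nat_lit 222)) (XT.nd (nat_lit 78) (nat_lit 228) (nat_lit 0) (XT.lf (nat_lit 0) (nat_lit 49865088194) (nat_lit 228) (nat_lit 1042775531) (nat_lit 76) (nat_lit 19097610530) (nat_lit 29) (nat_lit 5) (nat_lit 32) (nat_lit 5) (nat_lit 30) (nat_lit 5) (nat_lit 285) (nat_lit 274) (nat_lit 221)) (XT.lf (nat_lit 0) (nat_lit 3085111467) (nat_lit 228) (nat_lit 5363212584) (nat_lit 76) (nat_lit 68277265054) (nat_lit 26) (nat_lit 5) (nat_lit 29) (nat_lit 5) (nat_lit 27) (nat_lit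 5) (nat_lit 286) (nat_lit 274) (nat_lit 220)))))) (XT.nd (nat_lit 468) (nat_lit 532) (nat_lit 0) (XT.nd (nat_lit 234) (nat_lit 380) (nat_lit 0) (XT.nd (nat_lit 78) (nat_lit 304) (nat_lit 0) (XT.lf (nat_lit 0) (nat_lit 31455692293) (nat_lit 228) (nat_lit 11958122715) (nat_lit 76) (nat_lit 40769761042) (nat_lit 24) (nat_lit 5) (nat_lit 27) (nat_lit 5) (nat_lit 25) (nat_lit 5) (nat_lit 287) (nat_lit 274) (nat_lit 219)) (XT.nd (nat_lit 78) (nat_lit 152) (nat_lit 0) (XT.lf (nat_lit 0) (nat_lit 66359334660) (nat_lit 228) (nat_lit 20335765182) (nat_lit 76) (nat_lit 5882970690) (nat_lit 22) (nat_lit 5) (nat_lit 25) (nat_lit 5) (nat_lit 23) (nat_lit 4) (nat_lit 288) (nat_lit 274) (nat_lit 218)) (XT.lf (nat_lit 0) (nat_lit 7369463692) (nat_lit 152) (nat_lit 32291313337) (nat_lit 76) (nat_lit 62297469145) (nat_lit 20) (nat_lit 5) (nat_lit 22) (nat_lit 5) (nat_lit 21) (nat_lit 5) (nat_lit 289) (nat_lit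 274) (nat_lit 217)))) (XT.nd (nat_lit 78) (nat_lit 228) (nat_lit 0) (XT.lf (nat_lit 0) (nat_lit 47054113964) (nat_lit 228) (nat_lit 48774289352) (nat_lit 76) (nat_lit 16653716569) (nat_lit 18) (nat_lit 5) (nat_lit 21) (nat_lit 5) (nat_lit 19) (nat_lit 4) (nat_lit 290) (nat_lit 274) (nat_lit 216)) (XT.nd (nat_lit 78) (nat_lit 152) (nat_lit 0) (XT.lf (nat_lit 0) (nat_lit 53077813695) (nat_lit 76) (nat_lit 42946432478) (nat_lit 152) (nat_lit 28293710259) (nat_lit 17) (nat_lit 5) (nat_lit 18) (nat_lit 5) (nat_lit 19) (nat_lit 4) (nat_lit 291) (nat_lit 274) (nat_lit 215)) (XT.lf (nat_lit 0) (nat_lit 16526263951) (nat_lit 152) (nat_lit 101419479713) (nat_lit 76) (nat_lit 19728788796) (nat_lit 15) (nat_lit 5) (nat_lit 17) (nat_lit 5) (nat_lit 16) (nat_lit 4) (nat_lit 292) (nat_lit 274) (nat_lit 214))))) (XT.nd (nat_lit 234) (nat_lit 304) (nat_lit 0) (XT.nd (nat_lit 78) (nat_lit 152) (nat_lit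 0) (XT.lf (nat_lit 0) (nat_lit 9776802445) (nat_lit 76) (nat_lit 60211155395) (nat_lit 152) (nat_lit 82700325946) (nat_lit 14) (nat_lit 5) (nat_lit 15) (nat_lit 5) (nat_lit 16) (nat_lit 4) (nat_lit 293) (nat_lit 274) (nat_lit 213)) (XT.nd (nat_lit 78) (nat_lit 152) (nat_lit 0) (XT.lf (nat_lit 0) (nat_lit 134642882239) (nat_lit 152) (nat_lit 26156699361) (nat_lit 0) (nat_lit 8900600858) (nat_lit 14) (nat_lit 5) (nat_lit 16) (nat_lit 4) (nat_lit 14) (nat_lit 4) (nat_lit 294) (nat_lit 274) (nat_lit 212)) (XT.lf (nat_lit 0) (nat_lit 23214594544) (nat_lit 152) (nat_lit 77458754059) (nat_lit 76) (nat_lit 88194994902) (nat_lit 12) (nat_lit 5) (nat_lit 14) (nat_lit 5) (nat_lit 13) (nat_lit 4) (nat_lit 295) (nat_lit 274) (nat_lit 211)))) (XT.nd (nat_lit 156) (nat_lit 228) (nat_lit 0) (XT.nd (nat_lit 78) (nat_lit 0) (nat_lit 0) (XT.lf (nat_lit 0) (nat_lit 62473565780) (nat_lit 76) (nat_lit 28017365362)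 (nat_lit 152) (nat_lit 120160797879) (nat_lit 11) (nat_lit 5) (nat_lit 12) (nat_lit 5) (nat_lit 13) (nat_lit 4) (nat_lit 296) (nat_lit 274) (nat_lit 210)) (XT.lf (nat_lit 0) (nat_lit 171504954860) (nat_lit 152) (nat_lit 8835932413) (nat_lit 0) (nat_lit 55070037844) (nat_lit 11) (nat_lit 5) (nat_lit 13) (nat_lit 4) (nat_lit 11) (nat_lit 4) (nat_lit 297) (nat_lit 274) (nat_lit 209))) (XT.nd (nat_lit 78) (nat_lit 76) (nat_lit 0) (XT.lf (nat_lit 0) (nat_lit 5452336087) (nat_lit 152) (nat_lit 105095780481) (nat_lit 76) (nat_lit 152958000858) (nat_lit 9) (nat_lit 5) (nat_lit 11) (nat_lit 5) (nat_lit 10) (nat_lit 4) (nat_lit 298) (nat_lit 274) (nat_lit 208)) (XT.lf (nat_lit 0) (nat_lit 56532628251) (nat_lit 76) (nat_lit 26626393693) (nat_lit 152) (nat_lit 212385489777) (nat_lit 8) (nat_lit 5) (nat_lit 9) (nat_lit 5) (nat_lit 10) (nat_lit 4) (nat_lit 299) (nat_lit 274) (nat_lit 207))))))))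
noncomputable def xc41 : XT := (XT.nd (nat_lit 1872) (nat_lit 0) (nat_lit 0) (XT.nd (nat_lit 936) (nat_lit 76) (nat_lit 0) (XT.nd (nat_lit 468) (nat_lit 228) (nat_lit 0) (XT.nd (nat_lit 234) (nat_lit 152) (nat_lit 0) (XT.nd (nat_lit 78) (nat_lit 76) (nat_lit 0) (XT.lf (nat_lit 0) (nat_lit 177339266127) (nat_lit 152) (nat_lit 85139025671) (nat_lit 0) (nat_lit 69524969949) (nat_lit 8) (nat_lit 5) (nat_lit 10) (nat_lit 4) (nat_lit 8) (nat_lit 4) (nat_lit 300) (nat_lit 274) (nat_lit 206)) (XT.nd (nat_lit 78) (nat_lit 0) (nat_lit 0) (XT.lf (nat_lit 0) (nat_lit 95870205182) (nat_lit 76) (nat_lit 192816380865) (nat_lit 76) (nat_lit 85001035991) (nat_lit 7) (nat_lit 4) (nat_lit 8) (nat_lit 5) (nat_lit 8) (nat_lit 4) (nat_lit 301) (nat_lit 274) (nat_lit 205)) (XT.lf (nat_lit 0) (nat_lit 309182964534) (nat_lit 76) (nat_lit 110029890648) (nat_lit 76) (nat_lit 2213633866) (nat_lit 7) (nat_lit 4) (nat_lit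 8) (nat_lit 5) (nat_lit 8) (nat_lit 4) (nat_lit 302) (nat_lit 274) (nat_lit 204)))) (XT.nd (nat_lit 78) (nat_lit 0) (nat_lit 0) (XT.lf (nat_lit 0) (nat_lit 79924929346) (nat_lit 76) (nat_lit 10335637524) (nat_lit 152) (nat_lit 385733061814) (nat_lit 5) (nat_lit 5) (nat_lit 6) (nat_lit 5) (nat_lit 7) (nat_lit 4) (nat_lit 303) (nat_lit 274) (nat_lit 203)) (XT.nd (nat_lit 78) (nat_lit 0) (nat_lit 0) (XT.lf (nat_lit 0) (nat_lit 202338440891) (nat_lit 152) (nat_lit 233426509140) (nat_lit 0) (nat_lit 102507200818) (nat_lit 5) (nat_lit 5) (nat_lit 7) (nat_lit 4) (nat_lit 5) (nat_lit 4) (nat_lit 304) (nat_lit 274) (nat_lit 202)) (XT.lf (nat_lit 0) (nat_lit 331512493723) (nat_lit 152) (nat_lit 46676499801) (nat_lit 0) (nat_lit 231680698469) (nat_lit 5) (nat_lit 5) (nat_lit 7) (nat_lit 4) (nat_lit 5) (nat_lit 4) (nat_lit 305) (nat_lit 274) (nat_lit 201))))) (XT.nd (nat_lit 234) (nat_lit 152) (nat_lit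 0) (XT.nd (nat_lit 78) (nat_lit 0) (nat_lit 0) (XT.lf (nat_lit 0) (nat_lit 176934695605) (nat_lit 76) (nat_lit 307382059539) (nat_lit 76) (nat_lit 207549781520) (nat_lit 4) (nat_lit 4) (nat_lit 5) (nat_lit 5) (nat_lit 5) (nat_lit 4) (nat_lit 306) (nat_lit 274) (nat_lit 200)) (XT.nd (nat_lit 78) (nat_lit 0) (nat_lit 0) (XT.lf (nat_lit 0) (nat_lit 436912047090) (nat_lit 76) (nat_lit 224487465294) (nat_lit 76) (nat_lit 124654767480) (nat_lit 4) (nat_lit 4) (nat_lit 5) (nat_lit 5) (nat_lit 5) (nat_lit 4) (nat_lit 307) (nat_lit 274) (nat_lit 199)) (XT.lf (nat_lit 0) (nat_lit 735884166292) (nat_lit 76) (nat_lit 129159578255) (nat_lit 76) (nat_lit 29326515400) (nat_lit 4) (nat_lit 4) (nat_lit 5) (nat_lit 5) (nat_lit 5) (nat_lit 4) (nat_lit 308) (nat_lit 274) (nat_lit 198)))) (XT.nd (nat_lit 78) (nat_lit 0) (nat_lit 0) (XT.lf (nat_lit 0) (nat_lit 61933763634) (nat_lit 76) (nat_lit 15838901709)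 (nat_lit 152) (nat_lit 940887379054) (nat_lit 2) (nat_lit 5) (nat_lit 3) (nat_lit 5) (nat_lit 4) (nat_lit 4) (nat_lit 309) (nat_lit 274) (nat_lit 197)) (XT.nd (nat_lit 78) (nat_lit 0) (nat_lit 0) (XT.lf (nat_lit 0) (nat_lit 206736099200) (nat_lit 152) (nat_lit 839895864131) (nat_lit 0) (nat_lit 114297528549) (nat_lit 2) (nat_lit 5) (nat_lit 4) (nat_lit 4) (nat_lit 2) (nat_lit 4) (nat_lit 310) (nat_lit 274) (nat_lit 196)) (XT.lf (nat_lit 0) (nat_lit 355481432785) (nat_lit 152) (nat_lit 705980293222) (nat_lit 0) (nat_lit 263042639893) (nat_lit 2) (nat_lit 5) (nat_lit 4) (nat_lit 4) (nat_lit 2) (nat_lit 4) (nat_lit 311) (nat_lit 274) (nat_lit 195)))))) (XT.nd (nat_lit 468) (nat_lit 0) (nat_lit 0) (XT.nd (nat_lit 234) (nat_lit 76) (nat_lit 0) (XT.nd (nat_lit 78) (nat_lit 0) (nat_lit 0) (XT.lf (nat_lit 0) (nat_lit 526537974919) (nat_lit 152) (nat_lit 551978554814) (nat_lit 0) (nat_lit 434098988775)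 (nat_lit 2) (nat_lit 5) (nat_lit 4) (nat_lit 4) (nat_lit 2) (nat_lit 4) (nat_lit 312) (nat_lit 274) (nat_lit 194)) (XT.nd (nat_lit 78) (nat_lit 0) (nat_lit 0) (XT.lf (nat_lit 0) (nat_lit 723252484035) (nat_lit 152) (nat_lit 374877571416) (nat_lit 0) (nat_lit 630813329845) (nat_lit 2) (nat_lit 5) (nat_lit 4) (nat_lit 4) (nat_lit 2) (nat_lit 4) (nat_lit 313) (nat_lit 274) (nat_lit 193)) (XT.lf (nat_lit 0) (nat_lit 949473722268) (nat_lit 152) (nat_lit 171212323788) (nat_lit 0) (nat_lit 857034421951) (nat_lit 2) (nat_lit 5) (nat_lit 4) (nat_lit 4) (nat_lit 2) (nat_lit 4) (nat_lit 314) (nat_lit 274) (nat_lit 192)))) (XT.nd (nat_lit 78) (nat_lit 0) (nat_lit 0) (XT.lf (nat_lit 0) (nat_lit 66319513579) (nat_lit 76) (nat_lit 1144903229638) (nat_lit 76) (nat_lit 1052463802255) (nat_lit 1) (nat_lit 4) (nat_lit 2) (nat_lit 5) (nat_lit 2) (nat_lit 4) (nat_lit 315) (nat_lit 274) (nat_lit 191)) (XT.nd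 (nat_lit 78) (nat_lit 0) (nat_lit 0) (XT.lf (nat_lit 0) (nat_lit 349848521687) (nat_lit 76) (nat_lit 1167369903121) (nat_lit 76) (nat_lit 1074930365245) (nat_lit 1) (nat_lit 4) (nat_lit 2) (nat_lit 5) (nat_lit 2) (nat_lit 4) (nat_lit 316) (nat_lit 274) (nat_lit 190)) (XT.lf (nat_lit 0) (nat_lit 675906269659) (nat_lit 76) (nat_lit 1193206880201) (nat_lit 76) (nat_lit 1100767246244) (nat_lit 1) (nat_lit 4) (nat_lit 2) (nat_lit 5) (nat_lit 2) (nat_lit 4) (nat_lit 317) (nat_lit 274) (nat_lit 189))))) (XT.nd (nat_lit 234) (nat_lit 0) (nat_lit 0) (XT.nd (nat_lit 78) (nat_lit 0) (nat_lit 0) (XT.lf (nat_lit 0) (nat_lit 1050872148215) (nat_lit 76) (nat_lit 1222919666952) (nat_lit 76) (nat_lit 1130479949446) (nat_lit 1) (nat_lit 4) (nat_lit 2) (nat_lit 5) (nat_lit 2) (nat_lit 4) (nat_lit 318) (nat_lit 274) (nat_lit 188)) (XT.nd (nat_lit 78) (nat_lit 0) (nat_lit 0) (XT.lf (nat_lit 0) (nat_lit 1482082446283)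 (nat_lit 76) (nat_lit 1257089600506) (nat_lit 76) (nat_lit 1164649810350) (nat_lit 1) (nat_lit 4) (nat_lit 2) (nat_lit 5) (nat_lit 2) (nat_lit 4) (nat_lit 319) (nat_lit 274) (nat_lit 187)) (XT.lf (nat_lit 0) (nat_lit 1977973887088) (nat_lit 76) (nat_lit 1296385223041) (nat_lit 76) (nat_lit 1203945369710) (nat_lit 1) (nat_lit 4) (nat_lit 2) (nat_lit 5) (nat_lit 2) (nat_lit 4) (nat_lit 320) (nat_lit 274) (nat_lit 186)))) (XT.nd (nat_lit 78) (nat_lit 0) (nat_lit 0) (XT.lf (nat_lit 0) (nat_lit 2548248694471) (nat_lit 76) (nat_lit 1341575361954) (nat_lit 76) (nat_lit 1249135453689) (nat_lit 1) (nat_lit 4) (nat_lit 2) (nat_lit 5) (nat_lit 2) (nat_lit 4) (nat_lit 321) (nat_lit 274) (nat_lit 185)) (XT.nd (nat_lit 78) (nat_lit 0) (nat_lit 0) (XT.lf (nat_lit 0) (nat_lit 3204064419010) (nat_lit 76) (nat_lit 1393544172139) (nat_lit 76) (nat_lit 1301104216105) (nat_lit 1) (nat_lit 4) (nat_lit 2) (nat_lit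 5) (nat_lit 2) (nat_lit 4) (nat_lit 322) (nat_lit 274) (nat_lit 184)) (XT.lf (nat_lit 0) (nat_lit 3958252237926) (nat_lit 76) (nat_lit 1453308434662) (nat_lit 76) (nat_lit 1360868437090) (nat_lit 1) (nat_lit 4) (nat_lit 2) (nat_lit 5) (nat_lit 2) (nat_lit 4) (nat_lit 323) (nat_lit 274) (nat_lit 183))))))) (XT.nd (nat_lit 37596) (nat_lit 0) (nat_lit 760) (XT.nd (nat_lit 37128) (nat_lit 0) (nat_lit 2280) (XT.nd (nat_lit 36894) (nat_lit 0) (nat_lit 3800) (XT.nd (nat_lit 78) (nat_lit 0) (nat_lit 0) (XT.lf (nat_lit 0) (nat_lit 4825567999849) (nat_lit 76) (nat_lit 1522037450313) (nat_lit 76) (nat_lit 1429597416621) (nat_lit 1) (nat_lit 4) (nat_lit 2) (nat_lit 5) (nat_lit 2) (nat_lit 4) (nat_lit 324) (nat_lit 274) (nat_lit 182)) (XT.nd (nat_lit 36738) (nat_lit 0) (nat_lit 3800) (XT.lf (nat_lit 0) (nat_lit 5822980926207) (nat_lit 76) (nat_lit 1601075917225) (nat_lit 76) (nat_lit 1508635852123)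 (nat_lit 1) (nat_lit 4) (nat_lit 2) (nat_lit 5) (nat_lit 2) (nat_lit 4) (nat_lit 325) (nat_lit 274) (nat_lit 181)) (XT.lf (nat_lit 0) (nat_lit 11885221802) (nat_lit 532) (nat_lit 2361989580) (nat_lit 532) (nat_lit 2361989580) (nat_lit 51) (nat_lit 3) (nat_lit 58) (nat_lit 3) (nat_lit 58) (nat_lit 5) (nat_lit 275) (nat_lit 275) (nat_lit 230)))) (XT.nd (nat_lit 78) (nat_lit 0) (nat_lit 76) (XT.lf (nat_lit 76) (nat_lit 25764150712) (nat_lit 0) (nat_lit 507497258) (nat_lit 532) (nat_lit 9380447280) (nat_lit 52) (nat_lit 5) (nat_lit 51) (nat_lit 3) (nat_lit 58) (nat_lit 5) (nat_lit 276) (nat_lit 275) (nat_lit 229)) (XT.nd (nat_lit 78) (nat_lit 0) (nat_lit 76) (XT.lf (nat_lit 76) (nat_lit 23047575600) (nat_lit 0) (nat_lit 7540058377) (nat_lit 532) (nat_lit 7748078468) (nat_lit 53) (nat_lit 5) (nat_lit 52) (nat_lit 5) (nat_lit 59) (nat_lit 5) (nat_lit 277) (nat_lit 275) (nat_lit 228)) (XT.lf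 (nat_lit 76) (nat_lit 20506416307) (nat_lit 0) (nat_lit 16440858078) (nat_lit 532) (nat_lit 4362930312) (nat_lit 54) (nat_lit 5) (nat_lit 53) (nat_lit 5) (nat_lit 60) (nat_lit 5) (nat_lit 278) (nat_lit 275) (nat_lit 227))))) (XT.nd (nat_lit 234) (nat_lit 684) (nat_lit 0) (XT.nd (nat_lit 78) (nat_lit 532) (nat_lit 0) (XT.lf (nat_lit 0) (nat_lit 1084096612) (nat_lit 532) (nat_lit 26464751091) (nat_lit 76) (nat_lit 17060506374) (nat_lit 47) (nat_lit 5) (nat_lit 54) (nat_lit 5) (nat_lit 48) (nat_lit 5) (nat_lit 279) (nat_lit 275) (nat_lit 226)) (XT.nd (nat_lit 78) (nat_lit 228) (nat_lit 0) (XT.lf (nat_lit 0) (nat_lit 8726778830) (nat_lit 380) (nat_lit 32418501266) (nat_lit 76) (nat_lit 7118098208) (nat_lit 43) (nat_lit 5) (nat_lit 48) (nat_lit 5) (nat_lit 44) (nat_lit 5) (nat_lit 280) (nat_lit 275) (nat_lit 225)) (XT.lf (nat_lit 0) (nat_lit 13585563155) (nat_lit 228) (nat_lit 5798354608) (nat_lit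 304) (nat_lit 32932164143) (nat_lit 40) (nat_lit 5) (nat_lit 43) (nat_lit 5) (nat_lit 44) (nat_lit 5) (nat_lit 281) (nat_lit 275) (nat_lit 224)))) (XT.nd (nat_lit 78) (nat_lit 456) (nat_lit 0) (XT.lf (nat_lit 0) (nat_lit 11240232497) (nat_lit 228) (nat_lit 22466277575) (nat_lit 304) (nat_lit 23104847843) (nat_lit 37) (nat_lit 5) (nat_lit 40) (nat_lit 5) (nat_lit 41) (nat_lit 5) (nat_lit 282) (nat_lit 275) (nat_lit 223)) (XT.nd (nat_lit 78) (nat_lit 304) (nat_lit 0) (XT.lf (nat_lit 0) (nat_lit 8975573220) (nat_lit 152) (nat_lit 43159833936) (nat_lit 228) (nat_lit 9688900086) (nat_lit 35) (nat_lit 5) (nat_lit 37) (nat_lit 5) (nat_lit 38) (nat_lit 5) (nat_lit 283) (nat_lit 275) (nat_lit 222)) (XT.lf (nat_lit 0) (nat_lit 6501449032) (nat_lit 228) (nat_lit 1081568143) (nat_lit 304) (nat_lit 59824696341) (nat_lit 31) (nat_lit 5) (nat_lit 34) (nat_lit 5) (nat_lit 35) (nat_lit 5) (nat_lit 284)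 (nat_lit 275) (nat_lit 221)))))) (XT.nd (nat_lit 468) (nat_lit 684) (nat_lit 0) (XT.nd (nat_lit 234) (nat_lit 456) (nat_lit 0) (XT.nd (nat_lit 78) (nat_lit 228) (nat_lit 0) (XT.lf (nat_lit 0) (nat_lit 2939919268) (nat_lit 152) (nat_lit 26728025223) (nat_lit 228) (nat_lit 43916891019) (nat_lit 29) (nat_lit 5) (nat_lit 31) (nat_lit 5) (nat_lit 32) (nat_lit 5) (nat_lit 285) (nat_lit 275) (nat_lit 220)) (XT.nd (nat_lit 78) (nat_lit 228) (nat_lit 0) (XT.lf (nat_lit 0) (nat_lit 57417996871) (nat_lit 228) (nat_lit 1091316701) (nat_lit 76) (nat_lit 21991030603) (nat_lit 29) (nat_lit 5) (nat_lit 32) (nat_lit 5) (nat_lit 30) (nat_lit 5) (nat_lit 286) (nat_lit 275) (nat_lit 219)) (XT.lf (nat_lit 0) (nat_lit 3615653737) (nat_lit 228) (nat_lit 6065301287) (nat_lit 76) (nat_lit 78547970223) (nat_lit 26) (nat_lit 5) (nat_lit 29) (nat_lit 5) (nat_lit 27) (nat_lit 5) (nat_lit 287) (nat_lit 275) (nat_lit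 218)))) (XT.nd (nat_lit 78) (nat_lit 304) (nat_lit 0) (XT.lf (nat_lit 0) (nat_lit 36236018023) (nat_lit 228) (nat_lit 13653932649) (nat_lit 76) (nat_lit 46916134315) (nat_lit 24) (nat_lit 5) (nat_lit 27) (nat_lit 5) (nat_lit 25) (nat_lit 5) (nat_lit 288) (nat_lit 275) (nat_lit 217)) (XT.nd (nat_lit 78) (nat_lit 152) (nat_lit 0) (XT.lf (nat_lit 0) (nat_lit 76370086371) (nat_lit 228) (nat_lit 23292772333) (nat_lit 76) (nat_lit 6797313660) (nat_lit 22) (nat_lit 5) (nat_lit 25) (nat_lit 5) (nat_lit 23) (nat_lit 4) (nat_lit 289) (nat_lit 275) (nat_lit 216)) (XT.lf (nat_lit 0) (nat_lit 8527762065) (nat_lit 152) (nat_lit 37046721650) (nat_lit 76) (nat_lit 71673220265) (nat_lit 20) (nat_lit 5) (nat_lit 22) (nat_lit 5) (nat_lit 21) (nat_lit 5) (nat_lit 290) (nat_lit 275) (nat_lit 215))))) (XT.nd (nat_lit 234) (nat_lit 304) (nat_lit 0) (XT.nd (nat_lit 78) (nat_lit 228) (nat_lit 0) (XT.lf (nat_lit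 0) (nat_lit 54160947267) (nat_lit 228) (nat_lit 56006531814) (nat_lit 76) (nat_lit 19183019041) (nat_lit 18) (nat_lit 5) (nat_lit 21) (nat_lit 5) (nat_lit 19) (nat_lit 4) (nat_lit 291) (nat_lit 275) (nat_lit 214)) (XT.nd (nat_lit 78) (nat_lit 152) (nat_lit 0) (XT.lf (nat_lit 0) (nat_lit 61116284893) (nat_lit 76) (nat_lit 49355807148) (nat_lit 152) (nat_lit 32489984231) (nat_lit 17) (nat_lit 5) (nat_lit 18) (nat_lit 5) (nat_lit 19) (nat_lit 4) (nat_lit 292) (nat_lit 275) (nat_lit 213)) (XT.lf (nat_lit 0) (nat_lit 19047171969) (nat_lit 152) (nat_lit 116557309805) (nat_lit 76) (nat_lit 22717843362) (nat_lit 15) (nat_lit 5) (nat_lit 17) (nat_lit 5) (nat_lit 16) (nat_lit 4) (nat_lit 293) (nat_lit 275) (nat_lit 212)))) (XT.nd (nat_lit 156) (nat_lit 228) (nat_lit 0) (XT.nd (nat_lit 78) (nat_lit 0) (nat_lit 0) (XT.lf (nat_lit 0) (nat_lit 11312058524) (nat_lit 76) (nat_lit 69212240371) (nat_lit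 152) (nat_lit 95064149827) (nat_lit 14) (nat_lit 5) (nat_lit 15) (nat_lit 5) (nat_lit 16) (nat_lit 4) (nat_lit 294) (nat_lit 275) (nat_lit 211)) (XT.lf (nat_lit 0) (nat_lit 154873125904) (nat_lit 152) (nat_lit 30018397574) (nat_lit 0) (nat_lit 10260958970) (nat_lit 14) (nat_lit 5) (nat_lit 16) (nat_lit 4) (nat_lit 14) (nat_lit 4) (nat_lit 295) (nat_lit 275) (nat_lit 210))) (XT.nd (nat_lit 78) (nat_lit 76) (nat_lit 0) (XT.lf (nat_lit 0) (nat_lit 26728363083) (nat_lit 152) (nat_lit 89019311099) (nat_lit 76) (nat_lit 101448376406) (nat_lit 12) (nat_lit 5) (nat_lit 14) (nat_lit 5) (nat_lit 13) (nat_lit 4) (nat_lit 296) (nat_lit 275) (nat_lit 209)) (XT.lf (nat_lit 0) (nat_lit 71897925630) (nat_lit 76) (nat_lit 32195387963) (nat_lit 152) (nat_lit 138153859627) (nat_lit 11) (nat_lit 5) (nat_lit 12) (nat_lit 5) (nat_lit 13) (nat_lit 4) (nat_lit 297) (nat_lit 275) (nat_lit 208))))))))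
noncomputable def xc42 : XT := (XT.nd (nat_lit 1872) (nat_lit 0) (nat_lit 0) (XT.nd (nat_lit 936) (nat_lit 228) (nat_lit 0) (XT.nd (nat_lit 468) (nat_lit 228) (nat_lit 0) (XT.nd (nat_lit 234) (nat_lit 76) (nat_lit 0) (XT.nd (nat_lit 78) (nat_lit 228) (nat_lit 0) (XT.lf (nat_lit 0) (nat_lit 197256205899) (nat_lit 152) (nat_lit 10113453636) (nat_lit 0) (nat_lit 63350850045) (nat_lit 11) (nat_lit 5) (nat_lit 13) (nat_lit 4) (nat_lit 11) (nat_lit 4) (nat_lit 298) (nat_lit 275) (nat_lit 207)) (XT.nd (nat_lit 78) (nat_lit 76) (nat_lit 0) (XT.lf (nat_lit 0) (nat_lit 6294035794) (nat_lit 152) (nat_lit 120815063879) (nat_lit 76) (nat_lit 175921016409) (nat_lit 9) (nat_lit 5) (nat_lit 11) (nat_lit 5) (nat_lit 10) (nat_lit 4) (nat_lit 299) (nat_lit 275) (nat_lit 206)) (XT.lf (nat_lit 0) (nat_lit 65053790055) (nat_lit 76) (nat_lit 30600816184) (nat_lit 152) (nat_lit 244219834182) (nat_lit 8) (nat_lit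 5) (nat_lit 9) (nat_lit 5) (nat_lit 10) (nat_lit 4) (nat_lit 300) (nat_lit 275) (nat_lit 205)))) (XT.nd (nat_lit 78) (nat_lit 76) (nat_lit 0) (XT.lf (nat_lit 0) (nat_lit 203959461140) (nat_lit 152) (nat_lit 97872883200) (nat_lit 0) (nat_lit 79969853933) (nat_lit 8) (nat_lit 5) (nat_lit 10) (nat_lit 4) (nat_lit 8) (nat_lit 4) (nat_lit 301) (nat_lit 275) (nat_lit 204)) (XT.nd (nat_lit 78) (nat_lit 0) (nat_lit 0) (XT.lf (nat_lit 0) (nat_lit 110284600726) (nat_lit 76) (nat_lit 221722574714) (nat_lit 76) (nat_lit 97732174542) (nat_lit 7) (nat_lit 4) (nat_lit 8) (nat_lit 5) (nat_lit 8) (nat_lit 4) (nat_lit 302) (nat_lit 275) (nat_lit 203)) (XT.lf (nat_lit 0) (nat_lit 355589856838) (nat_lit 76) (nat_lit 126520232261) (nat_lit 76) (nat_lit 2529142557) (nat_lit 7) (nat_lit 4) (nat_lit 8) (nat_lit 5) (nat_lit 8) (nat_lit 4) (nat_lit 303) (nat_lit 275) (nat_lit 202))))) (XT.nd (nat_lit 234) (nat_lit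 76) (nat_lit 0) (XT.nd (nat_lit 78) (nat_lit 0) (nat_lit 0) (XT.lf (nat_lit 0) (nat_lit 91941386312) (nat_lit 76) (nat_lit 11872592347) (nat_lit 152) (nat_lit 443577543117) (nat_lit 5) (nat_lit 5) (nat_lit 6) (nat_lit 5) (nat_lit 7) (nat_lit 4) (nat_lit 304) (nat_lit 275) (nat_lit 201)) (XT.nd (nat_lit 78) (nat_lit 0) (nat_lit 0) (XT.lf (nat_lit 0) (nat_lit 232701945118) (nat_lit 152) (nat_lit 268415662271) (nat_lit 0) (nat_lit 117894342631) (nat_lit 5) (nat_lit 5) (nat_lit 7) (nat_lit 4) (nat_lit 5) (nat_lit 4) (nat_lit 305) (nat_lit 275) (nat_lit 200)) (XT.lf (nat_lit 0) (nat_lit 381250444384) (nat_lit 152) (nat_lit 53656389345) (nat_lit 0) (nat_lit 266442422101) (nat_lit 5) (nat_lit 5) (nat_lit 7) (nat_lit 4) (nat_lit 5) (nat_lit 4) (nat_lit 306) (nat_lit 275) (nat_lit 199)))) (XT.nd (nat_lit 78) (nat_lit 0) (nat_lit 0) (XT.lf (nat_lit 0) (nat_lit 203494658273) (nat_lit 76) (nat_lit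 353479717159) (nat_lit 76) (nat_lit 238671329837) (nat_lit 4) (nat_lit 4) (nat_lit 5) (nat_lit 5) (nat_lit 5) (nat_lit 4) (nat_lit 307) (nat_lit 275) (nat_lit 198)) (XT.nd (nat_lit 78) (nat_lit 0) (nat_lit 0) (XT.lf (nat_lit 0) (nat_lit 502466035308) (nat_lit 76) (nat_lit 258152192644) (nat_lit 76) (nat_lit 143343487896) (nat_lit 4) (nat_lit 4) (nat_lit 5) (nat_lit 5) (nat_lit 5) (nat_lit 4) (nat_lit 308) (nat_lit 275) (nat_lit 197)) (XT.lf (nat_lit 0) (nat_lit 846281731370) (nat_lit 76) (nat_lit 148526217216) (nat_lit 76) (nat_lit 33717236444) (nat_lit 4) (nat_lit 4) (nat_lit 5) (nat_lit 5) (nat_lit 5) (nat_lit 4) (nat_lit 309) (nat_lit 275) (nat_lit 196)))))) (XT.nd (nat_lit 468) (nat_lit 76) (nat_lit 0) (XT.nd (nat_lit 234) (nat_lit 0) (nat_lit 0) (XT.nd (nat_lit 78) (nat_lit 0) (nat_lit 0) (XT.lf (nat_lit 0) (nat_lit 71237883895) (nat_lit 76) (nat_lit 18207839511) (nat_lit 152) (nat_lit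 1082012752960) (nat_lit 2) (nat_lit 5) (nat_lit 3) (nat_lit 5) (nat_lit 4) (nat_lit 4) (nat_lit 310) (nat_lit 275) (nat_lit 195)) (XT.nd (nat_lit 78) (nat_lit 0) (nat_lit 0) (XT.lf (nat_lit 0) (nat_lit 237752882902) (nat_lit 152) (nat_lit 965867665905) (nat_lit 0) (nat_lit 131447855584) (nat_lit 2) (nat_lit 5) (nat_lit 4) (nat_lit 4) (nat_lit 2) (nat_lit 4) (nat_lit 311) (nat_lit 275) (nat_lit 194)) (XT.lf (nat_lit 0) (nat_lit 408809185809) (nat_lit 152) (nat_lit 811866399949) (nat_lit 0) (nat_lit 302503990445) (nat_lit 2) (nat_lit 5) (nat_lit 4) (nat_lit 4) (nat_lit 2) (nat_lit 4) (nat_lit 312) (nat_lit 275) (nat_lit 193)))) (XT.nd (nat_lit 78) (nat_lit 0) (nat_lit 0) (XT.lf (nat_lit 0) (nat_lit 605523486901) (nat_lit 152) (nat_lit 634765827378) (nat_lit 0) (nat_lit 499218145411) (nat_lit 2) (nat_lit 5) (nat_lit 4) (nat_lit 4) (nat_lit 2) (nat_lit 4) (nat_lit 313) (nat_lit 275) (nat_lit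 192)) (XT.nd (nat_lit 78) (nat_lit 0) (nat_lit 0) (XT.lf (nat_lit 0) (nat_lit 831744544244) (nat_lit 152) (nat_lit 431100936991) (nat_lit 0) (nat_lit 725439075687) (nat_lit 2) (nat_lit 5) (nat_lit 4) (nat_lit 4) (nat_lit 2) (nat_lit 4) (nat_lit 314) (nat_lit 275) (nat_lit 191)) (XT.lf (nat_lit 0) (nat_lit 1091898422002) (nat_lit 152) (nat_lit 196886980932) (nat_lit 0) (nat_lit 985592842952) (nat_lit 2) (nat_lit 5) (nat_lit 4) (nat_lit 4) (nat_lit 2) (nat_lit 4) (nat_lit 315) (nat_lit 275) (nat_lit 190))))) (XT.nd (nat_lit 234) (nat_lit 0) (nat_lit 0) (XT.nd (nat_lit 78) (nat_lit 0) (nat_lit 0) (XT.lf (nat_lit 0) (nat_lit 76274023322) (nat_lit 76) (nat_lit 1316635456123) (nat_lit 76) (nat_lit 1210329780992) (nat_lit 1) (nat_lit 4) (nat_lit 2) (nat_lit 5) (nat_lit 2) (nat_lit 4) (nat_lit 316) (nat_lit 275) (nat_lit 189)) (XT.nd (nat_lit 78) (nat_lit 0) (nat_lit 0) (XT.lf (nat_lit 0) (nat_lit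 402331524033) (nat_lit 76) (nat_lit 1342472555579) (nat_lit 76) (nat_lit 1236166796900) (nat_lit 1) (nat_lit 4) (nat_lit 2) (nat_lit 5) (nat_lit 2) (nat_lit 4) (nat_lit 317) (nat_lit 275) (nat_lit 188)) (XT.lf (nat_lit 0) (nat_lit 777297187579) (nat_lit 76) (nat_lit 1372185448744) (nat_lit 76) (nat_lit 1265879617414) (nat_lit 1) (nat_lit 4) (nat_lit 2) (nat_lit 5) (nat_lit 2) (nat_lit 4) (nat_lit 318) (nat_lit 275) (nat_lit 187)))) (XT.nd (nat_lit 78) (nat_lit 0) (nat_lit 0) (XT.lf (nat_lit 0) (nat_lit 1208507298683) (nat_lit 76) (nat_lit 1406355474832) (nat_lit 76) (nat_lit 1300049580327) (nat_lit 1) (nat_lit 4) (nat_lit 2) (nat_lit 5) (nat_lit 2) (nat_lit 4) (nat_lit 319) (nat_lit 275) (nat_lit 186)) (XT.nd (nat_lit 78) (nat_lit 0) (nat_lit 0) (XT.lf (nat_lit 0) (nat_lit 1704398576909) (nat_lit 76) (nat_lit 1445651177831) (nat_lit 76) (nat_lit 1339345228392) (nat_lit 1) (nat_lit 4) (nat_lit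 2) (nat_lit 5) (nat_lit 2) (nat_lit 4) (nat_lit 320) (nat_lit 275) (nat_lit 185)) (XT.lf (nat_lit 0) (nat_lit 2274673242920) (nat_lit 76) (nat_lit 1490841386714) (nat_lit 76) (nat_lit 1384535389506) (nat_lit 1) (nat_lit 4) (nat_lit 2) (nat_lit 5) (nat_lit 2) (nat_lit 4) (nat_lit 321) (nat_lit 275) (nat_lit 184))))))) (XT.nd (nat_lit 37674) (nat_lit 0) (nat_lit 988) (XT.nd (nat_lit 37206) (nat_lit 0) (nat_lit 2736) (XT.nd (nat_lit 234) (nat_lit 0) (nat_lit 0) (XT.nd (nat_lit 78) (nat_lit 0) (nat_lit 0) (XT.lf (nat_lit 0) (nat_lit 2930488844527) (nat_lit 76) (nat_lit 1542810257741) (nat_lit 76) (nat_lit 1436504218994) (nat_lit 1) (nat_lit 4) (nat_lit 2) (nat_lit 5) (nat_lit 2) (nat_lit 4) (nat_lit 322) (nat_lit 275) (nat_lit 183)) (XT.nd (nat_lit 78) (nat_lit 0) (nat_lit 0) (XT.lf (nat_lit 0) (nat_lit 3684676556545) (nat_lit 76) (nat_lit 1602574573171) (nat_lit 76) (nat_lit 1496268498304)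 (nat_lit 1) (nat_lit 4) (nat_lit 2) (nat_lit 5) (nat_lit 2) (nat_lit 4) (nat_lit 323) (nat_lit 275) (nat_lit 182)) (XT.lf (nat_lit 0) (nat_lit 4551992225513) (nat_lit 76) (nat_lit 1671303634828) (nat_lit 76) (nat_lit 1564997528552) (nat_lit 1) (nat_lit 4) (nat_lit 2) (nat_lit 5) (nat_lit 2) (nat_lit 4) (nat_lit 324) (nat_lit 275) (nat_lit 181)))) (XT.nd (nat_lit 36816) (nat_lit 0) (nat_lit 3800) (XT.lf (nat_lit 0) (nat_lit 5549405071042) (nat_lit 76) (nat_lit 1750342141744) (nat_lit 76) (nat_lit 1644036008157) (nat_lit 1) (nat_lit 4) (nat_lit 2) (nat_lit 5) (nat_lit 2) (nat_lit 4) (nat_lit 325) (nat_lit 275) (nat_lit 180)) (XT.nd (nat_lit 78) (nat_lit 0) (nat_lit 0) (XT.lf (nat_lit 0) (nat_lit 13762706931) (nat_lit 532) (nat_lit 2665046860) (nat_lit 532) (nat_lit 2665046860) (nat_lit 51) (nat_lit 3) (nat_lit 58) (nat_lit 3) (nat_lit 58) (nat_lit 5) (nat_lit 276) (nat_lit 276) (nat_lit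 228)) (XT.lf (nat_lit 76) (nat_lit 29722581015) (nat_lit 0) (nat_lit 656769113) (nat_lit 532) (nat_lit 10606847697) (nat_lit 52) (nat_lit 5) (nat_lit 51) (nat_lit 3) (nat_lit 58) (nat_lit 5) (nat_lit 277) (nat_lit 276) (nat_lit 227))))) (XT.nd (nat_lit 234) (nat_lit 760) (nat_lit 0) (XT.nd (nat_lit 78) (nat_lit 380) (nat_lit 0) (XT.lf (nat_lit 76) (nat_lit 26604740653) (nat_lit 0) (nat_lit 8717092608) (nat_lit 532) (nat_lit 8752242746) (nat_lit 53) (nat_lit 5) (nat_lit 52) (nat_lit 5) (nat_lit 59) (nat_lit 5) (nat_lit 278) (nat_lit 276) (nat_lit 226)) (XT.nd (nat_lit 78) (nat_lit 456) (nat_lit 0) (XT.lf (nat_lit 76) (nat_lit 23685931884) (nat_lit 0) (nat_lit 18931965222) (nat_lit 532) (nat_lit 4878287101) (nat_lit 54) (nat_lit 5) (nat_lit 53) (nat_lit 5) (nat_lit 60) (nat_lit 5) (nat_lit 279) (nat_lit 276) (nat_lit 225)) (XT.lf (nat_lit 0) (nat_lit 1363657444) (nat_lit 532) (nat_lit 30323093402)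 (nat_lit 76) (nat_lit 19604434315) (nat_lit 47) (nat_lit 5) (nat_lit 54) (nat_lit 5) (nat_lit 48) (nat_lit 5) (nat_lit 280) (nat_lit 276) (nat_lit 224)))) (XT.nd (nat_lit 78) (nat_lit 456) (nat_lit 0) (XT.lf (nat_lit 0) (nat_lit 10139886937) (nat_lit 380) (nat_lit 37170760479) (nat_lit 76) (nat_lit 8183722227) (nat_lit 43) (nat_lit 5) (nat_lit 48) (nat_lit 5) (nat_lit 44) (nat_lit 5) (nat_lit 281) (nat_lit 276) (nat_lit 223)) (XT.nd (nat_lit 78) (nat_lit 228) (nat_lit 0) (XT.lf (nat_lit 0) (nat_lit 15724558978) (nat_lit 228) (nat_lit 6659893540) (nat_lit 304) (nat_lit 37771442337) (nat_lit 40) (nat_lit 5) (nat_lit 43) (nat_lit 5) (nat_lit 44) (nat_lit 5) (nat_lit 282) (nat_lit 276) (nat_lit 222)) (XT.lf (nat_lit 0) (nat_lit 13025641176) (nat_lit 228) (nat_lit 25820230692) (nat_lit 304) (nat_lit 26480376677) (nat_lit 37) (nat_lit 5) (nat_lit 40) (nat_lit 5) (nat_lit 41) (nat_lit 5) (nat_lit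 283) (nat_lit 276) (nat_lit 221)))))) (XT.nd (nat_lit 468) (nat_lit 760) (nat_lit 0) (XT.nd (nat_lit 234) (nat_lit 380) (nat_lit 0) (XT.nd (nat_lit 78) (nat_lit 456) (nat_lit 0) (XT.lf (nat_lit 0) (nat_lit 10418755900) (nat_lit 152) (nat_lit 49612134808) (nat_lit 228) (nat_lit 11060925141) (nat_lit 35) (nat_lit 5) (nat_lit 37) (nat_lit 5) (nat_lit 38) (nat_lit 5) (nat_lit 284) (nat_lit 276) (nat_lit 220)) (XT.nd (nat_lit 78) (nat_lit 152) (nat_lit 0) (XT.lf (nat_lit 0) (nat_lit 7569143483) (nat_lit 228) (nat_lit 1220717740) (nat_lit 304) (nat_lit 68723358420) (nat_lit 31) (nat_lit 5) (nat_lit 34) (nat_lit 5) (nat_lit 35) (nat_lit 5) (nat_lit 285) (nat_lit 276) (nat_lit 219)) (XT.lf (nat_lit 0) (nat_lit 3470220895) (nat_lit 152) (nat_lit 30710886469) (nat_lit 228) (nat_lit 50436329184) (nat_lit 29) (nat_lit 5) (nat_lit 31) (nat_lit 5) (nat_lit 32) (nat_lit 5) (nat_lit 286) (nat_lit 276)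 (nat_lit 218)))) (XT.nd (nat_lit 78) (nat_lit 380) (nat_lit 0) (XT.lf (nat_lit 0) (nat_lit 66086004869) (nat_lit 228) (nat_lit 1173445087) (nat_lit 76) (nat_lit 25311445869) (nat_lit 29) (nat_lit 5) (nat_lit 32) (nat_lit 5) (nat_lit 30) (nat_lit 5) (nat_lit 287) (nat_lit 276) (nat_lit 217)) (XT.nd (nat_lit 78) (nat_lit 152) (nat_lit 0) (XT.lf (nat_lit 0) (nat_lit 4209249851) (nat_lit 228) (nat_lit 6897672522) (nat_lit 76) (nat_lit 90352181190) (nat_lit 26) (nat_lit 5) (nat_lit 29) (nat_lit 5) (nat_lit 27) (nat_lit 5) (nat_lit 288) (nat_lit 276) (nat_lit 216)) (XT.lf (nat_lit 0) (nat_lit 41718280376) (nat_lit 228) (nat_lit 15627989674) (nat_lit 76) (nat_lit 53976926194) (nat_lit 24) (nat_lit 5) (nat_lit 27) (nat_lit 5) (nat_lit 25) (nat_lit 5) (nat_lit 289) (nat_lit 276) (nat_lit 215))))) (XT.nd (nat_lit 234) (nat_lit 304) (nat_lit 0) (XT.nd (nat_lit 78) (nat_lit 304) (nat_lit 0) (XT.lf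 (nat_lit 0) (nat_lit 87868587237) (nat_lit 228) (nat_lit 26716096405) (nat_lit 76) (nat_lit 7841029701) (nat_lit 22) (nat_lit 5) (nat_lit 25) (nat_lit 5) (nat_lit 23) (nat_lit 4) (nat_lit 290) (nat_lit 276) (nat_lit 214)) (XT.nd (nat_lit 78) (nat_lit 152) (nat_lit 0) (XT.lf (nat_lit 0) (nat_lit 9846910359) (nat_lit 152) (nat_lit 42536970966) (nat_lit 76) (nat_lit 82447742623) (nat_lit 20) (nat_lit 5) (nat_lit 22) (nat_lit 5) (nat_lit 21) (nat_lit 5) (nat_lit 291) (nat_lit 276) (nat_lit 213)) (XT.lf (nat_lit 0) (nat_lit 62321925810) (nat_lit 228) (nat_lit 64344070422) (nat_lit 76) (nat_lit 22084097597) (nat_lit 18) (nat_lit 5) (nat_lit 21) (nat_lit 5) (nat_lit 19) (nat_lit 4) (nat_lit 292) (nat_lit 276) (nat_lit 212)))) (XT.nd (nat_lit 156) (nat_lit 76) (nat_lit 0) (XT.nd (nat_lit 78) (nat_lit 152) (nat_lit 0) (XT.lf (nat_lit 0) (nat_lit 70341798812) (nat_lit 76) (nat_lit 56734535346) (nat_lit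 152) (nat_lit 37327351379) (nat_lit 17) (nat_lit 5) (nat_lit 18) (nat_lit 5) (nat_lit 19) (nat_lit 4) (nat_lit 293) (nat_lit 276) (nat_lit 211)) (XT.lf (nat_lit 0) (nat_lit 21935981924) (nat_lit 152) (nat_lit 133984126038) (nat_lit 76) (nat_lit 26148004741) (nat_lit 15) (nat_lit 5) (nat_lit 17) (nat_lit 5) (nat_lit 16) (nat_lit 4) (nat_lit 294) (nat_lit 276) (nat_lit 210))) (XT.nd (nat_lit 78) (nat_lit 0) (nat_lit 0) (XT.lf (nat_lit 0) (nat_lit 13060841377) (nat_lit 76) (nat_lit 79570947252) (nat_lit 152) (nat_lit 109292600269) (nat_lit 14) (nat_lit 5) (nat_lit 15) (nat_lit 5) (nat_lit 16) (nat_lit 4) (nat_lit 295) (nat_lit 276) (nat_lit 209)) (XT.lf (nat_lit 0) (nat_lit 178129661013) (nat_lit 152) (nat_lit 34474422472) (nat_lit 0) (nat_lit 11819209042) (nat_lit 14) (nat_lit 5) (nat_lit 16) (nat_lit 4) (nat_lit 14) (nat_lit 4) (nat_lit 296) (nat_lit 276) (nat_lit 208))))))))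
noncomputable def xc43 : XT := (XT.nd (nat_lit 1872) (nat_lit 0) (nat_lit 0) (XT.nd (nat_lit 936) (nat_lit 228) (nat_lit 0) (XT.nd (nat_lit 468) (nat_lit 304) (nat_lit 0) (XT.nd (nat_lit 234) (nat_lit 228) (nat_lit 0) (XT.nd (nat_lit 78) (nat_lit 76) (nat_lit 0) (XT.lf (nat_lit 0) (nat_lit 30761496078) (nat_lit 152) (nat_lit 102328157806) (nat_lit 76) (nat_lit 116683880330) (nat_lit 12) (nat_lit 5) (nat_lit 14) (nat_lit 5) (nat_lit 13) (nat_lit 4) (nat_lit 297) (nat_lit 276) (nat_lit 207)) (XT.nd (nat_lit 78) (nat_lit 0) (nat_lit 0) (XT.lf (nat_lit 0) (nat_lit 82722935822) (nat_lit 76) (nat_lit 37006108479) (nat_lit 152) (nat_lit 158853454312) (nat_lit 11) (nat_lit 5) (nat_lit 12) (nat_lit 5) (nat_lit 13) (nat_lit 4) (nat_lit 298) (nat_lit 276) (nat_lit 206)) (XT.lf (nat_lit 0) (nat_lit 226863924352) (nat_lit 152) (nat_lit 11594276113) (nat_lit 0) (nat_lit 72868832201) (nat_lit 11) (nat_lit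 5) (nat_lit 13) (nat_lit 4) (nat_lit 11) (nat_lit 4) (nat_lit 299) (nat_lit 276) (nat_lit 205)))) (XT.nd (nat_lit 78) (nat_lit 76) (nat_lit 0) (XT.lf (nat_lit 0) (nat_lit 7256174656) (nat_lit 152) (nat_lit 138903233726) (nat_lit 76) (nat_lit 202323774104) (nat_lit 9) (nat_lit 5) (nat_lit 11) (nat_lit 5) (nat_lit 10) (nat_lit 4) (nat_lit 300) (nat_lit 276) (nat_lit 204)) (XT.nd (nat_lit 78) (nat_lit 0) (nat_lit 0) (XT.lf (nat_lit 0) (nat_lit 74843062772) (nat_lit 76) (nat_lit 35176166163) (nat_lit 152) (nat_lit 280835055766) (nat_lit 8) (nat_lit 5) (nat_lit 9) (nat_lit 5) (nat_lit 10) (nat_lit 4) (nat_lit 301) (nat_lit 276) (nat_lit 203)) (XT.lf (nat_lit 0) (nat_lit 234567977735) (nat_lit 152) (nat_lit 112525841146) (nat_lit 0) (nat_lit 91977535041) (nat_lit 8) (nat_lit 5) (nat_lit 10) (nat_lit 4) (nat_lit 8) (nat_lit 4) (nat_lit 302) (nat_lit 276) (nat_lit 202))))) (XT.nd (nat_lit 234)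 (nat_lit 76) (nat_lit 0) (XT.nd (nat_lit 78) (nat_lit 152) (nat_lit 0) (XT.lf (nat_lit 0) (nat_lit 126852897464) (nat_lit 76) (nat_lit 254968663544) (nat_lit 76) (nat_lit 112377621255) (nat_lit 7) (nat_lit 4) (nat_lit 8) (nat_lit 5) (nat_lit 8) (nat_lit 4) (nat_lit 303) (nat_lit 276) (nat_lit 201)) (XT.nd (nat_lit 78) (nat_lit 152) (nat_lit 0) (XT.lf (nat_lit 0) (nat_lit 408950601998) (nat_lit 76) (nat_lit 145487573729) (nat_lit 76) (nat_lit 2896010054) (nat_lit 7) (nat_lit 4) (nat_lit 8) (nat_lit 5) (nat_lit 8) (nat_lit 4) (nat_lit 304) (nat_lit 276) (nat_lit 200)) (XT.lf (nat_lit 0) (nat_lit 105753552719) (nat_lit 76) (nat_lit 13643355825) (nat_lit 152) (nat_lit 510102471016) (nat_lit 5) (nat_lit 5) (nat_lit 6) (nat_lit 5) (nat_lit 7) (nat_lit 4) (nat_lit 305) (nat_lit 276) (nat_lit 199)))) (XT.nd (nat_lit 78) (nat_lit 76) (nat_lit 0) (XT.lf (nat_lit 0) (nat_lit 267616868714) (nat_lit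 152) (nat_lit 308659241676) (nat_lit 0) (nat_lit 135586858253) (nat_lit 5) (nat_lit 5) (nat_lit 7) (nat_lit 4) (nat_lit 5) (nat_lit 4) (nat_lit 306) (nat_lit 276) (nat_lit 198)) (XT.nd (nat_lit 78) (nat_lit 76) (nat_lit 0) (XT.lf (nat_lit 0) (nat_lit 438446386544) (nat_lit 152) (nat_lit 61688526063) (nat_lit 0) (nat_lit 306416058657) (nat_lit 5) (nat_lit 5) (nat_lit 7) (nat_lit 4) (nat_lit 5) (nat_lit 4) (nat_lit 307) (nat_lit 276) (nat_lit 197)) (XT.lf (nat_lit 0) (nat_lit 234033797148) (nat_lit 76) (nat_lit 406494376956) (nat_lit 76) (nat_lit 274463773046) (nat_lit 4) (nat_lit 4) (nat_lit 5) (nat_lit 5) (nat_lit 5) (nat_lit 4) (nat_lit 308) (nat_lit 276) (nat_lit 196)))))) (XT.nd (nat_lit 468) (nat_lit 76) (nat_lit 0) (XT.nd (nat_lit 234) (nat_lit 0) (nat_lit 0) (XT.nd (nat_lit 78) (nat_lit 152) (nat_lit 0) (XT.lf (nat_lit 0) (nat_lit 577848932025) (nat_lit 76) (nat_lit 296868675648)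 (nat_lit 76) (nat_lit 164837831718) (nat_lit 4) (nat_lit 4) (nat_lit 5) (nat_lit 5) (nat_lit 5) (nat_lit 4) (nat_lit 309) (nat_lit 276) (nat_lit 195)) (XT.nd (nat_lit 78) (nat_lit 152) (nat_lit 0) (XT.lf (nat_lit 0) (nat_lit 973235287963) (nat_lit 76) (nat_lit 170799631630) (nat_lit 76) (nat_lit 38768578988) (nat_lit 4) (nat_lit 4) (nat_lit 5) (nat_lit 5) (nat_lit 5) (nat_lit 4) (nat_lit 310) (nat_lit 276) (nat_lit 194)) (XT.lf (nat_lit 0) (nat_lit 81934194619) (nat_lit 76) (nat_lit 20933799972) (nat_lit 152) (nat_lit 1244308818681) (nat_lit 2) (nat_lit 5) (nat_lit 3) (nat_lit 5) (nat_lit 4) (nat_lit 4) (nat_lit 311) (nat_lit 276) (nat_lit 193)))) (XT.nd (nat_lit 78) (nat_lit 0) (nat_lit 0) (XT.lf (nat_lit 0) (nat_lit 273420631082) (nat_lit 152) (nat_lit 1110738305132) (nat_lit 0) (nat_lit 151169342241) (nat_lit 2) (nat_lit 5) (nat_lit 4) (nat_lit 4) (nat_lit 2) (nat_lit 4) (nat_lit 312)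 (nat_lit 276) (nat_lit 192)) (XT.nd (nat_lit 78) (nat_lit 0) (nat_lit 0) (XT.lf (nat_lit 0) (nat_lit 470134751284) (nat_lit 152) (nat_lit 933638089803) (nat_lit 0) (nat_lit 347883335377) (nat_lit 2) (nat_lit 5) (nat_lit 4) (nat_lit 4) (nat_lit 2) (nat_lit 4) (nat_lit 313) (nat_lit 276) (nat_lit 191)) (XT.lf (nat_lit 0) (nat_lit 696355651331) (nat_lit 152) (nat_lit 729973510061) (nat_lit 0) (nat_lit 574104124931) (nat_lit 2) (nat_lit 5) (nat_lit 4) (nat_lit 4) (nat_lit 2) (nat_lit 4) (nat_lit 314) (nat_lit 276) (nat_lit 190))))) (XT.nd (nat_lit 234) (nat_lit 0) (nat_lit 0) (XT.nd (nat_lit 78) (nat_lit 76) (nat_lit 0) (XT.lf (nat_lit 0) (nat_lit 956509392311) (nat_lit 152) (nat_lit 495759824128) (nat_lit 0) (nat_lit 834257769830) (nat_lit 2) (nat_lit 5) (nat_lit 4) (nat_lit 4) (nat_lit 2) (nat_lit 4) (nat_lit 315) (nat_lit 276) (nat_lit 189)) (XT.nd (nat_lit 78) (nat_lit 76) (nat_lit 0)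 (XT.lf (nat_lit 0) (nat_lit 1255685938720) (nat_lit 152) (nat_lit 226414590323) (nat_lit 0) (nat_lit 1133434232691) (nat_lit 2) (nat_lit 5) (nat_lit 4) (nat_lit 4) (nat_lit 2) (nat_lit 4) (nat_lit 316) (nat_lit 276) (nat_lit 188)) (XT.lf (nat_lit 0) (nat_lit 87720104292) (nat_lit 76) (nat_lit 1514128311054) (nat_lit 76) (nat_lit 1391876532374) (nat_lit 1) (nat_lit 4) (nat_lit 2) (nat_lit 5) (nat_lit 2) (nat_lit 4) (nat_lit 317) (nat_lit 276) (nat_lit 187)))) (XT.nd (nat_lit 78) (nat_lit 0) (nat_lit 0) (XT.lf (nat_lit 0) (nat_lit 462685580873) (nat_lit 76) (nat_lit 1543841296753) (nat_lit 76) (nat_lit 1421589454898) (nat_lit 1) (nat_lit 4) (nat_lit 2) (nat_lit 5) (nat_lit 2) (nat_lit 4) (nat_lit 318) (nat_lit 276) (nat_lit 186)) (XT.nd (nat_lit 78) (nat_lit 0) (nat_lit 0) (XT.lf (nat_lit 0) (nat_lit 893895529399) (nat_lit 76) (nat_lit 1578011403306) (nat_lit 76) (nat_lit 1455759506516)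 (nat_lit 1) (nat_lit 4) (nat_lit 2) (nat_lit 5) (nat_lit 2) (nat_lit 4) (nat_lit 319) (nat_lit 276) (nat_lit 185)) (XT.lf (nat_lit 0) (nat_lit 1389786666254) (nat_lit 76) (nat_lit 1617307176274) (nat_lit 76) (nat_lit 1495055231716) (nat_lit 1) (nat_lit 4) (nat_lit 2) (nat_lit 5) (nat_lit 2) (nat_lit 4) (nat_lit 320) (nat_lit 276) (nat_lit 184))))))) (XT.nd (nat_lit 37752) (nat_lit 0) (nat_lit 988) (XT.nd (nat_lit 37284) (nat_lit 0) (nat_lit 2964) (XT.nd (nat_lit 234) (nat_lit 0) (nat_lit 0) (XT.nd (nat_lit 78) (nat_lit 0) (nat_lit 0) (XT.lf (nat_lit 0) (nat_lit 1960061209331) (nat_lit 76) (nat_lit 1662497446000) (nat_lit 76) (nat_lit 1540245459903) (nat_lit 1) (nat_lit 4) (nat_lit 2) (nat_lit 5) (nat_lit 2) (nat_lit 4) (nat_lit 321) (nat_lit 276) (nat_lit 183)) (XT.nd (nat_lit 78) (nat_lit 0) (nat_lit 0) (XT.lf (nat_lit 0) (nat_lit 2615876704041) (nat_lit 76) (nat_lit 1714466369933) (nat_lit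 76) (nat_lit 1592214347716) (nat_lit 1) (nat_lit 4) (nat_lit 2) (nat_lit 5) (nat_lit 2) (nat_lit 4) (nat_lit 322) (nat_lit 276) (nat_lit 182)) (XT.lf (nat_lit 0) (nat_lit 3370064323104) (nat_lit 76) (nat_lit 1774230731369) (nat_lit 76) (nat_lit 1651978677743) (nat_lit 1) (nat_lit 4) (nat_lit 2) (nat_lit 5) (nat_lit 2) (nat_lit 4) (nat_lit 323) (nat_lit 276) (nat_lit 181)))) (XT.nd (nat_lit 78) (nat_lit 0) (nat_lit 0) (XT.lf (nat_lit 0) (nat_lit 4237379911242) (nat_lit 76) (nat_lit 1842959833031) (nat_lit 76) (nat_lit 1720707752093) (nat_lit 1) (nat_lit 4) (nat_lit 2) (nat_lit 5) (nat_lit 2) (nat_lit 4) (nat_lit 324) (nat_lit 276) (nat_lit 180)) (XT.nd (nat_lit 36894) (nat_lit 0) (nat_lit 3800) (XT.lf (nat_lit 0) (nat_lit 5234792686484) (nat_lit 76) (nat_lit 1921998374734) (nat_lit 76) (nat_lit 1799746270046) (nat_lit 1) (nat_lit 4) (nat_lit 2) (nat_lit 5) (nat_lit 2) (nat_lit 4) (nat_lit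 325) (nat_lit 276) (nat_lit 179)) (XT.lf (nat_lit 0) (nat_lit 15898721182) (nat_lit 532) (nat_lit 3026058213) (nat_lit 532) (nat_lit 3026058213) (nat_lit 51) (nat_lit 3) (nat_lit 58) (nat_lit 3) (nat_lit 58) (nat_lit 5) (nat_lit 277) (nat_lit 277) (nat_lit 226))))) (XT.nd (nat_lit 234) (nat_lit 836) (nat_lit 0) (XT.nd (nat_lit 78) (nat_lit 0) (nat_lit 76) (XT.lf (nat_lit 76) (nat_lit 34251900263) (nat_lit 0) (nat_lit 810594322) (nat_lit 532) (nat_lit 12061264890) (nat_lit 52) (nat_lit 5) (nat_lit 51) (nat_lit 3) (nat_lit 58) (nat_lit 5) (nat_lit 278) (nat_lit 277) (nat_lit 225)) (XT.nd (nat_lit 78) (nat_lit 0) (nat_lit 76) (XT.lf (nat_lit 76) (nat_lit 30671087828) (nat_lit 0) (nat_lit 10059458371) (nat_lit 532) (nat_lit 9945572547) (nat_lit 53) (nat_lit 5) (nat_lit 52) (nat_lit 5) (nat_lit 59) (nat_lit 5) (nat_lit 279) (nat_lit 277) (nat_lit 224)) (XT.lf (nat_lit 76) (nat_lit 27317122711)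 (nat_lit 0) (nat_lit 21790647289) (nat_lit 532) (nat_lit 5504863620) (nat_lit 54) (nat_lit 5) (nat_lit 53) (nat_lit 5) (nat_lit 60) (nat_lit 5) (nat_lit 280) (nat_lit 277) (nat_lit 223)))) (XT.nd (nat_lit 78) (nat_lit 532) (nat_lit 0) (XT.lf (nat_lit 0) (nat_lit 1656634296) (nat_lit 532) (nat_lit 34787345426) (nat_lit 76) (nat_lit 22533645386) (nat_lit 47) (nat_lit 5) (nat_lit 54) (nat_lit 5) (nat_lit 48) (nat_lit 5) (nat_lit 281) (nat_lit 277) (nat_lit 222)) (XT.nd (nat_lit 78) (nat_lit 228) (nat_lit 0) (XT.lf (nat_lit 0) (nat_lit 11739577941) (nat_lit 380) (nat_lit 42662808594) (nat_lit 76) (nat_lit 9409699683) (nat_lit 43) (nat_lit 5) (nat_lit 48) (nat_lit 5) (nat_lit 44) (nat_lit 5) (nat_lit 282) (nat_lit 277) (nat_lit 221)) (XT.lf (nat_lit 0) (nat_lit 18159735339) (nat_lit 228) (nat_lit 7652666412) (nat_lit 304) (nat_lit 43361131144) (nat_lit 40) (nat_lit 5) (nat_lit 43) (nat_lit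 5) (nat_lit 44) (nat_lit 5) (nat_lit 283) (nat_lit 277) (nat_lit 220)))))) (XT.nd (nat_lit 468) (nat_lit 912) (nat_lit 0) (XT.nd (nat_lit 234) (nat_lit 380) (nat_lit 0) (XT.nd (nat_lit 78) (nat_lit 456) (nat_lit 0) (XT.lf (nat_lit 0) (nat_lit 15054628226) (nat_lit 228) (nat_lit 29681175678) (nat_lit 304) (nat_lit 30384230274) (nat_lit 37) (nat_lit 5) (nat_lit 40) (nat_lit 5) (nat_lit 41) (nat_lit 5) (nat_lit 284) (nat_lit 277) (nat_lit 219)) (XT.nd (nat_lit 78) (nat_lit 304) (nat_lit 0) (XT.lf (nat_lit 0) (nat_lit 12054799301) (nat_lit 152) (nat_lit 57037566206) (nat_lit 228) (nat_lit 12658581902) (nat_lit 35) (nat_lit 5) (nat_lit 37) (nat_lit 5) (nat_lit 38) (nat_lit 5) (nat_lit 285) (nat_lit 277) (nat_lit 218)) (XT.lf (nat_lit 0) (nat_lit 8774440976) (nat_lit 228) (nat_lit 1386369353) (nat_lit 304) (nat_lit 78975119369) (nat_lit 31) (nat_lit 5) (nat_lit 34) (nat_lit 5) (nat_lit 35) (nat_lit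 5) (nat_lit 286) (nat_lit 277) (nat_lit 217)))) (XT.nd (nat_lit 78) (nat_lit 228) (nat_lit 0) (XT.lf (nat_lit 0) (nat_lit 4058288045) (nat_lit 152) (nat_lit 35297600697) (nat_lit 228) (nat_lit 57950288589) (nat_lit 29) (nat_lit 5) (nat_lit 31) (nat_lit 5) (nat_lit 32) (nat_lit 5) (nat_lit 287) (nat_lit 277) (nat_lit 216)) (XT.nd (nat_lit 78) (nat_lit 228) (nat_lit 0) (XT.lf (nat_lit 0) (nat_lit 76040726747) (nat_lit 228) (nat_lit 1287783878) (nat_lit 76) (nat_lit 29124616947) (nat_lit 29) (nat_lit 5) (nat_lit 32) (nat_lit 5) (nat_lit 30) (nat_lit 5) (nat_lit 288) (nat_lit 277) (nat_lit 215)) (XT.lf (nat_lit 0) (nat_lit 4879388220) (nat_lit 228) (nat_lit 7873779765) (nat_lit 76) (nat_lit 103921655200) (nat_lit 26) (nat_lit 5) (nat_lit 29) (nat_lit 5) (nat_lit 27) (nat_lit 5) (nat_lit 289) (nat_lit 277) (nat_lit 214))))) (XT.nd (nat_lit 234) (nat_lit 456) (nat_lit 0) (XT.nd (nat_lit 78)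 (nat_lit 304) (nat_lit 0) (XT.lf (nat_lit 0) (nat_lit 48011455059) (nat_lit 228) (nat_lit 17916208638) (nat_lit 76) (nat_lit 62091137510) (nat_lit 24) (nat_lit 5) (nat_lit 27) (nat_lit 5) (nat_lit 25) (nat_lit 5) (nat_lit 290) (nat_lit 277) (nat_lit 213)) (XT.nd (nat_lit 78) (nat_lit 152) (nat_lit 0) (XT.lf (nat_lit 0) (nat_lit 101081380359) (nat_lit 228) (nat_lit 30670133340) (nat_lit 76) (nat_lit 9035421579) (nat_lit 22) (nat_lit 5) (nat_lit 25) (nat_lit 5) (nat_lit 23) (nat_lit 4) (nat_lit 291) (nat_lit 277) (nat_lit 212)) (XT.lf (nat_lit 0) (nat_lit 11354180550) (nat_lit 152) (nat_lit 48867037268) (nat_lit 76) (nat_lit 94832703123) (nat_lit 20) (nat_lit 5) (nat_lit 22) (nat_lit 5) (nat_lit 21) (nat_lit 5) (nat_lit 292) (nat_lit 277) (nat_lit 211)))) (XT.nd (nat_lit 156) (nat_lit 228) (nat_lit 0) (XT.nd (nat_lit 78) (nat_lit 76) (nat_lit 0) (XT.lf (nat_lit 0) (nat_lit 71698068332) (nat_lit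 228) (nat_lit 73947710351) (nat_lit 76) (nat_lit 25414576659) (nat_lit 18) (nat_lit 5) (nat_lit 21) (nat_lit 5) (nat_lit 19) (nat_lit 4) (nat_lit 293) (nat_lit 277) (nat_lit 210)) (XT.lf (nat_lit 0) (nat_lit 80936978794) (nat_lit 76) (nat_lit 65226082095) (nat_lit 152) (nat_lit 42899134248) (nat_lit 17) (nat_lit 5) (nat_lit 18) (nat_lit 5) (nat_lit 19) (nat_lit 4) (nat_lit 294) (nat_lit 277) (nat_lit 209))) (XT.nd (nat_lit 78) (nat_lit 76) (nat_lit 0) (XT.lf (nat_lit 0) (nat_lit 25250374797) (nat_lit 152) (nat_lit 154038810926) (nat_lit 76) (nat_lit 30087207248) (nat_lit 15) (nat_lit 5) (nat_lit 17) (nat_lit 5) (nat_lit 16) (nat_lit 4) (nat_lit 295) (nat_lit 277) (nat_lit 208)) (XT.lf (nat_lit 0) (nat_lit 15059267450) (nat_lit 76) (nat_lit 91489100360) (nat_lit 152) (nat_lit 125662919776) (nat_lit 14) (nat_lit 5) (nat_lit 15) (nat_lit 5) (nat_lit 16) (nat_lit 4) (nat_lit 296) (nat_lit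 277) (nat_lit 207))))))))
noncomputable def xc44 : XT := (XT.nd (nat_lit 1872) (nat_lit 0) (nat_lit 0) (XT.nd (nat_lit 936) (nat_lit 304) (nat_lit 0) (XT.nd (nat_lit 468) (nat_lit 228) (nat_lit 0) (XT.nd (nat_lit 234) (nat_lit 228) (nat_lit 0) (XT.nd (nat_lit 78) (nat_lit 228) (nat_lit 0) (XT.lf (nat_lit 0) (nat_lit 204868441902) (nat_lit 152) (nat_lit 39610247666) (nat_lit 0) (nat_lit 13606537450) (nat_lit 14) (nat_lit 5) (nat_lit 16) (nat_lit 4) (nat_lit 14) (nat_lit 4) (nat_lit 297) (nat_lit 277) (nat_lit 206)) (XT.nd (nat_lit 78) (nat_lit 76) (nat_lit 0) (XT.lf (nat_lit 0) (nat_lit 35393776090) (nat_lit 152) (nat_lit 117644073381) (nat_lit 76) (nat_lit 134200260082) (nat_lit 12) (nat_lit 5) (nat_lit 14) (nat_lit 5) (nat_lit 13) (nat_lit 4) (nat_lit 298) (nat_lit 277) (nat_lit 205)) (XT.lf (nat_lit 0) (nat_lit 95161864928) (nat_lit 76) (nat_lit 42542969796) (nat_lit 152) (nat_lit 182663714984)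 (nat_lit 11) (nat_lit 5) (nat_lit 12) (nat_lit 5) (nat_lit 13) (nat_lit 4) (nat_lit 299) (nat_lit 277) (nat_lit 204)))) (XT.nd (nat_lit 78) (nat_lit 228) (nat_lit 0) (XT.lf (nat_lit 0) (nat_lit 260908097178) (nat_lit 152) (nat_lit 13306048480) (nat_lit 0) (nat_lit 83810767352) (nat_lit 11) (nat_lit 5) (nat_lit 13) (nat_lit 4) (nat_lit 11) (nat_lit 4) (nat_lit 300) (nat_lit 277) (nat_lit 203)) (XT.nd (nat_lit 78) (nat_lit 76) (nat_lit 0) (XT.lf (nat_lit 0) (nat_lit 8358236766) (nat_lit 152) (nat_lit 159712942048) (nat_lit 76) (nat_lit 232683383874) (nat_lit 9) (nat_lit 5) (nat_lit 11) (nat_lit 5) (nat_lit 10) (nat_lit 4) (nat_lit 301) (nat_lit 277) (nat_lit 202)) (XT.lf (nat_lit 0) (nat_lit 86093117053) (nat_lit 76) (nat_lit 40441420993) (nat_lit 152) (nat_lit 322946889902) (nat_lit 8) (nat_lit 5) (nat_lit 9) (nat_lit 5) (nat_lit 10) (nat_lit 4) (nat_lit 302) (nat_lit 277) (nat_lit 201)))))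 (XT.nd (nat_lit 234) (nat_lit 152) (nat_lit 0) (XT.nd (nat_lit 78) (nat_lit 76) (nat_lit 0) (XT.lf (nat_lit 0) (nat_lit 269764212145) (nat_lit 152) (nat_lit 129383564551) (nat_lit 0) (nat_lit 105783392532) (nat_lit 8) (nat_lit 5) (nat_lit 10) (nat_lit 4) (nat_lit 8) (nat_lit 4) (nat_lit 303) (nat_lit 277) (nat_lit 200)) (XT.nd (nat_lit 78) (nat_lit 0) (nat_lit 0) (XT.lf (nat_lit 0) (nat_lit 145900194375) (nat_lit 76) (nat_lit 293204664492) (nat_lit 76) (nat_lit 129223391499) (nat_lit 7) (nat_lit 4) (nat_lit 8) (nat_lit 5) (nat_lit 8) (nat_lit 4) (nat_lit 304) (nat_lit 277) (nat_lit 199)) (XT.lf (nat_lit 0) (nat_lit 470310029072) (nat_lit 76) (nat_lit 167302624064) (nat_lit 76) (nat_lit 3320956828) (nat_lit 7) (nat_lit 4) (nat_lit 8) (nat_lit 5) (nat_lit 8) (nat_lit 4) (nat_lit 305) (nat_lit 277) (nat_lit 198)))) (XT.nd (nat_lit 78) (nat_lit 0) (nat_lit 0) (XT.lf (nat_lit 0) (nat_lit 121632433235)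 (nat_lit 76) (nat_lit 15682202962) (nat_lit 152) (nat_lit 586608992090) (nat_lit 5) (nat_lit 5) (nat_lit 6) (nat_lit 5) (nat_lit 7) (nat_lit 4) (nat_lit 306) (nat_lit 277) (nat_lit 197)) (XT.nd (nat_lit 78) (nat_lit 0) (nat_lit 0) (XT.lf (nat_lit 0) (nat_lit 307766682067) (nat_lit 152) (nat_lit 354943935159) (nat_lit 0) (nat_lit 155931211548) (nat_lit 5) (nat_lit 5) (nat_lit 7) (nat_lit 4) (nat_lit 5) (nat_lit 4) (nat_lit 307) (nat_lit 277) (nat_lit 196)) (XT.lf (nat_lit 0) (nat_lit 504219677610) (nat_lit 152) (nat_lit 70929463435) (nat_lit 0) (nat_lit 352383967071) (nat_lit 5) (nat_lit 5) (nat_lit 7) (nat_lit 4) (nat_lit 5) (nat_lit 4) (nat_lit 308) (nat_lit 277) (nat_lit 195)))))) (XT.nd (nat_lit 468) (nat_lit 76) (nat_lit 0) (XT.nd (nat_lit 234) (nat_lit 152) (nat_lit 0) (XT.nd (nat_lit 78) (nat_lit 0) (nat_lit 0) (XT.lf (nat_lit 0) (nat_lit 269150163608) (nat_lit 76) (nat_lit 467463015331)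 (nat_lit 76) (nat_lit 315627096079) (nat_lit 4) (nat_lit 4) (nat_lit 5) (nat_lit 5) (nat_lit 5) (nat_lit 4) (nat_lit 309) (nat_lit 277) (nat_lit 194)) (XT.nd (nat_lit 78) (nat_lit 0) (nat_lit 0) (XT.lf (nat_lit 0) (nat_lit 664536095210) (nat_lit 76) (nat_lit 341394178587) (nat_lit 76) (nat_lit 189558077847) (nat_lit 4) (nat_lit 4) (nat_lit 5) (nat_lit 5) (nat_lit 5) (nat_lit 4) (nat_lit 310) (nat_lit 277) (nat_lit 193)) (XT.lf (nat_lit 0) (nat_lit 1119229123228) (nat_lit 76) (nat_lit 196415403846) (nat_lit 76) (nat_lit 44579145289) (nat_lit 4) (nat_lit 4) (nat_lit 5) (nat_lit 5) (nat_lit 5) (nat_lit 4) (nat_lit 311) (nat_lit 277) (nat_lit 192)))) (XT.nd (nat_lit 78) (nat_lit 0) (nat_lit 0) (XT.lf (nat_lit 0) (nat_lit 94232360213) (nat_lit 76) (nat_lit 24069926326) (nat_lit 152) (nat_lit 1430950720143) (nat_lit 2) (nat_lit 5) (nat_lit 3) (nat_lit 5) (nat_lit 4) (nat_lit 4) (nat_lit 312)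 (nat_lit 277) (nat_lit 191)) (XT.nd (nat_lit 78) (nat_lit 0) (nat_lit 0) (XT.lf (nat_lit 0) (nat_lit 314437367139) (nat_lit 152) (nat_lit 1277341859478) (nat_lit 0) (nat_lit 173848001286) (nat_lit 2) (nat_lit 5) (nat_lit 4) (nat_lit 4) (nat_lit 2) (nat_lit 4) (nat_lit 313) (nat_lit 277) (nat_lit 190)) (XT.lf (nat_lit 0) (nat_lit 540658130407) (nat_lit 152) (nat_lit 1073677549862) (nat_lit 0) (nat_lit 400068668473) (nat_lit 2) (nat_lit 5) (nat_lit 4) (nat_lit 4) (nat_lit 2) (nat_lit 4) (nat_lit 314) (nat_lit 277) (nat_lit 189))))) (XT.nd (nat_lit 234) (nat_lit 76) (nat_lit 0) (XT.nd (nat_lit 78) (nat_lit 0) (nat_lit 0) (XT.lf (nat_lit 0) (nat_lit 800811752449) (nat_lit 152) (nat_lit 839464098821) (nat_lit 0) (nat_lit 660222206966) (nat_lit 2) (nat_lit 5) (nat_lit 4) (nat_lit 4) (nat_lit 2) (nat_lit 4) (nat_lit 315) (nat_lit 277) (nat_lit 188)) (XT.nd (nat_lit 78) (nat_lit 0) (nat_lit 0)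 (XT.lf (nat_lit 0) (nat_lit 1099988195434) (nat_lit 152) (nat_lit 570119069269) (nat_lit 0) (nat_lit 959398577300) (nat_lit 2) (nat_lit 5) (nat_lit 4) (nat_lit 4) (nat_lit 2) (nat_lit 4) (nat_lit 316) (nat_lit 277) (nat_lit 187)) (XT.lf (nat_lit 0) (nat_lit 1444040911508) (nat_lit 152) (nat_lit 260372667151) (nat_lit 0) (nat_lit 1303451230200) (nat_lit 2) (nat_lit 5) (nat_lit 4) (nat_lit 4) (nat_lit 2) (nat_lit 4) (nat_lit 317) (nat_lit 277) (nat_lit 186)))) (XT.nd (nat_lit 78) (nat_lit 0) (nat_lit 0) (XT.lf (nat_lit 0) (nat_lit 100881883619) (nat_lit 76) (nat_lit 1741245694963) (nat_lit 76) (nat_lit 1600655958720) (nat_lit 1) (nat_lit 4) (nat_lit 2) (nat_lit 5) (nat_lit 2) (nat_lit 4) (nat_lit 318) (nat_lit 277) (nat_lit 185)) (XT.nd (nat_lit 78) (nat_lit 0) (nat_lit 0) (XT.lf (nat_lit 0) (nat_lit 532091690773) (nat_lit 76) (nat_lit 1775415871484) (nat_lit 76) (nat_lit 1634826087472)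 (nat_lit 1) (nat_lit 4) (nat_lit 2) (nat_lit 5) (nat_lit 2) (nat_lit 4) (nat_lit 319) (nat_lit 277) (nat_lit 184)) (XT.lf (nat_lit 0) (nat_lit 1027982704695) (nat_lit 76) (nat_lit 1814711705295) (nat_lit 76) (nat_lit 1674121879745) (nat_lit 1) (nat_lit 4) (nat_lit 2) (nat_lit 5) (nat_lit 2) (nat_lit 4) (nat_lit 320) (nat_lit 277) (nat_lit 183))))))) (XT.nd (nat_lit 37830) (nat_lit 0) (nat_lit 988) (XT.nd (nat_lit 37362) (nat_lit 0) (nat_lit 2964) (XT.nd (nat_lit 234) (nat_lit 0) (nat_lit 0) (XT.nd (nat_lit 78) (nat_lit 0) (nat_lit 0) (XT.lf (nat_lit 0) (nat_lit 1598257140875) (nat_lit 76) (nat_lit 1859902027927) (nat_lit 76) (nat_lit 1719312166257) (nat_lit 1) (nat_lit 4) (nat_lit 2) (nat_lit 5) (nat_lit 2) (nat_lit 4) (nat_lit 321) (nat_lit 277) (nat_lit 182)) (XT.nd (nat_lit 78) (nat_lit 0) (nat_lit 0) (XT.lf (nat_lit 0) (nat_lit 2254072542629) (nat_lit 76) (nat_lit 1911870997866) (nat_lit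 76) (nat_lit 1771281104787) (nat_lit 1) (nat_lit 4) (nat_lit 2) (nat_lit 5) (nat_lit 2) (nat_lit 4) (nat_lit 322) (nat_lit 277) (nat_lit 181)) (XT.lf (nat_lit 0) (nat_lit 3008260080863) (nat_lit 76) (nat_lit 1971635399307) (nat_lit 76) (nat_lit 1831045478916) (nat_lit 1) (nat_lit 4) (nat_lit 2) (nat_lit 5) (nat_lit 2) (nat_lit 4) (nat_lit 323) (nat_lit 277) (nat_lit 180)))) (XT.nd (nat_lit 78) (nat_lit 0) (nat_lit 0) (XT.lf (nat_lit 0) (nat_lit 3875575598714) (nat_lit 76) (nat_lit 2040364535756) (nat_lit 76) (nat_lit 1899774591615) (nat_lit 1) (nat_lit 4) (nat_lit 2) (nat_lit 5) (nat_lit 2) (nat_lit 4) (nat_lit 324) (nat_lit 277) (nat_lit 179)) (XT.nd (nat_lit 36972) (nat_lit 0) (nat_lit 3800) (XT.lf (nat_lit 0) (nat_lit 4872988312837) (nat_lit 76) (nat_lit 2119403107709) (nat_lit 76) (nat_lit 1978813142916) (nat_lit 1) (nat_lit 4) (nat_lit 2) (nat_lit 5) (nat_lit 2) (nat_lit 4) (nat_lit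 325) (nat_lit 277) (nat_lit 178)) (XT.lf (nat_lit 0) (nat_lit 18337675454) (nat_lit 532) (nat_lit 3450669647) (nat_lit 532) (nat_lit 3450669647) (nat_lit 51) (nat_lit 3) (nat_lit 58) (nat_lit 3) (nat_lit 58) (nat_lit 5) (nat_lit 278) (nat_lit 278) (nat_lit 224))))) (XT.nd (nat_lit 234) (nat_lit 836) (nat_lit 0) (XT.nd (nat_lit 78) (nat_lit 0) (nat_lit 76) (XT.lf (nat_lit 76) (nat_lit 39443320158) (nat_lit 0) (nat_lit 974005657) (nat_lit 532) (nat_lit 13767157866) (nat_lit 52) (nat_lit 5) (nat_lit 51) (nat_lit 3) (nat_lit 58) (nat_lit 5) (nat_lit 279) (nat_lit 278) (nat_lit 223)) (XT.nd (nat_lit 78) (nat_lit 0) (nat_lit 76) (XT.lf (nat_lit 76) (nat_lit 35328942744) (nat_lit 0) (nat_lit 11594692341) (nat_lit 532) (nat_lit 11347044262) (nat_lit 53) (nat_lit 5) (nat_lit 52) (nat_lit 5) (nat_lit 59) (nat_lit 5) (nat_lit 280) (nat_lit 278) (nat_lit 222)) (XT.lf (nat_lit 76) (nat_lit 31473897956)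 (nat_lit 0) (nat_lit 25073525882) (nat_lit 532) (nat_lit 6251072145) (nat_lit 54) (nat_lit 5) (nat_lit 53) (nat_lit 5) (nat_lit 60) (nat_lit 5) (nat_lit 281) (nat_lit 278) (nat_lit 221)))) (XT.nd (nat_lit 78) (nat_lit 532) (nat_lit 0) (XT.lf (nat_lit 0) (nat_lit 1971993890) (nat_lit 532) (nat_lit 39941770880) (nat_lit 76) (nat_lit 25905031267) (nat_lit 47) (nat_lit 5) (nat_lit 54) (nat_lit 5) (nat_lit 48) (nat_lit 5) (nat_lit 282) (nat_lit 278) (nat_lit 220)) (XT.nd (nat_lit 78) (nat_lit 228) (nat_lit 0) (XT.lf (nat_lit 0) (nat_lit 13560029161) (nat_lit 380) (nat_lit 48999042015) (nat_lit 76) (nat_lit 10819959265) (nat_lit 43) (nat_lit 5) (nat_lit 48) (nat_lit 5) (nat_lit 44) (nat_lit 5) (nat_lit 283) (nat_lit 278) (nat_lit 219)) (XT.lf (nat_lit 0) (nat_lit 20941534970) (nat_lit 228) (nat_lit 8795869844) (nat_lit 304) (nat_lit 49807813069) (nat_lit 40) (nat_lit 5) (nat_lit 43) (nat_lit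 5) (nat_lit 44) (nat_lit 5) (nat_lit 284) (nat_lit 278) (nat_lit 218)))))) (XT.nd (nat_lit 468) (nat_lit 912) (nat_lit 0) (XT.nd (nat_lit 234) (nat_lit 380) (nat_lit 0) (XT.nd (nat_lit 78) (nat_lit 456) (nat_lit 0) (XT.lf (nat_lit 0) (nat_lit 17369639755) (nat_lit 228) (nat_lit 34124210542) (nat_lit 304) (nat_lit 34890293620) (nat_lit 37) (nat_lit 5) (nat_lit 40) (nat_lit 5) (nat_lit 41) (nat_lit 5) (nat_lit 285) (nat_lit 278) (nat_lit 217)) (XT.nd (nat_lit 78) (nat_lit 304) (nat_lit 0) (XT.lf (nat_lit 0) (nat_lit 13918391609) (nat_lit 152) (nat_lit 65580808832) (nat_lit 228) (nat_lit 14510879955) (nat_lit 35) (nat_lit 5) (nat_lit 37) (nat_lit 5) (nat_lit 38) (nat_lit 5) (nat_lit 286) (nat_lit 278) (nat_lit 216)) (XT.lf (nat_lit 0) (nat_lit 10143481202) (nat_lit 228) (nat_lit 1581125475) (nat_lit 304) (nat_lit 90778481555) (nat_lit 31) (nat_lit 5) (nat_lit 34) (nat_lit 5) (nat_lit 35)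 (nat_lit 5) (nat_lit 287) (nat_lit 278) (nat_lit 215)))) (XT.nd (nat_lit 78) (nat_lit 228) (nat_lit 0) (XT.lf (nat_lit 0) (nat_lit 4718096670) (nat_lit 152) (nat_lit 40577179370) (nat_lit 228) (nat_lit 66603898062) (nat_lit 29) (nat_lit 5) (nat_lit 31) (nat_lit 5) (nat_lit 32) (nat_lit 5) (nat_lit 288) (nat_lit 278) (nat_lit 214)) (XT.nd (nat_lit 78) (nat_lit 228) (nat_lit 0) (XT.lf (nat_lit 0) (nat_lit 87478458555) (nat_lit 228) (nat_lit 1434314051) (nat_lit 76) (nat_lit 33505751226) (nat_lit 29) (nat_lit 5) (nat_lit 32) (nat_lit 5) (nat_lit 30) (nat_lit 5) (nat_lit 289) (nat_lit 278) (nat_lit 213)) (XT.lf (nat_lit 0) (nat_lit 5640597694) (nat_lit 228) (nat_lit 9010579330) (nat_lit 76) (nat_lit 119522490875) (nat_lit 26) (nat_lit 5) (nat_lit 29) (nat_lit 5) (nat_lit 27) (nat_lit 5) (nat_lit 290) (nat_lit 278) (nat_lit 212))))) (XT.nd (nat_lit 234) (nat_lit 456) (nat_lit 0) (XT.nd (nat_lit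 78) (nat_lit 304) (nat_lit 0) (XT.lf (nat_lit 0) (nat_lit 55239965474) (nat_lit 228) (nat_lit 20561311399) (nat_lit 76) (nat_lit 71418171001) (nat_lit 24) (nat_lit 5) (nat_lit 27) (nat_lit 5) (nat_lit 25) (nat_lit 5) (nat_lit 291) (nat_lit 278) (nat_lit 211)) (XT.nd (nat_lit 78) (nat_lit 152) (nat_lit 0) (XT.lf (nat_lit 0) (nat_lit 116268165891) (nat_lit 228) (nat_lit 35230292263) (nat_lit 76) (nat_lit 10404524927) (nat_lit 22) (nat_lit 5) (nat_lit 25) (nat_lit 5) (nat_lit 23) (nat_lit 4) (nat_lit 292) (nat_lit 278) (nat_lit 210)) (XT.lf (nat_lit 0) (nat_lit 13080168605) (nat_lit 152) (nat_lit 56158923222) (nat_lit 76) (nat_lit 109071067273) (nat_lit 20) (nat_lit 5) (nat_lit 22) (nat_lit 5) (nat_lit 21) (nat_lit 5) (nat_lit 293) (nat_lit 278) (nat_lit 209)))) (XT.nd (nat_lit 156) (nat_lit 228) (nat_lit 0) (XT.nd (nat_lit 78) (nat_lit 76) (nat_lit 0) (XT.lf (nat_lit 0) (nat_lit 82473839943)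 (nat_lit 228) (nat_lit 85003594212) (nat_lit 76) (nat_lit 29240271229) (nat_lit 18) (nat_lit 5) (nat_lit 21) (nat_lit 5) (nat_lit 19) (nat_lit 4) (nat_lit 294) (nat_lit 278) (nat_lit 208)) (XT.lf (nat_lit 0) (nat_lit 93110728002) (nat_lit 76) (nat_lit 74995904766) (nat_lit 152) (nat_lit 49313346663) (nat_lit 17) (nat_lit 5) (nat_lit 18) (nat_lit 5) (nat_lit 19) (nat_lit 4) (nat_lit 295) (nat_lit 278) (nat_lit 207))) (XT.nd (nat_lit 78) (nat_lit 76) (nat_lit 0) (XT.lf (nat_lit 0) (nat_lit 29056075125) (nat_lit 152) (nat_lit 177112168279) (nat_lit 76) (nat_lit 34613144135) (nat_lit 15) (nat_lit 5) (nat_lit 17) (nat_lit 5) (nat_lit 16) (nat_lit 4) (nat_lit 296) (nat_lit 278) (nat_lit 206)) (XT.lf (nat_lit 0) (nat_lit 17347873913) (nat_lit 76) (nat_lit 105199241234) (nat_lit 152) (nat_lit 144494535032) (nat_lit 14) (nat_lit 5) (nat_lit 15) (nat_lit 5) (nat_lit 16) (nat_lit 4) (nat_lit 297)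 (nat_lit 278) (nat_lit 205))))))))
noncomputable def xc45 : XT := (XT.nd (nat_lit 1872) (nat_lit 0) (nat_lit 0) (XT.nd (nat_lit 936) (nat_lit 304) (nat_lit 0) (XT.nd (nat_lit 468) (nat_lit 228) (nat_lit 0) (XT.nd (nat_lit 234) (nat_lit 228) (nat_lit 0) (XT.nd (nat_lit 78) (nat_lit 228) (nat_lit 0) (XT.lf (nat_lit 0) (nat_lit 235613325758) (nat_lit 152) (nat_lit 45525064078) (nat_lit 0) (nat_lit 15658442114) (nat_lit 14) (nat_lit 5) (nat_lit 16) (nat_lit 4) (nat_lit 14) (nat_lit 4) (nat_lit 298) (nat_lit 278) (nat_lit 204)) (XT.nd (nat_lit 78) (nat_lit 76) (nat_lit 0) (XT.lf (nat_lit 0) (nat_lit 40716495132) (nat_lit 152) (nat_lit 135265498682) (nat_lit 76) (nat_lit 154340732140) (nat_lit 12) (nat_lit 5) (nat_lit 14) (nat_lit 5) (nat_lit 13) (nat_lit 4) (nat_lit 299) (nat_lit 278) (nat_lit 203)) (XT.lf (nat_lit 0) (nat_lit 109459198529) (nat_lit 76) (nat_lit 48913787700) (nat_lit 152) (nat_lit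 210049845030) (nat_lit 11) (nat_lit 5) (nat_lit 12) (nat_lit 5) (nat_lit 13) (nat_lit 4) (nat_lit 300) (nat_lit 278) (nat_lit 202)))) (XT.nd (nat_lit 78) (nat_lit 228) (nat_lit 0) (XT.lf (nat_lit 0) (nat_lit 300055339485) (nat_lit 152) (nat_lit 15281260818) (nat_lit 0) (nat_lit 96391161526) (nat_lit 11) (nat_lit 5) (nat_lit 13) (nat_lit 4) (nat_lit 11) (nat_lit 4) (nat_lit 301) (nat_lit 278) (nat_lit 201)) (XT.nd (nat_lit 78) (nat_lit 76) (nat_lit 0) (XT.lf (nat_lit 0) (nat_lit 9622282989) (nat_lit 152) (nat_lit 183650392439) (nat_lit 76) (nat_lit 267594242045) (nat_lit 9) (nat_lit 5) (nat_lit 11) (nat_lit 5) (nat_lit 10) (nat_lit 4) (nat_lit 302) (nat_lit 278) (nat_lit 200)) (XT.lf (nat_lit 0) (nat_lit 99024925718) (nat_lit 76) (nat_lit 46499187947) (nat_lit 152) (nat_lit 371378772741) (nat_lit 8) (nat_lit 5) (nat_lit 9) (nat_lit 5) (nat_lit 10) (nat_lit 4) (nat_lit 303) (nat_lit 278)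 (nat_lit 199))))) (XT.nd (nat_lit 234) (nat_lit 152) (nat_lit 0) (XT.nd (nat_lit 78) (nat_lit 76) (nat_lit 0) (XT.lf (nat_lit 0) (nat_lit 310237190091) (nat_lit 152) (nat_lit 148775104703) (nat_lit 0) (nat_lit 121657878527) (nat_lit 8) (nat_lit 5) (nat_lit 10) (nat_lit 4) (nat_lit 8) (nat_lit 4) (nat_lit 304) (nat_lit 278) (nat_lit 198)) (XT.nd (nat_lit 78) (nat_lit 0) (nat_lit 0) (XT.lf (nat_lit 0) (nat_lit 167799864204) (nat_lit 76) (nat_lit 337178333100) (nat_lit 76) (nat_lit 148598678716) (nat_lit 7) (nat_lit 4) (nat_lit 8) (nat_lit 5) (nat_lit 8) (nat_lit 4) (nat_lit 305) (nat_lit 278) (nat_lit 197)) (XT.lf (nat_lit 0) (nat_lit 540869264453) (nat_lit 76) (nat_lit 192391903704) (nat_lit 76) (nat_lit 3811951215) (nat_lit 7) (nat_lit 4) (nat_lit 8) (nat_lit 5) (nat_lit 8) (nat_lit 4) (nat_lit 306) (nat_lit 278) (nat_lit 196)))) (XT.nd (nat_lit 78) (nat_lit 0) (nat_lit 0) (XT.lf (nat_lit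 0) (nat_lit 139889281288) (nat_lit 76) (nat_lit 18028744191) (nat_lit 152) (nat_lit 674593649350) (nat_lit 5) (nat_lit 5) (nat_lit 6) (nat_lit 5) (nat_lit 7) (nat_lit 4) (nat_lit 307) (nat_lit 278) (nat_lit 195)) (XT.nd (nat_lit 78) (nat_lit 0) (nat_lit 0) (XT.lf (nat_lit 0) (nat_lit 353937191406) (nat_lit 152) (nat_lit 408174793661) (nat_lit 0) (nat_lit 179325675554) (nat_lit 5) (nat_lit 5) (nat_lit 7) (nat_lit 4) (nat_lit 5) (nat_lit 4) (nat_lit 308) (nat_lit 278) (nat_lit 194)) (XT.lf (nat_lit 0) (nat_lit 579857417972) (nat_lit 152) (nat_lit 81559550975) (nat_lit 0) (nat_lit 405245720631) (nat_lit 5) (nat_lit 5) (nat_lit 7) (nat_lit 4) (nat_lit 5) (nat_lit 4) (nat_lit 309) (nat_lit 278) (nat_lit 193)))))) (XT.nd (nat_lit 468) (nat_lit 76) (nat_lit 0) (XT.nd (nat_lit 234) (nat_lit 152) (nat_lit 0) (XT.nd (nat_lit 78) (nat_lit 0) (nat_lit 0) (XT.lf (nat_lit 0) (nat_lit 309531230220) (nat_lit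 76) (nat_lit 537578295102) (nat_lit 76) (nat_lit 362966439944) (nat_lit 4) (nat_lit 4) (nat_lit 5) (nat_lit 5) (nat_lit 5) (nat_lit 4) (nat_lit 310) (nat_lit 278) (nat_lit 192)) (XT.nd (nat_lit 78) (nat_lit 0) (nat_lit 0) (XT.lf (nat_lit 0) (nat_lit 764223937379) (nat_lit 76) (nat_lit 392599677090) (nat_lit 76) (nat_lit 217987684700) (nat_lit 4) (nat_lit 4) (nat_lit 5) (nat_lit 5) (nat_lit 5) (nat_lit 4) (nat_lit 311) (nat_lit 278) (nat_lit 191)) (XT.lf (nat_lit 0) (nat_lit 1287119950745) (nat_lit 76) (nat_lit 225874559393) (nat_lit 76) (nat_lit 51262447670) (nat_lit 4) (nat_lit 4) (nat_lit 5) (nat_lit 5) (nat_lit 5) (nat_lit 4) (nat_lit 312) (nat_lit 278) (nat_lit 190)))) (XT.nd (nat_lit 78) (nat_lit 0) (nat_lit 0) (XT.lf (nat_lit 0) (nat_lit 108373290919) (nat_lit 76) (nat_lit 27677433315) (nat_lit 152) (nat_lit 1645589984996) (nat_lit 2) (nat_lit 5) (nat_lit 3) (nat_lit 5) (nat_lit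 4) (nat_lit 4) (nat_lit 313) (nat_lit 278) (nat_lit 189)) (XT.nd (nat_lit 78) (nat_lit 0) (nat_lit 0) (XT.lf (nat_lit 0) (nat_lit 361605725628) (nat_lit 152) (nat_lit 1468937700650) (nat_lit 0) (nat_lit 199927664774) (nat_lit 2) (nat_lit 5) (nat_lit 4) (nat_lit 4) (nat_lit 2) (nat_lit 4) (nat_lit 314) (nat_lit 278) (nat_lit 188)) (XT.lf (nat_lit 0) (nat_lit 621759244245) (nat_lit 152) (nat_lit 1234724453863) (nat_lit 0) (nat_lit 460081110740) (nat_lit 2) (nat_lit 5) (nat_lit 4) (nat_lit 4) (nat_lit 2) (nat_lit 4) (nat_lit 315) (nat_lit 278) (nat_lit 187))))) (XT.nd (nat_lit 234) (nat_lit 76) (nat_lit 0) (XT.nd (nat_lit 78) (nat_lit 0) (nat_lit 0) (XT.lf (nat_lit 0) (nat_lit 920935597295) (nat_lit 152) (nat_lit 965379601924) (nat_lit 0) (nat_lit 759257400617) (nat_lit 2) (nat_lit 5) (nat_lit 4) (nat_lit 4) (nat_lit 2) (nat_lit 4) (nat_lit 316) (nat_lit 278) (nat_lit 186)) (XT.nd (nat_lit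 78) (nat_lit 0) (nat_lit 0) (XT.lf (nat_lit 0) (nat_lit 1264988235166) (nat_lit 152) (nat_lit 655633354251) (nat_lit 0) (nat_lit 1103309983553) (nat_lit 2) (nat_lit 5) (nat_lit 4) (nat_lit 4) (nat_lit 2) (nat_lit 4) (nat_lit 317) (nat_lit 278) (nat_lit 185)) (XT.lf (nat_lit 0) (nat_lit 1660648622510) (nat_lit 152) (nat_lit 299425458173) (nat_lit 0) (nat_lit 1498970323127) (nat_lit 2) (nat_lit 5) (nat_lit 4) (nat_lit 4) (nat_lit 2) (nat_lit 4) (nat_lit 318) (nat_lit 278) (nat_lit 184)))) (XT.nd (nat_lit 78) (nat_lit 0) (nat_lit 0) (XT.lf (nat_lit 0) (nat_lit 116017012047) (nat_lit 76) (nat_lit 2002431140700) (nat_lit 76) (nat_lit 1840752799780) (nat_lit 1) (nat_lit 4) (nat_lit 2) (nat_lit 5) (nat_lit 2) (nat_lit 4) (nat_lit 319) (nat_lit 278) (nat_lit 183)) (XT.nd (nat_lit 78) (nat_lit 0) (nat_lit 0) (XT.lf (nat_lit 0) (nat_lit 611907919072) (nat_lit 76) (nat_lit 2041727027418) (nat_lit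 76) (nat_lit 1880048650377) (nat_lit 1) (nat_lit 4) (nat_lit 2) (nat_lit 5) (nat_lit 2) (nat_lit 4) (nat_lit 320) (nat_lit 278) (nat_lit 182)) (XT.lf (nat_lit 0) (nat_lit 1182182262297) (nat_lit 76) (nat_lit 2086917396056) (nat_lit 76) (nat_lit 1925238987606) (nat_lit 1) (nat_lit 4) (nat_lit 2) (nat_lit 5) (nat_lit 2) (nat_lit 4) (nat_lit 321) (nat_lit 278) (nat_lit 181))))))) (XT.nd (nat_lit 37986) (nat_lit 0) (nat_lit 836) (XT.nd (nat_lit 37518) (nat_lit 0) (nat_lit 2584) (XT.nd (nat_lit 37284) (nat_lit 0) (nat_lit 3800) (XT.nd (nat_lit 78) (nat_lit 0) (nat_lit 0) (XT.lf (nat_lit 0) (nat_lit 1837997583222) (nat_lit 76) (nat_lit 2138886406000) (nat_lit 76) (nat_lit 1977207970238) (nat_lit 1) (nat_lit 4) (nat_lit 2) (nat_lit 5) (nat_lit 2) (nat_lit 4) (nat_lit 322) (nat_lit 278) (nat_lit 180)) (XT.nd (nat_lit 78) (nat_lit 0) (nat_lit 0) (XT.lf (nat_lit 0) (nat_lit 2592185051168) (nat_lit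 76) (nat_lit 2198650842228) (nat_lit 76) (nat_lit 2036972382717) (nat_lit 1) (nat_lit 4) (nat_lit 2) (nat_lit 5) (nat_lit 2) (nat_lit 4) (nat_lit 323) (nat_lit 278) (nat_lit 179)) (XT.lf (nat_lit 0) (nat_lit 3459500507900) (nat_lit 76) (nat_lit 2267380008927) (nat_lit 76) (nat_lit 2105701528763) (nat_lit 1) (nat_lit 4) (nat_lit 2) (nat_lit 5) (nat_lit 2) (nat_lit 4) (nat_lit 324) (nat_lit 278) (nat_lit 178)))) (XT.nd (nat_lit 78) (nat_lit 0) (nat_lit 0) (XT.lf (nat_lit 0) (nat_lit 21129269000) (nat_lit 532) (nat_lit 3946117128) (nat_lit 532) (nat_lit 3946117128) (nat_lit 51) (nat_lit 3) (nat_lit 58) (nat_lit 3) (nat_lit 58) (nat_lit 5) (nat_lit 279) (nat_lit 279) (nat_lit 222)) (XT.nd (nat_lit 78) (nat_lit 0) (nat_lit 76) (XT.lf (nat_lit 76) (nat_lit 45400373838) (nat_lit 0) (nat_lit 1151730088) (nat_lit 532) (nat_lit 15754124357) (nat_lit 52) (nat_lit 5) (nat_lit 51) (nat_lit 3) (nat_lit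 58) (nat_lit 5) (nat_lit 280) (nat_lit 279) (nat_lit 221)) (XT.lf (nat_lit 76) (nat_lit 40671529328) (nat_lit 0) (nat_lit 13353794276) (nat_lit 532) (nat_lit 12980772609) (nat_lit 53) (nat_lit 5) (nat_lit 52) (nat_lit 5) (nat_lit 59) (nat_lit 5) (nat_lit 281) (nat_lit 279) (nat_lit 220))))) (XT.nd (nat_lit 234) (nat_lit 608) (nat_lit 0) (XT.nd (nat_lit 78) (nat_lit 760) (nat_lit 0) (XT.lf (nat_lit 76) (nat_lit 36239751526) (nat_lit 0) (nat_lit 28845353630) (nat_lit 532) (nat_lit 7128603652) (nat_lit 54) (nat_lit 5) (nat_lit 53) (nat_lit 5) (nat_lit 60) (nat_lit 5) (nat_lit 282) (nat_lit 279) (nat_lit 219)) (XT.nd (nat_lit 78) (nat_lit 304) (nat_lit 0) (XT.lf (nat_lit 0) (nat_lit 2318352103) (nat_lit 532) (nat_lit 45884888035) (nat_lit 76) (nat_lit 29784237052) (nat_lit 47) (nat_lit 5) (nat_lit 54) (nat_lit 5) (nat_lit 48) (nat_lit 5) (nat_lit 283) (nat_lit 279) (nat_lit 218)) (XT.lf (nat_lit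 0) (nat_lit 15639035069) (nat_lit 380) (nat_lit 56301119211) (nat_lit 76) (nat_lit 12442049282) (nat_lit 43) (nat_lit 5) (nat_lit 48) (nat_lit 5) (nat_lit 44) (nat_lit 5) (nat_lit 284) (nat_lit 279) (nat_lit 217)))) (XT.nd (nat_lit 78) (nat_lit 380) (nat_lit 0) (XT.lf (nat_lit 0) (nat_lit 24126500059) (nat_lit 228) (nat_lit 10111699070) (nat_lit 304) (nat_lit 57235516034) (nat_lit 40) (nat_lit 5) (nat_lit 43) (nat_lit 5) (nat_lit 44) (nat_lit 5) (nat_lit 285) (nat_lit 279) (nat_lit 216)) (XT.nd (nat_lit 78) (nat_lit 152) (nat_lit 0) (XT.lf (nat_lit 0) (nat_lit 20018047757) (nat_lit 228) (nat_lit 39235929845) (nat_lit 304) (nat_lit 40084842431) (nat_lit 37) (nat_lit 5) (nat_lit 40) (nat_lit 5) (nat_lit 41) (nat_lit 5) (nat_lit 286) (nat_lit 279) (nat_lit 215)) (XT.lf (nat_lit 0) (nat_lit 16048019850) (nat_lit 152) (nat_lit 75408559795) (nat_lit 228) (nat_lit 16652359410) (nat_lit 35) (nat_lit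 5) (nat_lit 37) (nat_lit 5) (nat_lit 38) (nat_lit 5) (nat_lit 287) (nat_lit 279) (nat_lit 214)))))) (XT.nd (nat_lit 468) (nat_lit 760) (nat_lit 0) (XT.nd (nat_lit 234) (nat_lit 532) (nat_lit 0) (XT.nd (nat_lit 78) (nat_lit 152) (nat_lit 0) (XT.lf (nat_lit 0) (nat_lit 11704983783) (nat_lit 228) (nat_lit 1808313744) (nat_lit 304) (nat_lit 104362810900) (nat_lit 31) (nat_lit 5) (nat_lit 34) (nat_lit 5) (nat_lit 35) (nat_lit 5) (nat_lit 288) (nat_lit 279) (nat_lit 213)) (XT.nd (nat_lit 78) (nat_lit 0) (nat_lit 0) (XT.lf (nat_lit 0) (nat_lit 5464423964) (nat_lit 152) (nat_lit 46652367670) (nat_lit 228) (nat_lit 76565043212) (nat_lit 29) (nat_lit 5) (nat_lit 31) (nat_lit 5) (nat_lit 32) (nat_lit 5) (nat_lit 289) (nat_lit 279) (nat_lit 212)) (XT.lf (nat_lit 0) (nat_lit 100624138715) (nat_lit 228) (nat_lit 1614196577) (nat_lit 76) (nat_lit 38541021650) (nat_lit 29) (nat_lit 5) (nat_lit 32) (nat_lit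 5) (nat_lit 30) (nat_lit 5) (nat_lit 290) (nat_lit 279) (nat_lit 211)))) (XT.nd (nat_lit 78) (nat_lit 304) (nat_lit 0) (XT.lf (nat_lit 0) (nat_lit 6508843296) (nat_lit 228) (nat_lit 10328693716) (nat_lit 76) (nat_lit 137460382386) (nat_lit 26) (nat_lit 5) (nat_lit 29) (nat_lit 5) (nat_lit 27) (nat_lit 5) (nat_lit 291) (nat_lit 279) (nat_lit 210)) (XT.nd (nat_lit 78) (nat_lit 152) (nat_lit 0) (XT.lf (nat_lit 0) (nat_lit 63546219015) (nat_lit 228) (nat_lit 23613501655) (nat_lit 76) (nat_lit 82141000895) (nat_lit 24) (nat_lit 5) (nat_lit 27) (nat_lit 5) (nat_lit 25) (nat_lit 5) (nat_lit 292) (nat_lit 279) (nat_lit 209)) (XT.lf (nat_lit 0) (nat_lit 133726975634) (nat_lit 228) (nat_lit 40484317329) (nat_lit 76) (nat_lit 11975630972) (nat_lit 22) (nat_lit 5) (nat_lit 25) (nat_lit 5) (nat_lit 23) (nat_lit 4) (nat_lit 293) (nat_lit 279) (nat_lit 208))))) (XT.nd (nat_lit 234) (nat_lit 380) (nat_lit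 0) (XT.nd (nat_lit 78) (nat_lit 228) (nat_lit 0) (XT.lf (nat_lit 0) (nat_lit 15059480076) (nat_lit 152) (nat_lit 64553899977) (nat_lit 76) (nat_lit 125441904061) (nat_lit 20) (nat_lit 5) (nat_lit 22) (nat_lit 5) (nat_lit 21) (nat_lit 5) (nat_lit 294) (nat_lit 279) (nat_lit 207)) (XT.nd (nat_lit 78) (nat_lit 76) (nat_lit 0) (XT.lf (nat_lit 0) (nat_lit 94860841350) (nat_lit 228) (nat_lit 97726705978) (nat_lit 76) (nat_lit 33636525955) (nat_lit 18) (nat_lit 5) (nat_lit 21) (nat_lit 5) (nat_lit 19) (nat_lit 4) (nat_lit 295) (nat_lit 279) (nat_lit 206)) (XT.lf (nat_lit 0) (nat_lit 107102442978) (nat_lit 76) (nat_lit 86234636686) (nat_lit 152) (nat_lit 56694728456) (nat_lit 17) (nat_lit 5) (nat_lit 18) (nat_lit 5) (nat_lit 19) (nat_lit 4) (nat_lit 296) (nat_lit 279) (nat_lit 205)))) (XT.nd (nat_lit 156) (nat_lit 152) (nat_lit 0) (XT.nd (nat_lit 78) (nat_lit 76) (nat_lit 0) (XT.lf (nat_lit 0)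 (nat_lit 33428205947) (nat_lit 152) (nat_lit 203654445857) (nat_lit 76) (nat_lit 39814836587) (nat_lit 15) (nat_lit 5) (nat_lit 17) (nat_lit 5) (nat_lit 16) (nat_lit 4) (nat_lit 297) (nat_lit 279) (nat_lit 204)) (XT.lf (nat_lit 0) (nat_lit 19972524827) (nat_lit 76) (nat_lit 120969128038) (nat_lit 152) (nat_lit 166155238758) (nat_lit 14) (nat_lit 5) (nat_lit 15) (nat_lit 5) (nat_lit 16) (nat_lit 4) (nat_lit 298) (nat_lit 279) (nat_lit 203))) (XT.nd (nat_lit 78) (nat_lit 152) (nat_lit 0) (XT.lf (nat_lit 0) (nat_lit 270966377606) (nat_lit 152) (nat_lit 52333618973) (nat_lit 0) (nat_lit 18015468580) (nat_lit 14) (nat_lit 5) (nat_lit 16) (nat_lit 4) (nat_lit 14) (nat_lit 4) (nat_lit 299) (nat_lit 279) (nat_lit 202)) (XT.lf (nat_lit 0) (nat_lit 46834292750) (nat_lit 152) (nat_lit 155536279472) (nat_lit 76) (nat_lit 177499730843) (nat_lit 12) (nat_lit 5) (nat_lit 14) (nat_lit 5) (nat_lit 13)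 (nat_lit 4) (nat_lit 300) (nat_lit 279) (nat_lit 201))))))))
noncomputable def xc46 : XT := (XT.nd (nat_lit 39000) (nat_lit 0) (nat_lit 608) (XT.nd (nat_lit 936) (nat_lit 228) (nat_lit 0) (XT.nd (nat_lit 468) (nat_lit 228) (nat_lit 0) (XT.nd (nat_lit 234) (nat_lit 152) (nat_lit 0) (XT.nd (nat_lit 78) (nat_lit 152) (nat_lit 0) (XT.lf (nat_lit 0) (nat_lit 125895510339) (nat_lit 76) (nat_lit 56242819889) (nat_lit 152) (nat_lit 241547168891) (nat_lit 11) (nat_lit 5) (nat_lit 12) (nat_lit 5) (nat_lit 13) (nat_lit 4) (nat_lit 301) (nat_lit 279) (nat_lit 200)) (XT.nd (nat_lit 78) (nat_lit 152) (nat_lit 0) (XT.lf (nat_lit 0) (nat_lit 345071978956) (nat_lit 152) (nat_lit 17557801598) (nat_lit 0) (nat_lit 110856473994) (nat_lit 11) (nat_lit 5) (nat_lit 13) (nat_lit 4) (nat_lit 11) (nat_lit 4) (nat_lit 302) (nat_lit 279) (nat_lit 199)) (XT.lf (nat_lit 0) (nat_lit 11073421814) (nat_lit 152) (nat_lit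 211183213371) (nat_lit 76) (nat_lit 307739692598) (nat_lit 9) (nat_lit 5) (nat_lit 11) (nat_lit 5) (nat_lit 10) (nat_lit 4) (nat_lit 303) (nat_lit 279) (nat_lit 198)))) (XT.nd (nat_lit 78) (nat_lit 76) (nat_lit 0) (XT.lf (nat_lit 0) (nat_lit 113892155016) (nat_lit 76) (nat_lit 53467679602) (nat_lit 152) (nat_lit 427077913306) (nat_lit 8) (nat_lit 5) (nat_lit 9) (nat_lit 5) (nat_lit 10) (nat_lit 4) (nat_lit 304) (nat_lit 279) (nat_lit 197)) (XT.nd (nat_lit 78) (nat_lit 76) (nat_lit 0) (XT.lf (nat_lit 0) (nat_lit 356779079474) (nat_lit 152) (nat_lit 171079276246) (nat_lit 0) (nat_lit 139911836008) (nat_lit 8) (nat_lit 5) (nat_lit 10) (nat_lit 4) (nat_lit 8) (nat_lit 4) (nat_lit 305) (nat_lit 279) (nat_lit 196)) (XT.lf (nat_lit 0) (nat_lit 192980914288) (nat_lit 76) (nat_lit 387749766570) (nat_lit 76) (nat_lit 170882263882) (nat_lit 7) (nat_lit 4) (nat_lit 8) (nat_lit 5) (nat_lit 8) (nat_lit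 4) (nat_lit 306) (nat_lit 279) (nat_lit 195))))) (XT.nd (nat_lit 234) (nat_lit 76) (nat_lit 0) (XT.nd (nat_lit 78) (nat_lit 152) (nat_lit 0) (XT.lf (nat_lit 0) (nat_lit 622009280601) (nat_lit 76) (nat_lit 221246066220) (nat_lit 76) (nat_lit 4378338122) (nat_lit 7) (nat_lit 4) (nat_lit 8) (nat_lit 5) (nat_lit 8) (nat_lit 4) (nat_lit 307) (nat_lit 279) (nat_lit 194)) (XT.nd (nat_lit 78) (nat_lit 0) (nat_lit 0) (XT.lf (nat_lit 0) (nat_lit 160881734402) (nat_lit 76) (nat_lit 20728678342) (nat_lit 152) (nat_lit 775777636977) (nat_lit 5) (nat_lit 5) (nat_lit 6) (nat_lit 5) (nat_lit 7) (nat_lit 4) (nat_lit 308) (nat_lit 279) (nat_lit 193)) (XT.lf (nat_lit 0) (nat_lit 407031934222) (nat_lit 152) (nat_lit 469392897949) (nat_lit 0) (nat_lit 206228142974) (nat_lit 5) (nat_lit 5) (nat_lit 7) (nat_lit 4) (nat_lit 5) (nat_lit 4) (nat_lit 309) (nat_lit 279) (nat_lit 192)))) (XT.nd (nat_lit 78) (nat_lit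 76) (nat_lit 0) (XT.lf (nat_lit 0) (nat_lit 666839651629) (nat_lit 152) (nat_lit 93786427307) (nat_lit 0) (nat_lit 466035723148) (nat_lit 5) (nat_lit 5) (nat_lit 7) (nat_lit 4) (nat_lit 5) (nat_lit 4) (nat_lit 310) (nat_lit 279) (nat_lit 191)) (XT.nd (nat_lit 78) (nat_lit 0) (nat_lit 0) (XT.lf (nat_lit 0) (nat_lit 355967373785) (nat_lit 76) (nat_lit 618211884337) (nat_lit 76) (nat_lit 417407836524) (nat_lit 4) (nat_lit 4) (nat_lit 5) (nat_lit 5) (nat_lit 5) (nat_lit 4) (nat_lit 311) (nat_lit 279) (nat_lit 190)) (XT.lf (nat_lit 0) (nat_lit 878863144536) (nat_lit 76) (nat_lit 451486885149) (nat_lit 76) (nat_lit 250682733569) (nat_lit 4) (nat_lit 4) (nat_lit 5) (nat_lit 5) (nat_lit 5) (nat_lit 4) (nat_lit 312) (nat_lit 279) (nat_lit 189)))))) (XT.nd (nat_lit 468) (nat_lit 76) (nat_lit 0) (XT.nd (nat_lit 234) (nat_lit 0) (nat_lit 0) (XT.nd (nat_lit 78) (nat_lit 152) (nat_lit 0) (XT.lf (nat_lit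 0) (nat_lit 1480192827313) (nat_lit 76) (nat_lit 259753357645) (nat_lit 76) (nat_lit 58949115833) (nat_lit 4) (nat_lit 4) (nat_lit 5) (nat_lit 5) (nat_lit 5) (nat_lit 4) (nat_lit 313) (nat_lit 279) (nat_lit 188)) (XT.nd (nat_lit 78) (nat_lit 0) (nat_lit 0) (XT.lf (nat_lit 0) (nat_lit 124633879395) (nat_lit 76) (nat_lit 31826793522) (nat_lit 152) (nat_lit 1892425954830) (nat_lit 2) (nat_lit 5) (nat_lit 3) (nat_lit 5) (nat_lit 4) (nat_lit 4) (nat_lit 314) (nat_lit 279) (nat_lit 187)) (XT.lf (nat_lit 0) (nat_lit 415848666451) (nat_lit 152) (nat_lit 1689274244028) (nat_lit 0) (nat_lit 229918677096) (nat_lit 2) (nat_lit 5) (nat_lit 4) (nat_lit 4) (nat_lit 2) (nat_lit 4) (nat_lit 315) (nat_lit 279) (nat_lit 186)))) (XT.nd (nat_lit 78) (nat_lit 0) (nat_lit 0) (XT.lf (nat_lit 0) (nat_lit 715024941298) (nat_lit 152) (nat_lit 1419929546534) (nat_lit 0) (nat_lit 529094897008) (nat_lit 2) (nat_lit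 5) (nat_lit 4) (nat_lit 4) (nat_lit 2) (nat_lit 4) (nat_lit 316) (nat_lit 279) (nat_lit 185)) (XT.nd (nat_lit 78) (nat_lit 0) (nat_lit 0) (XT.lf (nat_lit 0) (nat_lit 1059077511165) (nat_lit 152) (nat_lit 1110183433161) (nat_lit 0) (nat_lit 873147419106) (nat_lit 2) (nat_lit 5) (nat_lit 4) (nat_lit 4) (nat_lit 2) (nat_lit 4) (nat_lit 317) (nat_lit 279) (nat_lit 184)) (XT.lf (nat_lit 0) (nat_lit 1454737839376) (nat_lit 152) (nat_lit 753975653866) (nat_lit 0) (nat_lit 1268807705779) (nat_lit 2) (nat_lit 5) (nat_lit 4) (nat_lit 4) (nat_lit 2) (nat_lit 4) (nat_lit 318) (nat_lit 279) (nat_lit 183))))) (XT.nd (nat_lit 234) (nat_lit 0) (nat_lit 0) (XT.nd (nat_lit 78) (nat_lit 76) (nat_lit 0) (XT.lf (nat_lit 0) (nat_lit 1909747106264) (nat_lit 152) (nat_lit 344336926009) (nat_lit 0) (nat_lit 1723816936547) (nat_lit 2) (nat_lit 5) (nat_lit 4) (nat_lit 4) (nat_lit 2) (nat_lit 4) (nat_lit 319) (nat_lit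 279) (nat_lit 182)) (XT.nd (nat_lit 78) (nat_lit 0) (nat_lit 0) (XT.lf (nat_lit 0) (nat_lit 133421715753) (nat_lit 76) (nat_lit 2302794746772) (nat_lit 76) (nat_lit 2116864545646) (nat_lit 1) (nat_lit 4) (nat_lit 2) (nat_lit 5) (nat_lit 2) (nat_lit 4) (nat_lit 320) (nat_lit 279) (nat_lit 181)) (XT.lf (nat_lit 0) (nat_lit 703695978148) (nat_lit 76) (nat_lit 2347985155415) (nat_lit 76) (nat_lit 2162054926977) (nat_lit 1) (nat_lit 4) (nat_lit 2) (nat_lit 5) (nat_lit 2) (nat_lit 4) (nat_lit 321) (nat_lit 279) (nat_lit 180)))) (XT.nd (nat_lit 78) (nat_lit 0) (nat_lit 0) (XT.lf (nat_lit 0) (nat_lit 1359511228786) (nat_lit 76) (nat_lit 2399954200146) (nat_lit 76) (nat_lit 2214023947958) (nat_lit 1) (nat_lit 4) (nat_lit 2) (nat_lit 5) (nat_lit 2) (nat_lit 4) (nat_lit 322) (nat_lit 279) (nat_lit 179)) (XT.nd (nat_lit 78) (nat_lit 0) (nat_lit 0) (XT.lf (nat_lit 0) (nat_lit 2113698635613) (nat_lit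 76) (nat_lit 2459718666624) (nat_lit 76) (nat_lit 2273788393784) (nat_lit 1) (nat_lit 4) (nat_lit 2) (nat_lit 5) (nat_lit 2) (nat_lit 4) (nat_lit 323) (nat_lit 279) (nat_lit 178)) (XT.lf (nat_lit 0) (nat_lit 2981014039198) (nat_lit 76) (nat_lit 2528447859626) (nat_lit 76) (nat_lit 2342517568828) (nat_lit 1) (nat_lit 4) (nat_lit 2) (nat_lit 5) (nat_lit 2) (nat_lit 4) (nat_lit 324) (nat_lit 279) (nat_lit 177))))))) (XT.nd (nat_lit 936) (nat_lit 1520) (nat_lit 0) (XT.nd (nat_lit 468) (nat_lit 1064) (nat_lit 0) (XT.nd (nat_lit 234) (nat_lit 608) (nat_lit 0) (XT.nd (nat_lit 78) (nat_lit 0) (nat_lit 0) (XT.lf (nat_lit 0) (nat_lit 24329617555) (nat_lit 532) (nat_lit 4521283872) (nat_lit 532) (nat_lit 4521283872) (nat_lit 51) (nat_lit 3) (nat_lit 58) (nat_lit 3) (nat_lit 58) (nat_lit 5) (nat_lit 280) (nat_lit 280) (nat_lit 220)) (XT.nd (nat_lit 78) (nat_lit 0) (nat_lit 76) (XT.lf (nat_lit 76)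 (nat_lit 52241095816) (nat_lit 0) (nat_lit 1348401572) (nat_lit 532) (nat_lit 18058182754) (nat_lit 52) (nat_lit 5) (nat_lit 51) (nat_lit 3) (nat_lit 58) (nat_lit 5) (nat_lit 281) (nat_lit 280) (nat_lit 219)) (XT.lf (nat_lit 76) (nat_lit 46804958291) (nat_lit 0) (nat_lit 15371909226) (nat_lit 532) (nat_lit 14876222495) (nat_lit 53) (nat_lit 5) (nat_lit 52) (nat_lit 5) (nat_lit 59) (nat_lit 5) (nat_lit 282) (nat_lit 280) (nat_lit 218)))) (XT.nd (nat_lit 78) (nat_lit 760) (nat_lit 0) (XT.lf (nat_lit 76) (nat_lit 41709565957) (nat_lit 0) (nat_lit 33180322169) (nat_lit 532) (nat_lit 8152427800) (nat_lit 54) (nat_lit 5) (nat_lit 53) (nat_lit 5) (nat_lit 60) (nat_lit 5) (nat_lit 283) (nat_lit 280) (nat_lit 217)) (XT.nd (nat_lit 78) (nat_lit 304) (nat_lit 0) (XT.lf (nat_lit 0) (nat_lit 2704334885) (nat_lit 532) (nat_lit 52731214075) (nat_lit 76) (nat_lit 34246920697) (nat_lit 47) (nat_lit 5)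 (nat_lit 54) (nat_lit 5) (nat_lit 48) (nat_lit 5) (nat_lit 284) (nat_lit 280) (nat_lit 216)) (XT.lf (nat_lit 0) (nat_lit 18018917954) (nat_lit 380) (nat_lit 64710159223) (nat_lit 76) (nat_lit 14307673217) (nat_lit 43) (nat_lit 5) (nat_lit 48) (nat_lit 5) (nat_lit 44) (nat_lit 5) (nat_lit 285) (nat_lit 280) (nat_lit 215))))) (XT.nd (nat_lit 234) (nat_lit 456) (nat_lit 0) (XT.nd (nat_lit 78) (nat_lit 380) (nat_lit 0) (XT.lf (nat_lit 0) (nat_lit 27778544893) (nat_lit 228) (nat_lit 11625768675) (nat_lit 304) (nat_lit 65787974634) (nat_lit 40) (nat_lit 5) (nat_lit 43) (nat_lit 5) (nat_lit 44) (nat_lit 5) (nat_lit 286) (nat_lit 280) (nat_lit 214)) (XT.nd (nat_lit 78) (nat_lit 152) (nat_lit 0) (XT.lf (nat_lit 0) (nat_lit 23053240394) (nat_lit 228) (nat_lit 45116092646) (nat_lit 304) (nat_lit 46068082798) (nat_lit 37) (nat_lit 5) (nat_lit 40) (nat_lit 5) (nat_lit 41) (nat_lit 5) (nat_lit 287)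 (nat_lit 280) (nat_lit 213)) (XT.lf (nat_lit 0) (nat_lit 18486882184) (nat_lit 152) (nat_lit 86712758424) (nat_lit 228) (nat_lit 19123632952) (nat_lit 35) (nat_lit 5) (nat_lit 37) (nat_lit 5) (nat_lit 38) (nat_lit 5) (nat_lit 288) (nat_lit 280) (nat_lit 212)))) (XT.nd (nat_lit 78) (nat_lit 152) (nat_lit 0) (XT.lf (nat_lit 0) (nat_lit 13490962277) (nat_lit 228) (nat_lit 2072014074) (nat_lit 304) (nat_lit 119992701051) (nat_lit 31) (nat_lit 5) (nat_lit 34) (nat_lit 5) (nat_lit 35) (nat_lit 5) (nat_lit 289) (nat_lit 280) (nat_lit 211)) (XT.nd (nat_lit 78) (nat_lit 0) (nat_lit 0) (XT.lf (nat_lit 0) (nat_lit 6313284377) (nat_lit 152) (nat_lit 53641611398) (nat_lit 228) (nat_lit 88027539158) (nat_lit 29) (nat_lit 5) (nat_lit 31) (nat_lit 5) (nat_lit 32) (nat_lit 5) (nat_lit 290) (nat_lit 280) (nat_lit 210)) (XT.lf (nat_lit 0) (nat_lit 115735839958) (nat_lit 228) (nat_lit 1829660974) (nat_lit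 76) (nat_lit 44329288501) (nat_lit 29) (nat_lit 5) (nat_lit 32) (nat_lit 5) (nat_lit 30) (nat_lit 5) (nat_lit 291) (nat_lit 280) (nat_lit 209)))))) (XT.nd (nat_lit 468) (nat_lit 608) (nat_lit 0) (XT.nd (nat_lit 234) (nat_lit 380) (nat_lit 0) (XT.nd (nat_lit 78) (nat_lit 304) (nat_lit 0) (XT.lf (nat_lit 0) (nat_lit 7501922870) (nat_lit 228) (nat_lit 11852687744) (nat_lit 76) (nat_lit 158086636628) (nat_lit 26) (nat_lit 5) (nat_lit 29) (nat_lit 5) (nat_lit 27) (nat_lit 5) (nat_lit 292) (nat_lit 280) (nat_lit 208)) (XT.nd (nat_lit 78) (nat_lit 152) (nat_lit 0) (XT.lf (nat_lit 0) (nat_lit 73093470370) (nat_lit 228) (nat_lit 27131325426) (nat_lit 76) (nat_lit 94469791291) (nat_lit 24) (nat_lit 5) (nat_lit 27) (nat_lit 5) (nat_lit 25) (nat_lit 5) (nat_lit 293) (nat_lit 280) (nat_lit 207)) (XT.lf (nat_lit 0) (nat_lit 153800074804) (nat_lit 228) (nat_lit 46533888351) (nat_lit 76) (nat_lit 13779860159)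 (nat_lit 22) (nat_lit 5) (nat_lit 25) (nat_lit 5) (nat_lit 23) (nat_lit 4) (nat_lit 294) (nat_lit 280) (nat_lit 206)))) (XT.nd (nat_lit 78) (nat_lit 228) (nat_lit 0) (XT.lf (nat_lit 0) (nat_lit 17331472923) (nat_lit 152) (nat_lit 74215161360) (nat_lit 76) (nat_lit 144265884715) (nat_lit 20) (nat_lit 5) (nat_lit 22) (nat_lit 5) (nat_lit 21) (nat_lit 5) (nat_lit 295) (nat_lit 280) (nat_lit 205)) (XT.nd (nat_lit 78) (nat_lit 76) (nat_lit 0) (XT.lf (nat_lit 0) (nat_lit 109102009454) (nat_lit 228) (nat_lit 112364972846) (nat_lit 76) (nat_lit 38689728131) (nat_lit 18) (nat_lit 5) (nat_lit 21) (nat_lit 5) (nat_lit 19) (nat_lit 4) (nat_lit 296) (nat_lit 280) (nat_lit 204)) (XT.lf (nat_lit 0) (nat_lit 123186792998) (nat_lit 76) (nat_lit 99161776390) (nat_lit 152) (nat_lit 65187126605) (nat_lit 17) (nat_lit 5) (nat_lit 18) (nat_lit 5) (nat_lit 19) (nat_lit 4) (nat_lit 297) (nat_lit 280) (nat_lit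 203))))) (XT.nd (nat_lit 234) (nat_lit 380) (nat_lit 0) (XT.nd (nat_lit 78) (nat_lit 76) (nat_lit 0) (XT.lf (nat_lit 0) (nat_lit 38452810792) (nat_lit 152) (nat_lit 234184051175) (nat_lit 76) (nat_lit 45794412420) (nat_lit 15) (nat_lit 5) (nat_lit 17) (nat_lit 5) (nat_lit 16) (nat_lit 4) (nat_lit 298) (nat_lit 280) (nat_lit 202)) (XT.nd (nat_lit 78) (nat_lit 0) (nat_lit 0) (XT.lf (nat_lit 0) (nat_lit 22985393968) (nat_lit 76) (nat_lit 139106936275) (nat_lit 152) (nat_lit 191068334379) (nat_lit 14) (nat_lit 5) (nat_lit 15) (nat_lit 5) (nat_lit 16) (nat_lit 4) (nat_lit 299) (nat_lit 280) (nat_lit 201)) (XT.lf (nat_lit 0) (nat_lit 311619691890) (nat_lit 152) (nat_lit 60168384150) (nat_lit 0) (nat_lit 20724034727) (nat_lit 14) (nat_lit 5) (nat_lit 16) (nat_lit 4) (nat_lit 14) (nat_lit 4) (nat_lit 300) (nat_lit 280) (nat_lit 200)))) (XT.nd (nat_lit 156) (nat_lit 152) (nat_lit 0) (XT.nd (nat_lit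 78) (nat_lit 76) (nat_lit 0) (XT.lf (nat_lit 0) (nat_lit 53867242596) (nat_lit 152) (nat_lit 178852321384) (nat_lit 76) (nat_lit 204130655597) (nat_lit 12) (nat_lit 5) (nat_lit 14) (nat_lit 5) (nat_lit 13) (nat_lit 4) (nat_lit 301) (nat_lit 280) (nat_lit 199)) (XT.lf (nat_lit 0) (nat_lit 144793018011) (nat_lit 76) (nat_lit 64673166528) (nat_lit 152) (nat_lit 277771567178) (nat_lit 11) (nat_lit 5) (nat_lit 12) (nat_lit 5) (nat_lit 13) (nat_lit 4) (nat_lit 302) (nat_lit 280) (nat_lit 198))) (XT.nd (nat_lit 78) (nat_lit 152) (nat_lit 0) (XT.lf (nat_lit 0) (nat_lit 396839080940) (nat_lit 152) (nat_lit 20179639442) (nat_lit 0) (nat_lit 127489964555) (nat_lit 11) (nat_lit 5) (nat_lit 13) (nat_lit 4) (nat_lit 11) (nat_lit 4) (nat_lit 303) (nat_lit 280) (nat_lit 197)) (XT.lf (nat_lit 0) (nat_lit 12740330267) (nat_lit 152) (nat_lit 242849551382) (nat_lit 76) (nat_lit 353905420965) (nat_lit 9) (nat_lit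 5) (nat_lit 11) (nat_lit 5) (nat_lit 10) (nat_lit 4) (nat_lit 304) (nat_lit 280) (nat_lit 196))))))))
noncomputable def xc47 : XT := (XT.nd (nat_lit 39156) (nat_lit 0) (nat_lit 304) (XT.nd (nat_lit 936) (nat_lit 76) (nat_lit 0) (XT.nd (nat_lit 468) (nat_lit 228) (nat_lit 0) (XT.nd (nat_lit 234) (nat_lit 152) (nat_lit 0) (XT.nd (nat_lit 78) (nat_lit 76) (nat_lit 0) (XT.lf (nat_lit 0) (nat_lit 130986178980) (nat_lit 76) (nat_lit 61483002403) (nat_lit 152) (nat_lit 491133796637) (nat_lit 8) (nat_lit 5) (nat_lit 9) (nat_lit 5) (nat_lit 10) (nat_lit 4) (nat_lit 305) (nat_lit 280) (nat_lit 195)) (XT.nd (nat_lit 78) (nat_lit 76) (nat_lit 0) (XT.lf (nat_lit 0) (nat_lit 410300713320) (nat_lit 152) (nat_lit 196732022758) (nat_lit 0) (nat_lit 160902600598) (nat_lit 8) (nat_lit 5) (nat_lit 10) (nat_lit 4) (nat_lit 8) (nat_lit 4) (nat_lit 306) (nat_lit 280) (nat_lit 194)) (XT.lf (nat_lit 0) (nat_lit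 221936422283) (nat_lit 76) (nat_lit 445908211521) (nat_lit 76) (nat_lit 196509902791) (nat_lit 7) (nat_lit 4) (nat_lit 8) (nat_lit 5) (nat_lit 8) (nat_lit 4) (nat_lit 307) (nat_lit 280) (nat_lit 193)))) (XT.nd (nat_lit 78) (nat_lit 152) (nat_lit 0) (XT.lf (nat_lit 0) (nat_lit 715317951694) (nat_lit 76) (nat_lit 254429480471) (nat_lit 76) (nat_lit 5031001298) (nat_lit 7) (nat_lit 4) (nat_lit 8) (nat_lit 5) (nat_lit 8) (nat_lit 4) (nat_lit 308) (nat_lit 280) (nat_lit 192)) (XT.nd (nat_lit 78) (nat_lit 0) (nat_lit 0) (XT.lf (nat_lit 0) (nat_lit 185020845920) (nat_lit 76) (nat_lit 23834670090) (nat_lit 152) (nat_lit 892140456606) (nat_lit 5) (nat_lit 5) (nat_lit 6) (nat_lit 5) (nat_lit 7) (nat_lit 4) (nat_lit 309) (nat_lit 280) (nat_lit 191)) (XT.lf (nat_lit 0) (nat_lit 468089873017) (nat_lit 152) (nat_lit 539795696716) (nat_lit 0) (nat_lit 237165098701) (nat_lit 5) (nat_lit 5) (nat_lit 7)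 (nat_lit 4) (nat_lit 5) (nat_lit 4) (nat_lit 310) (nat_lit 280) (nat_lit 190))))) (XT.nd (nat_lit 234) (nat_lit 152) (nat_lit 0) (XT.nd (nat_lit 78) (nat_lit 76) (nat_lit 0) (XT.lf (nat_lit 0) (nat_lit 766868337340) (nat_lit 152) (nat_lit 107849055815) (nat_lit 0) (nat_lit 535943459256) (nat_lit 5) (nat_lit 5) (nat_lit 7) (nat_lit 4) (nat_lit 5) (nat_lit 4) (nat_lit 311) (nat_lit 280) (nat_lit 189)) (XT.nd (nat_lit 78) (nat_lit 0) (nat_lit 0) (XT.lf (nat_lit 0) (nat_lit 409367363810) (nat_lit 76) (nat_lit 710941281331) (nat_lit 76) (nat_lit 480016313015) (nat_lit 4) (nat_lit 4) (nat_lit 5) (nat_lit 5) (nat_lit 5) (nat_lit 4) (nat_lit 312) (nat_lit 280) (nat_lit 188)) (XT.lf (nat_lit 0) (nat_lit 1010696863135) (nat_lit 76) (nat_lit 519207843438) (nat_lit 76) (nat_lit 288282796659) (nat_lit 4) (nat_lit 4) (nat_lit 5) (nat_lit 5) (nat_lit 5) (nat_lit 4) (nat_lit 313) (nat_lit 280) (nat_lit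 187)))) (XT.nd (nat_lit 78) (nat_lit 152) (nat_lit 0) (XT.lf (nat_lit 0) (nat_lit 1702225444383) (nat_lit 76) (nat_lit 298714557393) (nat_lit 76) (nat_lit 67789442385) (nat_lit 4) (nat_lit 4) (nat_lit 5) (nat_lit 5) (nat_lit 5) (nat_lit 4) (nat_lit 314) (nat_lit 280) (nat_lit 186)) (XT.nd (nat_lit 78) (nat_lit 0) (nat_lit 0) (XT.lf (nat_lit 0) (nat_lit 143332435662) (nat_lit 76) (nat_lit 36599107606) (nat_lit 152) (nat_lit 2176287936587) (nat_lit 2) (nat_lit 5) (nat_lit 3) (nat_lit 5) (nat_lit 4) (nat_lit 4) (nat_lit 315) (nat_lit 280) (nat_lit 185)) (XT.lf (nat_lit 0) (nat_lit 478227540694) (nat_lit 152) (nat_lit 1942662271581) (nat_lit 0) (nat_lit 264407887058) (nat_lit 2) (nat_lit 5) (nat_lit 4) (nat_lit 4) (nat_lit 2) (nat_lit 4) (nat_lit 316) (nat_lit 280) (nat_lit 184)))))) (XT.nd (nat_lit 468) (nat_lit 0) (nat_lit 0) (XT.nd (nat_lit 234) (nat_lit 76) (nat_lit 0) (XT.nd (nat_lit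 78) (nat_lit 0) (nat_lit 0) (XT.lf (nat_lit 0) (nat_lit 822280051428) (nat_lit 152) (nat_lit 1632916274991) (nat_lit 0) (nat_lit 608460356253) (nat_lit 2) (nat_lit 5) (nat_lit 4) (nat_lit 4) (nat_lit 2) (nat_lit 4) (nat_lit 317) (nat_lit 280) (nat_lit 183)) (XT.nd (nat_lit 78) (nat_lit 0) (nat_lit 0) (XT.lf (nat_lit 0) (nat_lit 1217940328218) (nat_lit 152) (nat_lit 1276708597246) (nat_lit 0) (nat_lit 1004120596923) (nat_lit 2) (nat_lit 5) (nat_lit 4) (nat_lit 4) (nat_lit 2) (nat_lit 4) (nat_lit 318) (nat_lit 280) (nat_lit 182)) (XT.lf (nat_lit 0) (nat_lit 1672949550394) (nat_lit 152) (nat_lit 867069957694) (nat_lit 0) (nat_lit 1459129787690) (nat_lit 2) (nat_lit 5) (nat_lit 4) (nat_lit 4) (nat_lit 2) (nat_lit 4) (nat_lit 319) (nat_lit 280) (nat_lit 181)))) (XT.nd (nat_lit 78) (nat_lit 76) (nat_lit 0) (XT.lf (nat_lit 0) (nat_lit 2196210072301) (nat_lit 152) (nat_lit 395985687301) (nat_lit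 0) (nat_lit 1982390282285) (nat_lit 2) (nat_lit 5) (nat_lit 4) (nat_lit 4) (nat_lit 2) (nat_lit 4) (nat_lit 320) (nat_lit 280) (nat_lit 180)) (XT.nd (nat_lit 78) (nat_lit 0) (nat_lit 0) (XT.lf (nat_lit 0) (nat_lit 153436600260) (nat_lit 76) (nat_lit 2648213153470) (nat_lit 76) (nat_lit 2434393339704) (nat_lit 1) (nat_lit 4) (nat_lit 2) (nat_lit 5) (nat_lit 2) (nat_lit 4) (nat_lit 321) (nat_lit 280) (nat_lit 179)) (XT.lf (nat_lit 0) (nat_lit 809251789779) (nat_lit 76) (nat_lit 2700182228451) (nat_lit 76) (nat_lit 2486362394033) (nat_lit 1) (nat_lit 4) (nat_lit 2) (nat_lit 5) (nat_lit 2) (nat_lit 4) (nat_lit 322) (nat_lit 280) (nat_lit 178))))) (XT.nd (nat_lit 37440) (nat_lit 0) (nat_lit 3496) (XT.nd (nat_lit 78) (nat_lit 0) (nat_lit 0) (XT.lf (nat_lit 0) (nat_lit 1563439143459) (nat_lit 76) (nat_lit 2759946721232) (nat_lit 76) (nat_lit 2546126868856) (nat_lit 1) (nat_lit 4) (nat_lit 2)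 (nat_lit 5) (nat_lit 2) (nat_lit 4) (nat_lit 323) (nat_lit 280) (nat_lit 177)) (XT.nd (nat_lit 37284) (nat_lit 0) (nat_lit 3800) (XT.lf (nat_lit 0) (nat_lit 2430754500829) (nat_lit 76) (nat_lit 2828675937107) (nat_lit 76) (nat_lit 2614856069116) (nat_lit 1) (nat_lit 4) (nat_lit 2) (nat_lit 5) (nat_lit 2) (nat_lit 4) (nat_lit 324) (nat_lit 280) (nat_lit 176)) (XT.lf (nat_lit 0) (nat_lit 28002469040) (nat_lit 532) (nat_lit 5186810423) (nat_lit 532) (nat_lit 5186810423) (nat_lit 51) (nat_lit 3) (nat_lit 58) (nat_lit 3) (nat_lit 58) (nat_lit 5) (nat_lit 281) (nat_lit 281) (nat_lit 218)))) (XT.nd (nat_lit 156) (nat_lit 304) (nat_lit 0) (XT.nd (nat_lit 78) (nat_lit 0) (nat_lit 76) (XT.lf (nat_lit 76) (nat_lit 60100448016) (nat_lit 0) (nat_lit 1568742694) (nat_lit 532) (nat_lit 20722252128) (nat_lit 52) (nat_lit 5) (nat_lit 51) (nat_lit 3) (nat_lit 58) (nat_lit 5) (nat_lit 282) (nat_lit 281)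 (nat_lit 217)) (XT.lf (nat_lit 76) (nat_lit 53850427603) (nat_lit 0) (nat_lit 17689072404) (nat_lit 532) (nat_lit 17068588947) (nat_lit 53) (nat_lit 5) (nat_lit 52) (nat_lit 5) (nat_lit 59) (nat_lit 5) (nat_lit 283) (nat_lit 281) (nat_lit 216))) (XT.nd (nat_lit 78) (nat_lit 456) (nat_lit 0) (XT.lf (nat_lit 76) (nat_lit 47991597600) (nat_lit 0) (nat_lit 38163544780) (nat_lit 532) (nat_lit 9340912840) (nat_lit 54) (nat_lit 5) (nat_lit 53) (nat_lit 5) (nat_lit 60) (nat_lit 5) (nat_lit 284) (nat_lit 281) (nat_lit 215)) (XT.lf (nat_lit 0) (nat_lit 3138892465) (nat_lit 532) (nat_lit 60613367138) (nat_lit 76) (nat_lit 39380214444) (nat_lit 47) (nat_lit 5) (nat_lit 54) (nat_lit 5) (nat_lit 48) (nat_lit 5) (nat_lit 285) (nat_lit 281) (nat_lit 214))))))) (XT.nd (nat_lit 936) (nat_lit 988) (nat_lit 0) (XT.nd (nat_lit 468) (nat_lit 836) (nat_lit 0) (XT.nd (nat_lit 234) (nat_lit 608) (nat_lit 0) (XT.nd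 (nat_lit 78) (nat_lit 456) (nat_lit 0) (XT.lf (nat_lit 0) (nat_lit 20747485420) (nat_lit 380) (nat_lit 74389365248) (nat_lit 76) (nat_lit 16453307408) (nat_lit 43) (nat_lit 5) (nat_lit 48) (nat_lit 5) (nat_lit 44) (nat_lit 5) (nat_lit 286) (nat_lit 281) (nat_lit 213)) (XT.nd (nat_lit 78) (nat_lit 228) (nat_lit 0) (XT.lf (nat_lit 0) (nat_lit 31970332166) (nat_lit 228) (nat_lit 13367603537) (nat_lit 304) (nat_lit 75631317290) (nat_lit 40) (nat_lit 5) (nat_lit 43) (nat_lit 5) (nat_lit 44) (nat_lit 5) (nat_lit 287) (nat_lit 281) (nat_lit 212)) (XT.lf (nat_lit 0) (nat_lit 26535790137) (nat_lit 228) (nat_lit 51879554426) (nat_lit 304) (nat_lit 52955999567) (nat_lit 37) (nat_lit 5) (nat_lit 40) (nat_lit 5) (nat_lit 41) (nat_lit 5) (nat_lit 288) (nat_lit 281) (nat_lit 211)))) (XT.nd (nat_lit 78) (nat_lit 456) (nat_lit 0) (XT.lf (nat_lit 0) (nat_lit 21283853534) (nat_lit 152) (nat_lit 99714314652)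 (nat_lit 228) (nat_lit 21972079317) (nat_lit 35) (nat_lit 5) (nat_lit 37) (nat_lit 5) (nat_lit 38) (nat_lit 5) (nat_lit 289) (nat_lit 281) (nat_lit 210)) (XT.nd (nat_lit 78) (nat_lit 152) (nat_lit 0) (XT.lf (nat_lit 0) (nat_lit 15537465542) (nat_lit 228) (nat_lit 2377109772) (nat_lit 304) (nat_lit 137973056882) (nat_lit 31) (nat_lit 5) (nat_lit 34) (nat_lit 5) (nat_lit 35) (nat_lit 5) (nat_lit 290) (nat_lit 281) (nat_lit 209)) (XT.lf (nat_lit 0) (nat_lit 7282354024) (nat_lit 152) (nat_lit 61681341635) (nat_lit 228) (nat_lit 101214837869) (nat_lit 29) (nat_lit 5) (nat_lit 31) (nat_lit 5) (nat_lit 32) (nat_lit 5) (nat_lit 291) (nat_lit 281) (nat_lit 208))))) (XT.nd (nat_lit 234) (nat_lit 456) (nat_lit 0) (XT.nd (nat_lit 78) (nat_lit 380) (nat_lit 0) (XT.lf (nat_lit 0) (nat_lit 133109887359) (nat_lit 228) (nat_lit 2083947482) (nat_lit 76) (nat_lit 50984060683) (nat_lit 29) (nat_lit 5) (nat_lit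 32) (nat_lit 5) (nat_lit 30) (nat_lit 5) (nat_lit 292) (nat_lit 281) (nat_lit 207)) (XT.nd (nat_lit 78) (nat_lit 152) (nat_lit 0) (XT.lf (nat_lit 0) (nat_lit 8639879035) (nat_lit 228) (nat_lit 13611452888) (nat_lit 76) (nat_lit 181805074001) (nat_lit 26) (nat_lit 5) (nat_lit 29) (nat_lit 5) (nat_lit 27) (nat_lit 5) (nat_lit 293) (nat_lit 281) (nat_lit 206)) (XT.lf (nat_lit 0) (nat_lit 84069073914) (nat_lit 228) (nat_lit 31182724447) (nat_lit 76) (nat_lit 108646037119) (nat_lit 24) (nat_lit 5) (nat_lit 27) (nat_lit 5) (nat_lit 25) (nat_lit 5) (nat_lit 294) (nat_lit 281) (nat_lit 205)))) (XT.nd (nat_lit 78) (nat_lit 304) (nat_lit 0) (XT.lf (nat_lit 0) (nat_lit 176880711978) (nat_lit 228) (nat_lit 53496522396) (nat_lit 76) (nat_lit 15852801029) (nat_lit 22) (nat_lit 5) (nat_lit 25) (nat_lit 5) (nat_lit 23) (nat_lit 4) (nat_lit 295) (nat_lit 281) (nat_lit 204)) (XT.nd (nat_lit 78) (nat_lit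 152) (nat_lit 0) (XT.lf (nat_lit 0) (nat_lit 19941077290) (nat_lit 152) (nat_lit 85330933778) (nat_lit 76) (nat_lit 165911585982) (nat_lit 20) (nat_lit 5) (nat_lit 22) (nat_lit 5) (nat_lit 21) (nat_lit 5) (nat_lit 296) (nat_lit 281) (nat_lit 203)) (XT.lf (nat_lit 0) (nat_lit 125476416280) (nat_lit 228) (nat_lit 129204037087) (nat_lit 76) (nat_lit 44499027262) (nat_lit 18) (nat_lit 5) (nat_lit 21) (nat_lit 5) (nat_lit 19) (nat_lit 4) (nat_lit 297) (nat_lit 281) (nat_lit 202)))))) (XT.nd (nat_lit 468) (nat_lit 456) (nat_lit 0) (XT.nd (nat_lit 234) (nat_lit 228) (nat_lit 0) (XT.nd (nat_lit 78) (nat_lit 228) (nat_lit 0) (XT.lf (nat_lit 0) (nat_lit 141679166257) (nat_lit 76) (nat_lit 114029951507) (nat_lit 152) (nat_lit 74956264692) (nat_lit 17) (nat_lit 5) (nat_lit 18) (nat_lit 5) (nat_lit 19) (nat_lit 4) (nat_lit 298) (nat_lit 281) (nat_lit 201)) (XT.nd (nat_lit 78) (nat_lit 76) (nat_lit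 0) (XT.lf (nat_lit 0) (nat_lit 44228576609) (nat_lit 152) (nat_lit 269297623645) (nat_lit 76) (nat_lit 52669132201) (nat_lit 15) (nat_lit 5) (nat_lit 17) (nat_lit 5) (nat_lit 16) (nat_lit 4) (nat_lit 299) (nat_lit 281) (nat_lit 200)) (XT.lf (nat_lit 0) (nat_lit 26446050259) (nat_lit 76) (nat_lit 159967259539) (nat_lit 152) (nat_lit 219720879287) (nat_lit 14) (nat_lit 5) (nat_lit 15) (nat_lit 5) (nat_lit 16) (nat_lit 4) (nat_lit 300) (nat_lit 281) (nat_lit 199)))) (XT.nd (nat_lit 78) (nat_lit 228) (nat_lit 0) (XT.lf (nat_lit 0) (nat_lit 358368965253) (nat_lit 152) (nat_lit 69182089660) (nat_lit 0) (nat_lit 23837362703) (nat_lit 14) (nat_lit 5) (nat_lit 16) (nat_lit 4) (nat_lit 14) (nat_lit 4) (nat_lit 301) (nat_lit 281) (nat_lit 198)) (XT.nd (nat_lit 78) (nat_lit 76) (nat_lit 0) (XT.lf (nat_lit 0) (nat_lit 61953231394) (nat_lit 152) (nat_lit 205669281115) (nat_lit 76) (nat_lit 234754764431)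 (nat_lit 12) (nat_lit 5) (nat_lit 14) (nat_lit 5) (nat_lit 13) (nat_lit 4) (nat_lit 302) (nat_lit 281) (nat_lit 197)) (XT.lf (nat_lit 0) (nat_lit 166521937533) (nat_lit 76) (nat_lit 74369546917) (nat_lit 152) (nat_lit 319431497305) (nat_lit 11) (nat_lit 5) (nat_lit 12) (nat_lit 5) (nat_lit 13) (nat_lit 4) (nat_lit 303) (nat_lit 281) (nat_lit 196))))) (XT.nd (nat_lit 234) (nat_lit 228) (nat_lit 0) (XT.nd (nat_lit 78) (nat_lit 228) (nat_lit 0) (XT.lf (nat_lit 0) (nat_lit 456369710673) (nat_lit 152) (nat_lit 23197638367) (nat_lit 0) (nat_lit 146617254673) (nat_lit 11) (nat_lit 5) (nat_lit 13) (nat_lit 4) (nat_lit 11) (nat_lit 4) (nat_lit 304) (nat_lit 281) (nat_lit 195)) (XT.nd (nat_lit 78) (nat_lit 76) (nat_lit 0) (XT.lf (nat_lit 0) (nat_lit 14655837410) (nat_lit 152) (nat_lit 279268557629) (nat_lit 76) (nat_lit 406994844300) (nat_lit 9) (nat_lit 5) (nat_lit 11) (nat_lit 5) (nat_lit 10)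 (nat_lit 4) (nat_lit 305) (nat_lit 281) (nat_lit 194)) (XT.lf (nat_lit 0) (nat_lit 150641819030) (nat_lit 76) (nat_lit 70701801240) (nat_lit 152) (nat_lit 564799477728) (nat_lit 8) (nat_lit 5) (nat_lit 9) (nat_lit 5) (nat_lit 10) (nat_lit 4) (nat_lit 306) (nat_lit 281) (nat_lit 193)))) (XT.nd (nat_lit 156) (nat_lit 152) (nat_lit 0) (XT.nd (nat_lit 78) (nat_lit 76) (nat_lit 0) (XT.lf (nat_lit 0) (nat_lit 471849428578) (nat_lit 152) (nat_lit 226234911295) (nat_lit 0) (nat_lit 185041007087) (nat_lit 8) (nat_lit 5) (nat_lit 10) (nat_lit 4) (nat_lit 8) (nat_lit 4) (nat_lit 307) (nat_lit 281) (nat_lit 192)) (XT.lf (nat_lit 0) (nat_lit 255233215193) (nat_lit 76) (nat_lit 512791403526) (nat_lit 76) (nat_lit 225982833824) (nat_lit 7) (nat_lit 4) (nat_lit 8) (nat_lit 5) (nat_lit 8) (nat_lit 4) (nat_lit 308) (nat_lit 281) (nat_lit 191))) (XT.nd (nat_lit 78) (nat_lit 152) (nat_lit 0) (XT.lf (nat_lit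 0) (nat_lit 822621148419) (nat_lit 76) (nat_lit 292591259304) (nat_lit 76) (nat_lit 5782560724) (nat_lit 7) (nat_lit 4) (nat_lit 8) (nat_lit 5) (nat_lit 8) (nat_lit 4) (nat_lit 309) (nat_lit 281) (nat_lit 190)) (XT.lf (nat_lit 0) (nat_lit 212779153419) (nat_lit 76) (nat_lit 27407367766) (nat_lit 152) (nat_lit 1025958632154) (nat_lit 5) (nat_lit 5) (nat_lit 6) (nat_lit 5) (nat_lit 7) (nat_lit 4) (nat_lit 310) (nat_lit 281) (nat_lit 189))))))))
noncomputable def xc48 : XT := (XT.nd (nat_lit 39156) (nat_lit 0) (nat_lit 228) (XT.nd (nat_lit 936) (nat_lit 0) (nat_lit 0) (XT.nd (nat_lit 468) (nat_lit 76) (nat_lit 0) (XT.nd (nat_lit 234) (nat_lit 152) (nat_lit 0) (XT.nd (nat_lit 78) (nat_lit 76) (nat_lit 0) (XT.lf (nat_lit 0) (nat_lit 538305734811) (nat_lit 152) (nat_lit 620760411583) (nat_lit 0) (nat_lit 272741931015) (nat_lit 5) (nat_lit 5) (nat_lit 7) (nat_lit 4) (nat_lit 5) (nat_lit 4) (nat_lit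 311) (nat_lit 281) (nat_lit 188)) (XT.nd (nat_lit 78) (nat_lit 76) (nat_lit 0) (XT.lf (nat_lit 0) (nat_lit 881900658237) (nat_lit 152) (nat_lit 124022379717) (nat_lit 0) (nat_lit 616336775979) (nat_lit 5) (nat_lit 5) (nat_lit 7) (nat_lit 4) (nat_lit 5) (nat_lit 4) (nat_lit 312) (nat_lit 281) (nat_lit 187)) (XT.lf (nat_lit 0) (nat_lit 470776161354) (nat_lit 76) (nat_lit 817580669632) (nat_lit 76) (nat_lit 552016719145) (nat_lit 4) (nat_lit 4) (nat_lit 5) (nat_lit 5) (nat_lit 5) (nat_lit 4) (nat_lit 313) (nat_lit 281) (nat_lit 186)))) (XT.nd (nat_lit 78) (nat_lit 152) (nat_lit 0) (XT.lf (nat_lit 0) (nat_lit 1162304603886) (nat_lit 76) (nat_lit 597087451346) (nat_lit 76) (nat_lit 331523441529) (nat_lit 4) (nat_lit 4) (nat_lit 5) (nat_lit 5) (nat_lit 5) (nat_lit 4) (nat_lit 314) (nat_lit 281) (nat_lit 185)) (XT.nd (nat_lit 78) (nat_lit 152) (nat_lit 0) (XT.lf (nat_lit 0) (nat_lit 1957562053458)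 (nat_lit 76) (nat_lit 343520376995) (nat_lit 76) (nat_lit 77956315588) (nat_lit 4) (nat_lit 4) (nat_lit 5) (nat_lit 5) (nat_lit 5) (nat_lit 4) (nat_lit 315) (nat_lit 281) (nat_lit 184)) (XT.lf (nat_lit 0) (nat_lit 164834928125) (nat_lit 76) (nat_lit 42087684563) (nat_lit 152) (nat_lit 2502729681731) (nat_lit 2) (nat_lit 5) (nat_lit 3) (nat_lit 5) (nat_lit 4) (nat_lit 4) (nat_lit 316) (nat_lit 281) (nat_lit 183))))) (XT.nd (nat_lit 234) (nat_lit 76) (nat_lit 0) (XT.nd (nat_lit 78) (nat_lit 0) (nat_lit 0) (XT.lf (nat_lit 0) (nat_lit 549962862177) (nat_lit 152) (nat_lit 2234059261429) (nat_lit 0) (nat_lit 304070135067) (nat_lit 2) (nat_lit 5) (nat_lit 4) (nat_lit 4) (nat_lit 2) (nat_lit 4) (nat_lit 317) (nat_lit 281) (nat_lit 182)) (XT.nd (nat_lit 78) (nat_lit 0) (nat_lit 0) (XT.lf (nat_lit 0) (nat_lit 945623094254) (nat_lit 152) (nat_lit 1877851671989) (nat_lit 0) (nat_lit 699730335735)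 (nat_lit 2) (nat_lit 5) (nat_lit 4) (nat_lit 4) (nat_lit 2) (nat_lit 4) (nat_lit 318) (nat_lit 281) (nat_lit 181)) (XT.lf (nat_lit 0) (nat_lit 1400632277548) (nat_lit 152) (nat_lit 1468213109223) (nat_lit 0) (nat_lit 1154739491718) (nat_lit 2) (nat_lit 5) (nat_lit 4) (nat_lit 4) (nat_lit 2) (nat_lit 4) (nat_lit 319) (nat_lit 281) (nat_lit 180)))) (XT.nd (nat_lit 78) (nat_lit 76) (nat_lit 0) (XT.lf (nat_lit 0) (nat_lit 1923892765646) (nat_lit 152) (nat_lit 997128905601) (nat_lit 0) (nat_lit 1677999956066) (nat_lit 2) (nat_lit 5) (nat_lit 4) (nat_lit 4) (nat_lit 2) (nat_lit 4) (nat_lit 320) (nat_lit 281) (nat_lit 179)) (XT.nd (nat_lit 78) (nat_lit 76) (nat_lit 0) (XT.lf (nat_lit 0) (nat_lit 2525642263749) (nat_lit 152) (nat_lit 455382196267) (nat_lit 0) (nat_lit 2279749433517) (nat_lit 2) (nat_lit 5) (nat_lit 4) (nat_lit 4) (nat_lit 2) (nat_lit 4) (nat_lit 321) (nat_lit 281) (nat_lit 178))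 (XT.lf (nat_lit 0) (nat_lit 176453320654) (nat_lit 76) (nat_lit 3045444517554) (nat_lit 76) (nat_lit 2799551669364) (nat_lit 1) (nat_lit 4) (nat_lit 2) (nat_lit 5) (nat_lit 2) (nat_lit 4) (nat_lit 322) (nat_lit 281) (nat_lit 177)))))) (XT.nd (nat_lit 37752) (nat_lit 0) (nat_lit 2280) (XT.nd (nat_lit 37518) (nat_lit 0) (nat_lit 3800) (XT.nd (nat_lit 78) (nat_lit 0) (nat_lit 0) (XT.lf (nat_lit 0) (nat_lit 930640628119) (nat_lit 76) (nat_lit 3105209033209) (nat_lit 76) (nat_lit 2859316169402) (nat_lit 1) (nat_lit 4) (nat_lit 2) (nat_lit 5) (nat_lit 2) (nat_lit 4) (nat_lit 323) (nat_lit 281) (nat_lit 176)) (XT.nd (nat_lit 37362) (nat_lit 0) (nat_lit 3800) (XT.lf (nat_lit 0) (nat_lit 1797955945302) (nat_lit 76) (nat_lit 3173938268974) (nat_lit 76) (nat_lit 2928045391588) (nat_lit 1) (nat_lit 4) (nat_lit 2) (nat_lit 5) (nat_lit 2) (nat_lit 4) (nat_lit 324) (nat_lit 281) (nat_lit 175)) (XT.lf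 (nat_lit 0) (nat_lit 32220539851) (nat_lit 532) (nat_lit 5955254647) (nat_lit 532) (nat_lit 5955254647) (nat_lit 51) (nat_lit 3) (nat_lit 58) (nat_lit 3) (nat_lit 58) (nat_lit 5) (nat_lit 282) (nat_lit 282) (nat_lit 216)))) (XT.nd (nat_lit 78) (nat_lit 0) (nat_lit 76) (XT.lf (nat_lit 76) (nat_lit 69133048548) (nat_lit 0) (nat_lit 1817725845) (nat_lit 532) (nat_lit 23796822054) (nat_lit 52) (nat_lit 5) (nat_lit 51) (nat_lit 3) (nat_lit 58) (nat_lit 5) (nat_lit 283) (nat_lit 282) (nat_lit 215)) (XT.nd (nat_lit 78) (nat_lit 0) (nat_lit 76) (XT.lf (nat_lit 76) (nat_lit 61946687825) (nat_lit 0) (nat_lit 20351035755) (nat_lit 532) (nat_lit 19599337082) (nat_lit 53) (nat_lit 5) (nat_lit 52) (nat_lit 5) (nat_lit 59) (nat_lit 5) (nat_lit 284) (nat_lit 282) (nat_lit 214)) (XT.lf (nat_lit 76) (nat_lit 55209692061) (nat_lit 0) (nat_lit 43892745145) (nat_lit 532) (nat_lit 10716054204) (nat_lit 54)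 (nat_lit 5) (nat_lit 53) (nat_lit 5) (nat_lit 60) (nat_lit 5) (nat_lit 285) (nat_lit 282) (nat_lit 213))))) (XT.nd (nat_lit 234) (nat_lit 684) (nat_lit 0) (XT.nd (nat_lit 78) (nat_lit 532) (nat_lit 0) (XT.lf (nat_lit 0) (nat_lit 3631584442) (nat_lit 532) (nat_lit 69684556294) (nat_lit 76) (nat_lit 45284415338) (nat_lit 47) (nat_lit 5) (nat_lit 54) (nat_lit 5) (nat_lit 48) (nat_lit 5) (nat_lit 286) (nat_lit 282) (nat_lit 212)) (XT.nd (nat_lit 78) (nat_lit 228) (nat_lit 0) (XT.lf (nat_lit 0) (nat_lit 23879063638) (nat_lit 380) (nat_lit 85527113808) (nat_lit 76) (nat_lit 18920912750) (nat_lit 43) (nat_lit 5) (nat_lit 48) (nat_lit 5) (nat_lit 44) (nat_lit 5) (nat_lit 287) (nat_lit 282) (nat_lit 211)) (XT.lf (nat_lit 0) (nat_lit 36784789770) (nat_lit 228) (nat_lit 15371208764) (nat_lit 304) (nat_lit 86957222038) (nat_lit 40) (nat_lit 5) (nat_lit 43) (nat_lit 5) (nat_lit 44) (nat_lit 5) (nat_lit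 288) (nat_lit 282) (nat_lit 210)))) (XT.nd (nat_lit 78) (nat_lit 456) (nat_lit 0) (XT.lf (nat_lit 0) (nat_lit 30534732333) (nat_lit 228) (nat_lit 59658499221) (nat_lit 304) (nat_lit 60882540787) (nat_lit 37) (nat_lit 5) (nat_lit 40) (nat_lit 5) (nat_lit 41) (nat_lit 5) (nat_lit 289) (nat_lit 282) (nat_lit 209)) (XT.nd (nat_lit 78) (nat_lit 304) (nat_lit 0) (XT.lf (nat_lit 0) (nat_lit 24494532904) (nat_lit 152) (nat_lit 114667410783) (nat_lit 228) (nat_lit 25252693802) (nat_lit 35) (nat_lit 5) (nat_lit 37) (nat_lit 5) (nat_lit 38) (nat_lit 5) (nat_lit 290) (nat_lit 282) (nat_lit 208)) (XT.lf (nat_lit 0) (nat_lit 17885370004) (nat_lit 228) (nat_lit 2729361369) (nat_lit 304) (nat_lit 158654989458) (nat_lit 31) (nat_lit 5) (nat_lit 34) (nat_lit 5) (nat_lit 35) (nat_lit 5) (nat_lit 291) (nat_lit 282) (nat_lit 207))))))) (XT.nd (nat_lit 936) (nat_lit 608) (nat_lit 0) (XT.nd (nat_lit 468) (nat_lit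 608) (nat_lit 0) (XT.nd (nat_lit 234) (nat_lit 456) (nat_lit 0) (XT.nd (nat_lit 78) (nat_lit 228) (nat_lit 0) (XT.lf (nat_lit 0) (nat_lit 8391400503) (nat_lit 152) (nat_lit 70928619272) (nat_lit 228) (nat_lit 116384336016) (nat_lit 29) (nat_lit 5) (nat_lit 31) (nat_lit 5) (nat_lit 32) (nat_lit 5) (nat_lit 292) (nat_lit 282) (nat_lit 206)) (XT.nd (nat_lit 78) (nat_lit 228) (nat_lit 0) (XT.lf (nat_lit 0) (nat_lit 153086708011) (nat_lit 228) (nat_lit 2381293752) (nat_lit 76) (nat_lit 58635737011) (nat_lit 29) (nat_lit 5) (nat_lit 32) (nat_lit 5) (nat_lit 30) (nat_lit 5) (nat_lit 293) (nat_lit 282) (nat_lit 205)) (XT.lf (nat_lit 0) (nat_lit 9945439518) (nat_lit 228) (nat_lit 15638699730) (nat_lit 76) (nat_lit 209079949943) (nat_lit 26) (nat_lit 5) (nat_lit 29) (nat_lit 5) (nat_lit 27) (nat_lit 5) (nat_lit 294) (nat_lit 282) (nat_lit 204)))) (XT.nd (nat_lit 78) (nat_lit 304) (nat_lit 0) (XT.lf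 (nat_lit 0) (nat_lit 96688193404) (nat_lit 228) (nat_lit 35846295840) (nat_lit 76) (nat_lit 124947311031) (nat_lit 24) (nat_lit 5) (nat_lit 27) (nat_lit 5) (nat_lit 25) (nat_lit 5) (nat_lit 295) (nat_lit 282) (nat_lit 203)) (XT.nd (nat_lit 78) (nat_lit 152) (nat_lit 0) (XT.lf (nat_lit 0) (nat_lit 203420853523) (nat_lit 228) (nat_lit 61507806647) (nat_lit 76) (nat_lit 18235229196) (nat_lit 22) (nat_lit 5) (nat_lit 25) (nat_lit 5) (nat_lit 23) (nat_lit 4) (nat_lit 296) (nat_lit 282) (nat_lit 202)) (XT.lf (nat_lit 0) (nat_lit 22939712177) (nat_lit 152) (nat_lit 98118096123) (nat_lit 76) (nat_lit 190802723546) (nat_lit 20) (nat_lit 5) (nat_lit 22) (nat_lit 5) (nat_lit 21) (nat_lit 5) (nat_lit 297) (nat_lit 282) (nat_lit 201))))) (XT.nd (nat_lit 234) (nat_lit 228) (nat_lit 0) (XT.nd (nat_lit 78) (nat_lit 228) (nat_lit 0) (XT.lf (nat_lit 0) (nat_lit 144304763719) (nat_lit 228) (nat_lit 148572785043)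 (nat_lit 76) (nat_lit 51178297164) (nat_lit 18) (nat_lit 5) (nat_lit 21) (nat_lit 5) (nat_lit 19) (nat_lit 4) (nat_lit 298) (nat_lit 282) (nat_lit 200)) (XT.nd (nat_lit 78) (nat_lit 152) (nat_lit 0) (XT.lf (nat_lit 0) (nat_lit 162941895116) (nat_lit 76) (nat_lit 131129838303) (nat_lit 152) (nat_lit 86192951350) (nat_lit 17) (nat_lit 5) (nat_lit 18) (nat_lit 5) (nat_lit 19) (nat_lit 4) (nat_lit 299) (nat_lit 282) (nat_lit 199)) (XT.lf (nat_lit 0) (nat_lit 50868794442) (nat_lit 152) (nat_lit 309681654560) (nat_lit 76) (nat_lit 60573704615) (nat_lit 15) (nat_lit 5) (nat_lit 17) (nat_lit 5) (nat_lit 16) (nat_lit 4) (nat_lit 300) (nat_lit 282) (nat_lit 198)))) (XT.nd (nat_lit 78) (nat_lit 152) (nat_lit 0) (XT.lf (nat_lit 0) (nat_lit 30422672124) (nat_lit 76) (nat_lit 183958025461) (nat_lit 152) (nat_lit 252673184904) (nat_lit 14) (nat_lit 5) (nat_lit 15) (nat_lit 5) (nat_lit 16) (nat_lit 4)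 (nat_lit 301) (nat_lit 282) (nat_lit 197)) (XT.nd (nat_lit 78) (nat_lit 152) (nat_lit 0) (XT.lf (nat_lit 0) (nat_lit 412129088551) (nat_lit 152) (nat_lit 79550668052) (nat_lit 0) (nat_lit 27416538198) (nat_lit 14) (nat_lit 5) (nat_lit 16) (nat_lit 4) (nat_lit 14) (nat_lit 4) (nat_lit 302) (nat_lit 282) (nat_lit 196)) (XT.lf (nat_lit 0) (nat_lit 71250679171) (nat_lit 152) (nat_lit 236511440031) (nat_lit 76) (nat_lit 269971389677) (nat_lit 12) (nat_lit 5) (nat_lit 14) (nat_lit 5) (nat_lit 13) (nat_lit 4) (nat_lit 303) (nat_lit 282) (nat_lit 195)))))) (XT.nd (nat_lit 468) (nat_lit 228) (nat_lit 0) (XT.nd (nat_lit 234) (nat_lit 152) (nat_lit 0) (XT.nd (nat_lit 78) (nat_lit 152) (nat_lit 0) (XT.lf (nat_lit 0) (nat_lit 191507764511) (nat_lit 76) (nat_lit 85521504785) (nat_lit 152) (nat_lit 367341832525) (nat_lit 11) (nat_lit 5) (nat_lit 12) (nat_lit 5) (nat_lit 13) (nat_lit 4) (nat_lit 304)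 (nat_lit 282) (nat_lit 194)) (XT.nd (nat_lit 78) (nat_lit 152) (nat_lit 0) (XT.lf (nat_lit 0) (nat_lit 524828772259) (nat_lit 152) (nat_lit 26670518912) (nat_lit 0) (nat_lit 168612712767) (nat_lit 11) (nat_lit 5) (nat_lit 13) (nat_lit 4) (nat_lit 11) (nat_lit 4) (nat_lit 305) (nat_lit 282) (nat_lit 193)) (XT.lf (nat_lit 0) (nat_lit 16857583611) (nat_lit 152) (nat_lit 321152469658) (nat_lit 76) (nat_lit 468046800767) (nat_lit 9) (nat_lit 5) (nat_lit 11) (nat_lit 5) (nat_lit 10) (nat_lit 4) (nat_lit 306) (nat_lit 282) (nat_lit 192)))) (XT.nd (nat_lit 78) (nat_lit 76) (nat_lit 0) (XT.lf (nat_lit 0) (nat_lit 173243924174) (nat_lit 76) (nat_lit 81304310349) (nat_lit 152) (nat_lit 649516081123) (nat_lit 8) (nat_lit 5) (nat_lit 9) (nat_lit 5) (nat_lit 10) (nat_lit 4) (nat_lit 307) (nat_lit 282) (nat_lit 191)) (XT.nd (nat_lit 78) (nat_lit 76) (nat_lit 0) (XT.lf (nat_lit 0) (nat_lit 542629571227)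 (nat_lit 152) (nat_lit 260164919349) (nat_lit 0) (nat_lit 212799438981) (nat_lit 8) (nat_lit 5) (nat_lit 10) (nat_lit 4) (nat_lit 8) (nat_lit 4) (nat_lit 308) (nat_lit 282) (nat_lit 190)) (XT.lf (nat_lit 0) (nat_lit 293522983534) (nat_lit 76) (nat_lit 589707815587) (nat_lit 76) (nat_lit 259877571273) (nat_lit 7) (nat_lit 4) (nat_lit 8) (nat_lit 5) (nat_lit 8) (nat_lit 4) (nat_lit 309) (nat_lit 282) (nat_lit 189))))) (XT.nd (nat_lit 234) (nat_lit 76) (nat_lit 0) (XT.nd (nat_lit 78) (nat_lit 152) (nat_lit 0) (XT.lf (nat_lit 0) (nat_lit 946018482475) (nat_lit 76) (nat_lit 336477949532) (nat_lit 76) (nat_lit 6647607767) (nat_lit 7) (nat_lit 4) (nat_lit 8) (nat_lit 5) (nat_lit 8) (nat_lit 4) (nat_lit 310) (nat_lit 282) (nat_lit 188)) (XT.nd (nat_lit 78) (nat_lit 0) (nat_lit 0) (XT.lf (nat_lit 0) (nat_lit 244699943718) (nat_lit 76) (nat_lit 31516580427) (nat_lit 152) (nat_lit 1179850239497)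 (nat_lit 5) (nat_lit 5) (nat_lit 6) (nat_lit 5) (nat_lit 7) (nat_lit 4) (nat_lit 311) (nat_lit 282) (nat_lit 187)) (XT.lf (nat_lit 0) (nat_lit 619053395290) (nat_lit 152) (nat_lit 713870965085) (nat_lit 0) (nat_lit 313654784001) (nat_lit 5) (nat_lit 5) (nat_lit 7) (nat_lit 4) (nat_lit 5) (nat_lit 4) (nat_lit 312) (nat_lit 282) (nat_lit 186)))) (XT.nd (nat_lit 156) (nat_lit 0) (nat_lit 0) (XT.nd (nat_lit 78) (nat_lit 76) (nat_lit 0) (XT.lf (nat_lit 0) (nat_lit 1014187322414) (nat_lit 152) (nat_lit 142622686036) (nat_lit 0) (nat_lit 708788651796) (nat_lit 5) (nat_lit 5) (nat_lit 7) (nat_lit 4) (nat_lit 5) (nat_lit 4) (nat_lit 313) (nat_lit 282) (nat_lit 185)) (XT.lf (nat_lit 0) (nat_lit 541395377975) (nat_lit 76) (nat_lit 940216406070) (nat_lit 76) (nat_lit 634817683861) (nat_lit 4) (nat_lit 4) (nat_lit 5) (nat_lit 5) (nat_lit 5) (nat_lit 4) (nat_lit 314) (nat_lit 282) (nat_lit 184))) (XT.nd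 (nat_lit 78) (nat_lit 0) (nat_lit 0) (XT.lf (nat_lit 0) (nat_lit 1336652722658) (nat_lit 76) (nat_lit 686649382955) (nat_lit 76) (nat_lit 381250615884) (nat_lit 4) (nat_lit 4) (nat_lit 5) (nat_lit 5) (nat_lit 5) (nat_lit 4) (nat_lit 315) (nat_lit 282) (nat_lit 183)) (XT.lf (nat_lit 0) (nat_lit 2251198472946) (nat_lit 76) (nat_lit 395047402159) (nat_lit 76) (nat_lit 89648596079) (nat_lit 4) (nat_lit 4) (nat_lit 5) (nat_lit 5) (nat_lit 5) (nat_lit 4) (nat_lit 316) (nat_lit 282) (nat_lit 182))))))))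
noncomputable def xc49 : XT := (XT.nd (nat_lit 39234) (nat_lit 0) (nat_lit 76) (XT.nd (nat_lit 38298) (nat_lit 0) (nat_lit 1444) (XT.nd (nat_lit 468) (nat_lit 76) (nat_lit 0) (XT.nd (nat_lit 234) (nat_lit 0) (nat_lit 0) (XT.nd (nat_lit 78) (nat_lit 0) (nat_lit 0) (XT.lf (nat_lit 0) (nat_lit 189562153820) (nat_lit 76) (nat_lit 48399862440) (nat_lit 152) (nat_lit 2878138041103) (nat_lit 2) (nat_lit 5) (nat_lit 3) (nat_lit 5) (nat_lit 4) (nat_lit 4) (nat_lit 317) (nat_lit 282) (nat_lit 181)) (XT.nd (nat_lit 78) (nat_lit 0) (nat_lit 0) (XT.lf (nat_lit 0) (nat_lit 632458191600) (nat_lit 152) (nat_lit 2569166373033) (nat_lit 0) (nat_lit 349681460583) (nat_lit 2) (nat_lit 5) (nat_lit 4) (nat_lit 4) (nat_lit 2) (nat_lit 4) (nat_lit 318) (nat_lit 282) (nat_lit 180)) (XT.lf (nat_lit 0) (nat_lit 1087467341085) (nat_lit 152) (nat_lit 2159527877039) (nat_lit 0) (nat_lit 804690586318) (nat_lit 2) (nat_lit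 5) (nat_lit 4) (nat_lit 4) (nat_lit 2) (nat_lit 4) (nat_lit 319) (nat_lit 282) (nat_lit 179)))) (XT.nd (nat_lit 78) (nat_lit 0) (nat_lit 0) (XT.lf (nat_lit 0) (nat_lit 1610727799783) (nat_lit 152) (nat_lit 1688443731478) (nat_lit 0) (nat_lit 1327951024364) (nat_lit 2) (nat_lit 5) (nat_lit 4) (nat_lit 4) (nat_lit 2) (nat_lit 4) (nat_lit 320) (nat_lit 282) (nat_lit 178)) (XT.nd (nat_lit 78) (nat_lit 0) (nat_lit 0) (XT.lf (nat_lit 0) (nat_lit 2212477272321) (nat_lit 152) (nat_lit 1146697072633) (nat_lit 0) (nat_lit 1929700478944) (nat_lit 2) (nat_lit 5) (nat_lit 4) (nat_lit 4) (nat_lit 2) (nat_lit 4) (nat_lit 321) (nat_lit 282) (nat_lit 177)) (XT.lf (nat_lit 0) (nat_lit 2904489117945) (nat_lit 152) (nat_lit 523688509353) (nat_lit 0) (nat_lit 2621712308952) (nat_lit 2) (nat_lit 5) (nat_lit 4) (nat_lit 4) (nat_lit 2) (nat_lit 4) (nat_lit 322) (nat_lit 282) (nat_lit 176))))) (XT.nd (nat_lit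 37596) (nat_lit 0) (nat_lit 3800) (XT.nd (nat_lit 78) (nat_lit 0) (nat_lit 0) (XT.lf (nat_lit 0) (nat_lit 202922249077) (nat_lit 76) (nat_lit 3502260734744) (nat_lit 76) (nat_lit 3219483912172) (nat_lit 1) (nat_lit 4) (nat_lit 2) (nat_lit 5) (nat_lit 2) (nat_lit 4) (nat_lit 323) (nat_lit 282) (nat_lit 175)) (XT.nd (nat_lit 37440) (nat_lit 0) (nat_lit 3800) (XT.lf (nat_lit 0) (nat_lit 1070237531315) (nat_lit 76) (nat_lit 3570989987804) (nat_lit 76) (nat_lit 3288213153425) (nat_lit 1) (nat_lit 4) (nat_lit 2) (nat_lit 5) (nat_lit 2) (nat_lit 4) (nat_lit 324) (nat_lit 282) (nat_lit 174)) (XT.lf (nat_lit 0) (nat_lit 37067004915) (nat_lit 532) (nat_lit 6841301001) (nat_lit 532) (nat_lit 6841301001) (nat_lit 51) (nat_lit 3) (nat_lit 58) (nat_lit 3) (nat_lit 58) (nat_lit 5) (nat_lit 283) (nat_lit 283) (nat_lit 214)))) (XT.nd (nat_lit 78) (nat_lit 0) (nat_lit 76) (XT.lf (nat_lit 76) (nat_lit 79516263546)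 (nat_lit 0) (nat_lit 2100722526) (nat_lit 532) (nat_lit 27340811984) (nat_lit 52) (nat_lit 5) (nat_lit 51) (nat_lit 3) (nat_lit 58) (nat_lit 5) (nat_lit 284) (nat_lit 283) (nat_lit 213)) (XT.nd (nat_lit 78) (nat_lit 0) (nat_lit 76) (XT.lf (nat_lit 76) (nat_lit 71252827923) (nat_lit 0) (nat_lit 23410195837) (nat_lit 532) (nat_lit 22516901005) (nat_lit 53) (nat_lit 5) (nat_lit 52) (nat_lit 5) (nat_lit 59) (nat_lit 5) (nat_lit 285) (nat_lit 283) (nat_lit 212)) (XT.lf (nat_lit 76) (nat_lit 63505780895) (nat_lit 0) (nat_lit 50480187085) (nat_lit 532) (nat_lit 12303805955) (nat_lit 54) (nat_lit 5) (nat_lit 53) (nat_lit 5) (nat_lit 60) (nat_lit 5) (nat_lit 286) (nat_lit 283) (nat_lit 211)))))) (XT.nd (nat_lit 468) (nat_lit 836) (nat_lit 0) (XT.nd (nat_lit 234) (nat_lit 684) (nat_lit 0) (XT.nd (nat_lit 78) (nat_lit 532) (nat_lit 0) (XT.lf (nat_lit 0) (nat_lit 4192849978) (nat_lit 532) (nat_lit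 80121499916) (nat_lit 76) (nat_lit 52074936790) (nat_lit 47) (nat_lit 5) (nat_lit 54) (nat_lit 5) (nat_lit 48) (nat_lit 5) (nat_lit 287) (nat_lit 283) (nat_lit 210)) (XT.nd (nat_lit 78) (nat_lit 228) (nat_lit 0) (XT.lf (nat_lit 0) (nat_lit 27475634265) (nat_lit 380) (nat_lit 98340561805) (nat_lit 76) (nat_lit 21758754185) (nat_lit 43) (nat_lit 5) (nat_lit 48) (nat_lit 5) (nat_lit 44) (nat_lit 5) (nat_lit 288) (nat_lit 283) (nat_lit 209)) (XT.lf (nat_lit 0) (nat_lit 42316805234) (nat_lit 228) (nat_lit 17675729168) (nat_lit 304) (nat_lit 99986595252) (nat_lit 40) (nat_lit 5) (nat_lit 43) (nat_lit 5) (nat_lit 44) (nat_lit 5) (nat_lit 289) (nat_lit 283) (nat_lit 208)))) (XT.nd (nat_lit 78) (nat_lit 456) (nat_lit 0) (XT.lf (nat_lit 0) (nat_lit 35128986549) (nat_lit 228) (nat_lit 68605014469) (nat_lit 304) (nat_lit 70002174295) (nat_lit 37) (nat_lit 5) (nat_lit 40) (nat_lit 5) (nat_lit 41) (nat_lit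 5) (nat_lit 290) (nat_lit 283) (nat_lit 207)) (XT.nd (nat_lit 78) (nat_lit 304) (nat_lit 0) (XT.lf (nat_lit 0) (nat_lit 28182400053) (nat_lit 152) (nat_lit 131864459213) (nat_lit 228) (nat_lit 29029106446) (nat_lit 35) (nat_lit 5) (nat_lit 37) (nat_lit 5) (nat_lit 38) (nat_lit 5) (nat_lit 291) (nat_lit 283) (nat_lit 206)) (XT.lf (nat_lit 0) (nat_lit 20581245169) (nat_lit 228) (nat_lit 3135502915) (nat_lit 304) (nat_lit 182442632240) (nat_lit 31) (nat_lit 5) (nat_lit 34) (nat_lit 5) (nat_lit 35) (nat_lit 5) (nat_lit 292) (nat_lit 283) (nat_lit 205))))) (XT.nd (nat_lit 234) (nat_lit 456) (nat_lit 0) (XT.nd (nat_lit 78) (nat_lit 228) (nat_lit 0) (XT.lf (nat_lit 0) (nat_lit 9662733169) (nat_lit 152) (nat_lit 81564189207) (nat_lit 228) (nat_lit 133832362574) (nat_lit 29) (nat_lit 5) (nat_lit 31) (nat_lit 5) (nat_lit 32) (nat_lit 5) (nat_lit 293) (nat_lit 283) (nat_lit 204)) (XT.nd (nat_lit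 78) (nat_lit 228) (nat_lit 0) (XT.lf (nat_lit 0) (nat_lit 176057530884) (nat_lit 228) (nat_lit 2726959761) (nat_lit 76) (nat_lit 67434172970) (nat_lit 29) (nat_lit 5) (nat_lit 32) (nat_lit 5) (nat_lit 30) (nat_lit 5) (nat_lit 294) (nat_lit 283) (nat_lit 203)) (XT.lf (nat_lit 0) (nat_lit 11444498265) (nat_lit 228) (nat_lit 17973562465) (nat_lit 76) (nat_lit 240445053847) (nat_lit 26) (nat_lit 5) (nat_lit 29) (nat_lit 5) (nat_lit 27) (nat_lit 5) (nat_lit 295) (nat_lit 283) (nat_lit 202)))) (XT.nd (nat_lit 78) (nat_lit 304) (nat_lit 0) (XT.lf (nat_lit 0) (nat_lit 111198045026) (nat_lit 228) (nat_lit 41212777250) (nat_lit 76) (nat_lit 143692710781) (nat_lit 24) (nat_lit 5) (nat_lit 27) (nat_lit 5) (nat_lit 25) (nat_lit 5) (nat_lit 296) (nat_lit 283) (nat_lit 201)) (XT.nd (nat_lit 78) (nat_lit 152) (nat_lit 0) (XT.lf (nat_lit 0) (nat_lit 233940056976) (nat_lit 228) (nat_lit 70724001003) (nat_lit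 76) (nat_lit 20973922280) (nat_lit 22) (nat_lit 5) (nat_lit 25) (nat_lit 5) (nat_lit 23) (nat_lit 4) (nat_lit 297) (nat_lit 283) (nat_lit 200)) (XT.lf (nat_lit 0) (nat_lit 26386319886) (nat_lit 152) (nat_lit 112826375591) (nat_lit 76) (nat_lit 219426458858) (nat_lit 20) (nat_lit 5) (nat_lit 22) (nat_lit 5) (nat_lit 21) (nat_lit 5) (nat_lit 298) (nat_lit 283) (nat_lit 199))))))) (XT.nd (nat_lit 936) (nat_lit 380) (nat_lit 0) (XT.nd (nat_lit 468) (nat_lit 380) (nat_lit 0) (XT.nd (nat_lit 234) (nat_lit 228) (nat_lit 0) (XT.nd (nat_lit 78) (nat_lit 228) (nat_lit 0) (XT.lf (nat_lit 0) (nat_lit 165955684323) (nat_lit 228) (nat_lit 170849736745) (nat_lit 76) (nat_lit 58858380727) (nat_lit 18) (nat_lit 5) (nat_lit 21) (nat_lit 5) (nat_lit 19) (nat_lit 4) (nat_lit 299) (nat_lit 283) (nat_lit 198)) (XT.nd (nat_lit 78) (nat_lit 152) (nat_lit 0) (XT.lf (nat_lit 0) (nat_lit 187391386506) (nat_lit 76)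 (nat_lit 150795831305) (nat_lit 152) (nat_lit 99116787779) (nat_lit 17) (nat_lit 5) (nat_lit 18) (nat_lit 5) (nat_lit 19) (nat_lit 4) (nat_lit 300) (nat_lit 283) (nat_lit 197)) (XT.lf (nat_lit 0) (nat_lit 58503598555) (nat_lit 152) (nat_lit 356125878069) (nat_lit 76) (nat_lit 69662938064) (nat_lit 15) (nat_lit 5) (nat_lit 17) (nat_lit 5) (nat_lit 16) (nat_lit 4) (nat_lit 301) (nat_lit 283) (nat_lit 196)))) (XT.nd (nat_lit 78) (nat_lit 152) (nat_lit 0) (XT.lf (nat_lit 0) (nat_lit 34993418369) (nat_lit 76) (nat_lit 211548460465) (nat_lit 152) (nat_lit 290569757139) (nat_lit 14) (nat_lit 5) (nat_lit 15) (nat_lit 5) (nat_lit 16) (nat_lit 4) (nat_lit 302) (nat_lit 283) (nat_lit 195)) (XT.nd (nat_lit 78) (nat_lit 152) (nat_lit 0) (XT.lf (nat_lit 0) (nat_lit 473952065074) (nat_lit 152) (nat_lit 91476663302) (nat_lit 0) (nat_lit 31531719185) (nat_lit 14) (nat_lit 5) (nat_lit 16) (nat_lit 4) (nat_lit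 14) (nat_lit 4) (nat_lit 303) (nat_lit 283) (nat_lit 194)) (XT.lf (nat_lit 0) (nat_lit 81941655768) (nat_lit 152) (nat_lit 271981930514) (nat_lit 76) (nat_lit 310469677018) (nat_lit 12) (nat_lit 5) (nat_lit 14) (nat_lit 5) (nat_lit 13) (nat_lit 4) (nat_lit 304) (nat_lit 283) (nat_lit 193))))) (XT.nd (nat_lit 234) (nat_lit 152) (nat_lit 0) (XT.nd (nat_lit 78) (nat_lit 152) (nat_lit 0) (XT.lf (nat_lit 0) (nat_lit 220239627750) (nat_lit 76) (nat_lit 98347103531) (nat_lit 152) (nat_lit 422439788404) (nat_lit 11) (nat_lit 5) (nat_lit 12) (nat_lit 5) (nat_lit 13) (nat_lit 4) (nat_lit 305) (nat_lit 283) (nat_lit 192)) (XT.nd (nat_lit 78) (nat_lit 152) (nat_lit 0) (XT.lf (nat_lit 0) (nat_lit 603555813984) (nat_lit 152) (nat_lit 30665981277) (nat_lit 0) (nat_lit 193906789735) (nat_lit 11) (nat_lit 5) (nat_lit 13) (nat_lit 4) (nat_lit 11) (nat_lit 4) (nat_lit 306) (nat_lit 283) (nat_lit 191)) (XT.lf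 (nat_lit 0) (nat_lit 19388769801) (nat_lit 152) (nat_lit 369320522250) (nat_lit 76) (nat_lit 538255885021) (nat_lit 9) (nat_lit 5) (nat_lit 11) (nat_lit 5) (nat_lit 10) (nat_lit 4) (nat_lit 307) (nat_lit 283) (nat_lit 190)))) (XT.nd (nat_lit 78) (nat_lit 76) (nat_lit 0) (XT.lf (nat_lit 0) (nat_lit 199234922850) (nat_lit 76) (nat_lit 93497869131) (nat_lit 152) (nat_lit 746940984207) (nat_lit 8) (nat_lit 5) (nat_lit 9) (nat_lit 5) (nat_lit 10) (nat_lit 4) (nat_lit 308) (nat_lit 283) (nat_lit 189)) (XT.nd (nat_lit 78) (nat_lit 76) (nat_lit 0) (XT.lf (nat_lit 0) (nat_lit 624026069946) (nat_lit 152) (nat_lit 299185703648) (nat_lit 0) (nat_lit 244721079465) (nat_lit 8) (nat_lit 5) (nat_lit 10) (nat_lit 4) (nat_lit 8) (nat_lit 4) (nat_lit 309) (nat_lit 283) (nat_lit 188)) (XT.lf (nat_lit 0) (nat_lit 337555050015) (nat_lit 76) (nat_lit 678162249953) (nat_lit 76) (nat_lit 298857174733) (nat_lit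 7) (nat_lit 4) (nat_lit 8) (nat_lit 5) (nat_lit 8) (nat_lit 4) (nat_lit 310) (nat_lit 283) (nat_lit 187)))))) (XT.nd (nat_lit 468) (nat_lit 152) (nat_lit 0) (XT.nd (nat_lit 234) (nat_lit 76) (nat_lit 0) (XT.nd (nat_lit 78) (nat_lit 152) (nat_lit 0) (XT.lf (nat_lit 0) (nat_lit 1087924401760) (nat_lit 76) (nat_lit 386948130682) (nat_lit 76) (nat_lit 7642981774) (nat_lit 7) (nat_lit 4) (nat_lit 8) (nat_lit 5) (nat_lit 8) (nat_lit 4) (nat_lit 311) (nat_lit 283) (nat_lit 186)) (XT.nd (nat_lit 78) (nat_lit 0) (nat_lit 0) (XT.lf (nat_lit 0) (nat_lit 281407897307) (nat_lit 76) (nat_lit 36242636485) (nat_lit 152) (nat_lit 1356826121372) (nat_lit 5) (nat_lit 5) (nat_lit 6) (nat_lit 5) (nat_lit 7) (nat_lit 4) (nat_lit 312) (nat_lit 283) (nat_lit 185)) (XT.lf (nat_lit 0) (nat_lit 711912765837) (nat_lit 152) (nat_lit 820948957118) (nat_lit 0) (nat_lit 360704183706) (nat_lit 5) (nat_lit 5) (nat_lit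 7) (nat_lit 4) (nat_lit 5) (nat_lit 4) (nat_lit 313) (nat_lit 283) (nat_lit 184)))) (XT.nd (nat_lit 78) (nat_lit 76) (nat_lit 0) (XT.lf (nat_lit 0) (nat_lit 1166316604475) (nat_lit 152) (nat_lit 164013782220) (nat_lit 0) (nat_lit 815107977483) (nat_lit 5) (nat_lit 5) (nat_lit 7) (nat_lit 4) (nat_lit 5) (nat_lit 4) (nat_lit 314) (nat_lit 283) (nat_lit 183)) (XT.nd (nat_lit 78) (nat_lit 0) (nat_lit 0) (XT.lf (nat_lit 0) (nat_lit 622606796140) (nat_lit 76) (nat_lit 1081247835595) (nat_lit 76) (nat_lit 730039169593) (nat_lit 4) (nat_lit 4) (nat_lit 5) (nat_lit 5) (nat_lit 5) (nat_lit 4) (nat_lit 315) (nat_lit 283) (nat_lit 182)) (XT.lf (nat_lit 0) (nat_lit 1537152467117) (nat_lit 76) (nat_lit 789645893541) (nat_lit 76) (nat_lit 438437193618) (nat_lit 4) (nat_lit 4) (nat_lit 5) (nat_lit 5) (nat_lit 5) (nat_lit 4) (nat_lit 316) (nat_lit 283) (nat_lit 181))))) (XT.nd (nat_lit 234) (nat_lit 0)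 (nat_lit 0) (XT.nd (nat_lit 78) (nat_lit 152) (nat_lit 0) (XT.lf (nat_lit 0) (nat_lit 2588879840462) (nat_lit 76) (nat_lit 454303732608) (nat_lit 76) (nat_lit 103095003187) (nat_lit 4) (nat_lit 4) (nat_lit 5) (nat_lit 5) (nat_lit 5) (nat_lit 4) (nat_lit 317) (nat_lit 283) (nat_lit 180)) (XT.nd (nat_lit 78) (nat_lit 0) (nat_lit 0) (XT.lf (nat_lit 0) (nat_lit 217997978954) (nat_lit 76) (nat_lit 55659104711) (nat_lit 152) (nat_lit 3309857920888) (nat_lit 2) (nat_lit 5) (nat_lit 3) (nat_lit 5) (nat_lit 4) (nat_lit 4) (nat_lit 318) (nat_lit 283) (nat_lit 179)) (XT.lf (nat_lit 0) (nat_lit 727327600943) (nat_lit 152) (nat_lit 2954539984860) (nat_lit 0) (nat_lit 402134288559) (nat_lit 2) (nat_lit 5) (nat_lit 4) (nat_lit 4) (nat_lit 2) (nat_lit 4) (nat_lit 319) (nat_lit 283) (nat_lit 178)))) (XT.nd (nat_lit 156) (nat_lit 0) (nat_lit 0) (XT.nd (nat_lit 78) (nat_lit 0) (nat_lit 0) (XT.lf (nat_lit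 0) (nat_lit 1250588034076) (nat_lit 152) (nat_lit 2483455889788) (nat_lit 0) (nat_lit 925394703734) (nat_lit 2) (nat_lit 5) (nat_lit 4) (nat_lit 4) (nat_lit 2) (nat_lit 4) (nat_lit 320) (nat_lit 283) (nat_lit 177)) (XT.lf (nat_lit 0) (nat_lit 1852337484384) (nat_lit 152) (nat_lit 1941709274846) (nat_lit 0) (nat_lit 1527144138427) (nat_lit 2) (nat_lit 5) (nat_lit 4) (nat_lit 4) (nat_lit 2) (nat_lit 4) (nat_lit 321) (nat_lit 283) (nat_lit 176))) (XT.nd (nat_lit 78) (nat_lit 0) (nat_lit 0) (XT.lf (nat_lit 0) (nat_lit 2544349310677) (nat_lit 152) (nat_lit 1318700749742) (nat_lit 0) (nat_lit 2219155951140) (nat_lit 2) (nat_lit 5) (nat_lit 4) (nat_lit 4) (nat_lit 2) (nat_lit 4) (nat_lit 322) (nat_lit 283) (nat_lit 175)) (XT.lf (nat_lit 0) (nat_lit 3340162874774) (nat_lit 152) (nat_lit 602241017247) (nat_lit 0) (nat_lit 3014969503429) (nat_lit 2) (nat_lit 5) (nat_lit 4) (nat_lit 4) (nat_lit 2)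 (nat_lit 4) (nat_lit 323) (nat_lit 283) (nat_lit 174))))))))
noncomputable def xc50 : XT := (XT.nd (nat_lit 39312) (nat_lit 0) (nat_lit 76) (XT.nd (nat_lit 38376) (nat_lit 0) (nat_lit 760) (XT.nd (nat_lit 37908) (nat_lit 0) (nat_lit 2128) (XT.nd (nat_lit 37674) (nat_lit 0) (nat_lit 3496) (XT.nd (nat_lit 37518) (nat_lit 0) (nat_lit 3800) (XT.lf (nat_lit 0) (nat_lit 233361289898) (nat_lit 76) (nat_lit 4027599496795) (nat_lit 76) (nat_lit 3702406115182) (nat_lit 1) (nat_lit 4) (nat_lit 2) (nat_lit 5) (nat_lit 2) (nat_lit 4) (nat_lit 324) (nat_lit 283) (nat_lit 173)) (XT.nd (nat_lit 78) (nat_lit 0) (nat_lit 0) (XT.lf (nat_lit 0) (nat_lit 42637175945) (nat_lit 532) (nat_lit 7862020276) (nat_lit 532) (nat_lit 7862020276) (nat_lit 51) (nat_lit 3) (nat_lit 58) (nat_lit 3) (nat_lit 58) (nat_lit 5) (nat_lit 284) (nat_lit 284) (nat_lit 212)) (XT.lf (nat_lit 76) (nat_lit 91453727816) (nat_lit 0) (nat_lit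 2423647771) (nat_lit 532) (nat_lit 31422626879) (nat_lit 52) (nat_lit 5) (nat_lit 51) (nat_lit 3) (nat_lit 58) (nat_lit 5) (nat_lit 285) (nat_lit 284) (nat_lit 211)))) (XT.nd (nat_lit 78) (nat_lit 380) (nat_lit 0) (XT.lf (nat_lit 76) (nat_lit 81951441657) (nat_lit 0) (nat_lit 26926643714) (nat_lit 532) (nat_lit 25877546446) (nat_lit 53) (nat_lit 5) (nat_lit 52) (nat_lit 5) (nat_lit 59) (nat_lit 5) (nat_lit 286) (nat_lit 284) (nat_lit 210)) (XT.nd (nat_lit 78) (nat_lit 456) (nat_lit 0) (XT.lf (nat_lit 76) (nat_lit 73042714211) (nat_lit 0) (nat_lit 58054884463) (nat_lit 532) (nat_lit 14134513802) (nat_lit 54) (nat_lit 5) (nat_lit 53) (nat_lit 5) (nat_lit 60) (nat_lit 5) (nat_lit 287) (nat_lit 284) (nat_lit 209)) (XT.lf (nat_lit 0) (nat_lit 4834274918) (nat_lit 532) (nat_lit 92127823336) (nat_lit 76) (nat_lit 59884558519) (nat_lit 47) (nat_lit 5) (nat_lit 54) (nat_lit 5) (nat_lit 48) (nat_lit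 5) (nat_lit 288) (nat_lit 284) (nat_lit 208))))) (XT.nd (nat_lit 234) (nat_lit 608) (nat_lit 0) (XT.nd (nat_lit 78) (nat_lit 456) (nat_lit 0) (XT.lf (nat_lit 0) (nat_lit 31608103096) (nat_lit 380) (nat_lit 113079835811) (nat_lit 76) (nat_lit 25022343890) (nat_lit 43) (nat_lit 5) (nat_lit 48) (nat_lit 5) (nat_lit 44) (nat_lit 5) (nat_lit 289) (nat_lit 284) (nat_lit 207)) (XT.nd (nat_lit 78) (nat_lit 228) (nat_lit 0) (XT.lf (nat_lit 0) (nat_lit 48675136603) (nat_lit 228) (nat_lit 20326210728) (nat_lit 304) (nat_lit 114973839669) (nat_lit 40) (nat_lit 5) (nat_lit 43) (nat_lit 5) (nat_lit 44) (nat_lit 5) (nat_lit 290) (nat_lit 284) (nat_lit 206)) (XT.lf (nat_lit 0) (nat_lit 40408954090) (nat_lit 228) (nat_lit 78894058030) (nat_lit 304) (nat_lit 80492861414) (nat_lit 37) (nat_lit 5) (nat_lit 40) (nat_lit 5) (nat_lit 41) (nat_lit 5) (nat_lit 291) (nat_lit 284) (nat_lit 205)))) (XT.nd (nat_lit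 78) (nat_lit 456) (nat_lit 0) (XT.lf (nat_lit 0) (nat_lit 32420109561) (nat_lit 152) (nat_lit 151641811884) (nat_lit 228) (nat_lit 33374783243) (nat_lit 35) (nat_lit 5) (nat_lit 37) (nat_lit 5) (nat_lit 38) (nat_lit 5) (nat_lit 292) (nat_lit 284) (nat_lit 204)) (XT.nd (nat_lit 78) (nat_lit 152) (nat_lit 0) (XT.lf (nat_lit 0) (nat_lit 23678314488) (nat_lit 228) (nat_lit 3603361312) (nat_lit 304) (nat_lit 209801007690) (nat_lit 31) (nat_lit 5) (nat_lit 34) (nat_lit 5) (nat_lit 35) (nat_lit 5) (nat_lit 293) (nat_lit 284) (nat_lit 203)) (XT.lf (nat_lit 0) (nat_lit 11121687636) (nat_lit 152) (nat_lit 93796002499) (nat_lit 228) (nat_lit 153899939952) (nat_lit 29) (nat_lit 5) (nat_lit 31) (nat_lit 5) (nat_lit 32) (nat_lit 5) (nat_lit 294) (nat_lit 284) (nat_lit 202)))))) (XT.nd (nat_lit 468) (nat_lit 532) (nat_lit 0) (XT.nd (nat_lit 234) (nat_lit 456) (nat_lit 0) (XT.nd (nat_lit 78) (nat_lit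 380) (nat_lit 0) (XT.lf (nat_lit 0) (nat_lit 202472071044) (nat_lit 228) (nat_lit 3127286860) (nat_lit 76) (nat_lit 77551624365) (nat_lit 29) (nat_lit 5) (nat_lit 32) (nat_lit 5) (nat_lit 30) (nat_lit 5) (nat_lit 295) (nat_lit 284) (nat_lit 201)) (XT.nd (nat_lit 78) (nat_lit 152) (nat_lit 0) (XT.lf (nat_lit 0) (nat_lit 13166649616) (nat_lit 228) (nat_lit 20661322941) (nat_lit 76) (nat_lit 276514164598) (nat_lit 26) (nat_lit 5) (nat_lit 29) (nat_lit 5) (nat_lit 27) (nat_lit 5) (nat_lit 296) (nat_lit 284) (nat_lit 200)) (XT.lf (nat_lit 0) (nat_lit 127882759426) (nat_lit 228) (nat_lit 47386782332) (nat_lit 76) (nat_lit 165249115013) (nat_lit 24) (nat_lit 5) (nat_lit 27) (nat_lit 5) (nat_lit 25) (nat_lit 5) (nat_lit 297) (nat_lit 284) (nat_lit 199)))) (XT.nd (nat_lit 78) (nat_lit 304) (nat_lit 0) (XT.lf (nat_lit 0) (nat_lit 269035659415) (nat_lit 228) (nat_lit 81325057380) (nat_lit 76) (nat_lit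 24122588092) (nat_lit 22) (nat_lit 5) (nat_lit 25) (nat_lit 5) (nat_lit 23) (nat_lit 4) (nat_lit 298) (nat_lit 284) (nat_lit 198)) (XT.nd (nat_lit 78) (nat_lit 152) (nat_lit 0) (XT.lf (nat_lit 0) (nat_lit 30348540748) (nat_lit 152) (nat_lit 129743197752) (nat_lit 76) (nat_lit 252342943211) (nat_lit 20) (nat_lit 5) (nat_lit 22) (nat_lit 5) (nat_lit 21) (nat_lit 5) (nat_lit 299) (nat_lit 284) (nat_lit 197)) (XT.lf (nat_lit 0) (nat_lit 190852973491) (nat_lit 228) (nat_lit 196470417632) (nat_lit 76) (nat_lit 67689662591) (nat_lit 18) (nat_lit 5) (nat_lit 21) (nat_lit 5) (nat_lit 19) (nat_lit 4) (nat_lit 300) (nat_lit 284) (nat_lit 196))))) (XT.nd (nat_lit 234) (nat_lit 228) (nat_lit 0) (XT.nd (nat_lit 78) (nat_lit 228) (nat_lit 0) (XT.lf (nat_lit 0) (nat_lit 215506300246) (nat_lit 76) (nat_lit 173412572545) (nat_lit 152) (nat_lit 113980444870) (nat_lit 17) (nat_lit 5) (nat_lit 18) (nat_lit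 5) (nat_lit 19) (nat_lit 4) (nat_lit 301) (nat_lit 284) (nat_lit 195)) (XT.nd (nat_lit 78) (nat_lit 76) (nat_lit 0) (XT.lf (nat_lit 0) (nat_lit 67282529602) (nat_lit 152) (nat_lit 409538691972) (nat_lit 76) (nat_lit 80114781615) (nat_lit 15) (nat_lit 5) (nat_lit 17) (nat_lit 5) (nat_lit 16) (nat_lit 4) (nat_lit 302) (nat_lit 284) (nat_lit 194)) (XT.lf (nat_lit 0) (nat_lit 40247985322) (nat_lit 76) (nat_lit 243278257841) (nat_lit 152) (nat_lit 334151889518) (nat_lit 14) (nat_lit 5) (nat_lit 15) (nat_lit 5) (nat_lit 16) (nat_lit 4) (nat_lit 303) (nat_lit 284) (nat_lit 193)))) (XT.nd (nat_lit 78) (nat_lit 228) (nat_lit 0) (XT.lf (nat_lit 0) (nat_lit 545047606964) (nat_lit 152) (nat_lit 105193168501) (nat_lit 0) (nat_lit 36263518846) (nat_lit 14) (nat_lit 5) (nat_lit 16) (nat_lit 4) (nat_lit 14) (nat_lit 4) (nat_lit 304) (nat_lit 284) (nat_lit 192)) (XT.nd (nat_lit 78) (nat_lit 76) (nat_lit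 0) (XT.lf (nat_lit 0) (nat_lit 94235455907) (nat_lit 152) (nat_lit 312774512703) (nat_lit 76) (nat_lit 357042078581) (nat_lit 12) (nat_lit 5) (nat_lit 14) (nat_lit 5) (nat_lit 13) (nat_lit 4) (nat_lit 305) (nat_lit 284) (nat_lit 191)) (XT.lf (nat_lit 0) (nat_lit 253279880844) (nat_lit 76) (nat_lit 113097182693) (nat_lit 152) (nat_lit 485803247025) (nat_lit 11) (nat_lit 5) (nat_lit 12) (nat_lit 5) (nat_lit 13) (nat_lit 4) (nat_lit 306) (nat_lit 284) (nat_lit 190))))))) (XT.nd (nat_lit 936) (nat_lit 152) (nat_lit 0) (XT.nd (nat_lit 468) (nat_lit 228) (nat_lit 0) (XT.nd (nat_lit 234) (nat_lit 76) (nat_lit 0) (XT.nd (nat_lit 78) (nat_lit 228) (nat_lit 0) (XT.lf (nat_lit 0) (nat_lit 694091247244) (nat_lit 152) (nat_lit 35262010438) (nat_lit 0) (nat_lit 222994449066) (nat_lit 11) (nat_lit 5) (nat_lit 13) (nat_lit 4) (nat_lit 11) (nat_lit 4) (nat_lit 307) (nat_lit 284) (nat_lit 189)) (XT.nd (nat_lit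 78) (nat_lit 76) (nat_lit 0) (XT.lf (nat_lit 0) (nat_lit 22299012417) (nat_lit 152) (nat_lit 424714957596) (nat_lit 76) (nat_lit 618995828559) (nat_lit 9) (nat_lit 5) (nat_lit 11) (nat_lit 5) (nat_lit 10) (nat_lit 4) (nat_lit 308) (nat_lit 284) (nat_lit 188)) (XT.lf (nat_lit 0) (nat_lit 229123495908) (nat_lit 76) (nat_lit 107520970847) (nat_lit 152) (nat_lit 858980234610) (nat_lit 8) (nat_lit 5) (nat_lit 9) (nat_lit 5) (nat_lit 10) (nat_lit 4) (nat_lit 309) (nat_lit 284) (nat_lit 187)))) (XT.nd (nat_lit 78) (nat_lit 76) (nat_lit 0) (XT.lf (nat_lit 0) (nat_lit 717631540388) (nat_lit 152) (nat_lit 344060569703) (nat_lit 0) (nat_lit 281430545457) (nat_lit 8) (nat_lit 5) (nat_lit 10) (nat_lit 4) (nat_lit 8) (nat_lit 4) (nat_lit 310) (nat_lit 284) (nat_lit 186)) (XT.nd (nat_lit 78) (nat_lit 0) (nat_lit 0) (XT.lf (nat_lit 0) (nat_lit 388191043964) (nat_lit 76) (nat_lit 779885273290) (nat_lit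 76) (nat_lit 343684214284) (nat_lit 7) (nat_lit 4) (nat_lit 8) (nat_lit 5) (nat_lit 8) (nat_lit 4) (nat_lit 311) (nat_lit 284) (nat_lit 185)) (XT.lf (nat_lit 0) (nat_lit 1251115441543) (nat_lit 76) (nat_lit 444989207540) (nat_lit 76) (nat_lit 8788092816) (nat_lit 7) (nat_lit 4) (nat_lit 8) (nat_lit 5) (nat_lit 8) (nat_lit 4) (nat_lit 312) (nat_lit 284) (nat_lit 184))))) (XT.nd (nat_lit 234) (nat_lit 76) (nat_lit 0) (XT.nd (nat_lit 78) (nat_lit 0) (nat_lit 0) (XT.lf (nat_lit 0) (nat_lit 323621321625) (nat_lit 76) (nat_lit 41677949913) (nat_lit 152) (nat_lit 1560348788878) (nat_lit 5) (nat_lit 5) (nat_lit 6) (nat_lit 5) (nat_lit 7) (nat_lit 4) (nat_lit 313) (nat_lit 284) (nat_lit 183)) (XT.nd (nat_lit 78) (nat_lit 0) (nat_lit 0) (XT.lf (nat_lit 0) (nat_lit 818700710016) (nat_lit 152) (nat_lit 944089294841) (nat_lit 0) (nat_lit 414810705104) (nat_lit 5) (nat_lit 5) (nat_lit 7) (nat_lit 4)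 (nat_lit 5) (nat_lit 4) (nat_lit 314) (nat_lit 284) (nat_lit 182)) (XT.lf (nat_lit 0) (nat_lit 1341264990193) (nat_lit 152) (nat_lit 188614105340) (nat_lit 0) (nat_lit 937374951359) (nat_lit 5) (nat_lit 5) (nat_lit 7) (nat_lit 4) (nat_lit 5) (nat_lit 4) (nat_lit 315) (nat_lit 284) (nat_lit 181)))) (XT.nd (nat_lit 78) (nat_lit 0) (nat_lit 0) (XT.lf (nat_lit 0) (nat_lit 715999412135) (nat_lit 76) (nat_lit 1243434231060) (nat_lit 76) (nat_lit 839544162729) (nat_lit 4) (nat_lit 4) (nat_lit 5) (nat_lit 5) (nat_lit 5) (nat_lit 4) (nat_lit 316) (nat_lit 284) (nat_lit 180)) (XT.nd (nat_lit 78) (nat_lit 0) (nat_lit 0) (XT.lf (nat_lit 0) (nat_lit 1767726725510) (nat_lit 76) (nat_lit 908092099420) (nat_lit 76) (nat_lit 504202005439) (nat_lit 4) (nat_lit 4) (nat_lit 5) (nat_lit 5) (nat_lit 5) (nat_lit 4) (nat_lit 317) (nat_lit 284) (nat_lit 179)) (XT.lf (nat_lit 0) (nat_lit 2977213023771) (nat_lit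 76) (nat_lit 522448702801) (nat_lit 76) (nat_lit 118558586517) (nat_lit 4) (nat_lit 4) (nat_lit 5) (nat_lit 5) (nat_lit 5) (nat_lit 4) (nat_lit 318) (nat_lit 284) (nat_lit 178)))))) (XT.nd (nat_lit 38064) (nat_lit 0) (nat_lit 2660) (XT.nd (nat_lit 234) (nat_lit 0) (nat_lit 0) (XT.nd (nat_lit 78) (nat_lit 0) (nat_lit 0) (XT.lf (nat_lit 0) (nat_lit 250698811570) (nat_lit 76) (nat_lit 64007413068) (nat_lit 152) (nat_lit 3806335984159) (nat_lit 2) (nat_lit 5) (nat_lit 3) (nat_lit 5) (nat_lit 4) (nat_lit 4) (nat_lit 319) (nat_lit 284) (nat_lit 177)) (XT.nd (nat_lit 78) (nat_lit 0) (nat_lit 0) (XT.lf (nat_lit 0) (nat_lit 836427255718) (nat_lit 152) (nat_lit 3397719966235) (nat_lit 0) (nat_lit 462454892251) (nat_lit 2) (nat_lit 5) (nat_lit 4) (nat_lit 4) (nat_lit 2) (nat_lit 4) (nat_lit 320) (nat_lit 284) (nat_lit 176)) (XT.lf (nat_lit 0) (nat_lit 1438176686695) (nat_lit 152) (nat_lit 2855973389469)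 (nat_lit 0) (nat_lit 1064204309649) (nat_lit 2) (nat_lit 5) (nat_lit 4) (nat_lit 4) (nat_lit 2) (nat_lit 4) (nat_lit 321) (nat_lit 284) (nat_lit 175)))) (XT.nd (nat_lit 78) (nat_lit 0) (nat_lit 0) (XT.lf (nat_lit 0) (nat_lit 2130188496179) (nat_lit 152) (nat_lit 2232964897563) (nat_lit 0) (nat_lit 1756216107325) (nat_lit 2) (nat_lit 5) (nat_lit 4) (nat_lit 4) (nat_lit 2) (nat_lit 4) (nat_lit 322) (nat_lit 284) (nat_lit 174)) (XT.nd (nat_lit 37674) (nat_lit 0) (nat_lit 3724) (XT.lf (nat_lit 0) (nat_lit 2926002045659) (nat_lit 152) (nat_lit 1516505193934) (nat_lit 0) (nat_lit 2552029646537) (nat_lit 2) (nat_lit 5) (nat_lit 4) (nat_lit 4) (nat_lit 2) (nat_lit 4) (nat_lit 323) (nat_lit 284) (nat_lit 173)) (XT.lf (nat_lit 0) (nat_lit 49040404732) (nat_lit 532) (nat_lit 9037182770) (nat_lit 532) (nat_lit 9037182770) (nat_lit 51) (nat_lit 3) (nat_lit 58) (nat_lit 3) (nat_lit 58) (nat_lit 5) (nat_lit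 285) (nat_lit 285) (nat_lit 210))))) (XT.nd (nat_lit 234) (nat_lit 1064) (nat_lit 0) (XT.nd (nat_lit 78) (nat_lit 0) (nat_lit 76) (XT.lf (nat_lit 76) (nat_lit 105179367130) (nat_lit 0) (nat_lit 2793105611) (nat_lit 532) (nat_lit 36121422118) (nat_lit 52) (nat_lit 5) (nat_lit 51) (nat_lit 3) (nat_lit 58) (nat_lit 5) (nat_lit 286) (nat_lit 285) (nat_lit 209)) (XT.nd (nat_lit 78) (nat_lit 0) (nat_lit 76) (XT.lf (nat_lit 76) (nat_lit 94252240738) (nat_lit 0) (nat_lit 30969359366) (nat_lit 532) (nat_lit 29746407367) (nat_lit 53) (nat_lit 5) (nat_lit 52) (nat_lit 5) (nat_lit 59) (nat_lit 5) (nat_lit 287) (nat_lit 285) (nat_lit 208)) (XT.lf (nat_lit 76) (nat_lit 84007488966) (nat_lit 0) (nat_lit 66765135517) (nat_lit 532) (nat_lit 16243452273) (nat_lit 54) (nat_lit 5) (nat_lit 53) (nat_lit 5) (nat_lit 60) (nat_lit 5) (nat_lit 288) (nat_lit 285) (nat_lit 207)))) (XT.nd (nat_lit 156) (nat_lit 456)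 (nat_lit 0) (XT.nd (nat_lit 78) (nat_lit 304) (nat_lit 0) (XT.lf (nat_lit 0) (nat_lit 5568866019) (nat_lit 532) (nat_lit 105937997542) (nat_lit 76) (nat_lit 68866018260) (nat_lit 47) (nat_lit 5) (nat_lit 54) (nat_lit 5) (nat_lit 48) (nat_lit 5) (nat_lit 289) (nat_lit 285) (nat_lit 206)) (XT.lf (nat_lit 0) (nat_lit 36357729668) (nat_lit 380) (nat_lit 130032880927) (nat_lit 76) (nat_lit 28775526533) (nat_lit 43) (nat_lit 5) (nat_lit 48) (nat_lit 5) (nat_lit 44) (nat_lit 5) (nat_lit 290) (nat_lit 285) (nat_lit 205))) (XT.nd (nat_lit 78) (nat_lit 228) (nat_lit 0) (XT.lf (nat_lit 0) (nat_lit 55984581449) (nat_lit 228) (nat_lit 23374478584) (nat_lit 304) (nat_lit 132211790953) (nat_lit 40) (nat_lit 5) (nat_lit 43) (nat_lit 5) (nat_lit 44) (nat_lit 5) (nat_lit 291) (nat_lit 285) (nat_lit 204)) (XT.lf (nat_lit 0) (nat_lit 46478327116) (nat_lit 228) (nat_lit 90726874780) (nat_lit 304) (nat_lit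 92559502138) (nat_lit 37) (nat_lit 5) (nat_lit 40) (nat_lit 5) (nat_lit 41) (nat_lit 5) (nat_lit 292) (nat_lit 285) (nat_lit 203))))))))
noncomputable def xc51 : XT := (XT.nd (nat_lit 1872) (nat_lit 228) (nat_lit 0) (XT.nd (nat_lit 936) (nat_lit 684) (nat_lit 0) (XT.nd (nat_lit 468) (nat_lit 760) (nat_lit 0) (XT.nd (nat_lit 234) (nat_lit 380) (nat_lit 0) (XT.nd (nat_lit 78) (nat_lit 456) (nat_lit 0) (XT.lf (nat_lit 0) (nat_lit 37290951705) (nat_lit 152) (nat_lit 174386332279) (nat_lit 228) (nat_lit 38374430468) (nat_lit 35) (nat_lit 5) (nat_lit 37) (nat_lit 5) (nat_lit 38) (nat_lit 5) (nat_lit 293) (nat_lit 285) (nat_lit 202)) (XT.nd (nat_lit 78) (nat_lit 152) (nat_lit 0) (XT.lf (nat_lit 0) (nat_lit 27237534284) (nat_lit 228) (nat_lit 4142000072) (nat_lit 304) (nat_lit 241265095035) (nat_lit 31) (nat_lit 5) (nat_lit 34) (nat_lit 5) (nat_lit 35) (nat_lit 5) (nat_lit 294) (nat_lit 285) (nat_lit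 201)) (XT.lf (nat_lit 0) (nat_lit 12797157789) (nat_lit 152) (nat_lit 107863274263) (nat_lit 228) (nat_lit 176979428481) (nat_lit 29) (nat_lit 5) (nat_lit 31) (nat_lit 5) (nat_lit 32) (nat_lit 5) (nat_lit 295) (nat_lit 285) (nat_lit 200)))) (XT.nd (nat_lit 78) (nat_lit 380) (nat_lit 0) (XT.lf (nat_lit 0) (nat_lit 232847350908) (nat_lit 228) (nat_lit 3589788687) (nat_lit 76) (nat_lit 89186126394) (nat_lit 29) (nat_lit 5) (nat_lit 32) (nat_lit 5) (nat_lit 30) (nat_lit 5) (nat_lit 296) (nat_lit 285) (nat_lit 199)) (XT.nd (nat_lit 78) (nat_lit 152) (nat_lit 0) (XT.lf (nat_lit 0) (nat_lit 15145788163) (nat_lit 228) (nat_lit 23754265130) (nat_lit 76) (nat_lit 317993068247) (nat_lit 26) (nat_lit 5) (nat_lit 29) (nat_lit 5) (nat_lit 27) (nat_lit 5) (nat_lit 297) (nat_lit 285) (nat_lit 198)) (XT.lf (nat_lit 0) (nat_lit 147068959839) (nat_lit 228) (nat_lit 54488817447) (nat_lit 76) (nat_lit 190038370820)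 (nat_lit 24) (nat_lit 5) (nat_lit 27) (nat_lit 5) (nat_lit 25) (nat_lit 5) (nat_lit 298) (nat_lit 285) (nat_lit 197))))) (XT.nd (nat_lit 234) (nat_lit 304) (nat_lit 0) (XT.nd (nat_lit 78) (nat_lit 304) (nat_lit 0) (XT.lf (nat_lit 0) (nat_lit 309394481971) (nat_lit 228) (nat_lit 93518111810) (nat_lit 76) (nat_lit 27742925244) (nat_lit 22) (nat_lit 5) (nat_lit 25) (nat_lit 5) (nat_lit 23) (nat_lit 4) (nat_lit 299) (nat_lit 285) (nat_lit 196)) (XT.nd (nat_lit 78) (nat_lit 152) (nat_lit 0) (XT.lf (nat_lit 0) (nat_lit 34904052771) (nat_lit 152) (nat_lit 149199282951) (nat_lit 76) (nat_lit 290196286790) (nat_lit 20) (nat_lit 5) (nat_lit 22) (nat_lit 5) (nat_lit 21) (nat_lit 5) (nat_lit 300) (nat_lit 285) (nat_lit 195)) (XT.lf (nat_lit 0) (nat_lit 219483896088) (nat_lit 228) (nat_lit 225935853906) (nat_lit 76) (nat_lit 77845021057) (nat_lit 18) (nat_lit 5) (nat_lit 21) (nat_lit 5) (nat_lit 19)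 (nat_lit 4) (nat_lit 301) (nat_lit 285) (nat_lit 194)))) (XT.nd (nat_lit 78) (nat_lit 228) (nat_lit 0) (XT.lf (nat_lit 0) (nat_lit 247836937732) (nat_lit 76) (nat_lit 199422467157) (nat_lit 152) (nat_lit 131074592073) (nat_lit 17) (nat_lit 5) (nat_lit 18) (nat_lit 5) (nat_lit 19) (nat_lit 4) (nat_lit 302) (nat_lit 285) (nat_lit 193)) (XT.nd (nat_lit 78) (nat_lit 76) (nat_lit 0) (XT.lf (nat_lit 0) (nat_lit 77377473324) (nat_lit 152) (nat_lit 470964907634) (nat_lit 76) (nat_lit 92133815750) (nat_lit 15) (nat_lit 5) (nat_lit 17) (nat_lit 5) (nat_lit 16) (nat_lit 4) (nat_lit 303) (nat_lit 285) (nat_lit 192)) (XT.lf (nat_lit 0) (nat_lit 46289382892) (nat_lit 76) (nat_lit 279768127562) (nat_lit 152) (nat_lit 384272154086) (nat_lit 14) (nat_lit 5) (nat_lit 15) (nat_lit 5) (nat_lit 16) (nat_lit 4) (nat_lit 304) (nat_lit 285) (nat_lit 191)))))) (XT.nd (nat_lit 468) (nat_lit 228) (nat_lit 0) (XT.nd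 (nat_lit 234) (nat_lit 228) (nat_lit 0) (XT.nd (nat_lit 78) (nat_lit 228) (nat_lit 0) (XT.lf (nat_lit 0) (nat_lit 626806813890) (nat_lit 152) (nat_lit 120968367370) (nat_lit 0) (nat_lit 41704590554) (nat_lit 14) (nat_lit 5) (nat_lit 16) (nat_lit 4) (nat_lit 14) (nat_lit 4) (nat_lit 305) (nat_lit 285) (nat_lit 190)) (XT.nd (nat_lit 78) (nat_lit 76) (nat_lit 0) (XT.lf (nat_lit 0) (nat_lit 108372703801) (nat_lit 152) (nat_lit 359687130146) (nat_lit 76) (nat_lit 410599864857) (nat_lit 12) (nat_lit 5) (nat_lit 14) (nat_lit 5) (nat_lit 13) (nat_lit 4) (nat_lit 306) (nat_lit 285) (nat_lit 189)) (XT.lf (nat_lit 0) (nat_lit 291275121142) (nat_lit 76) (nat_lit 130060258118) (nat_lit 152) (nat_lit 558671836430) (nat_lit 11) (nat_lit 5) (nat_lit 12) (nat_lit 5) (nat_lit 13) (nat_lit 4) (nat_lit 307) (nat_lit 285) (nat_lit 188)))) (XT.nd (nat_lit 78) (nat_lit 228) (nat_lit 0) (XT.lf (nat_lit 0) (nat_lit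 798206492864) (nat_lit 152) (nat_lit 40548387216) (nat_lit 0) (nat_lit 256444857160) (nat_lit 11) (nat_lit 5) (nat_lit 13) (nat_lit 4) (nat_lit 11) (nat_lit 4) (nat_lit 308) (nat_lit 285) (nat_lit 187)) (XT.nd (nat_lit 78) (nat_lit 76) (nat_lit 0) (XT.lf (nat_lit 0) (nat_lit 25645321478) (nat_lit 152) (nat_lit 488419446610) (nat_lit 76) (nat_lit 711846383020) (nat_lit 9) (nat_lit 5) (nat_lit 11) (nat_lit 5) (nat_lit 10) (nat_lit 4) (nat_lit 309) (nat_lit 285) (nat_lit 186)) (XT.lf (nat_lit 0) (nat_lit 263494541754) (nat_lit 76) (nat_lit 123647922785) (nat_lit 152) (nat_lit 987825835224) (nat_lit 8) (nat_lit 5) (nat_lit 9) (nat_lit 5) (nat_lit 10) (nat_lit 4) (nat_lit 310) (nat_lit 285) (nat_lit 185))))) (XT.nd (nat_lit 234) (nat_lit 152) (nat_lit 0) (XT.nd (nat_lit 78) (nat_lit 76) (nat_lit 0) (XT.lf (nat_lit 0) (nat_lit 825277450993) (nat_lit 152) (nat_lit 395667394673) (nat_lit 0) (nat_lit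 323646113342) (nat_lit 8) (nat_lit 5) (nat_lit 10) (nat_lit 4) (nat_lit 8) (nat_lit 4) (nat_lit 311) (nat_lit 285) (nat_lit 184)) (XT.nd (nat_lit 78) (nat_lit 0) (nat_lit 0) (XT.lf (nat_lit 0) (nat_lit 446421769705) (nat_lit 76) (nat_lit 896867070593) (nat_lit 76) (nat_lit 395235684492) (nat_lit 7) (nat_lit 4) (nat_lit 8) (nat_lit 5) (nat_lit 8) (nat_lit 4) (nat_lit 312) (nat_lit 285) (nat_lit 183)) (XT.lf (nat_lit 0) (nat_lit 1438784557033) (nat_lit 76) (nat_lit 511736724592) (nat_lit 76) (nat_lit 10105296360) (nat_lit 7) (nat_lit 4) (nat_lit 8) (nat_lit 5) (nat_lit 8) (nat_lit 4) (nat_lit 313) (nat_lit 285) (nat_lit 182)))) (XT.nd (nat_lit 78) (nat_lit 0) (nat_lit 0) (XT.lf (nat_lit 0) (nat_lit 372166213419) (nat_lit 76) (nat_lit 47928824218) (nat_lit 152) (nat_lit 1794400161502) (nat_lit 5) (nat_lit 5) (nat_lit 6) (nat_lit 5) (nat_lit 7) (nat_lit 4) (nat_lit 314) (nat_lit 285) (nat_lit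 181)) (XT.nd (nat_lit 78) (nat_lit 0) (nat_lit 0) (XT.lf (nat_lit 0) (nat_lit 941506594819) (nat_lit 152) (nat_lit 1085701172360) (nat_lit 0) (nat_lit 477032986742) (nat_lit 5) (nat_lit 5) (nat_lit 7) (nat_lit 4) (nat_lit 5) (nat_lit 4) (nat_lit 315) (nat_lit 285) (nat_lit 180)) (XT.lf (nat_lit 0) (nat_lit 1542455415505) (nat_lit 152) (nat_lit 216904902265) (nat_lit 0) (nat_lit 1077981781778) (nat_lit 5) (nat_lit 5) (nat_lit 7) (nat_lit 4) (nat_lit 5) (nat_lit 4) (nat_lit 316) (nat_lit 285) (nat_lit 179))))))) (XT.nd (nat_lit 38610) (nat_lit 0) (nat_lit 1140) (XT.nd (nat_lit 468) (nat_lit 0) (nat_lit 0) (XT.nd (nat_lit 234) (nat_lit 152) (nat_lit 0) (XT.nd (nat_lit 78) (nat_lit 0) (nat_lit 0) (XT.lf (nat_lit 0) (nat_lit 823400531195) (nat_lit 76) (nat_lit 1429948776021) (nat_lit 76) (nat_lit 965475119989) (nat_lit 4) (nat_lit 4) (nat_lit 5) (nat_lit 5) (nat_lit 5) (nat_lit 4) (nat_lit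 317) (nat_lit 285) (nat_lit 178)) (XT.nd (nat_lit 78) (nat_lit 0) (nat_lit 0) (XT.lf (nat_lit 0) (nat_lit 2032886784110) (nat_lit 76) (nat_lit 1044305401552) (nat_lit 76) (nat_lit 579831726126) (nat_lit 4) (nat_lit 4) (nat_lit 5) (nat_lit 5) (nat_lit 5) (nat_lit 4) (nat_lit 318) (nat_lit 285) (nat_lit 177)) (XT.lf (nat_lit 0) (nat_lit 3423795890183) (nat_lit 76) (nat_lit 600815562326) (nat_lit 76) (nat_lit 136341870034) (nat_lit 4) (nat_lit 4) (nat_lit 5) (nat_lit 5) (nat_lit 5) (nat_lit 4) (nat_lit 319) (nat_lit 285) (nat_lit 176)))) (XT.nd (nat_lit 78) (nat_lit 0) (nat_lit 0) (XT.lf (nat_lit 0) (nat_lit 288304492114) (nat_lit 76) (nat_lit 73608103592) (nat_lit 152) (nat_lit 4377285909297) (nat_lit 2) (nat_lit 5) (nat_lit 3) (nat_lit 5) (nat_lit 4) (nat_lit 4) (nat_lit 320) (nat_lit 285) (nat_lit 175)) (XT.nd (nat_lit 78) (nat_lit 0) (nat_lit 0) (XT.lf (nat_lit 0) (nat_lit 961891733213)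 (nat_lit 152) (nat_lit 3907377192660) (nat_lit 0) (nat_lit 531823474223) (nat_lit 2) (nat_lit 5) (nat_lit 4) (nat_lit 4) (nat_lit 2) (nat_lit 4) (nat_lit 321) (nat_lit 285) (nat_lit 174)) (XT.lf (nat_lit 0) (nat_lit 1653903528079) (nat_lit 152) (nat_lit 3284368729620) (nat_lit 0) (nat_lit 1223835258822) (nat_lit 2) (nat_lit 5) (nat_lit 4) (nat_lit 4) (nat_lit 2) (nat_lit 4) (nat_lit 322) (nat_lit 285) (nat_lit 173))))) (XT.nd (nat_lit 37908) (nat_lit 0) (nat_lit 3420) (XT.nd (nat_lit 37752) (nat_lit 0) (nat_lit 3724) (XT.lf (nat_lit 0) (nat_lit 2449717064849) (nat_lit 152) (nat_lit 2567909051093) (nat_lit 0) (nat_lit 2019648786663) (nat_lit 2) (nat_lit 5) (nat_lit 4) (nat_lit 4) (nat_lit 2) (nat_lit 4) (nat_lit 323) (nat_lit 285) (nat_lit 172)) (XT.nd (nat_lit 78) (nat_lit 0) (nat_lit 0) (XT.lf (nat_lit 0) (nat_lit 56402251751) (nat_lit 532) (nat_lit 10389629337) (nat_lit 532) (nat_lit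 10389629337) (nat_lit 51) (nat_lit 3) (nat_lit 58) (nat_lit 3) (nat_lit 58) (nat_lit 5) (nat_lit 286) (nat_lit 286) (nat_lit 208)) (XT.lf (nat_lit 76) (nat_lit 120962003876) (nat_lit 0) (nat_lit 3216540771) (nat_lit 532) (nat_lit 41528596652) (nat_lit 52) (nat_lit 5) (nat_lit 51) (nat_lit 3) (nat_lit 58) (nat_lit 5) (nat_lit 287) (nat_lit 286) (nat_lit 207)))) (XT.nd (nat_lit 78) (nat_lit 380) (nat_lit 0) (XT.lf (nat_lit 76) (nat_lit 108396188630) (nat_lit 0) (nat_lit 35617575440) (nat_lit 532) (nat_lit 34198711726) (nat_lit 53) (nat_lit 5) (nat_lit 52) (nat_lit 5) (nat_lit 59) (nat_lit 5) (nat_lit 288) (nat_lit 286) (nat_lit 206)) (XT.nd (nat_lit 78) (nat_lit 456) (nat_lit 0) (XT.lf (nat_lit 76) (nat_lit 96614939436) (nat_lit 0) (nat_lit 76781432034) (nat_lit 532) (nat_lit 18671472119) (nat_lit 54) (nat_lit 5) (nat_lit 53) (nat_lit 5) (nat_lit 60) (nat_lit 5) (nat_lit 289) (nat_lit 286)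 (nat_lit 205)) (XT.lf (nat_lit 0) (nat_lit 6411341376) (nat_lit 532) (nat_lit 121821892414) (nat_lit 76) (nat_lit 79194995451) (nat_lit 47) (nat_lit 5) (nat_lit 54) (nat_lit 5) (nat_lit 48) (nat_lit 5) (nat_lit 290) (nat_lit 286) (nat_lit 204)))))) (XT.nd (nat_lit 468) (nat_lit 912) (nat_lit 0) (XT.nd (nat_lit 234) (nat_lit 608) (nat_lit 0) (XT.nd (nat_lit 78) (nat_lit 456) (nat_lit 0) (XT.lf (nat_lit 0) (nat_lit 41817749125) (nat_lit 380) (nat_lit 149531060509) (nat_lit 76) (nat_lit 33091727770) (nat_lit 43) (nat_lit 5) (nat_lit 48) (nat_lit 5) (nat_lit 44) (nat_lit 5) (nat_lit 291) (nat_lit 286) (nat_lit 203)) (XT.nd (nat_lit 78) (nat_lit 228) (nat_lit 0) (XT.lf (nat_lit 0) (nat_lit 64388449653) (nat_lit 228) (nat_lit 26880148478) (nat_lit 304) (nat_lit 152037416182) (nat_lit 40) (nat_lit 5) (nat_lit 43) (nat_lit 5) (nat_lit 44) (nat_lit 5) (nat_lit 292) (nat_lit 286) (nat_lit 202))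 (XT.lf (nat_lit 0) (nat_lit 53456147951) (nat_lit 228) (nat_lit 104334929094) (nat_lit 304) (nat_lit 106437916315) (nat_lit 37) (nat_lit 5) (nat_lit 40) (nat_lit 5) (nat_lit 41) (nat_lit 5) (nat_lit 293) (nat_lit 286) (nat_lit 201)))) (XT.nd (nat_lit 78) (nat_lit 456) (nat_lit 0) (XT.lf (nat_lit 0) (nat_lit 42890511820) (nat_lit 152) (nat_lit 200542957821) (nat_lit 228) (nat_lit 44125626978) (nat_lit 35) (nat_lit 5) (nat_lit 37) (nat_lit 5) (nat_lit 38) (nat_lit 5) (nat_lit 294) (nat_lit 286) (nat_lit 200)) (XT.nd (nat_lit 78) (nat_lit 152) (nat_lit 0) (XT.lf (nat_lit 0) (nat_lit 31328814803) (nat_lit 228) (nat_lit 4761889545) (nat_lit 304) (nat_lit 277450274181) (nat_lit 31) (nat_lit 5) (nat_lit 34) (nat_lit 5) (nat_lit 35) (nat_lit 5) (nat_lit 295) (nat_lit 286) (nat_lit 199)) (XT.lf (nat_lit 0) (nat_lit 14722188551) (nat_lit 152) (nat_lit 124041155866) (nat_lit 228) (nat_lit 203522182099)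 (nat_lit 29) (nat_lit 5) (nat_lit 31) (nat_lit 5) (nat_lit 32) (nat_lit 5) (nat_lit 296) (nat_lit 286) (nat_lit 198))))) (XT.nd (nat_lit 234) (nat_lit 532) (nat_lit 0) (XT.nd (nat_lit 78) (nat_lit 380) (nat_lit 0) (XT.lf (nat_lit 0) (nat_lit 267777832906) (nat_lit 228) (nat_lit 4123273094) (nat_lit 76) (nat_lit 102565374936) (nat_lit 29) (nat_lit 5) (nat_lit 32) (nat_lit 5) (nat_lit 30) (nat_lit 5) (nat_lit 297) (nat_lit 286) (nat_lit 197)) (XT.nd (nat_lit 78) (nat_lit 152) (nat_lit 0) (XT.lf (nat_lit 0) (nat_lit 17420787658) (nat_lit 228) (nat_lit 27312674275) (nat_lit 76) (nat_lit 365693373634) (nat_lit 26) (nat_lit 5) (nat_lit 29) (nat_lit 5) (nat_lit 27) (nat_lit 5) (nat_lit 298) (nat_lit 286) (nat_lit 196)) (XT.lf (nat_lit 0) (nat_lit 169132166953) (nat_lit 228) (nat_lit 62657616635) (nat_lit 76) (nat_lit 218545554463) (nat_lit 24) (nat_lit 5) (nat_lit 27) (nat_lit 5) (nat_lit 25)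 (nat_lit 5) (nat_lit 299) (nat_lit 286) (nat_lit 195)))) (XT.nd (nat_lit 156) (nat_lit 228) (nat_lit 0) (XT.nd (nat_lit 78) (nat_lit 152) (nat_lit 0) (XT.lf (nat_lit 0) (nat_lit 355806280840) (nat_lit 228) (nat_lit 107541515404) (nat_lit 76) (nat_lit 31905837708) (nat_lit 22) (nat_lit 5) (nat_lit 25) (nat_lit 5) (nat_lit 23) (nat_lit 4) (nat_lit 300) (nat_lit 286) (nat_lit 194)) (XT.lf (nat_lit 0) (nat_lit 40142103720) (nat_lit 152) (nat_lit 171575096405) (nat_lit 76) (nat_lit 333727168067) (nat_lit 20) (nat_lit 5) (nat_lit 22) (nat_lit 5) (nat_lit 21) (nat_lit 5) (nat_lit 301) (nat_lit 286) (nat_lit 193))) (XT.nd (nat_lit 78) (nat_lit 76) (nat_lit 0) (XT.lf (nat_lit 0) (nat_lit 252408731219) (nat_lit 228) (nat_lit 259822355719) (nat_lit 76) (nat_lit 89523217753) (nat_lit 18) (nat_lit 5) (nat_lit 21) (nat_lit 5) (nat_lit 19) (nat_lit 4) (nat_lit 302) (nat_lit 286) (nat_lit 192)) (XT.lf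 (nat_lit 0) (nat_lit 285016026557) (nat_lit 76) (nat_lit 229334331544) (nat_lit 152) (nat_lit 150733573301) (nat_lit 17) (nat_lit 5) (nat_lit 18) (nat_lit 5) (nat_lit 19) (nat_lit 4) (nat_lit 303) (nat_lit 286) (nat_lit 191))))))))
noncomputable def xc52 : XT := (XT.nd (nat_lit 39624) (nat_lit 0) (nat_lit 380) (XT.nd (nat_lit 936) (nat_lit 228) (nat_lit 0) (XT.nd (nat_lit 468) (nat_lit 456) (nat_lit 0) (XT.nd (nat_lit 234) (nat_lit 228) (nat_lit 0) (XT.nd (nat_lit 78) (nat_lit 76) (nat_lit 0) (XT.lf (nat_lit 0) (nat_lit 88986033289) (nat_lit 152) (nat_lit 541606174491) (nat_lit 76) (nat_lit 105955261945) (nat_lit 15) (nat_lit 5) (nat_lit 17) (nat_lit 5) (nat_lit 16) (nat_lit 4) (nat_lit 304) (nat_lit 286) (nat_lit 190)) (XT.nd (nat_lit 78) (nat_lit 0) (nat_lit 0) (XT.lf (nat_lit 0) (nat_lit 53235965956) (nat_lit 76) (nat_lit 321731933497) (nat_lit 152) (nat_lit 441911072579) (nat_lit 14)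 (nat_lit 5) (nat_lit 15) (nat_lit 5) (nat_lit 16) (nat_lit 4) (nat_lit 305) (nat_lit 286) (nat_lit 189)) (XT.lf (nat_lit 0) (nat_lit 720829398077) (nat_lit 152) (nat_lit 139110766970) (nat_lit 0) (nat_lit 47961446532) (nat_lit 14) (nat_lit 5) (nat_lit 16) (nat_lit 4) (nat_lit 14) (nat_lit 4) (nat_lit 306) (nat_lit 286) (nat_lit 188)))) (XT.nd (nat_lit 78) (nat_lit 76) (nat_lit 0) (XT.lf (nat_lit 0) (nat_lit 124630068356) (nat_lit 152) (nat_lit 413637508203) (nat_lit 76) (nat_lit 472190959510) (nat_lit 12) (nat_lit 5) (nat_lit 14) (nat_lit 5) (nat_lit 13) (nat_lit 4) (nat_lit 307) (nat_lit 286) (nat_lit 187)) (XT.nd (nat_lit 78) (nat_lit 0) (nat_lit 0) (XT.lf (nat_lit 0) (nat_lit 334968852959) (nat_lit 76) (nat_lit 149568161123) (nat_lit 152) (nat_lit 642471177000) (nat_lit 11) (nat_lit 5) (nat_lit 12) (nat_lit 5) (nat_lit 13) (nat_lit 4) (nat_lit 308) (nat_lit 286) (nat_lit 186)) (XT.lf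 (nat_lit 0) (nat_lit 917938645270) (nat_lit 152) (nat_lit 46628433739) (nat_lit 0) (nat_lit 294912523908) (nat_lit 11) (nat_lit 5) (nat_lit 13) (nat_lit 4) (nat_lit 11) (nat_lit 4) (nat_lit 309) (nat_lit 286) (nat_lit 185))))) (XT.nd (nat_lit 234) (nat_lit 228) (nat_lit 0) (XT.nd (nat_lit 78) (nat_lit 76) (nat_lit 0) (XT.lf (nat_lit 0) (nat_lit 29493221551) (nat_lit 152) (nat_lit 561680280710) (nat_lit 76) (nat_lit 818624232857) (nat_lit 9) (nat_lit 5) (nat_lit 11) (nat_lit 5) (nat_lit 10) (nat_lit 4) (nat_lit 310) (nat_lit 286) (nat_lit 184)) (XT.nd (nat_lit 78) (nat_lit 0) (nat_lit 0) (XT.lf (nat_lit 0) (nat_lit 303020629603) (nat_lit 76) (nat_lit 142194208602) (nat_lit 152) (nat_lit 1135998625762) (nat_lit 8) (nat_lit 5) (nat_lit 9) (nat_lit 5) (nat_lit 10) (nat_lit 4) (nat_lit 311) (nat_lit 286) (nat_lit 183)) (XT.lf (nat_lit 0) (nat_lit 949069960548) (nat_lit 152) (nat_lit 455015794622)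 (nat_lit 0) (nat_lit 372193775951) (nat_lit 8) (nat_lit 5) (nat_lit 10) (nat_lit 4) (nat_lit 8) (nat_lit 4) (nat_lit 312) (nat_lit 286) (nat_lit 182)))) (XT.nd (nat_lit 78) (nat_lit 152) (nat_lit 0) (XT.lf (nat_lit 0) (nat_lit 513386599733) (nat_lit 76) (nat_lit 1031396379809) (nat_lit 76) (nat_lit 454520158576) (nat_lit 7) (nat_lit 4) (nat_lit 8) (nat_lit 5) (nat_lit 8) (nat_lit 4) (nat_lit 313) (nat_lit 286) (nat_lit 181)) (XT.nd (nat_lit 78) (nat_lit 152) (nat_lit 0) (XT.lf (nat_lit 0) (nat_lit 1654603601085) (nat_lit 76) (nat_lit 588496579913) (nat_lit 76) (nat_lit 11620326823) (nat_lit 7) (nat_lit 4) (nat_lit 8) (nat_lit 5) (nat_lit 8) (nat_lit 4) (nat_lit 314) (nat_lit 286) (nat_lit 180)) (XT.lf (nat_lit 0) (nat_lit 427992426000) (nat_lit 76) (nat_lit 55117529187) (nat_lit 152) (nat_lit 2063559470636) (nat_lit 5) (nat_lit 5) (nat_lit 6) (nat_lit 5) (nat_lit 7) (nat_lit 4) (nat_lit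 315) (nat_lit 286) (nat_lit 179)))))) (XT.nd (nat_lit 468) (nat_lit 0) (nat_lit 0) (XT.nd (nat_lit 234) (nat_lit 152) (nat_lit 0) (XT.nd (nat_lit 78) (nat_lit 76) (nat_lit 0) (XT.lf (nat_lit 0) (nat_lit 1082733172550) (nat_lit 152) (nat_lit 1248555201366) (nat_lit 0) (nat_lit 548588445810) (nat_lit 5) (nat_lit 5) (nat_lit 7) (nat_lit 4) (nat_lit 5) (nat_lit 4) (nat_lit 316) (nat_lit 286) (nat_lit 178)) (XT.nd (nat_lit 78) (nat_lit 76) (nat_lit 0) (XT.lf (nat_lit 0) (nat_lit 1773824239577) (nat_lit 152) (nat_lit 249439640345) (nat_lit 0) (nat_lit 1239679493442) (nat_lit 5) (nat_lit 5) (nat_lit 7) (nat_lit 4) (nat_lit 5) (nat_lit 4) (nat_lit 317) (nat_lit 286) (nat_lit 177)) (XT.lf (nat_lit 0) (nat_lit 946911523721) (nat_lit 76) (nat_lit 1644440646528) (nat_lit 76) (nat_lit 1110295883528) (nat_lit 4) (nat_lit 4) (nat_lit 5) (nat_lit 5) (nat_lit 5) (nat_lit 4) (nat_lit 318) (nat_lit 286)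 (nat_lit 176)))) (XT.nd (nat_lit 78) (nat_lit 152) (nat_lit 0) (XT.lf (nat_lit 0) (nat_lit 2337820595505) (nat_lit 76) (nat_lit 1200950824050) (nat_lit 76) (nat_lit 666806046384) (nat_lit 4) (nat_lit 4) (nat_lit 5) (nat_lit 5) (nat_lit 5) (nat_lit 4) (nat_lit 319) (nat_lit 286) (nat_lit 175)) (XT.nd (nat_lit 78) (nat_lit 152) (nat_lit 0) (XT.lf (nat_lit 0) (nat_lit 3937365963953) (nat_lit 76) (nat_lit 690937559513) (nat_lit 76) (nat_lit 156792769095) (nat_lit 4) (nat_lit 4) (nat_lit 5) (nat_lit 5) (nat_lit 5) (nat_lit 4) (nat_lit 320) (nat_lit 286) (nat_lit 174)) (XT.lf (nat_lit 0) (nat_lit 331550815314) (nat_lit 76) (nat_lit 84649000465) (nat_lit 152) (nat_lit 5033878438425) (nat_lit 2) (nat_lit 5) (nat_lit 3) (nat_lit 5) (nat_lit 4) (nat_lit 4) (nat_lit 321) (nat_lit 286) (nat_lit 173))))) (XT.nd (nat_lit 37986) (nat_lit 0) (nat_lit 3724) (XT.nd (nat_lit 78) (nat_lit 0) (nat_lit 0) (XT.lf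 (nat_lit 0) (nat_lit 1106175787438) (nat_lit 152) (nat_lit 4493483190455) (nat_lit 0) (nat_lit 611597258596) (nat_lit 2) (nat_lit 5) (nat_lit 4) (nat_lit 4) (nat_lit 2) (nat_lit 4) (nat_lit 322) (nat_lit 286) (nat_lit 172)) (XT.nd (nat_lit 37830) (nat_lit 0) (nat_lit 3724) (XT.lf (nat_lit 0) (nat_lit 1901989313155) (nat_lit 152) (nat_lit 3777023533756) (nat_lit 0) (nat_lit 1407410776549) (nat_lit 2) (nat_lit 5) (nat_lit 4) (nat_lit 4) (nat_lit 2) (nat_lit 4) (nat_lit 323) (nat_lit 286) (nat_lit 171)) (XT.lf (nat_lit 0) (nat_lit 64866964796) (nat_lit 532) (nat_lit 11945706366) (nat_lit 532) (nat_lit 11945706366) (nat_lit 51) (nat_lit 3) (nat_lit 58) (nat_lit 3) (nat_lit 58) (nat_lit 5) (nat_lit 287) (nat_lit 287) (nat_lit 206)))) (XT.nd (nat_lit 78) (nat_lit 0) (nat_lit 76) (XT.lf (nat_lit 76) (nat_lit 139110638428) (nat_lit 0) (nat_lit 3702401333) (nat_lit 532) (nat_lit 47749539243) (nat_lit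 52) (nat_lit 5) (nat_lit 51) (nat_lit 3) (nat_lit 58) (nat_lit 5) (nat_lit 288) (nat_lit 287) (nat_lit 205)) (XT.nd (nat_lit 78) (nat_lit 0) (nat_lit 76) (XT.lf (nat_lit 76) (nat_lit 124660238311) (nat_lit 0) (nat_lit 40962338160) (nat_lit 532) (nat_lit 39321216598) (nat_lit 53) (nat_lit 5) (nat_lit 52) (nat_lit 5) (nat_lit 59) (nat_lit 5) (nat_lit 289) (nat_lit 287) (nat_lit 204)) (XT.lf (nat_lit 76) (nat_lit 111111964567) (nat_lit 0) (nat_lit 88299800858) (nat_lit 532) (nat_lit 21465767232) (nat_lit 54) (nat_lit 5) (nat_lit 53) (nat_lit 5) (nat_lit 60) (nat_lit 5) (nat_lit 290) (nat_lit 287) (nat_lit 203))))))) (XT.nd (nat_lit 936) (nat_lit 988) (nat_lit 0) (XT.nd (nat_lit 468) (nat_lit 836) (nat_lit 0) (XT.nd (nat_lit 234) (nat_lit 684) (nat_lit 0) (XT.nd (nat_lit 78) (nat_lit 532) (nat_lit 0) (XT.lf (nat_lit 0) (nat_lit 7378445572) (nat_lit 532) (nat_lit 140090030900) (nat_lit 76)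 (nat_lit 91073544922) (nat_lit 47) (nat_lit 5) (nat_lit 54) (nat_lit 5) (nat_lit 48) (nat_lit 5) (nat_lit 291) (nat_lit 287) (nat_lit 202)) (XT.nd (nat_lit 78) (nat_lit 228) (nat_lit 0) (XT.lf (nat_lit 0) (nat_lit 48095220573) (nat_lit 380) (nat_lit 171955613682) (nat_lit 76) (nat_lit 38055390344) (nat_lit 43) (nat_lit 5) (nat_lit 48) (nat_lit 5) (nat_lit 44) (nat_lit 5) (nat_lit 292) (nat_lit 287) (nat_lit 201)) (XT.lf (nat_lit 0) (nat_lit 74051390815) (nat_lit 228) (nat_lit 30911791246) (nat_lit 304) (nat_lit 174838383305) (nat_lit 40) (nat_lit 5) (nat_lit 43) (nat_lit 5) (nat_lit 44) (nat_lit 5) (nat_lit 293) (nat_lit 287) (nat_lit 200)))) (XT.nd (nat_lit 78) (nat_lit 456) (nat_lit 0) (XT.lf (nat_lit 0) (nat_lit 61479161272) (nat_lit 228) (nat_lit 119984429779) (nat_lit 304) (nat_lit 122399436546) (nat_lit 37) (nat_lit 5) (nat_lit 40) (nat_lit 5) (nat_lit 41) (nat_lit 5) (nat_lit 294)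 (nat_lit 287) (nat_lit 199)) (XT.nd (nat_lit 78) (nat_lit 304) (nat_lit 0) (XT.lf (nat_lit 0) (nat_lit 49328562968) (nat_lit 152) (nat_lit 230623400132) (nat_lit 228) (nat_lit 50740714456) (nat_lit 35) (nat_lit 5) (nat_lit 37) (nat_lit 5) (nat_lit 38) (nat_lit 5) (nat_lit 295) (nat_lit 287) (nat_lit 198)) (XT.lf (nat_lit 0) (nat_lit 36032409519) (nat_lit 228) (nat_lit 5475106407) (nat_lit 304) (nat_lit 319064348306) (nat_lit 31) (nat_lit 5) (nat_lit 34) (nat_lit 5) (nat_lit 35) (nat_lit 5) (nat_lit 296) (nat_lit 287) (nat_lit 197))))) (XT.nd (nat_lit 234) (nat_lit 456) (nat_lit 0) (XT.nd (nat_lit 78) (nat_lit 228) (nat_lit 0) (XT.lf (nat_lit 0) (nat_lit 16934643181) (nat_lit 152) (nat_lit 142646112205) (nat_lit 228) (nat_lit 234047363363) (nat_lit 29) (nat_lit 5) (nat_lit 31) (nat_lit 5) (nat_lit 32) (nat_lit 5) (nat_lit 297) (nat_lit 287) (nat_lit 196)) (XT.nd (nat_lit 78) (nat_lit 228)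 (nat_lit 0) (XT.lf (nat_lit 0) (nat_lit 307947063126) (nat_lit 228) (nat_lit 4737995517) (nat_lit 76) (nat_lit 117951186533) (nat_lit 29) (nat_lit 5) (nat_lit 32) (nat_lit 5) (nat_lit 30) (nat_lit 5) (nat_lit 298) (nat_lit 287) (nat_lit 195)) (XT.lf (nat_lit 0) (nat_lit 20036273497) (nat_lit 228) (nat_lit 31405998383) (nat_lit 76) (nat_lit 420548396805) (nat_lit 26) (nat_lit 5) (nat_lit 29) (nat_lit 5) (nat_lit 27) (nat_lit 5) (nat_lit 299) (nat_lit 287) (nat_lit 194)))) (XT.nd (nat_lit 78) (nat_lit 304) (nat_lit 0) (XT.lf (nat_lit 0) (nat_lit 194504156939) (nat_lit 228) (nat_lit 72052838768) (nat_lit 76) (nat_lit 251328467420) (nat_lit 24) (nat_lit 5) (nat_lit 27) (nat_lit 5) (nat_lit 25) (nat_lit 5) (nat_lit 300) (nat_lit 287) (nat_lit 193)) (XT.nd (nat_lit 78) (nat_lit 152) (nat_lit 0) (XT.lf (nat_lit 0) (nat_lit 409179209033) (nat_lit 228) (nat_lit 123669481333) (nat_lit 76) (nat_lit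 36692827676) (nat_lit 22) (nat_lit 5) (nat_lit 25) (nat_lit 5) (nat_lit 23) (nat_lit 4) (nat_lit 301) (nat_lit 287) (nat_lit 192)) (XT.lf (nat_lit 0) (nat_lit 46165266561) (nat_lit 152) (nat_lit 197308276563) (nat_lit 76) (nat_lit 383787330808) (nat_lit 20) (nat_lit 5) (nat_lit 22) (nat_lit 5) (nat_lit 21) (nat_lit 5) (nat_lit 302) (nat_lit 287) (nat_lit 191)))))) (XT.nd (nat_lit 468) (nat_lit 380) (nat_lit 0) (XT.nd (nat_lit 234) (nat_lit 228) (nat_lit 0) (XT.nd (nat_lit 78) (nat_lit 228) (nat_lit 0) (XT.lf (nat_lit 0) (nat_lit 290271742768) (nat_lit 228) (nat_lit 298792778057) (nat_lit 76) (nat_lit 102952791937) (nat_lit 18) (nat_lit 5) (nat_lit 21) (nat_lit 5) (nat_lit 19) (nat_lit 4) (nat_lit 303) (nat_lit 287) (nat_lit 190)) (XT.nd (nat_lit 78) (nat_lit 152) (nat_lit 0) (XT.lf (nat_lit 0) (nat_lit 327771113464) (nat_lit 76) (nat_lit 263733342760) (nat_lit 152) (nat_lit 173341940046)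 (nat_lit 17) (nat_lit 5) (nat_lit 18) (nat_lit 5) (nat_lit 19) (nat_lit 4) (nat_lit 304) (nat_lit 287) (nat_lit 189)) (XT.lf (nat_lit 0) (nat_lit 102335404419) (nat_lit 152) (nat_lit 622844477384) (nat_lit 76) (nat_lit 121849590051) (nat_lit 15) (nat_lit 5) (nat_lit 17) (nat_lit 5) (nat_lit 16) (nat_lit 4) (nat_lit 305) (nat_lit 287) (nat_lit 188)))) (XT.nd (nat_lit 78) (nat_lit 152) (nat_lit 0) (XT.lf (nat_lit 0) (nat_lit 61223762082) (nat_lit 76) (nat_lit 369990654940) (nat_lit 152) (nat_lit 508196293300) (nat_lit 14) (nat_lit 5) (nat_lit 15) (nat_lit 5) (nat_lit 16) (nat_lit 4) (nat_lit 306) (nat_lit 287) (nat_lit 187)) (XT.nd (nat_lit 78) (nat_lit 152) (nat_lit 0) (XT.lf (nat_lit 0) (nat_lit 828954988963) (nat_lit 152) (nat_lit 159975222843) (nat_lit 0) (nat_lit 55156546231) (nat_lit 14) (nat_lit 5) (nat_lit 16) (nat_lit 4) (nat_lit 14) (nat_lit 4) (nat_lit 307) (nat_lit 287) (nat_lit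 186)) (XT.lf (nat_lit 0) (nat_lit 143325681812) (nat_lit 152) (nat_lit 475681099300) (nat_lit 76) (nat_lit 543020446481) (nat_lit 12) (nat_lit 5) (nat_lit 14) (nat_lit 5) (nat_lit 13) (nat_lit 4) (nat_lit 308) (nat_lit 287) (nat_lit 185))))) (XT.nd (nat_lit 234) (nat_lit 152) (nat_lit 0) (XT.nd (nat_lit 78) (nat_lit 152) (nat_lit 0) (XT.lf (nat_lit 0) (nat_lit 385216043773) (nat_lit 76) (nat_lit 172002526530) (nat_lit 152) (nat_lit 738840768564) (nat_lit 11) (nat_lit 5) (nat_lit 12) (nat_lit 5) (nat_lit 13) (nat_lit 4) (nat_lit 309) (nat_lit 287) (nat_lit 184)) (XT.nd (nat_lit 78) (nat_lit 152) (nat_lit 0) (XT.lf (nat_lit 0) (nat_lit 1055630333158) (nat_lit 152) (nat_lit 53621026544) (nat_lit 0) (nat_lit 339150111888) (nat_lit 11) (nat_lit 5) (nat_lit 13) (nat_lit 4) (nat_lit 11) (nat_lit 4) (nat_lit 310) (nat_lit 287) (nat_lit 183)) (XT.lf (nat_lit 0) (nat_lit 33918037942) (nat_lit 152)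 (nat_lit 645930747850) (nat_lit 76) (nat_lit 941418542556) (nat_lit 9) (nat_lit 5) (nat_lit 11) (nat_lit 5) (nat_lit 10) (nat_lit 4) (nat_lit 311) (nat_lit 287) (nat_lit 182)))) (XT.nd (nat_lit 156) (nat_lit 76) (nat_lit 0) (XT.nd (nat_lit 78) (nat_lit 0) (nat_lit 0) (XT.lf (nat_lit 0) (nat_lit 348475165696) (nat_lit 76) (nat_lit 163522657396) (nat_lit 152) (nat_lit 1306397599402) (nat_lit 8) (nat_lit 5) (nat_lit 9) (nat_lit 5) (nat_lit 10) (nat_lit 4) (nat_lit 312) (nat_lit 287) (nat_lit 181)) (XT.lf (nat_lit 0) (nat_lit 1091431129040) (nat_lit 152) (nat_lit 523266871375) (nat_lit 0) (nat_lit 428023406131) (nat_lit 8) (nat_lit 5) (nat_lit 10) (nat_lit 4) (nat_lit 8) (nat_lit 4) (nat_lit 313) (nat_lit 287) (nat_lit 180))) (XT.nd (nat_lit 78) (nat_lit 0) (nat_lit 0) (XT.lf (nat_lit 0) (nat_lit 590395772734) (nat_lit 76) (nat_lit 1186105268634) (nat_lit 76) (nat_lit 522697518023) (nat_lit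 7) (nat_lit 4) (nat_lit 8) (nat_lit 5) (nat_lit 8) (nat_lit 4) (nat_lit 314) (nat_lit 287) (nat_lit 179)) (XT.lf (nat_lit 0) (nat_lit 1902795169980) (nat_lit 76) (nat_lit 676770572860) (nat_lit 76) (nat_lit 13362798160) (nat_lit 7) (nat_lit 4) (nat_lit 8) (nat_lit 5) (nat_lit 8) (nat_lit 4) (nat_lit 315) (nat_lit 287) (nat_lit 178))))))))
noncomputable def xc53 : XT := (XT.nd (nat_lit 39702) (nat_lit 0) (nat_lit 0) (XT.nd (nat_lit 38766) (nat_lit 0) (nat_lit 1368) (XT.nd (nat_lit 468) (nat_lit 152) (nat_lit 0) (XT.nd (nat_lit 234) (nat_lit 76) (nat_lit 0) (XT.nd (nat_lit 78) (nat_lit 0) (nat_lit 0) (XT.lf (nat_lit 0) (nat_lit 492192258193) (nat_lit 76) (nat_lit 63384690767) (nat_lit 152) (nat_lit 2373092850520) (nat_lit 5) (nat_lit 5) (nat_lit 6) (nat_lit 5) (nat_lit 7) (nat_lit 4) (nat_lit 316) (nat_lit 287) (nat_lit 177)) (XT.nd (nat_lit 78) (nat_lit 0) (nat_lit 0) (XT.lf (nat_lit 0)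 (nat_lit 1245143593428) (nat_lit 152) (nat_lit 1435837614389) (nat_lit 0) (nat_lit 630877099113) (nat_lit 5) (nat_lit 5) (nat_lit 7) (nat_lit 4) (nat_lit 5) (nat_lit 4) (nat_lit 317) (nat_lit 287) (nat_lit 176)) (XT.lf (nat_lit 0) (nat_lit 2039898262467) (nat_lit 152) (nat_lit 286854832326) (nat_lit 0) (nat_lit 1425631753486) (nat_lit 5) (nat_lit 5) (nat_lit 7) (nat_lit 4) (nat_lit 5) (nat_lit 4) (nat_lit 318) (nat_lit 287) (nat_lit 175)))) (XT.nd (nat_lit 78) (nat_lit 0) (nat_lit 0) (XT.lf (nat_lit 0) (nat_lit 1088948942522) (nat_lit 76) (nat_lit 1891106406345) (nat_lit 76) (nat_lit 1276839884612) (nat_lit 4) (nat_lit 4) (nat_lit 5) (nat_lit 5) (nat_lit 5) (nat_lit 4) (nat_lit 319) (nat_lit 287) (nat_lit 174)) (XT.nd (nat_lit 78) (nat_lit 0) (nat_lit 0) (XT.lf (nat_lit 0) (nat_lit 2688494285043) (nat_lit 76) (nat_lit 1381093154473) (nat_lit 76) (nat_lit 766826621651) (nat_lit 4) (nat_lit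 4) (nat_lit 5) (nat_lit 5) (nat_lit 5) (nat_lit 4) (nat_lit 320) (nat_lit 287) (nat_lit 173)) (XT.lf (nat_lit 0) (nat_lit 4527971380469) (nat_lit 76) (nat_lit 794577938497) (nat_lit 76) (nat_lit 180311396033) (nat_lit 4) (nat_lit 4) (nat_lit 5) (nat_lit 5) (nat_lit 5) (nat_lit 4) (nat_lit 321) (nat_lit 287) (nat_lit 172))))) (XT.nd (nat_lit 38064) (nat_lit 0) (nat_lit 3724) (XT.nd (nat_lit 78) (nat_lit 0) (nat_lit 0) (XT.lf (nat_lit 0) (nat_lit 381283928637) (nat_lit 76) (nat_lit 97346109577) (nat_lit 152) (nat_lit 5788959934044) (nat_lit 2) (nat_lit 5) (nat_lit 3) (nat_lit 5) (nat_lit 4) (nat_lit 4) (nat_lit 322) (nat_lit 287) (nat_lit 171)) (XT.nd (nat_lit 37908) (nat_lit 0) (nat_lit 3724) (XT.lf (nat_lit 0) (nat_lit 1272102378044) (nat_lit 152) (nat_lit 5167505229626) (nat_lit 0) (nat_lit 703337046432) (nat_lit 2) (nat_lit 5) (nat_lit 4) (nat_lit 4) (nat_lit 2) (nat_lit 4) (nat_lit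 323) (nat_lit 287) (nat_lit 170)) (XT.lf (nat_lit 0) (nat_lit 74600317857) (nat_lit 532) (nat_lit 13735772248) (nat_lit 532) (nat_lit 13735772248) (nat_lit 51) (nat_lit 3) (nat_lit 58) (nat_lit 3) (nat_lit 58) (nat_lit 5) (nat_lit 288) (nat_lit 288) (nat_lit 204)))) (XT.nd (nat_lit 78) (nat_lit 0) (nat_lit 76) (XT.lf (nat_lit 76) (nat_lit 159980511297) (nat_lit 0) (nat_lit 4260316880) (nat_lit 532) (nat_lit 54905658669) (nat_lit 52) (nat_lit 5) (nat_lit 51) (nat_lit 3) (nat_lit 58) (nat_lit 5) (nat_lit 289) (nat_lit 288) (nat_lit 203)) (XT.nd (nat_lit 78) (nat_lit 0) (nat_lit 76) (XT.lf (nat_lit 76) (nat_lit 143362768489) (nat_lit 0) (nat_lit 47108296751) (nat_lit 532) (nat_lit 45213877812) (nat_lit 53) (nat_lit 5) (nat_lit 52) (nat_lit 5) (nat_lit 59) (nat_lit 5) (nat_lit 290) (nat_lit 288) (nat_lit 202)) (XT.lf (nat_lit 76) (nat_lit 127782376807) (nat_lit 0) (nat_lit 101545643590) (nat_lit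 532) (nat_lit 24680773560) (nat_lit 54) (nat_lit 5) (nat_lit 53) (nat_lit 5) (nat_lit 60) (nat_lit 5) (nat_lit 291) (nat_lit 288) (nat_lit 201)))))) (XT.nd (nat_lit 468) (nat_lit 836) (nat_lit 0) (XT.nd (nat_lit 234) (nat_lit 684) (nat_lit 0) (XT.nd (nat_lit 78) (nat_lit 532) (nat_lit 0) (XT.lf (nat_lit 0) (nat_lit 8489297844) (nat_lit 532) (nat_lit 161099644892) (nat_lit 76) (nat_lit 104734047475) (nat_lit 47) (nat_lit 5) (nat_lit 54) (nat_lit 5) (nat_lit 48) (nat_lit 5) (nat_lit 292) (nat_lit 288) (nat_lit 200)) (XT.nd (nat_lit 78) (nat_lit 228) (nat_lit 0) (XT.lf (nat_lit 0) (nat_lit 55313140013) (nat_lit 380) (nat_lit 197745094938) (nat_lit 76) (nat_lit 43763625858) (nat_lit 43) (nat_lit 5) (nat_lit 48) (nat_lit 5) (nat_lit 44) (nat_lit 5) (nat_lit 293) (nat_lit 288) (nat_lit 199)) (XT.lf (nat_lit 0) (nat_lit 85162633437) (nat_lit 228) (nat_lit 35548272973) (nat_lit 304) (nat_lit 201060628284)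 (nat_lit 40) (nat_lit 5) (nat_lit 43) (nat_lit 5) (nat_lit 44) (nat_lit 5) (nat_lit 294) (nat_lit 288) (nat_lit 198)))) (XT.nd (nat_lit 78) (nat_lit 456) (nat_lit 0) (XT.lf (nat_lit 0) (nat_lit 70704507015) (nat_lit 228) (nat_lit 137981535698) (nat_lit 304) (nat_lit 140756201014) (nat_lit 37) (nat_lit 5) (nat_lit 40) (nat_lit 5) (nat_lit 41) (nat_lit 5) (nat_lit 295) (nat_lit 288) (nat_lit 197)) (XT.nd (nat_lit 78) (nat_lit 304) (nat_lit 0) (XT.lf (nat_lit 0) (nat_lit 56731230683) (nat_lit 152) (nat_lit 265216152979) (nat_lit 228) (nat_lit 58348981120) (nat_lit 35) (nat_lit 5) (nat_lit 37) (nat_lit 5) (nat_lit 38) (nat_lit 5) (nat_lit 296) (nat_lit 288) (nat_lit 196)) (XT.lf (nat_lit 0) (nat_lit 41440501568) (nat_lit 228) (nat_lit 6295565889) (nat_lit 304) (nat_lit 366921379001) (nat_lit 31) (nat_lit 5) (nat_lit 34) (nat_lit 5) (nat_lit 35) (nat_lit 5) (nat_lit 297) (nat_lit 288) (nat_lit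 195))))) (XT.nd (nat_lit 234) (nat_lit 456) (nat_lit 0) (XT.nd (nat_lit 78) (nat_lit 228) (nat_lit 0) (XT.lf (nat_lit 0) (nat_lit 19477959770) (nat_lit 152) (nat_lit 164042108778) (nat_lit 228) (nat_lit 269152089000) (nat_lit 29) (nat_lit 5) (nat_lit 31) (nat_lit 5) (nat_lit 32) (nat_lit 5) (nat_lit 298) (nat_lit 288) (nat_lit 194)) (XT.nd (nat_lit 78) (nat_lit 228) (nat_lit 0) (XT.lf (nat_lit 0) (nat_lit 354141054757) (nat_lit 228) (nat_lit 5445845286) (nat_lit 76) (nat_lit 135644624706) (nat_lit 29) (nat_lit 5) (nat_lit 32) (nat_lit 5) (nat_lit 30) (nat_lit 5) (nat_lit 299) (nat_lit 288) (nat_lit 193)) (XT.lf (nat_lit 0) (nat_lit 23043504836) (nat_lit 228) (nat_lit 36114193391) (nat_lit 76) (nat_lit 483631425419) (nat_lit 26) (nat_lit 5) (nat_lit 29) (nat_lit 5) (nat_lit 27) (nat_lit 5) (nat_lit 300) (nat_lit 288) (nat_lit 192)))) (XT.nd (nat_lit 78) (nat_lit 304) (nat_lit 0) (XT.lf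 (nat_lit 0) (nat_lit 223681417488) (nat_lit 228) (nat_lit 82858178297) (nat_lit 76) (nat_lit 289028554008) (nat_lit 24) (nat_lit 5) (nat_lit 27) (nat_lit 5) (nat_lit 25) (nat_lit 5) (nat_lit 301) (nat_lit 288) (nat_lit 191)) (XT.nd (nat_lit 78) (nat_lit 152) (nat_lit 0) (XT.lf (nat_lit 0) (nat_lit 470557592139) (nat_lit 228) (nat_lit 142217437459) (nat_lit 76) (nat_lit 42197594407) (nat_lit 22) (nat_lit 5) (nat_lit 25) (nat_lit 5) (nat_lit 23) (nat_lit 4) (nat_lit 302) (nat_lit 288) (nat_lit 190)) (XT.lf (nat_lit 0) (nat_lit 53091453357) (nat_lit 152) (nat_lit 226902185873) (nat_lit 76) (nat_lit 441356252758) (nat_lit 20) (nat_lit 5) (nat_lit 22) (nat_lit 5) (nat_lit 21) (nat_lit 5) (nat_lit 303) (nat_lit 288) (nat_lit 189))))))) (XT.nd (nat_lit 936) (nat_lit 380) (nat_lit 0) (XT.nd (nat_lit 468) (nat_lit 380) (nat_lit 0) (XT.nd (nat_lit 234) (nat_lit 228) (nat_lit 0) (XT.nd (nat_lit 78)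 (nat_lit 228) (nat_lit 0) (XT.lf (nat_lit 0) (nat_lit 333813791038) (nat_lit 228) (nat_lit 343609478494) (nat_lit 76) (nat_lit 118396536074) (nat_lit 18) (nat_lit 5) (nat_lit 21) (nat_lit 5) (nat_lit 19) (nat_lit 4) (nat_lit 304) (nat_lit 288) (nat_lit 188)) (XT.nd (nat_lit 78) (nat_lit 152) (nat_lit 0) (XT.lf (nat_lit 0) (nat_lit 376938809159) (nat_lit 76) (nat_lit 303292483293) (nat_lit 152) (nat_lit 199341968861) (nat_lit 17) (nat_lit 5) (nat_lit 18) (nat_lit 5) (nat_lit 19) (nat_lit 4) (nat_lit 305) (nat_lit 288) (nat_lit 187)) (XT.lf (nat_lit 0) (nat_lit 117686823692) (nat_lit 152) (nat_lit 716269165415) (nat_lit 76) (nat_lit 140127814052) (nat_lit 15) (nat_lit 5) (nat_lit 17) (nat_lit 5) (nat_lit 16) (nat_lit 4) (nat_lit 306) (nat_lit 288) (nat_lit 186)))) (XT.nd (nat_lit 78) (nat_lit 152) (nat_lit 0) (XT.lf (nat_lit 0) (nat_lit 70409142072) (nat_lit 76) (nat_lit 425488445180) (nat_lit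 152) (nat_lit 584424648322) (nat_lit 14) (nat_lit 5) (nat_lit 15) (nat_lit 5) (nat_lit 16) (nat_lit 4) (nat_lit 307) (nat_lit 288) (nat_lit 185)) (XT.nd (nat_lit 78) (nat_lit 152) (nat_lit 0) (XT.lf (nat_lit 0) (nat_lit 953299130445) (nat_lit 152) (nat_lit 183969873625) (nat_lit 0) (nat_lit 63430695628) (nat_lit 14) (nat_lit 5) (nat_lit 16) (nat_lit 4) (nat_lit 14) (nat_lit 4) (nat_lit 308) (nat_lit 288) (nat_lit 184)) (XT.lf (nat_lit 0) (nat_lit 164825368263) (nat_lit 152) (nat_lit 547031725341) (nat_lit 76) (nat_lit 624474150915) (nat_lit 12) (nat_lit 5) (nat_lit 14) (nat_lit 5) (nat_lit 13) (nat_lit 4) (nat_lit 309) (nat_lit 288) (nat_lit 183))))) (XT.nd (nat_lit 234) (nat_lit 152) (nat_lit 0) (XT.nd (nat_lit 78) (nat_lit 152) (nat_lit 0) (XT.lf (nat_lit 0) (nat_lit 442999858936) (nat_lit 76) (nat_lit 197802256163) (nat_lit 152) (nat_lit 849666063443) (nat_lit 11) (nat_lit 5) (nat_lit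 12) (nat_lit 5) (nat_lit 13) (nat_lit 4) (nat_lit 310) (nat_lit 288) (nat_lit 182)) (XT.nd (nat_lit 78) (nat_lit 152) (nat_lit 0) (XT.lf (nat_lit 0) (nat_lit 1213975556929) (nat_lit 152) (nat_lit 61662916059) (nat_lit 0) (nat_lit 390023165075) (nat_lit 11) (nat_lit 5) (nat_lit 13) (nat_lit 4) (nat_lit 11) (nat_lit 4) (nat_lit 311) (nat_lit 288) (nat_lit 181)) (XT.lf (nat_lit 0) (nat_lit 39006373620) (nat_lit 152) (nat_lit 742819169127) (nat_lit 76) (nat_lit 1082631834163) (nat_lit 9) (nat_lit 5) (nat_lit 11) (nat_lit 5) (nat_lit 10) (nat_lit 4) (nat_lit 312) (nat_lit 288) (nat_lit 180)))) (XT.nd (nat_lit 78) (nat_lit 76) (nat_lit 0) (XT.lf (nat_lit 0) (nat_lit 400747530647) (nat_lit 76) (nat_lit 188050539941) (nat_lit 152) (nat_lit 1502356619105) (nat_lit 8) (nat_lit 5) (nat_lit 9) (nat_lit 5) (nat_lit 10) (nat_lit 4) (nat_lit 313) (nat_lit 288) (nat_lit 179)) (XT.nd (nat_lit 78) (nat_lit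 76) (nat_lit 0) (XT.lf (nat_lit 0) (nat_lit 1255146308347) (nat_lit 152) (nat_lit 601755924811) (nat_lit 0) (nat_lit 492227343354) (nat_lit 8) (nat_lit 5) (nat_lit 10) (nat_lit 4) (nat_lit 8) (nat_lit 4) (nat_lit 314) (nat_lit 288) (nat_lit 178)) (XT.lf (nat_lit 0) (nat_lit 678956033194) (nat_lit 76) (nat_lit 1364020629329) (nat_lit 76) (nat_lit 601101643390) (nat_lit 7) (nat_lit 4) (nat_lit 8) (nat_lit 5) (nat_lit 8) (nat_lit 4) (nat_lit 315) (nat_lit 288) (nat_lit 177)))))) (XT.nd (nat_lit 468) (nat_lit 152) (nat_lit 0) (XT.nd (nat_lit 234) (nat_lit 76) (nat_lit 0) (XT.nd (nat_lit 78) (nat_lit 152) (nat_lit 0) (XT.lf (nat_lit 0) (nat_lit 2188215223346) (nat_lit 76) (nat_lit 778285785223) (nat_lit 76) (nat_lit 15366781070) (nat_lit 7) (nat_lit 4) (nat_lit 8) (nat_lit 5) (nat_lit 8) (nat_lit 4) (nat_lit 316) (nat_lit 288) (nat_lit 176)) (XT.nd (nat_lit 78) (nat_lit 0) (nat_lit 0) (XT.lf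 (nat_lit 0) (nat_lit 566021829091) (nat_lit 76) (nat_lit 72892040660) (nat_lit 152) (nat_lit 2729056369242) (nat_lit 5) (nat_lit 5) (nat_lit 6) (nat_lit 5) (nat_lit 7) (nat_lit 4) (nat_lit 317) (nat_lit 288) (nat_lit 175)) (XT.lf (nat_lit 0) (nat_lit 1431915468924) (nat_lit 152) (nat_lit 1651212600833) (nat_lit 0) (nat_lit 725508956179) (nat_lit 5) (nat_lit 5) (nat_lit 7) (nat_lit 4) (nat_lit 5) (nat_lit 4) (nat_lit 318) (nat_lit 288) (nat_lit 174)))) (XT.nd (nat_lit 78) (nat_lit 76) (nat_lit 0) (XT.lf (nat_lit 0) (nat_lit 2345883294429) (nat_lit 152) (nat_lit 329882486989) (nat_lit 0) (nat_lit 1639476770595) (nat_lit 5) (nat_lit 5) (nat_lit 7) (nat_lit 4) (nat_lit 5) (nat_lit 4) (nat_lit 319) (nat_lit 288) (nat_lit 173)) (XT.nd (nat_lit 78) (nat_lit 0) (nat_lit 0) (XT.lf (nat_lit 0) (nat_lit 1252291805823) (nat_lit 76) (nat_lit 2174772112355) (nat_lit 76) (nat_lit 1468365578878) (nat_lit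 4) (nat_lit 4) (nat_lit 5) (nat_lit 5) (nat_lit 5) (nat_lit 4) (nat_lit 320) (nat_lit 288) (nat_lit 172)) (XT.lf (nat_lit 0) (nat_lit 3091768881645) (nat_lit 76) (nat_lit 1588256905955) (nat_lit 76) (nat_lit 881850364093) (nat_lit 4) (nat_lit 4) (nat_lit 5) (nat_lit 5) (nat_lit 5) (nat_lit 4) (nat_lit 321) (nat_lit 288) (nat_lit 171))))) (XT.nd (nat_lit 38142) (nat_lit 0) (nat_lit 3420) (XT.nd (nat_lit 78) (nat_lit 152) (nat_lit 0) (XT.lf (nat_lit 0) (nat_lit 5207167482188) (nat_lit 76) (nat_lit 913764436499) (nat_lit 76) (nat_lit 207357887346) (nat_lit 4) (nat_lit 4) (nat_lit 5) (nat_lit 5) (nat_lit 5) (nat_lit 4) (nat_lit 322) (nat_lit 288) (nat_lit 170)) (XT.nd (nat_lit 37986) (nat_lit 0) (nat_lit 3724) (XT.lf (nat_lit 0) (nat_lit 438476889219) (nat_lit 76) (nat_lit 111947843815) (nat_lit 152) (nat_lit 6657303719882) (nat_lit 2) (nat_lit 5) (nat_lit 3) (nat_lit 5) (nat_lit 4) (nat_lit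 4) (nat_lit 323) (nat_lit 288) (nat_lit 169)) (XT.lf (nat_lit 0) (nat_lit 85792867117) (nat_lit 532) (nat_lit 15794784533) (nat_lit 532) (nat_lit 15794784533) (nat_lit 51) (nat_lit 3) (nat_lit 58) (nat_lit 3) (nat_lit 58) (nat_lit 5) (nat_lit 289) (nat_lit 289) (nat_lit 202)))) (XT.nd (nat_lit 156) (nat_lit 304) (nat_lit 0) (XT.nd (nat_lit 78) (nat_lit 0) (nat_lit 76) (XT.lf (nat_lit 76) (nat_lit 183980065954) (nat_lit 0) (nat_lit 4901296622) (nat_lit 532) (nat_lit 63136735098) (nat_lit 52) (nat_lit 5) (nat_lit 51) (nat_lit 3) (nat_lit 58) (nat_lit 5) (nat_lit 290) (nat_lit 289) (nat_lit 201)) (XT.lf (nat_lit 76) (nat_lit 164869826054) (nat_lit 0) (nat_lit 54175757042) (nat_lit 532) (nat_lit 51991784606) (nat_lit 53) (nat_lit 5) (nat_lit 52) (nat_lit 5) (nat_lit 59) (nat_lit 5) (nat_lit 291) (nat_lit 289) (nat_lit 200))) (XT.nd (nat_lit 78) (nat_lit 456) (nat_lit 0) (XT.lf (nat_lit 76)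 (nat_lit 146952468718) (nat_lit 0) (nat_lit 116778149943) (nat_lit 532) (nat_lit 28379215676) (nat_lit 54) (nat_lit 5) (nat_lit 53) (nat_lit 5) (nat_lit 60) (nat_lit 5) (nat_lit 292) (nat_lit 289) (nat_lit 199)) (XT.lf (nat_lit 0) (nat_lit 9765781698) (nat_lit 532) (nat_lit 185261649741) (nat_lit 76) (nat_lit 120443754456) (nat_lit 47) (nat_lit 5) (nat_lit 54) (nat_lit 5) (nat_lit 48) (nat_lit 5) (nat_lit 293) (nat_lit 289) (nat_lit 198))))))))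
noncomputable def xc54 : XT := (XT.nd (nat_lit 1872) (nat_lit 228) (nat_lit 0) (XT.nd (nat_lit 936) (nat_lit 836) (nat_lit 0) (XT.nd (nat_lit 468) (nat_lit 836) (nat_lit 0) (XT.nd (nat_lit 234) (nat_lit 608) (nat_lit 0) (XT.nd (nat_lit 78) (nat_lit 456) (nat_lit 0) (XT.lf (nat_lit 0) (nat_lit 63612860621) (nat_lit 380) (nat_lit 227403939862) (nat_lit 76) (nat_lit 50328114510) (nat_lit 43) (nat_lit 5) (nat_lit 48) (nat_lit 5) (nat_lit 44) (nat_lit 5) (nat_lit 294) (nat_lit 289) (nat_lit 197)) (XT.nd (nat_lit 78) (nat_lit 228) (nat_lit 0) (XT.lf (nat_lit 0) (nat_lit 97939700663) (nat_lit 228) (nat_lit 40880296937) (nat_lit 304) (nat_lit 231217066558) (nat_lit 40) (nat_lit 5) (nat_lit 43) (nat_lit 5) (nat_lit 44) (nat_lit 5) (nat_lit 295) (nat_lit 289) (nat_lit 196)) (XT.lf (nat_lit 0) (nat_lit 81312808060) (nat_lit 228) (nat_lit 158678343711) (nat_lit 304) (nat_lit 161867248546) (nat_lit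 37) (nat_lit 5) (nat_lit 40) (nat_lit 5) (nat_lit 41) (nat_lit 5) (nat_lit 296) (nat_lit 289) (nat_lit 195)))) (XT.nd (nat_lit 78) (nat_lit 456) (nat_lit 0) (XT.lf (nat_lit 0) (nat_lit 65243473524) (nat_lit 152) (nat_lit 304998003394) (nat_lit 228) (nat_lit 67099180458) (nat_lit 35) (nat_lit 5) (nat_lit 37) (nat_lit 5) (nat_lit 38) (nat_lit 5) (nat_lit 297) (nat_lit 289) (nat_lit 194)) (XT.nd (nat_lit 78) (nat_lit 152) (nat_lit 0) (XT.lf (nat_lit 0) (nat_lit 47659019617) (nat_lit 228) (nat_lit 7239290958) (nat_lit 304) (nat_lit 421957603582) (nat_lit 31) (nat_lit 5) (nat_lit 34) (nat_lit 5) (nat_lit 35) (nat_lit 5) (nat_lit 298) (nat_lit 289) (nat_lit 193)) (XT.lf (nat_lit 0) (nat_lit 22402012988) (nat_lit 152) (nat_lit 188647729248) (nat_lit 228) (nat_lit 309523103585) (nat_lit 29) (nat_lit 5) (nat_lit 31) (nat_lit 5) (nat_lit 32) (nat_lit 5) (nat_lit 299) (nat_lit 289) (nat_lit 192)))))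 (XT.nd (nat_lit 234) (nat_lit 456) (nat_lit 0) (XT.nd (nat_lit 78) (nat_lit 380) (nat_lit 0) (XT.lf (nat_lit 0) (nat_lit 407263673962) (nat_lit 228) (nat_lit 6260567404) (nat_lit 76) (nat_lit 155991893228) (nat_lit 29) (nat_lit 5) (nat_lit 32) (nat_lit 5) (nat_lit 30) (nat_lit 5) (nat_lit 300) (nat_lit 289) (nat_lit 191)) (XT.nd (nat_lit 78) (nat_lit 152) (nat_lit 0) (XT.lf (nat_lit 0) (nat_lit 26501384296) (nat_lit 228) (nat_lit 41529277219) (nat_lit 76) (nat_lit 556176720777) (nat_lit 26) (nat_lit 5) (nat_lit 29) (nat_lit 5) (nat_lit 27) (nat_lit 5) (nat_lit 301) (nat_lit 289) (nat_lit 190)) (XT.lf (nat_lit 0) (nat_lit 257234867925) (nat_lit 228) (nat_lit 95284949439) (nat_lit 76) (nat_lit 332383454482) (nat_lit 24) (nat_lit 5) (nat_lit 27) (nat_lit 5) (nat_lit 25) (nat_lit 5) (nat_lit 302) (nat_lit 289) (nat_lit 189)))) (XT.nd (nat_lit 78) (nat_lit 304) (nat_lit 0) (XT.lf (nat_lit 0)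 (nat_lit 541142366500) (nat_lit 228) (nat_lit 163548188373) (nat_lit 76) (nat_lit 48527870679) (nat_lit 22) (nat_lit 5) (nat_lit 25) (nat_lit 5) (nat_lit 23) (nat_lit 4) (nat_lit 303) (nat_lit 289) (nat_lit 188)) (XT.nd (nat_lit 78) (nat_lit 152) (nat_lit 0) (XT.lf (nat_lit 0) (nat_lit 61056227551) (nat_lit 152) (nat_lit 260935750294) (nat_lit 76) (nat_lit 507560312471) (nat_lit 20) (nat_lit 5) (nat_lit 22) (nat_lit 5) (nat_lit 21) (nat_lit 5) (nat_lit 304) (nat_lit 289) (nat_lit 187)) (XT.lf (nat_lit 0) (nat_lit 383886832741) (nat_lit 228) (nat_lit 395149224449) (nat_lit 76) (nat_lit 136156640566) (nat_lit 18) (nat_lit 5) (nat_lit 21) (nat_lit 5) (nat_lit 19) (nat_lit 4) (nat_lit 305) (nat_lit 289) (nat_lit 186)))))) (XT.nd (nat_lit 468) (nat_lit 304) (nat_lit 0) (XT.nd (nat_lit 234) (nat_lit 228) (nat_lit 0) (XT.nd (nat_lit 78) (nat_lit 228) (nat_lit 0) (XT.lf (nat_lit 0) (nat_lit 433481164503)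 (nat_lit 76) (nat_lit 348785704837) (nat_lit 152) (nat_lit 229242309791) (nat_lit 17) (nat_lit 5) (nat_lit 18) (nat_lit 5) (nat_lit 19) (nat_lit 4) (nat_lit 306) (nat_lit 289) (nat_lit 185)) (XT.nd (nat_lit 78) (nat_lit 76) (nat_lit 0) (XT.lf (nat_lit 0) (nat_lit 135340685515) (nat_lit 152) (nat_lit 823708040358) (nat_lit 76) (nat_lit 161147580105) (nat_lit 15) (nat_lit 5) (nat_lit 17) (nat_lit 5) (nat_lit 16) (nat_lit 4) (nat_lit 307) (nat_lit 289) (nat_lit 184)) (XT.lf (nat_lit 0) (nat_lit 80971886295) (nat_lit 76) (nat_lit 489311100992) (nat_lit 152) (nat_lit 672087522151) (nat_lit 14) (nat_lit 5) (nat_lit 15) (nat_lit 5) (nat_lit 16) (nat_lit 4) (nat_lit 308) (nat_lit 289) (nat_lit 183)))) (XT.nd (nat_lit 78) (nat_lit 228) (nat_lit 0) (XT.lf (nat_lit 0) (nat_lit 1096294675352) (nat_lit 152) (nat_lit 211564120155) (nat_lit 0) (nat_lit 72945804670) (nat_lit 14) (nat_lit 5) (nat_lit 16)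 (nat_lit 4) (nat_lit 14) (nat_lit 4) (nat_lit 309) (nat_lit 289) (nat_lit 182)) (XT.nd (nat_lit 78) (nat_lit 76) (nat_lit 0) (XT.lf (nat_lit 0) (nat_lit 189549804262) (nat_lit 152) (nat_lit 629085320548) (nat_lit 76) (nat_lit 718145755565) (nat_lit 12) (nat_lit 5) (nat_lit 14) (nat_lit 5) (nat_lit 13) (nat_lit 4) (nat_lit 310) (nat_lit 289) (nat_lit 181)) (XT.lf (nat_lit 0) (nat_lit 509450902878) (nat_lit 76) (nat_lit 227472103587) (nat_lit 152) (nat_lit 977115352614) (nat_lit 11) (nat_lit 5) (nat_lit 12) (nat_lit 5) (nat_lit 13) (nat_lit 4) (nat_lit 311) (nat_lit 289) (nat_lit 180))))) (XT.nd (nat_lit 234) (nat_lit 76) (nat_lit 0) (XT.nd (nat_lit 78) (nat_lit 228) (nat_lit 0) (XT.lf (nat_lit 0) (nat_lit 1396072399956) (nat_lit 152) (nat_lit 70911397350) (nat_lit 0) (nat_lit 448527045434) (nat_lit 11) (nat_lit 5) (nat_lit 13) (nat_lit 4) (nat_lit 11) (nat_lit 4) (nat_lit 312) (nat_lit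 289) (nat_lit 179)) (XT.nd (nat_lit 78) (nat_lit 76) (nat_lit 0) (XT.lf (nat_lit 0) (nat_lit 44857806024) (nat_lit 152) (nat_lit 854241144005) (nat_lit 76) (nat_lit 1245026995090) (nat_lit 9) (nat_lit 5) (nat_lit 11) (nat_lit 5) (nat_lit 10) (nat_lit 4) (nat_lit 313) (nat_lit 289) (nat_lit 178)) (XT.lf (nat_lit 0) (nat_lit 460860484514) (nat_lit 76) (nat_lit 216257730713) (nat_lit 152) (nat_lit 1727709643005) (nat_lit 8) (nat_lit 5) (nat_lit 9) (nat_lit 5) (nat_lit 10) (nat_lit 4) (nat_lit 314) (nat_lit 289) (nat_lit 177)))) (XT.nd (nat_lit 78) (nat_lit 76) (nat_lit 0) (XT.lf (nat_lit 0) (nat_lit 1443418640195) (nat_lit 152) (nat_lit 692018574576) (nat_lit 0) (nat_lit 566061767204) (nat_lit 8) (nat_lit 5) (nat_lit 10) (nat_lit 4) (nat_lit 8) (nat_lit 4) (nat_lit 315) (nat_lit 289) (nat_lit 176)) (XT.nd (nat_lit 78) (nat_lit 0) (nat_lit 0) (XT.lf (nat_lit 0) (nat_lit 780800114581) (nat_lit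 76) (nat_lit 1568623398889) (nat_lit 76) (nat_lit 691266510060) (nat_lit 7) (nat_lit 4) (nat_lit 8) (nat_lit 5) (nat_lit 8) (nat_lit 4) (nat_lit 316) (nat_lit 289) (nat_lit 175)) (XT.lf (nat_lit 0) (nat_lit 2516448095028) (nat_lit 76) (nat_lit 895028370538) (nat_lit 76) (nat_lit 17671467936) (nat_lit 7) (nat_lit 4) (nat_lit 8) (nat_lit 5) (nat_lit 8) (nat_lit 4) (nat_lit 317) (nat_lit 289) (nat_lit 174))))))) (XT.nd (nat_lit 38922) (nat_lit 0) (nat_lit 836) (XT.nd (nat_lit 38454) (nat_lit 0) (nat_lit 2964) (XT.nd (nat_lit 234) (nat_lit 76) (nat_lit 0) (XT.nd (nat_lit 78) (nat_lit 0) (nat_lit 0) (XT.lf (nat_lit 0) (nat_lit 650925657080) (nat_lit 76) (nat_lit 83825579294) (nat_lit 152) (nat_lit 3138414515474) (nat_lit 5) (nat_lit 5) (nat_lit 6) (nat_lit 5) (nat_lit 7) (nat_lit 4) (nat_lit 318) (nat_lit 289) (nat_lit 173)) (XT.nd (nat_lit 78) (nat_lit 0) (nat_lit 0) (XT.lf (nat_lit 0) (nat_lit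 1646703043690) (nat_lit 152) (nat_lit 1898893995144) (nat_lit 0) (nat_lit 834335520549) (nat_lit 5) (nat_lit 5) (nat_lit 7) (nat_lit 4) (nat_lit 5) (nat_lit 4) (nat_lit 319) (nat_lit 289) (nat_lit 172)) (XT.lf (nat_lit 0) (nat_lit 2697766009835) (nat_lit 152) (nat_lit 379364428894) (nat_lit 0) (nat_lit 1885398478309) (nat_lit 5) (nat_lit 5) (nat_lit 7) (nat_lit 4) (nat_lit 5) (nat_lit 4) (nat_lit 320) (nat_lit 289) (nat_lit 171)))) (XT.nd (nat_lit 78) (nat_lit 0) (nat_lit 0) (XT.lf (nat_lit 0) (nat_lit 1440135971345) (nat_lit 76) (nat_lit 2500987736434) (nat_lit 76) (nat_lit 1688620197617) (nat_lit 4) (nat_lit 4) (nat_lit 5) (nat_lit 5) (nat_lit 5) (nat_lit 4) (nat_lit 321) (nat_lit 289) (nat_lit 170)) (XT.nd (nat_lit 78) (nat_lit 0) (nat_lit 0) (XT.lf (nat_lit 0) (nat_lit 3555534557065) (nat_lit 76) (nat_lit 1826495274219) (nat_lit 76) (nat_lit 1014127729062) (nat_lit 4) (nat_lit 4) (nat_lit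 5) (nat_lit 5) (nat_lit 5) (nat_lit 4) (nat_lit 322) (nat_lit 289) (nat_lit 169)) (XT.lf (nat_lit 0) (nat_lit 5988242902928) (nat_lit 76) (nat_lit 1050828956209) (nat_lit 76) (nat_lit 238461405539) (nat_lit 4) (nat_lit 4) (nat_lit 5) (nat_lit 5) (nat_lit 5) (nat_lit 4) (nat_lit 323) (nat_lit 289) (nat_lit 168))))) (XT.nd (nat_lit 234) (nat_lit 608) (nat_lit 0) (XT.nd (nat_lit 78) (nat_lit 0) (nat_lit 0) (XT.lf (nat_lit 0) (nat_lit 98663688739) (nat_lit 532) (nat_lit 18162978732) (nat_lit 532) (nat_lit 18162978732) (nat_lit 51) (nat_lit 3) (nat_lit 58) (nat_lit 3) (nat_lit 58) (nat_lit 5) (nat_lit 290) (nat_lit 290) (nat_lit 200)) (XT.nd (nat_lit 78) (nat_lit 0) (nat_lit 76) (XT.lf (nat_lit 76) (nat_lit 211578949542) (nat_lit 0) (nat_lit 5637952144) (nat_lit 532) (nat_lit 72603636765) (nat_lit 52) (nat_lit 5) (nat_lit 51) (nat_lit 3) (nat_lit 58) (nat_lit 5) (nat_lit 291) (nat_lit 290)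 (nat_lit 199)) (XT.lf (nat_lit 76) (nat_lit 189602297915) (nat_lit 0) (nat_lit 62303039902) (nat_lit 532) (nat_lit 59787395490) (nat_lit 53) (nat_lit 5) (nat_lit 52) (nat_lit 5) (nat_lit 59) (nat_lit 5) (nat_lit 292) (nat_lit 290) (nat_lit 198)))) (XT.nd (nat_lit 78) (nat_lit 760) (nat_lit 0) (XT.lf (nat_lit 76) (nat_lit 168997407375) (nat_lit 0) (nat_lit 134295371348) (nat_lit 532) (nat_lit 32633320018) (nat_lit 54) (nat_lit 5) (nat_lit 53) (nat_lit 5) (nat_lit 60) (nat_lit 5) (nat_lit 293) (nat_lit 290) (nat_lit 197)) (XT.nd (nat_lit 78) (nat_lit 304) (nat_lit 0) (XT.lf (nat_lit 0) (nat_lit 11232984814) (nat_lit 532) (nat_lit 213048672714) (nat_lit 76) (nat_lit 138510015061) (nat_lit 47) (nat_lit 5) (nat_lit 54) (nat_lit 5) (nat_lit 48) (nat_lit 5) (nat_lit 294) (nat_lit 290) (nat_lit 196)) (XT.lf (nat_lit 0) (nat_lit 73156868812) (nat_lit 380) (nat_lit 261512323418) (nat_lit 76) (nat_lit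 57877289927) (nat_lit 43) (nat_lit 5) (nat_lit 48) (nat_lit 5) (nat_lit 44) (nat_lit 5) (nat_lit 295) (nat_lit 290) (nat_lit 195)))))) (XT.nd (nat_lit 468) (nat_lit 1064) (nat_lit 0) (XT.nd (nat_lit 234) (nat_lit 456) (nat_lit 0) (XT.nd (nat_lit 78) (nat_lit 380) (nat_lit 0) (XT.lf (nat_lit 0) (nat_lit 112632676339) (nat_lit 228) (nat_lit 47012177408) (nat_lit 304) (nat_lit 265897618249) (nat_lit 40) (nat_lit 5) (nat_lit 43) (nat_lit 5) (nat_lit 44) (nat_lit 5) (nat_lit 296) (nat_lit 290) (nat_lit 194)) (XT.nd (nat_lit 78) (nat_lit 152) (nat_lit 0) (XT.lf (nat_lit 0) (nat_lit 93511714141) (nat_lit 228) (nat_lit 182479775917) (nat_lit 304) (nat_lit 186145534226) (nat_lit 37) (nat_lit 5) (nat_lit 40) (nat_lit 5) (nat_lit 41) (nat_lit 5) (nat_lit 297) (nat_lit 290) (nat_lit 193)) (XT.lf (nat_lit 0) (nat_lit 75031928948) (nat_lit 152) (nat_lit 350747270987) (nat_lit 228) (nat_lit 77162433459)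 (nat_lit 35) (nat_lit 5) (nat_lit 37) (nat_lit 5) (nat_lit 38) (nat_lit 5) (nat_lit 298) (nat_lit 290) (nat_lit 192)))) (XT.nd (nat_lit 78) (nat_lit 152) (nat_lit 0) (XT.lf (nat_lit 0) (nat_lit 54809719678) (nat_lit 228) (nat_lit 8324723494) (nat_lit 304) (nat_lit 485249745239) (nat_lit 31) (nat_lit 5) (nat_lit 34) (nat_lit 5) (nat_lit 35) (nat_lit 5) (nat_lit 299) (nat_lit 290) (nat_lit 191)) (XT.nd (nat_lit 78) (nat_lit 0) (nat_lit 0) (XT.lf (nat_lit 0) (nat_lit 25764098870) (nat_lit 152) (nat_lit 216944362475) (nat_lit 228) (nat_lit 355950208998) (nat_lit 29) (nat_lit 5) (nat_lit 31) (nat_lit 5) (nat_lit 32) (nat_lit 5) (nat_lit 300) (nat_lit 290) (nat_lit 190)) (XT.lf (nat_lit 0) (nat_lit 468354329776) (nat_lit 228) (nat_lit 7198023270) (nat_lit 76) (nat_lit 179391111855) (nat_lit 29) (nat_lit 5) (nat_lit 32) (nat_lit 5) (nat_lit 30) (nat_lit 5) (nat_lit 301) (nat_lit 290) (nat_lit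 189))))) (XT.nd (nat_lit 234) (nat_lit 532) (nat_lit 0) (XT.nd (nat_lit 78) (nat_lit 304) (nat_lit 0) (XT.lf (nat_lit 0) (nat_lit 30477615558) (nat_lit 228) (nat_lit 47757122352) (nat_lit 76) (nat_lit 639603668625) (nat_lit 26) (nat_lit 5) (nat_lit 29) (nat_lit 5) (nat_lit 27) (nat_lit 5) (nat_lit 302) (nat_lit 290) (nat_lit 188)) (XT.nd (nat_lit 78) (nat_lit 152) (nat_lit 0) (XT.lf (nat_lit 0) (nat_lit 295821034079) (nat_lit 228) (nat_lit 109576213138) (nat_lit 76) (nat_lit 382241439476) (nat_lit 24) (nat_lit 5) (nat_lit 27) (nat_lit 5) (nat_lit 25) (nat_lit 5) (nat_lit 303) (nat_lit 290) (nat_lit 187)) (XT.lf (nat_lit 0) (nat_lit 622314580107) (nat_lit 228) (nat_lit 188079006644) (nat_lit 76) (nat_lit 55807533029) (nat_lit 22) (nat_lit 5) (nat_lit 25) (nat_lit 5) (nat_lit 23) (nat_lit 4) (nat_lit 304) (nat_lit 290) (nat_lit 186)))) (XT.nd (nat_lit 156) (nat_lit 228) (nat_lit 0) (XT.nd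 (nat_lit 78) (nat_lit 152) (nat_lit 0) (XT.lf (nat_lit 0) (nat_lit 70215460316) (nat_lit 152) (nat_lit 300074779409) (nat_lit 76) (nat_lit 583694829511) (nat_lit 20) (nat_lit 5) (nat_lit 22) (nat_lit 5) (nat_lit 21) (nat_lit 5) (nat_lit 305) (nat_lit 290) (nat_lit 185)) (XT.lf (nat_lit 0) (nat_lit 441470593416) (nat_lit 228) (nat_lit 454420340956) (nat_lit 76) (nat_lit 156580608546) (nat_lit 18) (nat_lit 5) (nat_lit 21) (nat_lit 5) (nat_lit 19) (nat_lit 4) (nat_lit 306) (nat_lit 290) (nat_lit 184))) (XT.nd (nat_lit 78) (nat_lit 152) (nat_lit 0) (XT.lf (nat_lit 0) (nat_lit 498504499080) (nat_lit 76) (nat_lit 401103068351) (nat_lit 152) (nat_lit 263627934597) (nat_lit 17) (nat_lit 5) (nat_lit 18) (nat_lit 5) (nat_lit 19) (nat_lit 4) (nat_lit 307) (nat_lit 290) (nat_lit 183)) (XT.lf (nat_lit 0) (nat_lit 155642422194) (nat_lit 152) (nat_lit 947263112296) (nat_lit 76) (nat_lit 185320166229)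 (nat_lit 15) (nat_lit 5) (nat_lit 17) (nat_lit 5) (nat_lit 16) (nat_lit 4) (nat_lit 308) (nat_lit 290) (nat_lit 182))))))))
noncomputable def xc55 : XT := (XT.nd (nat_lit 40014) (nat_lit 0) (nat_lit 76) (XT.nd (nat_lit 936) (nat_lit 76) (nat_lit 0) (XT.nd (nat_lit 468) (nat_lit 304) (nat_lit 0) (XT.nd (nat_lit 234) (nat_lit 228) (nat_lit 0) (XT.nd (nat_lit 78) (nat_lit 152) (nat_lit 0) (XT.lf (nat_lit 0) (nat_lit 93118707359) (nat_lit 76) (nat_lit 562707304164) (nat_lit 152) (nat_lit 772900027850) (nat_lit 14) (nat_lit 5) (nat_lit 15) (nat_lit 5) (nat_lit 16) (nat_lit 4) (nat_lit 309) (nat_lit 290) (nat_lit 181)) (XT.nd (nat_lit 78) (nat_lit 152) (nat_lit 0) (XT.lf (nat_lit 0) (nat_lit 1260739387310) (nat_lit 152) (nat_lit 243297804708) (nat_lit 0) (nat_lit 83888056994) (nat_lit 14) (nat_lit 5) (nat_lit 16) (nat_lit 4) (nat_lit 14) (nat_lit 4) (nat_lit 310) (nat_lit 290) (nat_lit 180))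 (XT.lf (nat_lit 0) (nat_lit 217982751846) (nat_lit 152) (nat_lit 723447238786) (nat_lit 76) (nat_lit 825867983371) (nat_lit 12) (nat_lit 5) (nat_lit 14) (nat_lit 5) (nat_lit 13) (nat_lit 4) (nat_lit 311) (nat_lit 290) (nat_lit 179)))) (XT.nd (nat_lit 78) (nat_lit 152) (nat_lit 0) (XT.lf (nat_lit 0) (nat_lit 585869343680) (nat_lit 76) (nat_lit 261592547859) (nat_lit 152) (nat_lit 1123682186437) (nat_lit 11) (nat_lit 5) (nat_lit 12) (nat_lit 5) (nat_lit 13) (nat_lit 4) (nat_lit 312) (nat_lit 290) (nat_lit 178)) (XT.nd (nat_lit 78) (nat_lit 152) (nat_lit 0) (XT.lf (nat_lit 0) (nat_lit 1605483645195) (nat_lit 152) (nat_lit 81547383990) (nat_lit 0) (nat_lit 515806408940) (nat_lit 11) (nat_lit 5) (nat_lit 13) (nat_lit 4) (nat_lit 11) (nat_lit 4) (nat_lit 313) (nat_lit 290) (nat_lit 177)) (XT.lf (nat_lit 0) (nat_lit 51586837125) (nat_lit 152) (nat_lit 982376634704) (nat_lit 76) (nat_lit 1431781336076)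 (nat_lit 9) (nat_lit 5) (nat_lit 11) (nat_lit 5) (nat_lit 10) (nat_lit 4) (nat_lit 314) (nat_lit 290) (nat_lit 176))))) (XT.nd (nat_lit 234) (nat_lit 152) (nat_lit 0) (XT.nd (nat_lit 78) (nat_lit 76) (nat_lit 0) (XT.lf (nat_lit 0) (nat_lit 529990180457) (nat_lit 76) (nat_lit 248696095258) (nat_lit 152) (nat_lit 1986865734850) (nat_lit 8) (nat_lit 5) (nat_lit 9) (nat_lit 5) (nat_lit 10) (nat_lit 4) (nat_lit 315) (nat_lit 290) (nat_lit 175)) (XT.nd (nat_lit 78) (nat_lit 76) (nat_lit 0) (XT.lf (nat_lit 0) (nat_lit 1659931727790) (nat_lit 152) (nat_lit 795820802005) (nat_lit 0) (nat_lit 650971276025) (nat_lit 8) (nat_lit 5) (nat_lit 10) (nat_lit 4) (nat_lit 8) (nat_lit 4) (nat_lit 316) (nat_lit 290) (nat_lit 174)) (XT.lf (nat_lit 0) (nat_lit 897920643229) (nat_lit 76) (nat_lit 1803916663097) (nat_lit 76) (nat_lit 794956199356) (nat_lit 7) (nat_lit 4) (nat_lit 8) (nat_lit 5) (nat_lit 8) (nat_lit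 4) (nat_lit 317) (nat_lit 290) (nat_lit 173)))) (XT.nd (nat_lit 78) (nat_lit 152) (nat_lit 0) (XT.lf (nat_lit 0) (nat_lit 2893915754031) (nat_lit 76) (nat_lit 1029282412531) (nat_lit 76) (nat_lit 20321938376) (nat_lit 7) (nat_lit 4) (nat_lit 8) (nat_lit 5) (nat_lit 8) (nat_lit 4) (nat_lit 318) (nat_lit 290) (nat_lit 172)) (XT.nd (nat_lit 78) (nat_lit 0) (nat_lit 0) (XT.lf (nat_lit 0) (nat_lit 748564924262) (nat_lit 76) (nat_lit 96399213946) (nat_lit 152) (nat_lit 3609176459031) (nat_lit 5) (nat_lit 5) (nat_lit 6) (nat_lit 5) (nat_lit 7) (nat_lit 4) (nat_lit 319) (nat_lit 290) (nat_lit 171)) (XT.lf (nat_lit 0) (nat_lit 1893708692628) (nat_lit 152) (nat_lit 2183727719509) (nat_lit 0) (nat_lit 959486015697) (nat_lit 5) (nat_lit 5) (nat_lit 7) (nat_lit 4) (nat_lit 5) (nat_lit 4) (nat_lit 320) (nat_lit 290) (nat_lit 170)))))) (XT.nd (nat_lit 38610) (nat_lit 0) (nat_lit 2052) (XT.nd (nat_lit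 38376) (nat_lit 0) (nat_lit 3572) (XT.nd (nat_lit 78) (nat_lit 76) (nat_lit 0) (XT.lf (nat_lit 0) (nat_lit 3102431078601) (nat_lit 152) (nat_lit 436268767222) (nat_lit 0) (nat_lit 2168208395330) (nat_lit 5) (nat_lit 5) (nat_lit 7) (nat_lit 4) (nat_lit 5) (nat_lit 4) (nat_lit 321) (nat_lit 290) (nat_lit 169)) (XT.nd (nat_lit 38220) (nat_lit 0) (nat_lit 3572) (XT.lf (nat_lit 0) (nat_lit 1656156665458) (nat_lit 76) (nat_lit 2876135751135) (nat_lit 76) (nat_lit 1941913062351) (nat_lit 4) (nat_lit 4) (nat_lit 5) (nat_lit 5) (nat_lit 5) (nat_lit 4) (nat_lit 322) (nat_lit 290) (nat_lit 168)) (XT.lf (nat_lit 0) (nat_lit 113464672338) (nat_lit 532) (nat_lit 20886651644) (nat_lit 532) (nat_lit 20886651644) (nat_lit 51) (nat_lit 3) (nat_lit 58) (nat_lit 3) (nat_lit 58) (nat_lit 5) (nat_lit 291) (nat_lit 291) (nat_lit 198)))) (XT.nd (nat_lit 78) (nat_lit 0) (nat_lit 76) (XT.lf (nat_lit 76) (nat_lit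 243317208756) (nat_lit 0) (nat_lit 6484749712) (nat_lit 532) (nat_lit 83491453661) (nat_lit 52) (nat_lit 5) (nat_lit 51) (nat_lit 3) (nat_lit 58) (nat_lit 5) (nat_lit 292) (nat_lit 291) (nat_lit 197)) (XT.nd (nat_lit 78) (nat_lit 0) (nat_lit 76) (XT.lf (nat_lit 76) (nat_lit 218044153341) (nat_lit 0) (nat_lit 71649191012) (nat_lit 532) (nat_lit 68753117813) (nat_lit 53) (nat_lit 5) (nat_lit 52) (nat_lit 5) (nat_lit 59) (nat_lit 5) (nat_lit 293) (nat_lit 291) (nat_lit 196)) (XT.lf (nat_lit 76) (nat_lit 194348582450) (nat_lit 0) (nat_lit 154440054301) (nat_lit 532) (nat_lit 37526217446) (nat_lit 54) (nat_lit 5) (nat_lit 53) (nat_lit 5) (nat_lit 60) (nat_lit 5) (nat_lit 294) (nat_lit 291) (nat_lit 195))))) (XT.nd (nat_lit 234) (nat_lit 684) (nat_lit 0) (XT.nd (nat_lit 78) (nat_lit 532) (nat_lit 0) (XT.lf (nat_lit 0) (nat_lit 12919698783) (nat_lit 532) (nat_lit 245004291588) (nat_lit 76) (nat_lit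 159286288539) (nat_lit 47) (nat_lit 5) (nat_lit 54) (nat_lit 5) (nat_lit 48) (nat_lit 5) (nat_lit 295) (nat_lit 291) (nat_lit 194)) (XT.nd (nat_lit 78) (nat_lit 228) (nat_lit 0) (XT.lf (nat_lit 0) (nat_lit 84131971230) (nat_lit 380) (nat_lit 300737502802) (nat_lit 76) (nat_lit 66558851840) (nat_lit 43) (nat_lit 5) (nat_lit 48) (nat_lit 5) (nat_lit 44) (nat_lit 5) (nat_lit 296) (nat_lit 291) (nat_lit 193)) (XT.lf (nat_lit 0) (nat_lit 129529105635) (nat_lit 228) (nat_lit 54063879959) (nat_lit 304) (nat_lit 305780742428) (nat_lit 40) (nat_lit 5) (nat_lit 43) (nat_lit 5) (nat_lit 44) (nat_lit 5) (nat_lit 297) (nat_lit 291) (nat_lit 192)))) (XT.nd (nat_lit 78) (nat_lit 456) (nat_lit 0) (XT.lf (nat_lit 0) (nat_lit 107539972110) (nat_lit 228) (nat_lit 209851500829) (nat_lit 304) (nat_lit 214066002089) (nat_lit 37) (nat_lit 5) (nat_lit 40) (nat_lit 5) (nat_lit 41) (nat_lit 5) (nat_lit 298) (nat_lit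 291) (nat_lit 191)) (XT.nd (nat_lit 78) (nat_lit 304) (nat_lit 0) (XT.lf (nat_lit 0) (nat_lit 86288180971) (nat_lit 152) (nat_lit 403359034288) (nat_lit 228) (nat_lit 88735570449) (nat_lit 35) (nat_lit 5) (nat_lit 37) (nat_lit 5) (nat_lit 38) (nat_lit 5) (nat_lit 299) (nat_lit 291) (nat_lit 190)) (XT.lf (nat_lit 0) (nat_lit 63032574317) (nat_lit 228) (nat_lit 9573083355) (nat_lit 304) (nat_lit 558036073655) (nat_lit 31) (nat_lit 5) (nat_lit 34) (nat_lit 5) (nat_lit 35) (nat_lit 5) (nat_lit 300) (nat_lit 291) (nat_lit 189))))))) (XT.nd (nat_lit 936) (nat_lit 532) (nat_lit 0) (XT.nd (nat_lit 468) (nat_lit 608) (nat_lit 0) (XT.nd (nat_lit 234) (nat_lit 456) (nat_lit 0) (XT.nd (nat_lit 78) (nat_lit 228) (nat_lit 0) (XT.lf (nat_lit 0) (nat_lit 29630062611) (nat_lit 152) (nat_lit 249485618993) (nat_lit 228) (nat_lit 409341711898) (nat_lit 29) (nat_lit 5) (nat_lit 31) (nat_lit 5) (nat_lit 32)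 (nat_lit 5) (nat_lit 301) (nat_lit 291) (nat_lit 188)) (XT.nd (nat_lit 78) (nat_lit 228) (nat_lit 0) (XT.lf (nat_lit 0) (nat_lit 538608314570) (nat_lit 228) (nat_lit 8276494818) (nat_lit 76) (nat_lit 206300107286) (nat_lit 29) (nat_lit 5) (nat_lit 32) (nat_lit 5) (nat_lit 30) (nat_lit 5) (nat_lit 302) (nat_lit 291) (nat_lit 187)) (XT.lf (nat_lit 0) (nat_lit 35050031894) (nat_lit 228) (nat_lit 54919521367) (nat_lit 76) (nat_lit 735544551420) (nat_lit 26) (nat_lit 5) (nat_lit 29) (nat_lit 5) (nat_lit 27) (nat_lit 5) (nat_lit 303) (nat_lit 291) (nat_lit 186)))) (XT.nd (nat_lit 78) (nat_lit 304) (nat_lit 0) (XT.lf (nat_lit 0) (nat_lit 340194896915) (nat_lit 228) (nat_lit 126011526986) (nat_lit 76) (nat_lit 439578008382) (nat_lit 24) (nat_lit 5) (nat_lit 27) (nat_lit 5) (nat_lit 25) (nat_lit 5) (nat_lit 304) (nat_lit 291) (nat_lit 185)) (XT.nd (nat_lit 78) (nat_lit 152) (nat_lit 0) (XT.lf (nat_lit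 0) (nat_lit 715662416372) (nat_lit 228) (nat_lit 216289791489) (nat_lit 76) (nat_lit 64179027254) (nat_lit 22) (nat_lit 5) (nat_lit 25) (nat_lit 5) (nat_lit 23) (nat_lit 4) (nat_lit 305) (nat_lit 291) (nat_lit 184)) (XT.lf (nat_lit 0) (nat_lit 80748383244) (nat_lit 152) (nat_lit 345084988057) (nat_lit 76) (nat_lit 671249409453) (nat_lit 20) (nat_lit 5) (nat_lit 22) (nat_lit 5) (nat_lit 21) (nat_lit 5) (nat_lit 306) (nat_lit 291) (nat_lit 183))))) (XT.nd (nat_lit 234) (nat_lit 228) (nat_lit 0) (XT.nd (nat_lit 78) (nat_lit 228) (nat_lit 0) (XT.lf (nat_lit 0) (nat_lit 507691738771) (nat_lit 228) (nat_lit 522582433944) (nat_lit 76) (nat_lit 180068056648) (nat_lit 18) (nat_lit 5) (nat_lit 21) (nat_lit 5) (nat_lit 19) (nat_lit 4) (nat_lit 307) (nat_lit 291) (nat_lit 182)) (XT.nd (nat_lit 78) (nat_lit 152) (nat_lit 0) (XT.lf (nat_lit 0) (nat_lit 573281050994) (nat_lit 76) (nat_lit 461268156422)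 (nat_lit 152) (nat_lit 303171579106) (nat_lit 17) (nat_lit 5) (nat_lit 18) (nat_lit 5) (nat_lit 19) (nat_lit 4) (nat_lit 308) (nat_lit 291) (nat_lit 181)) (XT.lf (nat_lit 0) (nat_lit 178989264806) (nat_lit 152) (nat_lit 1089351721585) (nat_lit 76) (nat_lit 213118530754) (nat_lit 15) (nat_lit 5) (nat_lit 17) (nat_lit 5) (nat_lit 16) (nat_lit 4) (nat_lit 309) (nat_lit 291) (nat_lit 180)))) (XT.nd (nat_lit 78) (nat_lit 152) (nat_lit 0) (XT.lf (nat_lit 0) (nat_lit 107087298430) (nat_lit 76) (nat_lit 647113050467) (nat_lit 152) (nat_lit 888834561234) (nat_lit 14) (nat_lit 5) (nat_lit 15) (nat_lit 5) (nat_lit 16) (nat_lit 4) (nat_lit 310) (nat_lit 291) (nat_lit 179)) (XT.nd (nat_lit 78) (nat_lit 152) (nat_lit 0) (XT.lf (nat_lit 0) (nat_lit 1449850681534) (nat_lit 152) (nat_lit 279791769577) (nat_lit 0) (nat_lit 96471554106) (nat_lit 14) (nat_lit 5) (nat_lit 16) (nat_lit 4) (nat_lit 14) (nat_lit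 4) (nat_lit 311) (nat_lit 291) (nat_lit 178)) (XT.lf (nat_lit 0) (nat_lit 250680525262) (nat_lit 152) (nat_lit 831963659315) (nat_lit 76) (nat_lit 949748456469) (nat_lit 12) (nat_lit 5) (nat_lit 14) (nat_lit 5) (nat_lit 13) (nat_lit 4) (nat_lit 312) (nat_lit 291) (nat_lit 177)))))) (XT.nd (nat_lit 468) (nat_lit 152) (nat_lit 0) (XT.nd (nat_lit 234) (nat_lit 152) (nat_lit 0) (XT.nd (nat_lit 78) (nat_lit 152) (nat_lit 0) (XT.lf (nat_lit 0) (nat_lit 673750354208) (nat_lit 76) (nat_lit 300831149307) (nat_lit 152) (nat_lit 1292234159718) (nat_lit 11) (nat_lit 5) (nat_lit 12) (nat_lit 5) (nat_lit 13) (nat_lit 4) (nat_lit 313) (nat_lit 291) (nat_lit 176)) (XT.nd (nat_lit 78) (nat_lit 152) (nat_lit 0) (XT.lf (nat_lit 0) (nat_lit 1846306483276) (nat_lit 152) (nat_lit 93778944925) (nat_lit 0) (nat_lit 593177602184) (nat_lit 11) (nat_lit 5) (nat_lit 13) (nat_lit 4) (nat_lit 11) (nat_lit 4) (nat_lit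 314) (nat_lit 291) (nat_lit 175)) (XT.lf (nat_lit 0) (nat_lit 59325135055) (nat_lit 152) (nat_lit 1129732615051) (nat_lit 76) (nat_lit 1646548757071) (nat_lit 9) (nat_lit 5) (nat_lit 11) (nat_lit 5) (nat_lit 10) (nat_lit 4) (nat_lit 315) (nat_lit 291) (nat_lit 174)))) (XT.nd (nat_lit 78) (nat_lit 76) (nat_lit 0) (XT.lf (nat_lit 0) (nat_lit 609489178805) (nat_lit 76) (nat_lit 286000286437) (nat_lit 152) (nat_lit 2284895326945) (nat_lit 8) (nat_lit 5) (nat_lit 9) (nat_lit 5) (nat_lit 10) (nat_lit 4) (nat_lit 316) (nat_lit 291) (nat_lit 173)) (XT.nd (nat_lit 78) (nat_lit 76) (nat_lit 0) (XT.lf (nat_lit 0) (nat_lit 1908921707424) (nat_lit 152) (nat_lit 915193499805) (nat_lit 0) (nat_lit 748617151732) (nat_lit 8) (nat_lit 5) (nat_lit 10) (nat_lit 4) (nat_lit 8) (nat_lit 4) (nat_lit 317) (nat_lit 291) (nat_lit 172)) (XT.lf (nat_lit 0) (nat_lit 1032609126452) (nat_lit 76) (nat_lit 2074503976834)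 (nat_lit 76) (nat_lit 914199412086) (nat_lit 7) (nat_lit 4) (nat_lit 8) (nat_lit 5) (nat_lit 8) (nat_lit 4) (nat_lit 318) (nat_lit 291) (nat_lit 171))))) (XT.nd (nat_lit 234) (nat_lit 0) (nat_lit 0) (XT.nd (nat_lit 78) (nat_lit 152) (nat_lit 0) (XT.lf (nat_lit 0) (nat_lit 3328003453430) (nat_lit 76) (nat_lit 1183674612909) (nat_lit 76) (nat_lit 23370040286) (nat_lit 7) (nat_lit 4) (nat_lit 8) (nat_lit 5) (nat_lit 8) (nat_lit 4) (nat_lit 319) (nat_lit 291) (nat_lit 170)) (XT.nd (nat_lit 78) (nat_lit 0) (nat_lit 0) (XT.lf (nat_lit 0) (nat_lit 860849979438) (nat_lit 76) (nat_lit 110858943113) (nat_lit 152) (nat_lit 4150552751126) (nat_lit 5) (nat_lit 5) (nat_lit 6) (nat_lit 5) (nat_lit 7) (nat_lit 4) (nat_lit 320) (nat_lit 291) (nat_lit 169)) (XT.lf (nat_lit 0) (nat_lit 2177765141992) (nat_lit 152) (nat_lit 2511286593952) (nat_lit 0) (nat_lit 1103409044377) (nat_lit 5) (nat_lit 5) (nat_lit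 7) (nat_lit 4) (nat_lit 5) (nat_lit 4) (nat_lit 321) (nat_lit 291) (nat_lit 168)))) (XT.nd (nat_lit 38376) (nat_lit 0) (nat_lit 3496) (XT.nd (nat_lit 38298) (nat_lit 0) (nat_lit 3496) (XT.lf (nat_lit 0) (nat_lit 3567795866887) (nat_lit 152) (nat_lit 501708835799) (nat_lit 0) (nat_lit 2493439764477) (nat_lit 5) (nat_lit 5) (nat_lit 7) (nat_lit 4) (nat_lit 5) (nat_lit 4) (nat_lit 322) (nat_lit 291) (nat_lit 167)) (XT.lf (nat_lit 0) (nat_lit 130485454691) (nat_lit 532) (nat_lit 24019064213) (nat_lit 532) (nat_lit 24019064213) (nat_lit 51) (nat_lit 3) (nat_lit 58) (nat_lit 3) (nat_lit 58) (nat_lit 5) (nat_lit 292) (nat_lit 292) (nat_lit 196))) (XT.nd (nat_lit 78) (nat_lit 0) (nat_lit 76) (XT.lf (nat_lit 76) (nat_lit 279815861361) (nat_lit 0) (nat_lit 7458297517) (nat_lit 532) (nat_lit 96013108482) (nat_lit 52) (nat_lit 5) (nat_lit 51) (nat_lit 3) (nat_lit 58) (nat_lit 5) (nat_lit 293) (nat_lit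 292) (nat_lit 195)) (XT.lf (nat_lit 76) (nat_lit 250751918678) (nat_lit 0) (nat_lit 82397095279) (nat_lit 532) (nat_lit 79064280571) (nat_lit 53) (nat_lit 5) (nat_lit 52) (nat_lit 5) (nat_lit 59) (nat_lit 5) (nat_lit 294) (nat_lit 292) (nat_lit 194))))))))
noncomputable def xc56 : XT := (XT.nd (nat_lit 1872) (nat_lit 228) (nat_lit 0) (XT.nd (nat_lit 936) (nat_lit 1064) (nat_lit 0) (XT.nd (nat_lit 468) (nat_lit 988) (nat_lit 0) (XT.nd (nat_lit 234) (nat_lit 608) (nat_lit 0) (XT.nd (nat_lit 78) (nat_lit 760) (nat_lit 0) (XT.lf (nat_lit 76) (nat_lit 223502052402) (nat_lit 0) (nat_lit 177606347702) (nat_lit 532) (nat_lit 43153561727) (nat_lit 54) (nat_lit 5) (nat_lit 53) (nat_lit 5) (nat_lit 60) (nat_lit 5) (nat_lit 295) (nat_lit 292) (nat_lit 193)) (XT.nd (nat_lit 78) (nat_lit 304) (nat_lit 0) (XT.lf (nat_lit 0) (nat_lit 14858989137) (nat_lit 532) (nat_lit 281753663469) (nat_lit 76) (nat_lit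 183179058829) (nat_lit 47) (nat_lit 5) (nat_lit 54) (nat_lit 5) (nat_lit 48) (nat_lit 5) (nat_lit 296) (nat_lit 292) (nat_lit 192)) (XT.lf (nat_lit 0) (nat_lit 96752955645) (nat_lit 380) (nat_lit 345846866121) (nat_lit 76) (nat_lit 76542655740) (nat_lit 43) (nat_lit 5) (nat_lit 48) (nat_lit 5) (nat_lit 44) (nat_lit 5) (nat_lit 297) (nat_lit 292) (nat_lit 191)))) (XT.nd (nat_lit 78) (nat_lit 380) (nat_lit 0) (XT.lf (nat_lit 0) (nat_lit 148959626751) (nat_lit 228) (nat_lit 62173368145) (nat_lit 304) (nat_lit 351646705544) (nat_lit 40) (nat_lit 5) (nat_lit 43) (nat_lit 5) (nat_lit 44) (nat_lit 5) (nat_lit 298) (nat_lit 292) (nat_lit 190)) (XT.nd (nat_lit 78) (nat_lit 152) (nat_lit 0) (XT.lf (nat_lit 0) (nat_lit 123672102783) (nat_lit 228) (nat_lit 241329043363) (nat_lit 304) (nat_lit 246174872330) (nat_lit 37) (nat_lit 5) (nat_lit 40) (nat_lit 5) (nat_lit 41) (nat_lit 5) (nat_lit 299) (nat_lit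 292) (nat_lit 189)) (XT.lf (nat_lit 0) (nat_lit 99232514114) (nat_lit 152) (nat_lit 463862641910) (nat_lit 228) (nat_lit 102044977450) (nat_lit 35) (nat_lit 5) (nat_lit 37) (nat_lit 5) (nat_lit 38) (nat_lit 5) (nat_lit 300) (nat_lit 292) (nat_lit 188))))) (XT.nd (nat_lit 234) (nat_lit 532) (nat_lit 0) (XT.nd (nat_lit 78) (nat_lit 152) (nat_lit 0) (XT.lf (nat_lit 0) (nat_lit 72488516560) (nat_lit 228) (nat_lit 11008782218) (nat_lit 304) (nat_lit 641740627714) (nat_lit 31) (nat_lit 5) (nat_lit 34) (nat_lit 5) (nat_lit 35) (nat_lit 5) (nat_lit 301) (nat_lit 292) (nat_lit 187)) (XT.nd (nat_lit 78) (nat_lit 0) (nat_lit 0) (XT.lf (nat_lit 0) (nat_lit 34075591972) (nat_lit 152) (nat_lit 286908161008) (nat_lit 228) (nat_lit 470742191027) (nat_lit 29) (nat_lit 5) (nat_lit 31) (nat_lit 5) (nat_lit 32) (nat_lit 5) (nat_lit 302) (nat_lit 292) (nat_lit 186)) (XT.lf (nat_lit 0) (nat_lit 619400193382)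 (nat_lit 228) (nat_lit 9517037514) (nat_lit 76) (nat_lit 237245371888) (nat_lit 29) (nat_lit 5) (nat_lit 32) (nat_lit 5) (nat_lit 30) (nat_lit 5) (nat_lit 303) (nat_lit 292) (nat_lit 185)))) (XT.nd (nat_lit 78) (nat_lit 304) (nat_lit 0) (XT.lf (nat_lit 0) (nat_lit 40308121935) (nat_lit 228) (nat_lit 63156565385) (nat_lit 76) (nat_lit 845876485551) (nat_lit 26) (nat_lit 5) (nat_lit 29) (nat_lit 5) (nat_lit 27) (nat_lit 5) (nat_lit 304) (nat_lit 292) (nat_lit 184)) (XT.nd (nat_lit 78) (nat_lit 152) (nat_lit 0) (XT.lf (nat_lit 0) (nat_lit 391224666593) (nat_lit 228) (nat_lit 144912410573) (nat_lit 76) (nat_lit 505514976546) (nat_lit 24) (nat_lit 5) (nat_lit 27) (nat_lit 5) (nat_lit 25) (nat_lit 5) (nat_lit 305) (nat_lit 292) (nat_lit 183)) (XT.lf (nat_lit 0) (nat_lit 823012269753) (nat_lit 228) (nat_lit 248732454048) (nat_lit 76) (nat_lit 73806156783) (nat_lit 22) (nat_lit 5) (nat_lit 25)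 (nat_lit 5) (nat_lit 23) (nat_lit 4) (nat_lit 306) (nat_lit 292) (nat_lit 182)))))) (XT.nd (nat_lit 468) (nat_lit 456) (nat_lit 0) (XT.nd (nat_lit 234) (nat_lit 228) (nat_lit 0) (XT.nd (nat_lit 78) (nat_lit 228) (nat_lit 0) (XT.lf (nat_lit 0) (nat_lit 92861097351) (nat_lit 152) (nat_lit 396846973873) (nat_lit 76) (nat_lit 771937089692) (nat_lit 20) (nat_lit 5) (nat_lit 22) (nat_lit 5) (nat_lit 21) (nat_lit 5) (nat_lit 307) (nat_lit 292) (nat_lit 181)) (XT.nd (nat_lit 78) (nat_lit 76) (nat_lit 0) (XT.lf (nat_lit 0) (nat_lit 583845920262) (nat_lit 228) (nat_lit 600969074533) (nat_lit 76) (nat_lit 207078534953) (nat_lit 18) (nat_lit 5) (nat_lit 21) (nat_lit 5) (nat_lit 19) (nat_lit 4) (nat_lit 308) (nat_lit 292) (nat_lit 180)) (XT.lf (nat_lit 0) (nat_lit 659273871821) (nat_lit 76) (nat_lit 530458098461) (nat_lit 152) (nat_lit 348646903359) (nat_lit 17) (nat_lit 5) (nat_lit 18) (nat_lit 5)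 (nat_lit 19) (nat_lit 4) (nat_lit 309) (nat_lit 292) (nat_lit 179)))) (XT.nd (nat_lit 78) (nat_lit 76) (nat_lit 0) (XT.lf (nat_lit 0) (nat_lit 205838016933) (nat_lit 152) (nat_lit 1252753831388) (nat_lit 76) (nat_lit 245086567146) (nat_lit 15) (nat_lit 5) (nat_lit 17) (nat_lit 5) (nat_lit 16) (nat_lit 4) (nat_lit 310) (nat_lit 292) (nat_lit 178)) (XT.nd (nat_lit 78) (nat_lit 0) (nat_lit 0) (XT.lf (nat_lit 0) (nat_lit 123150986743) (nat_lit 76) (nat_lit 744179743901) (nat_lit 152) (nat_lit 1022159389433) (nat_lit 14) (nat_lit 5) (nat_lit 15) (nat_lit 5) (nat_lit 16) (nat_lit 4) (nat_lit 311) (nat_lit 292) (nat_lit 177)) (XT.lf (nat_lit 0) (nat_lit 1667328575733) (nat_lit 152) (nat_lit 321760001299) (nat_lit 0) (nat_lit 110942505416) (nat_lit 14) (nat_lit 5) (nat_lit 16) (nat_lit 4) (nat_lit 14) (nat_lit 4) (nat_lit 312) (nat_lit 292) (nat_lit 176))))) (XT.nd (nat_lit 234) (nat_lit 228)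 (nat_lit 0) (XT.nd (nat_lit 78) (nat_lit 76) (nat_lit 0) (XT.lf (nat_lit 0) (nat_lit 288282876746) (nat_lit 152) (nat_lit 956757705158) (nat_lit 76) (nat_lit 1092210933327) (nat_lit 12) (nat_lit 5) (nat_lit 14) (nat_lit 5) (nat_lit 13) (nat_lit 4) (nat_lit 313) (nat_lit 292) (nat_lit 175)) (XT.nd (nat_lit 78) (nat_lit 0) (nat_lit 0) (XT.lf (nat_lit 0) (nat_lit 774813367812) (nat_lit 76) (nat_lit 345955609431) (nat_lit 152) (nat_lit 1486069015484) (nat_lit 11) (nat_lit 5) (nat_lit 12) (nat_lit 5) (nat_lit 13) (nat_lit 4) (nat_lit 314) (nat_lit 292) (nat_lit 174)) (XT.lf (nat_lit 0) (nat_lit 2123252676033) (nat_lit 152) (nat_lit 107845373308) (nat_lit 0) (nat_lit 682154417862) (nat_lit 11) (nat_lit 5) (nat_lit 13) (nat_lit 4) (nat_lit 11) (nat_lit 4) (nat_lit 315) (nat_lit 292) (nat_lit 173)))) (XT.nd (nat_lit 78) (nat_lit 76) (nat_lit 0) (XT.lf (nat_lit 0) (nat_lit 68224111257) (nat_lit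 152) (nat_lit 1299192118001) (nat_lit 76) (nat_lit 1893531237424) (nat_lit 9) (nat_lit 5) (nat_lit 11) (nat_lit 5) (nat_lit 10) (nat_lit 4) (nat_lit 316) (nat_lit 292) (nat_lit 172)) (XT.nd (nat_lit 78) (nat_lit 0) (nat_lit 0) (XT.lf (nat_lit 0) (nat_lit 700912911980) (nat_lit 76) (nat_lit 328900160701) (nat_lit 152) (nat_lit 2627629423240) (nat_lit 8) (nat_lit 5) (nat_lit 9) (nat_lit 5) (nat_lit 10) (nat_lit 4) (nat_lit 317) (nat_lit 292) (nat_lit 171)) (XT.lf (nat_lit 0) (nat_lit 2195260130242) (nat_lit 152) (nat_lit 1052472205305) (nat_lit 0) (nat_lit 860909863851) (nat_lit 8) (nat_lit 5) (nat_lit 10) (nat_lit 4) (nat_lit 8) (nat_lit 4) (nat_lit 318) (nat_lit 292) (nat_lit 170))))))) (XT.nd (nat_lit 39234) (nat_lit 0) (nat_lit 684) (XT.nd (nat_lit 38766) (nat_lit 0) (nat_lit 2432) (XT.nd (nat_lit 234) (nat_lit 0) (nat_lit 0) (XT.nd (nat_lit 78) (nat_lit 152) (nat_lit 0) (XT.lf (nat_lit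 0) (nat_lit 1187500787850) (nat_lit 76) (nat_lit 2385679432922) (nat_lit 76) (nat_lit 1051329159684) (nat_lit 7) (nat_lit 4) (nat_lit 8) (nat_lit 5) (nat_lit 8) (nat_lit 4) (nat_lit 319) (nat_lit 292) (nat_lit 169)) (XT.nd (nat_lit 78) (nat_lit 152) (nat_lit 0) (XT.lf (nat_lit 0) (nat_lit 3827204225732) (nat_lit 76) (nat_lit 1361225682726) (nat_lit 76) (nat_lit 26875403534) (nat_lit 7) (nat_lit 4) (nat_lit 8) (nat_lit 5) (nat_lit 8) (nat_lit 4) (nat_lit 320) (nat_lit 292) (nat_lit 168)) (XT.lf (nat_lit 0) (nat_lit 989977715701) (nat_lit 76) (nat_lit 127487668948) (nat_lit 152) (nat_lit 4773135530140) (nat_lit 5) (nat_lit 5) (nat_lit 6) (nat_lit 5) (nat_lit 7) (nat_lit 4) (nat_lit 321) (nat_lit 292) (nat_lit 167)))) (XT.nd (nat_lit 38376) (nat_lit 0) (nat_lit 3496) (XT.lf (nat_lit 0) (nat_lit 2504430023288) (nat_lit 152) (nat_lit 2887979368690) (nat_lit 0) (nat_lit 1268920496554) (nat_lit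 5) (nat_lit 5) (nat_lit 7) (nat_lit 4) (nat_lit 5) (nat_lit 4) (nat_lit 322) (nat_lit 292) (nat_lit 166)) (XT.nd (nat_lit 78) (nat_lit 0) (nat_lit 0) (XT.lf (nat_lit 0) (nat_lit 150059090666) (nat_lit 532) (nat_lit 27621481366) (nat_lit 532) (nat_lit 27621481366) (nat_lit 51) (nat_lit 3) (nat_lit 58) (nat_lit 3) (nat_lit 58) (nat_lit 5) (nat_lit 293) (nat_lit 293) (nat_lit 194)) (XT.lf (nat_lit 76) (nat_lit 321789050615) (nat_lit 0) (nat_lit 8577673787) (nat_lit 532) (nat_lit 110413514658) (nat_lit 52) (nat_lit 5) (nat_lit 51) (nat_lit 3) (nat_lit 58) (nat_lit 5) (nat_lit 294) (nat_lit 293) (nat_lit 193))))) (XT.nd (nat_lit 234) (nat_lit 760) (nat_lit 0) (XT.nd (nat_lit 78) (nat_lit 380) (nat_lit 0) (XT.lf (nat_lit 76) (nat_lit 288365570250) (nat_lit 0) (nat_lit 94757057011) (nat_lit 532) (nat_lit 90922557881) (nat_lit 53) (nat_lit 5) (nat_lit 52) (nat_lit 5) (nat_lit 59) (nat_lit 5) (nat_lit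 295) (nat_lit 293) (nat_lit 192)) (XT.nd (nat_lit 78) (nat_lit 456) (nat_lit 0) (XT.lf (nat_lit 76) (nat_lit 257028254467) (nat_lit 0) (nat_lit 204247515551) (nat_lit 532) (nat_lit 49625394976) (nat_lit 54) (nat_lit 5) (nat_lit 53) (nat_lit 5) (nat_lit 60) (nat_lit 5) (nat_lit 296) (nat_lit 293) (nat_lit 191)) (XT.lf (nat_lit 0) (nat_lit 17088847366) (nat_lit 532) (nat_lit 324015751281) (nat_lit 76) (nat_lit 210655786847) (nat_lit 47) (nat_lit 5) (nat_lit 54) (nat_lit 5) (nat_lit 48) (nat_lit 5) (nat_lit 297) (nat_lit 293) (nat_lit 190)))) (XT.nd (nat_lit 78) (nat_lit 456) (nat_lit 0) (XT.lf (nat_lit 0) (nat_lit 111266797843) (nat_lit 380) (nat_lit 397722941710) (nat_lit 76) (nat_lit 88024036047) (nat_lit 43) (nat_lit 5) (nat_lit 48) (nat_lit 5) (nat_lit 44) (nat_lit 5) (nat_lit 298) (nat_lit 293) (nat_lit 189)) (XT.nd (nat_lit 78) (nat_lit 228) (nat_lit 0) (XT.lf (nat_lit 0) (nat_lit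 171304444314) (nat_lit 228) (nat_lit 71499302435) (nat_lit 304) (nat_lit 404392843136) (nat_lit 40) (nat_lit 5) (nat_lit 43) (nat_lit 5) (nat_lit 44) (nat_lit 5) (nat_lit 299) (nat_lit 293) (nat_lit 188)) (XT.lf (nat_lit 0) (nat_lit 142223776316) (nat_lit 228) (nat_lit 277528261803) (nat_lit 304) (nat_lit 283100324297) (nat_lit 37) (nat_lit 5) (nat_lit 40) (nat_lit 5) (nat_lit 41) (nat_lit 5) (nat_lit 300) (nat_lit 293) (nat_lit 187)))))) (XT.nd (nat_lit 468) (nat_lit 760) (nat_lit 0) (XT.nd (nat_lit 234) (nat_lit 380) (nat_lit 0) (XT.nd (nat_lit 78) (nat_lit 456) (nat_lit 0) (XT.lf (nat_lit 0) (nat_lit 114118227524) (nat_lit 152) (nat_lit 533441851035) (nat_lit 228) (nat_lit 117351021939) (nat_lit 35) (nat_lit 5) (nat_lit 37) (nat_lit 5) (nat_lit 38) (nat_lit 5) (nat_lit 301) (nat_lit 293) (nat_lit 186)) (XT.nd (nat_lit 78) (nat_lit 152) (nat_lit 0) (XT.lf (nat_lit 0) (nat_lit 83362592604)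 (nat_lit 228) (nat_lit 12659900202) (nat_lit 304) (nat_lit 738001073864) (nat_lit 31) (nat_lit 5) (nat_lit 34) (nat_lit 5) (nat_lit 35) (nat_lit 5) (nat_lit 302) (nat_lit 293) (nat_lit 185)) (XT.lf (nat_lit 0) (nat_lit 39187702012) (nat_lit 152) (nat_lit 329944157686) (nat_lit 228) (nat_lit 541352931661) (nat_lit 29) (nat_lit 5) (nat_lit 31) (nat_lit 5) (nat_lit 32) (nat_lit 5) (nat_lit 303) (nat_lit 293) (nat_lit 184)))) (XT.nd (nat_lit 78) (nat_lit 380) (nat_lit 0) (XT.lf (nat_lit 0) (nat_lit 712310699991) (nat_lit 228) (nat_lit 10943888774) (nat_lit 76) (nat_lit 272832365579) (nat_lit 29) (nat_lit 5) (nat_lit 32) (nat_lit 5) (nat_lit 30) (nat_lit 5) (nat_lit 304) (nat_lit 293) (nat_lit 183)) (XT.nd (nat_lit 78) (nat_lit 152) (nat_lit 0) (XT.lf (nat_lit 0) (nat_lit 46354782764) (nat_lit 228) (nat_lit 72629381619) (nat_lit 76) (nat_lit 972758148491) (nat_lit 26) (nat_lit 5) (nat_lit 29)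 (nat_lit 5) (nat_lit 27) (nat_lit 5) (nat_lit 305) (nat_lit 293) (nat_lit 182)) (XT.lf (nat_lit 0) (nat_lit 449908771225) (nat_lit 228) (nat_lit 166648632869) (nat_lit 76) (nat_lit 581342424848) (nat_lit 24) (nat_lit 5) (nat_lit 27) (nat_lit 5) (nat_lit 25) (nat_lit 5) (nat_lit 306) (nat_lit 293) (nat_lit 181))))) (XT.nd (nat_lit 234) (nat_lit 304) (nat_lit 0) (XT.nd (nat_lit 78) (nat_lit 304) (nat_lit 0) (XT.lf (nat_lit 0) (nat_lit 946464481426) (nat_lit 228) (nat_lit 286041712580) (nat_lit 76) (nat_lit 84877288573) (nat_lit 22) (nat_lit 5) (nat_lit 25) (nat_lit 5) (nat_lit 23) (nat_lit 4) (nat_lit 307) (nat_lit 293) (nat_lit 180)) (XT.nd (nat_lit 78) (nat_lit 152) (nat_lit 0) (XT.lf (nat_lit 0) (nat_lit 106790607224) (nat_lit 152) (nat_lit 456373443476) (nat_lit 76) (nat_lit 887727856413) (nat_lit 20) (nat_lit 5) (nat_lit 22) (nat_lit 5) (nat_lit 21) (nat_lit 5) (nat_lit 308) (nat_lit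 293) (nat_lit 179)) (XT.lf (nat_lit 0) (nat_lit 671423126393) (nat_lit 228) (nat_lit 691113887884) (nat_lit 76) (nat_lit 238140519209) (nat_lit 18) (nat_lit 5) (nat_lit 21) (nat_lit 5) (nat_lit 19) (nat_lit 4) (nat_lit 309) (nat_lit 293) (nat_lit 178)))) (XT.nd (nat_lit 156) (nat_lit 76) (nat_lit 0) (XT.nd (nat_lit 78) (nat_lit 152) (nat_lit 0) (XT.lf (nat_lit 0) (nat_lit 758165454051) (nat_lit 76) (nat_lit 610026600434) (nat_lit 152) (nat_lit 400943626868) (nat_lit 17) (nat_lit 5) (nat_lit 18) (nat_lit 5) (nat_lit 19) (nat_lit 4) (nat_lit 310) (nat_lit 293) (nat_lit 177)) (XT.lf (nat_lit 0) (nat_lit 236713993505) (nat_lit 152) (nat_lit 1440666415787) (nat_lit 76) (nat_lit 281849746380) (nat_lit 15) (nat_lit 5) (nat_lit 17) (nat_lit 5) (nat_lit 16) (nat_lit 4) (nat_lit 311) (nat_lit 293) (nat_lit 176))) (XT.nd (nat_lit 78) (nat_lit 0) (nat_lit 0) (XT.lf (nat_lit 0) (nat_lit 141624083562)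 (nat_lit 76) (nat_lit 855806505760) (nat_lit 152) (nat_lit 1175483028670) (nat_lit 14) (nat_lit 5) (nat_lit 15) (nat_lit 5) (nat_lit 16) (nat_lit 4) (nat_lit 312) (nat_lit 293) (nat_lit 175)) (XT.lf (nat_lit 0) (nat_lit 1917428082863) (nat_lit 152) (nat_lit 370023597929) (nat_lit 0) (nat_lit 127584046216) (nat_lit 14) (nat_lit 5) (nat_lit 16) (nat_lit 4) (nat_lit 14) (nat_lit 4) (nat_lit 313) (nat_lit 293) (nat_lit 174))))))))
noncomputable def xc57 : XT := (XT.nd (nat_lit 40248) (nat_lit 0) (nat_lit 152) (XT.nd (nat_lit 39312) (nat_lit 0) (nat_lit 1292) (XT.nd (nat_lit 468) (nat_lit 228) (nat_lit 0) (XT.nd (nat_lit 234) (nat_lit 228) (nat_lit 0) (XT.nd (nat_lit 78) (nat_lit 76) (nat_lit 0) (XT.lf (nat_lit 0) (nat_lit 331525514454) (nat_lit 152) (nat_lit 1100270980551) (nat_lit 76) (nat_lit 1256042730897) (nat_lit 12) (nat_lit 5) (nat_lit 14) (nat_lit 5) (nat_lit 13) (nat_lit 4) (nat_lit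 314) (nat_lit 293) (nat_lit 173)) (XT.nd (nat_lit 78) (nat_lit 0) (nat_lit 0) (XT.lf (nat_lit 0) (nat_lit 891035721168) (nat_lit 76) (nat_lit 397848790337) (nat_lit 152) (nat_lit 1708979165015) (nat_lit 11) (nat_lit 5) (nat_lit 12) (nat_lit 5) (nat_lit 13) (nat_lit 4) (nat_lit 315) (nat_lit 293) (nat_lit 172)) (XT.lf (nat_lit 0) (nat_lit 2441740743990) (nat_lit 152) (nat_lit 124021866747) (nat_lit 0) (nat_lit 784477713133) (nat_lit 11) (nat_lit 5) (nat_lit 13) (nat_lit 4) (nat_lit 11) (nat_lit 4) (nat_lit 316) (nat_lit 293) (nat_lit 171)))) (XT.nd (nat_lit 78) (nat_lit 76) (nat_lit 0) (XT.lf (nat_lit 0) (nat_lit 78457883669) (nat_lit 152) (nat_lit 1494070641329) (nat_lit 76) (nat_lit 2177561049157) (nat_lit 9) (nat_lit 5) (nat_lit 11) (nat_lit 5) (nat_lit 10) (nat_lit 4) (nat_lit 317) (nat_lit 293) (nat_lit 170)) (XT.nd (nat_lit 78) (nat_lit 0) (nat_lit 0) (XT.lf (nat_lit 0) (nat_lit 806050118232)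 (nat_lit 76) (nat_lit 378235057242) (nat_lit 152) (nat_lit 3021773683421) (nat_lit 8) (nat_lit 5) (nat_lit 9) (nat_lit 5) (nat_lit 10) (nat_lit 4) (nat_lit 318) (nat_lit 293) (nat_lit 169)) (XT.lf (nat_lit 0) (nat_lit 2524549275830) (nat_lit 152) (nat_lit 1210342794535) (nat_lit 0) (nat_lit 990046448805) (nat_lit 8) (nat_lit 5) (nat_lit 10) (nat_lit 4) (nat_lit 8) (nat_lit 4) (nat_lit 319) (nat_lit 293) (nat_lit 168))))) (XT.nd (nat_lit 38610) (nat_lit 0) (nat_lit 3496) (XT.nd (nat_lit 78) (nat_lit 152) (nat_lit 0) (XT.lf (nat_lit 0) (nat_lit 1365626127146) (nat_lit 76) (nat_lit 2743531241670) (nat_lit 76) (nat_lit 1209028409467) (nat_lit 7) (nat_lit 4) (nat_lit 8) (nat_lit 5) (nat_lit 8) (nat_lit 4) (nat_lit 320) (nat_lit 293) (nat_lit 167)) (XT.nd (nat_lit 78) (nat_lit 152) (nat_lit 0) (XT.lf (nat_lit 0) (nat_lit 4401285051869) (nat_lit 76) (nat_lit 1565409442795) (nat_lit 76) (nat_lit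 30906606090) (nat_lit 7) (nat_lit 4) (nat_lit 8) (nat_lit 5) (nat_lit 8) (nat_lit 4) (nat_lit 321) (nat_lit 293) (nat_lit 166)) (XT.lf (nat_lit 0) (nat_lit 1138474554037) (nat_lit 76) (nat_lit 146610731855) (nat_lit 152) (nat_lit 5489105758598) (nat_lit 5) (nat_lit 5) (nat_lit 6) (nat_lit 5) (nat_lit 7) (nat_lit 4) (nat_lit 322) (nat_lit 293) (nat_lit 165)))) (XT.nd (nat_lit 78) (nat_lit 0) (nat_lit 0) (XT.lf (nat_lit 0) (nat_lit 172568572619) (nat_lit 532) (nat_lit 31764368994) (nat_lit 532) (nat_lit 31764368994) (nat_lit 51) (nat_lit 3) (nat_lit 58) (nat_lit 3) (nat_lit 58) (nat_lit 5) (nat_lit 294) (nat_lit 294) (nat_lit 192)) (XT.nd (nat_lit 78) (nat_lit 0) (nat_lit 76) (XT.lf (nat_lit 76) (nat_lit 370058020722) (nat_lit 0) (nat_lit 9864802468) (nat_lit 532) (nat_lit 126974362200) (nat_lit 52) (nat_lit 5) (nat_lit 51) (nat_lit 3) (nat_lit 58) (nat_lit 5) (nat_lit 295) (nat_lit 294)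 (nat_lit 191)) (XT.lf (nat_lit 76) (nat_lit 331621058922) (nat_lit 0) (nat_lit 108970916085) (nat_lit 532) (nat_lit 104559909598) (nat_lit 53) (nat_lit 5) (nat_lit 52) (nat_lit 5) (nat_lit 59) (nat_lit 5) (nat_lit 296) (nat_lit 294) (nat_lit 190)))))) (XT.nd (nat_lit 468) (nat_lit 988) (nat_lit 0) (XT.nd (nat_lit 234) (nat_lit 608) (nat_lit 0) (XT.nd (nat_lit 78) (nat_lit 760) (nat_lit 0) (XT.lf (nat_lit 76) (nat_lit 295583168783) (nat_lit 0) (nat_lit 234884805980) (nat_lit 532) (nat_lit 57068296086) (nat_lit 54) (nat_lit 5) (nat_lit 53) (nat_lit 5) (nat_lit 60) (nat_lit 5) (nat_lit 297) (nat_lit 294) (nat_lit 189)) (XT.nd (nat_lit 78) (nat_lit 304) (nat_lit 0) (XT.lf (nat_lit 0) (nat_lit 19652938068) (nat_lit 532) (nat_lit 372617386785) (nat_lit 76) (nat_lit 242254055965) (nat_lit 47) (nat_lit 5) (nat_lit 54) (nat_lit 5) (nat_lit 48) (nat_lit 5) (nat_lit 298) (nat_lit 294) (nat_lit 188))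 (XT.lf (nat_lit 0) (nat_lit 127957497180) (nat_lit 380) (nat_lit 457380661356) (nat_lit 76) (nat_lit 101227627803) (nat_lit 43) (nat_lit 5) (nat_lit 48) (nat_lit 5) (nat_lit 44) (nat_lit 5) (nat_lit 299) (nat_lit 294) (nat_lit 187)))) (XT.nd (nat_lit 78) (nat_lit 380) (nat_lit 0) (XT.lf (nat_lit 0) (nat_lit 197000771491) (nat_lit 228) (nat_lit 82224144166) (nat_lit 304) (nat_lit 465051113091) (nat_lit 40) (nat_lit 5) (nat_lit 43) (nat_lit 5) (nat_lit 44) (nat_lit 5) (nat_lit 300) (nat_lit 294) (nat_lit 186)) (XT.nd (nat_lit 78) (nat_lit 152) (nat_lit 0) (XT.lf (nat_lit 0) (nat_lit 163557991621) (nat_lit 228) (nat_lit 319157396677) (nat_lit 304) (nat_lit 325564783995) (nat_lit 37) (nat_lit 5) (nat_lit 40) (nat_lit 5) (nat_lit 41) (nat_lit 5) (nat_lit 301) (nat_lit 294) (nat_lit 185)) (XT.lf (nat_lit 0) (nat_lit 131236594009) (nat_lit 152) (nat_lit 613457987169) (nat_lit 228) (nat_lit 134953144319)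 (nat_lit 35) (nat_lit 5) (nat_lit 37) (nat_lit 5) (nat_lit 38) (nat_lit 5) (nat_lit 302) (nat_lit 294) (nat_lit 184))))) (XT.nd (nat_lit 234) (nat_lit 532) (nat_lit 0) (XT.nd (nat_lit 78) (nat_lit 152) (nat_lit 0) (XT.lf (nat_lit 0) (nat_lit 95867585321) (nat_lit 228) (nat_lit 14558734495) (nat_lit 304) (nat_lit 848700744957) (nat_lit 31) (nat_lit 5) (nat_lit 34) (nat_lit 5) (nat_lit 35) (nat_lit 5) (nat_lit 303) (nat_lit 294) (nat_lit 183)) (XT.nd (nat_lit 78) (nat_lit 0) (nat_lit 0) (XT.lf (nat_lit 0) (nat_lit 45066440485) (nat_lit 152) (nat_lit 379435609336) (nat_lit 228) (nat_lit 622555426783) (nat_lit 29) (nat_lit 5) (nat_lit 31) (nat_lit 5) (nat_lit 32) (nat_lit 5) (nat_lit 304) (nat_lit 294) (nat_lit 182)) (XT.lf (nat_lit 0) (nat_lit 819157666124) (nat_lit 228) (nat_lit 12584939488) (nat_lit 76) (nat_lit 313757362502) (nat_lit 29) (nat_lit 5) (nat_lit 32) (nat_lit 5) (nat_lit 30)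 (nat_lit 5) (nat_lit 305) (nat_lit 294) (nat_lit 181)))) (XT.nd (nat_lit 78) (nat_lit 304) (nat_lit 0) (XT.lf (nat_lit 0) (nat_lit 53308334801) (nat_lit 228) (nat_lit 83523283325) (nat_lit 76) (nat_lit 1118672014514) (nat_lit 26) (nat_lit 5) (nat_lit 29) (nat_lit 5) (nat_lit 27) (nat_lit 5) (nat_lit 306) (nat_lit 294) (nat_lit 180)) (XT.nd (nat_lit 78) (nat_lit 152) (nat_lit 0) (XT.lf (nat_lit 0) (nat_lit 517395392877) (nat_lit 228) (nat_lit 191645444404) (nat_lit 76) (nat_lit 668543941181) (nat_lit 24) (nat_lit 5) (nat_lit 27) (nat_lit 5) (nat_lit 25) (nat_lit 5) (nat_lit 307) (nat_lit 294) (nat_lit 179)) (XT.lf (nat_lit 0) (nat_lit 1088434434328) (nat_lit 228) (nat_lit 328947508541) (nat_lit 76) (nat_lit 97609039343) (nat_lit 22) (nat_lit 5) (nat_lit 25) (nat_lit 5) (nat_lit 23) (nat_lit 4) (nat_lit 308) (nat_lit 294) (nat_lit 178))))))) (XT.nd (nat_lit 936) (nat_lit 76) (nat_lit 0)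 (XT.nd (nat_lit 468) (nat_lit 456) (nat_lit 0) (XT.nd (nat_lit 234) (nat_lit 228) (nat_lit 0) (XT.nd (nat_lit 78) (nat_lit 228) (nat_lit 0) (XT.lf (nat_lit 0) (nat_lit 122809459382) (nat_lit 152) (nat_lit 524829024097) (nat_lit 76) (nat_lit 1020887188574) (nat_lit 20) (nat_lit 5) (nat_lit 22) (nat_lit 5) (nat_lit 21) (nat_lit 5) (nat_lit 309) (nat_lit 294) (nat_lit 177)) (XT.nd (nat_lit 78) (nat_lit 76) (nat_lit 0) (XT.lf (nat_lit 0) (nat_lit 772136835874) (nat_lit 228) (nat_lit 794780556830) (nat_lit 76) (nat_lit 273861751354) (nat_lit 18) (nat_lit 5) (nat_lit 21) (nat_lit 5) (nat_lit 19) (nat_lit 4) (nat_lit 310) (nat_lit 294) (nat_lit 176)) (XT.lf (nat_lit 0) (nat_lit 871890651333) (nat_lit 76) (nat_lit 701530429594) (nat_lit 152) (nat_lit 461084934985) (nat_lit 17) (nat_lit 5) (nat_lit 18) (nat_lit 5) (nat_lit 19) (nat_lit 4) (nat_lit 311) (nat_lit 294) (nat_lit 175)))) (XT.nd (nat_lit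 78) (nat_lit 76) (nat_lit 0) (XT.lf (nat_lit 0) (nat_lit 272221299737) (nat_lit 152) (nat_lit 1656766007410) (nat_lit 76) (nat_lit 324127355151) (nat_lit 15) (nat_lit 5) (nat_lit 17) (nat_lit 5) (nat_lit 16) (nat_lit 4) (nat_lit 312) (nat_lit 294) (nat_lit 174)) (XT.nd (nat_lit 78) (nat_lit 0) (nat_lit 0) (XT.lf (nat_lit 0) (nat_lit 162868035459) (nat_lit 76) (nat_lit 984177330603) (nat_lit 152) (nat_lit 1351805279434) (nat_lit 14) (nat_lit 5) (nat_lit 15) (nat_lit 5) (nat_lit 16) (nat_lit 4) (nat_lit 313) (nat_lit 294) (nat_lit 173)) (XT.lf (nat_lit 0) (nat_lit 2205042462226) (nat_lit 152) (nat_lit 425526832466) (nat_lit 0) (nat_lit 146721777901) (nat_lit 14) (nat_lit 5) (nat_lit 16) (nat_lit 4) (nat_lit 14) (nat_lit 4) (nat_lit 314) (nat_lit 294) (nat_lit 172))))) (XT.nd (nat_lit 234) (nat_lit 228) (nat_lit 0) (XT.nd (nat_lit 78) (nat_lit 76) (nat_lit 0) (XT.lf (nat_lit 0) (nat_lit 381254497536)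 (nat_lit 152) (nat_lit 1265311340011) (nat_lit 76) (nat_lit 1444449259677) (nat_lit 12) (nat_lit 5) (nat_lit 14) (nat_lit 5) (nat_lit 13) (nat_lit 4) (nat_lit 315) (nat_lit 294) (nat_lit 171)) (XT.nd (nat_lit 78) (nat_lit 0) (nat_lit 0) (XT.lf (nat_lit 0) (nat_lit 1024691342620) (nat_lit 76) (nat_lit 457525987520) (nat_lit 152) (nat_lit 1965325886428) (nat_lit 11) (nat_lit 5) (nat_lit 12) (nat_lit 5) (nat_lit 13) (nat_lit 4) (nat_lit 316) (nat_lit 294) (nat_lit 170)) (XT.lf (nat_lit 0) (nat_lit 2808001981526) (nat_lit 152) (nat_lit 142624910421) (nat_lit 0) (nat_lit 902149470360) (nat_lit 11) (nat_lit 5) (nat_lit 13) (nat_lit 4) (nat_lit 11) (nat_lit 4) (nat_lit 317) (nat_lit 294) (nat_lit 169)))) (XT.nd (nat_lit 78) (nat_lit 76) (nat_lit 0) (XT.lf (nat_lit 0) (nat_lit 90226683968) (nat_lit 152) (nat_lit 1718181014941) (nat_lit 76) (nat_lit 2504195301895) (nat_lit 9) (nat_lit 5) (nat_lit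 11) (nat_lit 5) (nat_lit 10) (nat_lit 4) (nat_lit 318) (nat_lit 294) (nat_lit 168)) (XT.nd (nat_lit 78) (nat_lit 0) (nat_lit 0) (XT.lf (nat_lit 0) (nat_lit 926957839714) (nat_lit 76) (nat_lit 434970219373) (nat_lit 152) (nat_lit 3475039620013) (nat_lit 8) (nat_lit 5) (nat_lit 9) (nat_lit 5) (nat_lit 10) (nat_lit 4) (nat_lit 319) (nat_lit 294) (nat_lit 167)) (XT.lf (nat_lit 0) (nat_lit 2903231762518) (nat_lit 152) (nat_lit 1391894031056) (nat_lit 0) (nat_lit 1138553495805) (nat_lit 8) (nat_lit 5) (nat_lit 10) (nat_lit 4) (nat_lit 8) (nat_lit 4) (nat_lit 320) (nat_lit 294) (nat_lit 166)))))) (XT.nd (nat_lit 38922) (nat_lit 0) (nat_lit 1672) (XT.nd (nat_lit 38688) (nat_lit 0) (nat_lit 3344) (XT.nd (nat_lit 78) (nat_lit 0) (nat_lit 0) (XT.lf (nat_lit 0) (nat_lit 1570470213416) (nat_lit 76) (nat_lit 3155060847625) (nat_lit 76) (nat_lit 1390382576997) (nat_lit 7) (nat_lit 4) (nat_lit 8) (nat_lit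 5) (nat_lit 8) (nat_lit 4) (nat_lit 321) (nat_lit 294) (nat_lit 165)) (XT.nd (nat_lit 38532) (nat_lit 0) (nat_lit 3344) (XT.lf (nat_lit 0) (nat_lit 5061477955039) (nat_lit 76) (nat_lit 1800220789393) (nat_lit 76) (nat_lit 35542515360) (nat_lit 7) (nat_lit 4) (nat_lit 8) (nat_lit 5) (nat_lit 8) (nat_lit 4) (nat_lit 322) (nat_lit 294) (nat_lit 164)) (XT.lf (nat_lit 0) (nat_lit 198454326076) (nat_lit 532) (nat_lit 36528771354) (nat_lit 532) (nat_lit 36528771354) (nat_lit 51) (nat_lit 3) (nat_lit 58) (nat_lit 3) (nat_lit 58) (nat_lit 5) (nat_lit 295) (nat_lit 295) (nat_lit 190)))) (XT.nd (nat_lit 78) (nat_lit 0) (nat_lit 76) (XT.lf (nat_lit 76) (nat_lit 425567186979) (nat_lit 0) (nat_lit 11344883982) (nat_lit 532) (nat_lit 146019624540) (nat_lit 52) (nat_lit 5) (nat_lit 51) (nat_lit 3) (nat_lit 58) (nat_lit 5) (nat_lit 296) (nat_lit 295) (nat_lit 189)) (XT.nd (nat_lit 78) (nat_lit 0) (nat_lit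 76) (XT.lf (nat_lit 76) (nat_lit 381364711623) (nat_lit 0) (nat_lit 125316780735) (nat_lit 532) (nat_lit 120243115723) (nat_lit 53) (nat_lit 5) (nat_lit 52) (nat_lit 5) (nat_lit 59) (nat_lit 5) (nat_lit 297) (nat_lit 295) (nat_lit 188)) (XT.lf (nat_lit 76) (nat_lit 339921155365) (nat_lit 0) (nat_lit 270117650201) (nat_lit 532) (nat_lit 65627853818) (nat_lit 54) (nat_lit 5) (nat_lit 53) (nat_lit 5) (nat_lit 60) (nat_lit 5) (nat_lit 298) (nat_lit 295) (nat_lit 187))))) (XT.nd (nat_lit 234) (nat_lit 836) (nat_lit 0) (XT.nd (nat_lit 78) (nat_lit 532) (nat_lit 0) (XT.lf (nat_lit 0) (nat_lit 22601456167) (nat_lit 532) (nat_lit 428509444943) (nat_lit 76) (nat_lit 278592089571) (nat_lit 47) (nat_lit 5) (nat_lit 54) (nat_lit 5) (nat_lit 48) (nat_lit 5) (nat_lit 299) (nat_lit 295) (nat_lit 186)) (XT.nd (nat_lit 78) (nat_lit 228) (nat_lit 0) (XT.lf (nat_lit 0) (nat_lit 147151635678) (nat_lit 380)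 (nat_lit 525987214918) (nat_lit 76) (nat_lit 116411761652) (nat_lit 43) (nat_lit 5) (nat_lit 48) (nat_lit 5) (nat_lit 44) (nat_lit 5) (nat_lit 300) (nat_lit 295) (nat_lit 185)) (XT.lf (nat_lit 0) (nat_lit 226551386670) (nat_lit 228) (nat_lit 94557725235) (nat_lit 304) (nat_lit 534808283636) (nat_lit 40) (nat_lit 5) (nat_lit 43) (nat_lit 5) (nat_lit 44) (nat_lit 5) (nat_lit 301) (nat_lit 295) (nat_lit 184)))) (XT.nd (nat_lit 156) (nat_lit 456) (nat_lit 0) (XT.nd (nat_lit 78) (nat_lit 152) (nat_lit 0) (XT.lf (nat_lit 0) (nat_lit 188092180994) (nat_lit 228) (nat_lit 367030927240) (nat_lit 304) (nat_lit 374399056265) (nat_lit 37) (nat_lit 5) (nat_lit 40) (nat_lit 5) (nat_lit 41) (nat_lit 5) (nat_lit 302) (nat_lit 295) (nat_lit 183)) (XT.lf (nat_lit 0) (nat_lit 150922561264) (nat_lit 152) (nat_lit 705476578234) (nat_lit 228) (nat_lit 155195714522) (nat_lit 35) (nat_lit 5) (nat_lit 37) (nat_lit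 5) (nat_lit 38) (nat_lit 5) (nat_lit 303) (nat_lit 295) (nat_lit 182))) (XT.nd (nat_lit 78) (nat_lit 152) (nat_lit 0) (XT.lf (nat_lit 0) (nat_lit 110248179698) (nat_lit 228) (nat_lit 16742430691) (nat_lit 304) (nat_lit 976005486200) (nat_lit 31) (nat_lit 5) (nat_lit 34) (nat_lit 5) (nat_lit 35) (nat_lit 5) (nat_lit 304) (nat_lit 295) (nat_lit 181)) (XT.lf (nat_lit 0) (nat_lit 51826847519) (nat_lit 152) (nat_lit 436350820678) (nat_lit 228) (nat_lit 715938404599) (nat_lit 29) (nat_lit 5) (nat_lit 31) (nat_lit 5) (nat_lit 32) (nat_lit 5) (nat_lit 305) (nat_lit 295) (nat_lit 180))))))))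
noncomputable def xc58 : XT := (XT.nd (nat_lit 40482) (nat_lit 0) (nat_lit 0) (XT.nd (nat_lit 936) (nat_lit 228) (nat_lit 0) (XT.nd (nat_lit 468) (nat_lit 532) (nat_lit 0) (XT.nd (nat_lit 234) (nat_lit 456) (nat_lit 0) (XT.nd (nat_lit 78) (nat_lit 380) (nat_lit 0) (XT.lf (nat_lit 0) (nat_lit 942031589113) (nat_lit 228) (nat_lit 14472277687) (nat_lit 76) (nat_lit 360821074314) (nat_lit 29) (nat_lit 5) (nat_lit 32) (nat_lit 5) (nat_lit 30) (nat_lit 5) (nat_lit 306) (nat_lit 295) (nat_lit 179)) (XT.nd (nat_lit 78) (nat_lit 152) (nat_lit 0) (XT.lf (nat_lit 0) (nat_lit 61304838043) (nat_lit 228) (nat_lit 96051393565) (nat_lit 76) (nat_lit 1286472925386) (nat_lit 26) (nat_lit 5) (nat_lit 29) (nat_lit 5) (nat_lit 27) (nat_lit 5) (nat_lit 307) (nat_lit 295) (nat_lit 178)) (XT.lf (nat_lit 0) (nat_lit 595004933165) (nat_lit 228) (nat_lit 220391895548) (nat_lit 76) (nat_lit 768825647749) (nat_lit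 24) (nat_lit 5) (nat_lit 27) (nat_lit 5) (nat_lit 25) (nat_lit 5) (nat_lit 308) (nat_lit 295) (nat_lit 177)))) (XT.nd (nat_lit 78) (nat_lit 304) (nat_lit 0) (XT.lf (nat_lit 0) (nat_lit 1251699811718) (nat_lit 228) (nat_lit 378289286295) (nat_lit 76) (nat_lit 112250514325) (nat_lit 22) (nat_lit 5) (nat_lit 25) (nat_lit 5) (nat_lit 23) (nat_lit 4) (nat_lit 309) (nat_lit 295) (nat_lit 176)) (XT.nd (nat_lit 78) (nat_lit 152) (nat_lit 0) (XT.lf (nat_lit 0) (nat_lit 141231075698) (nat_lit 152) (nat_lit 603553048109) (nat_lit 76) (nat_lit 1174020383079) (nat_lit 20) (nat_lit 5) (nat_lit 22) (nat_lit 5) (nat_lit 21) (nat_lit 5) (nat_lit 310) (nat_lit 295) (nat_lit 175)) (XT.lf (nat_lit 0) (nat_lit 887957543125) (nat_lit 228) (nat_lit 913997327132) (nat_lit 76) (nat_lit 314941130702) (nat_lit 18) (nat_lit 5) (nat_lit 21) (nat_lit 5) (nat_lit 19) (nat_lit 4) (nat_lit 311) (nat_lit 295) (nat_lit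 174))))) (XT.nd (nat_lit 234) (nat_lit 228) (nat_lit 0) (XT.nd (nat_lit 78) (nat_lit 228) (nat_lit 0) (XT.lf (nat_lit 0) (nat_lit 1002674535743) (nat_lit 76) (nat_lit 806759872366) (nat_lit 152) (nat_lit 530247496849) (nat_lit 17) (nat_lit 5) (nat_lit 18) (nat_lit 5) (nat_lit 19) (nat_lit 4) (nat_lit 312) (nat_lit 295) (nat_lit 173)) (XT.nd (nat_lit 78) (nat_lit 76) (nat_lit 0) (XT.lf (nat_lit 0) (nat_lit 313054651376) (nat_lit 152) (nat_lit 1905280628185) (nat_lit 76) (nat_lit 372746569436) (nat_lit 15) (nat_lit 5) (nat_lit 17) (nat_lit 5) (nat_lit 16) (nat_lit 4) (nat_lit 313) (nat_lit 295) (nat_lit 172)) (XT.lf (nat_lit 0) (nat_lit 187298497385) (nat_lit 76) (nat_lit 1131803816000) (nat_lit 152) (nat_lit 1554575917446) (nat_lit 14) (nat_lit 5) (nat_lit 15) (nat_lit 5) (nat_lit 16) (nat_lit 4) (nat_lit 314) (nat_lit 295) (nat_lit 171)))) (XT.nd (nat_lit 78) (nat_lit 228) (nat_lit 0)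 (XT.lf (nat_lit 0) (nat_lit 2535798957786) (nat_lit 152) (nat_lit 489355626597) (nat_lit 0) (nat_lit 168730138918) (nat_lit 14) (nat_lit 5) (nat_lit 16) (nat_lit 4) (nat_lit 14) (nat_lit 4) (nat_lit 315) (nat_lit 295) (nat_lit 170)) (XT.nd (nat_lit 78) (nat_lit 76) (nat_lit 0) (XT.lf (nat_lit 0) (nat_lit 438442790060) (nat_lit 152) (nat_lit 1455107823528) (nat_lit 76) (nat_lit 1661116738721) (nat_lit 12) (nat_lit 5) (nat_lit 14) (nat_lit 5) (nat_lit 13) (nat_lit 4) (nat_lit 316) (nat_lit 295) (nat_lit 169)) (XT.lf (nat_lit 0) (nat_lit 1178395243089) (nat_lit 76) (nat_lit 526154793876) (nat_lit 152) (nat_lit 2260124653445) (nat_lit 11) (nat_lit 5) (nat_lit 12) (nat_lit 5) (nat_lit 13) (nat_lit 4) (nat_lit 317) (nat_lit 295) (nat_lit 168)))))) (XT.nd (nat_lit 39078) (nat_lit 0) (nat_lit 2204) (XT.nd (nat_lit 234) (nat_lit 0) (nat_lit 0) (XT.nd (nat_lit 78) (nat_lit 228) (nat_lit 0) (XT.lf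 (nat_lit 0) (nat_lit 3229202373982) (nat_lit 152) (nat_lit 164018468279) (nat_lit 0) (nat_lit 1037471966724) (nat_lit 11) (nat_lit 5) (nat_lit 13) (nat_lit 4) (nat_lit 11) (nat_lit 4) (nat_lit 318) (nat_lit 295) (nat_lit 167)) (XT.nd (nat_lit 78) (nat_lit 76) (nat_lit 0) (XT.lf (nat_lit 0) (nat_lit 103760775599) (nat_lit 152) (nat_lit 1975907998874) (nat_lit 76) (nat_lit 2879824669289) (nat_lit 9) (nat_lit 5) (nat_lit 11) (nat_lit 5) (nat_lit 10) (nat_lit 4) (nat_lit 319) (nat_lit 295) (nat_lit 166)) (XT.lf (nat_lit 0) (nat_lit 1066001669733) (nat_lit 76) (nat_lit 500215679344) (nat_lit 152) (nat_lit 3996295475361) (nat_lit 8) (nat_lit 5) (nat_lit 9) (nat_lit 5) (nat_lit 10) (nat_lit 4) (nat_lit 320) (nat_lit 295) (nat_lit 165)))) (XT.nd (nat_lit 38688) (nat_lit 0) (nat_lit 3268) (XT.lf (nat_lit 0) (nat_lit 3338716598967) (nat_lit 152) (nat_lit 1600677997598) (nat_lit 0) (nat_lit 1309336580424)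 (nat_lit 8) (nat_lit 5) (nat_lit 10) (nat_lit 4) (nat_lit 8) (nat_lit 4) (nat_lit 321) (nat_lit 295) (nat_lit 164)) (XT.nd (nat_lit 78) (nat_lit 0) (nat_lit 0) (XT.lf (nat_lit 0) (nat_lit 228222828532) (nat_lit 532) (nat_lit 42007895762) (nat_lit 532) (nat_lit 42007895762) (nat_lit 51) (nat_lit 3) (nat_lit 58) (nat_lit 3) (nat_lit 58) (nat_lit 5) (nat_lit 296) (nat_lit 296) (nat_lit 188)) (XT.lf (nat_lit 76) (nat_lit 489402615233) (nat_lit 0) (nat_lit 13046889656) (nat_lit 532) (nat_lit 167921893748) (nat_lit 52) (nat_lit 5) (nat_lit 51) (nat_lit 3) (nat_lit 58) (nat_lit 5) (nat_lit 297) (nat_lit 296) (nat_lit 187))))) (XT.nd (nat_lit 234) (nat_lit 760) (nat_lit 0) (XT.nd (nat_lit 78) (nat_lit 380) (nat_lit 0) (XT.lf (nat_lit 76) (nat_lit 438569791798) (nat_lit 0) (nat_lit 144114469670) (nat_lit 532) (nat_lit 138278993052) (nat_lit 53) (nat_lit 5) (nat_lit 52) (nat_lit 5) (nat_lit 59)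 (nat_lit 5) (nat_lit 298) (nat_lit 296) (nat_lit 186)) (XT.nd (nat_lit 78) (nat_lit 456) (nat_lit 0) (XT.lf (nat_lit 76) (nat_lit 390909715259) (nat_lit 0) (nat_lit 310635390982) (nat_lit 532) (nat_lit 75471512661) (nat_lit 54) (nat_lit 5) (nat_lit 53) (nat_lit 5) (nat_lit 60) (nat_lit 5) (nat_lit 299) (nat_lit 296) (nat_lit 185)) (XT.lf (nat_lit 0) (nat_lit 25992111182) (nat_lit 532) (nat_lit 492785445912) (nat_lit 76) (nat_lit 320380846456) (nat_lit 47) (nat_lit 5) (nat_lit 54) (nat_lit 5) (nat_lit 48) (nat_lit 5) (nat_lit 300) (nat_lit 296) (nat_lit 184)))) (XT.nd (nat_lit 78) (nat_lit 456) (nat_lit 0) (XT.lf (nat_lit 0) (nat_lit 169224769628) (nat_lit 380) (nat_lit 604884884573) (nat_lit 76) (nat_lit 133873518094) (nat_lit 43) (nat_lit 5) (nat_lit 48) (nat_lit 5) (nat_lit 44) (nat_lit 5) (nat_lit 301) (nat_lit 296) (nat_lit 183)) (XT.nd (nat_lit 78) (nat_lit 228) (nat_lit 0) (XT.lf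 (nat_lit 0) (nat_lit 260534472330) (nat_lit 228) (nat_lit 108741353355) (nat_lit 304) (nat_lit 615029150817) (nat_lit 40) (nat_lit 5) (nat_lit 43) (nat_lit 5) (nat_lit 44) (nat_lit 5) (nat_lit 302) (nat_lit 296) (nat_lit 182)) (XT.lf (nat_lit 0) (nat_lit 216306379130) (nat_lit 228) (nat_lit 422085506637) (nat_lit 304) (nat_lit 430558577973) (nat_lit 37) (nat_lit 5) (nat_lit 40) (nat_lit 5) (nat_lit 41) (nat_lit 5) (nat_lit 303) (nat_lit 296) (nat_lit 181))))))) (XT.nd (nat_lit 936) (nat_lit 456) (nat_lit 0) (XT.nd (nat_lit 468) (nat_lit 760) (nat_lit 0) (XT.nd (nat_lit 234) (nat_lit 380) (nat_lit 0) (XT.nd (nat_lit 78) (nat_lit 456) (nat_lit 0) (XT.lf (nat_lit 0) (nat_lit 173561307006) (nat_lit 152) (nat_lit 811297984054) (nat_lit 228) (nat_lit 178474768150) (nat_lit 35) (nat_lit 5) (nat_lit 37) (nat_lit 5) (nat_lit 38) (nat_lit 5) (nat_lit 304) (nat_lit 296) (nat_lit 180)) (XT.nd (nat_lit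 78) (nat_lit 152) (nat_lit 0) (XT.lf (nat_lit 0) (nat_lit 126785751893) (nat_lit 228) (nat_lit 19253709110) (nat_lit 304) (nat_lit 1122406028979) (nat_lit 31) (nat_lit 5) (nat_lit 34) (nat_lit 5) (nat_lit 35) (nat_lit 5) (nat_lit 305) (nat_lit 296) (nat_lit 179)) (XT.lf (nat_lit 0) (nat_lit 59601208077) (nat_lit 152) (nat_lit 501803345437) (nat_lit 228) (nat_lit 823328911072) (nat_lit 29) (nat_lit 5) (nat_lit 31) (nat_lit 5) (nat_lit 32) (nat_lit 5) (nat_lit 306) (nat_lit 296) (nat_lit 178)))) (XT.nd (nat_lit 78) (nat_lit 380) (nat_lit 0) (XT.lf (nat_lit 0) (nat_lit 1083336533960) (nat_lit 228) (nat_lit 16642814822) (nat_lit 76) (nat_lit 414944316699) (nat_lit 29) (nat_lit 5) (nat_lit 32) (nat_lit 5) (nat_lit 30) (nat_lit 5) (nat_lit 307) (nat_lit 296) (nat_lit 177)) (XT.nd (nat_lit 78) (nat_lit 152) (nat_lit 0) (XT.lf (nat_lit 0) (nat_lit 70500755072) (nat_lit 228) (nat_lit 110458813558)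 (nat_lit 76) (nat_lit 1479443946383) (nat_lit 26) (nat_lit 5) (nat_lit 29) (nat_lit 5) (nat_lit 27) (nat_lit 5) (nat_lit 308) (nat_lit 296) (nat_lit 176)) (XT.lf (nat_lit 0) (nat_lit 684255848079) (nat_lit 228) (nat_lit 253450403498) (nat_lit 76) (nat_lit 884149582164) (nat_lit 24) (nat_lit 5) (nat_lit 27) (nat_lit 5) (nat_lit 25) (nat_lit 5) (nat_lit 309) (nat_lit 296) (nat_lit 175))))) (XT.nd (nat_lit 234) (nat_lit 304) (nat_lit 0) (XT.nd (nat_lit 78) (nat_lit 304) (nat_lit 0) (XT.lf (nat_lit 0) (nat_lit 1439454943960) (nat_lit 228) (nat_lit 435032415703) (nat_lit 76) (nat_lit 129088181516) (nat_lit 22) (nat_lit 5) (nat_lit 25) (nat_lit 5) (nat_lit 23) (nat_lit 4) (nat_lit 310) (nat_lit 296) (nat_lit 174)) (XT.nd (nat_lit 78) (nat_lit 152) (nat_lit 0) (XT.lf (nat_lit 0) (nat_lit 162415886323) (nat_lit 152) (nat_lit 694085756098) (nat_lit 76) (nat_lit 1350123528419) (nat_lit 20) (nat_lit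 5) (nat_lit 22) (nat_lit 5) (nat_lit 21) (nat_lit 5) (nat_lit 311) (nat_lit 296) (nat_lit 173)) (XT.lf (nat_lit 0) (nat_lit 1021151312113) (nat_lit 228) (nat_lit 1051096689360) (nat_lit 76) (nat_lit 362182388508) (nat_lit 18) (nat_lit 5) (nat_lit 21) (nat_lit 5) (nat_lit 19) (nat_lit 4) (nat_lit 312) (nat_lit 296) (nat_lit 172)))) (XT.nd (nat_lit 78) (nat_lit 228) (nat_lit 0) (XT.lf (nat_lit 0) (nat_lit 1153075932899) (nat_lit 76) (nat_lit 927773761223) (nat_lit 152) (nat_lit 609784486493) (nat_lit 17) (nat_lit 5) (nat_lit 18) (nat_lit 5) (nat_lit 19) (nat_lit 4) (nat_lit 313) (nat_lit 296) (nat_lit 171)) (XT.nd (nat_lit 78) (nat_lit 76) (nat_lit 0) (XT.lf (nat_lit 0) (nat_lit 360012967554) (nat_lit 152) (nat_lit 2191072510439) (nat_lit 76) (nat_lit 428658638793) (nat_lit 15) (nat_lit 5) (nat_lit 17) (nat_lit 5) (nat_lit 16) (nat_lit 4) (nat_lit 314) (nat_lit 296) (nat_lit 170)) (XT.lf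 (nat_lit 0) (nat_lit 215393466025) (nat_lit 76) (nat_lit 1301574302053) (nat_lit 152) (nat_lit 1787762188691) (nat_lit 14) (nat_lit 5) (nat_lit 15) (nat_lit 5) (nat_lit 16) (nat_lit 4) (nat_lit 315) (nat_lit 296) (nat_lit 169)))))) (XT.nd (nat_lit 39156) (nat_lit 0) (nat_lit 2432) (XT.nd (nat_lit 234) (nat_lit 228) (nat_lit 0) (XT.nd (nat_lit 78) (nat_lit 228) (nat_lit 0) (XT.lf (nat_lit 0) (nat_lit 2916168896899) (nat_lit 152) (nat_lit 562758796114) (nat_lit 0) (nat_lit 194039731084) (nat_lit 14) (nat_lit 5) (nat_lit 16) (nat_lit 4) (nat_lit 14) (nat_lit 4) (nat_lit 316) (nat_lit 296) (nat_lit 168)) (XT.nd (nat_lit 78) (nat_lit 76) (nat_lit 0) (XT.lf (nat_lit 0) (nat_lit 504209297713) (nat_lit 152) (nat_lit 1673373832608) (nat_lit 76) (nat_lit 1910284317651) (nat_lit 12) (nat_lit 5) (nat_lit 14) (nat_lit 5) (nat_lit 13) (nat_lit 4) (nat_lit 317) (nat_lit 296) (nat_lit 167)) (XT.lf (nat_lit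 0) (nat_lit 1355154680081) (nat_lit 76) (nat_lit 605077943565) (nat_lit 152) (nat_lit 2599143263790) (nat_lit 11) (nat_lit 5) (nat_lit 12) (nat_lit 5) (nat_lit 13) (nat_lit 4) (nat_lit 318) (nat_lit 296) (nat_lit 166)))) (XT.nd (nat_lit 78) (nat_lit 228) (nat_lit 0) (XT.lf (nat_lit 0) (nat_lit 3713582802084) (nat_lit 152) (nat_lit 188621103394) (nat_lit 0) (nat_lit 1193092819055) (nat_lit 11) (nat_lit 5) (nat_lit 13) (nat_lit 4) (nat_lit 11) (nat_lit 4) (nat_lit 319) (nat_lit 296) (nat_lit 165)) (XT.nd (nat_lit 78) (nat_lit 76) (nat_lit 0) (XT.lf (nat_lit 0) (nat_lit 119324959262) (nat_lit 152) (nat_lit 2272294071439) (nat_lit 76) (nat_lit 3311798424207) (nat_lit 9) (nat_lit 5) (nat_lit 11) (nat_lit 5) (nat_lit 10) (nat_lit 4) (nat_lit 320) (nat_lit 296) (nat_lit 164)) (XT.lf (nat_lit 0) (nat_lit 1225902036686) (nat_lit 76) (nat_lit 575247976096) (nat_lit 152) (nat_lit 4595739730387) (nat_lit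 8) (nat_lit 5) (nat_lit 9) (nat_lit 5) (nat_lit 10) (nat_lit 4) (nat_lit 321) (nat_lit 296) (nat_lit 163))))) (XT.nd (nat_lit 234) (nat_lit 836) (nat_lit 0) (XT.nd (nat_lit 78) (nat_lit 0) (nat_lit 0) (XT.lf (nat_lit 0) (nat_lit 262456520143) (nat_lit 532) (nat_lit 48308935479) (nat_lit 532) (nat_lit 48308935479) (nat_lit 51) (nat_lit 3) (nat_lit 58) (nat_lit 3) (nat_lit 58) (nat_lit 5) (nat_lit 297) (nat_lit 297) (nat_lit 186)) (XT.nd (nat_lit 78) (nat_lit 0) (nat_lit 76) (XT.lf (nat_lit 76) (nat_lit 562813272325) (nat_lit 0) (nat_lit 15004129590) (nat_lit 532) (nat_lit 193109667812) (nat_lit 52) (nat_lit 5) (nat_lit 51) (nat_lit 3) (nat_lit 58) (nat_lit 5) (nat_lit 298) (nat_lit 297) (nat_lit 185)) (XT.lf (nat_lit 76) (nat_lit 504355542936) (nat_lit 0) (nat_lit 165731770044) (nat_lit 532) (nat_lit 159020395862) (nat_lit 53) (nat_lit 5) (nat_lit 52) (nat_lit 5) (nat_lit 59) (nat_lit 5)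 (nat_lit 299) (nat_lit 297) (nat_lit 184)))) (XT.nd (nat_lit 156) (nat_lit 532) (nat_lit 0) (XT.nd (nat_lit 78) (nat_lit 456) (nat_lit 0) (XT.lf (nat_lit 76) (nat_lit 449546464865) (nat_lit 0) (nat_lit 357230770140) (nat_lit 532) (nat_lit 86791846947) (nat_lit 54) (nat_lit 5) (nat_lit 53) (nat_lit 5) (nat_lit 60) (nat_lit 5) (nat_lit 300) (nat_lit 297) (nat_lit 183)) (XT.lf (nat_lit 0) (nat_lit 29891257983) (nat_lit 532) (nat_lit 566702948415) (nat_lit 76) (nat_lit 368437930663) (nat_lit 47) (nat_lit 5) (nat_lit 54) (nat_lit 5) (nat_lit 48) (nat_lit 5) (nat_lit 301) (nat_lit 297) (nat_lit 182))) (XT.nd (nat_lit 78) (nat_lit 228) (nat_lit 0) (XT.lf (nat_lit 0) (nat_lit 194608778909) (nat_lit 380) (nat_lit 695617305286) (nat_lit 76) (nat_lit 153954539907) (nat_lit 43) (nat_lit 5) (nat_lit 48) (nat_lit 5) (nat_lit 44) (nat_lit 5) (nat_lit 302) (nat_lit 297) (nat_lit 181)) (XT.lf (nat_lit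 0) (nat_lit 299614928745) (nat_lit 228) (nat_lit 125052533170) (nat_lit 304) (nat_lit 707283239610) (nat_lit 40) (nat_lit 5) (nat_lit 43) (nat_lit 5) (nat_lit 44) (nat_lit 5) (nat_lit 303) (nat_lit 297) (nat_lit 180))))))))
noncomputable def xc59 : XT := (XT.nd (nat_lit 40638) (nat_lit 0) (nat_lit 152) (XT.nd (nat_lit 936) (nat_lit 456) (nat_lit 0) (XT.nd (nat_lit 468) (nat_lit 836) (nat_lit 0) (XT.nd (nat_lit 234) (nat_lit 380) (nat_lit 0) (XT.nd (nat_lit 78) (nat_lit 456) (nat_lit 0) (XT.lf (nat_lit 0) (nat_lit 248752616519) (nat_lit 228) (nat_lit 485398287499) (nat_lit 304) (nat_lit 495142110051) (nat_lit 37) (nat_lit 5) (nat_lit 40) (nat_lit 5) (nat_lit 41) (nat_lit 5) (nat_lit 304) (nat_lit 297) (nat_lit 179)) (XT.nd (nat_lit 78) (nat_lit 304) (nat_lit 0) (XT.lf (nat_lit 0) (nat_lit 199595776442) (nat_lit 152) (nat_lit 932992620479) (nat_lit 228) (nat_lit 205245753845) (nat_lit 35)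 (nat_lit 5) (nat_lit 37) (nat_lit 5) (nat_lit 38) (nat_lit 5) (nat_lit 305) (nat_lit 297) (nat_lit 178)) (XT.lf (nat_lit 0) (nat_lit 145803875727) (nat_lit 228) (nat_lit 22141700309) (nat_lit 304) (nat_lit 1290766721491) (nat_lit 31) (nat_lit 5) (nat_lit 34) (nat_lit 5) (nat_lit 35) (nat_lit 5) (nat_lit 306) (nat_lit 297) (nat_lit 177)))) (XT.nd (nat_lit 78) (nat_lit 228) (nat_lit 0) (XT.lf (nat_lit 0) (nat_lit 68541641410) (nat_lit 152) (nat_lit 577073772891) (nat_lit 228) (nat_lit 946828055508) (nat_lit 29) (nat_lit 5) (nat_lit 31) (nat_lit 5) (nat_lit 32) (nat_lit 5) (nat_lit 307) (nat_lit 297) (nat_lit 176)) (XT.nd (nat_lit 78) (nat_lit 228) (nat_lit 0) (XT.lf (nat_lit 0) (nat_lit 1245837170182) (nat_lit 228) (nat_lit 19139006787) (nat_lit 76) (nat_lit 477186025632) (nat_lit 29) (nat_lit 5) (nat_lit 32) (nat_lit 5) (nat_lit 30) (nat_lit 5) (nat_lit 308) (nat_lit 297) (nat_lit 175))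 (XT.lf (nat_lit 0) (nat_lit 81076012999) (nat_lit 228) (nat_lit 127027417034) (nat_lit 76) (nat_lit 1701360600488) (nat_lit 26) (nat_lit 5) (nat_lit 29) (nat_lit 5) (nat_lit 27) (nat_lit 5) (nat_lit 309) (nat_lit 297) (nat_lit 174))))) (XT.nd (nat_lit 234) (nat_lit 380) (nat_lit 0) (XT.nd (nat_lit 78) (nat_lit 304) (nat_lit 0) (XT.lf (nat_lit 0) (nat_lit 786894357569) (nat_lit 228) (nat_lit 291467755037) (nat_lit 76) (nat_lit 1016772085464) (nat_lit 24) (nat_lit 5) (nat_lit 27) (nat_lit 5) (nat_lit 25) (nat_lit 5) (nat_lit 310) (nat_lit 297) (nat_lit 173)) (XT.nd (nat_lit 78) (nat_lit 152) (nat_lit 0) (XT.lf (nat_lit 0) (nat_lit 1655373306904) (nat_lit 228) (nat_lit 500287078787) (nat_lit 76) (nat_lit 148451476828) (nat_lit 22) (nat_lit 5) (nat_lit 25) (nat_lit 5) (nat_lit 23) (nat_lit 4) (nat_lit 311) (nat_lit 297) (nat_lit 172)) (XT.lf (nat_lit 0) (nat_lit 186778382141) (nat_lit 152)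 (nat_lit 798198431061) (nat_lit 76) (nat_lit 1552642124131) (nat_lit 20) (nat_lit 5) (nat_lit 22) (nat_lit 5) (nat_lit 21) (nat_lit 5) (nat_lit 312) (nat_lit 297) (nat_lit 171)))) (XT.nd (nat_lit 78) (nat_lit 228) (nat_lit 0) (XT.lf (nat_lit 0) (nat_lit 1174324112914) (nat_lit 228) (nat_lit 1208761013678) (nat_lit 76) (nat_lit 416509813477) (nat_lit 18) (nat_lit 5) (nat_lit 21) (nat_lit 5) (nat_lit 19) (nat_lit 4) (nat_lit 313) (nat_lit 297) (nat_lit 170)) (XT.nd (nat_lit 78) (nat_lit 152) (nat_lit 0) (XT.lf (nat_lit 0) (nat_lit 1326037486761) (nat_lit 76) (nat_lit 1066939755843) (nat_lit 152) (nat_lit 701252057475) (nat_lit 17) (nat_lit 5) (nat_lit 18) (nat_lit 5) (nat_lit 19) (nat_lit 4) (nat_lit 314) (nat_lit 297) (nat_lit 169)) (XT.lf (nat_lit 0) (nat_lit 414015002269) (nat_lit 152) (nat_lit 2519733226722) (nat_lit 76) (nat_lit 492957498084) (nat_lit 15) (nat_lit 5) (nat_lit 17) (nat_lit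 5) (nat_lit 16) (nat_lit 4) (nat_lit 315) (nat_lit 297) (nat_lit 168)))))) (XT.nd (nat_lit 39234) (nat_lit 0) (nat_lit 2584) (XT.nd (nat_lit 234) (nat_lit 228) (nat_lit 0) (XT.nd (nat_lit 78) (nat_lit 152) (nat_lit 0) (XT.lf (nat_lit 0) (nat_lit 247702632645) (nat_lit 76) (nat_lit 1496810382071) (nat_lit 152) (nat_lit 2055926429000) (nat_lit 14) (nat_lit 5) (nat_lit 15) (nat_lit 5) (nat_lit 16) (nat_lit 4) (nat_lit 316) (nat_lit 297) (nat_lit 167)) (XT.nd (nat_lit 78) (nat_lit 152) (nat_lit 0) (XT.lf (nat_lit 0) (nat_lit 3353594303604) (nat_lit 152) (nat_lit 647172483605) (nat_lit 0) (nat_lit 223145744681) (nat_lit 14) (nat_lit 5) (nat_lit 16) (nat_lit 4) (nat_lit 14) (nat_lit 4) (nat_lit 317) (nat_lit 297) (nat_lit 166)) (XT.lf (nat_lit 0) (nat_lit 579840759777) (nat_lit 152) (nat_lit 1924379783152) (nat_lit 76) (nat_lit 2196827016809) (nat_lit 12) (nat_lit 5) (nat_lit 14) (nat_lit 5)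 (nat_lit 13) (nat_lit 4) (nat_lit 318) (nat_lit 297) (nat_lit 165)))) (XT.nd (nat_lit 78) (nat_lit 152) (nat_lit 0) (XT.lf (nat_lit 0) (nat_lit 1558427995916) (nat_lit 76) (nat_lit 695839582630) (nat_lit 152) (nat_lit 2989014687065) (nat_lit 11) (nat_lit 5) (nat_lit 12) (nat_lit 5) (nat_lit 13) (nat_lit 4) (nat_lit 319) (nat_lit 297) (nat_lit 164)) (XT.nd (nat_lit 78) (nat_lit 152) (nat_lit 0) (XT.lf (nat_lit 0) (nat_lit 4270620276843) (nat_lit 152) (nat_lit 216914166728) (nat_lit 0) (nat_lit 1372056785257) (nat_lit 11) (nat_lit 5) (nat_lit 13) (nat_lit 4) (nat_lit 11) (nat_lit 4) (nat_lit 320) (nat_lit 297) (nat_lit 163)) (XT.lf (nat_lit 0) (nat_lit 137223754058) (nat_lit 152) (nat_lit 2613138085924) (nat_lit 76) (nat_lit 3808568229067) (nat_lit 9) (nat_lit 5) (nat_lit 11) (nat_lit 5) (nat_lit 10) (nat_lit 4) (nat_lit 321) (nat_lit 297) (nat_lit 162))))) (XT.nd (nat_lit 234) (nat_lit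 608) (nat_lit 0) (XT.nd (nat_lit 78) (nat_lit 0) (nat_lit 0) (XT.lf (nat_lit 0) (nat_lit 301825200305) (nat_lit 532) (nat_lit 55555166427) (nat_lit 532) (nat_lit 55555166427) (nat_lit 51) (nat_lit 3) (nat_lit 58) (nat_lit 3) (nat_lit 58) (nat_lit 5) (nat_lit 298) (nat_lit 298) (nat_lit 184)) (XT.nd (nat_lit 78) (nat_lit 0) (nat_lit 76) (XT.lf (nat_lit 76) (nat_lit 647235463406) (nat_lit 0) (nat_lit 17254905161) (nat_lit 532) (nat_lit 222075732351) (nat_lit 52) (nat_lit 5) (nat_lit 51) (nat_lit 3) (nat_lit 58) (nat_lit 5) (nat_lit 299) (nat_lit 298) (nat_lit 183)) (XT.lf (nat_lit 76) (nat_lit 580009087888) (nat_lit 0) (nat_lit 190591633792) (nat_lit 532) (nat_lit 182873117890) (nat_lit 53) (nat_lit 5) (nat_lit 52) (nat_lit 5) (nat_lit 59) (nat_lit 5) (nat_lit 300) (nat_lit 298) (nat_lit 182)))) (XT.nd (nat_lit 78) (nat_lit 760) (nat_lit 0) (XT.lf (nat_lit 76) (nat_lit 516978655628) (nat_lit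 0) (nat_lit 410815438977) (nat_lit 532) (nat_lit 99810327118) (nat_lit 54) (nat_lit 5) (nat_lit 53) (nat_lit 5) (nat_lit 60) (nat_lit 5) (nat_lit 301) (nat_lit 298) (nat_lit 181)) (XT.nd (nat_lit 78) (nat_lit 304) (nat_lit 0) (XT.lf (nat_lit 0) (nat_lit 34375196302) (nat_lit 532) (nat_lit 651708152958) (nat_lit 76) (nat_lit 423703587930) (nat_lit 47) (nat_lit 5) (nat_lit 54) (nat_lit 5) (nat_lit 48) (nat_lit 5) (nat_lit 302) (nat_lit 298) (nat_lit 180)) (XT.lf (nat_lit 0) (nat_lit 223800317927) (nat_lit 380) (nat_lit 799959665184) (nat_lit 76) (nat_lit 177047716430) (nat_lit 43) (nat_lit 5) (nat_lit 48) (nat_lit 5) (nat_lit 44) (nat_lit 5) (nat_lit 303) (nat_lit 298) (nat_lit 179))))))) (XT.nd (nat_lit 936) (nat_lit 456) (nat_lit 0) (XT.nd (nat_lit 468) (nat_lit 912) (nat_lit 0) (XT.nd (nat_lit 234) (nat_lit 456) (nat_lit 0) (XT.nd (nat_lit 78) (nat_lit 380) (nat_lit 0) (XT.lf (nat_lit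 0) (nat_lit 344557383986) (nat_lit 228) (nat_lit 143810395612) (nat_lit 304) (nat_lit 813375510936) (nat_lit 40) (nat_lit 5) (nat_lit 43) (nat_lit 5) (nat_lit 44) (nat_lit 5) (nat_lit 304) (nat_lit 298) (nat_lit 178)) (XT.nd (nat_lit 78) (nat_lit 152) (nat_lit 0) (XT.lf (nat_lit 0) (nat_lit 286065721110) (nat_lit 228) (nat_lit 558207996497) (nat_lit 304) (nat_lit 569413234031) (nat_lit 37) (nat_lit 5) (nat_lit 40) (nat_lit 5) (nat_lit 41) (nat_lit 5) (nat_lit 305) (nat_lit 298) (nat_lit 177)) (XT.lf (nat_lit 0) (nat_lit 229535349628) (nat_lit 152) (nat_lit 1072941467287) (nat_lit 228) (nat_lit 236032443367) (nat_lit 35) (nat_lit 5) (nat_lit 37) (nat_lit 5) (nat_lit 38) (nat_lit 5) (nat_lit 306) (nat_lit 298) (nat_lit 176)))) (XT.nd (nat_lit 78) (nat_lit 152) (nat_lit 0) (XT.lf (nat_lit 0) (nat_lit 167674654478) (nat_lit 228) (nat_lit 25462906079) (nat_lit 304) (nat_lit 1484381569537) (nat_lit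 31) (nat_lit 5) (nat_lit 34) (nat_lit 5) (nat_lit 35) (nat_lit 5) (nat_lit 307) (nat_lit 298) (nat_lit 175)) (XT.nd (nat_lit 78) (nat_lit 0) (nat_lit 0) (XT.lf (nat_lit 0) (nat_lit 78823078261) (nat_lit 152) (nat_lit 663634782597) (nat_lit 228) (nat_lit 1088852118484) (nat_lit 29) (nat_lit 5) (nat_lit 31) (nat_lit 5) (nat_lit 32) (nat_lit 5) (nat_lit 308) (nat_lit 298) (nat_lit 174)) (XT.lf (nat_lit 0) (nat_lit 1432712863765) (nat_lit 228) (nat_lit 22009683696) (nat_lit 76) (nat_lit 548763975925) (nat_lit 29) (nat_lit 5) (nat_lit 32) (nat_lit 5) (nat_lit 30) (nat_lit 5) (nat_lit 309) (nat_lit 298) (nat_lit 173))))) (XT.nd (nat_lit 234) (nat_lit 380) (nat_lit 0) (XT.nd (nat_lit 78) (nat_lit 304) (nat_lit 0) (XT.lf (nat_lit 0) (nat_lit 93237524337) (nat_lit 228) (nat_lit 146081364328) (nat_lit 76) (nat_lit 1956564737553) (nat_lit 26) (nat_lit 5) (nat_lit 29) (nat_lit 5) (nat_lit 27) (nat_lit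 5) (nat_lit 310) (nat_lit 298) (nat_lit 172)) (XT.nd (nat_lit 78) (nat_lit 152) (nat_lit 0) (XT.lf (nat_lit 0) (nat_lit 904928611226) (nat_lit 228) (nat_lit 335187760270) (nat_lit 76) (nat_lit 1169287948171) (nat_lit 24) (nat_lit 5) (nat_lit 27) (nat_lit 5) (nat_lit 25) (nat_lit 5) (nat_lit 311) (nat_lit 298) (nat_lit 171)) (XT.lf (nat_lit 0) (nat_lit 1903679394697) (nat_lit 228) (nat_lit 575329989927) (nat_lit 76) (nat_lit 170719249834) (nat_lit 22) (nat_lit 5) (nat_lit 25) (nat_lit 5) (nat_lit 23) (nat_lit 4) (nat_lit 312) (nat_lit 298) (nat_lit 170)))) (XT.nd (nat_lit 78) (nat_lit 228) (nat_lit 0) (XT.lf (nat_lit 0) (nat_lit 214795224808) (nat_lit 152) (nat_lit 917928053223) (nat_lit 76) (nat_lit 1785538492995) (nat_lit 20) (nat_lit 5) (nat_lit 22) (nat_lit 5) (nat_lit 21) (nat_lit 5) (nat_lit 313) (nat_lit 298) (nat_lit 169)) (XT.nd (nat_lit 78) (nat_lit 76) (nat_lit 0) (XT.lf (nat_lit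 0) (nat_lit 1350472808479) (nat_lit 228) (nat_lit 1390075030315) (nat_lit 76) (nat_lit 478986335927) (nat_lit 18) (nat_lit 5) (nat_lit 21) (nat_lit 5) (nat_lit 19) (nat_lit 4) (nat_lit 314) (nat_lit 298) (nat_lit 168)) (XT.lf (nat_lit 0) (nat_lit 1524943233727) (nat_lit 76) (nat_lit 1226980666620) (nat_lit 152) (nat_lit 806439788976) (nat_lit 17) (nat_lit 5) (nat_lit 18) (nat_lit 5) (nat_lit 19) (nat_lit 4) (nat_lit 315) (nat_lit 298) (nat_lit 167)))))) (XT.nd (nat_lit 39312) (nat_lit 0) (nat_lit 2204) (XT.nd (nat_lit 234) (nat_lit 228) (nat_lit 0) (XT.nd (nat_lit 78) (nat_lit 76) (nat_lit 0) (XT.lf (nat_lit 0) (nat_lit 476117320346) (nat_lit 152) (nat_lit 2897693089533) (nat_lit 76) (nat_lit 566901170791) (nat_lit 15) (nat_lit 5) (nat_lit 17) (nat_lit 5) (nat_lit 16) (nat_lit 4) (nat_lit 316) (nat_lit 298) (nat_lit 166)) (XT.nd (nat_lit 78) (nat_lit 0) (nat_lit 0) (XT.lf (nat_lit 0) (nat_lit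 284858138480) (nat_lit 76) (nat_lit 1721331890012) (nat_lit 152) (nat_lit 2364315326813) (nat_lit 14) (nat_lit 5) (nat_lit 15) (nat_lit 5) (nat_lit 16) (nat_lit 4) (nat_lit 317) (nat_lit 298) (nat_lit 165)) (XT.lf (nat_lit 0) (nat_lit 3856633503716) (nat_lit 152) (nat_lit 744248256391) (nat_lit 0) (nat_lit 256617647166) (nat_lit 14) (nat_lit 5) (nat_lit 16) (nat_lit 4) (nat_lit 14) (nat_lit 4) (nat_lit 318) (nat_lit 298) (nat_lit 164)))) (XT.nd (nat_lit 78) (nat_lit 76) (nat_lit 0) (XT.lf (nat_lit 0) (nat_lit 666816924712) (nat_lit 152) (nat_lit 2213036656601) (nat_lit 76) (nat_lit 2526351108279) (nat_lit 12) (nat_lit 5) (nat_lit 14) (nat_lit 5) (nat_lit 13) (nat_lit 4) (nat_lit 319) (nat_lit 298) (nat_lit 163)) (XT.nd (nat_lit 78) (nat_lit 0) (nat_lit 0) (XT.lf (nat_lit 0) (nat_lit 1792192281369) (nat_lit 76) (nat_lit 800215480349) (nat_lit 152) (nat_lit 3437366839998) (nat_lit 11) (nat_lit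 5) (nat_lit 12) (nat_lit 5) (nat_lit 13) (nat_lit 4) (nat_lit 320) (nat_lit 298) (nat_lit 162)) (XT.lf (nat_lit 0) (nat_lit 4911213359539) (nat_lit 152) (nat_lit 249451214478) (nat_lit 0) (nat_lit 1577865335820) (nat_lit 11) (nat_lit 5) (nat_lit 13) (nat_lit 4) (nat_lit 11) (nat_lit 4) (nat_lit 321) (nat_lit 298) (nat_lit 161))))) (XT.nd (nat_lit 234) (nat_lit 836) (nat_lit 0) (XT.nd (nat_lit 78) (nat_lit 0) (nat_lit 0) (XT.lf (nat_lit 0) (nat_lit 347099133198) (nat_lit 532) (nat_lit 63888358689) (nat_lit 532) (nat_lit 63888358689) (nat_lit 51) (nat_lit 3) (nat_lit 58) (nat_lit 3) (nat_lit 58) (nat_lit 5) (nat_lit 299) (nat_lit 299) (nat_lit 182)) (XT.nd (nat_lit 78) (nat_lit 0) (nat_lit 76) (XT.lf (nat_lit 76) (nat_lit 744320934321) (nat_lit 0) (nat_lit 19843258993) (nat_lit 532) (nat_lit 255386800611) (nat_lit 52) (nat_lit 5) (nat_lit 51) (nat_lit 3) (nat_lit 58) (nat_lit 5) (nat_lit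 300) (nat_lit 299) (nat_lit 181)) (XT.lf (nat_lit 76) (nat_lit 667010612516) (nat_lit 0) (nat_lit 219180453145) (nat_lit 532) (nat_lit 210303830487) (nat_lit 53) (nat_lit 5) (nat_lit 52) (nat_lit 5) (nat_lit 59) (nat_lit 5) (nat_lit 301) (nat_lit 299) (nat_lit 180)))) (XT.nd (nat_lit 156) (nat_lit 532) (nat_lit 0) (XT.nd (nat_lit 78) (nat_lit 456) (nat_lit 0) (XT.lf (nat_lit 76) (nat_lit 594525621106) (nat_lit 0) (nat_lit 472437795139) (nat_lit 532) (nat_lit 114781651709) (nat_lit 54) (nat_lit 5) (nat_lit 53) (nat_lit 5) (nat_lit 60) (nat_lit 5) (nat_lit 302) (nat_lit 299) (nat_lit 179)) (XT.lf (nat_lit 0) (nat_lit 39531664497) (nat_lit 532) (nat_lit 749464196151) (nat_lit 76) (nat_lit 487259101671) (nat_lit 47) (nat_lit 5) (nat_lit 54) (nat_lit 5) (nat_lit 48) (nat_lit 5) (nat_lit 303) (nat_lit 299) (nat_lit 178))) (XT.nd (nat_lit 78) (nat_lit 228) (nat_lit 0) (XT.lf (nat_lit 0) (nat_lit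 257370533618) (nat_lit 380) (nat_lit 919953436590) (nat_lit 76) (nat_lit 203604870521) (nat_lit 43) (nat_lit 5) (nat_lit 48) (nat_lit 5) (nat_lit 44) (nat_lit 5) (nat_lit 304) (nat_lit 299) (nat_lit 177)) (XT.lf (nat_lit 0) (nat_lit 396241154856) (nat_lit 228) (nat_lit 165381941697) (nat_lit 304) (nat_lit 935381675296) (nat_lit 40) (nat_lit 5) (nat_lit 43) (nat_lit 5) (nat_lit 44) (nat_lit 5) (nat_lit 305) (nat_lit 299) (nat_lit 176))))))))
noncomputable def xc60 : XT := (XT.nd (nat_lit 40794) (nat_lit 0) (nat_lit 228) (XT.nd (nat_lit 936) (nat_lit 304) (nat_lit 0) (XT.nd (nat_lit 468) (nat_lit 836) (nat_lit 0) (XT.nd (nat_lit 234) (nat_lit 380) (nat_lit 0) (XT.nd (nat_lit 78) (nat_lit 456) (nat_lit 0) (XT.lf (nat_lit 0) (nat_lit 328975739664) (nat_lit 228) (nat_lit 641939170166) (nat_lit 304) (nat_lit 654825073557) (nat_lit 37) (nat_lit 5) (nat_lit 40) (nat_lit 5) (nat_lit 41) (nat_lit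 5) (nat_lit 306) (nat_lit 299) (nat_lit 175)) (XT.nd (nat_lit 78) (nat_lit 304) (nat_lit 0) (XT.lf (nat_lit 0) (nat_lit 263965808381) (nat_lit 152) (nat_lit 1233882652399) (nat_lit 228) (nat_lit 271437178639) (nat_lit 35) (nat_lit 5) (nat_lit 37) (nat_lit 5) (nat_lit 38) (nat_lit 5) (nat_lit 307) (nat_lit 299) (nat_lit 174)) (XT.lf (nat_lit 0) (nat_lit 192826001907) (nat_lit 228) (nat_lit 29282304731) (nat_lit 304) (nat_lit 1707038683850) (nat_lit 31) (nat_lit 5) (nat_lit 34) (nat_lit 5) (nat_lit 35) (nat_lit 5) (nat_lit 308) (nat_lit 299) (nat_lit 173)))) (XT.nd (nat_lit 78) (nat_lit 228) (nat_lit 0) (XT.lf (nat_lit 0) (nat_lit 90646684151) (nat_lit 152) (nat_lit 763179957470) (nat_lit 228) (nat_lit 1252179826352) (nat_lit 29) (nat_lit 5) (nat_lit 31) (nat_lit 5) (nat_lit 32) (nat_lit 5) (nat_lit 309) (nat_lit 299) (nat_lit 172)) (XT.nd (nat_lit 78) (nat_lit 228) (nat_lit 0) (XT.lf (nat_lit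 0) (nat_lit 1647619882597) (nat_lit 228) (nat_lit 25311004599) (nat_lit 76) (nat_lit 631078607435) (nat_lit 29) (nat_lit 5) (nat_lit 32) (nat_lit 5) (nat_lit 30) (nat_lit 5) (nat_lit 310) (nat_lit 299) (nat_lit 171)) (XT.lf (nat_lit 0) (nat_lit 107223235702) (nat_lit 228) (nat_lit 167993444016) (nat_lit 76) (nat_lit 2250049483718) (nat_lit 26) (nat_lit 5) (nat_lit 29) (nat_lit 5) (nat_lit 27) (nat_lit 5) (nat_lit 311) (nat_lit 299) (nat_lit 170))))) (XT.nd (nat_lit 234) (nat_lit 380) (nat_lit 0) (XT.nd (nat_lit 78) (nat_lit 304) (nat_lit 0) (XT.lf (nat_lit 0) (nat_lit 1040667978541) (nat_lit 228) (nat_lit 385465804823) (nat_lit 76) (nat_lit 1344681178118) (nat_lit 24) (nat_lit 5) (nat_lit 27) (nat_lit 5) (nat_lit 25) (nat_lit 5) (nat_lit 312) (nat_lit 299) (nat_lit 169)) (XT.nd (nat_lit 78) (nat_lit 152) (nat_lit 0) (XT.lf (nat_lit 0) (nat_lit 2189231373283) (nat_lit 228) (nat_lit 661629374483)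 (nat_lit 76) (nat_lit 196327176237) (nat_lit 22) (nat_lit 5) (nat_lit 25) (nat_lit 5) (nat_lit 23) (nat_lit 4) (nat_lit 313) (nat_lit 299) (nat_lit 168)) (XT.lf (nat_lit 0) (nat_lit 247014573063) (nat_lit 152) (nat_lit 1055617153459) (nat_lit 76) (nat_lit 2053369304936) (nat_lit 20) (nat_lit 5) (nat_lit 22) (nat_lit 5) (nat_lit 21) (nat_lit 5) (nat_lit 314) (nat_lit 299) (nat_lit 167)))) (XT.nd (nat_lit 78) (nat_lit 228) (nat_lit 0) (XT.lf (nat_lit 0) (nat_lit 1553043789204) (nat_lit 228) (nat_lit 1598586182469) (nat_lit 76) (nat_lit 550834324448) (nat_lit 18) (nat_lit 5) (nat_lit 21) (nat_lit 5) (nat_lit 19) (nat_lit 4) (nat_lit 315) (nat_lit 299) (nat_lit 166)) (XT.nd (nat_lit 78) (nat_lit 152) (nat_lit 0) (XT.lf (nat_lit 0) (nat_lit 1753684812513) (nat_lit 76) (nat_lit 1411027726840) (nat_lit 152) (nat_lit 927405699009) (nat_lit 17) (nat_lit 5) (nat_lit 18) (nat_lit 5) (nat_lit 19)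 (nat_lit 4) (nat_lit 316) (nat_lit 299) (nat_lit 165)) (XT.lf (nat_lit 0) (nat_lit 547534969616) (nat_lit 152) (nat_lit 3332346961320) (nat_lit 76) (nat_lit 651936382700) (nat_lit 15) (nat_lit 5) (nat_lit 17) (nat_lit 5) (nat_lit 16) (nat_lit 4) (nat_lit 317) (nat_lit 299) (nat_lit 164)))))) (XT.nd (nat_lit 39390) (nat_lit 0) (nat_lit 1976) (XT.nd (nat_lit 234) (nat_lit 76) (nat_lit 0) (XT.nd (nat_lit 78) (nat_lit 152) (nat_lit 0) (XT.lf (nat_lit 0) (nat_lit 327586943138) (nat_lit 76) (nat_lit 1979531636184) (nat_lit 152) (nat_lit 2718962575524) (nat_lit 14) (nat_lit 5) (nat_lit 15) (nat_lit 5) (nat_lit 16) (nat_lit 4) (nat_lit 318) (nat_lit 299) (nat_lit 163)) (XT.nd (nat_lit 78) (nat_lit 152) (nat_lit 0) (XT.lf (nat_lit 0) (nat_lit 4435128570537) (nat_lit 152) (nat_lit 855885419420) (nat_lit 0) (nat_lit 295110325078) (nat_lit 14) (nat_lit 5) (nat_lit 16) (nat_lit 4) (nat_lit 14) (nat_lit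 4) (nat_lit 319) (nat_lit 299) (nat_lit 162)) (XT.lf (nat_lit 0) (nat_lit 766839501958) (nat_lit 152) (nat_lit 2544992083995) (nat_lit 76) (nat_lit 2905303803972) (nat_lit 12) (nat_lit 5) (nat_lit 14) (nat_lit 5) (nat_lit 13) (nat_lit 4) (nat_lit 320) (nat_lit 299) (nat_lit 161)))) (XT.nd (nat_lit 39000) (nat_lit 0) (nat_lit 3040) (XT.lf (nat_lit 0) (nat_lit 2061021188652) (nat_lit 76) (nat_lit 920247772401) (nat_lit 152) (nat_lit 3952971828094) (nat_lit 11) (nat_lit 5) (nat_lit 12) (nat_lit 5) (nat_lit 13) (nat_lit 4) (nat_lit 321) (nat_lit 299) (nat_lit 160)) (XT.nd (nat_lit 78) (nat_lit 0) (nat_lit 0) (XT.lf (nat_lit 0) (nat_lit 399164118753) (nat_lit 532) (nat_lit 73471549958) (nat_lit 532) (nat_lit 73471549958) (nat_lit 51) (nat_lit 3) (nat_lit 58) (nat_lit 3) (nat_lit 58) (nat_lit 5) (nat_lit 300) (nat_lit 300) (nat_lit 180)) (XT.lf (nat_lit 76) (nat_lit 855969188953) (nat_lit 0)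 (nat_lit 22819837112) (nat_lit 532) (nat_lit 293694600216) (nat_lit 52) (nat_lit 5) (nat_lit 51) (nat_lit 3) (nat_lit 58) (nat_lit 5) (nat_lit 301) (nat_lit 300) (nat_lit 179))))) (XT.nd (nat_lit 234) (nat_lit 760) (nat_lit 0) (XT.nd (nat_lit 78) (nat_lit 380) (nat_lit 0) (XT.lf (nat_lit 76) (nat_lit 767062326468) (nat_lit 0) (nat_lit 252057577287) (nat_lit 532) (nat_lit 241849212179) (nat_lit 53) (nat_lit 5) (nat_lit 52) (nat_lit 5) (nat_lit 59) (nat_lit 5) (nat_lit 302) (nat_lit 300) (nat_lit 178)) (XT.nd (nat_lit 78) (nat_lit 456) (nat_lit 0) (XT.lf (nat_lit 76) (nat_lit 683704590648) (nat_lit 0) (nat_lit 543303494893) (nat_lit 532) (nat_lit 131998729728) (nat_lit 54) (nat_lit 5) (nat_lit 53) (nat_lit 5) (nat_lit 60) (nat_lit 5) (nat_lit 303) (nat_lit 300) (nat_lit 177)) (XT.lf (nat_lit 0) (nat_lit 45461556894) (nat_lit 532) (nat_lit 861883689657) (nat_lit 76) (nat_lit 560347948434)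 (nat_lit 47) (nat_lit 5) (nat_lit 54) (nat_lit 5) (nat_lit 48) (nat_lit 5) (nat_lit 304) (nat_lit 300) (nat_lit 176)))) (XT.nd (nat_lit 78) (nat_lit 456) (nat_lit 0) (XT.lf (nat_lit 0) (nat_lit 295976240694) (nat_lit 380) (nat_lit 1057946317205) (nat_lit 76) (nat_lit 234145598547) (nat_lit 43) (nat_lit 5) (nat_lit 48) (nat_lit 5) (nat_lit 44) (nat_lit 5) (nat_lit 305) (nat_lit 300) (nat_lit 175)) (XT.nd (nat_lit 78) (nat_lit 228) (nat_lit 0) (XT.lf (nat_lit 0) (nat_lit 455677451543) (nat_lit 228) (nat_lit 190189222926) (nat_lit 304) (nat_lit 1075688803883) (nat_lit 40) (nat_lit 5) (nat_lit 43) (nat_lit 5) (nat_lit 44) (nat_lit 5) (nat_lit 306) (nat_lit 300) (nat_lit 174)) (XT.lf (nat_lit 0) (nat_lit 378322221890) (nat_lit 228) (nat_lit 738230026178) (nat_lit 304) (nat_lit 753048724512) (nat_lit 37) (nat_lit 5) (nat_lit 40) (nat_lit 5) (nat_lit 41) (nat_lit 5) (nat_lit 307) (nat_lit 300)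 (nat_lit 173))))))) (XT.nd (nat_lit 936) (nat_lit 0) (nat_lit 0) (XT.nd (nat_lit 468) (nat_lit 760) (nat_lit 0) (XT.nd (nat_lit 234) (nat_lit 380) (nat_lit 0) (XT.nd (nat_lit 78) (nat_lit 456) (nat_lit 0) (XT.lf (nat_lit 0) (nat_lit 303560797830) (nat_lit 152) (nat_lit 1418965023807) (nat_lit 228) (nat_lit 312152656204) (nat_lit 35) (nat_lit 5) (nat_lit 37) (nat_lit 5) (nat_lit 38) (nat_lit 5) (nat_lit 308) (nat_lit 300) (nat_lit 172)) (XT.nd (nat_lit 78) (nat_lit 152) (nat_lit 0) (XT.lf (nat_lit 0) (nat_lit 221750015052) (nat_lit 228) (nat_lit 33674622267) (nat_lit 304) (nat_lit 1963094394846) (nat_lit 31) (nat_lit 5) (nat_lit 34) (nat_lit 5) (nat_lit 35) (nat_lit 5) (nat_lit 309) (nat_lit 300) (nat_lit 171)) (XT.lf (nat_lit 0) (nat_lit 104243795772) (nat_lit 152) (nat_lit 877656918942) (nat_lit 228) (nat_lit 1440006717201) (nat_lit 29) (nat_lit 5) (nat_lit 31) (nat_lit 5) (nat_lit 32)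 (nat_lit 5) (nat_lit 310) (nat_lit 300) (nat_lit 170)))) (XT.nd (nat_lit 78) (nat_lit 380) (nat_lit 0) (XT.lf (nat_lit 0) (nat_lit 1894762932485) (nat_lit 228) (nat_lit 29107555742) (nat_lit 76) (nat_lit 725740425107) (nat_lit 29) (nat_lit 5) (nat_lit 32) (nat_lit 5) (nat_lit 30) (nat_lit 5) (nat_lit 311) (nat_lit 300) (nat_lit 169)) (XT.nd (nat_lit 78) (nat_lit 152) (nat_lit 0) (XT.lf (nat_lit 0) (nat_lit 123306783600) (nat_lit 228) (nat_lit 193192366130) (nat_lit 76) (nat_lit 2587556933144) (nat_lit 26) (nat_lit 5) (nat_lit 29) (nat_lit 5) (nat_lit 27) (nat_lit 5) (nat_lit 312) (nat_lit 300) (nat_lit 168)) (XT.lf (nat_lit 0) (nat_lit 1196768232510) (nat_lit 228) (nat_lit 443285585197) (nat_lit 76) (nat_lit 1546383383359) (nat_lit 24) (nat_lit 5) (nat_lit 27) (nat_lit 5) (nat_lit 25) (nat_lit 5) (nat_lit 313) (nat_lit 300) (nat_lit 167))))) (XT.nd (nat_lit 234) (nat_lit 304) (nat_lit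 0) (XT.nd (nat_lit 78) (nat_lit 304) (nat_lit 0) (XT.lf (nat_lit 0) (nat_lit 2517616131739) (nat_lit 228) (nat_lit 760873694505) (nat_lit 76) (nat_lit 225776282108) (nat_lit 22) (nat_lit 5) (nat_lit 25) (nat_lit 5) (nat_lit 23) (nat_lit 4) (nat_lit 314) (nat_lit 300) (nat_lit 166)) (XT.nd (nat_lit 78) (nat_lit 152) (nat_lit 0) (XT.lf (nat_lit 0) (nat_lit 284066807819) (nat_lit 152) (nat_lit 1213959645005) (nat_lit 76) (nat_lit 2361374729404) (nat_lit 20) (nat_lit 5) (nat_lit 22) (nat_lit 5) (nat_lit 21) (nat_lit 5) (nat_lit 315) (nat_lit 300) (nat_lit 165)) (XT.lf (nat_lit 0) (nat_lit 1786000402540) (nat_lit 228) (nat_lit 1838374032416) (nat_lit 76) (nat_lit 633459501948) (nat_lit 18) (nat_lit 5) (nat_lit 21) (nat_lit 5) (nat_lit 19) (nat_lit 4) (nat_lit 316) (nat_lit 300) (nat_lit 164)))) (XT.nd (nat_lit 78) (nat_lit 228) (nat_lit 0) (XT.lf (nat_lit 0) (nat_lit 2016737605260) (nat_lit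 76) (nat_lit 1622681855791) (nat_lit 152) (nat_lit 1066516509766) (nat_lit 17) (nat_lit 5) (nat_lit 18) (nat_lit 5) (nat_lit 19) (nat_lit 4) (nat_lit 317) (nat_lit 300) (nat_lit 163)) (XT.nd (nat_lit 78) (nat_lit 76) (nat_lit 0) (XT.lf (nat_lit 0) (nat_lit 629665253787) (nat_lit 152) (nat_lit 3832198936224) (nat_lit 76) (nat_lit 749726867545) (nat_lit 15) (nat_lit 5) (nat_lit 17) (nat_lit 5) (nat_lit 16) (nat_lit 4) (nat_lit 318) (nat_lit 300) (nat_lit 162)) (XT.lf (nat_lit 0) (nat_lit 376725048038) (nat_lit 76) (nat_lit 2276461353385) (nat_lit 152) (nat_lit 3126806923810) (nat_lit 14) (nat_lit 5) (nat_lit 15) (nat_lit 5) (nat_lit 16) (nat_lit 4) (nat_lit 319) (nat_lit 300) (nat_lit 161)))))) (XT.nd (nat_lit 39546) (nat_lit 0) (nat_lit 1140) (XT.nd (nat_lit 39312) (nat_lit 0) (nat_lit 2508) (XT.nd (nat_lit 39156) (nat_lit 0) (nat_lit 2812) (XT.lf (nat_lit 0) (nat_lit 5100397887318) (nat_lit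 152) (nat_lit 984268175298) (nat_lit 0) (nat_lit 339376897157) (nat_lit 14) (nat_lit 5) (nat_lit 16) (nat_lit 4) (nat_lit 14) (nat_lit 4) (nat_lit 320) (nat_lit 300) (nat_lit 160)) (XT.nd (nat_lit 78) (nat_lit 0) (nat_lit 0) (XT.lf (nat_lit 0) (nat_lit 459038823956) (nat_lit 532) (nat_lit 84492235166) (nat_lit 532) (nat_lit 84492235166) (nat_lit 51) (nat_lit 3) (nat_lit 58) (nat_lit 3) (nat_lit 58) (nat_lit 5) (nat_lit 301) (nat_lit 301) (nat_lit 178)) (XT.lf (nat_lit 76) (nat_lit 984364653862) (nat_lit 0) (nat_lit 26242880179) (nat_lit 532) (nat_lit 337748623530) (nat_lit 52) (nat_lit 5) (nat_lit 51) (nat_lit 3) (nat_lit 58) (nat_lit 5) (nat_lit 302) (nat_lit 301) (nat_lit 177)))) (XT.nd (nat_lit 78) (nat_lit 380) (nat_lit 0) (XT.lf (nat_lit 76) (nat_lit 882121767745) (nat_lit 0) (nat_lit 289866256352) (nat_lit 532) (nat_lit 278126448159) (nat_lit 53) (nat_lit 5) (nat_lit 52) (nat_lit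 5) (nat_lit 59) (nat_lit 5) (nat_lit 303) (nat_lit 301) (nat_lit 176)) (XT.nd (nat_lit 78) (nat_lit 456) (nat_lit 0) (XT.lf (nat_lit 76) (nat_lit 786260374805) (nat_lit 0) (nat_lit 624799042178) (nat_lit 532) (nat_lit 151798410841) (nat_lit 54) (nat_lit 5) (nat_lit 53) (nat_lit 5) (nat_lit 60) (nat_lit 5) (nat_lit 304) (nat_lit 301) (nat_lit 175)) (XT.lf (nat_lit 0) (nat_lit 52280898346) (nat_lit 532) (nat_lit 991166140333) (nat_lit 76) (nat_lit 644400126721) (nat_lit 47) (nat_lit 5) (nat_lit 54) (nat_lit 5) (nat_lit 48) (nat_lit 5) (nat_lit 305) (nat_lit 301) (nat_lit 174))))) (XT.nd (nat_lit 234) (nat_lit 608) (nat_lit 0) (XT.nd (nat_lit 78) (nat_lit 456) (nat_lit 0) (XT.lf (nat_lit 0) (nat_lit 340372772854) (nat_lit 380) (nat_lit 1216638162801) (nat_lit 76) (nat_lit 269267436400) (nat_lit 43) (nat_lit 5) (nat_lit 48) (nat_lit 5) (nat_lit 44) (nat_lit 5) (nat_lit 306) (nat_lit 301) (nat_lit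 173)) (XT.nd (nat_lit 78) (nat_lit 228) (nat_lit 0) (XT.lf (nat_lit 0) (nat_lit 524029162626) (nat_lit 228) (nat_lit 218717598785) (nat_lit 304) (nat_lit 1237042031682) (nat_lit 40) (nat_lit 5) (nat_lit 43) (nat_lit 5) (nat_lit 44) (nat_lit 5) (nat_lit 307) (nat_lit 301) (nat_lit 172)) (XT.lf (nat_lit 0) (nat_lit 435070646876) (nat_lit 228) (nat_lit 848964515351) (nat_lit 304) (nat_lit 866005949953) (nat_lit 37) (nat_lit 5) (nat_lit 40) (nat_lit 5) (nat_lit 41) (nat_lit 5) (nat_lit 308) (nat_lit 301) (nat_lit 171)))) (XT.nd (nat_lit 156) (nat_lit 152) (nat_lit 0) (XT.nd (nat_lit 78) (nat_lit 304) (nat_lit 0) (XT.lf (nat_lit 0) (nat_lit 349095006875) (nat_lit 152) (nat_lit 1631809757378) (nat_lit 228) (nat_lit 358975479601) (nat_lit 35) (nat_lit 5) (nat_lit 37) (nat_lit 5) (nat_lit 38) (nat_lit 5) (nat_lit 309) (nat_lit 301) (nat_lit 170)) (XT.lf (nat_lit 0) (nat_lit 255012602648) (nat_lit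 228) (nat_lit 38725794304) (nat_lit 304) (nat_lit 2257558484823) (nat_lit 31) (nat_lit 5) (nat_lit 34) (nat_lit 5) (nat_lit 35) (nat_lit 5) (nat_lit 310) (nat_lit 301) (nat_lit 169))) (XT.nd (nat_lit 78) (nat_lit 0) (nat_lit 0) (XT.lf (nat_lit 0) (nat_lit 119880447557) (nat_lit 152) (nat_lit 1009305432474) (nat_lit 228) (nat_lit 1656007661943) (nat_lit 29) (nat_lit 5) (nat_lit 31) (nat_lit 5) (nat_lit 32) (nat_lit 5) (nat_lit 311) (nat_lit 301) (nat_lit 168)) (XT.lf (nat_lit 0) (nat_lit 2178977423397) (nat_lit 228) (nat_lit 33473613831) (nat_lit 76) (nat_lit 834601508954) (nat_lit 29) (nat_lit 5) (nat_lit 32) (nat_lit 5) (nat_lit 30) (nat_lit 5) (nat_lit 312) (nat_lit 301) (nat_lit 167))))))))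
noncomputable def xc61 : XT := (XT.nd (nat_lit 41028) (nat_lit 0) (nat_lit 76) (XT.nd (nat_lit 40092) (nat_lit 0) (nat_lit 456) (XT.nd (nat_lit 468) (nat_lit 228) (nat_lit 0) (XT.nd (nat_lit 234) (nat_lit 380) (nat_lit 0) (XT.nd (nat_lit 78) (nat_lit 304) (nat_lit 0) (XT.lf (nat_lit 0) (nat_lit 141802848432) (nat_lit 228) (nat_lit 222171149603) (nat_lit 76) (nat_lit 2975690493431) (nat_lit 26) (nat_lit 5) (nat_lit 29) (nat_lit 5) (nat_lit 27) (nat_lit 5) (nat_lit 313) (nat_lit 301) (nat_lit 166)) (XT.nd (nat_lit 78) (nat_lit 152) (nat_lit 0) (XT.lf (nat_lit 0) (nat_lit 1376283510629) (nat_lit 228) (nat_lit 509778354659) (nat_lit 76) (nat_lit 1778340912430) (nat_lit 24) (nat_lit 5) (nat_lit 27) (nat_lit 5) (nat_lit 25) (nat_lit 5) (nat_lit 314) (nat_lit 301) (nat_lit 165)) (XT.lf (nat_lit 0) (nat_lit 2895258591169) (nat_lit 228) (nat_lit 875004683538) (nat_lit 76) (nat_lit 259642746681)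 (nat_lit 22) (nat_lit 5) (nat_lit 25) (nat_lit 5) (nat_lit 23) (nat_lit 4) (nat_lit 315) (nat_lit 301) (nat_lit 164)))) (XT.nd (nat_lit 78) (nat_lit 228) (nat_lit 0) (XT.lf (nat_lit 0) (nat_lit 326676865889) (nat_lit 152) (nat_lit 1396053530151) (nat_lit 76) (nat_lit 2715580960537) (nat_lit 20) (nat_lit 5) (nat_lit 22) (nat_lit 5) (nat_lit 21) (nat_lit 5) (nat_lit 316) (nat_lit 301) (nat_lit 163)) (XT.nd (nat_lit 78) (nat_lit 76) (nat_lit 0) (XT.lf (nat_lit 0) (nat_lit 2053900496914) (nat_lit 228) (nat_lit 2114130078735) (nat_lit 76) (nat_lit 728478449042) (nat_lit 18) (nat_lit 5) (nat_lit 21) (nat_lit 5) (nat_lit 19) (nat_lit 4) (nat_lit 317) (nat_lit 301) (nat_lit 162)) (XT.lf (nat_lit 0) (nat_lit 2319248299637) (nat_lit 76) (nat_lit 1866084111420) (nat_lit 152) (nat_lit 1226493952890) (nat_lit 17) (nat_lit 5) (nat_lit 18) (nat_lit 5) (nat_lit 19) (nat_lit 4) (nat_lit 318) (nat_lit 301)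 (nat_lit 161))))) (XT.nd (nat_lit 39390) (nat_lit 0) (nat_lit 2812) (XT.nd (nat_lit 78) (nat_lit 76) (nat_lit 0) (XT.lf (nat_lit 0) (nat_lit 724115071140) (nat_lit 152) (nat_lit 4407028724260) (nat_lit 76) (nat_lit 862185918426) (nat_lit 15) (nat_lit 5) (nat_lit 17) (nat_lit 5) (nat_lit 16) (nat_lit 4) (nat_lit 319) (nat_lit 301) (nat_lit 160)) (XT.nd (nat_lit 39234) (nat_lit 0) (nat_lit 2812) (XT.lf (nat_lit 0) (nat_lit 433233853205) (nat_lit 76) (nat_lit 2617930535049) (nat_lit 152) (nat_lit 3595827933616) (nat_lit 14) (nat_lit 5) (nat_lit 15) (nat_lit 5) (nat_lit 16) (nat_lit 4) (nat_lit 320) (nat_lit 301) (nat_lit 159)) (XT.lf (nat_lit 0) (nat_lit 527894713630) (nat_lit 532) (nat_lit 97166034686) (nat_lit 532) (nat_lit 97166034686) (nat_lit 51) (nat_lit 3) (nat_lit 58) (nat_lit 3) (nat_lit 58) (nat_lit 5) (nat_lit 302) (nat_lit 302) (nat_lit 176)))) (XT.nd (nat_lit 78) (nat_lit 0)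 (nat_lit 76) (XT.lf (nat_lit 76) (nat_lit 1132019417397) (nat_lit 0) (nat_lit 30179363246) (nat_lit 532) (nat_lit 388410790995) (nat_lit 52) (nat_lit 5) (nat_lit 51) (nat_lit 3) (nat_lit 58) (nat_lit 5) (nat_lit 303) (nat_lit 302) (nat_lit 175)) (XT.nd (nat_lit 78) (nat_lit 0) (nat_lit 76) (XT.lf (nat_lit 76) (nat_lit 1014440102704) (nat_lit 0) (nat_lit 333346226920) (nat_lit 532) (nat_lit 319845305103) (nat_lit 53) (nat_lit 5) (nat_lit 52) (nat_lit 5) (nat_lit 59) (nat_lit 5) (nat_lit 304) (nat_lit 302) (nat_lit 174)) (XT.lf (nat_lit 76) (nat_lit 904199503282) (nat_lit 0) (nat_lit 718518915934) (nat_lit 532) (nat_lit 174568075420) (nat_lit 54) (nat_lit 5) (nat_lit 53) (nat_lit 5) (nat_lit 60) (nat_lit 5) (nat_lit 305) (nat_lit 302) (nat_lit 173)))))) (XT.nd (nat_lit 468) (nat_lit 836) (nat_lit 0) (XT.nd (nat_lit 234) (nat_lit 684) (nat_lit 0) (XT.nd (nat_lit 78) (nat_lit 532) (nat_lit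 0) (XT.lf (nat_lit 0) (nat_lit 60123114699) (nat_lit 532) (nat_lit 1139840983673) (nat_lit 76) (nat_lit 741060135160) (nat_lit 47) (nat_lit 5) (nat_lit 54) (nat_lit 5) (nat_lit 48) (nat_lit 5) (nat_lit 306) (nat_lit 302) (nat_lit 172)) (XT.nd (nat_lit 78) (nat_lit 228) (nat_lit 0) (XT.lf (nat_lit 0) (nat_lit 391428761414) (nat_lit 380) (nat_lit 1399133810107) (nat_lit 76) (nat_lit 309657550401) (nat_lit 43) (nat_lit 5) (nat_lit 48) (nat_lit 5) (nat_lit 44) (nat_lit 5) (nat_lit 307) (nat_lit 302) (nat_lit 171)) (XT.lf (nat_lit 0) (nat_lit 602633607607) (nat_lit 228) (nat_lit 251525232872) (nat_lit 304) (nat_lit 1422598266276) (nat_lit 40) (nat_lit 5) (nat_lit 43) (nat_lit 5) (nat_lit 44) (nat_lit 5) (nat_lit 308) (nat_lit 302) (nat_lit 170)))) (XT.nd (nat_lit 78) (nat_lit 456) (nat_lit 0) (XT.lf (nat_lit 0) (nat_lit 500331313247) (nat_lit 228) (nat_lit 976309181497) (nat_lit 304) (nat_lit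 995906779509) (nat_lit 37) (nat_lit 5) (nat_lit 40) (nat_lit 5) (nat_lit 41) (nat_lit 5) (nat_lit 309) (nat_lit 302) (nat_lit 169)) (XT.nd (nat_lit 78) (nat_lit 304) (nat_lit 0) (XT.lf (nat_lit 0) (nat_lit 401459325483) (nat_lit 152) (nat_lit 1876581205861) (nat_lit 228) (nat_lit 412821744806) (nat_lit 35) (nat_lit 5) (nat_lit 37) (nat_lit 5) (nat_lit 38) (nat_lit 5) (nat_lit 310) (nat_lit 302) (nat_lit 168)) (XT.lf (nat_lit 0) (nat_lit 293264557573) (nat_lit 228) (nat_lit 44534647341) (nat_lit 304) (nat_lit 2596192205185) (nat_lit 31) (nat_lit 5) (nat_lit 34) (nat_lit 5) (nat_lit 35) (nat_lit 5) (nat_lit 311) (nat_lit 302) (nat_lit 167))))) (XT.nd (nat_lit 234) (nat_lit 456) (nat_lit 0) (XT.nd (nat_lit 78) (nat_lit 228) (nat_lit 0) (XT.lf (nat_lit 0) (nat_lit 137862577011) (nat_lit 152) (nat_lit 1160701228964) (nat_lit 228) (nat_lit 1904408763719) (nat_lit 29) (nat_lit 5) (nat_lit 31)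 (nat_lit 5) (nat_lit 32) (nat_lit 5) (nat_lit 312) (nat_lit 302) (nat_lit 166)) (XT.nd (nat_lit 78) (nat_lit 228) (nat_lit 0) (XT.lf (nat_lit 0) (nat_lit 2505824075499) (nat_lit 228) (nat_lit 38494598989) (nat_lit 76) (nat_lit 959791750481) (nat_lit 29) (nat_lit 5) (nat_lit 32) (nat_lit 5) (nat_lit 30) (nat_lit 5) (nat_lit 313) (nat_lit 302) (nat_lit 165)) (XT.lf (nat_lit 0) (nat_lit 163073311457) (nat_lit 228) (nat_lit 255496768019) (nat_lit 76) (nat_lit 3422044082808) (nat_lit 26) (nat_lit 5) (nat_lit 29) (nat_lit 5) (nat_lit 27) (nat_lit 5) (nat_lit 314) (nat_lit 302) (nat_lit 164)))) (XT.nd (nat_lit 78) (nat_lit 304) (nat_lit 0) (XT.lf (nat_lit 0) (nat_lit 1582726069920) (nat_lit 228) (nat_lit 586245056199) (nat_lit 76) (nat_lit 2045092065603) (nat_lit 24) (nat_lit 5) (nat_lit 27) (nat_lit 5) (nat_lit 25) (nat_lit 5) (nat_lit 315) (nat_lit 302) (nat_lit 163)) (XT.nd (nat_lit 78) (nat_lit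 152) (nat_lit 0) (XT.lf (nat_lit 0) (nat_lit 3329547409840) (nat_lit 228) (nat_lit 1006255336812) (nat_lit 76) (nat_lit 298589175513) (nat_lit 22) (nat_lit 5) (nat_lit 25) (nat_lit 5) (nat_lit 23) (nat_lit 4) (nat_lit 316) (nat_lit 302) (nat_lit 162)) (XT.lf (nat_lit 0) (nat_lit 375678423672) (nat_lit 152) (nat_lit 1605461513091) (nat_lit 76) (nat_lit 3122918121043) (nat_lit 20) (nat_lit 5) (nat_lit 22) (nat_lit 5) (nat_lit 21) (nat_lit 5) (nat_lit 317) (nat_lit 302) (nat_lit 161))))))) (XT.nd (nat_lit 40170) (nat_lit 0) (nat_lit 228) (XT.nd (nat_lit 39702) (nat_lit 0) (nat_lit 1520) (XT.nd (nat_lit 39468) (nat_lit 0) (nat_lit 2736) (XT.nd (nat_lit 78) (nat_lit 228) (nat_lit 0) (XT.lf (nat_lit 0) (nat_lit 2361985597154) (nat_lit 228) (nat_lit 2431249546278) (nat_lit 76) (nat_lit 837750232884) (nat_lit 18) (nat_lit 5) (nat_lit 21) (nat_lit 5) (nat_lit 19) (nat_lit 4) (nat_lit 318) (nat_lit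 302) (nat_lit 160)) (XT.nd (nat_lit 78) (nat_lit 152) (nat_lit 0) (XT.lf (nat_lit 0) (nat_lit 2667135585103) (nat_lit 76) (nat_lit 2145996710938) (nat_lit 152) (nat_lit 1410468020613) (nat_lit 17) (nat_lit 5) (nat_lit 18) (nat_lit 5) (nat_lit 19) (nat_lit 4) (nat_lit 319) (nat_lit 302) (nat_lit 159)) (XT.lf (nat_lit 0) (nat_lit 832732353954) (nat_lit 152) (nat_lit 5068082993280) (nat_lit 76) (nat_lit 991513821879) (nat_lit 15) (nat_lit 5) (nat_lit 17) (nat_lit 5) (nat_lit 16) (nat_lit 4) (nat_lit 320) (nat_lit 302) (nat_lit 158)))) (XT.nd (nat_lit 78) (nat_lit 0) (nat_lit 0) (XT.lf (nat_lit 0) (nat_lit 607078970641) (nat_lit 532) (nat_lit 111740912854) (nat_lit 532) (nat_lit 111740912854) (nat_lit 51) (nat_lit 3) (nat_lit 58) (nat_lit 3) (nat_lit 58) (nat_lit 5) (nat_lit 303) (nat_lit 303) (nat_lit 174)) (XT.nd (nat_lit 78) (nat_lit 0) (nat_lit 76) (XT.lf (nat_lit 76) (nat_lit 1301822379501)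 (nat_lit 0) (nat_lit 34706306326) (nat_lit 532) (nat_lit 446672314322) (nat_lit 52) (nat_lit 5) (nat_lit 51) (nat_lit 3) (nat_lit 58) (nat_lit 5) (nat_lit 304) (nat_lit 303) (nat_lit 173)) (XT.lf (nat_lit 76) (nat_lit 1166606170886) (nat_lit 0) (nat_lit 383348185242) (nat_lit 532) (nat_lit 367822017480) (nat_lit 53) (nat_lit 5) (nat_lit 52) (nat_lit 5) (nat_lit 59) (nat_lit 5) (nat_lit 305) (nat_lit 303) (nat_lit 172))))) (XT.nd (nat_lit 234) (nat_lit 608) (nat_lit 0) (XT.nd (nat_lit 78) (nat_lit 760) (nat_lit 0) (XT.lf (nat_lit 76) (nat_lit 1039829483410) (nat_lit 0) (nat_lit 826296766503) (nat_lit 532) (nat_lit 200753213351) (nat_lit 54) (nat_lit 5) (nat_lit 53) (nat_lit 5) (nat_lit 60) (nat_lit 5) (nat_lit 306) (nat_lit 303) (nat_lit 171)) (XT.nd (nat_lit 78) (nat_lit 304) (nat_lit 0) (XT.lf (nat_lit 0) (nat_lit 69141643607) (nat_lit 532) (nat_lit 1310817072463) (nat_lit 76) (nat_lit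 852219147441) (nat_lit 47) (nat_lit 5) (nat_lit 54) (nat_lit 5) (nat_lit 48) (nat_lit 5) (nat_lit 307) (nat_lit 303) (nat_lit 170)) (XT.lf (nat_lit 0) (nat_lit 450143130546) (nat_lit 380) (nat_lit 1609003823313) (nat_lit 76) (nat_lit 356106181858) (nat_lit 43) (nat_lit 5) (nat_lit 48) (nat_lit 5) (nat_lit 44) (nat_lit 5) (nat_lit 308) (nat_lit 303) (nat_lit 169)))) (XT.nd (nat_lit 78) (nat_lit 380) (nat_lit 0) (XT.lf (nat_lit 0) (nat_lit 693028702122) (nat_lit 228) (nat_lit 289254013468) (nat_lit 304) (nat_lit 1635987953167) (nat_lit 40) (nat_lit 5) (nat_lit 43) (nat_lit 5) (nat_lit 44) (nat_lit 5) (nat_lit 309) (nat_lit 303) (nat_lit 168)) (XT.nd (nat_lit 78) (nat_lit 152) (nat_lit 0) (XT.lf (nat_lit 0) (nat_lit 575381062665) (nat_lit 228) (nat_lit 1122755550286) (nat_lit 304) (nat_lit 1145292748845) (nat_lit 37) (nat_lit 5) (nat_lit 40) (nat_lit 5) (nat_lit 41) (nat_lit 5) (nat_lit 310)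 (nat_lit 303) (nat_lit 167)) (XT.lf (nat_lit 0) (nat_lit 461678275403) (nat_lit 152) (nat_lit 2158068375304) (nat_lit 228) (nat_lit 474744963627) (nat_lit 35) (nat_lit 5) (nat_lit 37) (nat_lit 5) (nat_lit 38) (nat_lit 5) (nat_lit 311) (nat_lit 303) (nat_lit 166)))))) (XT.nd (nat_lit 468) (nat_lit 304) (nat_lit 0) (XT.nd (nat_lit 234) (nat_lit 532) (nat_lit 0) (XT.nd (nat_lit 78) (nat_lit 152) (nat_lit 0) (XT.lf (nat_lit 0) (nat_lit 337254290002) (nat_lit 228) (nat_lit 51214832262) (nat_lit 304) (nat_lit 2985620996369) (nat_lit 31) (nat_lit 5) (nat_lit 34) (nat_lit 5) (nat_lit 35) (nat_lit 5) (nat_lit 312) (nat_lit 303) (nat_lit 165)) (XT.nd (nat_lit 78) (nat_lit 0) (nat_lit 0) (XT.lf (nat_lit 0) (nat_lit 158542010686) (nat_lit 152) (nat_lit 1334806399410) (nat_lit 228) (nat_lit 2190070042349) (nat_lit 29) (nat_lit 5) (nat_lit 31) (nat_lit 5) (nat_lit 32) (nat_lit 5) (nat_lit 313) (nat_lit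 303) (nat_lit 164)) (XT.lf (nat_lit 0) (nat_lit 2881697716006) (nat_lit 228) (nat_lit 44268745801) (nat_lit 76) (nat_lit 1103760524535) (nat_lit 29) (nat_lit 5) (nat_lit 32) (nat_lit 5) (nat_lit 30) (nat_lit 5) (nat_lit 314) (nat_lit 303) (nat_lit 163)))) (XT.nd (nat_lit 78) (nat_lit 304) (nat_lit 0) (XT.lf (nat_lit 0) (nat_lit 187534335214) (nat_lit 228) (nat_lit 293821242372) (nat_lit 76) (nat_lit 3935350706845) (nat_lit 26) (nat_lit 5) (nat_lit 29) (nat_lit 5) (nat_lit 27) (nat_lit 5) (nat_lit 315) (nat_lit 303) (nat_lit 162)) (XT.nd (nat_lit 78) (nat_lit 152) (nat_lit 0) (XT.lf (nat_lit 0) (nat_lit 1820135005132) (nat_lit 228) (nat_lit 674181775569) (nat_lit 76) (nat_lit 2351855887774) (nat_lit 24) (nat_lit 5) (nat_lit 27) (nat_lit 5) (nat_lit 25) (nat_lit 5) (nat_lit 316) (nat_lit 303) (nat_lit 161)) (XT.lf (nat_lit 0) (nat_lit 3828979543997) (nat_lit 228) (nat_lit 1157193600089)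 (nat_lit 76) (nat_lit 343377564566) (nat_lit 22) (nat_lit 5) (nat_lit 25) (nat_lit 5) (nat_lit 23) (nat_lit 4) (nat_lit 317) (nat_lit 303) (nat_lit 160))))) (XT.nd (nat_lit 39624) (nat_lit 0) (nat_lit 2204) (XT.nd (nat_lit 78) (nat_lit 152) (nat_lit 0) (XT.lf (nat_lit 0) (nat_lit 432030208320) (nat_lit 152) (nat_lit 1846280704832) (nat_lit 76) (nat_lit 3591355851619) (nat_lit 20) (nat_lit 5) (nat_lit 22) (nat_lit 5) (nat_lit 21) (nat_lit 5) (nat_lit 318) (nat_lit 303) (nat_lit 159)) (XT.nd (nat_lit 39468) (nat_lit 0) (nat_lit 2508) (XT.lf (nat_lit 0) (nat_lit 2716283456163) (nat_lit 228) (nat_lit 2795936944747) (nat_lit 76) (nat_lit 963412780282) (nat_lit 18) (nat_lit 5) (nat_lit 21) (nat_lit 5) (nat_lit 19) (nat_lit 4) (nat_lit 319) (nat_lit 303) (nat_lit 158)) (XT.lf (nat_lit 0) (nat_lit 698140854019) (nat_lit 532) (nat_lit 128502029339) (nat_lit 532) (nat_lit 128502029339) (nat_lit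 51) (nat_lit 3) (nat_lit 58) (nat_lit 3) (nat_lit 58) (nat_lit 5) (nat_lit 304) (nat_lit 304) (nat_lit 172)))) (XT.nd (nat_lit 156) (nat_lit 304) (nat_lit 0) (XT.nd (nat_lit 78) (nat_lit 0) (nat_lit 76) (XT.lf (nat_lit 76) (nat_lit 1497095773851) (nat_lit 0) (nat_lit 39912281457) (nat_lit 532) (nat_lit 513673089394) (nat_lit 52) (nat_lit 5) (nat_lit 51) (nat_lit 3) (nat_lit 58) (nat_lit 5) (nat_lit 305) (nat_lit 304) (nat_lit 171)) (XT.lf (nat_lit 76) (nat_lit 1341597136426) (nat_lit 0) (nat_lit 440850431390) (nat_lit 532) (nat_lit 422995257049) (nat_lit 53) (nat_lit 5) (nat_lit 52) (nat_lit 5) (nat_lit 59) (nat_lit 5) (nat_lit 306) (nat_lit 304) (nat_lit 170))) (XT.nd (nat_lit 78) (nat_lit 456) (nat_lit 0) (XT.lf (nat_lit 76) (nat_lit 1195803947234) (nat_lit 0) (nat_lit 950241291443) (nat_lit 532) (nat_lit 230866139866) (nat_lit 54) (nat_lit 5) (nat_lit 53) (nat_lit 5) (nat_lit 60) (nat_lit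 5) (nat_lit 307) (nat_lit 304) (nat_lit 169)) (XT.lf (nat_lit 0) (nat_lit 79512936804) (nat_lit 532) (nat_lit 1507439588901) (nat_lit 76) (nat_lit 980052013514) (nat_lit 47) (nat_lit 5) (nat_lit 54) (nat_lit 5) (nat_lit 48) (nat_lit 5) (nat_lit 308) (nat_lit 304) (nat_lit 168))))))))
noncomputable def xc62 : XT := (XT.nd (nat_lit 41340) (nat_lit 0) (nat_lit 152) (XT.nd (nat_lit 40404) (nat_lit 0) (nat_lit 456) (XT.nd (nat_lit 468) (nat_lit 684) (nat_lit 0) (XT.nd (nat_lit 234) (nat_lit 608) (nat_lit 0) (XT.nd (nat_lit 78) (nat_lit 456) (nat_lit 0) (XT.lf (nat_lit 0) (nat_lit 517664641656) (nat_lit 380) (nat_lit 1850354352719) (nat_lit 76) (nat_lit 409522108303) (nat_lit 43) (nat_lit 5) (nat_lit 48) (nat_lit 5) (nat_lit 44) (nat_lit 5) (nat_lit 309) (nat_lit 304) (nat_lit 167)) (XT.nd (nat_lit 78) (nat_lit 228) (nat_lit 0) (XT.lf (nat_lit 0) (nat_lit 796983047799) (nat_lit 228) (nat_lit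 332642112212) (nat_lit 304) (nat_lit 1881386106029) (nat_lit 40) (nat_lit 5) (nat_lit 43) (nat_lit 5) (nat_lit 44) (nat_lit 5) (nat_lit 310) (nat_lit 304) (nat_lit 166)) (XT.lf (nat_lit 0) (nat_lit 661688261711) (nat_lit 228) (nat_lit 1291168876451) (nat_lit 304) (nat_lit 1317086625187) (nat_lit 37) (nat_lit 5) (nat_lit 40) (nat_lit 5) (nat_lit 41) (nat_lit 5) (nat_lit 311) (nat_lit 304) (nat_lit 165)))) (XT.nd (nat_lit 78) (nat_lit 456) (nat_lit 0) (XT.lf (nat_lit 0) (nat_lit 530930055351) (nat_lit 152) (nat_lit 2481778622953) (nat_lit 228) (nat_lit 545956675732) (nat_lit 35) (nat_lit 5) (nat_lit 37) (nat_lit 5) (nat_lit 38) (nat_lit 5) (nat_lit 312) (nat_lit 304) (nat_lit 164)) (XT.nd (nat_lit 78) (nat_lit 152) (nat_lit 0) (XT.lf (nat_lit 0) (nat_lit 387842470396) (nat_lit 228) (nat_lit 58897047892) (nat_lit 304) (nat_lit 3433464115886) (nat_lit 31) (nat_lit 5) (nat_lit 34) (nat_lit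 5) (nat_lit 35) (nat_lit 5) (nat_lit 313) (nat_lit 304) (nat_lit 163)) (XT.lf (nat_lit 0) (nat_lit 182323347921) (nat_lit 152) (nat_lit 1535027348812) (nat_lit 228) (nat_lit 2518580521535) (nat_lit 29) (nat_lit 5) (nat_lit 31) (nat_lit 5) (nat_lit 32) (nat_lit 5) (nat_lit 314) (nat_lit 304) (nat_lit 162))))) (XT.nd (nat_lit 234) (nat_lit 304) (nat_lit 0) (XT.nd (nat_lit 78) (nat_lit 380) (nat_lit 0) (XT.lf (nat_lit 0) (nat_lit 3313952395472) (nat_lit 228) (nat_lit 50909025129) (nat_lit 76) (nat_lit 1269324611896) (nat_lit 29) (nat_lit 5) (nat_lit 32) (nat_lit 5) (nat_lit 30) (nat_lit 5) (nat_lit 315) (nat_lit 304) (nat_lit 161)) (XT.nd (nat_lit 78) (nat_lit 152) (nat_lit 0) (XT.lf (nat_lit 0) (nat_lit 215664505942) (nat_lit 228) (nat_lit 337894397839) (nat_lit 76) (nat_lit 4525653321655) (nat_lit 26) (nat_lit 5) (nat_lit 29) (nat_lit 5) (nat_lit 27) (nat_lit 5) (nat_lit 316) (nat_lit 304)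 (nat_lit 160)) (XT.lf (nat_lit 0) (nat_lit 2093155274597) (nat_lit 228) (nat_lit 775309012368) (nat_lit 76) (nat_lit 2704634280265) (nat_lit 24) (nat_lit 5) (nat_lit 27) (nat_lit 5) (nat_lit 25) (nat_lit 5) (nat_lit 317) (nat_lit 304) (nat_lit 159)))) (XT.nd (nat_lit 78) (nat_lit 152) (nat_lit 0) (XT.lf (nat_lit 0) (nat_lit 4403326492747) (nat_lit 228) (nat_lit 1330772611940) (nat_lit 76) (nat_lit 394884208873) (nat_lit 22) (nat_lit 5) (nat_lit 25) (nat_lit 5) (nat_lit 23) (nat_lit 4) (nat_lit 318) (nat_lit 304) (nat_lit 158)) (XT.nd (nat_lit 39546) (nat_lit 0) (nat_lit 2356) (XT.lf (nat_lit 0) (nat_lit 496834755519) (nat_lit 152) (nat_lit 2123222783923) (nat_lit 76) (nat_lit 4130059238753) (nat_lit 20) (nat_lit 5) (nat_lit 22) (nat_lit 5) (nat_lit 21) (nat_lit 5) (nat_lit 319) (nat_lit 304) (nat_lit 157)) (XT.lf (nat_lit 0) (nat_lit 802862010690) (nat_lit 532) (nat_lit 147777318282) (nat_lit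 532) (nat_lit 147777318282) (nat_lit 51) (nat_lit 3) (nat_lit 58) (nat_lit 3) (nat_lit 58) (nat_lit 5) (nat_lit 305) (nat_lit 305) (nat_lit 170)))))) (XT.nd (nat_lit 468) (nat_lit 1064) (nat_lit 0) (XT.nd (nat_lit 234) (nat_lit 836) (nat_lit 0) (XT.nd (nat_lit 78) (nat_lit 0) (nat_lit 76) (XT.lf (nat_lit 76) (nat_lit 1721660168227) (nat_lit 0) (nat_lit 45899145742) (nat_lit 532) (nat_lit 590723998302) (nat_lit 52) (nat_lit 5) (nat_lit 51) (nat_lit 3) (nat_lit 58) (nat_lit 5) (nat_lit 306) (nat_lit 305) (nat_lit 169)) (XT.nd (nat_lit 78) (nat_lit 0) (nat_lit 76) (XT.lf (nat_lit 76) (nat_lit 1542836737065) (nat_lit 0) (nat_lit 506978009983) (nat_lit 532) (nat_lit 486444497929) (nat_lit 53) (nat_lit 5) (nat_lit 52) (nat_lit 5) (nat_lit 59) (nat_lit 5) (nat_lit 307) (nat_lit 305) (nat_lit 168)) (XT.lf (nat_lit 76) (nat_lit 1375174570558) (nat_lit 0) (nat_lit 1092777492695) (nat_lit 532) (nat_lit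 265496018890) (nat_lit 54) (nat_lit 5) (nat_lit 53) (nat_lit 5) (nat_lit 60) (nat_lit 5) (nat_lit 308) (nat_lit 305) (nat_lit 167)))) (XT.nd (nat_lit 78) (nat_lit 532) (nat_lit 0) (XT.lf (nat_lit 0) (nat_lit 91439912603) (nat_lit 532) (nat_lit 1733555493640) (nat_lit 76) (nat_lit 1127059810972) (nat_lit 47) (nat_lit 5) (nat_lit 54) (nat_lit 5) (nat_lit 48) (nat_lit 5) (nat_lit 309) (nat_lit 305) (nat_lit 166)) (XT.nd (nat_lit 78) (nat_lit 228) (nat_lit 0) (XT.lf (nat_lit 0) (nat_lit 595314369305) (nat_lit 380) (nat_lit 2127907472289) (nat_lit 76) (nat_lit 470950423918) (nat_lit 43) (nat_lit 5) (nat_lit 48) (nat_lit 5) (nat_lit 44) (nat_lit 5) (nat_lit 310) (nat_lit 305) (nat_lit 165)) (XT.lf (nat_lit 0) (nat_lit 916530535486) (nat_lit 228) (nat_lit 382538426566) (nat_lit 304) (nat_lit 2163593991603) (nat_lit 40) (nat_lit 5) (nat_lit 43) (nat_lit 5) (nat_lit 44) (nat_lit 5) (nat_lit 311)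 (nat_lit 305) (nat_lit 164))))) (XT.nd (nat_lit 234) (nat_lit 380) (nat_lit 0) (XT.nd (nat_lit 78) (nat_lit 456) (nat_lit 0) (XT.lf (nat_lit 0) (nat_lit 760941530945) (nat_lit 228) (nat_lit 1484844203095) (nat_lit 304) (nat_lit 1514649591756) (nat_lit 37) (nat_lit 5) (nat_lit 40) (nat_lit 5) (nat_lit 41) (nat_lit 5) (nat_lit 312) (nat_lit 305) (nat_lit 163)) (XT.nd (nat_lit 78) (nat_lit 304) (nat_lit 0) (XT.lf (nat_lit 0) (nat_lit 610569592869) (nat_lit 152) (nat_lit 2854045409858) (nat_lit 228) (nat_lit 627850152563) (nat_lit 35) (nat_lit 5) (nat_lit 37) (nat_lit 5) (nat_lit 38) (nat_lit 5) (nat_lit 313) (nat_lit 305) (nat_lit 162)) (XT.lf (nat_lit 0) (nat_lit 446018868853) (nat_lit 228) (nat_lit 67731598112) (nat_lit 304) (nat_lit 3948483710632) (nat_lit 31) (nat_lit 5) (nat_lit 34) (nat_lit 5) (nat_lit 35) (nat_lit 5) (nat_lit 314) (nat_lit 305) (nat_lit 161)))) (XT.nd (nat_lit 78)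 (nat_lit 228) (nat_lit 0) (XT.lf (nat_lit 0) (nat_lit 209671877052) (nat_lit 152) (nat_lit 1765281443188) (nat_lit 228) (nat_lit 2896367579223) (nat_lit 29) (nat_lit 5) (nat_lit 31) (nat_lit 5) (nat_lit 32) (nat_lit 5) (nat_lit 315) (nat_lit 305) (nat_lit 160)) (XT.nd (nat_lit 78) (nat_lit 228) (nat_lit 0) (XT.lf (nat_lit 0) (nat_lit 3811045271478) (nat_lit 228) (nat_lit 58545354292) (nat_lit 76) (nat_lit 1459723310245) (nat_lit 29) (nat_lit 5) (nat_lit 32) (nat_lit 5) (nat_lit 30) (nat_lit 5) (nat_lit 316) (nat_lit 305) (nat_lit 159)) (XT.lf (nat_lit 0) (nat_lit 248014197293) (nat_lit 228) (nat_lit 388578534159) (nat_lit 76) (nat_lit 5204501326544) (nat_lit 26) (nat_lit 5) (nat_lit 29) (nat_lit 5) (nat_lit 27) (nat_lit 5) (nat_lit 317) (nat_lit 305) (nat_lit 158))))))) (XT.nd (nat_lit 40482) (nat_lit 0) (nat_lit 304) (XT.nd (nat_lit 40014) (nat_lit 0) (nat_lit 684) (XT.nd (nat_lit 39780)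 (nat_lit 0) (nat_lit 2204) (XT.nd (nat_lit 78) (nat_lit 152) (nat_lit 0) (XT.lf (nat_lit 0) (nat_lit 2407128579922) (nat_lit 228) (nat_lit 891605341891) (nat_lit 76) (nat_lit 3110329429355) (nat_lit 24) (nat_lit 5) (nat_lit 27) (nat_lit 5) (nat_lit 25) (nat_lit 5) (nat_lit 318) (nat_lit 305) (nat_lit 157)) (XT.nd (nat_lit 39624) (nat_lit 0) (nat_lit 2204) (XT.lf (nat_lit 0) (nat_lit 5063825479627) (nat_lit 228) (nat_lit 1530388482436) (nat_lit 76) (nat_lit 454116847480) (nat_lit 22) (nat_lit 5) (nat_lit 25) (nat_lit 5) (nat_lit 23) (nat_lit 4) (nat_lit 319) (nat_lit 305) (nat_lit 156)) (XT.lf (nat_lit 0) (nat_lit 923291333895) (nat_lit 532) (nat_lit 169943904337) (nat_lit 532) (nat_lit 169943904337) (nat_lit 51) (nat_lit 3) (nat_lit 58) (nat_lit 3) (nat_lit 58) (nat_lit 5) (nat_lit 306) (nat_lit 306) (nat_lit 168)))) (XT.nd (nat_lit 78) (nat_lit 0) (nat_lit 76) (XT.lf (nat_lit 76) (nat_lit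 1979909214859) (nat_lit 0) (nat_lit 52784034288) (nat_lit 532) (nat_lit 679332556837) (nat_lit 52) (nat_lit 5) (nat_lit 51) (nat_lit 3) (nat_lit 58) (nat_lit 5) (nat_lit 307) (nat_lit 306) (nat_lit 167)) (XT.nd (nat_lit 78) (nat_lit 0) (nat_lit 76) (XT.lf (nat_lit 76) (nat_lit 1774262270442) (nat_lit 0) (nat_lit 583024721979) (nat_lit 532) (nat_lit 559411136567) (nat_lit 53) (nat_lit 5) (nat_lit 52) (nat_lit 5) (nat_lit 59) (nat_lit 5) (nat_lit 308) (nat_lit 306) (nat_lit 166)) (XT.lf (nat_lit 76) (nat_lit 1581450779762) (nat_lit 0) (nat_lit 1256694122297) (nat_lit 532) (nat_lit 305320389998) (nat_lit 54) (nat_lit 5) (nat_lit 53) (nat_lit 5) (nat_lit 60) (nat_lit 5) (nat_lit 309) (nat_lit 306) (nat_lit 165))))) (XT.nd (nat_lit 234) (nat_lit 684) (nat_lit 0) (XT.nd (nat_lit 78) (nat_lit 532) (nat_lit 0) (XT.lf (nat_lit 0) (nat_lit 105155926170) (nat_lit 532) (nat_lit 1993588792282) (nat_lit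 76) (nat_lit 1296118779162) (nat_lit 47) (nat_lit 5) (nat_lit 54) (nat_lit 5) (nat_lit 48) (nat_lit 5) (nat_lit 310) (nat_lit 306) (nat_lit 164)) (XT.nd (nat_lit 78) (nat_lit 228) (nat_lit 0) (XT.lf (nat_lit 0) (nat_lit 684611548444) (nat_lit 380) (nat_lit 2447093567923) (nat_lit 76) (nat_lit 541592987029) (nat_lit 43) (nat_lit 5) (nat_lit 48) (nat_lit 5) (nat_lit 44) (nat_lit 5) (nat_lit 311) (nat_lit 306) (nat_lit 163)) (XT.lf (nat_lit 0) (nat_lit 1054010138884) (nat_lit 228) (nat_lit 439919188677) (nat_lit 304) (nat_lit 2488133067408) (nat_lit 40) (nat_lit 5) (nat_lit 43) (nat_lit 5) (nat_lit 44) (nat_lit 5) (nat_lit 312) (nat_lit 306) (nat_lit 162)))) (XT.nd (nat_lit 78) (nat_lit 456) (nat_lit 0) (XT.lf (nat_lit 0) (nat_lit 875082783254) (nat_lit 228) (nat_lit 1707570829912) (nat_lit 304) (nat_lit 1741847009945) (nat_lit 37) (nat_lit 5) (nat_lit 40) (nat_lit 5) (nat_lit 41) (nat_lit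 5) (nat_lit 313) (nat_lit 306) (nat_lit 161)) (XT.nd (nat_lit 78) (nat_lit 304) (nat_lit 0) (XT.lf (nat_lit 0) (nat_lit 702155053891) (nat_lit 152) (nat_lit 3282152216393) (nat_lit 228) (nat_lit 722027656901) (nat_lit 35) (nat_lit 5) (nat_lit 37) (nat_lit 5) (nat_lit 38) (nat_lit 5) (nat_lit 314) (nat_lit 306) (nat_lit 160)) (XT.lf (nat_lit 0) (nat_lit 512921720275) (nat_lit 228) (nat_lit 77891332562) (nat_lit 304) (nat_lit 4540756250109) (nat_lit 31) (nat_lit 5) (nat_lit 34) (nat_lit 5) (nat_lit 35) (nat_lit 5) (nat_lit 315) (nat_lit 306) (nat_lit 159)))))) (XT.nd (nat_lit 40170) (nat_lit 0) (nat_lit 380) (XT.nd (nat_lit 39936) (nat_lit 0) (nat_lit 1900) (XT.nd (nat_lit 78) (nat_lit 228) (nat_lit 0) (XT.lf (nat_lit 0) (nat_lit 241122678983) (nat_lit 152) (nat_lit 2030073653657) (nat_lit 228) (nat_lit 3330822700573) (nat_lit 29) (nat_lit 5) (nat_lit 31) (nat_lit 5) (nat_lit 32) (nat_lit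 5) (nat_lit 316) (nat_lit 306) (nat_lit 158)) (XT.nd (nat_lit 78) (nat_lit 228) (nat_lit 0) (XT.lf (nat_lit 0) (nat_lit 4382702074815) (nat_lit 228) (nat_lit 67327138829) (nat_lit 76) (nat_lit 1678681811746) (nat_lit 29) (nat_lit 5) (nat_lit 32) (nat_lit 5) (nat_lit 30) (nat_lit 5) (nat_lit 317) (nat_lit 306) (nat_lit 157)) (XT.lf (nat_lit 0) (nat_lit 285216338577) (nat_lit 228) (nat_lit 446865296623) (nat_lit 76) (nat_lit 5985176530548) (nat_lit 26) (nat_lit 5) (nat_lit 29) (nat_lit 5) (nat_lit 27) (nat_lit 5) (nat_lit 318) (nat_lit 306) (nat_lit 156)))) (XT.nd (nat_lit 78) (nat_lit 0) (nat_lit 0) (XT.lf (nat_lit 0) (nat_lit 1061785050313) (nat_lit 532) (nat_lit 195435481149) (nat_lit 532) (nat_lit 195435481149) (nat_lit 51) (nat_lit 3) (nat_lit 58) (nat_lit 3) (nat_lit 58) (nat_lit 5) (nat_lit 307) (nat_lit 307) (nat_lit 166)) (XT.nd (nat_lit 78) (nat_lit 0) (nat_lit 76) (XT.lf (nat_lit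 76) (nat_lit 2276895613268) (nat_lit 0) (nat_lit 60701652048) (nat_lit 532) (nat_lit 781232409201) (nat_lit 52) (nat_lit 5) (nat_lit 51) (nat_lit 3) (nat_lit 58) (nat_lit 5) (nat_lit 308) (nat_lit 307) (nat_lit 165)) (XT.lf (nat_lit 76) (nat_lit 2040401628261) (nat_lit 0) (nat_lit 670478438214) (nat_lit 532) (nat_lit 643322779792) (nat_lit 53) (nat_lit 5) (nat_lit 52) (nat_lit 5) (nat_lit 59) (nat_lit 5) (nat_lit 309) (nat_lit 307) (nat_lit 164))))) (XT.nd (nat_lit 234) (nat_lit 912) (nat_lit 0) (XT.nd (nat_lit 78) (nat_lit 760) (nat_lit 0) (XT.lf (nat_lit 76) (nat_lit 1818668414588) (nat_lit 0) (nat_lit 1445198244950) (nat_lit 532) (nat_lit 351118424509) (nat_lit 54) (nat_lit 5) (nat_lit 53) (nat_lit 5) (nat_lit 60) (nat_lit 5) (nat_lit 310) (nat_lit 307) (nat_lit 163)) (XT.nd (nat_lit 78) (nat_lit 304) (nat_lit 0) (XT.lf (nat_lit 0) (nat_lit 120929335266) (nat_lit 532) (nat_lit 2292627091915)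 (nat_lit 76) (nat_lit 1490536593424) (nat_lit 47) (nat_lit 5) (nat_lit 54) (nat_lit 5) (nat_lit 48) (nat_lit 5) (nat_lit 311) (nat_lit 307) (nat_lit 162)) (XT.lf (nat_lit 0) (nat_lit 787303298664) (nat_lit 380) (nat_lit 2814157584050) (nat_lit 76) (nat_lit 622831934723) (nat_lit 43) (nat_lit 5) (nat_lit 48) (nat_lit 5) (nat_lit 44) (nat_lit 5) (nat_lit 312) (nat_lit 307) (nat_lit 161)))) (XT.nd (nat_lit 156) (nat_lit 456) (nat_lit 0) (XT.nd (nat_lit 78) (nat_lit 228) (nat_lit 0) (XT.lf (nat_lit 0) (nat_lit 1212111677165) (nat_lit 228) (nat_lit 505907065561) (nat_lit 304) (nat_lit 2861353010177) (nat_lit 40) (nat_lit 5) (nat_lit 43) (nat_lit 5) (nat_lit 44) (nat_lit 5) (nat_lit 313) (nat_lit 307) (nat_lit 160)) (XT.lf (nat_lit 0) (nat_lit 1006345217882) (nat_lit 228) (nat_lit 1963706451642) (nat_lit 304) (nat_lit 2003124045879) (nat_lit 37) (nat_lit 5) (nat_lit 40) (nat_lit 5) (nat_lit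 41) (nat_lit 5) (nat_lit 314) (nat_lit 307) (nat_lit 159))) (XT.nd (nat_lit 78) (nat_lit 304) (nat_lit 0) (XT.lf (nat_lit 0) (nat_lit 807478328678) (nat_lit 152) (nat_lit 3774475045113) (nat_lit 228) (nat_lit 830331791412) (nat_lit 35) (nat_lit 5) (nat_lit 37) (nat_lit 5) (nat_lit 38) (nat_lit 5) (nat_lit 315) (nat_lit 307) (nat_lit 158)) (XT.lf (nat_lit 0) (nat_lit 589859994266) (nat_lit 228) (nat_lit 89575028465) (nat_lit 304) (nat_lit 5221869674682) (nat_lit 31) (nat_lit 5) (nat_lit 34) (nat_lit 5) (nat_lit 35) (nat_lit 5) (nat_lit 316) (nat_lit 307) (nat_lit 157))))))))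
noncomputable def xc63 : XT := (XT.nd (nat_lit 121602) (nat_lit 0) (nat_lit 608) (XT.nd (nat_lit 80652) (nat_lit 0) (nat_lit 152) (XT.nd (nat_lit 40248) (nat_lit 0) (nat_lit 0) (XT.nd (nat_lit 40014) (nat_lit 0) (nat_lit 1368) (XT.nd (nat_lit 39858) (nat_lit 0) (nat_lit 1672) (XT.lf (nat_lit 0) (nat_lit 5040107395577) (nat_lit 228) (nat_lit 77426195585) (nat_lit 76) (nat_lit 1930484087261) (nat_lit 29) (nat_lit 5) (nat_lit 32) (nat_lit 5) (nat_lit 30) (nat_lit 5) (nat_lit 318) (nat_lit 307) (nat_lit 155)) (XT.nd (nat_lit 78) (nat_lit 0) (nat_lit 0) (XT.lf (nat_lit 0) (nat_lit 1221052820211) (nat_lit 532) (nat_lit 224750796639) (nat_lit 532) (nat_lit 224750796639) (nat_lit 51) (nat_lit 3) (nat_lit 58) (nat_lit 3) (nat_lit 58) (nat_lit 5) (nat_lit 308) (nat_lit 308) (nat_lit 164)) (XT.lf (nat_lit 76) (nat_lit 2618429967493) (nat_lit 0) (nat_lit 69806909395) (nat_lit 532) (nat_lit 898417247019)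 (nat_lit 52) (nat_lit 5) (nat_lit 51) (nat_lit 3) (nat_lit 58) (nat_lit 5) (nat_lit 309) (nat_lit 308) (nat_lit 163)))) (XT.nd (nat_lit 78) (nat_lit 380) (nat_lit 0) (XT.lf (nat_lit 76) (nat_lit 2346461885546) (nat_lit 0) (nat_lit 771050209949) (nat_lit 532) (nat_lit 739821176149) (nat_lit 53) (nat_lit 5) (nat_lit 52) (nat_lit 5) (nat_lit 59) (nat_lit 5) (nat_lit 310) (nat_lit 308) (nat_lit 162)) (XT.nd (nat_lit 78) (nat_lit 456) (nat_lit 0) (XT.lf (nat_lit 76) (nat_lit 2091468690281) (nat_lit 0) (nat_lit 1661977984950) (nat_lit 532) (nat_lit 403786170047) (nat_lit 54) (nat_lit 5) (nat_lit 53) (nat_lit 5) (nat_lit 60) (nat_lit 5) (nat_lit 311) (nat_lit 308) (nat_lit 161)) (XT.lf (nat_lit 0) (nat_lit 139068750808) (nat_lit 532) (nat_lit 2636521141178) (nat_lit 76) (nat_lit 1714117080462) (nat_lit 47) (nat_lit 5) (nat_lit 54) (nat_lit 5) (nat_lit 48) (nat_lit 5) (nat_lit 312) (nat_lit 308)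 (nat_lit 160))))) (XT.nd (nat_lit 234) (nat_lit 608) (nat_lit 0) (XT.nd (nat_lit 78) (nat_lit 456) (nat_lit 0) (XT.lf (nat_lit 0) (nat_lit 905398807040) (nat_lit 380) (nat_lit 3236281207244) (nat_lit 76) (nat_lit 716256724659) (nat_lit 43) (nat_lit 5) (nat_lit 48) (nat_lit 5) (nat_lit 44) (nat_lit 5) (nat_lit 313) (nat_lit 308) (nat_lit 159)) (XT.nd (nat_lit 78) (nat_lit 228) (nat_lit 0) (XT.lf (nat_lit 0) (nat_lit 1393928441933) (nat_lit 228) (nat_lit 581793124325) (nat_lit 304) (nat_lit 3290555948591) (nat_lit 40) (nat_lit 5) (nat_lit 43) (nat_lit 5) (nat_lit 44) (nat_lit 5) (nat_lit 314) (nat_lit 308) (nat_lit 158)) (XT.lf (nat_lit 0) (nat_lit 1157297013525) (nat_lit 228) (nat_lit 2258262417303) (nat_lit 304) (nat_lit 2303592640998) (nat_lit 37) (nat_lit 5) (nat_lit 40) (nat_lit 5) (nat_lit 41) (nat_lit 5) (nat_lit 315) (nat_lit 308) (nat_lit 157)))) (XT.nd (nat_lit 156) (nat_lit 456)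 (nat_lit 0) (XT.lf (nat_lit 0) (nat_lit 928600090610) (nat_lit 152) (nat_lit 4340646299053) (nat_lit 228) (nat_lit 954881549520) (nat_lit 35) (nat_lit 5) (nat_lit 37) (nat_lit 5) (nat_lit 38) (nat_lit 5) (nat_lit 316) (nat_lit 308) (nat_lit 156)) (XT.nd (nat_lit 39936) (nat_lit 0) (nat_lit 1672) (XT.lf (nat_lit 0) (nat_lit 318884772319) (nat_lit 152) (nat_lit 2684772398301) (nat_lit 228) (nat_lit 4405012999121) (nat_lit 29) (nat_lit 5) (nat_lit 31) (nat_lit 5) (nat_lit 32) (nat_lit 5) (nat_lit 318) (nat_lit 308) (nat_lit 154)) (XT.lf (nat_lit 0) (nat_lit 1404210752582) (nat_lit 532) (nat_lit 258463411082) (nat_lit 532) (nat_lit 258463411082) (nat_lit 51) (nat_lit 3) (nat_lit 58) (nat_lit 3) (nat_lit 58) (nat_lit 5) (nat_lit 309) (nat_lit 309) (nat_lit 162)))))) (XT.nd (nat_lit 468) (nat_lit 684) (nat_lit 0) (XT.nd (nat_lit 234) (nat_lit 836) (nat_lit 0) (XT.nd (nat_lit 78) (nat_lit 0)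 (nat_lit 76) (XT.lf (nat_lit 76) (nat_lit 3011194471867) (nat_lit 0) (nat_lit 80277953018) (nat_lit 532) (nat_lit 1033179816256) (nat_lit 52) (nat_lit 5) (nat_lit 51) (nat_lit 3) (nat_lit 58) (nat_lit 5) (nat_lit 310) (nat_lit 309) (nat_lit 161)) (XT.nd (nat_lit 78) (nat_lit 0) (nat_lit 76) (XT.lf (nat_lit 76) (nat_lit 2698431178242) (nat_lit 0) (nat_lit 886707745980) (nat_lit 532) (nat_lit 850794336986) (nat_lit 53) (nat_lit 5) (nat_lit 52) (nat_lit 5) (nat_lit 59) (nat_lit 5) (nat_lit 311) (nat_lit 309) (nat_lit 160)) (XT.lf (nat_lit 76) (nat_lit 2405189004035) (nat_lit 0) (nat_lit 1911274685156) (nat_lit 532) (nat_lit 464354081838) (nat_lit 54) (nat_lit 5) (nat_lit 53) (nat_lit 5) (nat_lit 60) (nat_lit 5) (nat_lit 312) (nat_lit 309) (nat_lit 159)))) (XT.nd (nat_lit 78) (nat_lit 532) (nat_lit 0) (XT.lf (nat_lit 0) (nat_lit 159929074962) (nat_lit 532) (nat_lit 3031999301372) (nat_lit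 76) (nat_lit 1971234641038) (nat_lit 47) (nat_lit 5) (nat_lit 54) (nat_lit 5) (nat_lit 48) (nat_lit 5) (nat_lit 313) (nat_lit 309) (nat_lit 158)) (XT.nd (nat_lit 78) (nat_lit 228) (nat_lit 0) (XT.lf (nat_lit 0) (nat_lit 1041208638361) (nat_lit 380) (nat_lit 3721723377432) (nat_lit 76) (nat_lit 823695233151) (nat_lit 43) (nat_lit 5) (nat_lit 48) (nat_lit 5) (nat_lit 44) (nat_lit 5) (nat_lit 314) (nat_lit 309) (nat_lit 157)) (XT.lf (nat_lit 0) (nat_lit 1603017718199) (nat_lit 228) (nat_lit 669062092163) (nat_lit 304) (nat_lit 3784139330964) (nat_lit 40) (nat_lit 5) (nat_lit 43) (nat_lit 5) (nat_lit 44) (nat_lit 5) (nat_lit 315) (nat_lit 309) (nat_lit 156))))) (XT.nd (nat_lit 40170) (nat_lit 0) (nat_lit 1520) (XT.nd (nat_lit 78) (nat_lit 456) (nat_lit 0) (XT.lf (nat_lit 0) (nat_lit 1330891575353) (nat_lit 228) (nat_lit 2597001778322) (nat_lit 304) (nat_lit 2649131528253) (nat_lit 37) (nat_lit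 5) (nat_lit 40) (nat_lit 5) (nat_lit 41) (nat_lit 5) (nat_lit 316) (nat_lit 309) (nat_lit 155)) (XT.nd (nat_lit 78) (nat_lit 304) (nat_lit 0) (XT.lf (nat_lit 0) (nat_lit 1067890113753) (nat_lit 152) (nat_lit 4991743241774) (nat_lit 228) (nat_lit 1098113773929) (nat_lit 35) (nat_lit 5) (nat_lit 37) (nat_lit 5) (nat_lit 38) (nat_lit 5) (nat_lit 317) (nat_lit 309) (nat_lit 154)) (XT.lf (nat_lit 0) (nat_lit 780089865407) (nat_lit 228) (nat_lit 118462969406) (nat_lit 304) (nat_lit 6905922626112) (nat_lit 31) (nat_lit 5) (nat_lit 34) (nat_lit 5) (nat_lit 35) (nat_lit 5) (nat_lit 318) (nat_lit 309) (nat_lit 153)))) (XT.nd (nat_lit 156) (nat_lit 0) (nat_lit 76) (XT.nd (nat_lit 78) (nat_lit 0) (nat_lit 0) (XT.lf (nat_lit 0) (nat_lit 1614842372531) (nat_lit 532) (nat_lit 297232918923) (nat_lit 532) (nat_lit 297232918923) (nat_lit 51) (nat_lit 3) (nat_lit 58) (nat_lit 3) (nat_lit 58) (nat_lit 5)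 (nat_lit 310) (nat_lit 310) (nat_lit 160)) (XT.lf (nat_lit 76) (nat_lit 3462873649643) (nat_lit 0) (nat_lit 92319651425) (nat_lit 532) (nat_lit 1188156775222) (nat_lit 52) (nat_lit 5) (nat_lit 51) (nat_lit 3) (nat_lit 58) (nat_lit 5) (nat_lit 311) (nat_lit 310) (nat_lit 159))) (XT.nd (nat_lit 78) (nat_lit 0) (nat_lit 76) (XT.lf (nat_lit 76) (nat_lit 3103195862438) (nat_lit 0) (nat_lit 1019713911309) (nat_lit 532) (nat_lit 978413475748) (nat_lit 53) (nat_lit 5) (nat_lit 52) (nat_lit 5) (nat_lit 59) (nat_lit 5) (nat_lit 312) (nat_lit 310) (nat_lit 158)) (XT.lf (nat_lit 76) (nat_lit 2765967362362) (nat_lit 0) (nat_lit 2197965889792) (nat_lit 532) (nat_lit 534007183743) (nat_lit 54) (nat_lit 5) (nat_lit 53) (nat_lit 5) (nat_lit 60) (nat_lit 5) (nat_lit 313) (nat_lit 310) (nat_lit 157))))))) (XT.nd (nat_lit 81276) (nat_lit 0) (nat_lit 456) (XT.nd (nat_lit 40560) (nat_lit 0) (nat_lit 228) (XT.nd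 (nat_lit 234) (nat_lit 228) (nat_lit 0) (XT.nd (nat_lit 78) (nat_lit 532) (nat_lit 0) (XT.lf (nat_lit 0) (nat_lit 183918444926) (nat_lit 532) (nat_lit 3486799188273) (nat_lit 76) (nat_lit 2266919836064) (nat_lit 47) (nat_lit 5) (nat_lit 54) (nat_lit 5) (nat_lit 48) (nat_lit 5) (nat_lit 314) (nat_lit 310) (nat_lit 156)) (XT.nd (nat_lit 78) (nat_lit 228) (nat_lit 0) (XT.lf (nat_lit 0) (nat_lit 1197389941877) (nat_lit 380) (nat_lit 4279981875806) (nat_lit 76) (nat_lit 947249517968) (nat_lit 43) (nat_lit 5) (nat_lit 48) (nat_lit 5) (nat_lit 44) (nat_lit 5) (nat_lit 315) (nat_lit 310) (nat_lit 155)) (XT.lf (nat_lit 0) (nat_lit 1843470383473) (nat_lit 228) (nat_lit 769421405375) (nat_lit 304) (nat_lit 4351760223112) (nat_lit 40) (nat_lit 5) (nat_lit 43) (nat_lit 5) (nat_lit 44) (nat_lit 5) (nat_lit 316) (nat_lit 310) (nat_lit 154)))) (XT.nd (nat_lit 40170) (nat_lit 0) (nat_lit 1064) (XT.lf (nat_lit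 0) (nat_lit 1530525319066) (nat_lit 228) (nat_lit 2986552043878) (nat_lit 304) (nat_lit 3046501250765) (nat_lit 37) (nat_lit 5) (nat_lit 40) (nat_lit 5) (nat_lit 41) (nat_lit 5) (nat_lit 317) (nat_lit 310) (nat_lit 153)) (XT.nd (nat_lit 78) (nat_lit 0) (nat_lit 0) (XT.lf (nat_lit 0) (nat_lit 1857068733750) (nat_lit 532) (nat_lit 341817853872) (nat_lit 532) (nat_lit 341817853872) (nat_lit 51) (nat_lit 3) (nat_lit 58) (nat_lit 3) (nat_lit 58) (nat_lit 5) (nat_lit 311) (nat_lit 311) (nat_lit 158)) (XT.lf (nat_lit 76) (nat_lit 3982304702378) (nat_lit 0) (nat_lit 106167603263) (nat_lit 532) (nat_lit 1366380281319) (nat_lit 52) (nat_lit 5) (nat_lit 51) (nat_lit 3) (nat_lit 58) (nat_lit 5) (nat_lit 312) (nat_lit 311) (nat_lit 157))))) (XT.nd (nat_lit 312) (nat_lit 532) (nat_lit 0) (XT.nd (nat_lit 78) (nat_lit 380) (nat_lit 0) (XT.lf (nat_lit 76) (nat_lit 3568675247443) (nat_lit 0) (nat_lit 1172671000601)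 (nat_lit 532) (nat_lit 1125175488199) (nat_lit 53) (nat_lit 5) (nat_lit 52) (nat_lit 5) (nat_lit 59) (nat_lit 5) (nat_lit 313) (nat_lit 311) (nat_lit 156)) (XT.nd (nat_lit 78) (nat_lit 456) (nat_lit 0) (XT.lf (nat_lit 76) (nat_lit 3180862472555) (nat_lit 0) (nat_lit 2527660774669) (nat_lit 532) (nat_lit 614108253463) (nat_lit 54) (nat_lit 5) (nat_lit 53) (nat_lit 5) (nat_lit 60) (nat_lit 5) (nat_lit 314) (nat_lit 311) (nat_lit 155)) (XT.lf (nat_lit 0) (nat_lit 211506218259) (nat_lit 532) (nat_lit 4009819060235) (nat_lit 76) (nat_lit 2606957810619) (nat_lit 47) (nat_lit 5) (nat_lit 54) (nat_lit 5) (nat_lit 48) (nat_lit 5) (nat_lit 315) (nat_lit 311) (nat_lit 154)))) (XT.nd (nat_lit 40248) (nat_lit 0) (nat_lit 836) (XT.lf (nat_lit 0) (nat_lit 2119990946697) (nat_lit 228) (nat_lit 884834615718) (nat_lit 304) (nat_lit 5004524250909) (nat_lit 40) (nat_lit 5) (nat_lit 43) (nat_lit 5) (nat_lit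 44) (nat_lit 5) (nat_lit 317) (nat_lit 311) (nat_lit 152)) (XT.nd (nat_lit 78) (nat_lit 0) (nat_lit 0) (XT.lf (nat_lit 0) (nat_lit 2135629047850) (nat_lit 532) (nat_lit 393090529769) (nat_lit 532) (nat_lit 393090529769) (nat_lit 51) (nat_lit 3) (nat_lit 58) (nat_lit 3) (nat_lit 58) (nat_lit 5) (nat_lit 312) (nat_lit 312) (nat_lit 156)) (XT.lf (nat_lit 76) (nat_lit 4579650411735) (nat_lit 0) (nat_lit 122092746871) (nat_lit 532) (nat_lit 1571337315815) (nat_lit 52) (nat_lit 5) (nat_lit 51) (nat_lit 3) (nat_lit 58) (nat_lit 5) (nat_lit 313) (nat_lit 312) (nat_lit 155)))))) (XT.nd (nat_lit 40716) (nat_lit 0) (nat_lit 304) (XT.nd (nat_lit 234) (nat_lit 304) (nat_lit 0) (XT.nd (nat_lit 78) (nat_lit 380) (nat_lit 0) (XT.lf (nat_lit 76) (nat_lit 4103976538824) (nat_lit 0) (nat_lit 1348571652653) (nat_lit 532) (nat_lit 1293951804691) (nat_lit 53) (nat_lit 5) (nat_lit 52) (nat_lit 5) (nat_lit 59)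 (nat_lit 5) (nat_lit 314) (nat_lit 312) (nat_lit 154)) (XT.nd (nat_lit 78) (nat_lit 456) (nat_lit 0) (XT.lf (nat_lit 76) (nat_lit 3657991847853) (nat_lit 0) (nat_lit 2906809891935) (nat_lit 532) (nat_lit 706224485552) (nat_lit 54) (nat_lit 5) (nat_lit 53) (nat_lit 5) (nat_lit 60) (nat_lit 5) (nat_lit 315) (nat_lit 312) (nat_lit 153)) (XT.lf (nat_lit 0) (nat_lit 243232155984) (nat_lit 532) (nat_lit 4611291914522) (nat_lit 76) (nat_lit 2998001481566) (nat_lit 47) (nat_lit 5) (nat_lit 54) (nat_lit 5) (nat_lit 48) (nat_lit 5) (nat_lit 316) (nat_lit 312) (nat_lit 152)))) (XT.nd (nat_lit 40326) (nat_lit 0) (nat_lit 608) (XT.lf (nat_lit 0) (nat_lit 1583548209319) (nat_lit 380) (nat_lit 5660276018876) (nat_lit 76) (nat_lit 1252737487288) (nat_lit 43) (nat_lit 5) (nat_lit 48) (nat_lit 5) (nat_lit 44) (nat_lit 5) (nat_lit 317) (nat_lit 312) (nat_lit 151)) (XT.nd (nat_lit 78) (nat_lit 0) (nat_lit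 0) (XT.lf (nat_lit 0) (nat_lit 2455973408081) (nat_lit 532) (nat_lit 452054107582) (nat_lit 532) (nat_lit 452054107582) (nat_lit 51) (nat_lit 3) (nat_lit 58) (nat_lit 3) (nat_lit 58) (nat_lit 5) (nat_lit 313) (nat_lit 313) (nat_lit 154)) (XT.lf (nat_lit 76) (nat_lit 5266597976519) (nat_lit 0) (nat_lit 140406661260) (nat_lit 532) (nat_lit 1807037907363) (nat_lit 52) (nat_lit 5) (nat_lit 51) (nat_lit 3) (nat_lit 58) (nat_lit 5) (nat_lit 314) (nat_lit 313) (nat_lit 153))))) (XT.nd (nat_lit 40560) (nat_lit 0) (nat_lit 304) (XT.nd (nat_lit 78) (nat_lit 380) (nat_lit 0) (XT.lf (nat_lit 76) (nat_lit 4719573022873) (nat_lit 0) (nat_lit 1550857402035) (nat_lit 532) (nat_lit 1488044570300) (nat_lit 53) (nat_lit 5) (nat_lit 52) (nat_lit 5) (nat_lit 59) (nat_lit 5) (nat_lit 315) (nat_lit 313) (nat_lit 152)) (XT.nd (nat_lit 78) (nat_lit 456) (nat_lit 0) (XT.lf (nat_lit 76) (nat_lit 4206690628370) (nat_lit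 0) (nat_lit 3342831376530) (nat_lit 532) (nat_lit 812158153902) (nat_lit 54) (nat_lit 5) (nat_lit 53) (nat_lit 5) (nat_lit 60) (nat_lit 5) (nat_lit 316) (nat_lit 313) (nat_lit 151)) (XT.lf (nat_lit 0) (nat_lit 279716983152) (nat_lit 532) (nat_lit 5302985698110) (nat_lit 76) (nat_lit 3447701703313) (nat_lit 47) (nat_lit 5) (nat_lit 54) (nat_lit 5) (nat_lit 48) (nat_lit 5) (nat_lit 317) (nat_lit 313) (nat_lit 150)))) (XT.nd (nat_lit 156) (nat_lit 0) (nat_lit 0) (XT.nd (nat_lit 78) (nat_lit 0) (nat_lit 0) (XT.lf (nat_lit 0) (nat_lit 2824369421601) (nat_lit 532) (nat_lit 519862222471) (nat_lit 532) (nat_lit 519862222471) (nat_lit 51) (nat_lit 3) (nat_lit 58) (nat_lit 3) (nat_lit 58) (nat_lit 5) (nat_lit 314) (nat_lit 314) (nat_lit 152)) (XT.lf (nat_lit 76) (nat_lit 6056587675283) (nat_lit 0) (nat_lit 161467662232) (nat_lit 532) (nat_lit 2078093589063) (nat_lit 52) (nat_lit 5) (nat_lit 51)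 (nat_lit 3) (nat_lit 58) (nat_lit 5) (nat_lit 315) (nat_lit 314) (nat_lit 151))) (XT.nd (nat_lit 40638) (nat_lit 76) (nat_lit 0) (XT.lf (nat_lit 76) (nat_lit 5427508978742) (nat_lit 0) (nat_lit 1783486013462) (nat_lit 532) (nat_lit 1711251251992) (nat_lit 53) (nat_lit 5) (nat_lit 52) (nat_lit 5) (nat_lit 59) (nat_lit 5) (nat_lit 316) (nat_lit 314) (nat_lit 150)) (XT.lf (nat_lit 76) (nat_lit 6965075828305) (nat_lit 0) (nat_lit 185687812915) (nat_lit 532) (nat_lit 2389807624093) (nat_lit 52) (nat_lit 5) (nat_lit 51) (nat_lit 3) (nat_lit 58) (nat_lit 5) (nat_lit 316) (nat_lit 315) (nat_lit 149))))))))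

set_option maxRecDepth 10000000 in
noncomputable def Tp : PT := (PT.nd (nat_lit 5374044) (PT.nd (nat_lit 5171166) pc0 pc1) (PT.nd (nat_lit 121368) pc2 pc3))

set_option maxRecDepth 10000000 in
noncomputable def Tx : XT := (XT.nd (nat_lit 9209772) (nat_lit 0) (nat_lit 76) XT.nil (XT.nd (nat_lit 3615924) (nat_lit 0) (nat_lit 0) (XT.nd (nat_lit 1623882) (nat_lit 0) (nat_lit 0) (XT.nd (nat_lit 1134198) (nat_lit 0) (nat_lit 0) (XT.nd (nat_lit 771576) (nat_lit 0) (nat_lit 0) (XT.nd (nat_lit 566748) (nat_lit 0) (nat_lit 0) (XT.nd (nat_lit 365664) (nat_lit 0) (nat_lit 0) (XT.nd (nat_lit 283374) (nat_lit 0) (nat_lit 0) xc0 xc1) (XT.nd (nat_lit 120354) (nat_lit 0) (nat_lit 0) xc2 xc3)) (XT.nd (nat_lit 121836) (nat_lit 0) (nat_lit 0) (XT.nd (nat_lit 42042) (nat_lit 0) (nat_lit 0) xc4 xc5) (XT.nd (nat_lit 41574) (nat_lit 0) (nat_lit 0) xc6 xc7))) (XT.nd (nat_lit 201318) (nat_lit 0) (nat_lit 0) (XT.nd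 (nat_lit 119730) (nat_lit 0) (nat_lit 0) (XT.nd (nat_lit 78702) (nat_lit 0) (nat_lit 0) xc8 xc9) (XT.nd (nat_lit 40872) (nat_lit 0) (nat_lit 0) xc10 xc11)) (XT.nd (nat_lit 80964) (nat_lit 0) (nat_lit 0) (XT.nd (nat_lit 40560) (nat_lit 0) (nat_lit 0) xc12 xc13) (XT.nd (nat_lit 40248) (nat_lit 0) (nat_lit 0) xc14 xc15)))) (XT.nd (nat_lit 244920) (nat_lit 0) (nat_lit 0) (XT.nd (nat_lit 123162) (nat_lit 0) (nat_lit 0) (XT.nd (nat_lit 43758) (nat_lit 0) (nat_lit 0) (XT.nd (nat_lit 39936) (nat_lit 0) (nat_lit 0) xc16 xc17) (XT.nd (nat_lit 39780) (nat_lit 0) (nat_lit 0) xc18 xc19)) (XT.nd (nat_lit 78780) (nat_lit 0) (nat_lit 0) (XT.nd (nat_lit 39468) (nat_lit 0) (nat_lit 0) xc20 xc21) (XT.nd (nat_lit 3822) (nat_lit 0) (nat_lit 0) xc22 xc23))) (XT.nd (nat_lit 121992) (nat_lit 0) (nat_lit 0) (XT.nd (nat_lit 78702) (nat_lit 0) (nat_lit 0) (XT.nd (nat_lit 39312) (nat_lit 0) (nat_lit 0) xc24 xc25)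 (XT.nd (nat_lit 3822) (nat_lit 0) (nat_lit 0) xc26 xc27)) (XT.nd (nat_lit 79170) (nat_lit 0) (nat_lit 0) (XT.nd (nat_lit 39546) (nat_lit 0) (nat_lit 0) xc28 xc29) (XT.nd (nat_lit 3822) (nat_lit 0) (nat_lit 0) xc30 xc31))))) (XT.nd (nat_lit 609882) (nat_lit 0) (nat_lit 0) (XT.nd (nat_lit 284154) (nat_lit 0) (nat_lit 0) (XT.nd (nat_lit 123396) (nat_lit 0) (nat_lit 0) (XT.nd (nat_lit 79638) (nat_lit 0) (nat_lit 0) (XT.nd (nat_lit 39780) (nat_lit 0) (nat_lit 0) xc32 xc33) (XT.nd (nat_lit 39936) (nat_lit 0) (nat_lit 0) xc34 xc35)) (XT.nd (nat_lit 80184) (nat_lit 0) (nat_lit 0) (XT.nd (nat_lit 40014) (nat_lit 0) (nat_lit 0) xc36 xc37) (XT.nd (nat_lit 40248) (nat_lit 0) (nat_lit 0) xc38 xc39))) (XT.nd (nat_lit 162084) (nat_lit 0) (nat_lit 0) (XT.nd (nat_lit 80886) (nat_lit 0) (nat_lit 0) (XT.nd (nat_lit 40404) (nat_lit 0) (nat_lit 0) xc40 xc41) (XT.nd (nat_lit 40560) (nat_lit 0) (nat_lit 0) xc42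 xc43)) (XT.nd (nat_lit 81588) (nat_lit 0) (nat_lit 0) (XT.nd (nat_lit 40716) (nat_lit 0) (nat_lit 0) xc44 xc45) (XT.nd (nat_lit 40950) (nat_lit 0) (nat_lit 0) xc46 xc47)))) (XT.nd (nat_lit 445770) (nat_lit 0) (nat_lit 304) (XT.nd (nat_lit 202644) (nat_lit 0) (nat_lit 76) (XT.nd (nat_lit 82290) (nat_lit 0) (nat_lit 0) (XT.nd (nat_lit 41106) (nat_lit 0) (nat_lit 0) xc48 xc49) (XT.nd (nat_lit 78858) (nat_lit 0) (nat_lit 76) xc50 xc51)) (XT.nd (nat_lit 121134) (nat_lit 0) (nat_lit 152) (XT.nd (nat_lit 41574) (nat_lit 0) (nat_lit 0) xc52 xc53) (XT.nd (nat_lit 41808) (nat_lit 0) (nat_lit 0) xc54 xc55))) (XT.nd (nat_lit 285324) (nat_lit 0) (nat_lit 456) (XT.nd (nat_lit 122772) (nat_lit 0) (nat_lit 228) (XT.nd (nat_lit 42120) (nat_lit 0) (nat_lit 0) xc56 xc57) (XT.nd (nat_lit 81120) (nat_lit 0) (nat_lit 76) xc58 xc59)) (XT.nd (nat_lit 203424) (nat_lit 0) (nat_lit 684) (XT.nd (nat_lit 81822) (nat_lit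 0) (nat_lit 228) xc60 xc61) (XT.nd (nat_lit 122616) (nat_lit 0) (nat_lit 684) xc62 xc63)))))) XT.nil))

set_option maxRecDepth 10000000 in
noncomputable def Te : XT := XT.nil

set_option maxRecDepth 10000000 in
noncomputable def Tz : ZL := (ZL.cons (nat_lit 76) (nat_lit 6) (nat_lit 246073111102601937482) (ZL.cons (nat_lit 152) (nat_lit 6) (nat_lit 231866753327925787634) (ZL.cons (nat_lit 228) (nat_lit 3) (nat_lit 114829330779728197479) (ZL.cons (nat_lit 304) (nat_lit 6) (nat_lit 215529441887048215310) (ZL.cons (nat_lit 380) (nat_lit 6) (nat_lit 203409010830917238504) (ZL.cons (nat_lit 456) (nat_lit 3) (nat_lit 100744465516124100696) (ZL.cons (nat_lit 532) (nat_lit 6) (nat_lit 189470515116366615174) (ZL.cons (nat_lit 608) (nat_lit 6) (nat_lit 179239051219310121276) (ZL.cons (nat_lit 684) (nat_lit 3) (nat_lit 88784708305885914068) (ZL.cons (nat_lit 760) (nat_lit 6) (nat_lit 167472867737695153290)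 (ZL.cons (nat_lit 836) (nat_lit 6) (nat_lit 158983327320513351348) (ZL.cons (nat_lit 912) (nat_lit 3) (nat_lit 78765735570022635179) (ZL.cons (nat_lit 988) (nat_lit 6) (nat_lit 149220355840754279116) (ZL.cons (nat_lit 1064) (nat_lit 6) (nat_lit 142376913062227355818) (ZL.cons (nat_lit 1140) (nat_lit 3) (nat_lit 70557214713518860088) (ZL.cons (nat_lit 1216) (nat_lit 6) (nat_lit 136867249358797669366) (ZL.cons (nat_lit 1292) (nat_lit 6) (nat_lit 134506953866921394030) (ZL.cons (nat_lit 1368) (nat_lit 6) (nat_lit 129268652464663894298) (ZL.cons (nat_lit 1444) (nat_lit 3) (nat_lit 64085420303988627302) (ZL.cons (nat_lit 1520) (nat_lit 6) (nat_lit 125297036714568878594) (ZL.cons (nat_lit 1596) (nat_lit 6) (nat_lit 123244605852067769606) (ZL.cons (nat_lit 1672) (nat_lit 3) (nat_lit 60160248104228468906) (ZL.cons (nat_lit 1748) (nat_lit 6) (nat_lit 120866302723336155254) (ZL.cons (nat_lit 1824)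 (nat_lit 6) (nat_lit 122514401091091009652) (ZL.cons (nat_lit 1900) (nat_lit 6) (nat_lit 119631866745272970840) (ZL.cons (nat_lit 1976) (nat_lit 3) (nat_lit 59338623869729250773) (ZL.cons (nat_lit 2052) (nat_lit 6) (nat_lit 116088455254600033884) (ZL.cons (nat_lit 2128) (nat_lit 6) (nat_lit 117261939261590351380) (ZL.cons (nat_lit 2204) (nat_lit 6) (nat_lit 115477216772458952262) (ZL.cons (nat_lit 2280) (nat_lit 3) (nat_lit 56477113078714884825) (ZL.cons (nat_lit 2356) (nat_lit 6) (nat_lit 113581903649540869704) (ZL.cons (nat_lit 2432) (nat_lit 3) (nat_lit 56375900083111969940) (ZL.cons (nat_lit 2508) (nat_lit 6) (nat_lit 111402293558185074764) (ZL.cons (nat_lit 2584) (nat_lit 1) (nat_lit 18446744073709551617) ZL.nil))))))))))))))))))))))))))))))))))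

noncomputable def vl : XL := ⟨(nat_lit 0), (nat_lit 76), (nat_lit 433602407), (nat_lit 152), (nat_lit 34360316), (nat_lit 152), (nat_lit 34360316), (nat_lit 1), (nat_lit 4), (nat_lit 2), (nat_lit 5), (nat_lit 2), (nat_lit 4), (nat_lit 0), (nat_lit 0), (nat_lit 0)⟩

noncomputable def cp0 : Nat := (nat_lit 31779109016372829343048480386113566325772509516016906351745147302280363730957800149790128764283636727000498770875488846142362578102711514891602828385374321103055744645869296038016283066595266150060236668715633351031628200861117680898906053489105036798788535336431226695679075147835006827519062888648015834369939343063457572149943684594585965905129789055797192506600676622384251884503893037576817402132189376083534633991938675221105248426790355470245317773912738365713602708483747073522449473287945048298879563932817864536166556302316604642667162307056528179170245911647999367558900641971816183762281353631327644606869578275531777286883150706662486256022424700183530643427017475089761887676137741648660712875096899955604754100542795557996280959648816390184269251273405401073523949434723992971771904)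

noncomputable def cp1 : Nat := (nat_lit 2991567025214412380126392576377436555805040665745162074557938249157243602186038786510310357745916386333759813333349996671321176586077069481408191479272233755735320299600302555865168623208582850325881699506257923407084550212235476170244816217644055290049212261096322189992322527251644678330007630696390468484767205088056419148249769555701018027687182743250394362056723417717440432109256394058261593338184653022119817029305051818058022502939117646328925644933503361836224415757637005595193262856043870706519979288643696750686101019278897925739095165158649296020823227284057725476292455858494069256857029751711794573596863966957580578684169540227440347200929179323205168416847310344867877234239054867995591419497277809843070045828876267396175667520181549180344097433111589466395905833403093956664519906385135453515808784094973256327521342753929354796652640750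397361528787934302354859458242724835226516737856874733617705340589612359253936164042631826996526329702162243468695444692865055227763752175631954028916174541877266469362706642985025925807070563075636915177751341257782479099736100930409931845789240381244735645982785534177321345713842454987673021561123954645301170064064956397266067878118127017036549965192225273596110266794392866559445326009903778454095996841751577846638150709046784608450549090210952186228611993757639043245993429602747981648727023010880127428014476157035395213711071389168577666843002835759477336823695168337343166659655192870475318928633346109863231188434192165099639177207015541398648938779182739625393086346886058295097165816599900869977531387158669604046346167676985607151885061200687797744643131152929706319883915951709897703723538320640603500864964621198488666415043336592967974947653158980273065552773120)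

noncomputable def rc0 : Nat := (nat_lit 2991567025214412380126392576377436555805040665745162074557938249157243602186038786510310357745916386333759813333349996671321176586077069481408191479272233755735320299600302555865168623208582850325881699506257923407084550212235476170244816217644055290049212261096322189992322527251644678330007630696390468484767205088056419148249769555701018027687182743250394362056723417717440432109256394058261593338184653022119817029305051818058022502939117646328925644933503361836224415757637005595193262856043870706519979288643696750686101019278897925739095165158649296020823227284057725476292455858494069256857029751711794573596863966957580578684169540227440347200929179323205168416847310344867877234239054867995591419497277809843070045828876267396175667520181549180344097433111589466395905833403093956664519906385135453515808784094973256327521342753929354796652640750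397361528787934302354859458242724835226516737856874733617705340589612359253936164042631826996526329702162243468695444692865055227763752175631954028916174541877266469362706642985025925807070563075636915177751341257782479099736100930409931845789240381244735645982785534177321345713842454987673021561123954645301170064064956397266067878118127017036549965192225273596110266794392866559445326009903778454095996841751577846638150709046784608450549090210952186228611993757639043245993429602747981648727023010880127428014476157035395213711071389168577666843002835759477336823695168337343166659655192870475318928633346109863231188434192165099639177207015541398648938779182739625393086346886058295097165816599900869977531387158669604046346167676985607151885061200687797744643131152929706319883915951709897703723538320640603500864964621198488666415043336592967974947653158980273065552773120)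

end Vale.Agent.Lib.P154.PChain.BJ.S1
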