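import Vale.Agent.Lib.P154.PChain.BJ.R1_0

set_option linter.all false

namespace Vale.Agent.Lib.P154.PChain.BJ.S2

open Vale.Agent.Lib.P154.Chain

noncomputable def pc0 : PT := (PT.nd (nat_lit 6106620) (PT.nd (nat_lit 5872464) (PT.nd (nat_lit 5778708) (PT.nd (nat_lit 5731830) (PT.nd (nat_lit 5685030) (PT.nd (nat_lit 5638230) PT.nil (PT.lf (nat_lit 76) (nat_lit 3) (nat_lit 1) (nat_lit 1) (nat_lit 165) (nat_lit 120) (nat_lit 165))) (PT.nd (nat_lit 78) (PT.lf (nat_lit 152) (nat_lit 6) (nat_lit 2) (nat_lit 3) (nat_lit 164) (nat_lit 121) (nat_lit 165)) (PT.lf (nat_lit 152) (nat_lit 6) (nat_lit 2) (nat_lit 1) (nat_lit 165) (nat_lit 121) (nat_lit 164)))) (PT.nd (nat_lit 78) (PT.lf (nat_lit 228) (nat_lit 6) (nat_lit 3) (nat_lit 3) (nat_lit 163) (nat_lit 122) (nat_lit 165)) (PT.nd (nat_lit 78) (PT.lf (nat_lit 304) (nat_lit 3) (nat_lit 4) (nat_lit 1) (nat_lit 164) (nat_lit 122) (nat_lit 164)) (PT.lf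 (nat_lit 228) (nat_lit 6) (nat_lit 3) (nat_lit 1) (nat_lit 165) (nat_lit 122) (nat_lit 163))))) (PT.nd (nat_lit 46878) (PT.nd (nat_lit 78) (PT.lf (nat_lit 380) (nat_lit 6) (nat_lit 5) (nat_lit 3) (nat_lit 163) (nat_lit 123) (nat_lit 164)) (PT.nd (nat_lit 46722) (PT.lf (nat_lit 380) (nat_lit 6) (nat_lit 5) (nat_lit 1) (nat_lit 164) (nat_lit 123) (nat_lit 163)) (PT.lf (nat_lit 456) (nat_lit 6) (nat_lit 6) (nat_lit 3) (nat_lit 162) (nat_lit 124) (nat_lit 164)))) (PT.nd (nat_lit 78) (PT.lf (nat_lit 532) (nat_lit 3) (nat_lit 7) (nat_lit 1) (nat_lit 163) (nat_lit 124) (nat_lit 163)) (PT.nd (nat_lit 46722) (PT.lf (nat_lit 456) (nat_lit 6) (nat_lit 6) (nat_lit 1) (nat_lit 164) (nat_lit 124) (nat_lit 162)) (PT.lf (nat_lit 608) (nat_lit 6) (nat_lit 8) (nat_lit 3) (nat_lit 162) (nat_lit 125) (nat_lit 163)))))) (PT.nd (nat_lit 140400) (PT.nd (nat_lit 46878) (PT.nd (nat_lit 46722) (PT.lf (nat_lit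 608) (nat_lit 6) (nat_lit 8) (nat_lit 1) (nat_lit 163) (nat_lit 125) (nat_lit 162)) (PT.nd (nat_lit 78) (PT.lf (nat_lit 684) (nat_lit 6) (nat_lit 9) (nat_lit 3) (nat_lit 161) (nat_lit 126) (nat_lit 163)) (PT.lf (nat_lit 760) (nat_lit 3) (nat_lit 10) (nat_lit 1) (nat_lit 162) (nat_lit 126) (nat_lit 162)))) (PT.nd (nat_lit 46722) (PT.lf (nat_lit 684) (nat_lit 6) (nat_lit 9) (nat_lit 1) (nat_lit 163) (nat_lit 126) (nat_lit 161)) (PT.nd (nat_lit 78) (PT.lf (nat_lit 836) (nat_lit 6) (nat_lit 11) (nat_lit 3) (nat_lit 161) (nat_lit 127) (nat_lit 162)) (PT.lf (nat_lit 836) (nat_lit 6) (nat_lit 11) (nat_lit 1) (nat_lit 162) (nat_lit 127) (nat_lit 161))))) (PT.nd (nat_lit 46878) (PT.nd (nat_lit 78) (PT.lf (nat_lit 912) (nat_lit 6) (nat_lit 12) (nat_lit 3) (nat_lit 160) (nat_lit 128) (nat_lit 162)) (PT.nd (nat_lit 78) (PT.lf (nat_lit 988) (nat_lit 3) (nat_lit 13) (nat_lit 1) (nat_lit 161) (nat_lit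 128) (nat_lit 161)) (PT.lf (nat_lit 912) (nat_lit 6) (nat_lit 12) (nat_lit 1) (nat_lit 162) (nat_lit 128) (nat_lit 160)))) (PT.nd (nat_lit 78) (PT.lf (nat_lit 1064) (nat_lit 6) (nat_lit 14) (nat_lit 3) (nat_lit 160) (nat_lit 129) (nat_lit 161)) (PT.nd (nat_lit 46722) (PT.lf (nat_lit 1064) (nat_lit 6) (nat_lit 14) (nat_lit 1) (nat_lit 161) (nat_lit 129) (nat_lit 160)) (PT.lf (nat_lit 1140) (nat_lit 6) (nat_lit 15) (nat_lit 3) (nat_lit 159) (nat_lit 130) (nat_lit 161))))))) (PT.nd (nat_lit 187356) (PT.nd (nat_lit 93756) (PT.nd (nat_lit 46878) (PT.nd (nat_lit 78) (PT.lf (nat_lit 1216) (nat_lit 3) (nat_lit 16) (nat_lit 1) (nat_lit 160) (nat_lit 130) (nat_lit 160)) (PT.nd (nat_lit 46722) (PT.lf (nat_lit 1140) (nat_lit 6) (nat_lit 15) (nat_lit 1) (nat_lit 161) (nat_lit 130) (nat_lit 159)) (PT.lf (nat_lit 1292) (nat_lit 6) (nat_lit 17) (nat_lit 3) (nat_lit 159) (nat_lit 131) (nat_lit 160))))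 (PT.nd (nat_lit 46722) (PT.lf (nat_lit 1292) (nat_lit 6) (nat_lit 17) (nat_lit 1) (nat_lit 160) (nat_lit 131) (nat_lit 159)) (PT.nd (nat_lit 78) (PT.lf (nat_lit 1368) (nat_lit 6) (nat_lit 18) (nat_lit 3) (nat_lit 158) (nat_lit 132) (nat_lit 160)) (PT.lf (nat_lit 1444) (nat_lit 3) (nat_lit 19) (nat_lit 1) (nat_lit 159) (nat_lit 132) (nat_lit 159))))) (PT.nd (nat_lit 46800) (PT.nd (nat_lit 46644) (PT.lf (nat_lit 1368) (nat_lit 6) (nat_lit 18) (nat_lit 1) (nat_lit 160) (nat_lit 132) (nat_lit 158)) (PT.nd (nat_lit 78) (PT.lf (nat_lit 1520) (nat_lit 6) (nat_lit 20) (nat_lit 3) (nat_lit 157) (nat_lit 133) (nat_lit 160)) (PT.lf (nat_lit 1596) (nat_lit 6) (nat_lit 21) (nat_lit 3) (nat_lit 158) (nat_lit 133) (nat_lit 159)))) (PT.nd (nat_lit 78) (PT.lf (nat_lit 1596) (nat_lit 6) (nat_lit 21) (nat_lit 1) (nat_lit 159) (nat_lit 133) (nat_lit 158)) (PT.nd (nat_lit 46644) (PT.lf (nat_lit 1520) (nat_lit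 6) (nat_lit 20) (nat_lit 1) (nat_lit 160) (nat_lit 133) (nat_lit 157)) (PT.lf (nat_lit 1672) (nat_lit 6) (nat_lit 22) (nat_lit 3) (nat_lit 157) (nat_lit 134) (nat_lit 159)))))) (PT.nd (nat_lit 93522) (PT.nd (nat_lit 46800) (PT.nd (nat_lit 78) (PT.lf (nat_lit 1748) (nat_lit 3) (nat_lit 23) (nat_lit 1) (nat_lit 158) (nat_lit 134) (nat_lit 158)) (PT.nd (nat_lit 46644) (PT.lf (nat_lit 1672) (nat_lit 6) (nat_lit 22) (nat_lit 1) (nat_lit 159) (nat_lit 134) (nat_lit 157)) (PT.lf (nat_lit 1824) (nat_lit 6) (nat_lit 24) (nat_lit 3) (nat_lit 156) (nat_lit 135) (nat_lit 159)))) (PT.nd (nat_lit 78) (PT.lf (nat_lit 1900) (nat_lit 6) (nat_lit 25) (nat_lit 3) (nat_lit 157) (nat_lit 135) (nat_lit 158)) (PT.nd (nat_lit 78) (PT.lf (nat_lit 1900) (nat_lit 6) (nat_lit 25) (nat_lit 1) (nat_lit 158) (nat_lit 135) (nat_lit 157)) (PT.lf (nat_lit 1824) (nat_lit 6) (nat_lit 24) (nat_lit 1) (nat_lit 159) (nat_lit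 135) (nat_lit 156))))) (PT.nd (nat_lit 234) (PT.nd (nat_lit 78) (PT.lf (nat_lit 1976) (nat_lit 6) (nat_lit 26) (nat_lit 3) (nat_lit 155) (nat_lit 136) (nat_lit 159)) (PT.nd (nat_lit 78) (PT.lf (nat_lit 2052) (nat_lit 6) (nat_lit 27) (nat_lit 3) (nat_lit 156) (nat_lit 136) (nat_lit 158)) (PT.lf (nat_lit 2128) (nat_lit 3) (nat_lit 28) (nat_lit 1) (nat_lit 157) (nat_lit 136) (nat_lit 157)))) (PT.nd (nat_lit 78) (PT.lf (nat_lit 2052) (nat_lit 6) (nat_lit 27) (nat_lit 1) (nat_lit 158) (nat_lit 136) (nat_lit 156)) (PT.nd (nat_lit 46566) (PT.lf (nat_lit 1976) (nat_lit 6) (nat_lit 26) (nat_lit 1) (nat_lit 159) (nat_lit 136) (nat_lit 155)) (PT.lf (nat_lit 2204) (nat_lit 6) (nat_lit 29) (nat_lit 3) (nat_lit 155) (nat_lit 137) (nat_lit 158))))))))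
noncomputable def pc1 : PT := (PT.nd (nat_lit 187590) (PT.nd (nat_lit 93834) (PT.nd (nat_lit 46956) (PT.nd (nat_lit 46722) (PT.nd (nat_lit 78) (PT.lf (nat_lit 2280) (nat_lit 6) (nat_lit 30) (nat_lit 3) (nat_lit 156) (nat_lit 137) (nat_lit 157)) (PT.nd (nat_lit 78) (PT.lf (nat_lit 2280) (nat_lit 6) (nat_lit 30) (nat_lit 1) (nat_lit 157) (nat_lit 137) (nat_lit 156)) (PT.lf (nat_lit 2204) (nat_lit 6) (nat_lit 29) (nat_lit 1) (nat_lit 158) (nat_lit 137) (nat_lit 155)))) (PT.nd (nat_lit 78) (PT.lf (nat_lit 2356) (nat_lit 6) (nat_lit 31) (nat_lit 3) (nat_lit 154) (nat_lit 138) (nat_lit 158)) (PT.nd (nat_lit 78) (PT.lf (nat_lit 2432) (nat_lit 6) (nat_lit 32) (nat_lit 3) (nat_lit 155) (nat_lit 138) (nat_lit 157)) (PT.lf (nat_lit 2508) (nat_lit 3) (nat_lit 33) (nat_lit 1) (nat_lit 156) (nat_lit 138) (nat_lit 156))))) (PT.nd (nat_lit 46644) (PT.nd (nat_lit 78) (PT.lf (nat_lit 2432) (nat_lit 6)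 (nat_lit 32) (nat_lit 1) (nat_lit 157) (nat_lit 138) (nat_lit 155)) (PT.nd (nat_lit 46488) (PT.lf (nat_lit 2356) (nat_lit 6) (nat_lit 31) (nat_lit 1) (nat_lit 158) (nat_lit 138) (nat_lit 154)) (PT.lf (nat_lit 2584) (nat_lit 6) (nat_lit 34) (nat_lit 3) (nat_lit 153) (nat_lit 139) (nat_lit 158)))) (PT.nd (nat_lit 78) (PT.lf (nat_lit 2660) (nat_lit 6) (nat_lit 35) (nat_lit 3) (nat_lit 154) (nat_lit 139) (nat_lit 157)) (PT.nd (nat_lit 78) (PT.lf (nat_lit 2736) (nat_lit 6) (nat_lit 36) (nat_lit 3) (nat_lit 155) (nat_lit 139) (nat_lit 156)) (PT.lf (nat_lit 2736) (nat_lit 6) (nat_lit 36) (nat_lit 1) (nat_lit 156) (nat_lit 139) (nat_lit 155)))))) (PT.nd (nat_lit 46878) (PT.nd (nat_lit 46644) (PT.nd (nat_lit 78) (PT.lf (nat_lit 2660) (nat_lit 6) (nat_lit 35) (nat_lit 1) (nat_lit 157) (nat_lit 139) (nat_lit 154)) (PT.nd (nat_lit 46488) (PT.lf (nat_lit 2584) (nat_lit 6) (nat_lit 34) (nat_lit 1)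 (nat_lit 158) (nat_lit 139) (nat_lit 153)) (PT.lf (nat_lit 2812) (nat_lit 6) (nat_lit 37) (nat_lit 3) (nat_lit 153) (nat_lit 140) (nat_lit 157)))) (PT.nd (nat_lit 78) (PT.lf (nat_lit 2888) (nat_lit 6) (nat_lit 38) (nat_lit 3) (nat_lit 154) (nat_lit 140) (nat_lit 156)) (PT.nd (nat_lit 78) (PT.lf (nat_lit 2964) (nat_lit 3) (nat_lit 39) (nat_lit 1) (nat_lit 155) (nat_lit 140) (nat_lit 155)) (PT.lf (nat_lit 2888) (nat_lit 6) (nat_lit 38) (nat_lit 1) (nat_lit 156) (nat_lit 140) (nat_lit 154))))) (PT.nd (nat_lit 46644) (PT.nd (nat_lit 46488) (PT.lf (nat_lit 2812) (nat_lit 6) (nat_lit 37) (nat_lit 1) (nat_lit 157) (nat_lit 140) (nat_lit 153)) (PT.nd (nat_lit 78) (PT.lf (nat_lit 3040) (nat_lit 6) (nat_lit 40) (nat_lit 3) (nat_lit 152) (nat_lit 141) (nat_lit 157)) (PT.lf (nat_lit 3116) (nat_lit 6) (nat_lit 41) (nat_lit 3) (nat_lit 153) (nat_lit 141) (nat_lit 156)))) (PT.nd (nat_lit 78) (PT.lf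 (nat_lit 3192) (nat_lit 6) (nat_lit 42) (nat_lit 3) (nat_lit 154) (nat_lit 141) (nat_lit 155)) (PT.nd (nat_lit 78) (PT.lf (nat_lit 3192) (nat_lit 6) (nat_lit 42) (nat_lit 1) (nat_lit 155) (nat_lit 141) (nat_lit 154)) (PT.lf (nat_lit 3116) (nat_lit 6) (nat_lit 41) (nat_lit 1) (nat_lit 156) (nat_lit 141) (nat_lit 153))))))) (PT.nd (nat_lit 93522) (PT.nd (nat_lit 46800) (PT.nd (nat_lit 46566) (PT.nd (nat_lit 46410) (PT.lf (nat_lit 3040) (nat_lit 6) (nat_lit 40) (nat_lit 1) (nat_lit 157) (nat_lit 141) (nat_lit 152)) (PT.nd (nat_lit 78) (PT.lf (nat_lit 3268) (nat_lit 6) (nat_lit 43) (nat_lit 3) (nat_lit 151) (nat_lit 142) (nat_lit 157)) (PT.lf (nat_lit 3344) (nat_lit 6) (nat_lit 44) (nat_lit 3) (nat_lit 152) (nat_lit 142) (nat_lit 156)))) (PT.nd (nat_lit 78) (PT.lf (nat_lit 3420) (nat_lit 6) (nat_lit 45) (nat_lit 3) (nat_lit 153) (nat_lit 142) (nat_lit 155)) (PT.nd (nat_lit 78) (PT.lf (nat_lit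 3496) (nat_lit 3) (nat_lit 46) (nat_lit 1) (nat_lit 154) (nat_lit 142) (nat_lit 154)) (PT.lf (nat_lit 3420) (nat_lit 6) (nat_lit 45) (nat_lit 1) (nat_lit 155) (nat_lit 142) (nat_lit 153))))) (PT.nd (nat_lit 46488) (PT.nd (nat_lit 78) (PT.lf (nat_lit 3344) (nat_lit 6) (nat_lit 44) (nat_lit 1) (nat_lit 156) (nat_lit 142) (nat_lit 152)) (PT.nd (nat_lit 46332) (PT.lf (nat_lit 3268) (nat_lit 6) (nat_lit 43) (nat_lit 1) (nat_lit 157) (nat_lit 142) (nat_lit 151)) (PT.lf (nat_lit 3572) (nat_lit 6) (nat_lit 47) (nat_lit 3) (nat_lit 150) (nat_lit 143) (nat_lit 157)))) (PT.nd (nat_lit 78) (PT.lf (nat_lit 3648) (nat_lit 6) (nat_lit 48) (nat_lit 3) (nat_lit 151) (nat_lit 143) (nat_lit 156)) (PT.nd (nat_lit 78) (PT.lf (nat_lit 3724) (nat_lit 6) (nat_lit 49) (nat_lit 3) (nat_lit 152) (nat_lit 143) (nat_lit 155)) (PT.lf (nat_lit 3800) (nat_lit 6) (nat_lit 50) (nat_lit 3) (nat_lit 153) (nat_lit 143) (nat_lit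 154)))))) (PT.nd (nat_lit 46722) (PT.nd (nat_lit 234) (PT.nd (nat_lit 78) (PT.lf (nat_lit 3800) (nat_lit 6) (nat_lit 50) (nat_lit 1) (nat_lit 154) (nat_lit 143) (nat_lit 153)) (PT.nd (nat_lit 78) (PT.lf (nat_lit 3724) (nat_lit 6) (nat_lit 49) (nat_lit 1) (nat_lit 155) (nat_lit 143) (nat_lit 152)) (PT.lf (nat_lit 3648) (nat_lit 6) (nat_lit 48) (nat_lit 1) (nat_lit 156) (nat_lit 143) (nat_lit 151)))) (PT.nd (nat_lit 46332) (PT.lf (nat_lit 3572) (nat_lit 6) (nat_lit 47) (nat_lit 1) (nat_lit 157) (nat_lit 143) (nat_lit 150)) (PT.nd (nat_lit 78) (PT.lf (nat_lit 4104) (nat_lit 6) (nat_lit 54) (nat_lit 3) (nat_lit 150) (nat_lit 144) (nat_lit 156)) (PT.lf (nat_lit 4180) (nat_lit 6) (nat_lit 55) (nat_lit 3) (nat_lit 151) (nat_lit 144) (nat_lit 155))))) (PT.nd (nat_lit 234) (PT.nd (nat_lit 78) (PT.lf (nat_lit 4256) (nat_lit 6) (nat_lit 56) (nat_lit 3) (nat_lit 152) (nat_lit 144) (nat_lit 154))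 (PT.nd (nat_lit 78) (PT.lf (nat_lit 4332) (nat_lit 3) (nat_lit 57) (nat_lit 1) (nat_lit 153) (nat_lit 144) (nat_lit 153)) (PT.lf (nat_lit 4256) (nat_lit 6) (nat_lit 56) (nat_lit 1) (nat_lit 154) (nat_lit 144) (nat_lit 152)))) (PT.nd (nat_lit 46410) (PT.nd (nat_lit 78) (PT.lf (nat_lit 4180) (nat_lit 6) (nat_lit 55) (nat_lit 1) (nat_lit 155) (nat_lit 144) (nat_lit 151)) (PT.lf (nat_lit 4104) (nat_lit 6) (nat_lit 54) (nat_lit 1) (nat_lit 156) (nat_lit 144) (nat_lit 150))) (PT.nd (nat_lit 78) (PT.lf (nat_lit 4028) (nat_lit 6) (nat_lit 53) (nat_lit 3) (nat_lit 149) (nat_lit 145) (nat_lit 156)) (PT.lf (nat_lit 4560) (nat_lit 6) (nat_lit 60) (nat_lit 3) (nat_lit 150) (nat_lit 145) (nat_lit 155))))))))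
noncomputable def pc2 : PT := (PT.nd (nat_lit 94146) (PT.nd (nat_lit 47112) (PT.nd (nat_lit 46644) (PT.nd (nat_lit 234) (PT.nd (nat_lit 78) (PT.lf (nat_lit 4636) (nat_lit 6) (nat_lit 61) (nat_lit 3) (nat_lit 151) (nat_lit 145) (nat_lit 154)) (PT.nd (nat_lit 78) (PT.lf (nat_lit 4712) (nat_lit 6) (nat_lit 62) (nat_lit 3) (nat_lit 152) (nat_lit 145) (nat_lit 153)) (PT.lf (nat_lit 4712) (nat_lit 6) (nat_lit 62) (nat_lit 1) (nat_lit 153) (nat_lit 145) (nat_lit 152)))) (PT.nd (nat_lit 78) (PT.lf (nat_lit 4636) (nat_lit 6) (nat_lit 61) (nat_lit 1) (nat_lit 154) (nat_lit 145) (nat_lit 151)) (PT.nd (nat_lit 78) (PT.lf (nat_lit 4560) (nat_lit 6) (nat_lit 60) (nat_lit 1) (nat_lit 155) (nat_lit 145) (nat_lit 150)) (PT.lf (nat_lit 4028) (nat_lit 6) (nat_lit 53) (nat_lit 1) (nat_lit 156) (nat_lit 145) (nat_lit 149))))) (PT.nd (nat_lit 234) (PT.nd (nat_lit 78) (PT.lf (nat_lit 3952) (nat_lit 6) (nat_lit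 52) (nat_lit 3) (nat_lit 148) (nat_lit 146) (nat_lit 156)) (PT.nd (nat_lit 78) (PT.lf (nat_lit 4484) (nat_lit 6) (nat_lit 59) (nat_lit 3) (nat_lit 149) (nat_lit 146) (nat_lit 155)) (PT.lf (nat_lit 4940) (nat_lit 6) (nat_lit 65) (nat_lit 3) (nat_lit 150) (nat_lit 146) (nat_lit 154)))) (PT.nd (nat_lit 78) (PT.lf (nat_lit 5016) (nat_lit 6) (nat_lit 66) (nat_lit 3) (nat_lit 151) (nat_lit 146) (nat_lit 153)) (PT.nd (nat_lit 78) (PT.lf (nat_lit 5092) (nat_lit 3) (nat_lit 67) (nat_lit 1) (nat_lit 152) (nat_lit 146) (nat_lit 152)) (PT.lf (nat_lit 5016) (nat_lit 6) (nat_lit 66) (nat_lit 1) (nat_lit 153) (nat_lit 146) (nat_lit 151)))))) (PT.nd (nat_lit 46566) (PT.nd (nat_lit 46332) (PT.nd (nat_lit 78) (PT.lf (nat_lit 4940) (nat_lit 6) (nat_lit 65) (nat_lit 1) (nat_lit 154) (nat_lit 146) (nat_lit 150)) (PT.nd (nat_lit 78) (PT.lf (nat_lit 4484) (nat_lit 6) (nat_lit 59) (nat_lit 1) (nat_lit 155) (nat_lit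 146) (nat_lit 149)) (PT.lf (nat_lit 3952) (nat_lit 6) (nat_lit 52) (nat_lit 1) (nat_lit 156) (nat_lit 146) (nat_lit 148)))) (PT.nd (nat_lit 78) (PT.lf (nat_lit 3876) (nat_lit 3) (nat_lit 51) (nat_lit 3) (nat_lit 147) (nat_lit 147) (nat_lit 156)) (PT.nd (nat_lit 78) (PT.lf (nat_lit 4408) (nat_lit 6) (nat_lit 58) (nat_lit 3) (nat_lit 148) (nat_lit 147) (nat_lit 155)) (PT.lf (nat_lit 4864) (nat_lit 6) (nat_lit 64) (nat_lit 3) (nat_lit 149) (nat_lit 147) (nat_lit 154))))) (PT.nd (nat_lit 234) (PT.nd (nat_lit 78) (PT.lf (nat_lit 5244) (nat_lit 6) (nat_lit 69) (nat_lit 3) (nat_lit 150) (nat_lit 147) (nat_lit 153)) (PT.nd (nat_lit 78) (PT.lf (nat_lit 5320) (nat_lit 6) (nat_lit 70) (nat_lit 3) (nat_lit 151) (nat_lit 147) (nat_lit 152)) (PT.lf (nat_lit 5320) (nat_lit 6) (nat_lit 70) (nat_lit 1) (nat_lit 152) (nat_lit 147) (nat_lit 151)))) (PT.nd (nat_lit 78) (PT.lf (nat_lit 5244) (nat_lit 6) (nat_lit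 69) (nat_lit 1) (nat_lit 153) (nat_lit 147) (nat_lit 150)) (PT.nd (nat_lit 78) (PT.lf (nat_lit 4864) (nat_lit 6) (nat_lit 64) (nat_lit 1) (nat_lit 154) (nat_lit 147) (nat_lit 149)) (PT.lf (nat_lit 4408) (nat_lit 6) (nat_lit 58) (nat_lit 1) (nat_lit 155) (nat_lit 147) (nat_lit 148))))))) (PT.nd (nat_lit 92898) (PT.nd (nat_lit 46488) (PT.nd (nat_lit 46254) (PT.nd (nat_lit 46098) (PT.lf (nat_lit 3876) (nat_lit 3) (nat_lit 51) (nat_lit 0) (nat_lit 156) (nat_lit 147) (nat_lit 147)) (PT.nd (nat_lit 78) (PT.lf (nat_lit 3952) (nat_lit 6) (nat_lit 52) (nat_lit 5) (nat_lit 146) (nat_lit 148) (nat_lit 156)) (PT.lf (nat_lit 4408) (nat_lit 6) (nat_lit 58) (nat_lit 5) (nat_lit 147) (nat_lit 148) (nat_lit 155)))) (PT.nd (nat_lit 78) (PT.lf (nat_lit 4788) (nat_lit 3) (nat_lit 63) (nat_lit 3) (nat_lit 148) (nat_lit 148) (nat_lit 154)) (PT.nd (nat_lit 78) (PT.lf (nat_lit 5168) (nat_lit 6) (nat_lit 68)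 (nat_lit 3) (nat_lit 149) (nat_lit 148) (nat_lit 153)) (PT.lf (nat_lit 5472) (nat_lit 6) (nat_lit 72) (nat_lit 3) (nat_lit 150) (nat_lit 148) (nat_lit 152))))) (PT.nd (nat_lit 234) (PT.nd (nat_lit 78) (PT.lf (nat_lit 5548) (nat_lit 3) (nat_lit 73) (nat_lit 1) (nat_lit 151) (nat_lit 148) (nat_lit 151)) (PT.nd (nat_lit 78) (PT.lf (nat_lit 5472) (nat_lit 6) (nat_lit 72) (nat_lit 1) (nat_lit 152) (nat_lit 148) (nat_lit 150)) (PT.lf (nat_lit 5168) (nat_lit 6) (nat_lit 68) (nat_lit 1) (nat_lit 153) (nat_lit 148) (nat_lit 149)))) (PT.nd (nat_lit 78) (PT.lf (nat_lit 4788) (nat_lit 3) (nat_lit 63) (nat_lit 0) (nat_lit 154) (nat_lit 148) (nat_lit 148)) (PT.nd (nat_lit 78) (PT.lf (nat_lit 4408) (nat_lit 6) (nat_lit 58) (nat_lit 0) (nat_lit 155) (nat_lit 148) (nat_lit 147)) (PT.lf (nat_lit 3952) (nat_lit 6) (nat_lit 52) (nat_lit 0) (nat_lit 156) (nat_lit 148) (nat_lit 146)))))) (PT.nd (nat_lit 468)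 (PT.nd (nat_lit 234) (PT.nd (nat_lit 78) (PT.lf (nat_lit 4028) (nat_lit 6) (nat_lit 53) (nat_lit 5) (nat_lit 145) (nat_lit 149) (nat_lit 156)) (PT.nd (nat_lit 78) (PT.lf (nat_lit 4484) (nat_lit 6) (nat_lit 59) (nat_lit 5) (nat_lit 146) (nat_lit 149) (nat_lit 155)) (PT.lf (nat_lit 4864) (nat_lit 6) (nat_lit 64) (nat_lit 5) (nat_lit 147) (nat_lit 149) (nat_lit 154)))) (PT.nd (nat_lit 78) (PT.lf (nat_lit 5168) (nat_lit 6) (nat_lit 68) (nat_lit 5) (nat_lit 148) (nat_lit 149) (nat_lit 153)) (PT.nd (nat_lit 78) (PT.lf (nat_lit 5396) (nat_lit 3) (nat_lit 71) (nat_lit 3) (nat_lit 149) (nat_lit 149) (nat_lit 152)) (PT.lf (nat_lit 5624) (nat_lit 6) (nat_lit 74) (nat_lit 3) (nat_lit 150) (nat_lit 149) (nat_lit 151))))) (PT.nd (nat_lit 234) (PT.nd (nat_lit 78) (PT.lf (nat_lit 5624) (nat_lit 6) (nat_lit 74) (nat_lit 1) (nat_lit 151) (nat_lit 149) (nat_lit 150)) (PT.nd (nat_lit 78) (PT.lf (nat_lit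 5396) (nat_lit 3) (nat_lit 71) (nat_lit 0) (nat_lit 152) (nat_lit 149) (nat_lit 149)) (PT.lf (nat_lit 5168) (nat_lit 6) (nat_lit 68) (nat_lit 0) (nat_lit 153) (nat_lit 149) (nat_lit 148)))) (PT.nd (nat_lit 156) (PT.nd (nat_lit 78) (PT.lf (nat_lit 4864) (nat_lit 6) (nat_lit 64) (nat_lit 0) (nat_lit 154) (nat_lit 149) (nat_lit 147)) (PT.lf (nat_lit 4484) (nat_lit 6) (nat_lit 59) (nat_lit 0) (nat_lit 155) (nat_lit 149) (nat_lit 146))) (PT.nd (nat_lit 45864) (PT.lf (nat_lit 4028) (nat_lit 6) (nat_lit 53) (nat_lit 0) (nat_lit 156) (nat_lit 149) (nat_lit 145)) (PT.lf (nat_lit 3572) (nat_lit 6) (nat_lit 47) (nat_lit 5) (nat_lit 143) (nat_lit 150) (nat_lit 157))))))))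
noncomputable def pc3 : PT := (PT.nd (nat_lit 47502) (PT.nd (nat_lit 936) (PT.nd (nat_lit 468) (PT.nd (nat_lit 234) (PT.nd (nat_lit 78) (PT.lf (nat_lit 4104) (nat_lit 6) (nat_lit 54) (nat_lit 5) (nat_lit 144) (nat_lit 150) (nat_lit 156)) (PT.nd (nat_lit 78) (PT.lf (nat_lit 4560) (nat_lit 6) (nat_lit 60) (nat_lit 5) (nat_lit 145) (nat_lit 150) (nat_lit 155)) (PT.lf (nat_lit 4940) (nat_lit 6) (nat_lit 65) (nat_lit 5) (nat_lit 146) (nat_lit 150) (nat_lit 154)))) (PT.nd (nat_lit 78) (PT.lf (nat_lit 5244) (nat_lit 6) (nat_lit 69) (nat_lit 5) (nat_lit 147) (nat_lit 150) (nat_lit 153)) (PT.nd (nat_lit 78) (PT.lf (nat_lit 5472) (nat_lit 6) (nat_lit 72) (nat_lit 5) (nat_lit 148) (nat_lit 150) (nat_lit 152)) (PT.lf (nat_lit 5624) (nat_lit 6) (nat_lit 74) (nat_lit 5) (nat_lit 149) (nat_lit 150) (nat_lit 151))))) (PT.nd (nat_lit 234) (PT.nd (nat_lit 78) (PT.lf (nat_lit 5700) (nat_lit 1) (nat_lit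 75) (nat_lit 0) (nat_lit 150) (nat_lit 150) (nat_lit 150)) (PT.nd (nat_lit 78) (PT.lf (nat_lit 5624) (nat_lit 6) (nat_lit 74) (nat_lit 0) (nat_lit 151) (nat_lit 150) (nat_lit 149)) (PT.lf (nat_lit 5472) (nat_lit 6) (nat_lit 72) (nat_lit 0) (nat_lit 152) (nat_lit 150) (nat_lit 148)))) (PT.nd (nat_lit 78) (PT.lf (nat_lit 5244) (nat_lit 6) (nat_lit 69) (nat_lit 0) (nat_lit 153) (nat_lit 150) (nat_lit 147)) (PT.nd (nat_lit 78) (PT.lf (nat_lit 4940) (nat_lit 6) (nat_lit 65) (nat_lit 0) (nat_lit 154) (nat_lit 150) (nat_lit 146)) (PT.lf (nat_lit 4560) (nat_lit 6) (nat_lit 60) (nat_lit 0) (nat_lit 155) (nat_lit 150) (nat_lit 145)))))) (PT.nd (nat_lit 46098) (PT.nd (nat_lit 45864) (PT.nd (nat_lit 78) (PT.lf (nat_lit 4104) (nat_lit 6) (nat_lit 54) (nat_lit 0) (nat_lit 156) (nat_lit 150) (nat_lit 144)) (PT.nd (nat_lit 45708) (PT.lf (nat_lit 3572) (nat_lit 6) (nat_lit 47) (nat_lit 0) (nat_lit 157)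 (nat_lit 150) (nat_lit 143)) (PT.lf (nat_lit 3268) (nat_lit 6) (nat_lit 43) (nat_lit 5) (nat_lit 142) (nat_lit 151) (nat_lit 157)))) (PT.nd (nat_lit 78) (PT.lf (nat_lit 3648) (nat_lit 6) (nat_lit 48) (nat_lit 5) (nat_lit 143) (nat_lit 151) (nat_lit 156)) (PT.nd (nat_lit 78) (PT.lf (nat_lit 4180) (nat_lit 6) (nat_lit 55) (nat_lit 5) (nat_lit 144) (nat_lit 151) (nat_lit 155)) (PT.lf (nat_lit 4636) (nat_lit 6) (nat_lit 61) (nat_lit 5) (nat_lit 145) (nat_lit 151) (nat_lit 154))))) (PT.nd (nat_lit 234) (PT.nd (nat_lit 78) (PT.lf (nat_lit 5016) (nat_lit 6) (nat_lit 66) (nat_lit 5) (nat_lit 146) (nat_lit 151) (nat_lit 153)) (PT.nd (nat_lit 78) (PT.lf (nat_lit 5320) (nat_lit 6) (nat_lit 70) (nat_lit 5) (nat_lit 147) (nat_lit 151) (nat_lit 152)) (PT.lf (nat_lit 5548) (nat_lit 3) (nat_lit 73) (nat_lit 4) (nat_lit 148) (nat_lit 151) (nat_lit 151)))) (PT.nd (nat_lit 78) (PT.lf (nat_lit 5624) (nat_lit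 6) (nat_lit 74) (nat_lit 4) (nat_lit 149) (nat_lit 151) (nat_lit 150)) (PT.nd (nat_lit 78) (PT.lf (nat_lit 5624) (nat_lit 6) (nat_lit 74) (nat_lit 2) (nat_lit 150) (nat_lit 151) (nat_lit 149)) (PT.lf (nat_lit 5548) (nat_lit 3) (nat_lit 73) (nat_lit 0) (nat_lit 151) (nat_lit 151) (nat_lit 148))))))) (PT.nd (nat_lit 46488) (PT.nd (nat_lit 46020) (PT.nd (nat_lit 234) (PT.nd (nat_lit 78) (PT.lf (nat_lit 5320) (nat_lit 6) (nat_lit 70) (nat_lit 0) (nat_lit 152) (nat_lit 151) (nat_lit 147)) (PT.nd (nat_lit 78) (PT.lf (nat_lit 5016) (nat_lit 6) (nat_lit 66) (nat_lit 0) (nat_lit 153) (nat_lit 151) (nat_lit 146)) (PT.lf (nat_lit 4636) (nat_lit 6) (nat_lit 61) (nat_lit 0) (nat_lit 154) (nat_lit 151) (nat_lit 145)))) (PT.nd (nat_lit 78) (PT.lf (nat_lit 4180) (nat_lit 6) (nat_lit 55) (nat_lit 0) (nat_lit 155) (nat_lit 151) (nat_lit 144)) (PT.nd (nat_lit 78) (PT.lf (nat_lit 3648) (nat_lit 6) (nat_lit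 48) (nat_lit 0) (nat_lit 156) (nat_lit 151) (nat_lit 143)) (PT.lf (nat_lit 3268) (nat_lit 6) (nat_lit 43) (nat_lit 0) (nat_lit 157) (nat_lit 151) (nat_lit 142))))) (PT.nd (nat_lit 234) (PT.nd (nat_lit 78) (PT.lf (nat_lit 3040) (nat_lit 6) (nat_lit 40) (nat_lit 5) (nat_lit 141) (nat_lit 152) (nat_lit 157)) (PT.nd (nat_lit 78) (PT.lf (nat_lit 3344) (nat_lit 6) (nat_lit 44) (nat_lit 5) (nat_lit 142) (nat_lit 152) (nat_lit 156)) (PT.lf (nat_lit 3724) (nat_lit 6) (nat_lit 49) (nat_lit 5) (nat_lit 143) (nat_lit 152) (nat_lit 155)))) (PT.nd (nat_lit 78) (PT.lf (nat_lit 4256) (nat_lit 6) (nat_lit 56) (nat_lit 5) (nat_lit 144) (nat_lit 152) (nat_lit 154)) (PT.nd (nat_lit 78) (PT.lf (nat_lit 4712) (nat_lit 6) (nat_lit 62) (nat_lit 5) (nat_lit 145) (nat_lit 152) (nat_lit 153)) (PT.lf (nat_lit 5092) (nat_lit 3) (nat_lit 67) (nat_lit 4) (nat_lit 146) (nat_lit 152) (nat_lit 152)))))) (PT.nd (nat_lit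 468) (PT.nd (nat_lit 234) (PT.nd (nat_lit 78) (PT.lf (nat_lit 5320) (nat_lit 6) (nat_lit 70) (nat_lit 4) (nat_lit 147) (nat_lit 152) (nat_lit 151)) (PT.nd (nat_lit 78) (PT.lf (nat_lit 5472) (nat_lit 6) (nat_lit 72) (nat_lit 4) (nat_lit 148) (nat_lit 152) (nat_lit 150)) (PT.lf (nat_lit 5396) (nat_lit 3) (nat_lit 71) (nat_lit 2) (nat_lit 149) (nat_lit 152) (nat_lit 149)))) (PT.nd (nat_lit 78) (PT.lf (nat_lit 5472) (nat_lit 6) (nat_lit 72) (nat_lit 2) (nat_lit 150) (nat_lit 152) (nat_lit 148)) (PT.nd (nat_lit 78) (PT.lf (nat_lit 5320) (nat_lit 6) (nat_lit 70) (nat_lit 2) (nat_lit 151) (nat_lit 152) (nat_lit 147)) (PT.lf (nat_lit 5092) (nat_lit 3) (nat_lit 67) (nat_lit 0) (nat_lit 152) (nat_lit 152) (nat_lit 146))))) (PT.nd (nat_lit 234) (PT.nd (nat_lit 78) (PT.lf (nat_lit 4712) (nat_lit 6) (nat_lit 62) (nat_lit 0) (nat_lit 153) (nat_lit 152) (nat_lit 145)) (PT.nd (nat_lit 78) (PT.lf (nat_lit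 4256) (nat_lit 6) (nat_lit 56) (nat_lit 0) (nat_lit 154) (nat_lit 152) (nat_lit 144)) (PT.lf (nat_lit 3724) (nat_lit 6) (nat_lit 49) (nat_lit 0) (nat_lit 155) (nat_lit 152) (nat_lit 143)))) (PT.nd (nat_lit 45552) (PT.nd (nat_lit 78) (PT.lf (nat_lit 3344) (nat_lit 6) (nat_lit 44) (nat_lit 0) (nat_lit 156) (nat_lit 152) (nat_lit 142)) (PT.lf (nat_lit 3040) (nat_lit 6) (nat_lit 40) (nat_lit 0) (nat_lit 157) (nat_lit 152) (nat_lit 141))) (PT.nd (nat_lit 78) (PT.lf (nat_lit 2584) (nat_lit 6) (nat_lit 34) (nat_lit 5) (nat_lit 139) (nat_lit 153) (nat_lit 158)) (PT.lf (nat_lit 2812) (nat_lit 6) (nat_lit 37) (nat_lit 5) (nat_lit 140) (nat_lit 153) (nat_lit 157))))))))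
noncomputable def pc4 : PT := (PT.nd (nat_lit 47112) (PT.nd (nat_lit 936) (PT.nd (nat_lit 468) (PT.nd (nat_lit 234) (PT.nd (nat_lit 78) (PT.lf (nat_lit 3116) (nat_lit 6) (nat_lit 41) (nat_lit 5) (nat_lit 141) (nat_lit 153) (nat_lit 156)) (PT.nd (nat_lit 78) (PT.lf (nat_lit 3420) (nat_lit 6) (nat_lit 45) (nat_lit 5) (nat_lit 142) (nat_lit 153) (nat_lit 155)) (PT.lf (nat_lit 3800) (nat_lit 6) (nat_lit 50) (nat_lit 5) (nat_lit 143) (nat_lit 153) (nat_lit 154)))) (PT.nd (nat_lit 78) (PT.lf (nat_lit 4332) (nat_lit 3) (nat_lit 57) (nat_lit 4) (nat_lit 144) (nat_lit 153) (nat_lit 153)) (PT.nd (nat_lit 78) (PT.lf (nat_lit 4712) (nat_lit 6) (nat_lit 62) (nat_lit 4) (nat_lit 145) (nat_lit 153) (nat_lit 152)) (PT.lf (nat_lit 5016) (nat_lit 6) (nat_lit 66) (nat_lit 4) (nat_lit 146) (nat_lit 153) (nat_lit 151))))) (PT.nd (nat_lit 234) (PT.nd (nat_lit 78) (PT.lf (nat_lit 5244) (nat_lit 6) (nat_lit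 69) (nat_lit 4) (nat_lit 147) (nat_lit 153) (nat_lit 150)) (PT.nd (nat_lit 78) (PT.lf (nat_lit 5168) (nat_lit 6) (nat_lit 68) (nat_lit 4) (nat_lit 148) (nat_lit 153) (nat_lit 149)) (PT.lf (nat_lit 5168) (nat_lit 6) (nat_lit 68) (nat_lit 2) (nat_lit 149) (nat_lit 153) (nat_lit 148)))) (PT.nd (nat_lit 78) (PT.lf (nat_lit 5244) (nat_lit 6) (nat_lit 69) (nat_lit 2) (nat_lit 150) (nat_lit 153) (nat_lit 147)) (PT.nd (nat_lit 78) (PT.lf (nat_lit 5016) (nat_lit 6) (nat_lit 66) (nat_lit 2) (nat_lit 151) (nat_lit 153) (nat_lit 146)) (PT.lf (nat_lit 4712) (nat_lit 6) (nat_lit 62) (nat_lit 2) (nat_lit 152) (nat_lit 153) (nat_lit 145)))))) (PT.nd (nat_lit 45708) (PT.nd (nat_lit 234) (PT.nd (nat_lit 78) (PT.lf (nat_lit 4332) (nat_lit 3) (nat_lit 57) (nat_lit 0) (nat_lit 153) (nat_lit 153) (nat_lit 144)) (PT.nd (nat_lit 78) (PT.lf (nat_lit 3800) (nat_lit 6) (nat_lit 50) (nat_lit 0) (nat_lit 154) (nat_lit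 153) (nat_lit 143)) (PT.lf (nat_lit 3420) (nat_lit 6) (nat_lit 45) (nat_lit 0) (nat_lit 155) (nat_lit 153) (nat_lit 142)))) (PT.nd (nat_lit 78) (PT.lf (nat_lit 3116) (nat_lit 6) (nat_lit 41) (nat_lit 0) (nat_lit 156) (nat_lit 153) (nat_lit 141)) (PT.nd (nat_lit 78) (PT.lf (nat_lit 2812) (nat_lit 6) (nat_lit 37) (nat_lit 0) (nat_lit 157) (nat_lit 153) (nat_lit 140)) (PT.lf (nat_lit 2584) (nat_lit 6) (nat_lit 34) (nat_lit 0) (nat_lit 158) (nat_lit 153) (nat_lit 139))))) (PT.nd (nat_lit 234) (PT.nd (nat_lit 78) (PT.lf (nat_lit 2356) (nat_lit 6) (nat_lit 31) (nat_lit 5) (nat_lit 138) (nat_lit 154) (nat_lit 158)) (PT.nd (nat_lit 78) (PT.lf (nat_lit 2660) (nat_lit 6) (nat_lit 35) (nat_lit 5) (nat_lit 139) (nat_lit 154) (nat_lit 157)) (PT.lf (nat_lit 2888) (nat_lit 6) (nat_lit 38) (nat_lit 5) (nat_lit 140) (nat_lit 154) (nat_lit 156)))) (PT.nd (nat_lit 78) (PT.lf (nat_lit 3192) (nat_lit 6) (nat_lit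 42) (nat_lit 5) (nat_lit 141) (nat_lit 154) (nat_lit 155)) (PT.nd (nat_lit 78) (PT.lf (nat_lit 3496) (nat_lit 3) (nat_lit 46) (nat_lit 4) (nat_lit 142) (nat_lit 154) (nat_lit 154)) (PT.lf (nat_lit 3800) (nat_lit 6) (nat_lit 50) (nat_lit 4) (nat_lit 143) (nat_lit 154) (nat_lit 153))))))) (PT.nd (nat_lit 936) (PT.nd (nat_lit 468) (PT.nd (nat_lit 234) (PT.nd (nat_lit 78) (PT.lf (nat_lit 4256) (nat_lit 6) (nat_lit 56) (nat_lit 4) (nat_lit 144) (nat_lit 154) (nat_lit 152)) (PT.nd (nat_lit 78) (PT.lf (nat_lit 4636) (nat_lit 6) (nat_lit 61) (nat_lit 4) (nat_lit 145) (nat_lit 154) (nat_lit 151)) (PT.lf (nat_lit 4940) (nat_lit 6) (nat_lit 65) (nat_lit 4) (nat_lit 146) (nat_lit 154) (nat_lit 150)))) (PT.nd (nat_lit 78) (PT.lf (nat_lit 4864) (nat_lit 6) (nat_lit 64) (nat_lit 4) (nat_lit 147) (nat_lit 154) (nat_lit 149)) (PT.nd (nat_lit 78) (PT.lf (nat_lit 4788) (nat_lit 3) (nat_lit 63) (nat_lit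 2) (nat_lit 148) (nat_lit 154) (nat_lit 148)) (PT.lf (nat_lit 4864) (nat_lit 6) (nat_lit 64) (nat_lit 2) (nat_lit 149) (nat_lit 154) (nat_lit 147))))) (PT.nd (nat_lit 234) (PT.nd (nat_lit 78) (PT.lf (nat_lit 4940) (nat_lit 6) (nat_lit 65) (nat_lit 2) (nat_lit 150) (nat_lit 154) (nat_lit 146)) (PT.nd (nat_lit 78) (PT.lf (nat_lit 4636) (nat_lit 6) (nat_lit 61) (nat_lit 2) (nat_lit 151) (nat_lit 154) (nat_lit 145)) (PT.lf (nat_lit 4256) (nat_lit 6) (nat_lit 56) (nat_lit 2) (nat_lit 152) (nat_lit 154) (nat_lit 144)))) (PT.nd (nat_lit 78) (PT.lf (nat_lit 3800) (nat_lit 6) (nat_lit 50) (nat_lit 2) (nat_lit 153) (nat_lit 154) (nat_lit 143)) (PT.nd (nat_lit 78) (PT.lf (nat_lit 3496) (nat_lit 3) (nat_lit 46) (nat_lit 0) (nat_lit 154) (nat_lit 154) (nat_lit 142)) (PT.lf (nat_lit 3192) (nat_lit 6) (nat_lit 42) (nat_lit 0) (nat_lit 155) (nat_lit 154) (nat_lit 141)))))) (PT.nd (nat_lit 45552) (PT.nd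 (nat_lit 45318) (PT.nd (nat_lit 78) (PT.lf (nat_lit 2888) (nat_lit 6) (nat_lit 38) (nat_lit 0) (nat_lit 156) (nat_lit 154) (nat_lit 140)) (PT.nd (nat_lit 78) (PT.lf (nat_lit 2660) (nat_lit 6) (nat_lit 35) (nat_lit 0) (nat_lit 157) (nat_lit 154) (nat_lit 139)) (PT.lf (nat_lit 2356) (nat_lit 6) (nat_lit 31) (nat_lit 0) (nat_lit 158) (nat_lit 154) (nat_lit 138)))) (PT.nd (nat_lit 78) (PT.lf (nat_lit 1976) (nat_lit 6) (nat_lit 26) (nat_lit 5) (nat_lit 136) (nat_lit 155) (nat_lit 159)) (PT.nd (nat_lit 78) (PT.lf (nat_lit 2204) (nat_lit 6) (nat_lit 29) (nat_lit 5) (nat_lit 137) (nat_lit 155) (nat_lit 158)) (PT.lf (nat_lit 2432) (nat_lit 6) (nat_lit 32) (nat_lit 5) (nat_lit 138) (nat_lit 155) (nat_lit 157))))) (PT.nd (nat_lit 234) (PT.nd (nat_lit 78) (PT.lf (nat_lit 2736) (nat_lit 6) (nat_lit 36) (nat_lit 5) (nat_lit 139) (nat_lit 155) (nat_lit 156)) (PT.nd (nat_lit 78) (PT.lf (nat_lit 2964)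 (nat_lit 3) (nat_lit 39) (nat_lit 4) (nat_lit 140) (nat_lit 155) (nat_lit 155)) (PT.lf (nat_lit 3192) (nat_lit 6) (nat_lit 42) (nat_lit 4) (nat_lit 141) (nat_lit 155) (nat_lit 154)))) (PT.nd (nat_lit 156) (PT.nd (nat_lit 78) (PT.lf (nat_lit 3420) (nat_lit 6) (nat_lit 45) (nat_lit 4) (nat_lit 142) (nat_lit 155) (nat_lit 153)) (PT.lf (nat_lit 3724) (nat_lit 6) (nat_lit 49) (nat_lit 4) (nat_lit 143) (nat_lit 155) (nat_lit 152))) (PT.nd (nat_lit 78) (PT.lf (nat_lit 4180) (nat_lit 6) (nat_lit 55) (nat_lit 4) (nat_lit 144) (nat_lit 155) (nat_lit 151)) (PT.lf (nat_lit 4560) (nat_lit 6) (nat_lit 60) (nat_lit 4) (nat_lit 145) (nat_lit 155) (nat_lit 150))))))))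
noncomputable def pc5 : PT := (PT.nd (nat_lit 46800) (PT.nd (nat_lit 936) (PT.nd (nat_lit 468) (PT.nd (nat_lit 234) (PT.nd (nat_lit 78) (PT.lf (nat_lit 4484) (nat_lit 6) (nat_lit 59) (nat_lit 4) (nat_lit 146) (nat_lit 155) (nat_lit 149)) (PT.nd (nat_lit 78) (PT.lf (nat_lit 4408) (nat_lit 6) (nat_lit 58) (nat_lit 4) (nat_lit 147) (nat_lit 155) (nat_lit 148)) (PT.lf (nat_lit 4408) (nat_lit 6) (nat_lit 58) (nat_lit 2) (nat_lit 148) (nat_lit 155) (nat_lit 147)))) (PT.nd (nat_lit 78) (PT.lf (nat_lit 4484) (nat_lit 6) (nat_lit 59) (nat_lit 2) (nat_lit 149) (nat_lit 155) (nat_lit 146)) (PT.nd (nat_lit 78) (PT.lf (nat_lit 4560) (nat_lit 6) (nat_lit 60) (nat_lit 2) (nat_lit 150) (nat_lit 155) (nat_lit 145)) (PT.lf (nat_lit 4180) (nat_lit 6) (nat_lit 55) (nat_lit 2) (nat_lit 151) (nat_lit 155) (nat_lit 144))))) (PT.nd (nat_lit 234) (PT.nd (nat_lit 78) (PT.lf (nat_lit 3724) (nat_lit 6) (nat_lit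 49) (nat_lit 2) (nat_lit 152) (nat_lit 155) (nat_lit 143)) (PT.nd (nat_lit 78) (PT.lf (nat_lit 3420) (nat_lit 6) (nat_lit 45) (nat_lit 2) (nat_lit 153) (nat_lit 155) (nat_lit 142)) (PT.lf (nat_lit 3192) (nat_lit 6) (nat_lit 42) (nat_lit 2) (nat_lit 154) (nat_lit 155) (nat_lit 141)))) (PT.nd (nat_lit 78) (PT.lf (nat_lit 2964) (nat_lit 3) (nat_lit 39) (nat_lit 0) (nat_lit 155) (nat_lit 155) (nat_lit 140)) (PT.nd (nat_lit 78) (PT.lf (nat_lit 2736) (nat_lit 6) (nat_lit 36) (nat_lit 0) (nat_lit 156) (nat_lit 155) (nat_lit 139)) (PT.lf (nat_lit 2432) (nat_lit 6) (nat_lit 32) (nat_lit 0) (nat_lit 157) (nat_lit 155) (nat_lit 138)))))) (PT.nd (nat_lit 45396) (PT.nd (nat_lit 45162) (PT.nd (nat_lit 78) (PT.lf (nat_lit 2204) (nat_lit 6) (nat_lit 29) (nat_lit 0) (nat_lit 158) (nat_lit 155) (nat_lit 137)) (PT.nd (nat_lit 45006) (PT.lf (nat_lit 1976) (nat_lit 6) (nat_lit 26) (nat_lit 0) (nat_lit 159)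 (nat_lit 155) (nat_lit 136)) (PT.lf (nat_lit 1824) (nat_lit 6) (nat_lit 24) (nat_lit 5) (nat_lit 135) (nat_lit 156) (nat_lit 159)))) (PT.nd (nat_lit 78) (PT.lf (nat_lit 2052) (nat_lit 6) (nat_lit 27) (nat_lit 5) (nat_lit 136) (nat_lit 156) (nat_lit 158)) (PT.nd (nat_lit 78) (PT.lf (nat_lit 2280) (nat_lit 6) (nat_lit 30) (nat_lit 5) (nat_lit 137) (nat_lit 156) (nat_lit 157)) (PT.lf (nat_lit 2508) (nat_lit 3) (nat_lit 33) (nat_lit 4) (nat_lit 138) (nat_lit 156) (nat_lit 156))))) (PT.nd (nat_lit 234) (PT.nd (nat_lit 78) (PT.lf (nat_lit 2736) (nat_lit 6) (nat_lit 36) (nat_lit 4) (nat_lit 139) (nat_lit 156) (nat_lit 155)) (PT.nd (nat_lit 78) (PT.lf (nat_lit 2888) (nat_lit 6) (nat_lit 38) (nat_lit 4) (nat_lit 140) (nat_lit 156) (nat_lit 154)) (PT.lf (nat_lit 3116) (nat_lit 6) (nat_lit 41) (nat_lit 4) (nat_lit 141) (nat_lit 156) (nat_lit 153)))) (PT.nd (nat_lit 78) (PT.lf (nat_lit 3344) (nat_lit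 6) (nat_lit 44) (nat_lit 4) (nat_lit 142) (nat_lit 156) (nat_lit 152)) (PT.nd (nat_lit 78) (PT.lf (nat_lit 3648) (nat_lit 6) (nat_lit 48) (nat_lit 4) (nat_lit 143) (nat_lit 156) (nat_lit 151)) (PT.lf (nat_lit 4104) (nat_lit 6) (nat_lit 54) (nat_lit 4) (nat_lit 144) (nat_lit 156) (nat_lit 150))))))) (PT.nd (nat_lit 936) (PT.nd (nat_lit 468) (PT.nd (nat_lit 234) (PT.nd (nat_lit 78) (PT.lf (nat_lit 4028) (nat_lit 6) (nat_lit 53) (nat_lit 4) (nat_lit 145) (nat_lit 156) (nat_lit 149)) (PT.nd (nat_lit 78) (PT.lf (nat_lit 3952) (nat_lit 6) (nat_lit 52) (nat_lit 4) (nat_lit 146) (nat_lit 156) (nat_lit 148)) (PT.lf (nat_lit 3876) (nat_lit 3) (nat_lit 51) (nat_lit 2) (nat_lit 147) (nat_lit 156) (nat_lit 147)))) (PT.nd (nat_lit 78) (PT.lf (nat_lit 3952) (nat_lit 6) (nat_lit 52) (nat_lit 2) (nat_lit 148) (nat_lit 156) (nat_lit 146)) (PT.nd (nat_lit 78) (PT.lf (nat_lit 4028) (nat_lit 6) (nat_lit 53)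 (nat_lit 2) (nat_lit 149) (nat_lit 156) (nat_lit 145)) (PT.lf (nat_lit 4104) (nat_lit 6) (nat_lit 54) (nat_lit 2) (nat_lit 150) (nat_lit 156) (nat_lit 144))))) (PT.nd (nat_lit 234) (PT.nd (nat_lit 78) (PT.lf (nat_lit 3648) (nat_lit 6) (nat_lit 48) (nat_lit 2) (nat_lit 151) (nat_lit 156) (nat_lit 143)) (PT.nd (nat_lit 78) (PT.lf (nat_lit 3344) (nat_lit 6) (nat_lit 44) (nat_lit 2) (nat_lit 152) (nat_lit 156) (nat_lit 142)) (PT.lf (nat_lit 3116) (nat_lit 6) (nat_lit 41) (nat_lit 2) (nat_lit 153) (nat_lit 156) (nat_lit 141)))) (PT.nd (nat_lit 78) (PT.lf (nat_lit 2888) (nat_lit 6) (nat_lit 38) (nat_lit 2) (nat_lit 154) (nat_lit 156) (nat_lit 140)) (PT.nd (nat_lit 78) (PT.lf (nat_lit 2736) (nat_lit 6) (nat_lit 36) (nat_lit 2) (nat_lit 155) (nat_lit 156) (nat_lit 139)) (PT.lf (nat_lit 2508) (nat_lit 3) (nat_lit 33) (nat_lit 0) (nat_lit 156) (nat_lit 156) (nat_lit 138)))))) (PT.nd (nat_lit 45240)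 (PT.nd (nat_lit 45006) (PT.nd (nat_lit 78) (PT.lf (nat_lit 2280) (nat_lit 6) (nat_lit 30) (nat_lit 0) (nat_lit 157) (nat_lit 156) (nat_lit 137)) (PT.nd (nat_lit 78) (PT.lf (nat_lit 2052) (nat_lit 6) (nat_lit 27) (nat_lit 0) (nat_lit 158) (nat_lit 156) (nat_lit 136)) (PT.lf (nat_lit 1824) (nat_lit 6) (nat_lit 24) (nat_lit 0) (nat_lit 159) (nat_lit 156) (nat_lit 135)))) (PT.nd (nat_lit 78) (PT.lf (nat_lit 1520) (nat_lit 6) (nat_lit 20) (nat_lit 5) (nat_lit 133) (nat_lit 157) (nat_lit 160)) (PT.nd (nat_lit 78) (PT.lf (nat_lit 1672) (nat_lit 6) (nat_lit 22) (nat_lit 5) (nat_lit 134) (nat_lit 157) (nat_lit 159)) (PT.lf (nat_lit 1900) (nat_lit 6) (nat_lit 25) (nat_lit 5) (nat_lit 135) (nat_lit 157) (nat_lit 158))))) (PT.nd (nat_lit 234) (PT.nd (nat_lit 78) (PT.lf (nat_lit 2128) (nat_lit 3) (nat_lit 28) (nat_lit 4) (nat_lit 136) (nat_lit 157) (nat_lit 157)) (PT.nd (nat_lit 78) (PT.lf (nat_lit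 2280) (nat_lit 6) (nat_lit 30) (nat_lit 4) (nat_lit 137) (nat_lit 157) (nat_lit 156)) (PT.lf (nat_lit 2432) (nat_lit 6) (nat_lit 32) (nat_lit 4) (nat_lit 138) (nat_lit 157) (nat_lit 155)))) (PT.nd (nat_lit 156) (PT.nd (nat_lit 78) (PT.lf (nat_lit 2660) (nat_lit 6) (nat_lit 35) (nat_lit 4) (nat_lit 139) (nat_lit 157) (nat_lit 154)) (PT.lf (nat_lit 2812) (nat_lit 6) (nat_lit 37) (nat_lit 4) (nat_lit 140) (nat_lit 157) (nat_lit 153))) (PT.nd (nat_lit 78) (PT.lf (nat_lit 3040) (nat_lit 6) (nat_lit 40) (nat_lit 4) (nat_lit 141) (nat_lit 157) (nat_lit 152)) (PT.lf (nat_lit 3268) (nat_lit 6) (nat_lit 43) (nat_lit 4) (nat_lit 142) (nat_lit 157) (nat_lit 151))))))))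
noncomputable def pc6 : PT := (PT.nd (nat_lit 47970) (PT.nd (nat_lit 46020) (PT.nd (nat_lit 936) (PT.nd (nat_lit 702) (PT.nd (nat_lit 546) (PT.lf (nat_lit 3572) (nat_lit 6) (nat_lit 47) (nat_lit 4) (nat_lit 143) (nat_lit 157) (nat_lit 150)) (PT.nd (nat_lit 78) (PT.lf (nat_lit 3572) (nat_lit 6) (nat_lit 47) (nat_lit 2) (nat_lit 150) (nat_lit 157) (nat_lit 143)) (PT.lf (nat_lit 3268) (nat_lit 6) (nat_lit 43) (nat_lit 2) (nat_lit 151) (nat_lit 157) (nat_lit 142)))) (PT.nd (nat_lit 78) (PT.lf (nat_lit 3040) (nat_lit 6) (nat_lit 40) (nat_lit 2) (nat_lit 152) (nat_lit 157) (nat_lit 141)) (PT.nd (nat_lit 78) (PT.lf (nat_lit 2812) (nat_lit 6) (nat_lit 37) (nat_lit 2) (nat_lit 153) (nat_lit 157) (nat_lit 140)) (PT.lf (nat_lit 2660) (nat_lit 6) (nat_lit 35) (nat_lit 2) (nat_lit 154) (nat_lit 157) (nat_lit 139))))) (PT.nd (nat_lit 234) (PT.nd (nat_lit 78) (PT.lf (nat_lit 2432) (nat_lit 6) (nat_lit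 32) (nat_lit 2) (nat_lit 155) (nat_lit 157) (nat_lit 138)) (PT.nd (nat_lit 78) (PT.lf (nat_lit 2280) (nat_lit 6) (nat_lit 30) (nat_lit 2) (nat_lit 156) (nat_lit 157) (nat_lit 137)) (PT.lf (nat_lit 2128) (nat_lit 3) (nat_lit 28) (nat_lit 0) (nat_lit 157) (nat_lit 157) (nat_lit 136)))) (PT.nd (nat_lit 78) (PT.lf (nat_lit 1900) (nat_lit 6) (nat_lit 25) (nat_lit 0) (nat_lit 158) (nat_lit 157) (nat_lit 135)) (PT.nd (nat_lit 78) (PT.lf (nat_lit 1672) (nat_lit 6) (nat_lit 22) (nat_lit 0) (nat_lit 159) (nat_lit 157) (nat_lit 134)) (PT.lf (nat_lit 1520) (nat_lit 6) (nat_lit 20) (nat_lit 0) (nat_lit 160) (nat_lit 157) (nat_lit 133)))))) (PT.nd (nat_lit 468) (PT.nd (nat_lit 234) (PT.nd (nat_lit 78) (PT.lf (nat_lit 1368) (nat_lit 6) (nat_lit 18) (nat_lit 5) (nat_lit 132) (nat_lit 158) (nat_lit 160)) (PT.nd (nat_lit 78) (PT.lf (nat_lit 1596) (nat_lit 6) (nat_lit 21) (nat_lit 5) (nat_lit 133) (nat_lit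 158) (nat_lit 159)) (PT.lf (nat_lit 1748) (nat_lit 3) (nat_lit 23) (nat_lit 4) (nat_lit 134) (nat_lit 158) (nat_lit 158)))) (PT.nd (nat_lit 78) (PT.lf (nat_lit 1900) (nat_lit 6) (nat_lit 25) (nat_lit 4) (nat_lit 135) (nat_lit 158) (nat_lit 157)) (PT.nd (nat_lit 78) (PT.lf (nat_lit 2052) (nat_lit 6) (nat_lit 27) (nat_lit 4) (nat_lit 136) (nat_lit 158) (nat_lit 156)) (PT.lf (nat_lit 2204) (nat_lit 6) (nat_lit 29) (nat_lit 4) (nat_lit 137) (nat_lit 158) (nat_lit 155))))) (PT.nd (nat_lit 1248) (PT.nd (nat_lit 78) (PT.lf (nat_lit 2356) (nat_lit 6) (nat_lit 31) (nat_lit 4) (nat_lit 138) (nat_lit 158) (nat_lit 154)) (PT.nd (nat_lit 1092) (PT.lf (nat_lit 2584) (nat_lit 6) (nat_lit 34) (nat_lit 4) (nat_lit 139) (nat_lit 158) (nat_lit 153)) (PT.lf (nat_lit 2584) (nat_lit 6) (nat_lit 34) (nat_lit 2) (nat_lit 153) (nat_lit 158) (nat_lit 139)))) (PT.nd (nat_lit 78) (PT.lf (nat_lit 2356) (nat_lit 6)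 (nat_lit 31) (nat_lit 2) (nat_lit 154) (nat_lit 158) (nat_lit 138)) (PT.nd (nat_lit 78) (PT.lf (nat_lit 2204) (nat_lit 6) (nat_lit 29) (nat_lit 2) (nat_lit 155) (nat_lit 158) (nat_lit 137)) (PT.lf (nat_lit 2052) (nat_lit 6) (nat_lit 27) (nat_lit 2) (nat_lit 156) (nat_lit 158) (nat_lit 136))))))) (PT.nd (nat_lit 46800) (PT.nd (nat_lit 44928) (PT.nd (nat_lit 234) (PT.nd (nat_lit 78) (PT.lf (nat_lit 1900) (nat_lit 6) (nat_lit 25) (nat_lit 2) (nat_lit 157) (nat_lit 158) (nat_lit 135)) (PT.nd (nat_lit 78) (PT.lf (nat_lit 1748) (nat_lit 3) (nat_lit 23) (nat_lit 0) (nat_lit 158) (nat_lit 158) (nat_lit 134)) (PT.lf (nat_lit 1596) (nat_lit 6) (nat_lit 21) (nat_lit 0) (nat_lit 159) (nat_lit 158) (nat_lit 133)))) (PT.nd (nat_lit 44538) (PT.lf (nat_lit 1368) (nat_lit 6) (nat_lit 18) (nat_lit 0) (nat_lit 160) (nat_lit 158) (nat_lit 132)) (PT.nd (nat_lit 78) (PT.lf (nat_lit 1140) (nat_lit 6) (nat_lit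 15) (nat_lit 5) (nat_lit 130) (nat_lit 159) (nat_lit 161)) (PT.lf (nat_lit 1292) (nat_lit 6) (nat_lit 17) (nat_lit 5) (nat_lit 131) (nat_lit 159) (nat_lit 160))))) (PT.nd (nat_lit 234) (PT.nd (nat_lit 78) (PT.lf (nat_lit 1444) (nat_lit 3) (nat_lit 19) (nat_lit 4) (nat_lit 132) (nat_lit 159) (nat_lit 159)) (PT.nd (nat_lit 78) (PT.lf (nat_lit 1596) (nat_lit 6) (nat_lit 21) (nat_lit 4) (nat_lit 133) (nat_lit 159) (nat_lit 158)) (PT.lf (nat_lit 1672) (nat_lit 6) (nat_lit 22) (nat_lit 4) (nat_lit 134) (nat_lit 159) (nat_lit 157)))) (PT.nd (nat_lit 78) (PT.lf (nat_lit 1824) (nat_lit 6) (nat_lit 24) (nat_lit 4) (nat_lit 135) (nat_lit 159) (nat_lit 156)) (PT.nd (nat_lit 1482) (PT.lf (nat_lit 1976) (nat_lit 6) (nat_lit 26) (nat_lit 4) (nat_lit 136) (nat_lit 159) (nat_lit 155)) (PT.lf (nat_lit 1976) (nat_lit 6) (nat_lit 26) (nat_lit 2) (nat_lit 155) (nat_lit 159) (nat_lit 136)))))) (PT.nd (nat_lit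 44694) (PT.nd (nat_lit 234) (PT.nd (nat_lit 78) (PT.lf (nat_lit 1824) (nat_lit 6) (nat_lit 24) (nat_lit 2) (nat_lit 156) (nat_lit 159) (nat_lit 135)) (PT.nd (nat_lit 78) (PT.lf (nat_lit 1672) (nat_lit 6) (nat_lit 22) (nat_lit 2) (nat_lit 157) (nat_lit 159) (nat_lit 134)) (PT.lf (nat_lit 1596) (nat_lit 6) (nat_lit 21) (nat_lit 2) (nat_lit 158) (nat_lit 159) (nat_lit 133)))) (PT.nd (nat_lit 78) (PT.lf (nat_lit 1444) (nat_lit 3) (nat_lit 19) (nat_lit 0) (nat_lit 159) (nat_lit 159) (nat_lit 132)) (PT.nd (nat_lit 78) (PT.lf (nat_lit 1292) (nat_lit 6) (nat_lit 17) (nat_lit 0) (nat_lit 160) (nat_lit 159) (nat_lit 131)) (PT.lf (nat_lit 1140) (nat_lit 6) (nat_lit 15) (nat_lit 0) (nat_lit 161) (nat_lit 159) (nat_lit 130))))) (PT.nd (nat_lit 234) (PT.nd (nat_lit 78) (PT.lf (nat_lit 912) (nat_lit 6) (nat_lit 12) (nat_lit 5) (nat_lit 128) (nat_lit 160) (nat_lit 162)) (PT.nd (nat_lit 78) (PT.lf (nat_lit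 1064) (nat_lit 6) (nat_lit 14) (nat_lit 5) (nat_lit 129) (nat_lit 160) (nat_lit 161)) (PT.lf (nat_lit 1216) (nat_lit 3) (nat_lit 16) (nat_lit 4) (nat_lit 130) (nat_lit 160) (nat_lit 160)))) (PT.nd (nat_lit 156) (PT.nd (nat_lit 78) (PT.lf (nat_lit 1292) (nat_lit 6) (nat_lit 17) (nat_lit 4) (nat_lit 131) (nat_lit 160) (nat_lit 159)) (PT.lf (nat_lit 1368) (nat_lit 6) (nat_lit 18) (nat_lit 4) (nat_lit 132) (nat_lit 160) (nat_lit 158))) (PT.nd (nat_lit 1872) (PT.lf (nat_lit 1520) (nat_lit 6) (nat_lit 20) (nat_lit 4) (nat_lit 133) (nat_lit 160) (nat_lit 157)) (PT.lf (nat_lit 1520) (nat_lit 6) (nat_lit 20) (nat_lit 2) (nat_lit 157) (nat_lit 160) (nat_lit 133))))))))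
noncomputable def pc7 : PT := (PT.nd (nat_lit 94224) (PT.nd (nat_lit 47112) (PT.nd (nat_lit 44460) (PT.nd (nat_lit 234) (PT.nd (nat_lit 78) (PT.lf (nat_lit 1368) (nat_lit 6) (nat_lit 18) (nat_lit 2) (nat_lit 158) (nat_lit 160) (nat_lit 132)) (PT.nd (nat_lit 78) (PT.lf (nat_lit 1292) (nat_lit 6) (nat_lit 17) (nat_lit 2) (nat_lit 159) (nat_lit 160) (nat_lit 131)) (PT.lf (nat_lit 1216) (nat_lit 3) (nat_lit 16) (nat_lit 0) (nat_lit 160) (nat_lit 160) (nat_lit 130)))) (PT.nd (nat_lit 78) (PT.lf (nat_lit 1064) (nat_lit 6) (nat_lit 14) (nat_lit 0) (nat_lit 161) (nat_lit 160) (nat_lit 129)) (PT.nd (nat_lit 44070) (PT.lf (nat_lit 912) (nat_lit 6) (nat_lit 12) (nat_lit 0) (nat_lit 162) (nat_lit 160) (nat_lit 128)) (PT.lf (nat_lit 684) (nat_lit 6) (nat_lit 9) (nat_lit 5) (nat_lit 126) (nat_lit 161) (nat_lit 163))))) (PT.nd (nat_lit 234) (PT.nd (nat_lit 78) (PT.lf (nat_lit 836) (nat_lit 6) (nat_lit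 11) (nat_lit 5) (nat_lit 127) (nat_lit 161) (nat_lit 162)) (PT.nd (nat_lit 78) (PT.lf (nat_lit 988) (nat_lit 3) (nat_lit 13) (nat_lit 4) (nat_lit 128) (nat_lit 161) (nat_lit 161)) (PT.lf (nat_lit 1064) (nat_lit 6) (nat_lit 14) (nat_lit 4) (nat_lit 129) (nat_lit 161) (nat_lit 160)))) (PT.nd (nat_lit 2262) (PT.lf (nat_lit 1140) (nat_lit 6) (nat_lit 15) (nat_lit 4) (nat_lit 130) (nat_lit 161) (nat_lit 159)) (PT.nd (nat_lit 78) (PT.lf (nat_lit 1140) (nat_lit 6) (nat_lit 15) (nat_lit 2) (nat_lit 159) (nat_lit 161) (nat_lit 130)) (PT.lf (nat_lit 1064) (nat_lit 6) (nat_lit 14) (nat_lit 2) (nat_lit 160) (nat_lit 161) (nat_lit 129)))))) (PT.nd (nat_lit 44226) (PT.nd (nat_lit 43992) (PT.nd (nat_lit 78) (PT.lf (nat_lit 988) (nat_lit 3) (nat_lit 13) (nat_lit 0) (nat_lit 161) (nat_lit 161) (nat_lit 128)) (PT.nd (nat_lit 78) (PT.lf (nat_lit 836) (nat_lit 6) (nat_lit 11) (nat_lit 0) (nat_lit 162) (nat_lit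 161) (nat_lit 127)) (PT.lf (nat_lit 684) (nat_lit 6) (nat_lit 9) (nat_lit 0) (nat_lit 163) (nat_lit 161) (nat_lit 126)))) (PT.nd (nat_lit 78) (PT.lf (nat_lit 456) (nat_lit 6) (nat_lit 6) (nat_lit 5) (nat_lit 124) (nat_lit 162) (nat_lit 164)) (PT.nd (nat_lit 78) (PT.lf (nat_lit 608) (nat_lit 6) (nat_lit 8) (nat_lit 5) (nat_lit 125) (nat_lit 162) (nat_lit 163)) (PT.lf (nat_lit 760) (nat_lit 3) (nat_lit 10) (nat_lit 4) (nat_lit 126) (nat_lit 162) (nat_lit 162))))) (PT.nd (nat_lit 2652) (PT.nd (nat_lit 78) (PT.lf (nat_lit 836) (nat_lit 6) (nat_lit 11) (nat_lit 4) (nat_lit 127) (nat_lit 162) (nat_lit 161)) (PT.nd (nat_lit 2496) (PT.lf (nat_lit 912) (nat_lit 6) (nat_lit 12) (nat_lit 4) (nat_lit 128) (nat_lit 162) (nat_lit 160)) (PT.lf (nat_lit 912) (nat_lit 6) (nat_lit 12) (nat_lit 2) (nat_lit 160) (nat_lit 162) (nat_lit 128)))) (PT.nd (nat_lit 78) (PT.lf (nat_lit 836) (nat_lit 6) (nat_lit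 11) (nat_lit 2) (nat_lit 161) (nat_lit 162) (nat_lit 127)) (PT.nd (nat_lit 78) (PT.lf (nat_lit 760) (nat_lit 3) (nat_lit 10) (nat_lit 0) (nat_lit 162) (nat_lit 162) (nat_lit 126)) (PT.lf (nat_lit 608) (nat_lit 6) (nat_lit 8) (nat_lit 0) (nat_lit 163) (nat_lit 162) (nat_lit 125))))))) (PT.nd (nat_lit 90480) (PT.nd (nat_lit 46644) (PT.nd (nat_lit 43758) (PT.nd (nat_lit 43602) (PT.lf (nat_lit 456) (nat_lit 6) (nat_lit 6) (nat_lit 0) (nat_lit 164) (nat_lit 162) (nat_lit 124)) (PT.nd (nat_lit 78) (PT.lf (nat_lit 228) (nat_lit 6) (nat_lit 3) (nat_lit 5) (nat_lit 122) (nat_lit 163) (nat_lit 165)) (PT.lf (nat_lit 380) (nat_lit 6) (nat_lit 5) (nat_lit 5) (nat_lit 123) (nat_lit 163) (nat_lit 164)))) (PT.nd (nat_lit 78) (PT.lf (nat_lit 532) (nat_lit 3) (nat_lit 7) (nat_lit 4) (nat_lit 124) (nat_lit 163) (nat_lit 163)) (PT.nd (nat_lit 78) (PT.lf (nat_lit 608) (nat_lit 6) (nat_lit 8) (nat_lit 4) (nat_lit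 125) (nat_lit 163) (nat_lit 162)) (PT.lf (nat_lit 684) (nat_lit 6) (nat_lit 9) (nat_lit 4) (nat_lit 126) (nat_lit 163) (nat_lit 161))))) (PT.nd (nat_lit 234) (PT.nd (nat_lit 78) (PT.lf (nat_lit 684) (nat_lit 6) (nat_lit 9) (nat_lit 2) (nat_lit 161) (nat_lit 163) (nat_lit 126)) (PT.nd (nat_lit 78) (PT.lf (nat_lit 608) (nat_lit 6) (nat_lit 8) (nat_lit 2) (nat_lit 162) (nat_lit 163) (nat_lit 125)) (PT.lf (nat_lit 532) (nat_lit 3) (nat_lit 7) (nat_lit 0) (nat_lit 163) (nat_lit 163) (nat_lit 124)))) (PT.nd (nat_lit 78) (PT.lf (nat_lit 380) (nat_lit 6) (nat_lit 5) (nat_lit 0) (nat_lit 164) (nat_lit 163) (nat_lit 123)) (PT.nd (nat_lit 43446) (PT.lf (nat_lit 228) (nat_lit 6) (nat_lit 3) (nat_lit 0) (nat_lit 165) (nat_lit 163) (nat_lit 122)) (PT.lf (nat_lit 152) (nat_lit 6) (nat_lit 2) (nat_lit 5) (nat_lit 121) (nat_lit 164) (nat_lit 165)))))) (PT.nd (nat_lit 3354) (PT.nd (nat_lit 3120) (PT.nd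 (nat_lit 78) (PT.lf (nat_lit 304) (nat_lit 3) (nat_lit 4) (nat_lit 4) (nat_lit 122) (nat_lit 164) (nat_lit 164)) (PT.nd (nat_lit 78) (PT.lf (nat_lit 380) (nat_lit 6) (nat_lit 5) (nat_lit 4) (nat_lit 123) (nat_lit 164) (nat_lit 163)) (PT.lf (nat_lit 456) (nat_lit 6) (nat_lit 6) (nat_lit 4) (nat_lit 124) (nat_lit 164) (nat_lit 162)))) (PT.nd (nat_lit 78) (PT.lf (nat_lit 456) (nat_lit 6) (nat_lit 6) (nat_lit 2) (nat_lit 162) (nat_lit 164) (nat_lit 124)) (PT.nd (nat_lit 78) (PT.lf (nat_lit 380) (nat_lit 6) (nat_lit 5) (nat_lit 2) (nat_lit 163) (nat_lit 164) (nat_lit 123)) (PT.lf (nat_lit 304) (nat_lit 3) (nat_lit 4) (nat_lit 0) (nat_lit 164) (nat_lit 164) (nat_lit 122))))) (PT.nd (nat_lit 43524) (PT.nd (nat_lit 43368) (PT.lf (nat_lit 152) (nat_lit 6) (nat_lit 2) (nat_lit 0) (nat_lit 165) (nat_lit 164) (nat_lit 121)) (PT.nd (nat_lit 78) (PT.lf (nat_lit 76) (nat_lit 3) (nat_lit 1) (nat_lit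 4) (nat_lit 120) (nat_lit 165) (nat_lit 165)) (PT.lf (nat_lit 152) (nat_lit 6) (nat_lit 2) (nat_lit 4) (nat_lit 121) (nat_lit 165) (nat_lit 164)))) (PT.nd (nat_lit 3276) (PT.nd (nat_lit 3198) (PT.lf (nat_lit 228) (nat_lit 6) (nat_lit 3) (nat_lit 4) (nat_lit 122) (nat_lit 165) (nat_lit 163)) (PT.lf (nat_lit 228) (nat_lit 6) (nat_lit 3) (nat_lit 2) (nat_lit 163) (nat_lit 165) (nat_lit 122))) (PT.nd (nat_lit 78) (PT.lf (nat_lit 152) (nat_lit 6) (nat_lit 2) (nat_lit 2) (nat_lit 164) (nat_lit 165) (nat_lit 121)) (PT.lf (nat_lit 76) (nat_lit 3) (nat_lit 1) (nat_lit 0) (nat_lit 165) (nat_lit 165) (nat_lit 120))))))))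
noncomputable def xc0 : XT := (XT.nd (nat_lit 186888) (nat_lit 0) (nat_lit 0) (XT.nd (nat_lit 93756) (nat_lit 0) (nat_lit 0) (XT.nd (nat_lit 93444) (nat_lit 0) (nat_lit 0) (XT.nd (nat_lit 46800) (nat_lit 0) (nat_lit 0) (XT.nd (nat_lit 46722) (nat_lit 0) (nat_lit 0) (XT.lf (nat_lit 0) (nat_lit 2398422218782) (nat_lit 76) (nat_lit 192136449458) (nat_lit 76) (nat_lit 192136449458) (nat_lit 1) (nat_lit 4) (nat_lit 2) (nat_lit 5) (nat_lit 2) (nat_lit 4) (nat_lit 412) (nat_lit 244) (nat_lit 244)) (XT.lf (nat_lit 0) (nat_lit 2055489338186) (nat_lit 76) (nat_lit 165127236258) (nat_lit 76) (nat_lit 165127236258) (nat_lit 1) (nat_lit 4) (nat_lit 2) (nat_lit 5) (nat_lit 2) (nat_lit 4) (nat_lit 410) (nat_lit 245) (nat_lit 245))) (XT.nd (nat_lit 78) (nat_lit 0) (nat_lit 0) (XT.lf (nat_lit 0) (nat_lit 4440732487030) (nat_lit 76) (nat_lit 356226347066) (nat_lit 76) (nat_lit 356212304350) (nat_lit 1)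 (nat_lit 4) (nat_lit 2) (nat_lit 5) (nat_lit 2) (nat_lit 4) (nat_lit 411) (nat_lit 245) (nat_lit 244)) (XT.lf (nat_lit 0) (nat_lit 4796823914439) (nat_lit 76) (nat_lit 384297099090) (nat_lit 76) (nat_lit 384270053857) (nat_lit 1) (nat_lit 4) (nat_lit 2) (nat_lit 5) (nat_lit 2) (nat_lit 4) (nat_lit 412) (nat_lit 245) (nat_lit 243)))) (XT.nd (nat_lit 156) (nat_lit 0) (nat_lit 0) (XT.nd (nat_lit 78) (nat_lit 0) (nat_lit 0) (XT.lf (nat_lit 0) (nat_lit 1761417975896) (nat_lit 76) (nat_lit 142003285224) (nat_lit 76) (nat_lit 142003285224) (nat_lit 1) (nat_lit 4) (nat_lit 2) (nat_lit 5) (nat_lit 2) (nat_lit 4) (nat_lit 408) (nat_lit 246) (nat_lit 246)) (XT.lf (nat_lit 0) (nat_lit 3805608385809) (nat_lit 76) (nat_lit 306242734173) (nat_lit 76) (nat_lit 306227568038) (nat_lit 1) (nat_lit 4) (nat_lit 2) (nat_lit 5) (nat_lit 2) (nat_lit 4) (nat_lit 409) (nat_lit 246) (nat_lit 245))) (XT.nd (nat_lit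 78) (nat_lit 0) (nat_lit 0) (XT.lf (nat_lit 0) (nat_lit 4110956511396) (nat_lit 76) (nat_lit 330280608705) (nat_lit 76) (nat_lit 330251399854) (nat_lit 1) (nat_lit 4) (nat_lit 2) (nat_lit 5) (nat_lit 2) (nat_lit 4) (nat_lit 410) (nat_lit 246) (nat_lit 244)) (XT.lf (nat_lit 0) (nat_lit 4440689798928) (nat_lit 76) (nat_lit 356262640711) (nat_lit 76) (nat_lit 356220429345) (nat_lit 1) (nat_lit 4) (nat_lit 2) (nat_lit 5) (nat_lit 2) (nat_lit 4) (nat_lit 411) (nat_lit 246) (nat_lit 243))))) (XT.nd (nat_lit 46644) (nat_lit 0) (nat_lit 0) (XT.nd (nat_lit 46488) (nat_lit 0) (nat_lit 0) (XT.nd (nat_lit 46410) (nat_lit 0) (nat_lit 0) (XT.lf (nat_lit 0) (nat_lit 4796762223443) (nat_lit 76) (nat_lit 384342797788) (nat_lit 76) (nat_lit 384288547055) (nat_lit 1) (nat_lit 4) (nat_lit 2) (nat_lit 5) (nat_lit 2) (nat_lit 4) (nat_lit 412) (nat_lit 246) (nat_lit 242)) (XT.lf (nat_lit 0) (nat_lit 1509232554791)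 (nat_lit 76) (nat_lit 122212887947) (nat_lit 76) (nat_lit 122212887947) (nat_lit 1) (nat_lit 4) (nat_lit 2) (nat_lit 5) (nat_lit 2) (nat_lit 4) (nat_lit 406) (nat_lit 247) (nat_lit 247))) (XT.nd (nat_lit 78) (nat_lit 0) (nat_lit 0) (XT.lf (nat_lit 0) (nat_lit 3260963520851) (nat_lit 76) (nat_lit 263456727101) (nat_lit 76) (nat_lit 263440347676) (nat_lit 1) (nat_lit 4) (nat_lit 2) (nat_lit 5) (nat_lit 2) (nat_lit 4) (nat_lit 407) (nat_lit 247) (nat_lit 246)) (XT.lf (nat_lit 0) (nat_lit 3522812013619) (nat_lit 76) (nat_lit 284034797532) (nat_lit 76) (nat_lit 284003251973) (nat_lit 1) (nat_lit 4) (nat_lit 2) (nat_lit 5) (nat_lit 2) (nat_lit 4) (nat_lit 408) (nat_lit 247) (nat_lit 245)))) (XT.nd (nat_lit 156) (nat_lit 0) (nat_lit 0) (XT.nd (nat_lit 78) (nat_lit 0) (nat_lit 0) (XT.lf (nat_lit 0) (nat_lit 3805562282659) (nat_lit 76) (nat_lit 306281931309) (nat_lit 76) (nat_lit 306236343033)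 (nat_lit 1) (nat_lit 4) (nat_lit 2) (nat_lit 5) (nat_lit 2) (nat_lit 4) (nat_lit 409) (nat_lit 247) (nat_lit 244)) (XT.lf (nat_lit 0) (nat_lit 4110889885120) (nat_lit 76) (nat_lit 330329963299) (nat_lit 76) (nat_lit 330271372507) (nat_lit 1) (nat_lit 4) (nat_lit 2) (nat_lit 5) (nat_lit 2) (nat_lit 4) (nat_lit 410) (nat_lit 247) (nat_lit 243))) (XT.nd (nat_lit 78) (nat_lit 0) (nat_lit 0) (XT.lf (nat_lit 0) (nat_lit 4440604169758) (nat_lit 76) (nat_lit 356321400358) (nat_lit 76) (nat_lit 356250770200) (nat_lit 1) (nat_lit 4) (nat_lit 2) (nat_lit 5) (nat_lit 2) (nat_lit 4) (nat_lit 411) (nat_lit 247) (nat_lit 242)) (XT.lf (nat_lit 0) (nat_lit 4796658999000) (nat_lit 76) (nat_lit 384410265816) (nat_lit 76) (nat_lit 384328488097) (nat_lit 1) (nat_lit 4) (nat_lit 2) (nat_lit 5) (nat_lit 2) (nat_lit 4) (nat_lit 412) (nat_lit 247) (nat_lit 241)))))) (XT.nd (nat_lit 624) (nat_lit 0) (nat_lit 0)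 (XT.nd (nat_lit 312) (nat_lit 0) (nat_lit 0) (XT.nd (nat_lit 156) (nat_lit 0) (nat_lit 0) (XT.nd (nat_lit 78) (nat_lit 0) (nat_lit 0) (XT.lf (nat_lit 0) (nat_lit 1292952246985) (nat_lit 76) (nat_lit 105283248806) (nat_lit 76) (nat_lit 105283248806) (nat_lit 1) (nat_lit 4) (nat_lit 2) (nat_lit 5) (nat_lit 2) (nat_lit 4) (nat_lit 404) (nat_lit 248) (nat_lit 248)) (XT.lf (nat_lit 0) (nat_lit 2793879752191) (nat_lit 76) (nat_lit 226846857686) (nat_lit 76) (nat_lit 226829167907) (nat_lit 1) (nat_lit 4) (nat_lit 2) (nat_lit 5) (nat_lit 2) (nat_lit 4) (nat_lit 405) (nat_lit 248) (nat_lit 247))) (XT.nd (nat_lit 78) (nat_lit 0) (nat_lit 0) (XT.lf (nat_lit 0) (nat_lit 3018439256354) (nat_lit 76) (nat_lit 244456261145) (nat_lit 76) (nat_lit 244422191941) (nat_lit 1) (nat_lit 4) (nat_lit 2) (nat_lit 5) (nat_lit 2) (nat_lit 4) (nat_lit 406) (nat_lit 248) (nat_lit 246)) (XT.lf (nat_lit 0) (nat_lit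 3260913729449) (nat_lit 76) (nat_lit 263499060009) (nat_lit 76) (nat_lit 263449824671) (nat_lit 1) (nat_lit 4) (nat_lit 2) (nat_lit 5) (nat_lit 2) (nat_lit 4) (nat_lit 407) (nat_lit 248) (nat_lit 245)))) (XT.nd (nat_lit 156) (nat_lit 0) (nat_lit 0) (XT.nd (nat_lit 78) (nat_lit 0) (nat_lit 0) (XT.lf (nat_lit 0) (nat_lit 3522740057241) (nat_lit 76) (nat_lit 284088100493) (nat_lit 76) (nat_lit 284024822438) (nat_lit 1) (nat_lit 4) (nat_lit 2) (nat_lit 5) (nat_lit 2) (nat_lit 4) (nat_lit 408) (nat_lit 248) (nat_lit 244)) (XT.lf (nat_lit 0) (nat_lit 3805469803155) (nat_lit 76) (nat_lit 306345391727) (nat_lit 76) (nat_lit 306269111157) (nat_lit 1) (nat_lit 4) (nat_lit 2) (nat_lit 5) (nat_lit 2) (nat_lit 4) (nat_lit 409) (nat_lit 248) (nat_lit 243))) (XT.nd (nat_lit 78) (nat_lit 0) (nat_lit 0) (XT.lf (nat_lit 0) (nat_lit 4110778402722) (nat_lit 76) (nat_lit 330402828770) (nat_lit 76) (nat_lit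 330314508833) (nat_lit 1) (nat_lit 4) (nat_lit 2) (nat_lit 5) (nat_lit 2) (nat_lit 4) (nat_lit 410) (nat_lit 248) (nat_lit 242)) (XT.lf (nat_lit 0) (nat_lit 4440475092088) (nat_lit 76) (nat_lit 356402974211) (nat_lit 76) (nat_lit 356303506712) (nat_lit 1) (nat_lit 4) (nat_lit 2) (nat_lit 5) (nat_lit 2) (nat_lit 4) (nat_lit 411) (nat_lit 248) (nat_lit 241))))) (XT.nd (nat_lit 46332) (nat_lit 0) (nat_lit 0) (XT.nd (nat_lit 46176) (nat_lit 0) (nat_lit 0) (XT.nd (nat_lit 46098) (nat_lit 0) (nat_lit 0) (XT.lf (nat_lit 0) (nat_lit 4796513629411) (nat_lit 76) (nat_lit 384499902987) (nat_lit 76) (nat_lit 384390113672) (nat_lit 1) (nat_lit 4) (nat_lit 2) (nat_lit 5) (nat_lit 2) (nat_lit 4) (nat_lit 412) (nat_lit 248) (nat_lit 240)) (XT.lf (nat_lit 0) (nat_lit 1107449030149) (nat_lit 76) (nat_lit 90809243606) (nat_lit 76) (nat_lit 90809243606) (nat_lit 1) (nat_lit 4) (nat_lit 2) (nat_lit 5) (nat_lit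 2) (nat_lit 4) (nat_lit 402) (nat_lit 249) (nat_lit 249))) (XT.nd (nat_lit 78) (nat_lit 0) (nat_lit 0) (XT.lf (nat_lit 0) (nat_lit 2393281035720) (nat_lit 76) (nat_lit 195537809676) (nat_lit 76) (nat_lit 195518704715) (nat_lit 1) (nat_lit 4) (nat_lit 2) (nat_lit 5) (nat_lit 2) (nat_lit 4) (nat_lit 403) (nat_lit 249) (nat_lit 248)) (XT.lf (nat_lit 0) (nat_lit 2585876572485) (nat_lit 76) (nat_lit 210599421682) (nat_lit 76) (nat_lit 210562626941) (nat_lit 1) (nat_lit 4) (nat_lit 2) (nat_lit 5) (nat_lit 2) (nat_lit 4) (nat_lit 404) (nat_lit 249) (nat_lit 247)))) (XT.nd (nat_lit 156) (nat_lit 0) (nat_lit 0) (XT.nd (nat_lit 78) (nat_lit 0) (nat_lit 0) (XT.lf (nat_lit 0) (nat_lit 2793825977477) (nat_lit 76) (nat_lit 226892577226) (nat_lit 76) (nat_lit 226839403061) (nat_lit 1) (nat_lit 4) (nat_lit 2) (nat_lit 5) (nat_lit 2) (nat_lit 4) (nat_lit 405) (nat_lit 249) (nat_lit 246)) (XT.lf (nat_lit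 0) (nat_lit 3018361543466) (nat_lit 76) (nat_lit 244513828343) (nat_lit 76) (nat_lit 244445488043) (nat_lit 1) (nat_lit 4) (nat_lit 2) (nat_lit 5) (nat_lit 2) (nat_lit 4) (nat_lit 406) (nat_lit 249) (nat_lit 245))) (XT.nd (nat_lit 78) (nat_lit 0) (nat_lit 0) (XT.lf (nat_lit 0) (nat_lit 3260813851585) (nat_lit 76) (nat_lit 263567597261) (nat_lit 76) (nat_lit 263485214244) (nat_lit 1) (nat_lit 4) (nat_lit 2) (nat_lit 5) (nat_lit 2) (nat_lit 4) (nat_lit 407) (nat_lit 249) (nat_lit 244)) (XT.lf (nat_lit 0) (nat_lit 3522619656251) (nat_lit 76) (nat_lit 284166795202) (nat_lit 76) (nat_lit 284071409670) (nat_lit 1) (nat_lit 4) (nat_lit 2) (nat_lit 5) (nat_lit 2) (nat_lit 4) (nat_lit 408) (nat_lit 249) (nat_lit 243)))))))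
noncomputable def xc1 : XT := (XT.nd (nat_lit 47112) (nat_lit 0) (nat_lit 0) (XT.nd (nat_lit 46488) (nat_lit 0) (nat_lit 0) (XT.nd (nat_lit 46176) (nat_lit 0) (nat_lit 0) (XT.nd (nat_lit 156) (nat_lit 0) (nat_lit 0) (XT.nd (nat_lit 78) (nat_lit 0) (nat_lit 0) (XT.lf (nat_lit 0) (nat_lit 3805330399271) (nat_lit 76) (nat_lit 306433491489) (nat_lit 76) (nat_lit 306326066590) (nat_lit 1) (nat_lit 4) (nat_lit 2) (nat_lit 5) (nat_lit 2) (nat_lit 4) (nat_lit 409) (nat_lit 249) (nat_lit 242)) (XT.lf (nat_lit 0) (nat_lit 4110621403566) (nat_lit 76) (nat_lit 330499636914) (nat_lit 76) (nat_lit 330381064454) (nat_lit 1) (nat_lit 4) (nat_lit 2) (nat_lit 5) (nat_lit 2) (nat_lit 4) (nat_lit 410) (nat_lit 249) (nat_lit 241))) (XT.nd (nat_lit 78) (nat_lit 0) (nat_lit 0) (XT.lf (nat_lit 0) (nat_lit 4440301801012) (nat_lit 76) (nat_lit 356507845672) (nat_lit 76) (nat_lit 356378951396) (nat_lit 1) (nat_lit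 4) (nat_lit 2) (nat_lit 5) (nat_lit 2) (nat_lit 4) (nat_lit 411) (nat_lit 249) (nat_lit 240)) (XT.lf (nat_lit 0) (nat_lit 4796325253225) (nat_lit 76) (nat_lit 384612240481) (nat_lit 76) (nat_lit 384473788968) (nat_lit 1) (nat_lit 4) (nat_lit 2) (nat_lit 5) (nat_lit 2) (nat_lit 4) (nat_lit 412) (nat_lit 249) (nat_lit 239)))) (XT.nd (nat_lit 156) (nat_lit 0) (nat_lit 0) (XT.nd (nat_lit 78) (nat_lit 0) (nat_lit 0) (XT.lf (nat_lit 0) (nat_lit 948325991145) (nat_lit 76) (nat_lit 78443783246) (nat_lit 76) (nat_lit 78443783246) (nat_lit 1) (nat_lit 4) (nat_lit 2) (nat_lit 5) (nat_lit 2) (nat_lit 4) (nat_lit 400) (nat_lit 250) (nat_lit 250)) (XT.lf (nat_lit 0) (nat_lit 2049670561919) (nat_lit 76) (nat_lit 168779602776) (nat_lit 76) (nat_lit 168758969418) (nat_lit 1) (nat_lit 4) (nat_lit 2) (nat_lit 5) (nat_lit 2) (nat_lit 4) (nat_lit 401) (nat_lit 250) (nat_lit 249))) (XT.nd (nat_lit 78) (nat_lit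 0) (nat_lit 0) (XT.lf (nat_lit 0) (nat_lit 2214867905093) (nat_lit 76) (nat_lit 181654045208) (nat_lit 76) (nat_lit 181614306888) (nat_lit 1) (nat_lit 4) (nat_lit 2) (nat_lit 5) (nat_lit 2) (nat_lit 4) (nat_lit 402) (nat_lit 250) (nat_lit 248)) (XT.lf (nat_lit 0) (nat_lit 2393222959029) (nat_lit 76) (nat_lit 195587186780) (nat_lit 76) (nat_lit 195529758681) (nat_lit 1) (nat_lit 4) (nat_lit 2) (nat_lit 5) (nat_lit 2) (nat_lit 4) (nat_lit 403) (nat_lit 250) (nat_lit 247))))) (XT.nd (nat_lit 312) (nat_lit 0) (nat_lit 0) (XT.nd (nat_lit 156) (nat_lit 0) (nat_lit 0) (XT.nd (nat_lit 78) (nat_lit 0) (nat_lit 0) (XT.lf (nat_lit 0) (nat_lit 2585792642566) (nat_lit 76) (nat_lit 210661594256) (nat_lit 76) (nat_lit 210587786732) (nat_lit 1) (nat_lit 4) (nat_lit 2) (nat_lit 5) (nat_lit 2) (nat_lit 4) (nat_lit 404) (nat_lit 250) (nat_lit 246)) (XT.lf (nat_lit 0) (nat_lit 2793718109384) (nat_lit 76)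 (nat_lit 226966597458) (nat_lit 76) (nat_lit 226877623800) (nat_lit 1) (nat_lit 4) (nat_lit 2) (nat_lit 5) (nat_lit 2) (nat_lit 4) (nat_lit 405) (nat_lit 250) (nat_lit 245))) (XT.nd (nat_lit 78) (nat_lit 0) (nat_lit 0) (XT.lf (nat_lit 0) (nat_lit 3018231510397) (nat_lit 76) (nat_lit 244598818628) (nat_lit 76) (nat_lit 244495802254) (nat_lit 1) (nat_lit 4) (nat_lit 2) (nat_lit 5) (nat_lit 2) (nat_lit 4) (nat_lit 406) (nat_lit 250) (nat_lit 244)) (XT.lf (nat_lit 0) (nat_lit 3260663295390) (nat_lit 76) (nat_lit 263662745003) (nat_lit 76) (nat_lit 263546726112) (nat_lit 1) (nat_lit 4) (nat_lit 2) (nat_lit 5) (nat_lit 2) (nat_lit 4) (nat_lit 407) (nat_lit 250) (nat_lit 243)))) (XT.nd (nat_lit 156) (nat_lit 0) (nat_lit 0) (XT.nd (nat_lit 78) (nat_lit 0) (nat_lit 0) (XT.lf (nat_lit 0) (nat_lit 3522450097162) (nat_lit 76) (nat_lit 284271347997) (nat_lit 76) (nat_lit 284143289741) (nat_lit 1)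 (nat_lit 4) (nat_lit 2) (nat_lit 5) (nat_lit 2) (nat_lit 4) (nat_lit 408) (nat_lit 250) (nat_lit 242)) (XT.lf (nat_lit 0) (nat_lit 3805143244910) (nat_lit 76) (nat_lit 306546752666) (nat_lit 76) (nat_lit 306407546848) (nat_lit 1) (nat_lit 4) (nat_lit 2) (nat_lit 5) (nat_lit 2) (nat_lit 4) (nat_lit 409) (nat_lit 250) (nat_lit 241))) (XT.nd (nat_lit 78) (nat_lit 0) (nat_lit 0) (XT.lf (nat_lit 0) (nat_lit 4110417957285) (nat_lit 76) (nat_lit 330620961408) (nat_lit 76) (nat_lit 330471433774) (nat_lit 1) (nat_lit 4) (nat_lit 2) (nat_lit 5) (nat_lit 2) (nat_lit 4) (nat_lit 410) (nat_lit 250) (nat_lit 240)) (XT.lf (nat_lit 0) (nat_lit 4440083269621) (nat_lit 76) (nat_lit 356636636200) (nat_lit 76) (nat_lit 356477551329) (nat_lit 1) (nat_lit 4) (nat_lit 2) (nat_lit 5) (nat_lit 2) (nat_lit 4) (nat_lit 411) (nat_lit 250) (nat_lit 239)))))) (XT.nd (nat_lit 46332) (nat_lit 0) (nat_lit 0) (XT.nd (nat_lit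 46020) (nat_lit 0) (nat_lit 0) (XT.nd (nat_lit 45864) (nat_lit 0) (nat_lit 0) (XT.nd (nat_lit 45786) (nat_lit 0) (nat_lit 0) (XT.lf (nat_lit 0) (nat_lit 4796092754140) (nat_lit 76) (nat_lit 384747944005) (nat_lit 76) (nat_lit 384580009839) (nat_lit 1) (nat_lit 4) (nat_lit 2) (nat_lit 5) (nat_lit 2) (nat_lit 4) (nat_lit 412) (nat_lit 250) (nat_lit 238)) (XT.lf (nat_lit 0) (nat_lit 811812988290) (nat_lit 76) (nat_lit 67889553524) (nat_lit 76) (nat_lit 67889553524) (nat_lit 1) (nat_lit 4) (nat_lit 2) (nat_lit 5) (nat_lit 2) (nat_lit 4) (nat_lit 398) (nat_lit 251) (nat_lit 251))) (XT.nd (nat_lit 78) (nat_lit 0) (nat_lit 0) (XT.lf (nat_lit 0) (nat_lit 1754905389436) (nat_lit 76) (nat_lit 145929749055) (nat_lit 76) (nat_lit 145907465028) (nat_lit 1) (nat_lit 4) (nat_lit 2) (nat_lit 5) (nat_lit 2) (nat_lit 4) (nat_lit 399) (nat_lit 251) (nat_lit 250)) (XT.lf (nat_lit 0) (nat_lit 1896619414668)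 (nat_lit 76) (nat_lit 156925969126) (nat_lit 76) (nat_lit 156883051741) (nat_lit 1) (nat_lit 4) (nat_lit 2) (nat_lit 5) (nat_lit 2) (nat_lit 4) (nat_lit 400) (nat_lit 251) (nat_lit 249)))) (XT.nd (nat_lit 156) (nat_lit 0) (nat_lit 0) (XT.nd (nat_lit 78) (nat_lit 0) (nat_lit 0) (XT.lf (nat_lit 0) (nat_lit 2049607839093) (nat_lit 76) (nat_lit 168832930048) (nat_lit 76) (nat_lit 168770907701) (nat_lit 1) (nat_lit 4) (nat_lit 2) (nat_lit 5) (nat_lit 2) (nat_lit 4) (nat_lit 401) (nat_lit 251) (nat_lit 248)) (XT.lf (nat_lit 0) (nat_lit 2214777260780) (nat_lit 76) (nat_lit 181721191588) (nat_lit 76) (nat_lit 181641479462) (nat_lit 1) (nat_lit 4) (nat_lit 2) (nat_lit 5) (nat_lit 2) (nat_lit 4) (nat_lit 402) (nat_lit 251) (nat_lit 247))) (XT.nd (nat_lit 78) (nat_lit 0) (nat_lit 0) (XT.lf (nat_lit 0) (nat_lit 2393106461488) (nat_lit 76) (nat_lit 195667128630) (nat_lit 76) (nat_lit 195571037079)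 (nat_lit 1) (nat_lit 4) (nat_lit 2) (nat_lit 5) (nat_lit 2) (nat_lit 4) (nat_lit 403) (nat_lit 251) (nat_lit 246)) (XT.lf (nat_lit 0) (nat_lit 2585652206851) (nat_lit 76) (nat_lit 210753383764) (nat_lit 76) (nat_lit 210642126079) (nat_lit 1) (nat_lit 4) (nat_lit 2) (nat_lit 5) (nat_lit 2) (nat_lit 4) (nat_lit 404) (nat_lit 251) (nat_lit 245))))) (XT.nd (nat_lit 312) (nat_lit 0) (nat_lit 0) (XT.nd (nat_lit 156) (nat_lit 0) (nat_lit 0) (XT.nd (nat_lit 78) (nat_lit 0) (nat_lit 0) (XT.lf (nat_lit 0) (nat_lit 2793555508693) (nat_lit 76) (nat_lit 227069357020) (nat_lit 76) (nat_lit 226944056618) (nat_lit 1) (nat_lit 4) (nat_lit 2) (nat_lit 5) (nat_lit 2) (nat_lit 4) (nat_lit 405) (nat_lit 251) (nat_lit 244)) (XT.lf (nat_lit 0) (nat_lit 3018048386581) (nat_lit 76) (nat_lit 244711735647) (nat_lit 76) (nat_lit 244573432730) (nat_lit 1) (nat_lit 4) (nat_lit 2) (nat_lit 5) (nat_lit 2) (nat_lit 4)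 (nat_lit 406) (nat_lit 251) (nat_lit 243))) (XT.nd (nat_lit 78) (nat_lit 0) (nat_lit 0) (XT.lf (nat_lit 0) (nat_lit 3260461168680) (nat_lit 76) (nat_lit 263785067075) (nat_lit 76) (nat_lit 263634724791) (nat_lit 1) (nat_lit 4) (nat_lit 2) (nat_lit 5) (nat_lit 2) (nat_lit 4) (nat_lit 407) (nat_lit 251) (nat_lit 242)) (XT.lf (nat_lit 0) (nat_lit 3522230375179) (nat_lit 76) (nat_lit 284402378451) (nat_lit 76) (nat_lit 284240888606) (nat_lit 1) (nat_lit 4) (nat_lit 2) (nat_lit 5) (nat_lit 2) (nat_lit 4) (nat_lit 408) (nat_lit 251) (nat_lit 241)))) (XT.nd (nat_lit 156) (nat_lit 0) (nat_lit 0) (XT.nd (nat_lit 78) (nat_lit 0) (nat_lit 0) (XT.lf (nat_lit 0) (nat_lit 3804907231008) (nat_lit 76) (nat_lit 306685846437) (nat_lit 76) (nat_lit 306514034776) (nat_lit 1) (nat_lit 4) (nat_lit 2) (nat_lit 5) (nat_lit 2) (nat_lit 4) (nat_lit 409) (nat_lit 251) (nat_lit 240)) (XT.lf (nat_lit 0) (nat_lit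 4110166858273) (nat_lit 76) (nat_lit 330767521213) (nat_lit 76) (nat_lit 330586152315) (nat_lit 1) (nat_lit 4) (nat_lit 2) (nat_lit 5) (nat_lit 2) (nat_lit 4) (nat_lit 410) (nat_lit 251) (nat_lit 239))) (XT.nd (nat_lit 78) (nat_lit 0) (nat_lit 0) (XT.lf (nat_lit 0) (nat_lit 4439818202915) (nat_lit 76) (nat_lit 356790109000) (nat_lit 76) (nat_lit 356599890808) (nat_lit 1) (nat_lit 4) (nat_lit 2) (nat_lit 5) (nat_lit 2) (nat_lit 4) (nat_lit 411) (nat_lit 251) (nat_lit 238)) (XT.nd (nat_lit 45630) (nat_lit 0) (nat_lit 0) (XT.lf (nat_lit 0) (nat_lit 4795814754383) (nat_lit 76) (nat_lit 384907817725) (nat_lit 76) (nat_lit 384709405743) (nat_lit 1) (nat_lit 4) (nat_lit 2) (nat_lit 5) (nat_lit 2) (nat_lit 4) (nat_lit 412) (nat_lit 251) (nat_lit 237)) (XT.lf (nat_lit 0) (nat_lit 694677195608) (nat_lit 76) (nat_lit 58891934901) (nat_lit 76) (nat_lit 58891934901) (nat_lit 1) (nat_lit 4) (nat_lit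 2) (nat_lit 5) (nat_lit 2) (nat_lit 4) (nat_lit 396) (nat_lit 252) (nat_lit 252))))))))
noncomputable def xc2 : XT := (XT.nd (nat_lit 46644) (nat_lit 0) (nat_lit 0) (XT.nd (nat_lit 624) (nat_lit 0) (nat_lit 0) (XT.nd (nat_lit 312) (nat_lit 0) (nat_lit 0) (XT.nd (nat_lit 156) (nat_lit 0) (nat_lit 0) (XT.nd (nat_lit 78) (nat_lit 0) (nat_lit 0) (XT.lf (nat_lit 0) (nat_lit 1502003224023) (nat_lit 76) (nat_lit 126437957904) (nat_lit 76) (nat_lit 126413891155) (nat_lit 1) (nat_lit 4) (nat_lit 2) (nat_lit 5) (nat_lit 2) (nat_lit 4) (nat_lit 397) (nat_lit 252) (nat_lit 251)) (XT.lf (nat_lit 0) (nat_lit 1623590803549) (nat_lit 76) (nat_lit 135820581894) (nat_lit 76) (nat_lit 135774231119) (nat_lit 1) (nat_lit 4) (nat_lit 2) (nat_lit 5) (nat_lit 2) (nat_lit 4) (nat_lit 398) (nat_lit 252) (nat_lit 250))) (XT.nd (nat_lit 78) (nat_lit 0) (nat_lit 0) (XT.lf (nat_lit 0) (nat_lit 1754837648783) (nat_lit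 76) (nat_lit 145987342509) (nat_lit 76) (nat_lit 145920358374) (nat_lit 1) (nat_lit 4) (nat_lit 2) (nat_lit 5) (nat_lit 2) (nat_lit 4) (nat_lit 399) (nat_lit 252) (nat_lit 249)) (XT.lf (nat_lit 0) (nat_lit 1896521518811) (nat_lit 76) (nat_lit 156998487216) (nat_lit 76) (nat_lit 156912398121) (nat_lit 1) (nat_lit 4) (nat_lit 2) (nat_lit 5) (nat_lit 2) (nat_lit 4) (nat_lit 400) (nat_lit 252) (nat_lit 248)))) (XT.nd (nat_lit 156) (nat_lit 0) (nat_lit 0) (XT.nd (nat_lit 78) (nat_lit 0) (nat_lit 0) (XT.lf (nat_lit 0) (nat_lit 2049482021749) (nat_lit 76) (nat_lit 168919267246) (nat_lit 76) (nat_lit 168815488371) (nat_lit 1) (nat_lit 4) (nat_lit 2) (nat_lit 5) (nat_lit 2) (nat_lit 4) (nat_lit 401) (nat_lit 252) (nat_lit 247)) (XT.lf (nat_lit 0) (nat_lit 2214625590208) (nat_lit 76) (nat_lit 181820324257) (nat_lit 76) (nat_lit 181700165957) (nat_lit 1) (nat_lit 4) (nat_lit 2) (nat_lit 5) (nat_lit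 2) (nat_lit 4) (nat_lit 402) (nat_lit 252) (nat_lit 246))) (XT.nd (nat_lit 78) (nat_lit 0) (nat_lit 0) (XT.lf (nat_lit 0) (nat_lit 2392930852743) (nat_lit 76) (nat_lit 195778108957) (nat_lit 76) (nat_lit 195642784523) (nat_lit 1) (nat_lit 4) (nat_lit 2) (nat_lit 5) (nat_lit 2) (nat_lit 4) (nat_lit 403) (nat_lit 252) (nat_lit 245)) (XT.lf (nat_lit 0) (nat_lit 2585454433130) (nat_lit 76) (nat_lit 210875334144) (nat_lit 76) (nat_lit 210725966993) (nat_lit 1) (nat_lit 4) (nat_lit 2) (nat_lit 5) (nat_lit 2) (nat_lit 4) (nat_lit 404) (nat_lit 252) (nat_lit 244))))) (XT.nd (nat_lit 312) (nat_lit 0) (nat_lit 0) (XT.nd (nat_lit 156) (nat_lit 0) (nat_lit 0) (XT.nd (nat_lit 78) (nat_lit 0) (nat_lit 0) (XT.lf (nat_lit 0) (nat_lit 2793337211846) (nat_lit 76) (nat_lit 227201464857) (nat_lit 76) (nat_lit 227039095191) (nat_lit 1) (nat_lit 4) (nat_lit 2) (nat_lit 5) (nat_lit 2) (nat_lit 4) (nat_lit 405)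 (nat_lit 252) (nat_lit 243)) (XT.lf (nat_lit 0) (nat_lit 3017811086839) (nat_lit 76) (nat_lit 244853248538) (nat_lit 76) (nat_lit 244678839505) (nat_lit 1) (nat_lit 4) (nat_lit 2) (nat_lit 5) (nat_lit 2) (nat_lit 4) (nat_lit 406) (nat_lit 252) (nat_lit 242))) (XT.nd (nat_lit 78) (nat_lit 0) (nat_lit 0) (XT.lf (nat_lit 0) (nat_lit 3260206273666) (nat_lit 76) (nat_lit 263935288347) (nat_lit 76) (nat_lit 263749731753) (nat_lit 1) (nat_lit 4) (nat_lit 2) (nat_lit 5) (nat_lit 2) (nat_lit 4) (nat_lit 407) (nat_lit 252) (nat_lit 241)) (XT.lf (nat_lit 0) (nat_lit 3521959188246) (nat_lit 76) (nat_lit 284560663041) (nat_lit 76) (nat_lit 284364784630) (nat_lit 1) (nat_lit 4) (nat_lit 2) (nat_lit 5) (nat_lit 2) (nat_lit 4) (nat_lit 408) (nat_lit 252) (nat_lit 240)))) (XT.nd (nat_lit 156) (nat_lit 0) (nat_lit 0) (XT.nd (nat_lit 78) (nat_lit 0) (nat_lit 0) (XT.lf (nat_lit 0) (nat_lit 3804620958964)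 (nat_lit 76) (nat_lit 306851597061) (nat_lit 76) (nat_lit 306646161413) (nat_lit 1) (nat_lit 4) (nat_lit 2) (nat_lit 5) (nat_lit 2) (nat_lit 4) (nat_lit 409) (nat_lit 252) (nat_lit 239)) (XT.lf (nat_lit 0) (nat_lit 4109866618535) (nat_lit 76) (nat_lit 330940184831) (nat_lit 76) (nat_lit 330725899890) (nat_lit 1) (nat_lit 4) (nat_lit 2) (nat_lit 5) (nat_lit 2) (nat_lit 4) (nat_lit 410) (nat_lit 252) (nat_lit 238))) (XT.nd (nat_lit 78) (nat_lit 0) (nat_lit 0) (XT.lf (nat_lit 0) (nat_lit 4439505030126) (nat_lit 76) (nat_lit 356969173539) (nat_lit 76) (nat_lit 356746694807) (nat_lit 1) (nat_lit 4) (nat_lit 2) (nat_lit 5) (nat_lit 2) (nat_lit 4) (nat_lit 411) (nat_lit 252) (nat_lit 237)) (XT.lf (nat_lit 0) (nat_lit 4795489606547) (nat_lit 76) (nat_lit 385092809043) (nat_lit 76) (nat_lit 384862743468) (nat_lit 1) (nat_lit 4) (nat_lit 2) (nat_lit 5) (nat_lit 2) (nat_lit 4) (nat_lit 412) (nat_lit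 252) (nat_lit 236)))))) (XT.nd (nat_lit 624) (nat_lit 0) (nat_lit 0) (XT.nd (nat_lit 312) (nat_lit 0) (nat_lit 0) (XT.nd (nat_lit 156) (nat_lit 0) (nat_lit 0) (XT.nd (nat_lit 78) (nat_lit 0) (nat_lit 0) (XT.lf (nat_lit 0) (nat_lit 594146405770) (nat_lit 76) (nat_lit 51232933978) (nat_lit 76) (nat_lit 51232933978) (nat_lit 1) (nat_lit 4) (nat_lit 2) (nat_lit 5) (nat_lit 2) (nat_lit 4) (nat_lit 394) (nat_lit 253) (nat_lit 253)) (XT.lf (nat_lit 0) (nat_lit 1284976756492) (nat_lit 76) (nat_lit 109833026193) (nat_lit 76) (nat_lit 109807034104) (nat_lit 1) (nat_lit 4) (nat_lit 2) (nat_lit 5) (nat_lit 2) (nat_lit 4) (nat_lit 395) (nat_lit 253) (nat_lit 252))) (XT.nd (nat_lit 78) (nat_lit 0) (nat_lit 0) (XT.lf (nat_lit 0) (nat_lit 1389316404344) (nat_lit 76) (nat_lit 117828662635) (nat_lit 76) (nat_lit 117778603797) (nat_lit 1) (nat_lit 4) (nat_lit 2) (nat_lit 5) (nat_lit 2) (nat_lit 4) (nat_lit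 396) (nat_lit 253) (nat_lit 251)) (XT.lf (nat_lit 0) (nat_lit 1501930064118) (nat_lit 76) (nat_lit 126500158833) (nat_lit 76) (nat_lit 126427815968) (nat_lit 1) (nat_lit 4) (nat_lit 2) (nat_lit 5) (nat_lit 2) (nat_lit 4) (nat_lit 397) (nat_lit 253) (nat_lit 250)))) (XT.nd (nat_lit 156) (nat_lit 0) (nat_lit 0) (XT.nd (nat_lit 78) (nat_lit 0) (nat_lit 0) (XT.lf (nat_lit 0) (nat_lit 1623485076022) (nat_lit 76) (nat_lit 135898901432) (nat_lit 76) (nat_lit 135805925209) (nat_lit 1) (nat_lit 4) (nat_lit 2) (nat_lit 5) (nat_lit 2) (nat_lit 4) (nat_lit 398) (nat_lit 253) (nat_lit 249)) (XT.lf (nat_lit 0) (nat_lit 1754701766052) (nat_lit 76) (nat_lit 146080586683) (nat_lit 76) (nat_lit 145968505498) (nat_lit 1) (nat_lit 4) (nat_lit 2) (nat_lit 5) (nat_lit 2) (nat_lit 4) (nat_lit 399) (nat_lit 253) (nat_lit 248))) (XT.nd (nat_lit 78) (nat_lit 0) (nat_lit 0) (XT.lf (nat_lit 0) (nat_lit 1896357714593)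 (nat_lit 76) (nat_lit 157105550499) (nat_lit 76) (nat_lit 156975779535) (nat_lit 1) (nat_lit 4) (nat_lit 2) (nat_lit 5) (nat_lit 2) (nat_lit 4) (nat_lit 400) (nat_lit 253) (nat_lit 247)) (XT.lf (nat_lit 0) (nat_lit 2049292364304) (nat_lit 76) (nat_lit 169039125999) (nat_lit 76) (nat_lit 168892975610) (nat_lit 1) (nat_lit 4) (nat_lit 2) (nat_lit 5) (nat_lit 2) (nat_lit 4) (nat_lit 401) (nat_lit 253) (nat_lit 246))))) (XT.nd (nat_lit 312) (nat_lit 0) (nat_lit 0) (XT.nd (nat_lit 156) (nat_lit 0) (nat_lit 0) (XT.nd (nat_lit 78) (nat_lit 0) (nat_lit 0) (XT.lf (nat_lit 0) (nat_lit 2214411994589) (nat_lit 76) (nat_lit 181952030668) (nat_lit 76) (nat_lit 181790714145) (nat_lit 1) (nat_lit 4) (nat_lit 2) (nat_lit 5) (nat_lit 2) (nat_lit 4) (nat_lit 402) (nat_lit 253) (nat_lit 245)) (XT.lf (nat_lit 0) (nat_lit 2392695092147) (nat_lit 76) (nat_lit 195920785421) (nat_lit 76) (nat_lit 195745426181)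 (nat_lit 1) (nat_lit 4) (nat_lit 2) (nat_lit 5) (nat_lit 2) (nat_lit 4) (nat_lit 403) (nat_lit 253) (nat_lit 244))) (XT.nd (nat_lit 78) (nat_lit 0) (nat_lit 0) (XT.lf (nat_lit 0) (nat_lit 2585198149409) (nat_lit 76) (nat_lit 211028168066) (nat_lit 76) (nat_lit 210839806310) (nat_lit 1) (nat_lit 4) (nat_lit 2) (nat_lit 5) (nat_lit 2) (nat_lit 4) (nat_lit 404) (nat_lit 253) (nat_lit 243)) (XT.lf (nat_lit 0) (nat_lit 2793061925231) (nat_lit 76) (nat_lit 227363703832) (nat_lit 76) (nat_lit 227163302710) (nat_lit 1) (nat_lit 4) (nat_lit 2) (nat_lit 5) (nat_lit 2) (nat_lit 4) (nat_lit 405) (nat_lit 253) (nat_lit 242)))) (XT.nd (nat_lit 156) (nat_lit 0) (nat_lit 0) (XT.nd (nat_lit 78) (nat_lit 0) (nat_lit 0) (XT.lf (nat_lit 0) (nat_lit 3017518204952) (nat_lit 76) (nat_lit 245024195894) (nat_lit 76) (nat_lit 244812647211) (nat_lit 1) (nat_lit 4) (nat_lit 2) (nat_lit 5) (nat_lit 2) (nat_lit 4)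 (nat_lit 406) (nat_lit 253) (nat_lit 241)) (XT.lf (nat_lit 0) (nat_lit 3259897099859) (nat_lit 76) (nat_lit 264114299021) (nat_lit 76) (nat_lit 263892428521) (nat_lit 1) (nat_lit 4) (nat_lit 2) (nat_lit 5) (nat_lit 2) (nat_lit 4) (nat_lit 407) (nat_lit 253) (nat_lit 240))) (XT.nd (nat_lit 78) (nat_lit 0) (nat_lit 0) (XT.lf (nat_lit 0) (nat_lit 3521634929329) (nat_lit 76) (nat_lit 284747139748) (nat_lit 76) (nat_lit 284515712012) (nat_lit 1) (nat_lit 4) (nat_lit 2) (nat_lit 5) (nat_lit 2) (nat_lit 4) (nat_lit 408) (nat_lit 253) (nat_lit 239)) (XT.lf (nat_lit 0) (nat_lit 3804282732353) (nat_lit 76) (nat_lit 307044986763) (nat_lit 76) (nat_lit 306804709733) (nat_lit 1) (nat_lit 4) (nat_lit 2) (nat_lit 5) (nat_lit 2) (nat_lit 4) (nat_lit 409) (nat_lit 253) (nat_lit 238)))))))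
noncomputable def xc3 : XT := (XT.nd (nat_lit 46488) (nat_lit 0) (nat_lit 0) (XT.nd (nat_lit 45864) (nat_lit 0) (nat_lit 0) (XT.nd (nat_lit 45552) (nat_lit 0) (nat_lit 0) (XT.nd (nat_lit 156) (nat_lit 0) (nat_lit 0) (XT.nd (nat_lit 78) (nat_lit 0) (nat_lit 0) (XT.lf (nat_lit 0) (nat_lit 4109515458873) (nat_lit 76) (nat_lit 331139975455) (nat_lit 76) (nat_lit 330891504634) (nat_lit 1) (nat_lit 4) (nat_lit 2) (nat_lit 5) (nat_lit 2) (nat_lit 4) (nat_lit 410) (nat_lit 253) (nat_lit 237)) (XT.lf (nat_lit 0) (nat_lit 4439141895417) (nat_lit 76) (nat_lit 357174890941) (nat_lit 76) (nat_lit 356918833277) (nat_lit 1) (nat_lit 4) (nat_lit 2) (nat_lit 5) (nat_lit 2) (nat_lit 4) (nat_lit 411) (nat_lit 253) (nat_lit 236))) (XT.nd (nat_lit 45318) (nat_lit 0) (nat_lit 0) (XT.lf (nat_lit 0) (nat_lit 4795115383832) (nat_lit 76) (nat_lit 385304014203) (nat_lit 76) (nat_lit 385040931685) (nat_lit 1) (nat_lit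 4) (nat_lit 2) (nat_lit 5) (nat_lit 2) (nat_lit 4) (nat_lit 412) (nat_lit 253) (nat_lit 235)) (XT.lf (nat_lit 0) (nat_lit 507843271277) (nat_lit 76) (nat_lit 44725982521) (nat_lit 76) (nat_lit 44725982521) (nat_lit 1) (nat_lit 4) (nat_lit 2) (nat_lit 5) (nat_lit 2) (nat_lit 4) (nat_lit 392) (nat_lit 254) (nat_lit 254)))) (XT.nd (nat_lit 156) (nat_lit 0) (nat_lit 0) (XT.nd (nat_lit 78) (nat_lit 0) (nat_lit 0) (XT.lf (nat_lit 0) (nat_lit 1098691627591) (nat_lit 76) (nat_lit 95711602150) (nat_lit 76) (nat_lit 95683530694) (nat_lit 1) (nat_lit 4) (nat_lit 2) (nat_lit 5) (nat_lit 2) (nat_lit 4) (nat_lit 393) (nat_lit 254) (nat_lit 253)) (XT.lf (nat_lit 0) (nat_lit 1188251785717) (nat_lit 76) (nat_lit 102514244217) (nat_lit 76) (nat_lit 102460180672) (nat_lit 1) (nat_lit 4) (nat_lit 2) (nat_lit 5) (nat_lit 2) (nat_lit 4) (nat_lit 394) (nat_lit 254) (nat_lit 252))) (XT.nd (nat_lit 78) (nat_lit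 0) (nat_lit 0) (XT.lf (nat_lit 0) (nat_lit 1284897743795) (nat_lit 76) (nat_lit 109900203196) (nat_lit 76) (nat_lit 109822072902) (nat_lit 1) (nat_lit 4) (nat_lit 2) (nat_lit 5) (nat_lit 2) (nat_lit 4) (nat_lit 395) (nat_lit 254) (nat_lit 251)) (XT.lf (nat_lit 0) (nat_lit 1389202218615) (nat_lit 76) (nat_lit 117913247735) (nat_lit 76) (nat_lit 117812833414) (nat_lit 1) (nat_lit 4) (nat_lit 2) (nat_lit 5) (nat_lit 2) (nat_lit 4) (nat_lit 396) (nat_lit 254) (nat_lit 250))))) (XT.nd (nat_lit 312) (nat_lit 0) (nat_lit 0) (XT.nd (nat_lit 156) (nat_lit 0) (nat_lit 0) (XT.nd (nat_lit 78) (nat_lit 0) (nat_lit 0) (XT.lf (nat_lit 0) (nat_lit 1501783310769) (nat_lit 76) (nat_lit 126600862541) (nat_lit 76) (nat_lit 126479814862) (nat_lit 1) (nat_lit 4) (nat_lit 2) (nat_lit 5) (nat_lit 2) (nat_lit 4) (nat_lit 397) (nat_lit 254) (nat_lit 249)) (XT.lf (nat_lit 0) (nat_lit 1623308167468) (nat_lit 76)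 (nat_lit 136014529777) (nat_lit 76) (nat_lit 135874377136) (nat_lit 1) (nat_lit 4) (nat_lit 2) (nat_lit 5) (nat_lit 2) (nat_lit 4) (nat_lit 398) (nat_lit 254) (nat_lit 248))) (XT.nd (nat_lit 78) (nat_lit 0) (nat_lit 0) (XT.lf (nat_lit 0) (nat_lit 1754496936011) (nat_lit 76) (nat_lit 146210034136) (nat_lit 76) (nat_lit 146052191716) (nat_lit 1) (nat_lit 4) (nat_lit 2) (nat_lit 5) (nat_lit 2) (nat_lit 4) (nat_lit 399) (nat_lit 254) (nat_lit 247)) (XT.lf (nat_lit 0) (nat_lit 1896127031325) (nat_lit 76) (nat_lit 157247793423) (nat_lit 76) (nat_lit 157073571578) (nat_lit 1) (nat_lit 4) (nat_lit 2) (nat_lit 5) (nat_lit 2) (nat_lit 4) (nat_lit 400) (nat_lit 254) (nat_lit 246)))) (XT.nd (nat_lit 156) (nat_lit 0) (nat_lit 0) (XT.nd (nat_lit 78) (nat_lit 0) (nat_lit 0) (XT.lf (nat_lit 0) (nat_lit 2049037742861) (nat_lit 76) (nat_lit 169193216581) (nat_lit 76) (nat_lit 169003828602) (nat_lit 1)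 (nat_lit 4) (nat_lit 2) (nat_lit 5) (nat_lit 2) (nat_lit 4) (nat_lit 401) (nat_lit 254) (nat_lit 245)) (XT.lf (nat_lit 0) (nat_lit 2214135208171) (nat_lit 76) (nat_lit 182117091303) (nat_lit 76) (nat_lit 181913660607) (nat_lit 1) (nat_lit 4) (nat_lit 2) (nat_lit 5) (nat_lit 2) (nat_lit 4) (nat_lit 402) (nat_lit 254) (nat_lit 244))) (XT.nd (nat_lit 78) (nat_lit 0) (nat_lit 0) (XT.lf (nat_lit 0) (nat_lit 2392397782603) (nat_lit 76) (nat_lit 196096003513) (nat_lit 76) (nat_lit 195879570302) (nat_lit 1) (nat_lit 4) (nat_lit 2) (nat_lit 5) (nat_lit 2) (nat_lit 4) (nat_lit 403) (nat_lit 254) (nat_lit 243)) (XT.lf (nat_lit 0) (nat_lit 2584881836970) (nat_lit 76) (nat_lit 211212791211) (nat_lit 76) (nat_lit 210984318633) (nat_lit 1) (nat_lit 4) (nat_lit 2) (nat_lit 5) (nat_lit 2) (nat_lit 4) (nat_lit 404) (nat_lit 254) (nat_lit 242)))))) (XT.nd (nat_lit 45708) (nat_lit 0) (nat_lit 0) (XT.nd (nat_lit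 312) (nat_lit 0) (nat_lit 0) (XT.nd (nat_lit 156) (nat_lit 0) (nat_lit 0) (XT.nd (nat_lit 78) (nat_lit 0) (nat_lit 0) (XT.lf (nat_lit 0) (nat_lit 2792728017519) (nat_lit 76) (nat_lit 227557035359) (nat_lit 76) (nat_lit 227317415220) (nat_lit 1) (nat_lit 4) (nat_lit 2) (nat_lit 5) (nat_lit 2) (nat_lit 4) (nat_lit 405) (nat_lit 254) (nat_lit 241)) (XT.lf (nat_lit 0) (nat_lit 3017168005321) (nat_lit 76) (nat_lit 245225590738) (nat_lit 76) (nat_lit 244975648783) (nat_lit 1) (nat_lit 4) (nat_lit 2) (nat_lit 5) (nat_lit 2) (nat_lit 4) (nat_lit 406) (nat_lit 254) (nat_lit 240))) (XT.nd (nat_lit 78) (nat_lit 0) (nat_lit 0) (XT.lf (nat_lit 0) (nat_lit 3259531815118) (nat_lit 76) (nat_lit 264323159899) (nat_lit 76) (nat_lit 264063660707) (nat_lit 1) (nat_lit 4) (nat_lit 2) (nat_lit 5) (nat_lit 2) (nat_lit 4) (nat_lit 407) (nat_lit 254) (nat_lit 239)) (XT.lf (nat_lit 0) (nat_lit 3521255676894) (nat_lit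 76) (nat_lit 284962913622) (nat_lit 76) (nat_lit 284694565135) (nat_lit 1) (nat_lit 4) (nat_lit 2) (nat_lit 5) (nat_lit 2) (nat_lit 4) (nat_lit 408) (nat_lit 254) (nat_lit 238)))) (XT.nd (nat_lit 156) (nat_lit 0) (nat_lit 0) (XT.nd (nat_lit 78) (nat_lit 0) (nat_lit 0) (XT.lf (nat_lit 0) (nat_lit 3803890546867) (nat_lit 76) (nat_lit 307267161557) (nat_lit 76) (nat_lit 306990619280) (nat_lit 1) (nat_lit 4) (nat_lit 2) (nat_lit 5) (nat_lit 2) (nat_lit 4) (nat_lit 409) (nat_lit 254) (nat_lit 237)) (XT.lf (nat_lit 0) (nat_lit 4109111298341) (nat_lit 76) (nat_lit 331368077027) (nat_lit 76) (nat_lit 331083947908) (nat_lit 1) (nat_lit 4) (nat_lit 2) (nat_lit 5) (nat_lit 2) (nat_lit 4) (nat_lit 410) (nat_lit 254) (nat_lit 236))) (XT.nd (nat_lit 78) (nat_lit 0) (nat_lit 0) (XT.lf (nat_lit 0) (nat_lit 4438726646879) (nat_lit 76) (nat_lit 357408480272) (nat_lit 76) (nat_lit 357117326297) (nat_lit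 1) (nat_lit 4) (nat_lit 2) (nat_lit 5) (nat_lit 2) (nat_lit 4) (nat_lit 411) (nat_lit 254) (nat_lit 235)) (XT.lf (nat_lit 0) (nat_lit 4794689868621) (nat_lit 76) (nat_lit 385542684791) (nat_lit 76) (nat_lit 385245026321) (nat_lit 1) (nat_lit 4) (nat_lit 2) (nat_lit 5) (nat_lit 2) (nat_lit 4) (nat_lit 412) (nat_lit 254) (nat_lit 234))))) (XT.nd (nat_lit 312) (nat_lit 0) (nat_lit 0) (XT.nd (nat_lit 156) (nat_lit 0) (nat_lit 0) (XT.nd (nat_lit 78) (nat_lit 0) (nat_lit 0) (XT.lf (nat_lit 0) (nat_lit 433728923177) (nat_lit 76) (nat_lit 39211480383) (nat_lit 76) (nat_lit 39211480383) (nat_lit 1) (nat_lit 4) (nat_lit 2) (nat_lit 5) (nat_lit 2) (nat_lit 4) (nat_lit 390) (nat_lit 255) (nat_lit 255)) (XT.lf (nat_lit 0) (nat_lit 938744648624) (nat_lit 76) (nat_lit 83728555924) (nat_lit 76) (nat_lit 83698238751) (nat_lit 1) (nat_lit 4) (nat_lit 2) (nat_lit 5) (nat_lit 2) (nat_lit 4) (nat_lit 391)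 (nat_lit 255) (nat_lit 254))) (XT.nd (nat_lit 78) (nat_lit 0) (nat_lit 0) (XT.lf (nat_lit 0) (nat_lit 1015642234666) (nat_lit 76) (nat_lit 89504211404) (nat_lit 76) (nat_lit 89445822775) (nat_lit 1) (nat_lit 4) (nat_lit 2) (nat_lit 5) (nat_lit 2) (nat_lit 4) (nat_lit 392) (nat_lit 255) (nat_lit 253)) (XT.lf (nat_lit 0) (nat_lit 1098606293878) (nat_lit 76) (nat_lit 95784153314) (nat_lit 76) (nat_lit 95699772596) (nat_lit 1) (nat_lit 4) (nat_lit 2) (nat_lit 5) (nat_lit 2) (nat_lit 4) (nat_lit 393) (nat_lit 255) (nat_lit 252)))) (XT.nd (nat_lit 156) (nat_lit 0) (nat_lit 0) (XT.nd (nat_lit 78) (nat_lit 0) (nat_lit 0) (XT.lf (nat_lit 0) (nat_lit 1188128465130) (nat_lit 76) (nat_lit 102605596125) (nat_lit 76) (nat_lit 102497148658) (nat_lit 1) (nat_lit 4) (nat_lit 2) (nat_lit 5) (nat_lit 2) (nat_lit 4) (nat_lit 394) (nat_lit 255) (nat_lit 251)) (XT.lf (nat_lit 0) (nat_lit 1284739250178) (nat_lit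 76) (nat_lit 110008963201) (nat_lit 76) (nat_lit 109878231708) (nat_lit 1) (nat_lit 4) (nat_lit 2) (nat_lit 5) (nat_lit 2) (nat_lit 4) (nat_lit 395) (nat_lit 255) (nat_lit 250))) (XT.nd (nat_lit 78) (nat_lit 0) (nat_lit 0) (XT.lf (nat_lit 0) (nat_lit 1389011157376) (nat_lit 76) (nat_lit 118038126348) (nat_lit 76) (nat_lit 117886761496) (nat_lit 1) (nat_lit 4) (nat_lit 2) (nat_lit 5) (nat_lit 2) (nat_lit 4) (nat_lit 396) (nat_lit 255) (nat_lit 249)) (XT.nd (nat_lit 78) (nat_lit 0) (nat_lit 0) (XT.lf (nat_lit 0) (nat_lit 1501562094324) (nat_lit 76) (nat_lit 126740665791) (nat_lit 76) (nat_lit 126570195978) (nat_lit 1) (nat_lit 4) (nat_lit 2) (nat_lit 5) (nat_lit 2) (nat_lit 4) (nat_lit 397) (nat_lit 255) (nat_lit 248)) (XT.lf (nat_lit 0) (nat_lit 1623059029537) (nat_lit 76) (nat_lit 136168152134) (nat_lit 76) (nat_lit 135979992542) (nat_lit 1) (nat_lit 4) (nat_lit 2) (nat_lit 5) (nat_lit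 2) (nat_lit 4) (nat_lit 398) (nat_lit 255) (nat_lit 247))))))))
noncomputable def xc4 : XT := (XT.nd (nat_lit 46176) (nat_lit 0) (nat_lit 0) (XT.nd (nat_lit 624) (nat_lit 0) (nat_lit 0) (XT.nd (nat_lit 312) (nat_lit 0) (nat_lit 0) (XT.nd (nat_lit 156) (nat_lit 0) (nat_lit 0) (XT.nd (nat_lit 78) (nat_lit 0) (nat_lit 0) (XT.lf (nat_lit 0) (nat_lit 1754221944853) (nat_lit 76) (nat_lit 146376451964) (nat_lit 76) (nat_lit 146171912947) (nat_lit 1) (nat_lit 4) (nat_lit 2) (nat_lit 5) (nat_lit 2) (nat_lit 4) (nat_lit 399) (nat_lit 255) (nat_lit 246)) (XT.lf (nat_lit 0) (nat_lit 1895828101992) (nat_lit 76) (nat_lit 157426058909) (nat_lit 76) (nat_lit 157206353757) (nat_lit 1) (nat_lit 4) (nat_lit 2) (nat_lit 5) (nat_lit 2) (nat_lit 4) (nat_lit 400) (nat_lit 255) (nat_lit 245))) (XT.nd (nat_lit 78) (nat_lit 0) (nat_lit 0) (XT.lf (nat_lit 0) (nat_lit 2048716648553) (nat_lit 76) (nat_lit 169382452120)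 (nat_lit 76) (nat_lit 169148704252) (nat_lit 1) (nat_lit 4) (nat_lit 2) (nat_lit 5) (nat_lit 2) (nat_lit 4) (nat_lit 401) (nat_lit 255) (nat_lit 244)) (XT.lf (nat_lit 0) (nat_lit 2213793590737) (nat_lit 76) (nat_lit 182316484300) (nat_lit 76) (nat_lit 182069733915) (nat_lit 1) (nat_lit 4) (nat_lit 2) (nat_lit 5) (nat_lit 2) (nat_lit 4) (nat_lit 402) (nat_lit 255) (nat_lit 243)))) (XT.nd (nat_lit 156) (nat_lit 0) (nat_lit 0) (XT.nd (nat_lit 78) (nat_lit 0) (nat_lit 0) (XT.lf (nat_lit 0) (nat_lit 2392037162275) (nat_lit 76) (nat_lit 196304801563) (nat_lit 76) (nat_lit 196046011813) (nat_lit 1) (nat_lit 4) (nat_lit 2) (nat_lit 5) (nat_lit 2) (nat_lit 4) (nat_lit 403) (nat_lit 255) (nat_lit 242)) (XT.lf (nat_lit 0) (nat_lit 2584503621369) (nat_lit 76) (nat_lit 211430297643) (nat_lit 76) (nat_lit 211160360331) (nat_lit 1) (nat_lit 4) (nat_lit 2) (nat_lit 5) (nat_lit 2) (nat_lit 4) (nat_lit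 404) (nat_lit 255) (nat_lit 241))) (XT.nd (nat_lit 78) (nat_lit 0) (nat_lit 0) (XT.lf (nat_lit 0) (nat_lit 2792333510000) (nat_lit 76) (nat_lit 227782605108) (nat_lit 76) (nat_lit 227502345980) (nat_lit 1) (nat_lit 4) (nat_lit 2) (nat_lit 5) (nat_lit 2) (nat_lit 4) (nat_lit 405) (nat_lit 255) (nat_lit 240)) (XT.lf (nat_lit 0) (nat_lit 3016758412692) (nat_lit 76) (nat_lit 245458626521) (nat_lit 76) (nat_lit 245168810156) (nat_lit 1) (nat_lit 4) (nat_lit 2) (nat_lit 5) (nat_lit 2) (nat_lit 4) (nat_lit 406) (nat_lit 255) (nat_lit 239))))) (XT.nd (nat_lit 312) (nat_lit 0) (nat_lit 0) (XT.nd (nat_lit 156) (nat_lit 0) (nat_lit 0) (XT.nd (nat_lit 78) (nat_lit 0) (nat_lit 0) (XT.lf (nat_lit 0) (nat_lit 3259108254794) (nat_lit 76) (nat_lit 264563108677) (nat_lit 76) (nat_lit 264264443018) (nat_lit 1) (nat_lit 4) (nat_lit 2) (nat_lit 5) (nat_lit 2) (nat_lit 4) (nat_lit 407) (nat_lit 255) (nat_lit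 238)) (XT.lf (nat_lit 0) (nat_lit 3520819183519) (nat_lit 76) (nat_lit 285209263320) (nat_lit 76) (nat_lit 284902403871) (nat_lit 1) (nat_lit 4) (nat_lit 2) (nat_lit 5) (nat_lit 2) (nat_lit 4) (nat_lit 408) (nat_lit 255) (nat_lit 237))) (XT.nd (nat_lit 78) (nat_lit 0) (nat_lit 0) (XT.lf (nat_lit 0) (nat_lit 3803442078445) (nat_lit 76) (nat_lit 307519438034) (nat_lit 76) (nat_lit 307204991742) (nat_lit 1) (nat_lit 4) (nat_lit 2) (nat_lit 5) (nat_lit 2) (nat_lit 4) (nat_lit 409) (nat_lit 255) (nat_lit 236)) (XT.lf (nat_lit 0) (nat_lit 4108651741912) (nat_lit 76) (nat_lit 331625841262) (nat_lit 76) (nat_lit 331304370115) (nat_lit 1) (nat_lit 4) (nat_lit 2) (nat_lit 5) (nat_lit 2) (nat_lit 4) (nat_lit 410) (nat_lit 255) (nat_lit 235)))) (XT.nd (nat_lit 45084) (nat_lit 0) (nat_lit 0) (XT.nd (nat_lit 78) (nat_lit 0) (nat_lit 0) (XT.lf (nat_lit 0) (nat_lit 4438256823778) (nat_lit 76) (nat_lit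 357671325764) (nat_lit 76) (nat_lit 357343350122) (nat_lit 1) (nat_lit 4) (nat_lit 2) (nat_lit 5) (nat_lit 2) (nat_lit 4) (nat_lit 411) (nat_lit 255) (nat_lit 234)) (XT.lf (nat_lit 0) (nat_lit 4794210539342) (nat_lit 76) (nat_lit 385810235151) (nat_lit 76) (nat_lit 385476236829) (nat_lit 1) (nat_lit 4) (nat_lit 2) (nat_lit 5) (nat_lit 2) (nat_lit 4) (nat_lit 412) (nat_lit 255) (nat_lit 233))) (XT.nd (nat_lit 78) (nat_lit 0) (nat_lit 0) (XT.lf (nat_lit 0) (nat_lit 370054629175) (nat_lit 76) (nat_lit 34552976369) (nat_lit 76) (nat_lit 34552976369) (nat_lit 1) (nat_lit 4) (nat_lit 2) (nat_lit 5) (nat_lit 2) (nat_lit 4) (nat_lit 388) (nat_lit 256) (nat_lit 256)) (XT.lf (nat_lit 0) (nat_lit 801359387545) (nat_lit 76) (nat_lit 73588727916) (nat_lit 76) (nat_lit 73555985370) (nat_lit 1) (nat_lit 4) (nat_lit 2) (nat_lit 5) (nat_lit 2) (nat_lit 4) (nat_lit 389) (nat_lit 256) (nat_lit 255))))))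 (XT.nd (nat_lit 624) (nat_lit 0) (nat_lit 0) (XT.nd (nat_lit 312) (nat_lit 0) (nat_lit 0) (XT.nd (nat_lit 156) (nat_lit 0) (nat_lit 0) (XT.nd (nat_lit 78) (nat_lit 0) (nat_lit 0) (XT.lf (nat_lit 0) (nat_lit 867409993833) (nat_lit 76) (nat_lit 78479386836) (nat_lit 76) (nat_lit 78416327117) (nat_lit 1) (nat_lit 4) (nat_lit 2) (nat_lit 5) (nat_lit 2) (nat_lit 4) (nat_lit 390) (nat_lit 256) (nat_lit 254)) (XT.lf (nat_lit 0) (nat_lit 938652488214) (nat_lit 76) (nat_lit 83806911181) (nat_lit 76) (nat_lit 83715780006) (nat_lit 1) (nat_lit 4) (nat_lit 2) (nat_lit 5) (nat_lit 2) (nat_lit 4) (nat_lit 391) (nat_lit 256) (nat_lit 253))) (XT.nd (nat_lit 78) (nat_lit 0) (nat_lit 0) (XT.lf (nat_lit 0) (nat_lit 1015509048432) (nat_lit 76) (nat_lit 89602871465) (nat_lit 76) (nat_lit 89485748201) (nat_lit 1) (nat_lit 4) (nat_lit 2) (nat_lit 5) (nat_lit 2) (nat_lit 4) (nat_lit 392) (nat_lit 256) (nat_lit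 252)) (XT.lf (nat_lit 0) (nat_lit 1098435120771) (nat_lit 76) (nat_lit 95901614119) (nat_lit 76) (nat_lit 95760424106) (nat_lit 1) (nat_lit 4) (nat_lit 2) (nat_lit 5) (nat_lit 2) (nat_lit 4) (nat_lit 393) (nat_lit 256) (nat_lit 251)))) (XT.nd (nat_lit 156) (nat_lit 0) (nat_lit 0) (XT.nd (nat_lit 78) (nat_lit 0) (nat_lit 0) (XT.lf (nat_lit 0) (nat_lit 1187922118992) (nat_lit 76) (nat_lit 102740465027) (nat_lit 76) (nat_lit 102576990986) (nat_lit 1) (nat_lit 4) (nat_lit 2) (nat_lit 5) (nat_lit 2) (nat_lit 4) (nat_lit 394) (nat_lit 256) (nat_lit 250)) (XT.lf (nat_lit 0) (nat_lit 1284500336418) (nat_lit 76) (nat_lit 110159950711) (nat_lit 76) (nat_lit 109975843312) (nat_lit 1) (nat_lit 4) (nat_lit 2) (nat_lit 5) (nat_lit 2) (nat_lit 4) (nat_lit 395) (nat_lit 256) (nat_lit 249))) (XT.nd (nat_lit 78) (nat_lit 0) (nat_lit 0) (XT.lf (nat_lit 0) (nat_lit 1388742088412) (nat_lit 76) (nat_lit 118204038494)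 (nat_lit 76) (nat_lit 118000826134) (nat_lit 1) (nat_lit 4) (nat_lit 2) (nat_lit 5) (nat_lit 2) (nat_lit 4) (nat_lit 396) (nat_lit 256) (nat_lit 248)) (XT.lf (nat_lit 0) (nat_lit 1501265103874) (nat_lit 76) (nat_lit 126920397045) (nat_lit 76) (nat_lit 126699494907) (nat_lit 1) (nat_lit 4) (nat_lit 2) (nat_lit 5) (nat_lit 2) (nat_lit 4) (nat_lit 397) (nat_lit 256) (nat_lit 247))))) (XT.nd (nat_lit 312) (nat_lit 0) (nat_lit 0) (XT.nd (nat_lit 156) (nat_lit 0) (nat_lit 0) (XT.nd (nat_lit 78) (nat_lit 0) (nat_lit 0) (XT.lf (nat_lit 0) (nat_lit 1622736185859) (nat_lit 76) (nat_lit 136360678859) (nat_lit 76) (nat_lit 136123397296) (nat_lit 1) (nat_lit 4) (nat_lit 2) (nat_lit 5) (nat_lit 2) (nat_lit 4) (nat_lit 398) (nat_lit 256) (nat_lit 246)) (XT.lf (nat_lit 0) (nat_lit 1753875163001) (nat_lit 76) (nat_lit 146580826347) (nat_lit 76) (nat_lit 146328378649) (nat_lit 1) (nat_lit 4) (nat_lit 2)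 (nat_lit 5) (nat_lit 2) (nat_lit 4) (nat_lit 399) (nat_lit 256) (nat_lit 245))) (XT.nd (nat_lit 78) (nat_lit 0) (nat_lit 0) (XT.lf (nat_lit 0) (nat_lit 1895459155164) (nat_lit 76) (nat_lit 157641403345) (nat_lit 76) (nat_lit 157374912930) (nat_lit 1) (nat_lit 4) (nat_lit 2) (nat_lit 5) (nat_lit 2) (nat_lit 4) (nat_lit 400) (nat_lit 256) (nat_lit 244)) (XT.lf (nat_lit 0) (nat_lit 2048327178599) (nat_lit 76) (nat_lit 169607954014) (nat_lit 76) (nat_lit 169328461083) (nat_lit 1) (nat_lit 4) (nat_lit 2) (nat_lit 5) (nat_lit 2) (nat_lit 4) (nat_lit 401) (nat_lit 256) (nat_lit 243)))) (XT.nd (nat_lit 156) (nat_lit 0) (nat_lit 0) (XT.nd (nat_lit 78) (nat_lit 0) (nat_lit 0) (XT.lf (nat_lit 0) (nat_lit 2213385117888) (nat_lit 76) (nat_lit 182551391246) (nat_lit 76) (nat_lit 182259858949) (nat_lit 1) (nat_lit 4) (nat_lit 2) (nat_lit 5) (nat_lit 2) (nat_lit 4) (nat_lit 402) (nat_lit 256) (nat_lit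 242)) (XT.lf (nat_lit 0) (nat_lit 2391611094154) (nat_lit 76) (nat_lit 196548416892) (nat_lit 76) (nat_lit 196245737033) (nat_lit 1) (nat_lit 4) (nat_lit 2) (nat_lit 5) (nat_lit 2) (nat_lit 4) (nat_lit 403) (nat_lit 256) (nat_lit 241))) (XT.nd (nat_lit 78) (nat_lit 0) (nat_lit 0) (XT.lf (nat_lit 0) (nat_lit 2584061261329) (nat_lit 76) (nat_lit 211681976288) (nat_lit 76) (nat_lit 211368974614) (nat_lit 1) (nat_lit 4) (nat_lit 2) (nat_lit 5) (nat_lit 2) (nat_lit 4) (nat_lit 404) (nat_lit 256) (nat_lit 240)) (XT.lf (nat_lit 0) (nat_lit 2791876064849) (nat_lit 76) (nat_lit 228041749788) (nat_lit 76) (nat_lit 227719190876) (nat_lit 1) (nat_lit 4) (nat_lit 2) (nat_lit 5) (nat_lit 2) (nat_lit 4) (nat_lit 405) (nat_lit 256) (nat_lit 239)))))))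
noncomputable def xc5 : XT := (XT.nd (nat_lit 46020) (nat_lit 0) (nat_lit 0) (XT.nd (nat_lit 45396) (nat_lit 0) (nat_lit 0) (XT.nd (nat_lit 312) (nat_lit 0) (nat_lit 0) (XT.nd (nat_lit 156) (nat_lit 0) (nat_lit 0) (XT.nd (nat_lit 78) (nat_lit 0) (nat_lit 0) (XT.lf (nat_lit 0) (nat_lit 3016286999847) (nat_lit 76) (nat_lit 245724684196) (nat_lit 76) (nat_lit 245393275990) (nat_lit 1) (nat_lit 4) (nat_lit 2) (nat_lit 5) (nat_lit 2) (nat_lit 4) (nat_lit 406) (nat_lit 256) (nat_lit 238)) (XT.lf (nat_lit 0) (nat_lit 3258623908898) (nat_lit 76) (nat_lit 264835567272) (nat_lit 76) (nat_lit 264495965276) (nat_lit 1) (nat_lit 4) (nat_lit 2) (nat_lit 5) (nat_lit 2) (nat_lit 4) (nat_lit 407) (nat_lit 256) (nat_lit 237))) (XT.nd (nat_lit 78) (nat_lit 0) (nat_lit 0) (XT.lf (nat_lit 0) (nat_lit 3520322862577) (nat_lit 76) (nat_lit 285487648694) (nat_lit 76) (nat_lit 285140459855) (nat_lit 1) (nat_lit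 4) (nat_lit 2) (nat_lit 5) (nat_lit 2) (nat_lit 4) (nat_lit 408) (nat_lit 256) (nat_lit 236)) (XT.lf (nat_lit 0) (nat_lit 3802934669497) (nat_lit 76) (nat_lit 307803311166) (nat_lit 76) (nat_lit 307449097473) (nat_lit 1) (nat_lit 4) (nat_lit 2) (nat_lit 5) (nat_lit 2) (nat_lit 4) (nat_lit 409) (nat_lit 256) (nat_lit 235)))) (XT.nd (nat_lit 156) (nat_lit 0) (nat_lit 0) (XT.nd (nat_lit 78) (nat_lit 0) (nat_lit 0) (XT.lf (nat_lit 0) (nat_lit 4108134066291) (nat_lit 76) (nat_lit 331914795652) (nat_lit 76) (nat_lit 331554077463) (nat_lit 1) (nat_lit 4) (nat_lit 2) (nat_lit 5) (nat_lit 2) (nat_lit 4) (nat_lit 410) (nat_lit 256) (nat_lit 234)) (XT.lf (nat_lit 0) (nat_lit 4437729641979) (nat_lit 76) (nat_lit 357964985021) (nat_lit 76) (nat_lit 357598244152) (nat_lit 1) (nat_lit 4) (nat_lit 2) (nat_lit 5) (nat_lit 2) (nat_lit 4) (nat_lit 411) (nat_lit 256) (nat_lit 233))) (XT.nd (nat_lit 44850)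 (nat_lit 0) (nat_lit 0) (XT.lf (nat_lit 0) (nat_lit 4793674555526) (nat_lit 76) (nat_lit 386108250768) (nat_lit 76) (nat_lit 385735933343) (nat_lit 1) (nat_lit 4) (nat_lit 2) (nat_lit 5) (nat_lit 2) (nat_lit 4) (nat_lit 412) (nat_lit 256) (nat_lit 232)) (XT.lf (nat_lit 0) (nat_lit 315320343940) (nat_lit 76) (nat_lit 30633896195) (nat_lit 76) (nat_lit 30633896195) (nat_lit 1) (nat_lit 4) (nat_lit 2) (nat_lit 5) (nat_lit 2) (nat_lit 4) (nat_lit 386) (nat_lit 257) (nat_lit 257))))) (XT.nd (nat_lit 312) (nat_lit 0) (nat_lit 0) (XT.nd (nat_lit 156) (nat_lit 0) (nat_lit 0) (XT.nd (nat_lit 78) (nat_lit 0) (nat_lit 0) (XT.lf (nat_lit 0) (nat_lit 683296642520) (nat_lit 76) (nat_lit 65039858659) (nat_lit 76) (nat_lit 65004496708) (nat_lit 1) (nat_lit 4) (nat_lit 2) (nat_lit 5) (nat_lit 2) (nat_lit 4) (nat_lit 387) (nat_lit 257) (nat_lit 256)) (XT.lf (nat_lit 0) (nat_lit 740057577628) (nat_lit 76)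 (nat_lit 69166892893) (nat_lit 76) (nat_lit 69098788396) (nat_lit 1) (nat_lit 4) (nat_lit 2) (nat_lit 5) (nat_lit 2) (nat_lit 4) (nat_lit 388) (nat_lit 257) (nat_lit 255))) (XT.nd (nat_lit 78) (nat_lit 0) (nat_lit 0) (XT.lf (nat_lit 0) (nat_lit 801259854303) (nat_lit 76) (nat_lit 73673351594) (nat_lit 76) (nat_lit 73574929925) (nat_lit 1) (nat_lit 4) (nat_lit 2) (nat_lit 5) (nat_lit 2) (nat_lit 4) (nat_lit 389) (nat_lit 257) (nat_lit 254)) (XT.lf (nat_lit 0) (nat_lit 867266152701) (nat_lit 76) (nat_lit 78585939702) (nat_lit 76) (nat_lit 78459446577) (nat_lit 1) (nat_lit 4) (nat_lit 2) (nat_lit 5) (nat_lit 2) (nat_lit 4) (nat_lit 390) (nat_lit 257) (nat_lit 253)))) (XT.nd (nat_lit 156) (nat_lit 0) (nat_lit 0) (XT.nd (nat_lit 78) (nat_lit 0) (nat_lit 0) (XT.lf (nat_lit 0) (nat_lit 938467621258) (nat_lit 76) (nat_lit 83933768850) (nat_lit 76) (nat_lit 83781283636) (nat_lit 1) (nat_lit 4)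 (nat_lit 2) (nat_lit 5) (nat_lit 2) (nat_lit 4) (nat_lit 391) (nat_lit 257) (nat_lit 252)) (XT.lf (nat_lit 0) (nat_lit 1015286194603) (nat_lit 76) (nat_lit 89748529878) (nat_lit 76) (nat_lit 89571977915) (nat_lit 1) (nat_lit 4) (nat_lit 2) (nat_lit 5) (nat_lit 2) (nat_lit 4) (nat_lit 392) (nat_lit 257) (nat_lit 251))) (XT.nd (nat_lit 78) (nat_lit 0) (nat_lit 0) (XT.lf (nat_lit 0) (nat_lit 1098177093910) (nat_lit 76) (nat_lit 96064680629) (nat_lit 76) (nat_lit 95865844639) (nat_lit 1) (nat_lit 4) (nat_lit 2) (nat_lit 5) (nat_lit 2) (nat_lit 4) (nat_lit 393) (nat_lit 257) (nat_lit 250)) (XT.lf (nat_lit 0) (nat_lit 1187631524510) (nat_lit 76) (nat_lit 102919650144) (nat_lit 76) (nat_lit 102700180796) (nat_lit 1) (nat_lit 4) (nat_lit 2) (nat_lit 5) (nat_lit 2) (nat_lit 4) (nat_lit 394) (nat_lit 257) (nat_lit 249)))))) (XT.nd (nat_lit 624) (nat_lit 0) (nat_lit 0) (XT.nd (nat_lit 312) (nat_lit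 0) (nat_lit 0) (XT.nd (nat_lit 156) (nat_lit 0) (nat_lit 0) (XT.nd (nat_lit 78) (nat_lit 0) (nat_lit 0) (XT.lf (nat_lit 0) (nat_lit 1284179586731) (nat_lit 76) (nat_lit 110354060465) (nat_lit 76) (nat_lit 110115486156) (nat_lit 1) (nat_lit 4) (nat_lit 2) (nat_lit 5) (nat_lit 2) (nat_lit 4) (nat_lit 395) (nat_lit 257) (nat_lit 248)) (XT.lf (nat_lit 0) (nat_lit 1388393417239) (nat_lit 76) (nat_lit 118411967357) (nat_lit 76) (nat_lit 118155703268) (nat_lit 1) (nat_lit 4) (nat_lit 2) (nat_lit 5) (nat_lit 2) (nat_lit 4) (nat_lit 396) (nat_lit 257) (nat_lit 247))) (XT.nd (nat_lit 78) (nat_lit 0) (nat_lit 0) (XT.lf (nat_lit 0) (nat_lit 1500890579473) (nat_lit 76) (nat_lit 127141121379) (nat_lit 76) (nat_lit 126868477865) (nat_lit 1) (nat_lit 4) (nat_lit 2) (nat_lit 5) (nat_lit 2) (nat_lit 4) (nat_lit 397) (nat_lit 257) (nat_lit 246)) (XT.lf (nat_lit 0) (nat_lit 1622337723284) (nat_lit 76) (nat_lit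 136593250851) (nat_lit 76) (nat_lit 136305441203) (nat_lit 1) (nat_lit 4) (nat_lit 2) (nat_lit 5) (nat_lit 2) (nat_lit 4) (nat_lit 398) (nat_lit 257) (nat_lit 245)))) (XT.nd (nat_lit 156) (nat_lit 0) (nat_lit 0) (XT.nd (nat_lit 78) (nat_lit 0) (nat_lit 0) (XT.lf (nat_lit 0) (nat_lit 1753454535450) (nat_lit 76) (nat_lit 146824368392) (nat_lit 76) (nat_lit 146522516027) (nat_lit 1) (nat_lit 4) (nat_lit 2) (nat_lit 5) (nat_lit 2) (nat_lit 4) (nat_lit 399) (nat_lit 257) (nat_lit 244)) (XT.lf (nat_lit 0) (nat_lit 1895018004487) (nat_lit 76) (nat_lit 157895102847) (nat_lit 76) (nat_lit 157580247967) (nat_lit 1) (nat_lit 4) (nat_lit 2) (nat_lit 5) (nat_lit 2) (nat_lit 4) (nat_lit 400) (nat_lit 257) (nat_lit 243))) (XT.nd (nat_lit 78) (nat_lit 0) (nat_lit 0) (XT.lf (nat_lit 0) (nat_lit 2047867025028) (nat_lit 76) (nat_lit 169871058569) (nat_lit 76) (nat_lit 169544164322) (nat_lit 1) (nat_lit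 4) (nat_lit 2) (nat_lit 5) (nat_lit 2) (nat_lit 4) (nat_lit 401) (nat_lit 257) (nat_lit 242)) (XT.lf (nat_lit 0) (nat_lit 2212907369044) (nat_lit 76) (nat_lit 182823204183) (nat_lit 76) (nat_lit 182485162375) (nat_lit 1) (nat_lit 4) (nat_lit 2) (nat_lit 5) (nat_lit 2) (nat_lit 4) (nat_lit 402) (nat_lit 257) (nat_lit 241))))) (XT.nd (nat_lit 312) (nat_lit 0) (nat_lit 0) (XT.nd (nat_lit 156) (nat_lit 0) (nat_lit 0) (XT.nd (nat_lit 78) (nat_lit 0) (nat_lit 0) (XT.lf (nat_lit 0) (nat_lit 2391117053391) (nat_lit 76) (nat_lit 196828293146) (nat_lit 76) (nat_lit 196479929521) (nat_lit 1) (nat_lit 4) (nat_lit 2) (nat_lit 5) (nat_lit 2) (nat_lit 4) (nat_lit 403) (nat_lit 257) (nat_lit 240)) (XT.lf (nat_lit 0) (nat_lit 2583552135456) (nat_lit 76) (nat_lit 211969318576) (nat_lit 76) (nat_lit 211611397715) (nat_lit 1) (nat_lit 4) (nat_lit 2) (nat_lit 5) (nat_lit 2) (nat_lit 4) (nat_lit 404) (nat_lit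 257) (nat_lit 239))) (XT.nd (nat_lit 78) (nat_lit 0) (nat_lit 0) (XT.lf (nat_lit 0) (nat_lit 2791352971282) (nat_lit 76) (nat_lit 228336005070) (nat_lit 76) (nat_lit 227969234915) (nat_lit 1) (nat_lit 4) (nat_lit 2) (nat_lit 5) (nat_lit 2) (nat_lit 4) (nat_lit 405) (nat_lit 257) (nat_lit 238)) (XT.lf (nat_lit 0) (nat_lit 3015750973229) (nat_lit 76) (nat_lit 246025340399) (nat_lit 76) (nat_lit 245650376454) (nat_lit 1) (nat_lit 4) (nat_lit 2) (nat_lit 5) (nat_lit 2) (nat_lit 4) (nat_lit 406) (nat_lit 257) (nat_lit 237)))) (XT.nd (nat_lit 156) (nat_lit 0) (nat_lit 0) (XT.nd (nat_lit 78) (nat_lit 0) (nat_lit 0) (XT.lf (nat_lit 0) (nat_lit 3258075907234) (nat_lit 76) (nat_lit 265142150254) (nat_lit 76) (nat_lit 264759599465) (nat_lit 1) (nat_lit 4) (nat_lit 2) (nat_lit 5) (nat_lit 2) (nat_lit 4) (nat_lit 407) (nat_lit 257) (nat_lit 236)) (XT.lf (nat_lit 0) (nat_lit 3519763772906) (nat_lit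 76) (nat_lit 285799719434) (nat_lit 76) (nat_lit 285410143791) (nat_lit 1) (nat_lit 4) (nat_lit 2) (nat_lit 5) (nat_lit 2) (nat_lit 4) (nat_lit 408) (nat_lit 257) (nat_lit 235))) (XT.nd (nat_lit 78) (nat_lit 0) (nat_lit 0) (XT.lf (nat_lit 0) (nat_lit 3802365313153) (nat_lit 76) (nat_lit 308120463164) (nat_lit 76) (nat_lit 307724383025) (nat_lit 1) (nat_lit 4) (nat_lit 2) (nat_lit 5) (nat_lit 2) (nat_lit 4) (nat_lit 409) (nat_lit 257) (nat_lit 234)) (XT.nd (nat_lit 78) (nat_lit 0) (nat_lit 0) (XT.lf (nat_lit 0) (nat_lit 4107555203770) (nat_lit 76) (nat_lit 332236652517) (nat_lit 76) (nat_lit 331834549698) (nat_lit 1) (nat_lit 4) (nat_lit 2) (nat_lit 5) (nat_lit 2) (nat_lit 4) (nat_lit 410) (nat_lit 257) (nat_lit 233)) (XT.lf (nat_lit 0) (nat_lit 4437141977440) (nat_lit 76) (nat_lit 358291198246) (nat_lit 76) (nat_lit 357883518871) (nat_lit 1) (nat_lit 4) (nat_lit 2) (nat_lit 5) (nat_lit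 2) (nat_lit 4) (nat_lit 411) (nat_lit 257) (nat_lit 232))))))))
noncomputable def xc6 : XT := (XT.nd (nat_lit 45864) (nat_lit 0) (nat_lit 0) (XT.nd (nat_lit 45240) (nat_lit 0) (nat_lit 0) (XT.nd (nat_lit 44928) (nat_lit 0) (nat_lit 0) (XT.nd (nat_lit 44772) (nat_lit 0) (nat_lit 0) (XT.nd (nat_lit 44694) (nat_lit 0) (nat_lit 0) (XT.lf (nat_lit 0) (nat_lit 4793078740972) (nat_lit 76) (nat_lit 386438497659) (nat_lit 76) (nat_lit 386025654806) (nat_lit 1) (nat_lit 4) (nat_lit 2) (nat_lit 5) (nat_lit 2) (nat_lit 4) (nat_lit 412) (nat_lit 257) (nat_lit 231)) (XT.lf (nat_lit 0) (nat_lit 268239167984) (nat_lit 76) (nat_lit 27354739679) (nat_lit 76) (nat_lit 27354739679) (nat_lit 1) (nat_lit 4) (nat_lit 2) (nat_lit 5) (nat_lit 2) (nat_lit 4) (nat_lit 384) (nat_lit 258) (nat_lit 258))) (XT.nd (nat_lit 78) (nat_lit 0) (nat_lit 0) (XT.lf (nat_lit 0) (nat_lit 581777678423) (nat_lit 76) (nat_lit 57866532013)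 (nat_lit 76) (nat_lit 57828341107) (nat_lit 1) (nat_lit 4) (nat_lit 2) (nat_lit 5) (nat_lit 2) (nat_lit 4) (nat_lit 385) (nat_lit 258) (nat_lit 257)) (XT.lf (nat_lit 0) (nat_lit 630584872701) (nat_lit 76) (nat_lit 61333607759) (nat_lit 76) (nat_lit 61260054903) (nat_lit 1) (nat_lit 4) (nat_lit 2) (nat_lit 5) (nat_lit 2) (nat_lit 4) (nat_lit 386) (nat_lit 258) (nat_lit 256)))) (XT.nd (nat_lit 156) (nat_lit 0) (nat_lit 0) (XT.nd (nat_lit 78) (nat_lit 0) (nat_lit 0) (XT.lf (nat_lit 0) (nat_lit 683189146618) (nat_lit 76) (nat_lit 65131252231) (nat_lit 76) (nat_lit 65024956828) (nat_lit 1) (nat_lit 4) (nat_lit 2) (nat_lit 5) (nat_lit 2) (nat_lit 4) (nat_lit 387) (nat_lit 258) (nat_lit 255)) (XT.lf (nat_lit 0) (nat_lit 739902229206) (nat_lit 76) (nat_lit 69281969988) (nat_lit 76) (nat_lit 69145357413) (nat_lit 1) (nat_lit 4) (nat_lit 2) (nat_lit 5) (nat_lit 2) (nat_lit 4) (nat_lit 388) (nat_lit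 258) (nat_lit 254))) (XT.nd (nat_lit 78) (nat_lit 0) (nat_lit 0) (XT.lf (nat_lit 0) (nat_lit 801060197991) (nat_lit 76) (nat_lit 73810357877) (nat_lit 76) (nat_lit 73645673846) (nat_lit 1) (nat_lit 4) (nat_lit 2) (nat_lit 5) (nat_lit 2) (nat_lit 4) (nat_lit 389) (nat_lit 258) (nat_lit 253)) (XT.lf (nat_lit 0) (nat_lit 867025470565) (nat_lit 76) (nat_lit 78743250789) (nat_lit 76) (nat_lit 78552574669) (nat_lit 1) (nat_lit 4) (nat_lit 2) (nat_lit 5) (nat_lit 2) (nat_lit 4) (nat_lit 390) (nat_lit 258) (nat_lit 252))))) (XT.nd (nat_lit 312) (nat_lit 0) (nat_lit 0) (XT.nd (nat_lit 156) (nat_lit 0) (nat_lit 0) (XT.nd (nat_lit 78) (nat_lit 0) (nat_lit 0) (XT.lf (nat_lit 0) (nat_lit 938188952249) (nat_lit 76) (nat_lit 84109880681) (nat_lit 76) (nat_lit 83895137812) (nat_lit 1) (nat_lit 4) (nat_lit 2) (nat_lit 5) (nat_lit 2) (nat_lit 4) (nat_lit 391) (nat_lit 258) (nat_lit 251)) (XT.lf (nat_lit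 0) (nat_lit 1014972352563) (nat_lit 76) (nat_lit 89942049806) (nat_lit 76) (nat_lit 89705022910) (nat_lit 1) (nat_lit 4) (nat_lit 2) (nat_lit 5) (nat_lit 2) (nat_lit 4) (nat_lit 392) (nat_lit 258) (nat_lit 250))) (XT.nd (nat_lit 78) (nat_lit 0) (nat_lit 0) (XT.lf (nat_lit 0) (nat_lit 1097830684249) (nat_lit 76) (nat_lit 96274319164) (nat_lit 76) (nat_lit 96016658910) (nat_lit 1) (nat_lit 4) (nat_lit 2) (nat_lit 5) (nat_lit 2) (nat_lit 4) (nat_lit 393) (nat_lit 258) (nat_lit 249)) (XT.lf (nat_lit 0) (nat_lit 1187254959643) (nat_lit 76) (nat_lit 103144213316) (nat_lit 76) (nat_lit 102867448101) (nat_lit 1) (nat_lit 4) (nat_lit 2) (nat_lit 5) (nat_lit 2) (nat_lit 4) (nat_lit 394) (nat_lit 258) (nat_lit 248)))) (XT.nd (nat_lit 156) (nat_lit 0) (nat_lit 0) (XT.nd (nat_lit 78) (nat_lit 0) (nat_lit 0) (XT.lf (nat_lit 0) (nat_lit 1283775100378) (nat_lit 76) (nat_lit 110592442746) (nat_lit 76)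 (nat_lit 110297987751) (nat_lit 1) (nat_lit 4) (nat_lit 2) (nat_lit 5) (nat_lit 2) (nat_lit 4) (nat_lit 395) (nat_lit 258) (nat_lit 247)) (XT.lf (nat_lit 0) (nat_lit 1387963077658) (nat_lit 76) (nat_lit 118663145108) (nat_lit 76) (nat_lit 118352310688) (nat_lit 1) (nat_lit 4) (nat_lit 2) (nat_lit 5) (nat_lit 2) (nat_lit 4) (nat_lit 396) (nat_lit 258) (nat_lit 246))) (XT.nd (nat_lit 78) (nat_lit 0) (nat_lit 0) (XT.lf (nat_lit 0) (nat_lit 1500436301718) (nat_lit 76) (nat_lit 127404146787) (nat_lit 76) (nat_lit 127078146233) (nat_lit 1) (nat_lit 4) (nat_lit 2) (nat_lit 5) (nat_lit 2) (nat_lit 4) (nat_lit 397) (nat_lit 258) (nat_lit 245)) (XT.lf (nat_lit 0) (nat_lit 1621861280553) (nat_lit 76) (nat_lit 136867246313) (nat_lit 76) (nat_lit 136527203042) (nat_lit 1) (nat_lit 4) (nat_lit 2) (nat_lit 5) (nat_lit 2) (nat_lit 4) (nat_lit 398) (nat_lit 258) (nat_lit 244)))))) (XT.nd (nat_lit 624)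 (nat_lit 0) (nat_lit 0) (XT.nd (nat_lit 312) (nat_lit 0) (nat_lit 0) (XT.nd (nat_lit 156) (nat_lit 0) (nat_lit 0) (XT.nd (nat_lit 78) (nat_lit 0) (nat_lit 0) (XT.lf (nat_lit 0) (nat_lit 1752957569593) (nat_lit 76) (nat_lit 147108521311) (nat_lit 76) (nat_lit 146755475525) (nat_lit 1) (nat_lit 4) (nat_lit 2) (nat_lit 5) (nat_lit 2) (nat_lit 4) (nat_lit 399) (nat_lit 258) (nat_lit 243)) (XT.lf (nat_lit 0) (nat_lit 1894502035736) (nat_lit 76) (nat_lit 158188660819) (nat_lit 76) (nat_lit 157823575666) (nat_lit 1) (nat_lit 4) (nat_lit 2) (nat_lit 5) (nat_lit 2) (nat_lit 4) (nat_lit 400) (nat_lit 258) (nat_lit 242))) (XT.nd (nat_lit 78) (nat_lit 0) (nat_lit 0) (XT.lf (nat_lit 0) (nat_lit 2047333461004) (nat_lit 76) (nat_lit 170173324923) (nat_lit 76) (nat_lit 169797092209) (nat_lit 1) (nat_lit 4) (nat_lit 2) (nat_lit 5) (nat_lit 2) (nat_lit 4) (nat_lit 401) (nat_lit 258) (nat_lit 241)) (XT.lf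 (nat_lit 0) (nat_lit 2212357513102) (nat_lit 76) (nat_lit 183133533854) (nat_lit 76) (nat_lit 182746979324) (nat_lit 1) (nat_lit 4) (nat_lit 2) (nat_lit 5) (nat_lit 2) (nat_lit 4) (nat_lit 402) (nat_lit 258) (nat_lit 240)))) (XT.nd (nat_lit 156) (nat_lit 0) (nat_lit 0) (XT.nd (nat_lit 78) (nat_lit 0) (nat_lit 0) (XT.lf (nat_lit 0) (nat_lit 2390552112339) (nat_lit 76) (nat_lit 197146088851) (nat_lit 76) (nat_lit 196749977083) (nat_lit 1) (nat_lit 4) (nat_lit 2) (nat_lit 5) (nat_lit 2) (nat_lit 4) (nat_lit 403) (nat_lit 258) (nat_lit 239)) (XT.lf (nat_lit 0) (nat_lit 2582973226709) (nat_lit 76) (nat_lit 212294027277) (nat_lit 76) (nat_lit 211889066215) (nat_lit 1) (nat_lit 4) (nat_lit 2) (nat_lit 5) (nat_lit 2) (nat_lit 4) (nat_lit 404) (nat_lit 258) (nat_lit 238))) (XT.nd (nat_lit 78) (nat_lit 0) (nat_lit 0) (XT.lf (nat_lit 0) (nat_lit 2790761129484) (nat_lit 76) (nat_lit 228667114691)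 (nat_lit 76) (nat_lit 228253959839) (nat_lit 1) (nat_lit 4) (nat_lit 2) (nat_lit 5) (nat_lit 2) (nat_lit 4) (nat_lit 405) (nat_lit 258) (nat_lit 237)) (XT.lf (nat_lit 0) (nat_lit 3015147156384) (nat_lit 76) (nat_lit 246362376799) (nat_lit 76) (nat_lit 245941635104) (nat_lit 1) (nat_lit 4) (nat_lit 2) (nat_lit 5) (nat_lit 2) (nat_lit 4) (nat_lit 406) (nat_lit 258) (nat_lit 236))))) (XT.nd (nat_lit 312) (nat_lit 0) (nat_lit 0) (XT.nd (nat_lit 156) (nat_lit 0) (nat_lit 0) (XT.nd (nat_lit 78) (nat_lit 0) (nat_lit 0) (XT.lf (nat_lit 0) (nat_lit 3257461002383) (nat_lit 76) (nat_lit 265484674412) (nat_lit 76) (nat_lit 265056907862) (nat_lit 1) (nat_lit 4) (nat_lit 2) (nat_lit 5) (nat_lit 2) (nat_lit 4) (nat_lit 407) (nat_lit 258) (nat_lit 235)) (XT.lf (nat_lit 0) (nat_lit 3519138601383) (nat_lit 76) (nat_lit 286147324849) (nat_lit 76) (nat_lit 285713053805) (nat_lit 1) (nat_lit 4) (nat_lit 2)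 (nat_lit 5) (nat_lit 2) (nat_lit 4) (nat_lit 408) (nat_lit 258) (nat_lit 234))) (XT.nd (nat_lit 78) (nat_lit 0) (nat_lit 0) (XT.lf (nat_lit 0) (nat_lit 3801730635452) (nat_lit 76) (nat_lit 308472773447) (nat_lit 76) (nat_lit 308032479722) (nat_lit 1) (nat_lit 4) (nat_lit 2) (nat_lit 5) (nat_lit 2) (nat_lit 4) (nat_lit 409) (nat_lit 258) (nat_lit 233)) (XT.lf (nat_lit 0) (nat_lit 4106911724051) (nat_lit 76) (nat_lit 332593319160) (nat_lit 76) (nat_lit 332147448878) (nat_lit 1) (nat_lit 4) (nat_lit 2) (nat_lit 5) (nat_lit 2) (nat_lit 4) (nat_lit 410) (nat_lit 258) (nat_lit 232)))) (XT.nd (nat_lit 44616) (nat_lit 0) (nat_lit 0) (XT.nd (nat_lit 78) (nat_lit 0) (nat_lit 0) (XT.lf (nat_lit 0) (nat_lit 4436490347706) (nat_lit 76) (nat_lit 358651898555) (nat_lit 76) (nat_lit 358200864795) (nat_lit 1) (nat_lit 4) (nat_lit 2) (nat_lit 5) (nat_lit 2) (nat_lit 4) (nat_lit 411) (nat_lit 258) (nat_lit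 231)) (XT.lf (nat_lit 0) (nat_lit 4792419564927) (nat_lit 76) (nat_lit 386802932843) (nat_lit 76) (nat_lit 386347118086) (nat_lit 1) (nat_lit 4) (nat_lit 2) (nat_lit 5) (nat_lit 2) (nat_lit 4) (nat_lit 412) (nat_lit 258) (nat_lit 230))) (XT.nd (nat_lit 78) (nat_lit 0) (nat_lit 0) (XT.lf (nat_lit 0) (nat_lit 227706871835) (nat_lit 76) (nat_lit 24630680400) (nat_lit 76) (nat_lit 24630680400) (nat_lit 1) (nat_lit 4) (nat_lit 2) (nat_lit 5) (nat_lit 2) (nat_lit 4) (nat_lit 382) (nat_lit 259) (nat_lit 259)) (XT.nd (nat_lit 78) (nat_lit 0) (nat_lit 0) (XT.lf (nat_lit 0) (nat_lit 494418404787) (nat_lit 76) (nat_lit 51884987514) (nat_lit 76) (nat_lit 51843741335) (nat_lit 1) (nat_lit 4) (nat_lit 2) (nat_lit 5) (nat_lit 2) (nat_lit 4) (nat_lit 383) (nat_lit 259) (nat_lit 258)) (XT.lf (nat_lit 0) (nat_lit 536418055574) (nat_lit 76) (nat_lit 54780559955) (nat_lit 76) (nat_lit 54701122870) (nat_lit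 1) (nat_lit 4) (nat_lit 2) (nat_lit 5) (nat_lit 2) (nat_lit 4) (nat_lit 384) (nat_lit 259) (nat_lit 257))))))))
noncomputable def xc7 : XT := (XT.nd (nat_lit 1248) (nat_lit 0) (nat_lit 0) (XT.nd (nat_lit 624) (nat_lit 0) (nat_lit 0) (XT.nd (nat_lit 312) (nat_lit 0) (nat_lit 0) (XT.nd (nat_lit 156) (nat_lit 0) (nat_lit 0) (XT.nd (nat_lit 78) (nat_lit 0) (nat_lit 0) (XT.lf (nat_lit 0) (nat_lit 581661582849) (nat_lit 76) (nat_lit 57965237071) (nat_lit 76) (nat_lit 57850438036) (nat_lit 1) (nat_lit 4) (nat_lit 2) (nat_lit 5) (nat_lit 2) (nat_lit 4) (nat_lit 385) (nat_lit 259) (nat_lit 256)) (XT.lf (nat_lit 0) (nat_lit 630417096404) (nat_lit 76) (nat_lit 61457891022) (nat_lit 76) (nat_lit 61310349440) (nat_lit 1) (nat_lit 4) (nat_lit 2) (nat_lit 5) (nat_lit 2) (nat_lit 4) (nat_lit 386) (nat_lit 259) (nat_lit 255))) (XT.nd (nat_lit 78) (nat_lit 0) (nat_lit 0) (XT.lf (nat_lit 0) (nat_lit 682973517801)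 (nat_lit 76) (nat_lit 65279219016) (nat_lit 76) (nat_lit 65101360263) (nat_lit 1) (nat_lit 4) (nat_lit 2) (nat_lit 5) (nat_lit 2) (nat_lit 4) (nat_lit 387) (nat_lit 259) (nat_lit 254)) (XT.lf (nat_lit 0) (nat_lit 739642292499) (nat_lit 76) (nat_lit 69451865962) (nat_lit 76) (nat_lit 69245935752) (nat_lit 1) (nat_lit 4) (nat_lit 2) (nat_lit 5) (nat_lit 2) (nat_lit 4) (nat_lit 388) (nat_lit 259) (nat_lit 253)))) (XT.nd (nat_lit 156) (nat_lit 0) (nat_lit 0) (XT.nd (nat_lit 78) (nat_lit 0) (nat_lit 0) (XT.lf (nat_lit 0) (nat_lit 800759235461) (nat_lit 76) (nat_lit 74000558655) (nat_lit 76) (nat_lit 73768636356) (nat_lit 1) (nat_lit 4) (nat_lit 2) (nat_lit 5) (nat_lit 2) (nat_lit 4) (nat_lit 389) (nat_lit 259) (nat_lit 252)) (XT.lf (nat_lit 0) (nat_lit 866686521162) (nat_lit 76) (nat_lit 78952252310) (nat_lit 76) (nat_lit 78696263262) (nat_lit 1) (nat_lit 4) (nat_lit 2) (nat_lit 5) (nat_lit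 2) (nat_lit 4) (nat_lit 390) (nat_lit 259) (nat_lit 251))) (XT.nd (nat_lit 78) (nat_lit 0) (nat_lit 0) (XT.lf (nat_lit 0) (nat_lit 937814829814) (nat_lit 76) (nat_lit 84336290299) (nat_lit 76) (nat_lit 84058017224) (nat_lit 1) (nat_lit 4) (nat_lit 2) (nat_lit 5) (nat_lit 2) (nat_lit 4) (nat_lit 391) (nat_lit 259) (nat_lit 250)) (XT.lf (nat_lit 0) (nat_lit 1014565662506) (nat_lit 76) (nat_lit 90184578032) (nat_lit 76) (nat_lit 89885671598) (nat_lit 1) (nat_lit 4) (nat_lit 2) (nat_lit 5) (nat_lit 2) (nat_lit 4) (nat_lit 392) (nat_lit 259) (nat_lit 249))))) (XT.nd (nat_lit 312) (nat_lit 0) (nat_lit 0) (XT.nd (nat_lit 156) (nat_lit 0) (nat_lit 0) (XT.nd (nat_lit 78) (nat_lit 0) (nat_lit 0) (XT.lf (nat_lit 0) (nat_lit 1097393838987) (nat_lit 76) (nat_lit 96531772027) (nat_lit 76) (nat_lit 96213760633) (nat_lit 1) (nat_lit 4) (nat_lit 2) (nat_lit 5) (nat_lit 2) (nat_lit 4) (nat_lit 393) (nat_lit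 259) (nat_lit 248)) (XT.lf (nat_lit 0) (nat_lit 1186790192896) (nat_lit 76) (nat_lit 103415485287) (nat_lit 76) (nat_lit 103079784114) (nat_lit 1) (nat_lit 4) (nat_lit 2) (nat_lit 5) (nat_lit 2) (nat_lit 4) (nat_lit 394) (nat_lit 259) (nat_lit 247))) (XT.nd (nat_lit 78) (nat_lit 0) (nat_lit 0) (XT.lf (nat_lit 0) (nat_lit 1283284480403) (nat_lit 76) (nat_lit 110876510187) (nat_lit 76) (nat_lit 110524429588) (nat_lit 1) (nat_lit 4) (nat_lit 2) (nat_lit 5) (nat_lit 2) (nat_lit 4) (nat_lit 395) (nat_lit 259) (nat_lit 246)) (XT.lf (nat_lit 0) (nat_lit 1387448519508) (nat_lit 76) (nat_lit 118959060207) (nat_lit 76) (nat_lit 118591813474) (nat_lit 1) (nat_lit 4) (nat_lit 2) (nat_lit 5) (nat_lit 2) (nat_lit 4) (nat_lit 396) (nat_lit 259) (nat_lit 245)))) (XT.nd (nat_lit 156) (nat_lit 0) (nat_lit 0) (XT.nd (nat_lit 78) (nat_lit 0) (nat_lit 0) (XT.lf (nat_lit 0) (nat_lit 1499899578593) (nat_lit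 76) (nat_lit 127711031940) (nat_lit 76) (nat_lit 127329742491) (nat_lit 1) (nat_lit 4) (nat_lit 2) (nat_lit 5) (nat_lit 2) (nat_lit 4) (nat_lit 397) (nat_lit 259) (nat_lit 244)) (XT.lf (nat_lit 0) (nat_lit 1621304034302) (nat_lit 76) (nat_lit 137184288923) (nat_lit 76) (nat_lit 136789996958) (nat_lit 1) (nat_lit 4) (nat_lit 2) (nat_lit 5) (nat_lit 2) (nat_lit 4) (nat_lit 398) (nat_lit 259) (nat_lit 243))) (XT.nd (nat_lit 78) (nat_lit 0) (nat_lit 0) (XT.lf (nat_lit 0) (nat_lit 1752381320448) (nat_lit 76) (nat_lit 147434968974) (nat_lit 76) (nat_lit 147028637642) (nat_lit 1) (nat_lit 4) (nat_lit 2) (nat_lit 5) (nat_lit 2) (nat_lit 4) (nat_lit 399) (nat_lit 259) (nat_lit 242)) (XT.lf (nat_lit 0) (nat_lit 1893908191319) (nat_lit 76) (nat_lit 158523816864) (nat_lit 76) (nat_lit 158106337971) (nat_lit 1) (nat_lit 4) (nat_lit 2) (nat_lit 5) (nat_lit 2) (nat_lit 4) (nat_lit 400) (nat_lit 259)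 (nat_lit 241)))))) (XT.nd (nat_lit 624) (nat_lit 0) (nat_lit 0) (XT.nd (nat_lit 312) (nat_lit 0) (nat_lit 0) (XT.nd (nat_lit 156) (nat_lit 0) (nat_lit 0) (XT.nd (nat_lit 78) (nat_lit 0) (nat_lit 0) (XT.lf (nat_lit 0) (nat_lit 2046723324667) (nat_lit 76) (nat_lit 170516544285) (nat_lit 76) (nat_lit 170088743576) (nat_lit 1) (nat_lit 4) (nat_lit 2) (nat_lit 5) (nat_lit 2) (nat_lit 4) (nat_lit 401) (nat_lit 259) (nat_lit 240)) (XT.lf (nat_lit 0) (nat_lit 2211732291655) (nat_lit 76) (nat_lit 183484219250) (nat_lit 76) (nat_lit 183046861304) (nat_lit 1) (nat_lit 4) (nat_lit 2) (nat_lit 5) (nat_lit 2) (nat_lit 4) (nat_lit 402) (nat_lit 259) (nat_lit 239))) (XT.nd (nat_lit 78) (nat_lit 0) (nat_lit 0) (XT.lf (nat_lit 0) (nat_lit 2389912923197) (nat_lit 76) (nat_lit 197503687242) (nat_lit 76) (nat_lit 197057480002) (nat_lit 1) (nat_lit 4) (nat_lit 2) (nat_lit 5) (nat_lit 2) (nat_lit 4) (nat_lit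 403) (nat_lit 259) (nat_lit 238)) (XT.lf (nat_lit 0) (nat_lit 2582321104517) (nat_lit 76) (nat_lit 212658026588) (nat_lit 76) (nat_lit 212203625558) (nat_lit 1) (nat_lit 4) (nat_lit 2) (nat_lit 5) (nat_lit 2) (nat_lit 4) (nat_lit 404) (nat_lit 259) (nat_lit 237)))) (XT.nd (nat_lit 156) (nat_lit 0) (nat_lit 0) (XT.nd (nat_lit 78) (nat_lit 0) (nat_lit 0) (XT.lf (nat_lit 0) (nat_lit 2790097032246) (nat_lit 76) (nat_lit 229037040782) (nat_lit 76) (nat_lit 228575052908) (nat_lit 1) (nat_lit 4) (nat_lit 2) (nat_lit 5) (nat_lit 2) (nat_lit 4) (nat_lit 405) (nat_lit 259) (nat_lit 236)) (XT.lf (nat_lit 0) (nat_lit 3014471971139) (nat_lit 76) (nat_lit 246737790647) (nat_lit 76) (nat_lit 246268777919) (nat_lit 1) (nat_lit 4) (nat_lit 2) (nat_lit 5) (nat_lit 2) (nat_lit 4) (nat_lit 406) (nat_lit 259) (nat_lit 235))) (XT.nd (nat_lit 78) (nat_lit 0) (nat_lit 0) (XT.lf (nat_lit 0) (nat_lit 3256775550465)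 (nat_lit 76) (nat_lit 265865169518) (nat_lit 76) (nat_lit 265389652294) (nat_lit 1) (nat_lit 4) (nat_lit 2) (nat_lit 5) (nat_lit 2) (nat_lit 4) (nat_lit 407) (nat_lit 259) (nat_lit 234)) (XT.lf (nat_lit 0) (nat_lit 3518443643287) (nat_lit 76) (nat_lit 286532524823) (nat_lit 76) (nat_lit 286050984919) (nat_lit 1) (nat_lit 4) (nat_lit 2) (nat_lit 5) (nat_lit 2) (nat_lit 4) (nat_lit 408) (nat_lit 259) (nat_lit 233))))) (XT.nd (nat_lit 44616) (nat_lit 0) (nat_lit 0) (XT.nd (nat_lit 156) (nat_lit 0) (nat_lit 0) (XT.nd (nat_lit 78) (nat_lit 0) (nat_lit 0) (XT.lf (nat_lit 0) (nat_lit 3801026875339) (nat_lit 76) (nat_lit 308862329780) (nat_lit 76) (nat_lit 308375213320) (nat_lit 1) (nat_lit 4) (nat_lit 2) (nat_lit 5) (nat_lit 2) (nat_lit 4) (nat_lit 409) (nat_lit 259) (nat_lit 232)) (XT.lf (nat_lit 0) (nat_lit 4106199813923) (nat_lit 76) (nat_lit 332986909158) (nat_lit 76) (nat_lit 332494629221)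 (nat_lit 1) (nat_lit 4) (nat_lit 2) (nat_lit 5) (nat_lit 2) (nat_lit 4) (nat_lit 410) (nat_lit 259) (nat_lit 231))) (XT.nd (nat_lit 78) (nat_lit 0) (nat_lit 0) (XT.lf (nat_lit 0) (nat_lit 4435770891267) (nat_lit 76) (nat_lit 359049223429) (nat_lit 76) (nat_lit 358552162493) (nat_lit 1) (nat_lit 4) (nat_lit 2) (nat_lit 5) (nat_lit 2) (nat_lit 4) (nat_lit 411) (nat_lit 259) (nat_lit 230)) (XT.lf (nat_lit 0) (nat_lit 4791693121163) (nat_lit 76) (nat_lit 387203715936) (nat_lit 76) (nat_lit 386702228150) (nat_lit 1) (nat_lit 4) (nat_lit 2) (nat_lit 5) (nat_lit 2) (nat_lit 4) (nat_lit 412) (nat_lit 259) (nat_lit 229)))) (XT.nd (nat_lit 156) (nat_lit 0) (nat_lit 0) (XT.nd (nat_lit 78) (nat_lit 0) (nat_lit 0) (XT.lf (nat_lit 0) (nat_lit 192775762470) (nat_lit 76) (nat_lit 22389510643) (nat_lit 76) (nat_lit 22389510643) (nat_lit 1) (nat_lit 4) (nat_lit 2) (nat_lit 5) (nat_lit 2) (nat_lit 4) (nat_lit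 380) (nat_lit 260) (nat_lit 260)) (XT.lf (nat_lit 0) (nat_lit 419172933489) (nat_lit 76) (nat_lit 46938678268) (nat_lit 76) (nat_lit 46894132395) (nat_lit 1) (nat_lit 4) (nat_lit 2) (nat_lit 5) (nat_lit 2) (nat_lit 4) (nat_lit 381) (nat_lit 260) (nat_lit 259))) (XT.nd (nat_lit 78) (nat_lit 0) (nat_lit 0) (XT.lf (nat_lit 0) (nat_lit 455348640844) (nat_lit 76) (nat_lit 49338127844) (nat_lit 76) (nat_lit 49252335793) (nat_lit 1) (nat_lit 4) (nat_lit 2) (nat_lit 5) (nat_lit 2) (nat_lit 4) (nat_lit 382) (nat_lit 260) (nat_lit 258)) (XT.nd (nat_lit 78) (nat_lit 0) (nat_lit 0) (XT.lf (nat_lit 0) (nat_lit 494293021567) (nat_lit 76) (nat_lit 51991588976) (nat_lit 76) (nat_lit 51867606019) (nat_lit 1) (nat_lit 4) (nat_lit 2) (nat_lit 5) (nat_lit 2) (nat_lit 4) (nat_lit 383) (nat_lit 260) (nat_lit 257)) (XT.lf (nat_lit 0) (nat_lit 536236857174) (nat_lit 76) (nat_lit 54914785879) (nat_lit 76) (nat_lit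 54755440971) (nat_lit 1) (nat_lit 4) (nat_lit 2) (nat_lit 5) (nat_lit 2) (nat_lit 4) (nat_lit 384) (nat_lit 260) (nat_lit 256))))))))
noncomputable def xc8 : XT := (XT.nd (nat_lit 1248) (nat_lit 0) (nat_lit 0) (XT.nd (nat_lit 624) (nat_lit 0) (nat_lit 0) (XT.nd (nat_lit 312) (nat_lit 0) (nat_lit 0) (XT.nd (nat_lit 156) (nat_lit 0) (nat_lit 0) (XT.nd (nat_lit 78) (nat_lit 0) (nat_lit 0) (XT.lf (nat_lit 0) (nat_lit 581428703727) (nat_lit 76) (nat_lit 58125041199) (nat_lit 76) (nat_lit 57932953745) (nat_lit 1) (nat_lit 4) (nat_lit 2) (nat_lit 5) (nat_lit 2) (nat_lit 4) (nat_lit 385) (nat_lit 260) (nat_lit 255)) (XT.lf (nat_lit 0) (nat_lit 630136364761) (nat_lit 76) (nat_lit 61641378673) (nat_lit 76) (nat_lit 61418974047) (nat_lit 1) (nat_lit 4) (nat_lit 2) (nat_lit 5) (nat_lit 2) (nat_lit 4) (nat_lit 386) (nat_lit 260) (nat_lit 254))) (XT.nd (nat_lit 78) (nat_lit 0) (nat_lit 0) (XT.lf (nat_lit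 0) (nat_lit 682648478268) (nat_lit 76) (nat_lit 65484635856) (nat_lit 76) (nat_lit 65234159773) (nat_lit 1) (nat_lit 4) (nat_lit 2) (nat_lit 5) (nat_lit 2) (nat_lit 4) (nat_lit 387) (nat_lit 260) (nat_lit 253)) (XT.lf (nat_lit 0) (nat_lit 739276227143) (nat_lit 76) (nat_lit 69677587605) (nat_lit 76) (nat_lit 69401119433) (nat_lit 1) (nat_lit 4) (nat_lit 2) (nat_lit 5) (nat_lit 2) (nat_lit 4) (nat_lit 388) (nat_lit 260) (nat_lit 252)))) (XT.nd (nat_lit 156) (nat_lit 0) (nat_lit 0) (XT.nd (nat_lit 78) (nat_lit 0) (nat_lit 0) (XT.lf (nat_lit 0) (nat_lit 800355183231) (nat_lit 76) (nat_lit 74245081042) (nat_lit 76) (nat_lit 73944546121) (nat_lit 1) (nat_lit 4) (nat_lit 2) (nat_lit 5) (nat_lit 2) (nat_lit 4) (nat_lit 389) (nat_lit 260) (nat_lit 251)) (XT.lf (nat_lit 0) (nat_lit 866247295901) (nat_lit 76) (nat_lit 79214182794) (nat_lit 76) (nat_lit 78891363846) (nat_lit 1) (nat_lit 4) (nat_lit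 2) (nat_lit 5) (nat_lit 2) (nat_lit 4) (nat_lit 390) (nat_lit 260) (nat_lit 250))) (XT.nd (nat_lit 78) (nat_lit 0) (nat_lit 0) (XT.lf (nat_lit 0) (nat_lit 937343036932) (nat_lit 76) (nat_lit 84614339391) (nat_lit 76) (nat_lit 84270887085) (nat_lit 1) (nat_lit 4) (nat_lit 2) (nat_lit 5) (nat_lit 2) (nat_lit 4) (nat_lit 391) (nat_lit 260) (nat_lit 249)) (XT.lf (nat_lit 0) (nat_lit 1014063714419) (nat_lit 76) (nat_lit 90477551760) (nat_lit 76) (nat_lit 90114994493) (nat_lit 1) (nat_lit 4) (nat_lit 2) (nat_lit 5) (nat_lit 2) (nat_lit 4) (nat_lit 392) (nat_lit 260) (nat_lit 248))))) (XT.nd (nat_lit 312) (nat_lit 0) (nat_lit 0) (XT.nd (nat_lit 156) (nat_lit 0) (nat_lit 0) (XT.nd (nat_lit 78) (nat_lit 0) (nat_lit 0) (XT.lf (nat_lit 0) (nat_lit 1096863969414) (nat_lit 76) (nat_lit 96838564864) (nat_lit 76) (nat_lit 96458317817) (nat_lit 1) (nat_lit 4) (nat_lit 2) (nat_lit 5) (nat_lit 2) (nat_lit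 4) (nat_lit 393) (nat_lit 260) (nat_lit 247)) (XT.lf (nat_lit 0) (nat_lit 1186234470095) (nat_lit 76) (nat_lit 103735073594) (nat_lit 76) (nat_lit 103338447123) (nat_lit 1) (nat_lit 4) (nat_lit 2) (nat_lit 5) (nat_lit 2) (nat_lit 4) (nat_lit 394) (nat_lit 260) (nat_lit 246))) (XT.nd (nat_lit 78) (nat_lit 0) (nat_lit 0) (XT.lf (nat_lit 0) (nat_lit 1282704819428) (nat_lit 76) (nat_lit 111207946152) (nat_lit 76) (nat_lit 110796153546) (nat_lit 1) (nat_lit 4) (nat_lit 2) (nat_lit 5) (nat_lit 2) (nat_lit 4) (nat_lit 395) (nat_lit 260) (nat_lit 245)) (XT.lf (nat_lit 0) (nat_lit 1386846693557) (nat_lit 76) (nat_lit 119301466226) (nat_lit 76) (nat_lit 118875630903) (nat_lit 1) (nat_lit 4) (nat_lit 2) (nat_lit 5) (nat_lit 2) (nat_lit 4) (nat_lit 396) (nat_lit 260) (nat_lit 244)))) (XT.nd (nat_lit 156) (nat_lit 0) (nat_lit 0) (XT.nd (nat_lit 78) (nat_lit 0) (nat_lit 0) (XT.lf (nat_lit 0) (nat_lit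 1499277229516) (nat_lit 76) (nat_lit 128063595416) (nat_lit 76) (nat_lit 127624757578) (nat_lit 1) (nat_lit 4) (nat_lit 2) (nat_lit 5) (nat_lit 2) (nat_lit 4) (nat_lit 397) (nat_lit 260) (nat_lit 243)) (XT.lf (nat_lit 0) (nat_lit 1620662682331) (nat_lit 76) (nat_lit 137546257452) (nat_lit 76) (nat_lit 137095380247) (nat_lit 1) (nat_lit 4) (nat_lit 2) (nat_lit 5) (nat_lit 2) (nat_lit 4) (nat_lit 398) (nat_lit 260) (nat_lit 242))) (XT.nd (nat_lit 78) (nat_lit 0) (nat_lit 0) (XT.lf (nat_lit 0) (nat_lit 1751722373204) (nat_lit 76) (nat_lit 147805645885) (nat_lit 76) (nat_lit 147343621119) (nat_lit 1) (nat_lit 4) (nat_lit 2) (nat_lit 5) (nat_lit 2) (nat_lit 4) (nat_lit 399) (nat_lit 260) (nat_lit 241)) (XT.lf (nat_lit 0) (nat_lit 1893232952156) (nat_lit 76) (nat_lit 158902557092) (nat_lit 76) (nat_lit 158430210510) (nat_lit 1) (nat_lit 4) (nat_lit 2) (nat_lit 5) (nat_lit 2) (nat_lit 4) (nat_lit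 400) (nat_lit 260) (nat_lit 240)))))) (XT.nd (nat_lit 624) (nat_lit 0) (nat_lit 0) (XT.nd (nat_lit 312) (nat_lit 0) (nat_lit 0) (XT.nd (nat_lit 156) (nat_lit 0) (nat_lit 0) (XT.nd (nat_lit 78) (nat_lit 0) (nat_lit 0) (XT.lf (nat_lit 0) (nat_lit 2046033000395) (nat_lit 76) (nat_lit 170902750547) (nat_lit 76) (nat_lit 170420846728) (nat_lit 1) (nat_lit 4) (nat_lit 2) (nat_lit 5) (nat_lit 2) (nat_lit 4) (nat_lit 401) (nat_lit 260) (nat_lit 239)) (XT.lf (nat_lit 0) (nat_lit 2211027999688) (nat_lit 76) (nat_lit 183877338507) (nat_lit 76) (nat_lit 183386585394) (nat_lit 1) (nat_lit 4) (nat_lit 2) (nat_lit 5) (nat_lit 2) (nat_lit 4) (nat_lit 402) (nat_lit 260) (nat_lit 238))) (XT.nd (nat_lit 78) (nat_lit 0) (nat_lit 0) (XT.lf (nat_lit 0) (nat_lit 2389195698179) (nat_lit 76) (nat_lit 197903207419) (nat_lit 76) (nat_lit 197404260516) (nat_lit 1) (nat_lit 4) (nat_lit 2) (nat_lit 5) (nat_lit 2)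 (nat_lit 4) (nat_lit 403) (nat_lit 260) (nat_lit 237)) (XT.lf (nat_lit 0) (nat_lit 2581591904452) (nat_lit 76) (nat_lit 213063473544) (nat_lit 76) (nat_lit 212556939798) (nat_lit 1) (nat_lit 4) (nat_lit 2) (nat_lit 5) (nat_lit 2) (nat_lit 4) (nat_lit 404) (nat_lit 260) (nat_lit 236)))) (XT.nd (nat_lit 156) (nat_lit 0) (nat_lit 0) (XT.nd (nat_lit 78) (nat_lit 0) (nat_lit 0) (XT.lf (nat_lit 0) (nat_lit 2789356744174) (nat_lit 76) (nat_lit 229447975496) (nat_lit 76) (nat_lit 228934416895) (nat_lit 1) (nat_lit 4) (nat_lit 2) (nat_lit 5) (nat_lit 2) (nat_lit 4) (nat_lit 405) (nat_lit 260) (nat_lit 235)) (XT.lf (nat_lit 0) (nat_lit 3013721416395) (nat_lit 76) (nat_lit 247153806619) (nat_lit 76) (nat_lit 246633743523) (nat_lit 1) (nat_lit 4) (nat_lit 2) (nat_lit 5) (nat_lit 2) (nat_lit 4) (nat_lit 406) (nat_lit 260) (nat_lit 234))) (XT.nd (nat_lit 78) (nat_lit 0) (nat_lit 0) (XT.lf (nat_lit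 0) (nat_lit 3256015489543) (nat_lit 76) (nat_lit 266285890357) (nat_lit 76) (nat_lit 265759804580) (nat_lit 1) (nat_lit 4) (nat_lit 2) (nat_lit 5) (nat_lit 2) (nat_lit 4) (nat_lit 407) (nat_lit 260) (nat_lit 233)) (XT.lf (nat_lit 0) (nat_lit 3517674780348) (nat_lit 76) (nat_lit 286957602022) (nat_lit 76) (nat_lit 286425939689) (nat_lit 1) (nat_lit 4) (nat_lit 2) (nat_lit 5) (nat_lit 2) (nat_lit 4) (nat_lit 408) (nat_lit 260) (nat_lit 232))))) (XT.nd (nat_lit 44460) (nat_lit 0) (nat_lit 0) (XT.nd (nat_lit 156) (nat_lit 0) (nat_lit 0) (XT.nd (nat_lit 78) (nat_lit 0) (nat_lit 0) (XT.lf (nat_lit 0) (nat_lit 3800249862385) (nat_lit 76) (nat_lit 309291440644) (nat_lit 76) (nat_lit 308754614834) (nat_lit 1) (nat_lit 4) (nat_lit 2) (nat_lit 5) (nat_lit 2) (nat_lit 4) (nat_lit 409) (nat_lit 260) (nat_lit 231)) (XT.lf (nat_lit 0) (nat_lit 4105415254658) (nat_lit 76) (nat_lit 333419754899) (nat_lit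 76) (nat_lit 332878148090) (nat_lit 1) (nat_lit 4) (nat_lit 2) (nat_lit 5) (nat_lit 2) (nat_lit 4) (nat_lit 410) (nat_lit 260) (nat_lit 230))) (XT.nd (nat_lit 78) (nat_lit 0) (nat_lit 0) (XT.lf (nat_lit 0) (nat_lit 4434979344677) (nat_lit 76) (nat_lit 359485527388) (nat_lit 76) (nat_lit 358939493729) (nat_lit 1) (nat_lit 4) (nat_lit 2) (nat_lit 5) (nat_lit 2) (nat_lit 4) (nat_lit 411) (nat_lit 260) (nat_lit 229)) (XT.lf (nat_lit 0) (nat_lit 4790895104828) (nat_lit 76) (nat_lit 387643221949) (nat_lit 76) (nat_lit 387093089355) (nat_lit 1) (nat_lit 4) (nat_lit 2) (nat_lit 5) (nat_lit 2) (nat_lit 4) (nat_lit 412) (nat_lit 260) (nat_lit 228)))) (XT.nd (nat_lit 156) (nat_lit 0) (nat_lit 0) (XT.nd (nat_lit 78) (nat_lit 0) (nat_lit 0) (XT.lf (nat_lit 0) (nat_lit 162632272103) (nat_lit 76) (nat_lit 20569882581) (nat_lit 76) (nat_lit 20569882581) (nat_lit 1) (nat_lit 4) (nat_lit 2) (nat_lit 5)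 (nat_lit 2) (nat_lit 4) (nat_lit 378) (nat_lit 261) (nat_lit 261)) (XT.lf (nat_lit 0) (nat_lit 354285177220) (nat_lit 76) (nat_lit 42894468476) (nat_lit 76) (nat_lit 42846358933) (nat_lit 1) (nat_lit 4) (nat_lit 2) (nat_lit 5) (nat_lit 2) (nat_lit 4) (nat_lit 379) (nat_lit 261) (nat_lit 260))) (XT.nd (nat_lit 78) (nat_lit 0) (nat_lit 0) (XT.lf (nat_lit 0) (nat_lit 385481213888) (nat_lit 76) (nat_lit 44861929694) (nat_lit 76) (nat_lit 44769274279) (nat_lit 1) (nat_lit 4) (nat_lit 2) (nat_lit 5) (nat_lit 2) (nat_lit 4) (nat_lit 380) (nat_lit 261) (nat_lit 259)) (XT.lf (nat_lit 0) (nat_lit 419037519611) (nat_lit 76) (nat_lit 47053807847) (nat_lit 76) (nat_lit 46919906253) (nat_lit 1) (nat_lit 4) (nat_lit 2) (nat_lit 5) (nat_lit 2) (nat_lit 4) (nat_lit 381) (nat_lit 261) (nat_lit 258)))))))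
noncomputable def xc9 : XT := (XT.nd (nat_lit 1248) (nat_lit 0) (nat_lit 0) (XT.nd (nat_lit 624) (nat_lit 0) (nat_lit 0) (XT.nd (nat_lit 312) (nat_lit 0) (nat_lit 0) (XT.nd (nat_lit 156) (nat_lit 0) (nat_lit 0) (XT.nd (nat_lit 78) (nat_lit 0) (nat_lit 0) (XT.lf (nat_lit 0) (nat_lit 455152946572) (nat_lit 76) (nat_lit 49483091842) (nat_lit 76) (nat_lit 49310999342) (nat_lit 1) (nat_lit 4) (nat_lit 2) (nat_lit 5) (nat_lit 2) (nat_lit 4) (nat_lit 382) (nat_lit 261) (nat_lit 257)) (XT.lf (nat_lit 0) (nat_lit 494041512115) (nat_lit 76) (nat_lit 52164177435) (nat_lit 76) (nat_lit 51956722985) (nat_lit 1) (nat_lit 4) (nat_lit 2) (nat_lit 5) (nat_lit 2) (nat_lit 4) (nat_lit 383) (nat_lit 261) (nat_lit 256))) (XT.nd (nat_lit 78) (nat_lit 0) (nat_lit 0) (XT.lf (nat_lit 0) (nat_lit 535933666999) (nat_lit 76) (nat_lit 55112952542) (nat_lit 76) (nat_lit 54872755546) (nat_lit 1) (nat_lit 4) (nat_lit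 2) (nat_lit 5) (nat_lit 2) (nat_lit 4) (nat_lit 384) (nat_lit 261) (nat_lit 255)) (XT.lf (nat_lit 0) (nat_lit 581077661032) (nat_lit 76) (nat_lit 58346891386) (nat_lit 76) (nat_lit 58076377217) (nat_lit 1) (nat_lit 4) (nat_lit 2) (nat_lit 5) (nat_lit 2) (nat_lit 4) (nat_lit 385) (nat_lit 261) (nat_lit 254)))) (XT.nd (nat_lit 156) (nat_lit 0) (nat_lit 0) (XT.nd (nat_lit 78) (nat_lit 0) (nat_lit 0) (XT.lf (nat_lit 0) (nat_lit 629741014177) (nat_lit 76) (nat_lit 61885158048) (nat_lit 76) (nat_lit 61586572422) (nat_lit 1) (nat_lit 4) (nat_lit 2) (nat_lit 5) (nat_lit 2) (nat_lit 4) (nat_lit 386) (nat_lit 261) (nat_lit 253)) (XT.lf (nat_lit 0) (nat_lit 682212101860) (nat_lit 76) (nat_lit 65748720034) (nat_lit 76) (nat_lit 65424142320) (nat_lit 1) (nat_lit 4) (nat_lit 2) (nat_lit 5) (nat_lit 2) (nat_lit 4) (nat_lit 387) (nat_lit 261) (nat_lit 252))) (XT.nd (nat_lit 78) (nat_lit 0) (nat_lit 0)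 (XT.lf (nat_lit 0) (nat_lit 738801863862) (nat_lit 76) (nat_lit 69960472528) (nat_lit 76) (nat_lit 69611828064) (nat_lit 1) (nat_lit 4) (nat_lit 2) (nat_lit 5) (nat_lit 2) (nat_lit 4) (nat_lit 388) (nat_lit 261) (nat_lit 251)) (XT.lf (nat_lit 0) (nat_lit 799845646918) (nat_lit 76) (nat_lit 74545374061) (nat_lit 76) (nat_lit 74174445570) (nat_lit 1) (nat_lit 4) (nat_lit 2) (nat_lit 5) (nat_lit 2) (nat_lit 4) (nat_lit 389) (nat_lit 261) (nat_lit 250))))) (XT.nd (nat_lit 312) (nat_lit 0) (nat_lit 0) (XT.nd (nat_lit 156) (nat_lit 0) (nat_lit 0) (XT.nd (nat_lit 78) (nat_lit 0) (nat_lit 0) (XT.lf (nat_lit 0) (nat_lit 865705191967) (nat_lit 76) (nat_lit 79530594421) (nat_lit 76) (nat_lit 79139032572) (nat_lit 1) (nat_lit 4) (nat_lit 2) (nat_lit 5) (nat_lit 2) (nat_lit 4) (nat_lit 390) (nat_lit 261) (nat_lit 249)) (XT.lf (nat_lit 0) (nat_lit 936770777793) (nat_lit 76) (nat_lit 84945675654) (nat_lit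 76) (nat_lit 84535008844) (nat_lit 1) (nat_lit 4) (nat_lit 2) (nat_lit 5) (nat_lit 2) (nat_lit 4) (nat_lit 391) (nat_lit 261) (nat_lit 248))) (XT.nd (nat_lit 78) (nat_lit 0) (nat_lit 0) (XT.lf (nat_lit 0) (nat_lit 1013463533794) (nat_lit 76) (nat_lit 90822707132) (nat_lit 76) (nat_lit 90394350543) (nat_lit 1) (nat_lit 4) (nat_lit 2) (nat_lit 5) (nat_lit 2) (nat_lit 4) (nat_lit 392) (nat_lit 261) (nat_lit 247)) (XT.lf (nat_lit 0) (nat_lit 1096237935561) (nat_lit 76) (nat_lit 97196515706) (nat_lit 76) (nat_lit 96751779692) (nat_lit 1) (nat_lit 4) (nat_lit 2) (nat_lit 5) (nat_lit 2) (nat_lit 4) (nat_lit 393) (nat_lit 261) (nat_lit 246)))) (XT.nd (nat_lit 156) (nat_lit 0) (nat_lit 0) (XT.nd (nat_lit 78) (nat_lit 0) (nat_lit 0) (XT.lf (nat_lit 0) (nat_lit 1185584498067) (nat_lit 76) (nat_lit 104104872095) (nat_lit 76) (nat_lit 103644969946) (nat_lit 1) (nat_lit 4) (nat_lit 2) (nat_lit 5) (nat_lit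 2) (nat_lit 4) (nat_lit 394) (nat_lit 261) (nat_lit 245)) (XT.lf (nat_lit 0) (nat_lit 1282032682425) (nat_lit 76) (nat_lit 111588714706) (nat_lit 76) (nat_lit 111114769841) (nat_lit 1) (nat_lit 4) (nat_lit 2) (nat_lit 5) (nat_lit 2) (nat_lit 4) (nat_lit 395) (nat_lit 261) (nat_lit 244))) (XT.nd (nat_lit 78) (nat_lit 0) (nat_lit 0) (XT.lf (nat_lit 0) (nat_lit 1386154033428) (nat_lit 76) (nat_lit 119692392237) (nat_lit 76) (nat_lit 119205444856) (nat_lit 1) (nat_lit 4) (nat_lit 2) (nat_lit 5) (nat_lit 2) (nat_lit 4) (nat_lit 396) (nat_lit 261) (nat_lit 243)) (XT.lf (nat_lit 0) (nat_lit 1498565566493) (nat_lit 76) (nat_lit 128463926480) (nat_lit 76) (nat_lit 127964939733) (nat_lit 1) (nat_lit 4) (nat_lit 2) (nat_lit 5) (nat_lit 2) (nat_lit 4) (nat_lit 397) (nat_lit 261) (nat_lit 242)))))) (XT.nd (nat_lit 624) (nat_lit 0) (nat_lit 0) (XT.nd (nat_lit 312) (nat_lit 0) (nat_lit 0) (XT.nd (nat_lit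 156) (nat_lit 0) (nat_lit 0) (XT.nd (nat_lit 78) (nat_lit 0) (nat_lit 0) (XT.lf (nat_lit 0) (nat_lit 1619933424035) (nat_lit 76) (nat_lit 137955296898) (nat_lit 76) (nat_lit 137445162589) (nat_lit 1) (nat_lit 4) (nat_lit 2) (nat_lit 5) (nat_lit 2) (nat_lit 4) (nat_lit 398) (nat_lit 261) (nat_lit 241)) (XT.lf (nat_lit 0) (nat_lit 1750976822989) (nat_lit 76) (nat_lit 148222748648) (nat_lit 76) (nat_lit 147702292523) (nat_lit 1) (nat_lit 4) (nat_lit 2) (nat_lit 5) (nat_lit 2) (nat_lit 4) (nat_lit 399) (nat_lit 261) (nat_lit 240))) (XT.nd (nat_lit 78) (nat_lit 0) (nat_lit 0) (XT.lf (nat_lit 0) (nat_lit 1892472316831) (nat_lit 76) (nat_lit 159327125889) (nat_lit 76) (nat_lit 158797112527) (nat_lit 1) (nat_lit 4) (nat_lit 2) (nat_lit 5) (nat_lit 2) (nat_lit 4) (nat_lit 400) (nat_lit 261) (nat_lit 239)) (XT.lf (nat_lit 0) (nat_lit 2045258397375) (nat_lit 76) (nat_lit 171334232339) (nat_lit 76)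 (nat_lit 170795369683) (nat_lit 1) (nat_lit 4) (nat_lit 2) (nat_lit 5) (nat_lit 2) (nat_lit 4) (nat_lit 401) (nat_lit 261) (nat_lit 238)))) (XT.nd (nat_lit 156) (nat_lit 0) (nat_lit 0) (XT.nd (nat_lit 78) (nat_lit 0) (nat_lit 0) (XT.lf (nat_lit 0) (nat_lit 2210240463618) (nat_lit 76) (nat_lit 184315221220) (nat_lit 76) (nat_lit 183768164773) (nat_lit 1) (nat_lit 4) (nat_lit 2) (nat_lit 5) (nat_lit 2) (nat_lit 4) (nat_lit 402) (nat_lit 261) (nat_lit 237)) (XT.lf (nat_lit 0) (nat_lit 2388396187062) (nat_lit 76) (nat_lit 198347016911) (nat_lit 76) (nat_lit 197792373621) (nat_lit 1) (nat_lit 4) (nat_lit 2) (nat_lit 5) (nat_lit 2) (nat_lit 4) (nat_lit 403) (nat_lit 261) (nat_lit 236))) (XT.nd (nat_lit 78) (nat_lit 0) (nat_lit 0) (XT.lf (nat_lit 0) (nat_lit 2580781305329) (nat_lit 76) (nat_lit 213512770794) (nat_lit 76) (nat_lit 212951102650) (nat_lit 1) (nat_lit 4) (nat_lit 2) (nat_lit 5)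 (nat_lit 2) (nat_lit 4) (nat_lit 404) (nat_lit 261) (nat_lit 235)) (XT.lf (nat_lit 0) (nat_lit 2788535878379) (nat_lit 76) (nat_lit 229902354002) (nat_lit 76) (nat_lit 229334181364) (nat_lit 1) (nat_lit 4) (nat_lit 2) (nat_lit 5) (nat_lit 2) (nat_lit 4) (nat_lit 405) (nat_lit 261) (nat_lit 234))))) (XT.nd (nat_lit 312) (nat_lit 0) (nat_lit 0) (XT.nd (nat_lit 156) (nat_lit 0) (nat_lit 0) (XT.nd (nat_lit 78) (nat_lit 0) (nat_lit 0) (XT.lf (nat_lit 0) (nat_lit 3012891044422) (nat_lit 76) (nat_lit 247612889993) (nat_lit 76) (nat_lit 247038694674) (nat_lit 1) (nat_lit 4) (nat_lit 2) (nat_lit 5) (nat_lit 2) (nat_lit 4) (nat_lit 406) (nat_lit 261) (nat_lit 233)) (XT.lf (nat_lit 0) (nat_lit 3255176315553) (nat_lit 76) (nat_lit 266749330091) (nat_lit 76) (nat_lit 266169558215) (nat_lit 1) (nat_lit 4) (nat_lit 2) (nat_lit 5) (nat_lit 2) (nat_lit 4) (nat_lit 407) (nat_lit 261) (nat_lit 232))) (XT.nd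 (nat_lit 78) (nat_lit 0) (nat_lit 0) (XT.lf (nat_lit 0) (nat_lit 3516827456342) (nat_lit 76) (nat_lit 287425075421) (nat_lit 76) (nat_lit 286840140068) (nat_lit 1) (nat_lit 4) (nat_lit 2) (nat_lit 5) (nat_lit 2) (nat_lit 4) (nat_lit 408) (nat_lit 261) (nat_lit 231)) (XT.lf (nat_lit 0) (nat_lit 3799394992067) (nat_lit 76) (nat_lit 309762648920) (nat_lit 76) (nat_lit 309172932569) (nat_lit 1) (nat_lit 4) (nat_lit 2) (nat_lit 5) (nat_lit 2) (nat_lit 4) (nat_lit 409) (nat_lit 261) (nat_lit 230)))) (XT.nd (nat_lit 156) (nat_lit 0) (nat_lit 0) (XT.nd (nat_lit 78) (nat_lit 0) (nat_lit 0) (XT.lf (nat_lit 0) (nat_lit 4104553397016) (nat_lit 76) (nat_lit 333894421393) (nat_lit 76) (nat_lit 333300278192) (nat_lit 1) (nat_lit 4) (nat_lit 2) (nat_lit 5) (nat_lit 2) (nat_lit 4) (nat_lit 410) (nat_lit 261) (nat_lit 229)) (XT.lf (nat_lit 0) (nat_lit 4434111017290) (nat_lit 76) (nat_lit 359963395936)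 (nat_lit 76) (nat_lit 359365153800) (nat_lit 1) (nat_lit 4) (nat_lit 2) (nat_lit 5) (nat_lit 2) (nat_lit 4) (nat_lit 411) (nat_lit 261) (nat_lit 228))) (XT.nd (nat_lit 44070) (nat_lit 0) (nat_lit 0) (XT.lf (nat_lit 0) (nat_lit 4790020786936) (nat_lit 76) (nat_lit 388124055362) (nat_lit 76) (nat_lit 387522017915) (nat_lit 1) (nat_lit 4) (nat_lit 2) (nat_lit 5) (nat_lit 2) (nat_lit 4) (nat_lit 412) (nat_lit 261) (nat_lit 227)) (XT.nd (nat_lit 78) (nat_lit 0) (nat_lit 0) (XT.lf (nat_lit 0) (nat_lit 136577737817) (nat_lit 76) (nat_lit 19119803680) (nat_lit 76) (nat_lit 19119803680) (nat_lit 1) (nat_lit 4) (nat_lit 2) (nat_lit 5) (nat_lit 2) (nat_lit 4) (nat_lit 376) (nat_lit 262) (nat_lit 262)) (XT.lf (nat_lit 0) (nat_lit 298247340723) (nat_lit 76) (nat_lit 39639379818) (nat_lit 76) (nat_lit 39587421512) (nat_lit 1) (nat_lit 4) (nat_lit 2) (nat_lit 5) (nat_lit 2) (nat_lit 4) (nat_lit 377)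 (nat_lit 262) (nat_lit 261))))))))
noncomputable def xc10 : XT := (XT.nd (nat_lit 1248) (nat_lit 0) (nat_lit 0) (XT.nd (nat_lit 624) (nat_lit 0) (nat_lit 0) (XT.nd (nat_lit 312) (nat_lit 0) (nat_lit 0) (XT.nd (nat_lit 156) (nat_lit 0) (nat_lit 0) (XT.nd (nat_lit 78) (nat_lit 0) (nat_lit 0) (XT.lf (nat_lit 0) (nat_lit 325188608270) (nat_lit 76) (nat_lit 41229306243) (nat_lit 76) (nat_lit 41129238394) (nat_lit 1) (nat_lit 4) (nat_lit 2) (nat_lit 5) (nat_lit 2) (nat_lit 4) (nat_lit 378) (nat_lit 262) (nat_lit 260)) (XT.lf (nat_lit 0) (nat_lit 354138930232) (nat_lit 76) (nat_lit 43018808422) (nat_lit 76) (nat_lit 42874194700) (nat_lit 1) (nat_lit 4) (nat_lit 2) (nat_lit 5) (nat_lit 2) (nat_lit 4) (nat_lit 379) (nat_lit 262) (nat_lit 259))) (XT.nd (nat_lit 78) (nat_lit 0) (nat_lit 0) (XT.lf (nat_lit 0) (nat_lit 385269864074) (nat_lit 76) (nat_lit 45018490812) (nat_lit 76) (nat_lit 44832630912)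 (nat_lit 1) (nat_lit 4) (nat_lit 2) (nat_lit 5) (nat_lit 2) (nat_lit 4) (nat_lit 380) (nat_lit 262) (nat_lit 258)) (XT.lf (nat_lit 0) (nat_lit 418765889403) (nat_lit 76) (nat_lit 47240203383) (nat_lit 76) (nat_lit 47016152576) (nat_lit 1) (nat_lit 4) (nat_lit 2) (nat_lit 5) (nat_lit 2) (nat_lit 4) (nat_lit 381) (nat_lit 262) (nat_lit 257)))) (XT.nd (nat_lit 156) (nat_lit 0) (nat_lit 0) (XT.nd (nat_lit 78) (nat_lit 0) (nat_lit 0) (XT.lf (nat_lit 0) (nat_lit 454825501183) (nat_lit 76) (nat_lit 49697111839) (nat_lit 76) (nat_lit 49437699082) (nat_lit 1) (nat_lit 4) (nat_lit 2) (nat_lit 5) (nat_lit 2) (nat_lit 4) (nat_lit 382) (nat_lit 262) (nat_lit 256)) (XT.lf (nat_lit 0) (nat_lit 493662386004) (nat_lit 76) (nat_lit 52403775637) (nat_lit 76) (nat_lit 52111620334) (nat_lit 1) (nat_lit 4) (nat_lit 2) (nat_lit 5) (nat_lit 2) (nat_lit 4) (nat_lit 383) (nat_lit 262) (nat_lit 255))) (XT.nd (nat_lit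 78) (nat_lit 0) (nat_lit 0) (XT.lf (nat_lit 0) (nat_lit 535506688368) (nat_lit 76) (nat_lit 55376234267) (nat_lit 76) (nat_lit 55053761792) (nat_lit 1) (nat_lit 4) (nat_lit 2) (nat_lit 5) (nat_lit 2) (nat_lit 4) (nat_lit 384) (nat_lit 262) (nat_lit 254)) (XT.lf (nat_lit 0) (nat_lit 580606374511) (nat_lit 76) (nat_lit 58632102299) (nat_lit 76) (nat_lit 58281558367) (nat_lit 1) (nat_lit 4) (nat_lit 2) (nat_lit 5) (nat_lit 2) (nat_lit 4) (nat_lit 385) (nat_lit 262) (nat_lit 253))))) (XT.nd (nat_lit 312) (nat_lit 0) (nat_lit 0) (XT.nd (nat_lit 156) (nat_lit 0) (nat_lit 0) (XT.nd (nat_lit 78) (nat_lit 0) (nat_lit 0) (XT.lf (nat_lit 0) (nat_lit 629228701833) (nat_lit 76) (nat_lit 62190673764) (nat_lit 76) (nat_lit 61814137744) (nat_lit 1) (nat_lit 4) (nat_lit 2) (nat_lit 5) (nat_lit 2) (nat_lit 4) (nat_lit 386) (nat_lit 262) (nat_lit 252)) (XT.lf (nat_lit 0) (nat_lit 681661802643) (nat_lit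 76) (nat_lit 66073036495) (nat_lit 76) (nat_lit 65672433725) (nat_lit 1) (nat_lit 4) (nat_lit 2) (nat_lit 5) (nat_lit 2) (nat_lit 4) (nat_lit 387) (nat_lit 262) (nat_lit 251))) (XT.nd (nat_lit 78) (nat_lit 0) (nat_lit 0) (XT.lf (nat_lit 0) (nat_lit 738216391613) (nat_lit 76) (nat_lit 70302197084) (nat_lit 76) (nat_lit 69879310288) (nat_lit 1) (nat_lit 4) (nat_lit 2) (nat_lit 5) (nat_lit 2) (nat_lit 4) (nat_lit 388) (nat_lit 262) (nat_lit 250)) (XT.lf (nat_lit 0) (nat_lit 799227607048) (nat_lit 76) (nat_lit 74903217225) (nat_lit 76) (nat_lit 74459697071) (nat_lit 1) (nat_lit 4) (nat_lit 2) (nat_lit 5) (nat_lit 2) (nat_lit 4) (nat_lit 389) (nat_lit 262) (nat_lit 249)))) (XT.nd (nat_lit 156) (nat_lit 0) (nat_lit 0) (XT.nd (nat_lit 78) (nat_lit 0) (nat_lit 0) (XT.lf (nat_lit 0) (nat_lit 865056996892) (nat_lit 76) (nat_lit 79903362222) (nat_lit 76) (nat_lit 79440737106) (nat_lit 1) (nat_lit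 4) (nat_lit 2) (nat_lit 5) (nat_lit 2) (nat_lit 4) (nat_lit 390) (nat_lit 262) (nat_lit 248)) (XT.lf (nat_lit 0) (nat_lit 936094661231) (nat_lit 76) (nat_lit 85332262564) (nat_lit 76) (nat_lit 84851947669) (nat_lit 1) (nat_lit 4) (nat_lit 2) (nat_lit 5) (nat_lit 2) (nat_lit 4) (nat_lit 391) (nat_lit 262) (nat_lit 247))) (XT.nd (nat_lit 78) (nat_lit 0) (nat_lit 0) (XT.lf (nat_lit 0) (nat_lit 1012761564005) (nat_lit 76) (nat_lit 91222089512) (nat_lit 76) (nat_lit 90725395192) (nat_lit 1) (nat_lit 4) (nat_lit 2) (nat_lit 5) (nat_lit 2) (nat_lit 4) (nat_lit 392) (nat_lit 262) (nat_lit 246)) (XT.lf (nat_lit 0) (nat_lit 1095512027598) (nat_lit 76) (nat_lit 97607745744) (nat_lit 76) (nat_lit 97095885290) (nat_lit 1) (nat_lit 4) (nat_lit 2) (nat_lit 5) (nat_lit 2) (nat_lit 4) (nat_lit 393) (nat_lit 262) (nat_lit 245)))))) (XT.nd (nat_lit 624) (nat_lit 0) (nat_lit 0) (XT.nd (nat_lit 312) (nat_lit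 0) (nat_lit 0) (XT.nd (nat_lit 156) (nat_lit 0) (nat_lit 0) (XT.nd (nat_lit 78) (nat_lit 0) (nat_lit 0) (XT.lf (nat_lit 0) (nat_lit 1184836425128) (nat_lit 76) (nat_lit 104527072186) (nat_lit 76) (nat_lit 104001169015) (nat_lit 1) (nat_lit 4) (nat_lit 2) (nat_lit 5) (nat_lit 2) (nat_lit 4) (nat_lit 394) (nat_lit 262) (nat_lit 244)) (XT.lf (nat_lit 0) (nat_lit 1281264086359) (nat_lit 76) (nat_lit 112021072255) (nat_lit 76) (nat_lit 111482166568) (nat_lit 1) (nat_lit 4) (nat_lit 2) (nat_lit 5) (nat_lit 2) (nat_lit 4) (nat_lit 395) (nat_lit 262) (nat_lit 243))) (XT.nd (nat_lit 78) (nat_lit 0) (nat_lit 0) (XT.lf (nat_lit 0) (nat_lit 1385366434469) (nat_lit 76) (nat_lit 120134154838) (nat_lit 76) (nat_lit 119583209785) (nat_lit 1) (nat_lit 4) (nat_lit 2) (nat_lit 5) (nat_lit 2) (nat_lit 4) (nat_lit 396) (nat_lit 262) (nat_lit 242)) (XT.lf (nat_lit 0) (nat_lit 1497760372261) (nat_lit 76) (nat_lit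 128914397464) (nat_lit 76) (nat_lit 128352304849) (nat_lit 1) (nat_lit 4) (nat_lit 2) (nat_lit 5) (nat_lit 2) (nat_lit 4) (nat_lit 397) (nat_lit 262) (nat_lit 241)))) (XT.nd (nat_lit 156) (nat_lit 0) (nat_lit 0) (XT.nd (nat_lit 78) (nat_lit 0) (nat_lit 0) (XT.lf (nat_lit 0) (nat_lit 1619111937884) (nat_lit 76) (nat_lit 138413831198) (nat_lit 76) (nat_lit 137841416767) (nat_lit 1) (nat_lit 4) (nat_lit 2) (nat_lit 5) (nat_lit 2) (nat_lit 4) (nat_lit 398) (nat_lit 262) (nat_lit 240)) (XT.lf (nat_lit 0) (nat_lit 1750140251728) (nat_lit 76) (nat_lit 148688748983) (nat_lit 76) (nat_lit 148106777315) (nat_lit 1) (nat_lit 4) (nat_lit 2) (nat_lit 5) (nat_lit 2) (nat_lit 4) (nat_lit 399) (nat_lit 262) (nat_lit 239))) (XT.nd (nat_lit 78) (nat_lit 0) (nat_lit 0) (XT.lf (nat_lit 0) (nat_lit 1891621777875) (nat_lit 76) (nat_lit 159800039219) (nat_lit 76) (nat_lit 159209218257) (nat_lit 1) (nat_lit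 4) (nat_lit 2) (nat_lit 5) (nat_lit 2) (nat_lit 4) (nat_lit 400) (nat_lit 262) (nat_lit 238)) (XT.lf (nat_lit 0) (nat_lit 2044394925369) (nat_lit 76) (nat_lit 171813546589) (nat_lit 76) (nat_lit 171214531837) (nat_lit 1) (nat_lit 4) (nat_lit 2) (nat_lit 5) (nat_lit 2) (nat_lit 4) (nat_lit 401) (nat_lit 262) (nat_lit 237))))) (XT.nd (nat_lit 312) (nat_lit 0) (nat_lit 0) (XT.nd (nat_lit 156) (nat_lit 0) (nat_lit 0) (XT.nd (nat_lit 78) (nat_lit 0) (nat_lit 0) (XT.lf (nat_lit 0) (nat_lit 2209365016565) (nat_lit 76) (nat_lit 184800462249) (nat_lit 76) (nat_lit 184193860653) (nat_lit 1) (nat_lit 4) (nat_lit 2) (nat_lit 5) (nat_lit 2) (nat_lit 4) (nat_lit 402) (nat_lit 262) (nat_lit 236)) (XT.lf (nat_lit 0) (nat_lit 2387509652003) (nat_lit 76) (nat_lit 198837745698) (nat_lit 76) (nat_lit 198224119248) (nat_lit 1) (nat_lit 4) (nat_lit 2) (nat_lit 5) (nat_lit 2) (nat_lit 4) (nat_lit 403) (nat_lit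 262) (nat_lit 235))) (XT.nd (nat_lit 78) (nat_lit 0) (nat_lit 0) (XT.lf (nat_lit 0) (nat_lit 2579884503597) (nat_lit 76) (nat_lit 214008580838) (nat_lit 76) (nat_lit 213388449893) (nat_lit 1) (nat_lit 4) (nat_lit 2) (nat_lit 5) (nat_lit 2) (nat_lit 4) (nat_lit 404) (nat_lit 262) (nat_lit 234)) (XT.lf (nat_lit 0) (nat_lit 2787629570469) (nat_lit 76) (nat_lit 230402868915) (nat_lit 76) (nat_lit 229776715289) (nat_lit 1) (nat_lit 4) (nat_lit 2) (nat_lit 5) (nat_lit 2) (nat_lit 4) (nat_lit 405) (nat_lit 262) (nat_lit 233)))) (XT.nd (nat_lit 156) (nat_lit 0) (nat_lit 0) (XT.nd (nat_lit 78) (nat_lit 0) (nat_lit 0) (XT.lf (nat_lit 0) (nat_lit 3011975934495) (nat_lit 76) (nat_lit 248117761265) (nat_lit 76) (nat_lit 247486031084) (nat_lit 1) (nat_lit 4) (nat_lit 2) (nat_lit 5) (nat_lit 2) (nat_lit 4) (nat_lit 406) (nat_lit 262) (nat_lit 232)) (XT.lf (nat_lit 0) (nat_lit 3254253055610) (nat_lit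 76) (nat_lit 267258235029) (nat_lit 76) (nat_lit 266621341369) (nat_lit 1) (nat_lit 4) (nat_lit 2) (nat_lit 5) (nat_lit 2) (nat_lit 4) (nat_lit 407) (nat_lit 262) (nat_lit 231))) (XT.nd (nat_lit 78) (nat_lit 0) (nat_lit 0) (XT.lf (nat_lit 0) (nat_lit 3515896650088) (nat_lit 76) (nat_lit 287937715235) (nat_lit 76) (nat_lit 287296040577) (nat_lit 1) (nat_lit 4) (nat_lit 2) (nat_lit 5) (nat_lit 2) (nat_lit 4) (nat_lit 408) (nat_lit 262) (nat_lit 230)) (XT.nd (nat_lit 78) (nat_lit 0) (nat_lit 0) (XT.lf (nat_lit 0) (nat_lit 3798457198489) (nat_lit 76) (nat_lit 310278746952) (nat_lit 76) (nat_lit 309632645445) (nat_lit 1) (nat_lit 4) (nat_lit 2) (nat_lit 5) (nat_lit 2) (nat_lit 4) (nat_lit 409) (nat_lit 262) (nat_lit 229)) (XT.lf (nat_lit 0) (nat_lit 4103609133692) (nat_lit 76) (nat_lit 334413721479) (nat_lit 76) (nat_lit 333763521036) (nat_lit 1) (nat_lit 4) (nat_lit 2) (nat_lit 5) (nat_lit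 2) (nat_lit 4) (nat_lit 410) (nat_lit 262) (nat_lit 228))))))))
noncomputable def xc11 : XT := (XT.nd (nat_lit 45084) (nat_lit 0) (nat_lit 0) (XT.nd (nat_lit 44460) (nat_lit 0) (nat_lit 0) (XT.nd (nat_lit 44148) (nat_lit 0) (nat_lit 0) (XT.nd (nat_lit 43992) (nat_lit 0) (nat_lit 0) (XT.nd (nat_lit 78) (nat_lit 0) (nat_lit 0) (XT.lf (nat_lit 0) (nat_lit 4433160763462) (nat_lit 76) (nat_lit 360485660887) (nat_lit 76) (nat_lit 359831665134) (nat_lit 1) (nat_lit 4) (nat_lit 2) (nat_lit 5) (nat_lit 2) (nat_lit 4) (nat_lit 411) (nat_lit 262) (nat_lit 227)) (XT.lf (nat_lit 0) (nat_lit 4789064986344) (nat_lit 76) (nat_lit 388649065558) (nat_lit 76) (nat_lit 387991555629) (nat_lit 1) (nat_lit 4) (nat_lit 2) (nat_lit 5) (nat_lit 2) (nat_lit 4) (nat_lit 412) (nat_lit 262) (nat_lit 226))) (XT.nd (nat_lit 78) (nat_lit 0) (nat_lit 0) (XT.lf (nat_lit 0) (nat_lit 114011916331) (nat_lit 76) (nat_lit 17995350331)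 (nat_lit 76) (nat_lit 17995350331) (nat_lit 1) (nat_lit 4) (nat_lit 2) (nat_lit 5) (nat_lit 2) (nat_lit 4) (nat_lit 374) (nat_lit 263) (nat_lit 263)) (XT.lf (nat_lit 0) (nat_lit 249764320474) (nat_lit 76) (nat_lit 37077808894) (nat_lit 76) (nat_lit 37021693923) (nat_lit 1) (nat_lit 4) (nat_lit 2) (nat_lit 5) (nat_lit 2) (nat_lit 4) (nat_lit 375) (nat_lit 263) (nat_lit 262)))) (XT.nd (nat_lit 156) (nat_lit 0) (nat_lit 0) (XT.nd (nat_lit 78) (nat_lit 0) (nat_lit 0) (XT.lf (nat_lit 0) (nat_lit 273073464824) (nat_lit 76) (nat_lit 38336311728) (nat_lit 76) (nat_lit 38228238451) (nat_lit 1) (nat_lit 4) (nat_lit 2) (nat_lit 5) (nat_lit 2) (nat_lit 4) (nat_lit 376) (nat_lit 263) (nat_lit 261)) (XT.lf (nat_lit 0) (nat_lit 298089393975) (nat_lit 76) (nat_lit 39773666960) (nat_lit 76) (nat_lit 39617484140) (nat_lit 1) (nat_lit 4) (nat_lit 2) (nat_lit 5) (nat_lit 2) (nat_lit 4) (nat_lit 377) (nat_lit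 263) (nat_lit 260))) (XT.nd (nat_lit 78) (nat_lit 0) (nat_lit 0) (XT.lf (nat_lit 0) (nat_lit 324960350470) (nat_lit 76) (nat_lit 41398392250) (nat_lit 76) (nat_lit 41197663558) (nat_lit 1) (nat_lit 4) (nat_lit 2) (nat_lit 5) (nat_lit 2) (nat_lit 4) (nat_lit 378) (nat_lit 263) (nat_lit 259)) (XT.lf (nat_lit 0) (nat_lit 353845569607) (nat_lit 76) (nat_lit 43220115600) (nat_lit 76) (nat_lit 42978140729) (nat_lit 1) (nat_lit 4) (nat_lit 2) (nat_lit 5) (nat_lit 2) (nat_lit 4) (nat_lit 379) (nat_lit 263) (nat_lit 258))))) (XT.nd (nat_lit 312) (nat_lit 0) (nat_lit 0) (XT.nd (nat_lit 156) (nat_lit 0) (nat_lit 0) (XT.nd (nat_lit 78) (nat_lit 0) (nat_lit 0) (XT.lf (nat_lit 0) (nat_lit 384916223054) (nat_lit 76) (nat_lit 45249632409) (nat_lit 76) (nat_lit 44969466631) (nat_lit 1) (nat_lit 4) (nat_lit 2) (nat_lit 5) (nat_lit 2) (nat_lit 4) (nat_lit 380) (nat_lit 263) (nat_lit 257)) (XT.lf (nat_lit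 0) (nat_lit 418356433203) (nat_lit 76) (nat_lit 47498969441) (nat_lit 76) (nat_lit 47183441713) (nat_lit 1) (nat_lit 4) (nat_lit 2) (nat_lit 5) (nat_lit 2) (nat_lit 4) (nat_lit 381) (nat_lit 263) (nat_lit 256))) (XT.nd (nat_lit 78) (nat_lit 0) (nat_lit 0) (XT.lf (nat_lit 0) (nat_lit 454364364262) (nat_lit 76) (nat_lit 49981456101) (nat_lit 76) (nat_lit 49633185828) (nat_lit 1) (nat_lit 4) (nat_lit 2) (nat_lit 5) (nat_lit 2) (nat_lit 4) (nat_lit 382) (nat_lit 263) (nat_lit 255)) (XT.lf (nat_lit 0) (nat_lit 493153396562) (nat_lit 76) (nat_lit 52711803423) (nat_lit 76) (nat_lit 52333215977) (nat_lit 1) (nat_lit 4) (nat_lit 2) (nat_lit 5) (nat_lit 2) (nat_lit 4) (nat_lit 383) (nat_lit 263) (nat_lit 254)))) (XT.nd (nat_lit 156) (nat_lit 0) (nat_lit 0) (XT.nd (nat_lit 78) (nat_lit 0) (nat_lit 0) (XT.lf (nat_lit 0) (nat_lit 534953391036) (nat_lit 76) (nat_lit 55706191241) (nat_lit 76) (nat_lit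 55299532339) (nat_lit 1) (nat_lit 4) (nat_lit 2) (nat_lit 5) (nat_lit 2) (nat_lit 4) (nat_lit 384) (nat_lit 263) (nat_lit 253)) (XT.lf (nat_lit 0) (nat_lit 580012051356) (nat_lit 76) (nat_lit 58982364076) (nat_lit 76) (nat_lit 58549713085) (nat_lit 1) (nat_lit 4) (nat_lit 2) (nat_lit 5) (nat_lit 2) (nat_lit 4) (nat_lit 385) (nat_lit 263) (nat_lit 252))) (XT.nd (nat_lit 78) (nat_lit 0) (nat_lit 0) (XT.lf (nat_lit 0) (nat_lit 628596391804) (nat_lit 76) (nat_lit 62559736286) (nat_lit 76) (nat_lit 62103018545) (nat_lit 1) (nat_lit 4) (nat_lit 2) (nat_lit 5) (nat_lit 2) (nat_lit 4) (nat_lit 386) (nat_lit 263) (nat_lit 251)) (XT.lf (nat_lit 0) (nat_lit 680994319583) (nat_lit 76) (nat_lit 66459507113) (nat_lit 76) (nat_lit 65980505345) (nat_lit 1) (nat_lit 4) (nat_lit 2) (nat_lit 5) (nat_lit 2) (nat_lit 4) (nat_lit 387) (nat_lit 263) (nat_lit 250)))))) (XT.nd (nat_lit 624) (nat_lit 0) (nat_lit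 0) (XT.nd (nat_lit 312) (nat_lit 0) (nat_lit 0) (XT.nd (nat_lit 156) (nat_lit 0) (nat_lit 0) (XT.nd (nat_lit 78) (nat_lit 0) (nat_lit 0) (XT.lf (nat_lit 0) (nat_lit 737516340931) (nat_lit 76) (nat_lit 70704786310) (nat_lit 76) (nat_lit 70205151185) (nat_lit 1) (nat_lit 4) (nat_lit 2) (nat_lit 5) (nat_lit 2) (nat_lit 4) (nat_lit 388) (nat_lit 263) (nat_lit 249)) (XT.lf (nat_lit 0) (nat_lit 798497401162) (nat_lit 76) (nat_lit 75320731088) (nat_lit 76) (nat_lit 74801991001) (nat_lit 1) (nat_lit 4) (nat_lit 2) (nat_lit 5) (nat_lit 2) (nat_lit 4) (nat_lit 389) (nat_lit 263) (nat_lit 248))) (XT.nd (nat_lit 78) (nat_lit 0) (nat_lit 0) (XT.lf (nat_lit 0) (nat_lit 864298869519) (nat_lit 76) (nat_lit 80334695193) (nat_lit 76) (nat_lit 79798265327) (nat_lit 1) (nat_lit 4) (nat_lit 2) (nat_lit 5) (nat_lit 2) (nat_lit 4) (nat_lit 390) (nat_lit 263) (nat_lit 247)) (XT.lf (nat_lit 0) (nat_lit 935310680631)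 (nat_lit 76) (nat_lit 85776391005) (nat_lit 76) (nat_lit 85223581715) (nat_lit 1) (nat_lit 4) (nat_lit 2) (nat_lit 5) (nat_lit 2) (nat_lit 4) (nat_lit 391) (nat_lit 263) (nat_lit 246)))) (XT.nd (nat_lit 156) (nat_lit 0) (nat_lit 0) (XT.nd (nat_lit 78) (nat_lit 0) (nat_lit 0) (XT.lf (nat_lit 0) (nat_lit 1011953645230) (nat_lit 76) (nat_lit 91678065611) (nat_lit 76) (nat_lit 91110090186) (nat_lit 1) (nat_lit 4) (nat_lit 2) (nat_lit 5) (nat_lit 2) (nat_lit 4) (nat_lit 392) (nat_lit 263) (nat_lit 245)) (XT.lf (nat_lit 0) (nat_lit 1094681943847) (nat_lit 76) (nat_lit 98074691897) (nat_lit 76) (nat_lit 97492673755) (nat_lit 1) (nat_lit 4) (nat_lit 2) (nat_lit 5) (nat_lit 2) (nat_lit 4) (nat_lit 393) (nat_lit 263) (nat_lit 244))) (XT.nd (nat_lit 78) (nat_lit 0) (nat_lit 0) (XT.lf (nat_lit 0) (nat_lit 1183985818252) (nat_lit 76) (nat_lit 105004175796) (nat_lit 76) (nat_lit 104409155138) (nat_lit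 1) (nat_lit 4) (nat_lit 2) (nat_lit 5) (nat_lit 2) (nat_lit 4) (nat_lit 394) (nat_lit 263) (nat_lit 243)) (XT.lf (nat_lit 0) (nat_lit 1280394476589) (nat_lit 76) (nat_lit 112507580917) (nat_lit 76) (nat_lit 111900520893) (nat_lit 1) (nat_lit 4) (nat_lit 2) (nat_lit 5) (nat_lit 2) (nat_lit 4) (nat_lit 395) (nat_lit 263) (nat_lit 242))))) (XT.nd (nat_lit 312) (nat_lit 0) (nat_lit 0) (XT.nd (nat_lit 156) (nat_lit 0) (nat_lit 0) (XT.nd (nat_lit 78) (nat_lit 0) (nat_lit 0) (XT.lf (nat_lit 0) (nat_lit 1384479229426) (nat_lit 76) (nat_lit 120629371883) (nat_lit 76) (nat_lit 120011164298) (nat_lit 1) (nat_lit 4) (nat_lit 2) (nat_lit 5) (nat_lit 2) (nat_lit 4) (nat_lit 396) (nat_lit 263) (nat_lit 241)) (XT.lf (nat_lit 0) (nat_lit 1496856875299) (nat_lit 76) (nat_lit 129417677826) (nat_lit 76) (nat_lit 128789148424) (nat_lit 1) (nat_lit 4) (nat_lit 2) (nat_lit 5) (nat_lit 2) (nat_lit 4) (nat_lit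 397) (nat_lit 263) (nat_lit 240))) (XT.nd (nat_lit 78) (nat_lit 0) (nat_lit 0) (XT.lf (nat_lit 0) (nat_lit 1618193355812) (nat_lit 76) (nat_lit 138924577594) (nat_lit 76) (nat_lit 138286490956) (nat_lit 1) (nat_lit 4) (nat_lit 2) (nat_lit 5) (nat_lit 2) (nat_lit 4) (nat_lit 398) (nat_lit 263) (nat_lit 239)) (XT.lf (nat_lit 0) (nat_lit 1749207701962) (nat_lit 76) (nat_lit 149206408373) (nat_lit 76) (nat_lit 148559472441) (nat_lit 1) (nat_lit 4) (nat_lit 2) (nat_lit 5) (nat_lit 2) (nat_lit 4) (nat_lit 399) (nat_lit 263) (nat_lit 238)))) (XT.nd (nat_lit 156) (nat_lit 0) (nat_lit 0) (XT.nd (nat_lit 78) (nat_lit 0) (nat_lit 0) (XT.lf (nat_lit 0) (nat_lit 1890676295058) (nat_lit 76) (nat_lit 160324099530) (nat_lit 76) (nat_lit 159668969807) (nat_lit 1) (nat_lit 4) (nat_lit 2) (nat_lit 5) (nat_lit 2) (nat_lit 4) (nat_lit 400) (nat_lit 263) (nat_lit 237)) (XT.lf (nat_lit 0) (nat_lit 2043437467505)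 (nat_lit 76) (nat_lit 172343533679) (nat_lit 76) (nat_lit 171680817113) (nat_lit 1) (nat_lit 4) (nat_lit 2) (nat_lit 5) (nat_lit 2) (nat_lit 4) (nat_lit 401) (nat_lit 263) (nat_lit 236))) (XT.nd (nat_lit 78) (nat_lit 0) (nat_lit 0) (XT.lf (nat_lit 0) (nat_lit 2208396470694) (nat_lit 76) (nat_lit 185335937097) (nat_lit 76) (nat_lit 184666195676) (nat_lit 1) (nat_lit 4) (nat_lit 2) (nat_lit 5) (nat_lit 2) (nat_lit 4) (nat_lit 402) (nat_lit 263) (nat_lit 235)) (XT.nd (nat_lit 78) (nat_lit 0) (nat_lit 0) (XT.lf (nat_lit 0) (nat_lit 2386530839460) (nat_lit 76) (nat_lit 199378301803) (nat_lit 76) (nat_lit 198702055888) (nat_lit 1) (nat_lit 4) (nat_lit 2) (nat_lit 5) (nat_lit 2) (nat_lit 4) (nat_lit 403) (nat_lit 263) (nat_lit 234)) (XT.lf (nat_lit 0) (nat_lit 2578896184876) (nat_lit 76) (nat_lit 214553841812) (nat_lit 76) (nat_lit 213871573215) (nat_lit 1) (nat_lit 4) (nat_lit 2) (nat_lit 5)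 (nat_lit 2) (nat_lit 4) (nat_lit 404) (nat_lit 263) (nat_lit 233))))))))
noncomputable def xc12 : XT := (XT.nd (nat_lit 44928) (nat_lit 0) (nat_lit 0) (XT.nd (nat_lit 44304) (nat_lit 0) (nat_lit 0) (XT.nd (nat_lit 312) (nat_lit 0) (nat_lit 0) (XT.nd (nat_lit 156) (nat_lit 0) (nat_lit 0) (XT.nd (nat_lit 78) (nat_lit 0) (nat_lit 0) (XT.lf (nat_lit 0) (nat_lit 2786632449731) (nat_lit 76) (nat_lit 230952486248) (nat_lit 76) (nat_lit 230264641095) (nat_lit 1) (nat_lit 4) (nat_lit 2) (nat_lit 5) (nat_lit 2) (nat_lit 4) (nat_lit 405) (nat_lit 263) (nat_lit 232)) (XT.lf (nat_lit 0) (nat_lit 3010970663741) (nat_lit 76) (nat_lit 248671412264) (nat_lit 76) (nat_lit 247978403634) (nat_lit 1) (nat_lit 4) (nat_lit 2) (nat_lit 5) (nat_lit 2) (nat_lit 4) (nat_lit 406) (nat_lit 263) (nat_lit 231))) (XT.nd (nat_lit 78) (nat_lit 0) (nat_lit 0) (XT.lf (nat_lit 0) (nat_lit 3253240238546) (nat_lit 76) (nat_lit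 267815620903) (nat_lit 76) (nat_lit 267117831275) (nat_lit 1) (nat_lit 4) (nat_lit 2) (nat_lit 5) (nat_lit 2) (nat_lit 4) (nat_lit 407) (nat_lit 263) (nat_lit 230)) (XT.lf (nat_lit 0) (nat_lit 3514876845699) (nat_lit 76) (nat_lit 288498559328) (nat_lit 76) (nat_lit 287796342850) (nat_lit 1) (nat_lit 4) (nat_lit 2) (nat_lit 5) (nat_lit 2) (nat_lit 4) (nat_lit 408) (nat_lit 263) (nat_lit 229)))) (XT.nd (nat_lit 156) (nat_lit 0) (nat_lit 0) (XT.nd (nat_lit 78) (nat_lit 0) (nat_lit 0) (XT.lf (nat_lit 0) (nat_lit 3797430924355) (nat_lit 76) (nat_lit 310842793099) (nat_lit 76) (nat_lit 310136477686) (nat_lit 1) (nat_lit 4) (nat_lit 2) (nat_lit 5) (nat_lit 2) (nat_lit 4) (nat_lit 409) (nat_lit 263) (nat_lit 228)) (XT.lf (nat_lit 0) (nat_lit 4102576869053) (nat_lit 76) (nat_lit 334980732491) (nat_lit 76) (nat_lit 334270621767) (nat_lit 1) (nat_lit 4) (nat_lit 2) (nat_lit 5) (nat_lit 2) (nat_lit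 4) (nat_lit 410) (nat_lit 263) (nat_lit 227))) (XT.nd (nat_lit 78) (nat_lit 0) (nat_lit 0) (XT.lf (nat_lit 0) (nat_lit 4432122952059) (nat_lit 76) (nat_lit 361055417144) (nat_lit 76) (nat_lit 360341792244) (nat_lit 1) (nat_lit 4) (nat_lit 2) (nat_lit 5) (nat_lit 2) (nat_lit 4) (nat_lit 411) (nat_lit 263) (nat_lit 226)) (XT.lf (nat_lit 0) (nat_lit 4788022039049) (nat_lit 76) (nat_lit 389221363709) (nat_lit 76) (nat_lit 388504484942) (nat_lit 1) (nat_lit 4) (nat_lit 2) (nat_lit 5) (nat_lit 2) (nat_lit 4) (nat_lit 412) (nat_lit 263) (nat_lit 225))))) (XT.nd (nat_lit 312) (nat_lit 0) (nat_lit 0) (XT.nd (nat_lit 156) (nat_lit 0) (nat_lit 0) (XT.nd (nat_lit 78) (nat_lit 0) (nat_lit 0) (XT.lf (nat_lit 0) (nat_lit 94418843135) (nat_lit 76) (nat_lit 17159568855) (nat_lit 76) (nat_lit 17159568855) (nat_lit 1) (nat_lit 4) (nat_lit 2) (nat_lit 5) (nat_lit 2) (nat_lit 4) (nat_lit 372) (nat_lit 264)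 (nat_lit 264)) (XT.lf (nat_lit 0) (nat_lit 207723168867) (nat_lit 76) (nat_lit 35129149080) (nat_lit 76) (nat_lit 35068544912) (nat_lit 1) (nat_lit 4) (nat_lit 2) (nat_lit 5) (nat_lit 2) (nat_lit 4) (nat_lit 373) (nat_lit 264) (nat_lit 263))) (XT.nd (nat_lit 78) (nat_lit 0) (nat_lit 0) (XT.lf (nat_lit 0) (nat_lit 227935260986) (nat_lit 76) (nat_lit 36095141379) (nat_lit 76) (nat_lit 35978422240) (nat_lit 1) (nat_lit 4) (nat_lit 2) (nat_lit 5) (nat_lit 2) (nat_lit 4) (nat_lit 374) (nat_lit 264) (nat_lit 262)) (XT.lf (nat_lit 0) (nat_lit 249593737987) (nat_lit 76) (nat_lit 37222839007) (nat_lit 76) (nat_lit 37054161562) (nat_lit 1) (nat_lit 4) (nat_lit 2) (nat_lit 5) (nat_lit 2) (nat_lit 4) (nat_lit 375) (nat_lit 264) (nat_lit 261)))) (XT.nd (nat_lit 156) (nat_lit 0) (nat_lit 0) (XT.nd (nat_lit 78) (nat_lit 0) (nat_lit 0) (XT.lf (nat_lit 0) (nat_lit 272826946401) (nat_lit 76) (nat_lit 38518924615)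 (nat_lit 76) (nat_lit 38302137628) (nat_lit 1) (nat_lit 4) (nat_lit 2) (nat_lit 5) (nat_lit 2) (nat_lit 4) (nat_lit 376) (nat_lit 264) (nat_lit 260)) (XT.lf (nat_lit 0) (nat_lit 297772564500) (nat_lit 76) (nat_lit 39991078713) (nat_lit 76) (nat_lit 39729745852) (nat_lit 1) (nat_lit 4) (nat_lit 2) (nat_lit 5) (nat_lit 2) (nat_lit 4) (nat_lit 377) (nat_lit 264) (nat_lit 259))) (XT.nd (nat_lit 78) (nat_lit 0) (nat_lit 0) (XT.lf (nat_lit 0) (nat_lit 324578418169) (nat_lit 76) (nat_lit 41648025174) (nat_lit 76) (nat_lit 41345446135) (nat_lit 1) (nat_lit 4) (nat_lit 2) (nat_lit 5) (nat_lit 2) (nat_lit 4) (nat_lit 378) (nat_lit 264) (nat_lit 258)) (XT.lf (nat_lit 0) (nat_lit 353403356912) (nat_lit 76) (nat_lit 43499582943) (nat_lit 76) (nat_lit 43158812998) (nat_lit 1) (nat_lit 4) (nat_lit 2) (nat_lit 5) (nat_lit 2) (nat_lit 4) (nat_lit 379) (nat_lit 264) (nat_lit 257)))))) (XT.nd (nat_lit 624)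 (nat_lit 0) (nat_lit 0) (XT.nd (nat_lit 312) (nat_lit 0) (nat_lit 0) (XT.nd (nat_lit 156) (nat_lit 0) (nat_lit 0) (XT.nd (nat_lit 78) (nat_lit 0) (nat_lit 0) (XT.lf (nat_lit 0) (nat_lit 384418195179) (nat_lit 76) (nat_lit 45556724212) (nat_lit 76) (nat_lit 45180592317) (nat_lit 1) (nat_lit 4) (nat_lit 2) (nat_lit 5) (nat_lit 2) (nat_lit 4) (nat_lit 380) (nat_lit 264) (nat_lit 256)) (XT.lf (nat_lit 0) (nat_lit 417806724605) (nat_lit 76) (nat_lit 47831639449) (nat_lit 76) (nat_lit 47422765007) (nat_lit 1) (nat_lit 4) (nat_lit 2) (nat_lit 5) (nat_lit 2) (nat_lit 4) (nat_lit 381) (nat_lit 264) (nat_lit 255))) (XT.nd (nat_lit 78) (nat_lit 0) (nat_lit 0) (XT.lf (nat_lit 0) (nat_lit 453766803143) (nat_lit 76) (nat_lit 50337809633) (nat_lit 76) (nat_lit 49898618018) (nat_lit 1) (nat_lit 4) (nat_lit 2) (nat_lit 5) (nat_lit 2) (nat_lit 4) (nat_lit 382) (nat_lit 264) (nat_lit 254)) (XT.lf (nat_lit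 0) (nat_lit 492511527554) (nat_lit 76) (nat_lit 53090086142) (nat_lit 76) (nat_lit 52622823072) (nat_lit 1) (nat_lit 4) (nat_lit 2) (nat_lit 5) (nat_lit 2) (nat_lit 4) (nat_lit 383) (nat_lit 264) (nat_lit 253)))) (XT.nd (nat_lit 156) (nat_lit 0) (nat_lit 0) (XT.nd (nat_lit 78) (nat_lit 0) (nat_lit 0) (XT.lf (nat_lit 0) (nat_lit 534270496205) (nat_lit 76) (nat_lit 56104778764) (nat_lit 76) (nat_lit 55611523604) (nat_lit 1) (nat_lit 4) (nat_lit 2) (nat_lit 5) (nat_lit 2) (nat_lit 4) (nat_lit 384) (nat_lit 264) (nat_lit 252)) (XT.lf (nat_lit 0) (nat_lit 579291169651) (nat_lit 76) (nat_lit 59399752343) (nat_lit 76) (nat_lit 58882430435) (nat_lit 1) (nat_lit 4) (nat_lit 2) (nat_lit 5) (nat_lit 2) (nat_lit 4) (nat_lit 385) (nat_lit 264) (nat_lit 251))) (XT.nd (nat_lit 78) (nat_lit 0) (nat_lit 0) (XT.lf (nat_lit 0) (nat_lit 627840337068) (nat_lit 76) (nat_lit 62994532649) (nat_lit 76) (nat_lit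 62454926714) (nat_lit 1) (nat_lit 4) (nat_lit 2) (nat_lit 5) (nat_lit 2) (nat_lit 4) (nat_lit 386) (nat_lit 264) (nat_lit 250)) (XT.lf (nat_lit 0) (nat_lit 680205697225) (nat_lit 76) (nat_lit 66910422084) (nat_lit 76) (nat_lit 66350182790) (nat_lit 1) (nat_lit 4) (nat_lit 2) (nat_lit 5) (nat_lit 2) (nat_lit 4) (nat_lit 387) (nat_lit 264) (nat_lit 249))))) (XT.nd (nat_lit 312) (nat_lit 0) (nat_lit 0) (XT.nd (nat_lit 156) (nat_lit 0) (nat_lit 0) (XT.nd (nat_lit 78) (nat_lit 0) (nat_lit 0) (XT.lf (nat_lit 0) (nat_lit 736697563369) (nat_lit 76) (nat_lit 71170625918) (nat_lit 76) (nat_lit 70591281663) (nat_lit 1) (nat_lit 4) (nat_lit 2) (nat_lit 5) (nat_lit 2) (nat_lit 4) (nat_lit 388) (nat_lit 264) (nat_lit 248)) (XT.lf (nat_lit 0) (nat_lit 797650702113) (nat_lit 76) (nat_lit 75800389804) (nat_lit 76) (nat_lit 75203355770) (nat_lit 1) (nat_lit 4) (nat_lit 2) (nat_lit 5) (nat_lit 2) (nat_lit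 4) (nat_lit 389) (nat_lit 264) (nat_lit 247))) (XT.nd (nat_lit 78) (nat_lit 0) (nat_lit 0) (XT.lf (nat_lit 0) (nat_lit 863426317243) (nat_lit 76) (nat_lit 80827149380) (nat_lit 76) (nat_lit 80213735921) (nat_lit 1) (nat_lit 4) (nat_lit 2) (nat_lit 5) (nat_lit 2) (nat_lit 4) (nat_lit 390) (nat_lit 264) (nat_lit 246)) (XT.lf (nat_lit 0) (nat_lit 934414190181) (nat_lit 76) (nat_lit 86280692850) (nat_lit 76) (nat_lit 85652113257) (nat_lit 1) (nat_lit 4) (nat_lit 2) (nat_lit 5) (nat_lit 2) (nat_lit 4) (nat_lit 391) (nat_lit 264) (nat_lit 245)))) (XT.nd (nat_lit 156) (nat_lit 0) (nat_lit 0) (XT.nd (nat_lit 78) (nat_lit 0) (nat_lit 0) (XT.lf (nat_lit 0) (nat_lit 1011034989804) (nat_lit 76) (nat_lit 92193337510) (nat_lit 76) (nat_lit 91550715199) (nat_lit 1) (nat_lit 4) (nat_lit 2) (nat_lit 5) (nat_lit 2) (nat_lit 4) (nat_lit 392) (nat_lit 264) (nat_lit 244)) (XT.lf (nat_lit 0) (nat_lit 1093742765295)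 (nat_lit 76) (nat_lit 98600121253) (nat_lit 76) (nat_lit 97944496427) (nat_lit 1) (nat_lit 4) (nat_lit 2) (nat_lit 5) (nat_lit 2) (nat_lit 4) (nat_lit 393) (nat_lit 264) (nat_lit 243))) (XT.nd (nat_lit 78) (nat_lit 0) (nat_lit 0) (XT.lf (nat_lit 0) (nat_lit 1183027636806) (nat_lit 76) (nat_lit 105539010205) (nat_lit 76) (nat_lit 104871346012) (nat_lit 1) (nat_lit 4) (nat_lit 2) (nat_lit 5) (nat_lit 2) (nat_lit 4) (nat_lit 394) (nat_lit 264) (nat_lit 242)) (XT.lf (nat_lit 0) (nat_lit 1279418699870) (nat_lit 76) (nat_lit 113051123708) (nat_lit 76) (nat_lit 112372311954) (nat_lit 1) (nat_lit 4) (nat_lit 2) (nat_lit 5) (nat_lit 2) (nat_lit 4) (nat_lit 395) (nat_lit 264) (nat_lit 241)))))))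
noncomputable def xc13 : XT := (XT.nd (nat_lit 1248) (nat_lit 0) (nat_lit 0) (XT.nd (nat_lit 624) (nat_lit 0) (nat_lit 0) (XT.nd (nat_lit 312) (nat_lit 0) (nat_lit 0) (XT.nd (nat_lit 156) (nat_lit 0) (nat_lit 0) (XT.nd (nat_lit 78) (nat_lit 0) (nat_lit 0) (XT.lf (nat_lit 0) (nat_lit 1383487160788) (nat_lit 76) (nat_lit 121180977991) (nat_lit 76) (nat_lit 120491844421) (nat_lit 1) (nat_lit 4) (nat_lit 2) (nat_lit 5) (nat_lit 2) (nat_lit 4) (nat_lit 396) (nat_lit 264) (nat_lit 240)) (XT.lf (nat_lit 0) (nat_lit 1495849721551) (nat_lit 76) (nat_lit 129976749967) (nat_lit 76) (nat_lit 129278059160) (nat_lit 1) (nat_lit 4) (nat_lit 2) (nat_lit 5) (nat_lit 2) (nat_lit 4) (nat_lit 397) (nat_lit 264) (nat_lit 239))) (XT.nd (nat_lit 78) (nat_lit 0) (nat_lit 0) (XT.lf (nat_lit 0) (nat_lit 1617172234370) (nat_lit 76) (nat_lit 139490562731) (nat_lit 76) (nat_lit 138783022630) (nat_lit 1) (nat_lit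 4) (nat_lit 2) (nat_lit 5) (nat_lit 2) (nat_lit 4) (nat_lit 398) (nat_lit 264) (nat_lit 238)) (XT.lf (nat_lit 0) (nat_lit 1748173647469) (nat_lit 76) (nat_lit 149778794431) (nat_lit 76) (nat_lit 149063060540) (nat_lit 1) (nat_lit 4) (nat_lit 2) (nat_lit 5) (nat_lit 2) (nat_lit 4) (nat_lit 399) (nat_lit 264) (nat_lit 237)))) (XT.nd (nat_lit 156) (nat_lit 0) (nat_lit 0) (XT.nd (nat_lit 78) (nat_lit 0) (nat_lit 0) (XT.lf (nat_lit 0) (nat_lit 1889630265518) (nat_lit 76) (nat_lit 160902412366) (nat_lit 76) (nat_lit 160179091632) (nat_lit 1) (nat_lit 4) (nat_lit 2) (nat_lit 5) (nat_lit 2) (nat_lit 4) (nat_lit 400) (nat_lit 264) (nat_lit 236)) (XT.lf (nat_lit 0) (nat_lit 2042380349959) (nat_lit 76) (nat_lit 172927334273) (nat_lit 76) (nat_lit 172196988684) (nat_lit 1) (nat_lit 4) (nat_lit 2) (nat_lit 5) (nat_lit 2) (nat_lit 4) (nat_lit 401) (nat_lit 264) (nat_lit 235))) (XT.nd (nat_lit 78) (nat_lit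 0) (nat_lit 0) (XT.lf (nat_lit 0) (nat_lit 2207329086476) (nat_lit 76) (nat_lit 185924818948) (nat_lit 76) (nat_lit 185187968864) (nat_lit 1) (nat_lit 4) (nat_lit 2) (nat_lit 5) (nat_lit 2) (nat_lit 4) (nat_lit 402) (nat_lit 264) (nat_lit 234)) (XT.lf (nat_lit 0) (nat_lit 2385453949063) (nat_lit 76) (nat_lit 199971888523) (nat_lit 76) (nat_lit 199229015758) (nat_lit 1) (nat_lit 4) (nat_lit 2) (nat_lit 5) (nat_lit 2) (nat_lit 4) (nat_lit 403) (nat_lit 264) (nat_lit 233))))) (XT.nd (nat_lit 312) (nat_lit 0) (nat_lit 0) (XT.nd (nat_lit 156) (nat_lit 0) (nat_lit 0) (XT.nd (nat_lit 78) (nat_lit 0) (nat_lit 0) (XT.lf (nat_lit 0) (nat_lit 2577810492463) (nat_lit 76) (nat_lit 215151784890) (nat_lit 76) (nat_lit 214403335570) (nat_lit 1) (nat_lit 4) (nat_lit 2) (nat_lit 5) (nat_lit 2) (nat_lit 4) (nat_lit 404) (nat_lit 264) (nat_lit 232)) (XT.lf (nat_lit 0) (nat_lit 2785538607301) (nat_lit 76)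 (nat_lit 231554462992) (nat_lit 76) (nat_lit 230800850194) (nat_lit 1) (nat_lit 4) (nat_lit 2) (nat_lit 5) (nat_lit 2) (nat_lit 4) (nat_lit 405) (nat_lit 264) (nat_lit 231))) (XT.nd (nat_lit 78) (nat_lit 0) (nat_lit 0) (XT.lf (nat_lit 0) (nat_lit 3009869275001) (nat_lit 76) (nat_lit 249277123884) (nat_lit 76) (nat_lit 248518730088) (nat_lit 1) (nat_lit 4) (nat_lit 2) (nat_lit 5) (nat_lit 2) (nat_lit 4) (nat_lit 406) (nat_lit 264) (nat_lit 230)) (XT.lf (nat_lit 0) (nat_lit 3252131862481) (nat_lit 76) (nat_lit 268424790742) (nat_lit 76) (nat_lit 267661970096) (nat_lit 1) (nat_lit 4) (nat_lit 2) (nat_lit 5) (nat_lit 2) (nat_lit 4) (nat_lit 407) (nat_lit 264) (nat_lit 229)))) (XT.nd (nat_lit 156) (nat_lit 0) (nat_lit 0) (XT.nd (nat_lit 78) (nat_lit 0) (nat_lit 0) (XT.lf (nat_lit 0) (nat_lit 3513761999889) (nat_lit 76) (nat_lit 289110931221) (nat_lit 76) (nat_lit 288344011639) (nat_lit 1)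 (nat_lit 4) (nat_lit 2) (nat_lit 5) (nat_lit 2) (nat_lit 4) (nat_lit 408) (nat_lit 264) (nat_lit 228)) (XT.lf (nat_lit 0) (nat_lit 3796310088040) (nat_lit 76) (nat_lit 311458129857) (nat_lit 76) (nat_lit 310687414965) (nat_lit 1) (nat_lit 4) (nat_lit 2) (nat_lit 5) (nat_lit 2) (nat_lit 4) (nat_lit 409) (nat_lit 264) (nat_lit 227))) (XT.nd (nat_lit 78) (nat_lit 0) (nat_lit 0) (XT.lf (nat_lit 0) (nat_lit 4101450485974) (nat_lit 76) (nat_lit 335598814494) (nat_lit 76) (nat_lit 334824585426) (nat_lit 1) (nat_lit 4) (nat_lit 2) (nat_lit 5) (nat_lit 2) (nat_lit 4) (nat_lit 410) (nat_lit 264) (nat_lit 226)) (XT.lf (nat_lit 0) (nat_lit 4430991433088) (nat_lit 76) (nat_lit 361676041041) (nat_lit 76) (nat_lit 360898558106) (nat_lit 1) (nat_lit 4) (nat_lit 2) (nat_lit 5) (nat_lit 2) (nat_lit 4) (nat_lit 411) (nat_lit 264) (nat_lit 225)))))) (XT.nd (nat_lit 44148) (nat_lit 0) (nat_lit 0) (XT.nd (nat_lit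 43836) (nat_lit 0) (nat_lit 0) (XT.nd (nat_lit 43680) (nat_lit 0) (nat_lit 0) (XT.nd (nat_lit 43602) (nat_lit 0) (nat_lit 0) (XT.lf (nat_lit 0) (nat_lit 4786885764622) (nat_lit 76) (nat_lit 389844341211) (nat_lit 76) (nat_lit 389063845436) (nat_lit 1) (nat_lit 4) (nat_lit 2) (nat_lit 5) (nat_lit 2) (nat_lit 4) (nat_lit 412) (nat_lit 264) (nat_lit 224)) (XT.lf (nat_lit 0) (nat_lit 77354700978) (nat_lit 76) (nat_lit 16581537465) (nat_lit 76) (nat_lit 16581537465) (nat_lit 1) (nat_lit 4) (nat_lit 2) (nat_lit 5) (nat_lit 2) (nat_lit 4) (nat_lit 370) (nat_lit 265) (nat_lit 265))) (XT.nd (nat_lit 78) (nat_lit 0) (nat_lit 0) (XT.lf (nat_lit 0) (nat_lit 171166899225) (nat_lit 76) (nat_lit 33725759706) (nat_lit 76) (nat_lit 33660307204) (nat_lit 1) (nat_lit 4) (nat_lit 2) (nat_lit 5) (nat_lit 2) (nat_lit 4) (nat_lit 371) (nat_lit 265) (nat_lit 264)) (XT.lf (nat_lit 0) (nat_lit 188742028861) (nat_lit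 76) (nat_lit 34431933685) (nat_lit 76) (nat_lit 34305877015) (nat_lit 1) (nat_lit 4) (nat_lit 2) (nat_lit 5) (nat_lit 2) (nat_lit 4) (nat_lit 372) (nat_lit 265) (nat_lit 263)))) (XT.nd (nat_lit 156) (nat_lit 0) (nat_lit 0) (XT.nd (nat_lit 78) (nat_lit 0) (nat_lit 0) (XT.lf (nat_lit 0) (nat_lit 207538939781) (nat_lit 76) (nat_lit 35285781602) (nat_lit 76) (nat_lit 35103609961) (nat_lit 1) (nat_lit 4) (nat_lit 2) (nat_lit 5) (nat_lit 2) (nat_lit 4) (nat_lit 373) (nat_lit 265) (nat_lit 262)) (XT.lf (nat_lit 0) (nat_lit 227669021089) (nat_lit 76) (nat_lit 36292363298) (nat_lit 76) (nat_lit 36058233351) (nat_lit 1) (nat_lit 4) (nat_lit 2) (nat_lit 5) (nat_lit 2) (nat_lit 4) (nat_lit 374) (nat_lit 265) (nat_lit 261))) (XT.nd (nat_lit 78) (nat_lit 0) (nat_lit 0) (XT.lf (nat_lit 0) (nat_lit 249251562154) (nat_lit 76) (nat_lit 37457643700) (nat_lit 76) (nat_lit 37175404210) (nat_lit 1) (nat_lit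 4) (nat_lit 2) (nat_lit 5) (nat_lit 2) (nat_lit 4) (nat_lit 375) (nat_lit 265) (nat_lit 260)) (XT.lf (nat_lit 0) (nat_lit 272414459516) (nat_lit 76) (nat_lit 38788528174) (nat_lit 76) (nat_lit 38461742811) (nat_lit 1) (nat_lit 4) (nat_lit 2) (nat_lit 5) (nat_lit 2) (nat_lit 4) (nat_lit 376) (nat_lit 265) (nat_lit 259))))) (XT.nd (nat_lit 312) (nat_lit 0) (nat_lit 0) (XT.nd (nat_lit 156) (nat_lit 0) (nat_lit 0) (XT.nd (nat_lit 78) (nat_lit 0) (nat_lit 0) (XT.lf (nat_lit 0) (nat_lit 297294974789) (nat_lit 76) (nat_lit 40292903442) (nat_lit 76) (nat_lit 39924871901) (nat_lit 1) (nat_lit 4) (nat_lit 2) (nat_lit 5) (nat_lit 2) (nat_lit 4) (nat_lit 377) (nat_lit 265) (nat_lit 258)) (XT.lf (nat_lit 0) (nat_lit 324040548064) (nat_lit 76) (nat_lit 41979684322) (nat_lit 76) (nat_lit 41573461875) (nat_lit 1) (nat_lit 4) (nat_lit 2) (nat_lit 5) (nat_lit 2) (nat_lit 4) (nat_lit 378) (nat_lit 265)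 (nat_lit 257))) (XT.nd (nat_lit 78) (nat_lit 0) (nat_lit 0) (XT.lf (nat_lit 0) (nat_lit 352809671626) (nat_lit 76) (nat_lit 43858866552) (nat_lit 76) (nat_lit 43417282155) (nat_lit 1) (nat_lit 4) (nat_lit 2) (nat_lit 5) (nat_lit 2) (nat_lit 4) (nat_lit 379) (nat_lit 265) (nat_lit 256)) (XT.lf (nat_lit 0) (nat_lit 383772829171) (nat_lit 76) (nat_lit 45941586026) (nat_lit 76) (nat_lit 45467259083) (nat_lit 1) (nat_lit 4) (nat_lit 2) (nat_lit 5) (nat_lit 2) (nat_lit 4) (nat_lit 380) (nat_lit 265) (nat_lit 255)))) (XT.nd (nat_lit 156) (nat_lit 0) (nat_lit 0) (XT.nd (nat_lit 78) (nat_lit 0) (nat_lit 0) (XT.lf (nat_lit 0) (nat_lit 417113506077) (nat_lit 76) (nat_lit 48240184786) (nat_lit 76) (nat_lit 47735540670) (nat_lit 1) (nat_lit 4) (nat_lit 2) (nat_lit 5) (nat_lit 2) (nat_lit 4) (nat_lit 381) (nat_lit 265) (nat_lit 254)) (XT.lf (nat_lit 0) (nat_lit 453029276726) (nat_lit 76) (nat_lit 50768284158)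 (nat_lit 76) (nat_lit 50235568586) (nat_lit 1) (nat_lit 4) (nat_lit 2) (nat_lit 5) (nat_lit 2) (nat_lit 4) (nat_lit 382) (nat_lit 265) (nat_lit 253))) (XT.nd (nat_lit 78) (nat_lit 0) (nat_lit 0) (XT.lf (nat_lit 0) (nat_lit 491732975313) (nat_lit 76) (nat_lit 53540865471) (nat_lit 76) (nat_lit 52982157810) (nat_lit 1) (nat_lit 4) (nat_lit 2) (nat_lit 5) (nat_lit 2) (nat_lit 4) (nat_lit 383) (nat_lit 265) (nat_lit 252)) (XT.nd (nat_lit 78) (nat_lit 0) (nat_lit 0) (XT.lf (nat_lit 0) (nat_lit 533453957091) (nat_lit 76) (nat_lit 56574358837) (nat_lit 76) (nat_lit 55991584426) (nat_lit 1) (nat_lit 4) (nat_lit 2) (nat_lit 5) (nat_lit 2) (nat_lit 4) (nat_lit 384) (nat_lit 265) (nat_lit 251)) (XT.lf (nat_lit 0) (nat_lit 578439457505) (nat_lit 76) (nat_lit 59886740512) (nat_lit 76) (nat_lit 59281682075) (nat_lit 1) (nat_lit 4) (nat_lit 2) (nat_lit 5) (nat_lit 2) (nat_lit 4) (nat_lit 385) (nat_lit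 265) (nat_lit 250))))))))
noncomputable def xc14 : XT := (XT.nd (nat_lit 1248) (nat_lit 0) (nat_lit 0) (XT.nd (nat_lit 624) (nat_lit 0) (nat_lit 0) (XT.nd (nat_lit 312) (nat_lit 0) (nat_lit 0) (XT.nd (nat_lit 156) (nat_lit 0) (nat_lit 0) (XT.nd (nat_lit 78) (nat_lit 0) (nat_lit 0) (XT.lf (nat_lit 0) (nat_lit 626956057301) (nat_lit 76) (nat_lit 63497639426) (nat_lit 76) (nat_lit 62871947631) (nat_lit 1) (nat_lit 4) (nat_lit 2) (nat_lit 5) (nat_lit 2) (nat_lit 4) (nat_lit 386) (nat_lit 265) (nat_lit 249)) (XT.lf (nat_lit 0) (nat_lit 679291262253) (nat_lit 76) (nat_lit 67428453498) (nat_lit 76) (nat_lit 66783656741) (nat_lit 1) (nat_lit 4) (nat_lit 2) (nat_lit 5) (nat_lit 2) (nat_lit 4) (nat_lit 387) (nat_lit 265) (nat_lit 248))) (XT.nd (nat_lit 78) (nat_lit 0) (nat_lit 0) (XT.lf (nat_lit 0) (nat_lit 735755206911) (nat_lit 76) (nat_lit 71702476440) (nat_lit 76) (nat_lit 71039989905) (nat_lit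 1) (nat_lit 4) (nat_lit 2) (nat_lit 5) (nat_lit 2) (nat_lit 4) (nat_lit 388) (nat_lit 265) (nat_lit 247)) (XT.lf (nat_lit 0) (nat_lit 796682492427) (nat_lit 76) (nat_lit 76345035797) (nat_lit 76) (nat_lit 75666169836) (nat_lit 1) (nat_lit 4) (nat_lit 2) (nat_lit 5) (nat_lit 2) (nat_lit 4) (nat_lit 389) (nat_lit 265) (nat_lit 246)))) (XT.nd (nat_lit 156) (nat_lit 0) (nat_lit 0) (XT.nd (nat_lit 78) (nat_lit 0) (nat_lit 0) (XT.lf (nat_lit 0) (nat_lit 862434169383) (nat_lit 76) (nat_lit 81383643031) (nat_lit 76) (nat_lit 80689610936) (nat_lit 1) (nat_lit 4) (nat_lit 2) (nat_lit 5) (nat_lit 2) (nat_lit 4) (nat_lit 390) (nat_lit 265) (nat_lit 245)) (XT.lf (nat_lit 0) (nat_lit 933399877345) (nat_lit 76) (nat_lit 86848156554) (nat_lit 76) (nat_lit 86140081742) (nat_lit 1) (nat_lit 4) (nat_lit 2) (nat_lit 5) (nat_lit 2) (nat_lit 4) (nat_lit 391) (nat_lit 265) (nat_lit 244))) (XT.nd (nat_lit 78)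 (nat_lit 0) (nat_lit 0) (XT.lf (nat_lit 0) (nat_lit 1010000153842) (nat_lit 76) (nat_lit 92770958671) (nat_lit 76) (nat_lit 92049881343) (nat_lit 1) (nat_lit 4) (nat_lit 2) (nat_lit 5) (nat_lit 2) (nat_lit 4) (nat_lit 392) (nat_lit 265) (nat_lit 243)) (XT.lf (nat_lit 0) (nat_lit 1092688926439) (nat_lit 76) (nat_lit 99187147467) (nat_lit 76) (nat_lit 98454030772) (nat_lit 1) (nat_lit 4) (nat_lit 2) (nat_lit 5) (nat_lit 2) (nat_lit 4) (nat_lit 393) (nat_lit 265) (nat_lit 242))))) (XT.nd (nat_lit 312) (nat_lit 0) (nat_lit 0) (XT.nd (nat_lit 156) (nat_lit 0) (nat_lit 0) (XT.nd (nat_lit 78) (nat_lit 0) (nat_lit 0) (XT.lf (nat_lit 0) (nat_lit 1181956202677) (nat_lit 76) (nat_lit 106134744801) (nat_lit 76) (nat_lit 105390480545) (nat_lit 1) (nat_lit 4) (nat_lit 2) (nat_lit 5) (nat_lit 2) (nat_lit 4) (nat_lit 394) (nat_lit 265) (nat_lit 241)) (XT.lf (nat_lit 0) (nat_lit 1278330973822) (nat_lit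 76) (nat_lit 113654921621) (nat_lit 76) (nat_lit 112900335550) (nat_lit 1) (nat_lit 4) (nat_lit 2) (nat_lit 5) (nat_lit 2) (nat_lit 4) (nat_lit 395) (nat_lit 265) (nat_lit 240))) (XT.nd (nat_lit 78) (nat_lit 0) (nat_lit 0) (XT.lf (nat_lit 0) (nat_lit 1382384349630) (nat_lit 76) (nat_lit 121792241938) (nat_lit 76) (nat_lit 121028098629) (nat_lit 1) (nat_lit 4) (nat_lit 2) (nat_lit 5) (nat_lit 2) (nat_lit 4) (nat_lit 396) (nat_lit 265) (nat_lit 239)) (XT.lf (nat_lit 0) (nat_lit 1494732942698) (nat_lit 76) (nat_lit 130594926909) (nat_lit 76) (nat_lit 129821934307) (nat_lit 1) (nat_lit 4) (nat_lit 2) (nat_lit 5) (nat_lit 2) (nat_lit 4) (nat_lit 397) (nat_lit 265) (nat_lit 238)))) (XT.nd (nat_lit 156) (nat_lit 0) (nat_lit 0) (XT.nd (nat_lit 78) (nat_lit 0) (nat_lit 0) (XT.lf (nat_lit 0) (nat_lit 1616042522466) (nat_lit 76) (nat_lit 140115140594) (nat_lit 76) (nat_lit 139333954201) (nat_lit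 1) (nat_lit 4) (nat_lit 2) (nat_lit 5) (nat_lit 2) (nat_lit 4) (nat_lit 398) (nat_lit 265) (nat_lit 237)) (XT.lf (nat_lit 0) (nat_lit 1747031960519) (nat_lit 76) (nat_lit 150409299072) (nat_lit 76) (nat_lit 149620525836) (nat_lit 1) (nat_lit 4) (nat_lit 2) (nat_lit 5) (nat_lit 2) (nat_lit 4) (nat_lit 399) (nat_lit 265) (nat_lit 236))) (XT.nd (nat_lit 78) (nat_lit 0) (nat_lit 0) (XT.lf (nat_lit 0) (nat_lit 1888477490562) (nat_lit 76) (nat_lit 161538404766) (nat_lit 76) (nat_lit 160742606675) (nat_lit 1) (nat_lit 4) (nat_lit 2) (nat_lit 5) (nat_lit 2) (nat_lit 4) (nat_lit 400) (nat_lit 265) (nat_lit 235)) (XT.lf (nat_lit 0) (nat_lit 2041217308330) (nat_lit 76) (nat_lit 173568407930) (nat_lit 76) (nat_lit 172766105345) (nat_lit 1) (nat_lit 4) (nat_lit 2) (nat_lit 5) (nat_lit 2) (nat_lit 4) (nat_lit 401) (nat_lit 265) (nat_lit 234)))))) (XT.nd (nat_lit 624) (nat_lit 0) (nat_lit 0) (XT.nd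 (nat_lit 312) (nat_lit 0) (nat_lit 0) (XT.nd (nat_lit 156) (nat_lit 0) (nat_lit 0) (XT.nd (nat_lit 78) (nat_lit 0) (nat_lit 0) (XT.lf (nat_lit 0) (nat_lit 2206156538669) (nat_lit 76) (nat_lit 186570597473) (nat_lit 76) (nat_lit 185762272207) (nat_lit 1) (nat_lit 4) (nat_lit 2) (nat_lit 5) (nat_lit 2) (nat_lit 4) (nat_lit 402) (nat_lit 265) (nat_lit 233)) (XT.lf (nat_lit 0) (nat_lit 2384272599239) (nat_lit 76) (nat_lit 200622023407) (nat_lit 76) (nat_lit 199808121584) (nat_lit 1) (nat_lit 4) (nat_lit 2) (nat_lit 5) (nat_lit 2) (nat_lit 4) (nat_lit 403) (nat_lit 265) (nat_lit 232))) (XT.nd (nat_lit 78) (nat_lit 0) (nat_lit 0) (XT.lf (nat_lit 0) (nat_lit 2576620992623) (nat_lit 76) (nat_lit 215805953440) (nat_lit 76) (nat_lit 214986888140) (nat_lit 1) (nat_lit 4) (nat_lit 2) (nat_lit 5) (nat_lit 2) (nat_lit 4) (nat_lit 404) (nat_lit 265) (nat_lit 231)) (XT.lf (nat_lit 0) (nat_lit 2784341561151)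 (nat_lit 76) (nat_lit 232212366418) (nat_lit 76) (nat_lit 231388520120) (nat_lit 1) (nat_lit 4) (nat_lit 2) (nat_lit 5) (nat_lit 2) (nat_lit 4) (nat_lit 405) (nat_lit 265) (nat_lit 230)))) (XT.nd (nat_lit 156) (nat_lit 0) (nat_lit 0) (XT.nd (nat_lit 78) (nat_lit 0) (nat_lit 0) (XT.lf (nat_lit 0) (nat_lit 3008665241526) (nat_lit 76) (nat_lit 249938485529) (nat_lit 76) (nat_lit 249110212380) (nat_lit 1) (nat_lit 4) (nat_lit 2) (nat_lit 5) (nat_lit 2) (nat_lit 4) (nat_lit 406) (nat_lit 265) (nat_lit 229)) (XT.lf (nat_lit 0) (nat_lit 3250921359260) (nat_lit 76) (nat_lit 269089354440) (nat_lit 76) (nat_lit 268256982357) (nat_lit 1) (nat_lit 4) (nat_lit 2) (nat_lit 5) (nat_lit 2) (nat_lit 4) (nat_lit 407) (nat_lit 265) (nat_lit 228))) (XT.nd (nat_lit 78) (nat_lit 0) (nat_lit 0) (XT.lf (nat_lit 0) (nat_lit 3512545506164) (nat_lit 76) (nat_lit 289778459784) (nat_lit 76) (nat_lit 288942292390)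 (nat_lit 1) (nat_lit 4) (nat_lit 2) (nat_lit 5) (nat_lit 2) (nat_lit 4) (nat_lit 408) (nat_lit 265) (nat_lit 227)) (XT.lf (nat_lit 0) (nat_lit 3795088047551) (nat_lit 76) (nat_lit 312128403666) (nat_lit 76) (nat_lit 311288722095) (nat_lit 1) (nat_lit 4) (nat_lit 2) (nat_lit 5) (nat_lit 2) (nat_lit 4) (nat_lit 409) (nat_lit 265) (nat_lit 226))))) (XT.nd (nat_lit 43680) (nat_lit 0) (nat_lit 0) (XT.nd (nat_lit 156) (nat_lit 0) (nat_lit 0) (XT.nd (nat_lit 78) (nat_lit 0) (nat_lit 0) (XT.lf (nat_lit 0) (nat_lit 4100223309593) (nat_lit 76) (nat_lit 336271630196) (nat_lit 76) (nat_lit 335428694759) (nat_lit 1) (nat_lit 4) (nat_lit 2) (nat_lit 5) (nat_lit 2) (nat_lit 4) (nat_lit 410) (nat_lit 265) (nat_lit 225)) (XT.lf (nat_lit 0) (nat_lit 4429759501251) (nat_lit 76) (nat_lit 362351210349) (nat_lit 76) (nat_lit 361505262072) (nat_lit 1) (nat_lit 4) (nat_lit 2) (nat_lit 5) (nat_lit 2) (nat_lit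 4) (nat_lit 411) (nat_lit 265) (nat_lit 224))) (XT.nd (nat_lit 43446) (nat_lit 0) (nat_lit 0) (XT.lf (nat_lit 0) (nat_lit 4785649429585) (nat_lit 76) (nat_lit 390521689783) (nat_lit 76) (nat_lit 389672951840) (nat_lit 1) (nat_lit 4) (nat_lit 2) (nat_lit 5) (nat_lit 2) (nat_lit 4) (nat_lit 412) (nat_lit 265) (nat_lit 223)) (XT.lf (nat_lit 0) (nat_lit 62437410384) (nat_lit 76) (nat_lit 16235566551) (nat_lit 76) (nat_lit 16235566551) (nat_lit 1) (nat_lit 4) (nat_lit 2) (nat_lit 5) (nat_lit 2) (nat_lit 4) (nat_lit 368) (nat_lit 266) (nat_lit 266)))) (XT.nd (nat_lit 156) (nat_lit 0) (nat_lit 0) (XT.nd (nat_lit 78) (nat_lit 0) (nat_lit 0) (XT.lf (nat_lit 0) (nat_lit 139272011149) (nat_lit 76) (nat_lit 32811233634) (nat_lit 76) (nat_lit 32740544932) (nat_lit 1) (nat_lit 4) (nat_lit 2) (nat_lit 5) (nat_lit 2) (nat_lit 4) (nat_lit 369) (nat_lit 266) (nat_lit 265)) (XT.lf (nat_lit 0) (nat_lit 154606091954)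 (nat_lit 76) (nat_lit 33284894583) (nat_lit 76) (nat_lit 33148753379) (nat_lit 1) (nat_lit 4) (nat_lit 2) (nat_lit 5) (nat_lit 2) (nat_lit 4) (nat_lit 370) (nat_lit 266) (nat_lit 264))) (XT.nd (nat_lit 78) (nat_lit 0) (nat_lit 0) (XT.lf (nat_lit 0) (nat_lit 170967931812) (nat_lit 76) (nat_lit 33894922830) (nat_lit 76) (nat_lit 33698177458) (nat_lit 1) (nat_lit 4) (nat_lit 2) (nat_lit 5) (nat_lit 2) (nat_lit 4) (nat_lit 371) (nat_lit 266) (nat_lit 263)) (XT.nd (nat_lit 78) (nat_lit 0) (nat_lit 0) (XT.lf (nat_lit 0) (nat_lit 188454489772) (nat_lit 76) (nat_lit 34644933357) (nat_lit 76) (nat_lit 34392073014) (nat_lit 1) (nat_lit 4) (nat_lit 2) (nat_lit 5) (nat_lit 2) (nat_lit 4) (nat_lit 372) (nat_lit 266) (nat_lit 262)) (XT.lf (nat_lit 0) (nat_lit 207169389882) (nat_lit 76) (nat_lit 35539370671) (nat_lit 76) (nat_lit 35234552022) (nat_lit 1) (nat_lit 4) (nat_lit 2) (nat_lit 5) (nat_lit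 2) (nat_lit 4) (nat_lit 373) (nat_lit 266) (nat_lit 261))))))))
noncomputable def xc15 : XT := (XT.nd (nat_lit 1248) (nat_lit 0) (nat_lit 0) (XT.nd (nat_lit 624) (nat_lit 0) (nat_lit 0) (XT.nd (nat_lit 312) (nat_lit 0) (nat_lit 0) (XT.nd (nat_lit 156) (nat_lit 0) (nat_lit 0) (XT.nd (nat_lit 78) (nat_lit 0) (nat_lit 0) (XT.lf (nat_lit 0) (nat_lit 227223535253) (nat_lit 76) (nat_lit 36583535140) (nat_lit 76) (nat_lit 36230606949) (nat_lit 1) (nat_lit 4) (nat_lit 2) (nat_lit 5) (nat_lit 2) (nat_lit 4) (nat_lit 374) (nat_lit 266) (nat_lit 260)) (XT.lf (nat_lit 0) (nat_lit 248735765266) (nat_lit 76) (nat_lit 37783614408) (nat_lit 76) (nat_lit 37386140344) (nat_lit 1) (nat_lit 4) (nat_lit 2) (nat_lit 5) (nat_lit 2) (nat_lit 4) (nat_lit 375) (nat_lit 266) (nat_lit 259))) (XT.nd (nat_lit 78) (nat_lit 0) (nat_lit 0) (XT.lf (nat_lit 0) (nat_lit 271833559802) (nat_lit 76) (nat_lit 39146720053) (nat_lit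 76) (nat_lit 38707999811) (nat_lit 1) (nat_lit 4) (nat_lit 2) (nat_lit 5) (nat_lit 2) (nat_lit 4) (nat_lit 376) (nat_lit 266) (nat_lit 258)) (XT.lf (nat_lit 0) (nat_lit 296653794681) (nat_lit 76) (nat_lit 40680929740) (nat_lit 76) (nat_lit 40204018591) (nat_lit 1) (nat_lit 4) (nat_lit 2) (nat_lit 5) (nat_lit 2) (nat_lit 4) (nat_lit 377) (nat_lit 266) (nat_lit 257)))) (XT.nd (nat_lit 156) (nat_lit 0) (nat_lit 0) (XT.nd (nat_lit 78) (nat_lit 0) (nat_lit 0) (XT.lf (nat_lit 0) (nat_lit 323343552776) (nat_lit 76) (nat_lit 42395335082) (nat_lit 76) (nat_lit 41883061982) (nat_lit 1) (nat_lit 4) (nat_lit 2) (nat_lit 5) (nat_lit 2) (nat_lit 4) (nat_lit 378) (nat_lit 266) (nat_lit 256)) (XT.lf (nat_lit 0) (nat_lit 352060995616) (nat_lit 76) (nat_lit 44300095516) (nat_lit 76) (nat_lit 43755079871) (nat_lit 1) (nat_lit 4) (nat_lit 2) (nat_lit 5) (nat_lit 2) (nat_lit 4) (nat_lit 379) (nat_lit 266)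 (nat_lit 255))) (XT.nd (nat_lit 78) (nat_lit 0) (nat_lit 0) (XT.lf (nat_lit 0) (nat_lit 382976300640) (nat_lit 76) (nat_lit 46406498513) (nat_lit 76) (nat_lit 45831165695) (nat_lit 1) (nat_lit 4) (nat_lit 2) (nat_lit 5) (nat_lit 2) (nat_lit 4) (nat_lit 380) (nat_lit 266) (nat_lit 254)) (XT.lf (nat_lit 0) (nat_lit 416272669657) (nat_lit 76) (nat_lit 48727026461) (nat_lit 76) (nat_lit 48123622187) (nat_lit 1) (nat_lit 4) (nat_lit 2) (nat_lit 5) (nat_lit 2) (nat_lit 4) (nat_lit 381) (nat_lit 266) (nat_lit 253))))) (XT.nd (nat_lit 312) (nat_lit 0) (nat_lit 0) (XT.nd (nat_lit 156) (nat_lit 0) (nat_lit 0) (XT.nd (nat_lit 78) (nat_lit 0) (nat_lit 0) (XT.lf (nat_lit 0) (nat_lit 452147414482) (nat_lit 76) (nat_lit 51275430636) (nat_lit 76) (nat_lit 50646034273) (nat_lit 1) (nat_lit 4) (nat_lit 2) (nat_lit 5) (nat_lit 2) (nat_lit 4) (nat_lit 382) (nat_lit 266) (nat_lit 252)) (XT.lf (nat_lit 0)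 (nat_lit 490813126196) (nat_lit 76) (nat_lit 54066812694) (nat_lit 76) (nat_lit 53413349581) (nat_lit 1) (nat_lit 4) (nat_lit 2) (nat_lit 5) (nat_lit 2) (nat_lit 4) (nat_lit 383) (nat_lit 266) (nat_lit 251))) (XT.nd (nat_lit 78) (nat_lit 0) (nat_lit 0) (XT.lf (nat_lit 0) (nat_lit 532498934942) (nat_lit 76) (nat_lit 57117714156) (nat_lit 76) (nat_lit 56441967017) (nat_lit 1) (nat_lit 4) (nat_lit 2) (nat_lit 5) (nat_lit 2) (nat_lit 4) (nat_lit 384) (nat_lit 266) (nat_lit 250)) (XT.lf (nat_lit 0) (nat_lit 577451867735) (nat_lit 76) (nat_lit 60446214439) (nat_lit 76) (nat_lit 59749833942) (nat_lit 1) (nat_lit 4) (nat_lit 2) (nat_lit 5) (nat_lit 2) (nat_lit 4) (nat_lit 385) (nat_lit 266) (nat_lit 249)))) (XT.nd (nat_lit 156) (nat_lit 0) (nat_lit 0) (XT.nd (nat_lit 78) (nat_lit 0) (nat_lit 0) (XT.lf (nat_lit 0) (nat_lit 625938312326) (nat_lit 76) (nat_lit 64072037990) (nat_lit 76) (nat_lit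 63356552531) (nat_lit 1) (nat_lit 4) (nat_lit 2) (nat_lit 5) (nat_lit 2) (nat_lit 4) (nat_lit 386) (nat_lit 266) (nat_lit 248)) (XT.lf (nat_lit 0) (nat_lit 678245595792) (nat_lit 76) (nat_lit 68016671170) (nat_lit 76) (nat_lit 67283495932) (nat_lit 1) (nat_lit 4) (nat_lit 2) (nat_lit 5) (nat_lit 2) (nat_lit 4) (nat_lit 387) (nat_lit 266) (nat_lit 247))) (XT.nd (nat_lit 78) (nat_lit 0) (nat_lit 0) (XT.lf (nat_lit 0) (nat_lit 734683687222) (nat_lit 76) (nat_lit 72303489583) (nat_lit 76) (nat_lit 71553934920) (nat_lit 1) (nat_lit 4) (nat_lit 2) (nat_lit 5) (nat_lit 2) (nat_lit 4) (nat_lit 388) (nat_lit 266) (nat_lit 246)) (XT.lf (nat_lit 0) (nat_lit 795587034564) (nat_lit 76) (nat_lit 76957896597) (nat_lit 76) (nat_lit 76193175800) (nat_lit 1) (nat_lit 4) (nat_lit 2) (nat_lit 5) (nat_lit 2) (nat_lit 4) (nat_lit 389) (nat_lit 266) (nat_lit 245)))))) (XT.nd (nat_lit 624) (nat_lit 0) (nat_lit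 0) (XT.nd (nat_lit 312) (nat_lit 0) (nat_lit 0) (XT.nd (nat_lit 156) (nat_lit 0) (nat_lit 0) (XT.nd (nat_lit 78) (nat_lit 0) (nat_lit 0) (XT.lf (nat_lit 0) (nat_lit 861316546544) (nat_lit 76) (nat_lit 82007473885) (nat_lit 76) (nat_lit 81228710371) (nat_lit 1) (nat_lit 4) (nat_lit 2) (nat_lit 5) (nat_lit 2) (nat_lit 4) (nat_lit 390) (nat_lit 266) (nat_lit 244)) (XT.lf (nat_lit 0) (nat_lit 932261731380) (nat_lit 76) (nat_lit 87482144866) (nat_lit 76) (nat_lit 86690378836) (nat_lit 1) (nat_lit 4) (nat_lit 2) (nat_lit 5) (nat_lit 2) (nat_lit 4) (nat_lit 391) (nat_lit 266) (nat_lit 243))) (XT.nd (nat_lit 78) (nat_lit 0) (nat_lit 0) (XT.lf (nat_lit 0) (nat_lit 1008843004983) (nat_lit 76) (nat_lit 93414352035) (nat_lit 76) (nat_lit 92610546639) (nat_lit 1) (nat_lit 4) (nat_lit 2) (nat_lit 5) (nat_lit 2) (nat_lit 4) (nat_lit 392) (nat_lit 266) (nat_lit 242)) (XT.lf (nat_lit 0) (nat_lit 1091514182307)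 (nat_lit 76) (nat_lit 99839249213) (nat_lit 76) (nat_lit 99024296255) (nat_lit 1) (nat_lit 4) (nat_lit 2) (nat_lit 5) (nat_lit 2) (nat_lit 4) (nat_lit 393) (nat_lit 266) (nat_lit 241)))) (XT.nd (nat_lit 156) (nat_lit 0) (nat_lit 0) (XT.nd (nat_lit 78) (nat_lit 0) (nat_lit 0) (XT.lf (nat_lit 0) (nat_lit 1180765166626) (nat_lit 76) (nat_lit 106794909864) (nat_lit 76) (nat_lit 105969635091) (nat_lit 1) (nat_lit 4) (nat_lit 2) (nat_lit 5) (nat_lit 2) (nat_lit 4) (nat_lit 394) (nat_lit 266) (nat_lit 240)) (XT.lf (nat_lit 0) (nat_lit 1277124852662) (nat_lit 76) (nat_lit 114322552718) (nat_lit 76) (nat_lit 113487720708) (nat_lit 1) (nat_lit 4) (nat_lit 2) (nat_lit 5) (nat_lit 2) (nat_lit 4) (nat_lit 395) (nat_lit 266) (nat_lit 239))) (XT.nd (nat_lit 78) (nat_lit 0) (nat_lit 0) (XT.lf (nat_lit 0) (nat_lit 1381164260775) (nat_lit 76) (nat_lit 122466786030) (nat_lit 76) (nat_lit 121623104726) (nat_lit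 1) (nat_lit 4) (nat_lit 2) (nat_lit 5) (nat_lit 2) (nat_lit 4) (nat_lit 396) (nat_lit 266) (nat_lit 238)) (XT.lf (nat_lit 0) (nat_lit 1493499920792) (nat_lit 76) (nat_lit 131275871922) (nat_lit 76) (nat_lit 130423996827) (nat_lit 1) (nat_lit 4) (nat_lit 2) (nat_lit 5) (nat_lit 2) (nat_lit 4) (nat_lit 397) (nat_lit 266) (nat_lit 237))))) (XT.nd (nat_lit 312) (nat_lit 0) (nat_lit 0) (XT.nd (nat_lit 156) (nat_lit 0) (nat_lit 0) (XT.nd (nat_lit 78) (nat_lit 0) (nat_lit 0) (XT.lf (nat_lit 0) (nat_lit 1614797525514) (nat_lit 76) (nat_lit 140802012385) (nat_lit 76) (nat_lit 139942550447) (nat_lit 1) (nat_lit 4) (nat_lit 2) (nat_lit 5) (nat_lit 2) (nat_lit 4) (nat_lit 398) (nat_lit 266) (nat_lit 236)) (XT.lf (nat_lit 0) (nat_lit 1745775875560) (nat_lit 76) (nat_lit 151101658622) (nat_lit 76) (nat_lit 150235171829) (nat_lit 1) (nat_lit 4) (nat_lit 2) (nat_lit 5) (nat_lit 2) (nat_lit 4) (nat_lit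 399) (nat_lit 266) (nat_lit 235))) (XT.nd (nat_lit 78) (nat_lit 0) (nat_lit 0) (XT.lf (nat_lit 0) (nat_lit 1887211138930) (nat_lit 76) (nat_lit 162235845573) (nat_lit 76) (nat_lit 161362854285) (nat_lit 1) (nat_lit 4) (nat_lit 2) (nat_lit 5) (nat_lit 2) (nat_lit 4) (nat_lit 400) (nat_lit 266) (nat_lit 234)) (XT.lf (nat_lit 0) (nat_lit 2039941450520) (nat_lit 76) (nat_lit 174270553605) (nat_lit 76) (nat_lit 173391539637) (nat_lit 1) (nat_lit 4) (nat_lit 2) (nat_lit 5) (nat_lit 2) (nat_lit 4) (nat_lit 401) (nat_lit 266) (nat_lit 233)))) (XT.nd (nat_lit 156) (nat_lit 0) (nat_lit 0) (XT.nd (nat_lit 78) (nat_lit 0) (nat_lit 0) (XT.lf (nat_lit 0) (nat_lit 2204871878842) (nat_lit 76) (nat_lit 187277099507) (nat_lit 76) (nat_lit 186392508983) (nat_lit 1) (nat_lit 4) (nat_lit 2) (nat_lit 5) (nat_lit 2) (nat_lit 4) (nat_lit 402) (nat_lit 266) (nat_lit 232)) (XT.lf (nat_lit 0) (nat_lit 2382979789397)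 (nat_lit 76) (nat_lit 201332559107) (nat_lit 76) (nat_lit 200442805105) (nat_lit 1) (nat_lit 4) (nat_lit 2) (nat_lit 5) (nat_lit 2) (nat_lit 4) (nat_lit 403) (nat_lit 266) (nat_lit 231))) (XT.nd (nat_lit 78) (nat_lit 0) (nat_lit 0) (XT.lf (nat_lit 0) (nat_lit 2575320636470) (nat_lit 76) (nat_lit 216520224016) (nat_lit 76) (nat_lit 215625689016) (nat_lit 1) (nat_lit 4) (nat_lit 2) (nat_lit 5) (nat_lit 2) (nat_lit 4) (nat_lit 404) (nat_lit 266) (nat_lit 230)) (XT.nd (nat_lit 78) (nat_lit 0) (nat_lit 0) (XT.lf (nat_lit 0) (nat_lit 2783034217673) (nat_lit 76) (nat_lit 232930095212) (nat_lit 76) (nat_lit 232031133362) (nat_lit 1) (nat_lit 4) (nat_lit 2) (nat_lit 5) (nat_lit 2) (nat_lit 4) (nat_lit 405) (nat_lit 266) (nat_lit 229)) (XT.lf (nat_lit 0) (nat_lit 3007351428303) (nat_lit 76) (nat_lit 250659416377) (nat_lit 76) (nat_lit 249756355592) (nat_lit 1) (nat_lit 4) (nat_lit 2) (nat_lit 5)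 (nat_lit 2) (nat_lit 4) (nat_lit 406) (nat_lit 266) (nat_lit 228))))))))
noncomputable def xc16 : XT := (XT.nd (nat_lit 44460) (nat_lit 0) (nat_lit 0) (XT.nd (nat_lit 43836) (nat_lit 0) (nat_lit 0) (XT.nd (nat_lit 312) (nat_lit 0) (nat_lit 0) (XT.nd (nat_lit 156) (nat_lit 0) (nat_lit 0) (XT.nd (nat_lit 78) (nat_lit 0) (nat_lit 0) (XT.lf (nat_lit 0) (nat_lit 3249601555532) (nat_lit 76) (nat_lit 269813250154) (nat_lit 76) (nat_lit 268906394058) (nat_lit 1) (nat_lit 4) (nat_lit 2) (nat_lit 5) (nat_lit 2) (nat_lit 4) (nat_lit 407) (nat_lit 266) (nat_lit 227)) (XT.lf (nat_lit 0) (nat_lit 3511220155672) (nat_lit 76) (nat_lit 290505100743) (nat_lit 76) (nat_lit 289594730471) (nat_lit 1) (nat_lit 4) (nat_lit 2) (nat_lit 5) (nat_lit 2) (nat_lit 4) (nat_lit 408) (nat_lit 266) (nat_lit 226))) (XT.nd (nat_lit 78) (nat_lit 0) (nat_lit 0) (XT.lf (nat_lit 0) (nat_lit 3793757561167) (nat_lit 76) (nat_lit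 312857586518) (nat_lit 76) (nat_lit 311943962379) (nat_lit 1) (nat_lit 4) (nat_lit 2) (nat_lit 5) (nat_lit 2) (nat_lit 4) (nat_lit 409) (nat_lit 266) (nat_lit 225)) (XT.lf (nat_lit 0) (nat_lit 4098888067754) (nat_lit 76) (nat_lit 337003166654) (nat_lit 76) (nat_lit 336086529675) (nat_lit 1) (nat_lit 4) (nat_lit 2) (nat_lit 5) (nat_lit 2) (nat_lit 4) (nat_lit 410) (nat_lit 266) (nat_lit 224)))) (XT.nd (nat_lit 43368) (nat_lit 0) (nat_lit 0) (XT.nd (nat_lit 78) (nat_lit 0) (nat_lit 0) (XT.lf (nat_lit 0) (nat_lit 4428419856211) (nat_lit 76) (nat_lit 363084926071) (nat_lit 76) (nat_lit 362165499426) (nat_lit 1) (nat_lit 4) (nat_lit 2) (nat_lit 5) (nat_lit 2) (nat_lit 4) (nat_lit 411) (nat_lit 266) (nat_lit 223)) (XT.lf (nat_lit 0) (nat_lit 4784305707508) (nat_lit 76) (nat_lit 391257423342) (nat_lit 76) (nat_lit 390335413673) (nat_lit 1) (nat_lit 4) (nat_lit 2) (nat_lit 5) (nat_lit 2) (nat_lit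 4) (nat_lit 412) (nat_lit 266) (nat_lit 222))) (XT.nd (nat_lit 78) (nat_lit 0) (nat_lit 0) (XT.lf (nat_lit 0) (nat_lit 49337695847) (nat_lit 76) (nat_lit 16100517918) (nat_lit 76) (nat_lit 16100517918) (nat_lit 1) (nat_lit 4) (nat_lit 2) (nat_lit 5) (nat_lit 2) (nat_lit 4) (nat_lit 366) (nat_lit 267) (nat_lit 267)) (XT.lf (nat_lit 0) (nat_lit 111329204127) (nat_lit 76) (nat_lit 32338921377) (nat_lit 76) (nat_lit 32262577579) (nat_lit 1) (nat_lit 4) (nat_lit 2) (nat_lit 5) (nat_lit 2) (nat_lit 4) (nat_lit 367) (nat_lit 267) (nat_lit 266))))) (XT.nd (nat_lit 312) (nat_lit 0) (nat_lit 0) (XT.nd (nat_lit 156) (nat_lit 0) (nat_lit 0) (XT.nd (nat_lit 78) (nat_lit 0) (nat_lit 0) (XT.lf (nat_lit 0) (nat_lit 124763245965) (nat_lit 76) (nat_lit 32602698326) (nat_lit 76) (nat_lit 32455665826) (nat_lit 1) (nat_lit 4) (nat_lit 2) (nat_lit 5) (nat_lit 2) (nat_lit 4) (nat_lit 368) (nat_lit 267) (nat_lit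 265)) (XT.lf (nat_lit 0) (nat_lit 139057126343) (nat_lit 76) (nat_lit 32993929807) (nat_lit 76) (nat_lit 32781444806) (nat_lit 1) (nat_lit 4) (nat_lit 2) (nat_lit 5) (nat_lit 2) (nat_lit 4) (nat_lit 369) (nat_lit 267) (nat_lit 264))) (XT.nd (nat_lit 78) (nat_lit 0) (nat_lit 0) (XT.lf (nat_lit 0) (nat_lit 154295549739) (nat_lit 76) (nat_lit 33514934228) (nat_lit 76) (nat_lit 33241845058) (nat_lit 1) (nat_lit 4) (nat_lit 2) (nat_lit 5) (nat_lit 2) (nat_lit 4) (nat_lit 370) (nat_lit 267) (nat_lit 263)) (XT.lf (nat_lit 0) (nat_lit 170568817920) (nat_lit 76) (nat_lit 34168799024) (nat_lit 76) (nat_lit 33839594883) (nat_lit 1) (nat_lit 4) (nat_lit 2) (nat_lit 5) (nat_lit 2) (nat_lit 4) (nat_lit 371) (nat_lit 267) (nat_lit 262)))) (XT.nd (nat_lit 156) (nat_lit 0) (nat_lit 0) (XT.nd (nat_lit 78) (nat_lit 0) (nat_lit 0) (XT.lf (nat_lit 0) (nat_lit 187973365069) (nat_lit 76) (nat_lit 34959398947)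 (nat_lit 76) (nat_lit 34578236500) (nat_lit 1) (nat_lit 4) (nat_lit 2) (nat_lit 5) (nat_lit 2) (nat_lit 4) (nat_lit 372) (nat_lit 267) (nat_lit 261)) (XT.lf (nat_lit 0) (nat_lit 206612329243) (nat_lit 76) (nat_lit 35891419035) (nat_lit 76) (nat_lit 35462147046) (nat_lit 1) (nat_lit 4) (nat_lit 2) (nat_lit 5) (nat_lit 2) (nat_lit 4) (nat_lit 373) (nat_lit 267) (nat_lit 260))) (XT.nd (nat_lit 78) (nat_lit 0) (nat_lit 0) (XT.lf (nat_lit 0) (nat_lit 226596163562) (nat_lit 76) (nat_lit 36970382371) (nat_lit 76) (nat_lit 36496564508) (nat_lit 1) (nat_lit 4) (nat_lit 2) (nat_lit 5) (nat_lit 2) (nat_lit 4) (nat_lit 374) (nat_lit 267) (nat_lit 259)) (XT.lf (nat_lit 0) (nat_lit 248043290749) (nat_lit 76) (nat_lit 38202682810) (nat_lit 76) (nat_lit 37687618769) (nat_lit 1) (nat_lit 4) (nat_lit 2) (nat_lit 5) (nat_lit 2) (nat_lit 4) (nat_lit 375) (nat_lit 267) (nat_lit 258)))))) (XT.nd (nat_lit 624)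 (nat_lit 0) (nat_lit 0) (XT.nd (nat_lit 312) (nat_lit 0) (nat_lit 0) (XT.nd (nat_lit 156) (nat_lit 0) (nat_lit 0) (XT.nd (nat_lit 78) (nat_lit 0) (nat_lit 0) (XT.lf (nat_lit 0) (nat_lit 271080804891) (nat_lit 76) (nat_lit 39595622873) (nat_lit 76) (nat_lit 39042367926) (nat_lit 1) (nat_lit 4) (nat_lit 2) (nat_lit 5) (nat_lit 2) (nat_lit 4) (nat_lit 376) (nat_lit 267) (nat_lit 257)) (XT.lf (nat_lit 0) (nat_lit 295845224590) (nat_lit 76) (nat_lit 41157457021) (nat_lit 76) (nat_lit 40568840124) (nat_lit 1) (nat_lit 4) (nat_lit 2) (nat_lit 5) (nat_lit 2) (nat_lit 4) (nat_lit 377) (nat_lit 267) (nat_lit 256))) (XT.nd (nat_lit 78) (nat_lit 0) (nat_lit 0) (XT.lf (nat_lit 0) (nat_lit 322483301962) (nat_lit 76) (nat_lit 42897440567) (nat_lit 76) (nat_lit 42276081124) (nat_lit 1) (nat_lit 4) (nat_lit 2) (nat_lit 5) (nat_lit 2) (nat_lit 4) (nat_lit 378) (nat_lit 267) (nat_lit 255)) (XT.lf (nat_lit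 0) (nat_lit 351152892282) (nat_lit 76) (nat_lit 44825884525) (nat_lit 76) (nat_lit 44174207909) (nat_lit 1) (nat_lit 4) (nat_lit 2) (nat_lit 5) (nat_lit 2) (nat_lit 4) (nat_lit 379) (nat_lit 267) (nat_lit 254)))) (XT.nd (nat_lit 156) (nat_lit 0) (nat_lit 0) (XT.nd (nat_lit 78) (nat_lit 0) (nat_lit 0) (XT.lf (nat_lit 0) (nat_lit 382023889417) (nat_lit 76) (nat_lit 46954216710) (nat_lit 76) (nat_lit 46274468638) (nat_lit 1) (nat_lit 4) (nat_lit 2) (nat_lit 5) (nat_lit 2) (nat_lit 4) (nat_lit 380) (nat_lit 267) (nat_lit 253)) (XT.lf (nat_lit 0) (nat_lit 415279232610) (nat_lit 76) (nat_lit 49295049462) (nat_lit 76) (nat_lit 48589309300) (nat_lit 1) (nat_lit 4) (nat_lit 2) (nat_lit 5) (nat_lit 2) (nat_lit 4) (nat_lit 381) (nat_lit 267) (nat_lit 252))) (XT.nd (nat_lit 78) (nat_lit 0) (nat_lit 0) (XT.lf (nat_lit 0) (nat_lit 451115990561) (nat_lit 76) (nat_lit 51862254381) (nat_lit 76) (nat_lit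 51132447471) (nat_lit 1) (nat_lit 4) (nat_lit 2) (nat_lit 5) (nat_lit 2) (nat_lit 4) (nat_lit 382) (nat_lit 267) (nat_lit 251)) (XT.lf (nat_lit 0) (nat_lit 489746529244) (nat_lit 76) (nat_lit 54671044535) (nat_lit 76) (nat_lit 53918953597) (nat_lit 1) (nat_lit 4) (nat_lit 2) (nat_lit 5) (nat_lit 2) (nat_lit 4) (nat_lit 383) (nat_lit 267) (nat_lit 250))))) (XT.nd (nat_lit 312) (nat_lit 0) (nat_lit 0) (XT.nd (nat_lit 156) (nat_lit 0) (nat_lit 0) (XT.nd (nat_lit 78) (nat_lit 0) (nat_lit 0) (XT.lf (nat_lit 0) (nat_lit 531399770369) (nat_lit 76) (nat_lit 57738064605) (nat_lit 76) (nat_lit 56965340309) (nat_lit 1) (nat_lit 4) (nat_lit 2) (nat_lit 5) (nat_lit 2) (nat_lit 4) (nat_lit 384) (nat_lit 267) (nat_lit 249)) (XT.lf (nat_lit 0) (nat_lit 576322547957) (nat_lit 76) (nat_lit 61081489525) (nat_lit 76) (nat_lit 60289660268) (nat_lit 1) (nat_lit 4) (nat_lit 2) (nat_lit 5) (nat_lit 2) (nat_lit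 4) (nat_lit 385) (nat_lit 267) (nat_lit 248))) (XT.nd (nat_lit 78) (nat_lit 0) (nat_lit 0) (XT.lf (nat_lit 0) (nat_lit 624781071061) (nat_lit 76) (nat_lit 64721132184) (nat_lit 76) (nat_lit 63911613148) (nat_lit 1) (nat_lit 4) (nat_lit 2) (nat_lit 5) (nat_lit 2) (nat_lit 4) (nat_lit 386) (nat_lit 267) (nat_lit 247)) (XT.lf (nat_lit 0) (nat_lit 677062501300) (nat_lit 76) (nat_lit 68678560834) (nat_lit 76) (nat_lit 67852662374) (nat_lit 1) (nat_lit 4) (nat_lit 2) (nat_lit 5) (nat_lit 2) (nat_lit 4) (nat_lit 387) (nat_lit 267) (nat_lit 246)))) (XT.nd (nat_lit 156) (nat_lit 0) (nat_lit 0) (XT.nd (nat_lit 78) (nat_lit 0) (nat_lit 0) (XT.lf (nat_lit 0) (nat_lit 733476654556) (nat_lit 76) (nat_lit 72977226905) (nat_lit 76) (nat_lit 72136162310) (nat_lit 1) (nat_lit 4) (nat_lit 2) (nat_lit 5) (nat_lit 2) (nat_lit 4) (nat_lit 388) (nat_lit 267) (nat_lit 245)) (XT.lf (nat_lit 0) (nat_lit 794357836922)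 (nat_lit 76) (nat_lit 77642603974) (nat_lit 76) (nat_lit 76787496662) (nat_lit 1) (nat_lit 4) (nat_lit 2) (nat_lit 5) (nat_lit 2) (nat_lit 4) (nat_lit 389) (nat_lit 267) (nat_lit 244))) (XT.nd (nat_lit 78) (nat_lit 0) (nat_lit 0) (XT.lf (nat_lit 0) (nat_lit 860066825776) (nat_lit 76) (nat_lit 82702338718) (nat_lit 76) (nat_lit 81834228890) (nat_lit 1) (nat_lit 4) (nat_lit 2) (nat_lit 5) (nat_lit 2) (nat_lit 4) (nat_lit 390) (nat_lit 267) (nat_lit 243)) (XT.lf (nat_lit 0) (nat_lit 930993007718) (nat_lit 76) (nat_lit 88186414752) (nat_lit 76) (nat_lit 87306265558) (nat_lit 1) (nat_lit 4) (nat_lit 2) (nat_lit 5) (nat_lit 2) (nat_lit 4) (nat_lit 391) (nat_lit 267) (nat_lit 242)))))))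
noncomputable def xc17 : XT := (XT.nd (nat_lit 1248) (nat_lit 0) (nat_lit 0) (XT.nd (nat_lit 624) (nat_lit 0) (nat_lit 0) (XT.nd (nat_lit 312) (nat_lit 0) (nat_lit 0) (XT.nd (nat_lit 156) (nat_lit 0) (nat_lit 0) (XT.nd (nat_lit 78) (nat_lit 0) (nat_lit 0) (XT.lf (nat_lit 0) (nat_lit 1007556686048) (nat_lit 76) (nat_lit 94127330303) (nat_lit 76) (nat_lit 93236033548) (nat_lit 1) (nat_lit 4) (nat_lit 2) (nat_lit 5) (nat_lit 2) (nat_lit 4) (nat_lit 392) (nat_lit 267) (nat_lit 241)) (XT.lf (nat_lit 0) (nat_lit 1090211571454) (nat_lit 76) (nat_lit 100560290798) (nat_lit 76) (nat_lit 99658672226) (nat_lit 1) (nat_lit 4) (nat_lit 2) (nat_lit 5) (nat_lit 2) (nat_lit 4) (nat_lit 393) (nat_lit 267) (nat_lit 240))) (XT.nd (nat_lit 78) (nat_lit 0) (nat_lit 0) (XT.lf (nat_lit 0) (nat_lit 1179447470662) (nat_lit 76) (nat_lit 107523417483) (nat_lit 76) (nat_lit 106612241675) (nat_lit 1) (nat_lit 4)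 (nat_lit 2) (nat_lit 5) (nat_lit 2) (nat_lit 4) (nat_lit 394) (nat_lit 267) (nat_lit 239)) (XT.lf (nat_lit 0) (nat_lit 1275793189003) (nat_lit 76) (nat_lit 115057973332) (nat_lit 76) (nat_lit 114137948230) (nat_lit 1) (nat_lit 4) (nat_lit 2) (nat_lit 5) (nat_lit 2) (nat_lit 4) (nat_lit 395) (nat_lit 267) (nat_lit 238)))) (XT.nd (nat_lit 156) (nat_lit 0) (nat_lit 0) (XT.nd (nat_lit 78) (nat_lit 0) (nat_lit 0) (XT.lf (nat_lit 0) (nat_lit 1379819664066) (nat_lit 76) (nat_lit 123208607565) (nat_lit 76) (nat_lit 122280388672) (nat_lit 1) (nat_lit 4) (nat_lit 2) (nat_lit 5) (nat_lit 2) (nat_lit 4) (nat_lit 396) (nat_lit 267) (nat_lit 237)) (XT.lf (nat_lit 0) (nat_lit 1492143349037) (nat_lit 76) (nat_lit 132023620235) (nat_lit 76) (nat_lit 131087814500) (nat_lit 1) (nat_lit 4) (nat_lit 2) (nat_lit 5) (nat_lit 2) (nat_lit 4) (nat_lit 397) (nat_lit 267) (nat_lit 236))) (XT.nd (nat_lit 78) (nat_lit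 0) (nat_lit 0) (XT.lf (nat_lit 0) (nat_lit 1613429865752) (nat_lit 76) (nat_lit 141555248456) (nat_lit 76) (nat_lit 140612417866) (nat_lit 1) (nat_lit 4) (nat_lit 2) (nat_lit 5) (nat_lit 2) (nat_lit 4) (nat_lit 398) (nat_lit 267) (nat_lit 235)) (XT.lf (nat_lit 0) (nat_lit 1744397949125) (nat_lit 76) (nat_lit 151859975950) (nat_lit 76) (nat_lit 150910640865) (nat_lit 1) (nat_lit 4) (nat_lit 2) (nat_lit 5) (nat_lit 2) (nat_lit 4) (nat_lit 399) (nat_lit 267) (nat_lit 234))))) (XT.nd (nat_lit 312) (nat_lit 0) (nat_lit 0) (XT.nd (nat_lit 156) (nat_lit 0) (nat_lit 0) (XT.nd (nat_lit 78) (nat_lit 0) (nat_lit 0) (XT.lf (nat_lit 0) (nat_lit 1885823706318) (nat_lit 76) (nat_lit 162998867769) (nat_lit 76) (nat_lit 162043510003) (nat_lit 1) (nat_lit 4) (nat_lit 2) (nat_lit 5) (nat_lit 2) (nat_lit 4) (nat_lit 400) (nat_lit 267) (nat_lit 233)) (XT.lf (nat_lit 0) (nat_lit 2038545215890) (nat_lit 76)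 (nat_lit 175037932161) (nat_lit 76) (nat_lit 174076997839) (nat_lit 1) (nat_lit 4) (nat_lit 2) (nat_lit 5) (nat_lit 2) (nat_lit 4) (nat_lit 401) (nat_lit 267) (nat_lit 232))) (XT.nd (nat_lit 78) (nat_lit 0) (nat_lit 0) (XT.lf (nat_lit 0) (nat_lit 2203467494197) (nat_lit 76) (nat_lit 188048511729) (nat_lit 76) (nat_lit 187082413929) (nat_lit 1) (nat_lit 4) (nat_lit 2) (nat_lit 5) (nat_lit 2) (nat_lit 4) (nat_lit 402) (nat_lit 267) (nat_lit 231)) (XT.lf (nat_lit 0) (nat_lit 2381567858441) (nat_lit 76) (nat_lit 202107706205) (nat_lit 76) (nat_lit 201136827406) (nat_lit 1) (nat_lit 4) (nat_lit 2) (nat_lit 5) (nat_lit 2) (nat_lit 4) (nat_lit 403) (nat_lit 267) (nat_lit 230)))) (XT.nd (nat_lit 156) (nat_lit 0) (nat_lit 0) (XT.nd (nat_lit 78) (nat_lit 0) (nat_lit 0) (XT.lf (nat_lit 0) (nat_lit 2573901718189) (nat_lit 76) (nat_lit 217298829332) (nat_lit 76) (nat_lit 216323523684) (nat_lit 1)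 (nat_lit 4) (nat_lit 2) (nat_lit 5) (nat_lit 2) (nat_lit 4) (nat_lit 404) (nat_lit 267) (nat_lit 229)) (XT.lf (nat_lit 0) (nat_lit 2781608829647) (nat_lit 76) (nat_lit 233711902583) (nat_lit 76) (nat_lit 232732497999) (nat_lit 1) (nat_lit 4) (nat_lit 2) (nat_lit 5) (nat_lit 2) (nat_lit 4) (nat_lit 405) (nat_lit 267) (nat_lit 228))) (XT.nd (nat_lit 78) (nat_lit 0) (nat_lit 0) (XT.lf (nat_lit 0) (nat_lit 3005920049772) (nat_lit 76) (nat_lit 251444188612) (nat_lit 76) (nat_lit 250460988718) (nat_lit 1) (nat_lit 4) (nat_lit 2) (nat_lit 5) (nat_lit 2) (nat_lit 4) (nat_lit 406) (nat_lit 267) (nat_lit 227)) (XT.lf (nat_lit 0) (nat_lit 3248164630238) (nat_lit 76) (nat_lit 270600767634) (nat_lit 76) (nat_lit 269614053564) (nat_lit 1) (nat_lit 4) (nat_lit 2) (nat_lit 5) (nat_lit 2) (nat_lit 4) (nat_lit 407) (nat_lit 267) (nat_lit 226)))))) (XT.nd (nat_lit 43680) (nat_lit 0) (nat_lit 0) (XT.nd (nat_lit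 312) (nat_lit 0) (nat_lit 0) (XT.nd (nat_lit 156) (nat_lit 0) (nat_lit 0) (XT.nd (nat_lit 78) (nat_lit 0) (nat_lit 0) (XT.lf (nat_lit 0) (nat_lit 3509778094485) (nat_lit 76) (nat_lit 291295160117) (nat_lit 76) (nat_lit 290305192180) (nat_lit 1) (nat_lit 4) (nat_lit 2) (nat_lit 5) (nat_lit 2) (nat_lit 4) (nat_lit 408) (nat_lit 267) (nat_lit 225)) (XT.lf (nat_lit 0) (nat_lit 3792310744524) (nat_lit 76) (nat_lit 313649999497) (nat_lit 76) (nat_lit 312657018721) (nat_lit 1) (nat_lit 4) (nat_lit 2) (nat_lit 5) (nat_lit 2) (nat_lit 4) (nat_lit 409) (nat_lit 267) (nat_lit 224))) (XT.nd (nat_lit 78) (nat_lit 0) (nat_lit 0) (XT.lf (nat_lit 0) (nat_lit 4097436847911) (nat_lit 76) (nat_lit 337797758898) (nat_lit 76) (nat_lit 336801988455) (nat_lit 1) (nat_lit 4) (nat_lit 2) (nat_lit 5) (nat_lit 2) (nat_lit 4) (nat_lit 410) (nat_lit 267) (nat_lit 223)) (XT.lf (nat_lit 0) (nat_lit 4426964559332) (nat_lit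 76) (nat_lit 363881536152) (nat_lit 76) (nat_lit 362883182684) (nat_lit 1) (nat_lit 4) (nat_lit 2) (nat_lit 5) (nat_lit 2) (nat_lit 4) (nat_lit 411) (nat_lit 267) (nat_lit 222)))) (XT.nd (nat_lit 43212) (nat_lit 0) (nat_lit 0) (XT.nd (nat_lit 43134) (nat_lit 0) (nat_lit 0) (XT.lf (nat_lit 0) (nat_lit 4782846635595) (nat_lit 76) (nat_lit 392055901791) (nat_lit 76) (nat_lit 391055156634) (nat_lit 1) (nat_lit 4) (nat_lit 2) (nat_lit 5) (nat_lit 2) (nat_lit 4) (nat_lit 412) (nat_lit 267) (nat_lit 221)) (XT.lf (nat_lit 0) (nat_lit 37771416447) (nat_lit 76) (nat_lit 16159226398) (nat_lit 76) (nat_lit 16159226398) (nat_lit 1) (nat_lit 4) (nat_lit 2) (nat_lit 5) (nat_lit 2) (nat_lit 4) (nat_lit 364) (nat_lit 268) (nat_lit 268))) (XT.nd (nat_lit 78) (nat_lit 0) (nat_lit 0) (XT.lf (nat_lit 0) (nat_lit 86726823111) (nat_lit 76) (nat_lit 32270675907) (nat_lit 76) (nat_lit 32188224605) (nat_lit 1)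 (nat_lit 4) (nat_lit 2) (nat_lit 5) (nat_lit 2) (nat_lit 4) (nat_lit 365) (nat_lit 268) (nat_lit 267)) (XT.lf (nat_lit 0) (nat_lit 98554890907) (nat_lit 76) (nat_lit 32343126278) (nat_lit 76) (nat_lit 32184331178) (nat_lit 1) (nat_lit 4) (nat_lit 2) (nat_lit 5) (nat_lit 2) (nat_lit 4) (nat_lit 366) (nat_lit 268) (nat_lit 266))))) (XT.nd (nat_lit 312) (nat_lit 0) (nat_lit 0) (XT.nd (nat_lit 156) (nat_lit 0) (nat_lit 0) (XT.nd (nat_lit 78) (nat_lit 0) (nat_lit 0) (XT.lf (nat_lit 0) (nat_lit 111097128537) (nat_lit 76) (nat_lit 32536233244) (nat_lit 76) (nat_lit 32306749443) (nat_lit 1) (nat_lit 4) (nat_lit 2) (nat_lit 5) (nat_lit 2) (nat_lit 4) (nat_lit 367) (nat_lit 268) (nat_lit 265)) (XT.lf (nat_lit 0) (nat_lit 124427860371) (nat_lit 76) (nat_lit 32851141144) (nat_lit 76) (nat_lit 32556204840) (nat_lit 1) (nat_lit 4) (nat_lit 2) (nat_lit 5) (nat_lit 2) (nat_lit 4) (nat_lit 368) (nat_lit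 268) (nat_lit 264))) (XT.nd (nat_lit 78) (nat_lit 0) (nat_lit 0) (XT.lf (nat_lit 0) (nat_lit 138626083340) (nat_lit 76) (nat_lit 33289716097) (nat_lit 76) (nat_lit 32934175625) (nat_lit 1) (nat_lit 4) (nat_lit 2) (nat_lit 5) (nat_lit 2) (nat_lit 4) (nat_lit 369) (nat_lit 268) (nat_lit 263)) (XT.lf (nat_lit 0) (nat_lit 153775935060) (nat_lit 76) (nat_lit 33854557066) (nat_lit 76) (nat_lit 33442901624) (nat_lit 1) (nat_lit 4) (nat_lit 2) (nat_lit 5) (nat_lit 2) (nat_lit 4) (nat_lit 370) (nat_lit 268) (nat_lit 262)))) (XT.nd (nat_lit 156) (nat_lit 0) (nat_lit 0) (XT.nd (nat_lit 78) (nat_lit 0) (nat_lit 0) (XT.lf (nat_lit 0) (nat_lit 169967192430) (nat_lit 76) (nat_lit 34549011258) (nat_lit 76) (nat_lit 34085397509) (nat_lit 1) (nat_lit 4) (nat_lit 2) (nat_lit 5) (nat_lit 2) (nat_lit 4) (nat_lit 371) (nat_lit 268) (nat_lit 261)) (XT.lf (nat_lit 0) (nat_lit 187295803643) (nat_lit 76) (nat_lit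 35377193956) (nat_lit 76) (nat_lit 34865470664) (nat_lit 1) (nat_lit 4) (nat_lit 2) (nat_lit 5) (nat_lit 2) (nat_lit 4) (nat_lit 372) (nat_lit 268) (nat_lit 260))) (XT.nd (nat_lit 78) (nat_lit 0) (nat_lit 0) (XT.lf (nat_lit 0) (nat_lit 205864456764) (nat_lit 76) (nat_lit 36344012909) (nat_lit 76) (nat_lit 35787743745) (nat_lit 1) (nat_lit 4) (nat_lit 2) (nat_lit 5) (nat_lit 2) (nat_lit 4) (nat_lit 373) (nat_lit 268) (nat_lit 259)) (XT.nd (nat_lit 78) (nat_lit 0) (nat_lit 0) (XT.lf (nat_lit 0) (nat_lit 225783188258) (nat_lit 76) (nat_lit 37455197416) (nat_lit 76) (nat_lit 36857682073) (nat_lit 1) (nat_lit 4) (nat_lit 2) (nat_lit 5) (nat_lit 2) (nat_lit 4) (nat_lit 374) (nat_lit 268) (nat_lit 258)) (XT.lf (nat_lit 0) (nat_lit 247170035051) (nat_lit 76) (nat_lit 38717332273) (nat_lit 76) (nat_lit 38081626024) (nat_lit 1) (nat_lit 4) (nat_lit 2) (nat_lit 5) (nat_lit 2) (nat_lit 4) (nat_lit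 375) (nat_lit 268) (nat_lit 257))))))))
noncomputable def xc18 : XT := (XT.nd (nat_lit 1248) (nat_lit 0) (nat_lit 0) (XT.nd (nat_lit 624) (nat_lit 0) (nat_lit 0) (XT.nd (nat_lit 312) (nat_lit 0) (nat_lit 0) (XT.nd (nat_lit 156) (nat_lit 0) (nat_lit 0) (XT.nd (nat_lit 78) (nat_lit 0) (nat_lit 0) (XT.lf (nat_lit 0) (nat_lit 270151734013) (nat_lit 76) (nat_lit 40137896798) (nat_lit 76) (nat_lit 39466828599) (nat_lit 1) (nat_lit 4) (nat_lit 2) (nat_lit 5) (nat_lit 2) (nat_lit 4) (nat_lit 376) (nat_lit 268) (nat_lit 256)) (XT.lf (nat_lit 0) (nat_lit 294864472989) (nat_lit 76) (nat_lit 41725309151) (nat_lit 76) (nat_lit 41021498406) (nat_lit 1) (nat_lit 4) (nat_lit 2) (nat_lit 5) (nat_lit 2) (nat_lit 4) (nat_lit 377) (nat_lit 268) (nat_lit 255))) (XT.nd (nat_lit 78) (nat_lit 0) (nat_lit 0) (XT.lf (nat_lit 0) (nat_lit 321454697841) (nat_lit 76) (nat_lit 43488976220) (nat_lit 76) (nat_lit 42754848302)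 (nat_lit 1) (nat_lit 4) (nat_lit 2) (nat_lit 5) (nat_lit 2) (nat_lit 4) (nat_lit 378) (nat_lit 268) (nat_lit 254)) (XT.lf (nat_lit 0) (nat_lit 350079980271) (nat_lit 76) (nat_lit 45439349366) (nat_lit 76) (nat_lit 44677149991) (nat_lit 1) (nat_lit 4) (nat_lit 2) (nat_lit 5) (nat_lit 2) (nat_lit 4) (nat_lit 379) (nat_lit 268) (nat_lit 253)))) (XT.nd (nat_lit 156) (nat_lit 0) (nat_lit 0) (XT.nd (nat_lit 78) (nat_lit 0) (nat_lit 0) (XT.lf (nat_lit 0) (nat_lit 380909951583) (nat_lit 76) (nat_lit 47587986354) (nat_lit 76) (nat_lit 46799794891) (nat_lit 1) (nat_lit 4) (nat_lit 2) (nat_lit 5) (nat_lit 2) (nat_lit 4) (nat_lit 380) (nat_lit 268) (nat_lit 252)) (XT.lf (nat_lit 0) (nat_lit 414127307902) (nat_lit 76) (nat_lit 49947619850) (nat_lit 76) (nat_lit 49135361638) (nat_lit 1) (nat_lit 4) (nat_lit 2) (nat_lit 5) (nat_lit 2) (nat_lit 4) (nat_lit 381) (nat_lit 268) (nat_lit 251))) (XT.nd (nat_lit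 78) (nat_lit 0) (nat_lit 0) (XT.lf (nat_lit 0) (nat_lit 449928892823) (nat_lit 76) (nat_lit 52532232866) (nat_lit 76) (nat_lit 51697690627) (nat_lit 1) (nat_lit 4) (nat_lit 2) (nat_lit 5) (nat_lit 2) (nat_lit 4) (nat_lit 382) (nat_lit 268) (nat_lit 250)) (XT.lf (nat_lit 0) (nat_lit 488526863884) (nat_lit 76) (nat_lit 55357141627) (nat_lit 76) (nat_lit 54501966030) (nat_lit 1) (nat_lit 4) (nat_lit 2) (nat_lit 5) (nat_lit 2) (nat_lit 4) (nat_lit 383) (nat_lit 268) (nat_lit 249))))) (XT.nd (nat_lit 312) (nat_lit 0) (nat_lit 0) (XT.nd (nat_lit 156) (nat_lit 0) (nat_lit 0) (XT.nd (nat_lit 78) (nat_lit 0) (nat_lit 0) (XT.lf (nat_lit 0) (nat_lit 530149949804) (nat_lit 76) (nat_lit 58439086334) (nat_lit 76) (nat_lit 57564805776) (nat_lit 1) (nat_lit 4) (nat_lit 2) (nat_lit 5) (nat_lit 2) (nat_lit 4) (nat_lit 384) (nat_lit 268) (nat_lit 248)) (XT.lf (nat_lit 0) (nat_lit 575044805906) (nat_lit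 76) (nat_lit 61796330363) (nat_lit 76) (nat_lit 60904360025) (nat_lit 1) (nat_lit 4) (nat_lit 2) (nat_lit 5) (nat_lit 2) (nat_lit 4) (nat_lit 385) (nat_lit 268) (nat_lit 247))) (XT.nd (nat_lit 78) (nat_lit 0) (nat_lit 0) (XT.lf (nat_lit 0) (nat_lit 623477475782) (nat_lit 76) (nat_lit 65448768492) (nat_lit 76) (nat_lit 64540418730) (nat_lit 1) (nat_lit 4) (nat_lit 2) (nat_lit 5) (nat_lit 2) (nat_lit 4) (nat_lit 386) (nat_lit 268) (nat_lit 246)) (XT.lf (nat_lit 0) (nat_lit 675734967846) (nat_lit 76) (nat_lit 69418044801) (nat_lit 76) (nat_lit 68494528904) (nat_lit 1) (nat_lit 4) (nat_lit 2) (nat_lit 5) (nat_lit 2) (nat_lit 4) (nat_lit 387) (nat_lit 268) (nat_lit 245)))) (XT.nd (nat_lit 156) (nat_lit 0) (nat_lit 0) (XT.nd (nat_lit 78) (nat_lit 0) (nat_lit 0) (XT.lf (nat_lit 0) (nat_lit 732126956126) (nat_lit 76) (nat_lit 73727680925) (nat_lit 76) (nat_lit 72790122311) (nat_lit 1) (nat_lit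 4) (nat_lit 2) (nat_lit 5) (nat_lit 2) (nat_lit 4) (nat_lit 388) (nat_lit 268) (nat_lit 244)) (XT.lf (nat_lit 0) (nat_lit 792987615367) (nat_lit 76) (nat_lit 78403215450) (nat_lit 76) (nat_lit 77452654321) (nat_lit 1) (nat_lit 4) (nat_lit 2) (nat_lit 5) (nat_lit 2) (nat_lit 4) (nat_lit 389) (nat_lit 268) (nat_lit 243))) (XT.nd (nat_lit 78) (nat_lit 0) (nat_lit 0) (XT.lf (nat_lit 0) (nat_lit 858677601326) (nat_lit 76) (nat_lit 83472355247) (nat_lit 76) (nat_lit 82509754752) (nat_lit 1) (nat_lit 4) (nat_lit 2) (nat_lit 5) (nat_lit 2) (nat_lit 4) (nat_lit 390) (nat_lit 268) (nat_lit 242)) (XT.lf (nat_lit 0) (nat_lit 929586187996) (nat_lit 76) (nat_lit 88965139663) (nat_lit 76) (nat_lit 87991391606) (nat_lit 1) (nat_lit 4) (nat_lit 2) (nat_lit 5) (nat_lit 2) (nat_lit 4) (nat_lit 391) (nat_lit 268) (nat_lit 241)))))) (XT.nd (nat_lit 624) (nat_lit 0) (nat_lit 0) (XT.nd (nat_lit 312) (nat_lit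 0) (nat_lit 0) (XT.nd (nat_lit 156) (nat_lit 0) (nat_lit 0) (XT.nd (nat_lit 78) (nat_lit 0) (nat_lit 0) (XT.lf (nat_lit 0) (nat_lit 1006133574407) (nat_lit 76) (nat_lit 94914118532) (nat_lit 76) (nat_lit 93930048658) (nat_lit 1) (nat_lit 4) (nat_lit 2) (nat_lit 5) (nat_lit 2) (nat_lit 4) (nat_lit 392) (nat_lit 268) (nat_lit 240)) (XT.lf (nat_lit 0) (nat_lit 1088773374703) (nat_lit 76) (nat_lit 101354545061) (nat_lit 76) (nat_lit 100360917950) (nat_lit 1) (nat_lit 4) (nat_lit 2) (nat_lit 5) (nat_lit 2) (nat_lit 4) (nat_lit 393) (nat_lit 268) (nat_lit 239))) (XT.nd (nat_lit 78) (nat_lit 0) (nat_lit 0) (XT.lf (nat_lit 0) (nat_lit 1177995306217) (nat_lit 76) (nat_lit 108324584741) (nat_lit 76) (nat_lit 107322108337) (nat_lit 1) (nat_lit 4) (nat_lit 2) (nat_lit 5) (nat_lit 2) (nat_lit 4) (nat_lit 394) (nat_lit 268) (nat_lit 238)) (XT.lf (nat_lit 0) (nat_lit 1274328091507) (nat_lit 76) (nat_lit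 115865541511) (nat_lit 76) (nat_lit 114854871316) (nat_lit 1) (nat_lit 4) (nat_lit 2) (nat_lit 5) (nat_lit 2) (nat_lit 4) (nat_lit 395) (nat_lit 268) (nat_lit 237)))) (XT.nd (nat_lit 156) (nat_lit 0) (nat_lit 0) (XT.nd (nat_lit 78) (nat_lit 0) (nat_lit 0) (XT.lf (nat_lit 0) (nat_lit 1378342591523) (nat_lit 76) (nat_lit 124022102522) (nat_lit 76) (nat_lit 123003845484) (nat_lit 1) (nat_lit 4) (nat_lit 2) (nat_lit 5) (nat_lit 2) (nat_lit 4) (nat_lit 396) (nat_lit 268) (nat_lit 236)) (XT.lf (nat_lit 0) (nat_lit 1490655188487) (nat_lit 76) (nat_lit 132842602951) (nat_lit 76) (nat_lit 131817321058) (nat_lit 1) (nat_lit 4) (nat_lit 2) (nat_lit 5) (nat_lit 2) (nat_lit 4) (nat_lit 397) (nat_lit 268) (nat_lit 235))) (XT.nd (nat_lit 78) (nat_lit 0) (nat_lit 0) (XT.lf (nat_lit 0) (nat_lit 1611931438530) (nat_lit 76) (nat_lit 142379312429) (nat_lit 76) (nat_lit 141347526042) (nat_lit 1) (nat_lit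 4) (nat_lit 2) (nat_lit 5) (nat_lit 2) (nat_lit 4) (nat_lit 398) (nat_lit 268) (nat_lit 234)) (XT.lf (nat_lit 0) (nat_lit 1742890015725) (nat_lit 76) (nat_lit 152688744791) (nat_lit 76) (nat_lit 151650935723) (nat_lit 1) (nat_lit 4) (nat_lit 2) (nat_lit 5) (nat_lit 2) (nat_lit 4) (nat_lit 399) (nat_lit 268) (nat_lit 233))))) (XT.nd (nat_lit 312) (nat_lit 0) (nat_lit 0) (XT.nd (nat_lit 156) (nat_lit 0) (nat_lit 0) (XT.nd (nat_lit 78) (nat_lit 0) (nat_lit 0) (XT.lf (nat_lit 0) (nat_lit 1884306970901) (nat_lit 76) (nat_lit 163831992969) (nat_lit 76) (nat_lit 162788607345) (nat_lit 1) (nat_lit 4) (nat_lit 2) (nat_lit 5) (nat_lit 2) (nat_lit 4) (nat_lit 400) (nat_lit 268) (nat_lit 232)) (XT.lf (nat_lit 0) (nat_lit 2037020330458) (nat_lit 76) (nat_lit 175875091027) (nat_lit 76) (nat_lit 174826541925) (nat_lit 1) (nat_lit 4) (nat_lit 2) (nat_lit 5) (nat_lit 2) (nat_lit 4) (nat_lit 401) (nat_lit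 268) (nat_lit 231))) (XT.nd (nat_lit 78) (nat_lit 0) (nat_lit 0) (XT.lf (nat_lit 0) (nat_lit 2201935062453) (nat_lit 76) (nat_lit 188889405471) (nat_lit 76) (nat_lit 187836075371) (nat_lit 1) (nat_lit 4) (nat_lit 2) (nat_lit 5) (nat_lit 2) (nat_lit 4) (nat_lit 402) (nat_lit 268) (nat_lit 230)) (XT.lf (nat_lit 0) (nat_lit 2380028439373) (nat_lit 76) (nat_lit 202952058164) (nat_lit 76) (nat_lit 201894301214) (nat_lit 1) (nat_lit 4) (nat_lit 2) (nat_lit 5) (nat_lit 2) (nat_lit 4) (nat_lit 403) (nat_lit 268) (nat_lit 229)))) (XT.nd (nat_lit 156) (nat_lit 0) (nat_lit 0) (XT.nd (nat_lit 78) (nat_lit 0) (nat_lit 0) (XT.lf (nat_lit 0) (nat_lit 2572355829376) (nat_lit 76) (nat_lit 218146383346) (nat_lit 76) (nat_lit 217084527461) (nat_lit 1) (nat_lit 4) (nat_lit 2) (nat_lit 5) (nat_lit 2) (nat_lit 4) (nat_lit 404) (nat_lit 268) (nat_lit 228)) (XT.lf (nat_lit 0) (nat_lit 2780056950329) (nat_lit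 76) (nat_lit 234562421462) (nat_lit 76) (nat_lit 233496770266) (nat_lit 1) (nat_lit 4) (nat_lit 2) (nat_lit 5) (nat_lit 2) (nat_lit 4) (nat_lit 405) (nat_lit 268) (nat_lit 227))) (XT.nd (nat_lit 78) (nat_lit 0) (nat_lit 0) (XT.lf (nat_lit 0) (nat_lit 3004362623690) (nat_lit 76) (nat_lit 252297452736) (nat_lit 76) (nat_lit 251228287364) (nat_lit 1) (nat_lit 4) (nat_lit 2) (nat_lit 5) (nat_lit 2) (nat_lit 4) (nat_lit 406) (nat_lit 268) (nat_lit 226)) (XT.lf (nat_lit 0) (nat_lit 3246602068264) (nat_lit 76) (nat_lit 271456573652) (nat_lit 76) (nat_lit 270384154413) (nat_lit 1) (nat_lit 4) (nat_lit 2) (nat_lit 5) (nat_lit 2) (nat_lit 4) (nat_lit 407) (nat_lit 268) (nat_lit 225)))))))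
noncomputable def xc19 : XT := (XT.nd (nat_lit 44148) (nat_lit 0) (nat_lit 0) (XT.nd (nat_lit 43524) (nat_lit 0) (nat_lit 0) (XT.nd (nat_lit 312) (nat_lit 0) (nat_lit 0) (XT.nd (nat_lit 156) (nat_lit 0) (nat_lit 0) (XT.nd (nat_lit 78) (nat_lit 0) (nat_lit 0) (XT.lf (nat_lit 0) (nat_lit 3508210777055) (nat_lit 76) (nat_lit 292153319740) (nat_lit 76) (nat_lit 291077887662) (nat_lit 1) (nat_lit 4) (nat_lit 2) (nat_lit 5) (nat_lit 2) (nat_lit 4) (nat_lit 408) (nat_lit 268) (nat_lit 224)) (XT.lf (nat_lit 0) (nat_lit 3790739023894) (nat_lit 76) (nat_lit 314510338385) (nat_lit 76) (nat_lit 313432116640) (nat_lit 1) (nat_lit 4) (nat_lit 2) (nat_lit 5) (nat_lit 2) (nat_lit 4) (nat_lit 409) (nat_lit 268) (nat_lit 223))) (XT.nd (nat_lit 78) (nat_lit 0) (nat_lit 0) (XT.lf (nat_lit 0) (nat_lit 4095861050244) (nat_lit 76) (nat_lit 338660115623) (nat_lit 76) (nat_lit 337579310853) (nat_lit 1) (nat_lit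 4) (nat_lit 2) (nat_lit 5) (nat_lit 2) (nat_lit 4) (nat_lit 410) (nat_lit 268) (nat_lit 222)) (XT.lf (nat_lit 0) (nat_lit 4425384986631) (nat_lit 76) (nat_lit 364745761244) (nat_lit 76) (nat_lit 363662564786) (nat_lit 1) (nat_lit 4) (nat_lit 2) (nat_lit 5) (nat_lit 2) (nat_lit 4) (nat_lit 411) (nat_lit 268) (nat_lit 221)))) (XT.nd (nat_lit 43056) (nat_lit 0) (nat_lit 0) (XT.nd (nat_lit 42978) (nat_lit 0) (nat_lit 0) (XT.lf (nat_lit 0) (nat_lit 4781263567492) (nat_lit 76) (nat_lit 392921856854) (nat_lit 76) (nat_lit 391836445868) (nat_lit 1) (nat_lit 4) (nat_lit 2) (nat_lit 5) (nat_lit 2) (nat_lit 4) (nat_lit 412) (nat_lit 268) (nat_lit 220)) (XT.lf (nat_lit 0) (nat_lit 27492979670) (nat_lit 76) (nat_lit 16398009646) (nat_lit 76) (nat_lit 16398009646) (nat_lit 1) (nat_lit 4) (nat_lit 2) (nat_lit 5) (nat_lit 2) (nat_lit 4) (nat_lit 362) (nat_lit 269) (nat_lit 269))) (XT.nd (nat_lit 78)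 (nat_lit 0) (nat_lit 0) (XT.lf (nat_lit 0) (nat_lit 64936644760) (nat_lit 76) (nat_lit 32575787473) (nat_lit 76) (nat_lit 32486740067) (nat_lit 1) (nat_lit 4) (nat_lit 2) (nat_lit 5) (nat_lit 2) (nat_lit 4) (nat_lit 363) (nat_lit 269) (nat_lit 268)) (XT.lf (nat_lit 0) (nat_lit 75412692044) (nat_lit 76) (nat_lit 32471910473) (nat_lit 76) (nat_lit 32300411765) (nat_lit 1) (nat_lit 4) (nat_lit 2) (nat_lit 5) (nat_lit 2) (nat_lit 4) (nat_lit 364) (nat_lit 269) (nat_lit 267))))) (XT.nd (nat_lit 312) (nat_lit 0) (nat_lit 0) (XT.nd (nat_lit 156) (nat_lit 0) (nat_lit 0) (XT.nd (nat_lit 78) (nat_lit 0) (nat_lit 0) (XT.lf (nat_lit 0) (nat_lit 86476181473) (nat_lit 76) (nat_lit 32483772724) (nat_lit 76) (nat_lit 32235930218) (nat_lit 1) (nat_lit 4) (nat_lit 2) (nat_lit 5) (nat_lit 2) (nat_lit 4) (nat_lit 365) (nat_lit 269) (nat_lit 266)) (XT.lf (nat_lit 0) (nat_lit 98192674467) (nat_lit 76) (nat_lit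 32611444521) (nat_lit 76) (nat_lit 32292913313) (nat_lit 1) (nat_lit 4) (nat_lit 2) (nat_lit 5) (nat_lit 2) (nat_lit 4) (nat_lit 366) (nat_lit 269) (nat_lit 265))) (XT.nd (nat_lit 78) (nat_lit 0) (nat_lit 0) (XT.lf (nat_lit 0) (nat_lit 110631602094) (nat_lit 76) (nat_lit 32855682437) (nat_lit 76) (nat_lit 32471698727) (nat_lit 1) (nat_lit 4) (nat_lit 2) (nat_lit 5) (nat_lit 2) (nat_lit 4) (nat_lit 367) (nat_lit 269) (nat_lit 264)) (XT.lf (nat_lit 0) (nat_lit 123866676518) (nat_lit 76) (nat_lit 33217933808) (nat_lit 76) (nat_lit 32773345930) (nat_lit 1) (nat_lit 4) (nat_lit 2) (nat_lit 5) (nat_lit 2) (nat_lit 4) (nat_lit 368) (nat_lit 269) (nat_lit 263)))) (XT.nd (nat_lit 156) (nat_lit 0) (nat_lit 0) (XT.nd (nat_lit 78) (nat_lit 0) (nat_lit 0) (XT.lf (nat_lit 0) (nat_lit 137976327810) (nat_lit 76) (nat_lit 33700345309) (nat_lit 76) (nat_lit 33199642461) (nat_lit 1) (nat_lit 4) (nat_lit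 2) (nat_lit 5) (nat_lit 2) (nat_lit 4) (nat_lit 369) (nat_lit 269) (nat_lit 262)) (XT.lf (nat_lit 0) (nat_lit 153044168719) (nat_lit 76) (nat_lit 34305775675) (nat_lit 76) (nat_lit 33753114521) (nat_lit 1) (nat_lit 4) (nat_lit 2) (nat_lit 5) (nat_lit 2) (nat_lit 4) (nat_lit 370) (nat_lit 269) (nat_lit 261))) (XT.nd (nat_lit 78) (nat_lit 0) (nat_lit 0) (XT.lf (nat_lit 0) (nat_lit 169159490153) (nat_lit 76) (nat_lit 35037812642) (nat_lit 76) (nat_lit 34437041944) (nat_lit 1) (nat_lit 4) (nat_lit 2) (nat_lit 5) (nat_lit 2) (nat_lit 4) (nat_lit 371) (nat_lit 269) (nat_lit 260)) (XT.lf (nat_lit 0) (nat_lit 186417790314) (nat_lit 76) (nat_lit 35900794205) (nat_lit 76) (nat_lit 35255477635) (nat_lit 1) (nat_lit 4) (nat_lit 2) (nat_lit 5) (nat_lit 2) (nat_lit 4) (nat_lit 372) (nat_lit 269) (nat_lit 259)))))) (XT.nd (nat_lit 624) (nat_lit 0) (nat_lit 0) (XT.nd (nat_lit 312) (nat_lit 0) (nat_lit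 0) (XT.nd (nat_lit 156) (nat_lit 0) (nat_lit 0) (XT.nd (nat_lit 78) (nat_lit 0) (nat_lit 0) (XT.lf (nat_lit 0) (nat_lit 204921340610) (nat_lit 76) (nat_lit 36899834330) (nat_lit 76) (nat_lit 36213271581) (nat_lit 1) (nat_lit 4) (nat_lit 2) (nat_lit 5) (nat_lit 2) (nat_lit 4) (nat_lit 373) (nat_lit 269) (nat_lit 258)) (XT.lf (nat_lit 0) (nat_lit 224779791709) (nat_lit 76) (nat_lit 38040853255) (nat_lit 76) (nat_lit 37316099600) (nat_lit 1) (nat_lit 4) (nat_lit 2) (nat_lit 5) (nat_lit 2) (nat_lit 4) (nat_lit 374) (nat_lit 269) (nat_lit 257))) (XT.nd (nat_lit 78) (nat_lit 0) (nat_lit 0) (XT.lf (nat_lit 0) (nat_lit 246110823322) (nat_lit 76) (nat_lit 39330612573) (nat_lit 76) (nat_lit 38570496968) (nat_lit 1) (nat_lit 4) (nat_lit 2) (nat_lit 5) (nat_lit 2) (nat_lit 4) (nat_lit 375) (nat_lit 269) (nat_lit 256)) (XT.lf (nat_lit 0) (nat_lit 269040841562) (nat_lit 76) (nat_lit 40776755303) (nat_lit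 76) (nat_lit 39983897151) (nat_lit 1) (nat_lit 4) (nat_lit 2) (nat_lit 5) (nat_lit 2) (nat_lit 4) (nat_lit 376) (nat_lit 269) (nat_lit 255)))) (XT.nd (nat_lit 156) (nat_lit 0) (nat_lit 0) (XT.nd (nat_lit 78) (nat_lit 0) (nat_lit 0) (XT.lf (nat_lit 0) (nat_lit 293705728018) (nat_lit 76) (nat_lit 42387851179) (nat_lit 76) (nat_lit 41564675855) (nat_lit 1) (nat_lit 4) (nat_lit 2) (nat_lit 5) (nat_lit 2) (nat_lit 4) (nat_lit 377) (nat_lit 269) (nat_lit 254)) (XT.lf (nat_lit 0) (nat_lit 320251644980) (nat_lit 76) (nat_lit 44173447436) (nat_lit 76) (nat_lit 43322200656) (nat_lit 1) (nat_lit 4) (nat_lit 2) (nat_lit 5) (nat_lit 2) (nat_lit 4) (nat_lit 378) (nat_lit 269) (nat_lit 253))) (XT.nd (nat_lit 78) (nat_lit 0) (nat_lit 0) (XT.lf (nat_lit 0) (nat_lit 348835901587) (nat_lit 76) (nat_lit 46144125385) (nat_lit 76) (nat_lit 45266886516) (nat_lit 1) (nat_lit 4) (nat_lit 2) (nat_lit 5) (nat_lit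 2) (nat_lit 4) (nat_lit 379) (nat_lit 269) (nat_lit 252)) (XT.lf (nat_lit 0) (nat_lit 379627886025) (nat_lit 76) (nat_lit 48311563118) (nat_lit 76) (nat_lit 47410257500) (nat_lit 1) (nat_lit 4) (nat_lit 2) (nat_lit 5) (nat_lit 2) (nat_lit 4) (nat_lit 380) (nat_lit 269) (nat_lit 251))))) (XT.nd (nat_lit 312) (nat_lit 0) (nat_lit 0) (XT.nd (nat_lit 156) (nat_lit 0) (nat_lit 0) (XT.nd (nat_lit 78) (nat_lit 0) (nat_lit 0) (XT.lf (nat_lit 0) (nat_lit 412810069313) (nat_lit 76) (nat_lit 50688604710) (nat_lit 76) (nat_lit 49765015065) (nat_lit 1) (nat_lit 4) (nat_lit 2) (nat_lit 5) (nat_lit 2) (nat_lit 4) (nat_lit 381) (nat_lit 269) (nat_lit 250)) (XT.lf (nat_lit 0) (nat_lit 448579086612) (nat_lit 76) (nat_lit 53289336334) (nat_lit 76) (nat_lit 52345113330) (nat_lit 1) (nat_lit 4) (nat_lit 2) (nat_lit 5) (nat_lit 2) (nat_lit 4) (nat_lit 382) (nat_lit 269) (nat_lit 249))) (XT.nd (nat_lit 78)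 (nat_lit 0) (nat_lit 0) (XT.lf (nat_lit 0) (nat_lit 487146902468) (nat_lit 76) (nat_lit 56129169732) (nat_lit 76) (nat_lit 55165841767) (nat_lit 1) (nat_lit 4) (nat_lit 2) (nat_lit 5) (nat_lit 2) (nat_lit 4) (nat_lit 383) (nat_lit 269) (nat_lit 248)) (XT.lf (nat_lit 0) (nat_lit 528742066902) (nat_lit 76) (nat_lit 59224933547) (nat_lit 76) (nat_lit 58243915803) (nat_lit 1) (nat_lit 4) (nat_lit 2) (nat_lit 5) (nat_lit 2) (nat_lit 4) (nat_lit 384) (nat_lit 269) (nat_lit 247)))) (XT.nd (nat_lit 156) (nat_lit 0) (nat_lit 0) (XT.nd (nat_lit 78) (nat_lit 0) (nat_lit 0) (XT.lf (nat_lit 0) (nat_lit 573611069776) (nat_lit 76) (nat_lit 62594973046) (nat_lit 76) (nat_lit 61597575877) (nat_lit 1) (nat_lit 4) (nat_lit 2) (nat_lit 5) (nat_lit 2) (nat_lit 4) (nat_lit 385) (nat_lit 269) (nat_lit 246)) (XT.lf (nat_lit 0) (nat_lit 622019801478) (nat_lit 76) (nat_lit 66259258833) (nat_lit 76) (nat_lit 65246695531)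 (nat_lit 1) (nat_lit 4) (nat_lit 2) (nat_lit 5) (nat_lit 2) (nat_lit 4) (nat_lit 386) (nat_lit 269) (nat_lit 245))) (XT.nd (nat_lit 78) (nat_lit 0) (nat_lit 0) (XT.lf (nat_lit 0) (nat_lit 674255128567) (nat_lit 76) (nat_lit 70239505195) (nat_lit 76) (nat_lit 69212899176) (nat_lit 1) (nat_lit 4) (nat_lit 2) (nat_lit 5) (nat_lit 2) (nat_lit 4) (nat_lit 387) (nat_lit 269) (nat_lit 244)) (XT.nd (nat_lit 78) (nat_lit 0) (nat_lit 0) (XT.lf (nat_lit 0) (nat_lit 730626593721) (nat_lit 76) (nat_lit 74559298777) (nat_lit 76) (nat_lit 73519690242) (nat_lit 1) (nat_lit 4) (nat_lit 2) (nat_lit 5) (nat_lit 2) (nat_lit 4) (nat_lit 388) (nat_lit 269) (nat_lit 243)) (XT.lf (nat_lit 0) (nat_lit 791468250067) (nat_lit 76) (nat_lit 79244238355) (nat_lit 76) (nat_lit 78192590453) (nat_lit 1) (nat_lit 4) (nat_lit 2) (nat_lit 5) (nat_lit 2) (nat_lit 4) (nat_lit 389) (nat_lit 269) (nat_lit 242))))))))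
noncomputable def xc20 : XT := (XT.nd (nat_lit 1248) (nat_lit 0) (nat_lit 0) (XT.nd (nat_lit 624) (nat_lit 0) (nat_lit 0) (XT.nd (nat_lit 312) (nat_lit 0) (nat_lit 0) (XT.nd (nat_lit 156) (nat_lit 0) (nat_lit 0) (XT.nd (nat_lit 78) (nat_lit 0) (nat_lit 0) (XT.lf (nat_lit 0) (nat_lit 857140640754) (nat_lit 76) (nat_lit 84322086534) (nat_lit 76) (nat_lit 83259291071) (nat_lit 1) (nat_lit 4) (nat_lit 2) (nat_lit 5) (nat_lit 2) (nat_lit 4) (nat_lit 390) (nat_lit 269) (nat_lit 241)) (XT.lf (nat_lit 0) (nat_lit 928032935505) (nat_lit 76) (nat_lit 89822934267) (nat_lit 76) (nat_lit 88749816988) (nat_lit 1) (nat_lit 4) (nat_lit 2) (nat_lit 5) (nat_lit 2) (nat_lit 4) (nat_lit 391) (nat_lit 269) (nat_lit 240))) (XT.nd (nat_lit 78) (nat_lit 0) (nat_lit 0) (XT.lf (nat_lit 0) (nat_lit 1004565236806) (nat_lit 76) (nat_lit 95779379170) (nat_lit 76) (nat_lit 94696704653) (nat_lit 1) (nat_lit 4) (nat_lit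 2) (nat_lit 5) (nat_lit 2) (nat_lit 4) (nat_lit 392) (nat_lit 269) (nat_lit 239)) (XT.lf (nat_lit 0) (nat_lit 1087191069407) (nat_lit 76) (nat_lit 102226718694) (nat_lit 76) (nat_lit 101135194883) (nat_lit 1) (nat_lit 4) (nat_lit 2) (nat_lit 5) (nat_lit 2) (nat_lit 4) (nat_lit 393) (nat_lit 269) (nat_lit 238)))) (XT.nd (nat_lit 156) (nat_lit 0) (nat_lit 0) (XT.nd (nat_lit 78) (nat_lit 0) (nat_lit 0) (XT.lf (nat_lit 0) (nat_lit 1176400067870) (nat_lit 76) (nat_lit 109203159294) (nat_lit 76) (nat_lit 108103441694) (nat_lit 1) (nat_lit 4) (nat_lit 2) (nat_lit 5) (nat_lit 2) (nat_lit 4) (nat_lit 394) (nat_lit 269) (nat_lit 237)) (XT.lf (nat_lit 0) (nat_lit 1272720878114) (nat_lit 76) (nat_lit 116750042843) (nat_lit 76) (nat_lit 115642738399) (nat_lit 1) (nat_lit 4) (nat_lit 2) (nat_lit 5) (nat_lit 2) (nat_lit 4) (nat_lit 395) (nat_lit 269) (nat_lit 236))) (XT.nd (nat_lit 78) (nat_lit 0) (nat_lit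 0) (XT.lf (nat_lit 0) (nat_lit 1376724290123) (nat_lit 76) (nat_lit 124912091612) (nat_lit 76) (nat_lit 123797762314) (nat_lit 1) (nat_lit 4) (nat_lit 2) (nat_lit 5) (nat_lit 2) (nat_lit 4) (nat_lit 396) (nat_lit 269) (nat_lit 235)) (XT.lf (nat_lit 0) (nat_lit 1489026620415) (nat_lit 76) (nat_lit 133737673298) (nat_lit 76) (nat_lit 132616839505) (nat_lit 1) (nat_lit 4) (nat_lit 2) (nat_lit 5) (nat_lit 2) (nat_lit 4) (nat_lit 397) (nat_lit 269) (nat_lit 234))))) (XT.nd (nat_lit 312) (nat_lit 0) (nat_lit 0) (XT.nd (nat_lit 156) (nat_lit 0) (nat_lit 0) (XT.nd (nat_lit 78) (nat_lit 0) (nat_lit 0) (XT.lf (nat_lit 0) (nat_lit 1610293364279) (nat_lit 76) (nat_lit 143279087645) (nat_lit 76) (nat_lit 142152231171) (nat_lit 1) (nat_lit 4) (nat_lit 2) (nat_lit 5) (nat_lit 2) (nat_lit 4) (nat_lit 398) (nat_lit 269) (nat_lit 233)) (XT.lf (nat_lit 0) (nat_lit 1741243139458) (nat_lit 76) (nat_lit 153592876366)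 (nat_lit 76) (nat_lit 152460443336) (nat_lit 1) (nat_lit 4) (nat_lit 2) (nat_lit 5) (nat_lit 2) (nat_lit 4) (nat_lit 399) (nat_lit 269) (nat_lit 232))) (XT.nd (nat_lit 78) (nat_lit 0) (nat_lit 0) (XT.lf (nat_lit 0) (nat_lit 1882651944618) (nat_lit 76) (nat_lit 164740158210) (nat_lit 76) (nat_lit 163602561702) (nat_lit 1) (nat_lit 4) (nat_lit 2) (nat_lit 5) (nat_lit 2) (nat_lit 4) (nat_lit 400) (nat_lit 269) (nat_lit 231)) (XT.lf (nat_lit 0) (nat_lit 2035357757864) (nat_lit 76) (nat_lit 176786991143) (nat_lit 76) (nat_lit 175644613637) (nat_lit 1) (nat_lit 4) (nat_lit 2) (nat_lit 5) (nat_lit 2) (nat_lit 4) (nat_lit 401) (nat_lit 269) (nat_lit 230)))) (XT.nd (nat_lit 156) (nat_lit 0) (nat_lit 0) (XT.nd (nat_lit 78) (nat_lit 0) (nat_lit 0) (XT.lf (nat_lit 0) (nat_lit 2200265502535) (nat_lit 76) (nat_lit 189804763806) (nat_lit 76) (nat_lit 188657959450) (nat_lit 1) (nat_lit 4) (nat_lit 2)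 (nat_lit 5) (nat_lit 2) (nat_lit 4) (nat_lit 402) (nat_lit 269) (nat_lit 229)) (XT.lf (nat_lit 0) (nat_lit 2378352409709) (nat_lit 76) (nat_lit 203870618554) (nat_lit 76) (nat_lit 202719715262) (nat_lit 1) (nat_lit 4) (nat_lit 2) (nat_lit 5) (nat_lit 2) (nat_lit 4) (nat_lit 403) (nat_lit 269) (nat_lit 228))) (XT.nd (nat_lit 78) (nat_lit 0) (nat_lit 0) (XT.lf (nat_lit 0) (nat_lit 2570673809207) (nat_lit 76) (nat_lit 219067908600) (nat_lit 76) (nat_lit 217913209999) (nat_lit 1) (nat_lit 4) (nat_lit 2) (nat_lit 5) (nat_lit 2) (nat_lit 4) (nat_lit 404) (nat_lit 269) (nat_lit 227)) (XT.lf (nat_lit 0) (nat_lit 2778369383397) (nat_lit 76) (nat_lit 235486691961) (nat_lit 76) (nat_lit 234328479183) (nat_lit 1) (nat_lit 4) (nat_lit 2) (nat_lit 5) (nat_lit 2) (nat_lit 4) (nat_lit 405) (nat_lit 269) (nat_lit 226)))))) (XT.nd (nat_lit 43368) (nat_lit 0) (nat_lit 0) (XT.nd (nat_lit 312) (nat_lit 0)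 (nat_lit 0) (XT.nd (nat_lit 156) (nat_lit 0) (nat_lit 0) (XT.nd (nat_lit 78) (nat_lit 0) (nat_lit 0) (XT.lf (nat_lit 0) (nat_lit 3002669920865) (nat_lit 76) (nat_lit 253224265130) (nat_lit 76) (nat_lit 252062798485) (nat_lit 1) (nat_lit 4) (nat_lit 2) (nat_lit 5) (nat_lit 2) (nat_lit 4) (nat_lit 406) (nat_lit 269) (nat_lit 225)) (XT.lf (nat_lit 0) (nat_lit 3244904609983) (nat_lit 76) (nat_lit 272385739651) (nat_lit 76) (nat_lit 271221260166) (nat_lit 1) (nat_lit 4) (nat_lit 2) (nat_lit 5) (nat_lit 2) (nat_lit 4) (nat_lit 407) (nat_lit 269) (nat_lit 224))) (XT.nd (nat_lit 78) (nat_lit 0) (nat_lit 0) (XT.lf (nat_lit 0) (nat_lit 3506508915575) (nat_lit 76) (nat_lit 293084665003) (nat_lit 76) (nat_lit 291917395852) (nat_lit 1) (nat_lit 4) (nat_lit 2) (nat_lit 5) (nat_lit 2) (nat_lit 4) (nat_lit 408) (nat_lit 269) (nat_lit 223)) (XT.lf (nat_lit 0) (nat_lit 3789033085377) (nat_lit 76) (nat_lit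 315443701485) (nat_lit 76) (nat_lit 314273849309) (nat_lit 1) (nat_lit 4) (nat_lit 2) (nat_lit 5) (nat_lit 2) (nat_lit 4) (nat_lit 409) (nat_lit 269) (nat_lit 222)))) (XT.nd (nat_lit 156) (nat_lit 0) (nat_lit 0) (XT.nd (nat_lit 78) (nat_lit 0) (nat_lit 0) (XT.lf (nat_lit 0) (nat_lit 4094151336693) (nat_lit 76) (nat_lit 339595347090) (nat_lit 76) (nat_lit 338423103226) (nat_lit 1) (nat_lit 4) (nat_lit 2) (nat_lit 5) (nat_lit 2) (nat_lit 4) (nat_lit 410) (nat_lit 269) (nat_lit 221)) (XT.lf (nat_lit 0) (nat_lit 4423671777677) (nat_lit 76) (nat_lit 365682722682) (nat_lit 76) (nat_lit 364508264290) (nat_lit 1) (nat_lit 4) (nat_lit 2) (nat_lit 5) (nat_lit 2) (nat_lit 4) (nat_lit 411) (nat_lit 269) (nat_lit 220))) (XT.nd (nat_lit 42822) (nat_lit 0) (nat_lit 0) (XT.lf (nat_lit 0) (nat_lit 4779547122055) (nat_lit 76) (nat_lit 393860420116) (nat_lit 76) (nat_lit 392683911236) (nat_lit 1) (nat_lit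 4) (nat_lit 2) (nat_lit 5) (nat_lit 2) (nat_lit 4) (nat_lit 412) (nat_lit 269) (nat_lit 219)) (XT.lf (nat_lit 0) (nat_lit 18289683054) (nat_lit 76) (nat_lit 16806253997) (nat_lit 76) (nat_lit 16806253997) (nat_lit 1) (nat_lit 4) (nat_lit 2) (nat_lit 5) (nat_lit 2) (nat_lit 4) (nat_lit 360) (nat_lit 270) (nat_lit 270))))) (XT.nd (nat_lit 312) (nat_lit 0) (nat_lit 0) (XT.nd (nat_lit 156) (nat_lit 0) (nat_lit 0) (XT.nd (nat_lit 78) (nat_lit 0) (nat_lit 0) (XT.lf (nat_lit 0) (nat_lit 45501668762) (nat_lit 76) (nat_lit 33230082204) (nat_lit 76) (nat_lit 33133911006) (nat_lit 1) (nat_lit 4) (nat_lit 2) (nat_lit 5) (nat_lit 2) (nat_lit 4) (nat_lit 361) (nat_lit 270) (nat_lit 269)) (XT.lf (nat_lit 0) (nat_lit 54845407223) (nat_lit 76) (nat_lit 32961753583) (nat_lit 76) (nat_lit 32776534978) (nat_lit 1) (nat_lit 4) (nat_lit 2) (nat_lit 5) (nat_lit 2) (nat_lit 4) (nat_lit 362) (nat_lit 270) (nat_lit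 268))) (XT.nd (nat_lit 78) (nat_lit 0) (nat_lit 0) (XT.lf (nat_lit 0) (nat_lit 64665951792) (nat_lit 76) (nat_lit 32805932036) (nat_lit 76) (nat_lit 32538262129) (nat_lit 1) (nat_lit 4) (nat_lit 2) (nat_lit 5) (nat_lit 2) (nat_lit 4) (nat_lit 363) (nat_lit 270) (nat_lit 267)) (XT.lf (nat_lit 0) (nat_lit 75021498288) (nat_lit 76) (nat_lit 32761694175) (nat_lit 76) (nat_lit 32417680471) (nat_lit 1) (nat_lit 4) (nat_lit 2) (nat_lit 5) (nat_lit 2) (nat_lit 4) (nat_lit 364) (nat_lit 270) (nat_lit 266)))) (XT.nd (nat_lit 156) (nat_lit 0) (nat_lit 0) (XT.nd (nat_lit 78) (nat_lit 0) (nat_lit 0) (XT.lf (nat_lit 0) (nat_lit 85973412915) (nat_lit 76) (nat_lit 32828777852) (nat_lit 76) (nat_lit 32414075446) (nat_lit 1) (nat_lit 4) (nat_lit 2) (nat_lit 5) (nat_lit 2) (nat_lit 4) (nat_lit 365) (nat_lit 270) (nat_lit 265)) (XT.lf (nat_lit 0) (nat_lit 97586595905) (nat_lit 76) (nat_lit 33007580599) (nat_lit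 76) (nat_lit 32527425691) (nat_lit 1) (nat_lit 4) (nat_lit 2) (nat_lit 5) (nat_lit 2) (nat_lit 4) (nat_lit 366) (nat_lit 270) (nat_lit 264))) (XT.nd (nat_lit 78) (nat_lit 0) (nat_lit 0) (XT.lf (nat_lit 0) (nat_lit 109929866122) (nat_lit 76) (nat_lit 33299161987) (nat_lit 76) (nat_lit 32758402911) (nat_lit 1) (nat_lit 4) (nat_lit 2) (nat_lit 5) (nat_lit 2) (nat_lit 4) (nat_lit 367) (nat_lit 270) (nat_lit 263)) (XT.lf (nat_lit 0) (nat_lit 123076368871) (nat_lit 76) (nat_lit 33705249906) (nat_lit 76) (nat_lit 33108375859) (nat_lit 1) (nat_lit 4) (nat_lit 2) (nat_lit 5) (nat_lit 2) (nat_lit 4) (nat_lit 368) (nat_lit 270) (nat_lit 262)))))))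
noncomputable def xc21 : XT := (XT.nd (nat_lit 1248) (nat_lit 0) (nat_lit 0) (XT.nd (nat_lit 624) (nat_lit 0) (nat_lit 0) (XT.nd (nat_lit 312) (nat_lit 0) (nat_lit 0) (XT.nd (nat_lit 156) (nat_lit 0) (nat_lit 0) (XT.nd (nat_lit 78) (nat_lit 0) (nat_lit 0) (XT.lf (nat_lit 0) (nat_lit 137104009352) (nat_lit 76) (nat_lit 34228250804) (nat_lit 76) (nat_lit 33579418451) (nat_lit 1) (nat_lit 4) (nat_lit 2) (nat_lit 5) (nat_lit 2) (nat_lit 4) (nat_lit 369) (nat_lit 270) (nat_lit 261)) (XT.lf (nat_lit 0) (nat_lit 152095914324) (nat_lit 76) (nat_lit 34871263944) (nat_lit 76) (nat_lit 34174322049) (nat_lit 1) (nat_lit 4) (nat_lit 2) (nat_lit 5) (nat_lit 2) (nat_lit 4) (nat_lit 370) (nat_lit 270) (nat_lit 260))) (XT.nd (nat_lit 78) (nat_lit 0) (nat_lit 0) (XT.lf (nat_lit 0) (nat_lit 168140924707) (nat_lit 76) (nat_lit 35638099776) (nat_lit 76) (nat_lit 34896612007) (nat_lit 1) (nat_lit 4) (nat_lit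 2) (nat_lit 5) (nat_lit 2) (nat_lit 4) (nat_lit 371) (nat_lit 270) (nat_lit 259)) (XT.lf (nat_lit 0) (nat_lit 185334122042) (nat_lit 76) (nat_lit 36533302511) (nat_lit 76) (nat_lit 35750568563) (nat_lit 1) (nat_lit 4) (nat_lit 2) (nat_lit 5) (nat_lit 2) (nat_lit 4) (nat_lit 372) (nat_lit 270) (nat_lit 258)))) (XT.nd (nat_lit 156) (nat_lit 0) (nat_lit 0) (XT.nd (nat_lit 78) (nat_lit 0) (nat_lit 0) (XT.lf (nat_lit 0) (nat_lit 203777391943) (nat_lit 76) (nat_lit 37562177054) (nat_lit 76) (nat_lit 36741252201) (nat_lit 1) (nat_lit 4) (nat_lit 2) (nat_lit 5) (nat_lit 2) (nat_lit 4) (nat_lit 373) (nat_lit 270) (nat_lit 257)) (XT.lf (nat_lit 0) (nat_lit 223580027862) (nat_lit 76) (nat_lit 38730820440) (nat_lit 76) (nat_lit 37874533637) (nat_lit 1) (nat_lit 4) (nat_lit 2) (nat_lit 5) (nat_lit 2) (nat_lit 4) (nat_lit 374) (nat_lit 270) (nat_lit 256))) (XT.nd (nat_lit 78) (nat_lit 0) (nat_lit 0)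 (XT.lf (nat_lit 0) (nat_lit 244859378753) (nat_lit 76) (nat_lit 40046157963) (nat_lit 76) (nat_lit 39157128613) (nat_lit 1) (nat_lit 4) (nat_lit 2) (nat_lit 5) (nat_lit 2) (nat_lit 4) (nat_lit 375) (nat_lit 270) (nat_lit 255)) (XT.lf (nat_lit 0) (nat_lit 267741544472) (nat_lit 76) (nat_lit 41515984216) (nat_lit 76) (nat_lit 40596637693) (nat_lit 1) (nat_lit 4) (nat_lit 2) (nat_lit 5) (nat_lit 2) (nat_lit 4) (nat_lit 376) (nat_lit 270) (nat_lit 254))))) (XT.nd (nat_lit 312) (nat_lit 0) (nat_lit 0) (XT.nd (nat_lit 156) (nat_lit 0) (nat_lit 0) (XT.nd (nat_lit 78) (nat_lit 0) (nat_lit 0) (XT.lf (nat_lit 0) (nat_lit 292362123038) (nat_lit 76) (nat_lit 43149009280) (nat_lit 76) (nat_lit 42201591301) (nat_lit 1) (nat_lit 4) (nat_lit 2) (nat_lit 5) (nat_lit 2) (nat_lit 4) (nat_lit 377) (nat_lit 270) (nat_lit 253)) (XT.lf (nat_lit 0) (nat_lit 318867014177) (nat_lit 76) (nat_lit 44954910341) (nat_lit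 76) (nat_lit 43981500273) (nat_lit 1) (nat_lit 4) (nat_lit 2) (nat_lit 5) (nat_lit 2) (nat_lit 4) (nat_lit 378) (nat_lit 270) (nat_lit 252))) (XT.nd (nat_lit 78) (nat_lit 0) (nat_lit 0) (XT.lf (nat_lit 0) (nat_lit 347413283910) (nat_lit 76) (nat_lit 46944389034) (nat_lit 76) (nat_lit 45946912217) (nat_lit 1) (nat_lit 4) (nat_lit 2) (nat_lit 5) (nat_lit 2) (nat_lit 4) (nat_lit 379) (nat_lit 270) (nat_lit 251)) (XT.lf (nat_lit 0) (nat_lit 378170095317) (nat_lit 76) (nat_lit 49129234863) (nat_lit 76) (nat_lit 48109474020) (nat_lit 1) (nat_lit 4) (nat_lit 2) (nat_lit 5) (nat_lit 2) (nat_lit 4) (nat_lit 380) (nat_lit 270) (nat_lit 250)))) (XT.nd (nat_lit 156) (nat_lit 0) (nat_lit 0) (XT.nd (nat_lit 78) (nat_lit 0) (nat_lit 0) (XT.lf (nat_lit 0) (nat_lit 411319710984) (nat_lit 76) (nat_lit 51522395063) (nat_lit 76) (nat_lit 50482000861) (nat_lit 1) (nat_lit 4) (nat_lit 2) (nat_lit 5) (nat_lit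 2) (nat_lit 4) (nat_lit 381) (nat_lit 270) (nat_lit 249)) (XT.lf (nat_lit 0) (nat_lit 447058573078) (nat_lit 76) (nat_lit 54138051324) (nat_lit 76) (nat_lit 53078552160) (nat_lit 1) (nat_lit 4) (nat_lit 2) (nat_lit 5) (nat_lit 2) (nat_lit 4) (nat_lit 382) (nat_lit 270) (nat_lit 248))) (XT.nd (nat_lit 78) (nat_lit 0) (nat_lit 0) (XT.lf (nat_lit 0) (nat_lit 485598467448) (nat_lit 76) (nat_lit 56991703830) (nat_lit 76) (nat_lit 55914514888) (nat_lit 1) (nat_lit 4) (nat_lit 2) (nat_lit 5) (nat_lit 2) (nat_lit 4) (nat_lit 383) (nat_lit 270) (nat_lit 247)) (XT.lf (nat_lit 0) (nat_lit 527167778654) (nat_lit 76) (nat_lit 60100263116) (nat_lit 76) (nat_lit 59006694748) (nat_lit 1) (nat_lit 4) (nat_lit 2) (nat_lit 5) (nat_lit 2) (nat_lit 4) (nat_lit 384) (nat_lit 270) (nat_lit 246)))))) (XT.nd (nat_lit 624) (nat_lit 0) (nat_lit 0) (XT.nd (nat_lit 312) (nat_lit 0) (nat_lit 0) (XT.nd (nat_lit 156)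 (nat_lit 0) (nat_lit 0) (XT.nd (nat_lit 78) (nat_lit 0) (nat_lit 0) (XT.lf (nat_lit 0) (nat_lit 572012843354) (nat_lit 76) (nat_lit 63482150273) (nat_lit 76) (nat_lit 62373415771) (nat_lit 1) (nat_lit 4) (nat_lit 2) (nat_lit 5) (nat_lit 2) (nat_lit 4) (nat_lit 385) (nat_lit 270) (nat_lit 245)) (XT.lf (nat_lit 0) (nat_lit 620399410080) (nat_lit 76) (nat_lit 67157406114) (nat_lit 76) (nat_lit 66034628895) (nat_lit 1) (nat_lit 4) (nat_lit 2) (nat_lit 5) (nat_lit 2) (nat_lit 4) (nat_lit 386) (nat_lit 270) (nat_lit 244))) (XT.nd (nat_lit 78) (nat_lit 0) (nat_lit 0) (XT.lf (nat_lit 0) (nat_lit 672614214043) (nat_lit 76) (nat_lit 71147809933) (nat_lit 76) (nat_lit 70012030199) (nat_lit 1) (nat_lit 4) (nat_lit 2) (nat_lit 5) (nat_lit 2) (nat_lit 4) (nat_lit 387) (nat_lit 270) (nat_lit 243)) (XT.lf (nat_lit 0) (nat_lit 728966676303) (nat_lit 76) (nat_lit 75477008567) (nat_lit 76) (nat_lit 74329189467)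 (nat_lit 1) (nat_lit 4) (nat_lit 2) (nat_lit 5) (nat_lit 2) (nat_lit 4) (nat_lit 388) (nat_lit 270) (nat_lit 242)))) (XT.nd (nat_lit 156) (nat_lit 0) (nat_lit 0) (XT.nd (nat_lit 78) (nat_lit 0) (nat_lit 0) (XT.lf (nat_lit 0) (nat_lit 789790737377) (nat_lit 76) (nat_lit 80170656527) (nat_lit 76) (nat_lit 79011689866) (nat_lit 1) (nat_lit 4) (nat_lit 2) (nat_lit 5) (nat_lit 2) (nat_lit 4) (nat_lit 389) (nat_lit 270) (nat_lit 241)) (XT.lf (nat_lit 0) (nat_lit 855446836145) (nat_lit 76) (nat_lit 85256568024) (nat_lit 76) (nat_lit 84087279546) (nat_lit 1) (nat_lit 4) (nat_lit 2) (nat_lit 5) (nat_lit 2) (nat_lit 4) (nat_lit 390) (nat_lit 270) (nat_lit 240))) (XT.nd (nat_lit 78) (nat_lit 0) (nat_lit 0) (XT.lf (nat_lit 0) (nat_lit 926324045785) (nat_lit 76) (nat_lit 90764881791) (nat_lit 76) (nat_lit 89586036076) (nat_lit 1) (nat_lit 4) (nat_lit 2) (nat_lit 5) (nat_lit 2) (nat_lit 4) (nat_lit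 391) (nat_lit 270) (nat_lit 239)) (XT.lf (nat_lit 0) (nat_lit 1002842379392) (nat_lit 76) (nat_lit 96728239688) (nat_lit 76) (nat_lit 95540544679) (nat_lit 1) (nat_lit 4) (nat_lit 2) (nat_lit 5) (nat_lit 2) (nat_lit 4) (nat_lit 392) (nat_lit 270) (nat_lit 238))))) (XT.nd (nat_lit 312) (nat_lit 0) (nat_lit 0) (XT.nd (nat_lit 156) (nat_lit 0) (nat_lit 0) (XT.nd (nat_lit 78) (nat_lit 0) (nat_lit 0) (XT.lf (nat_lit 0) (nat_lit 1085455278942) (nat_lit 76) (nat_lit 103181980132) (nat_lit 76) (nat_lit 101986091333) (nat_lit 1) (nat_lit 4) (nat_lit 2) (nat_lit 5) (nat_lit 2) (nat_lit 4) (nat_lit 393) (nat_lit 270) (nat_lit 237)) (XT.lf (nat_lit 0) (nat_lit 1174652302359) (nat_lit 76) (nat_lit 110164347512) (nat_lit 76) (nat_lit 108960871870) (nat_lit 1) (nat_lit 4) (nat_lit 2) (nat_lit 5) (nat_lit 2) (nat_lit 4) (nat_lit 394) (nat_lit 270) (nat_lit 236))) (XT.nd (nat_lit 78) (nat_lit 0) (nat_lit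 0) (XT.lf (nat_lit 0) (nat_lit 1270962024596) (nat_lit 76) (nat_lit 117716718819) (nat_lit 76) (nat_lit 116506218322) (nat_lit 1) (nat_lit 4) (nat_lit 2) (nat_lit 5) (nat_lit 2) (nat_lit 4) (nat_lit 395) (nat_lit 270) (nat_lit 235)) (XT.lf (nat_lit 0) (nat_lit 1374955169933) (nat_lit 76) (nat_lit 125883848845) (nat_lit 76) (nat_lit 124666843853) (nat_lit 1) (nat_lit 4) (nat_lit 2) (nat_lit 5) (nat_lit 2) (nat_lit 4) (nat_lit 396) (nat_lit 270) (nat_lit 234)))) (XT.nd (nat_lit 156) (nat_lit 0) (nat_lit 0) (XT.nd (nat_lit 78) (nat_lit 0) (nat_lit 0) (XT.lf (nat_lit 0) (nat_lit 1487247994047) (nat_lit 76) (nat_lit 134714135399) (nat_lit 76) (nat_lit 133491107727) (nat_lit 1) (nat_lit 4) (nat_lit 2) (nat_lit 5) (nat_lit 2) (nat_lit 4) (nat_lit 397) (nat_lit 270) (nat_lit 233)) (XT.lf (nat_lit 0) (nat_lit 1608505935894) (nat_lit 76) (nat_lit 144259906105) (nat_lit 76) (nat_lit 143031301876)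 (nat_lit 1) (nat_lit 4) (nat_lit 2) (nat_lit 5) (nat_lit 2) (nat_lit 4) (nat_lit 398) (nat_lit 270) (nat_lit 232))) (XT.nd (nat_lit 78) (nat_lit 0) (nat_lit 0) (XT.lf (nat_lit 0) (nat_lit 1739447561057) (nat_lit 76) (nat_lit 154577728492) (nat_lit 76) (nat_lit 153343960785) (nat_lit 1) (nat_lit 4) (nat_lit 2) (nat_lit 5) (nat_lit 2) (nat_lit 4) (nat_lit 399) (nat_lit 270) (nat_lit 231)) (XT.nd (nat_lit 78) (nat_lit 0) (nat_lit 0) (XT.lf (nat_lit 0) (nat_lit 1880848819906) (nat_lit 76) (nat_lit 165728745212) (nat_lit 76) (nat_lit 164490196507) (nat_lit 1) (nat_lit 4) (nat_lit 2) (nat_lit 5) (nat_lit 2) (nat_lit 4) (nat_lit 400) (nat_lit 270) (nat_lit 230)) (XT.lf (nat_lit 0) (nat_lit 2033547645827) (nat_lit 76) (nat_lit 177779036364) (nat_lit 76) (nat_lit 176536060809) (nat_lit 1) (nat_lit 4) (nat_lit 2) (nat_lit 5) (nat_lit 2) (nat_lit 4) (nat_lit 401) (nat_lit 270) (nat_lit 229))))))))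
noncomputable def xc22 : XT := (XT.nd (nat_lit 43836) (nat_lit 0) (nat_lit 0) (XT.nd (nat_lit 624) (nat_lit 0) (nat_lit 0) (XT.nd (nat_lit 312) (nat_lit 0) (nat_lit 0) (XT.nd (nat_lit 156) (nat_lit 0) (nat_lit 0) (XT.nd (nat_lit 78) (nat_lit 0) (nat_lit 0) (XT.lf (nat_lit 0) (nat_lit 2198448920753) (nat_lit 76) (nat_lit 190800011080) (nat_lit 76) (nat_lit 189552936590) (nat_lit 1) (nat_lit 4) (nat_lit 2) (nat_lit 5) (nat_lit 2) (nat_lit 4) (nat_lit 402) (nat_lit 270) (nat_lit 228)) (XT.lf (nat_lit 0) (nat_lit 2376529837422) (nat_lit 76) (nat_lit 204868830693) (nat_lit 76) (nat_lit 203617960893) (nat_lit 1) (nat_lit 4) (nat_lit 2) (nat_lit 5) (nat_lit 2) (nat_lit 4) (nat_lit 403) (nat_lit 270) (nat_lit 227))) (XT.nd (nat_lit 78) (nat_lit 0) (nat_lit 0) (XT.lf (nat_lit 0) (nat_lit 2568845690157) (nat_lit 76) (nat_lit 220068865985) (nat_lit 76) (nat_lit 218814482009) (nat_lit 1) (nat_lit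 4) (nat_lit 2) (nat_lit 5) (nat_lit 2) (nat_lit 4) (nat_lit 404) (nat_lit 270) (nat_lit 226)) (XT.lf (nat_lit 0) (nat_lit 2776536128454) (nat_lit 76) (nat_lit 236490191239) (nat_lit 76) (nat_lit 235232553396) (nat_lit 1) (nat_lit 4) (nat_lit 2) (nat_lit 5) (nat_lit 2) (nat_lit 4) (nat_lit 405) (nat_lit 270) (nat_lit 225)))) (XT.nd (nat_lit 156) (nat_lit 0) (nat_lit 0) (XT.nd (nat_lit 78) (nat_lit 0) (nat_lit 0) (XT.lf (nat_lit 0) (nat_lit 3000831910467) (nat_lit 76) (nat_lit 254230118013) (nat_lit 76) (nat_lit 252969467330) (nat_lit 1) (nat_lit 4) (nat_lit 2) (nat_lit 5) (nat_lit 2) (nat_lit 4) (nat_lit 406) (nat_lit 270) (nat_lit 224)) (XT.lf (nat_lit 0) (nat_lit 3243062196385) (nat_lit 76) (nat_lit 273393771799) (nat_lit 76) (nat_lit 272130331449) (nat_lit 1) (nat_lit 4) (nat_lit 2) (nat_lit 5) (nat_lit 2) (nat_lit 4) (nat_lit 407) (nat_lit 270) (nat_lit 223))) (XT.nd (nat_lit 78) (nat_lit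 0) (nat_lit 0) (XT.lf (nat_lit 0) (nat_lit 3504662424940) (nat_lit 76) (nat_lit 294094714988) (nat_lit 76) (nat_lit 292828691614) (nat_lit 1) (nat_lit 4) (nat_lit 2) (nat_lit 5) (nat_lit 2) (nat_lit 4) (nat_lit 408) (nat_lit 270) (nat_lit 222)) (XT.lf (nat_lit 0) (nat_lit 3787182819708) (nat_lit 76) (nat_lit 316455619838) (nat_lit 76) (nat_lit 315187204774) (nat_lit 1) (nat_lit 4) (nat_lit 2) (nat_lit 5) (nat_lit 2) (nat_lit 4) (nat_lit 409) (nat_lit 270) (nat_lit 221))))) (XT.nd (nat_lit 42900) (nat_lit 0) (nat_lit 0) (XT.nd (nat_lit 156) (nat_lit 0) (nat_lit 0) (XT.nd (nat_lit 78) (nat_lit 0) (nat_lit 0) (XT.lf (nat_lit 0) (nat_lit 4092297575621) (nat_lit 76) (nat_lit 340608995413) (nat_lit 76) (nat_lit 339338365823) (nat_lit 1) (nat_lit 4) (nat_lit 2) (nat_lit 5) (nat_lit 2) (nat_lit 4) (nat_lit 410) (nat_lit 270) (nat_lit 220)) (XT.lf (nat_lit 0) (nat_lit 4421814780122) (nat_lit 76)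 (nat_lit 366697972830) (nat_lit 76) (nat_lit 365425292751) (nat_lit 1) (nat_lit 4) (nat_lit 2) (nat_lit 5) (nat_lit 2) (nat_lit 4) (nat_lit 411) (nat_lit 270) (nat_lit 219))) (XT.nd (nat_lit 42666) (nat_lit 0) (nat_lit 0) (XT.lf (nat_lit 0) (nat_lit 4777687127756) (nat_lit 76) (nat_lit 394877153434) (nat_lit 76) (nat_lit 393602574755) (nat_lit 1) (nat_lit 4) (nat_lit 2) (nat_lit 5) (nat_lit 2) (nat_lit 4) (nat_lit 412) (nat_lit 270) (nat_lit 218)) (XT.lf (nat_lit 0) (nat_lit 9976850333) (nat_lit 76) (nat_lit 17376066028) (nat_lit 76) (nat_lit 17376066028) (nat_lit 1) (nat_lit 4) (nat_lit 2) (nat_lit 5) (nat_lit 2) (nat_lit 4) (nat_lit 358) (nat_lit 271) (nat_lit 271)))) (XT.nd (nat_lit 156) (nat_lit 0) (nat_lit 0) (XT.nd (nat_lit 78) (nat_lit 0) (nat_lit 0) (XT.lf (nat_lit 0) (nat_lit 28025626356) (nat_lit 76) (nat_lit 34215162077) (nat_lit 76) (nat_lit 34111297183) (nat_lit 1) (nat_lit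 4) (nat_lit 2) (nat_lit 5) (nat_lit 2) (nat_lit 4) (nat_lit 359) (nat_lit 271) (nat_lit 270)) (XT.lf (nat_lit 0) (nat_lit 36427569820) (nat_lit 76) (nat_lit 33791501030) (nat_lit 76) (nat_lit 33591464937) (nat_lit 1) (nat_lit 4) (nat_lit 2) (nat_lit 5) (nat_lit 2) (nat_lit 4) (nat_lit 360) (nat_lit 271) (nat_lit 269))) (XT.nd (nat_lit 78) (nat_lit 0) (nat_lit 0) (XT.lf (nat_lit 0) (nat_lit 45209320356) (nat_lit 76) (nat_lit 33478638331) (nat_lit 76) (nat_lit 33189554833) (nat_lit 1) (nat_lit 4) (nat_lit 2) (nat_lit 5) (nat_lit 2) (nat_lit 4) (nat_lit 361) (nat_lit 271) (nat_lit 268)) (XT.lf (nat_lit 0) (nat_lit 54422917966) (nat_lit 76) (nat_lit 33274719981) (nat_lit 76) (nat_lit 32903185180) (nat_lit 1) (nat_lit 4) (nat_lit 2) (nat_lit 5) (nat_lit 2) (nat_lit 4) (nat_lit 362) (nat_lit 271) (nat_lit 267)))))) (XT.nd (nat_lit 624) (nat_lit 0) (nat_lit 0) (XT.nd (nat_lit 312) (nat_lit 0)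 (nat_lit 0) (XT.nd (nat_lit 156) (nat_lit 0) (nat_lit 0) (XT.nd (nat_lit 78) (nat_lit 0) (nat_lit 0) (XT.lf (nat_lit 0) (nat_lit 64122961748) (nat_lit 76) (nat_lit 33178537574) (nat_lit 76) (nat_lit 32730658975) (nat_lit 1) (nat_lit 4) (nat_lit 2) (nat_lit 5) (nat_lit 2) (nat_lit 4) (nat_lit 363) (nat_lit 271) (nat_lit 266)) (XT.lf (nat_lit 0) (nat_lit 74366933442) (nat_lit 76) (nat_lit 33189521139) (nat_lit 76) (nat_lit 32670953839) (nat_lit 1) (nat_lit 4) (nat_lit 2) (nat_lit 5) (nat_lit 2) (nat_lit 4) (nat_lit 364) (nat_lit 271) (nat_lit 265))) (XT.nd (nat_lit 78) (nat_lit 0) (nat_lit 0) (XT.lf (nat_lit 0) (nat_lit 85215538065) (nat_lit 76) (nat_lit 33307735766) (nat_lit 76) (nat_lit 32723715964) (nat_lit 1) (nat_lit 4) (nat_lit 2) (nat_lit 5) (nat_lit 2) (nat_lit 4) (nat_lit 365) (nat_lit 271) (nat_lit 264)) (XT.lf (nat_lit 0) (nat_lit 96733063646) (nat_lit 76) (nat_lit 33533881985)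 (nat_lit 76) (nat_lit 32889258014) (nat_lit 1) (nat_lit 4) (nat_lit 2) (nat_lit 5) (nat_lit 2) (nat_lit 4) (nat_lit 366) (nat_lit 271) (nat_lit 263)))) (XT.nd (nat_lit 156) (nat_lit 0) (nat_lit 0) (XT.nd (nat_lit 78) (nat_lit 0) (nat_lit 0) (XT.lf (nat_lit 0) (nat_lit 108987762187) (nat_lit 76) (nat_lit 33869299921) (nat_lit 76) (nat_lit 33168560980) (nat_lit 1) (nat_lit 4) (nat_lit 2) (nat_lit 5) (nat_lit 2) (nat_lit 4) (nat_lit 367) (nat_lit 271) (nat_lit 262)) (XT.lf (nat_lit 0) (nat_lit 122052254124) (nat_lit 76) (nat_lit 34315977237) (nat_lit 76) (nat_lit 33563279989) (nat_lit 1) (nat_lit 4) (nat_lit 2) (nat_lit 5) (nat_lit 2) (nat_lit 4) (nat_lit 368) (nat_lit 271) (nat_lit 261))) (XT.nd (nat_lit 78) (nat_lit 0) (nat_lit 0) (XT.lf (nat_lit 0) (nat_lit 136003958669) (nat_lit 76) (nat_lit 34876560909) (nat_lit 76) (nat_lit 34075754119) (nat_lit 1) (nat_lit 4) (nat_lit 2) (nat_lit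 5) (nat_lit 2) (nat_lit 4) (nat_lit 369) (nat_lit 271) (nat_lit 260)) (XT.lf (nat_lit 0) (nat_lit 150925552590) (nat_lit 76) (nat_lit 35554372915) (nat_lit 76) (nat_lit 34709020252) (nat_lit 1) (nat_lit 4) (nat_lit 2) (nat_lit 5) (nat_lit 2) (nat_lit 4) (nat_lit 370) (nat_lit 271) (nat_lit 259))))) (XT.nd (nat_lit 312) (nat_lit 0) (nat_lit 0) (XT.nd (nat_lit 156) (nat_lit 0) (nat_lit 0) (XT.nd (nat_lit 78) (nat_lit 0) (nat_lit 0) (XT.lf (nat_lit 0) (nat_lit 166905460146) (nat_lit 76) (nat_lit 36353429918) (nat_lit 76) (nat_lit 35466831076) (nat_lit 1) (nat_lit 4) (nat_lit 2) (nat_lit 5) (nat_lit 2) (nat_lit 4) (nat_lit 371) (nat_lit 271) (nat_lit 258)) (XT.lf (nat_lit 0) (nat_lit 184038377087) (nat_lit 76) (nat_lit 37278467071) (nat_lit 76) (nat_lit 36353677323) (nat_lit 1) (nat_lit 4) (nat_lit 2) (nat_lit 5) (nat_lit 2) (nat_lit 4) (nat_lit 372) (nat_lit 271) (nat_lit 257))) (XT.nd (nat_lit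 78) (nat_lit 0) (nat_lit 0) (XT.lf (nat_lit 0) (nat_lit 202425831808) (nat_lit 76) (nat_lit 38334966075) (nat_lit 76) (nat_lit 37374814377) (nat_lit 1) (nat_lit 4) (nat_lit 2) (nat_lit 5) (nat_lit 2) (nat_lit 4) (nat_lit 373) (nat_lit 271) (nat_lit 256)) (XT.lf (nat_lit 0) (nat_lit 222176787005) (nat_lit 76) (nat_lit 39529187666) (nat_lit 76) (nat_lit 38536293422) (nat_lit 1) (nat_lit 4) (nat_lit 2) (nat_lit 5) (nat_lit 2) (nat_lit 4) (nat_lit 374) (nat_lit 271) (nat_lit 255)))) (XT.nd (nat_lit 156) (nat_lit 0) (nat_lit 0) (XT.nd (nat_lit 78) (nat_lit 0) (nat_lit 0) (XT.lf (nat_lit 0) (nat_lit 243408285375) (nat_lit 76) (nat_lit 40868208712) (nat_lit 76) (nat_lit 39844997295) (nat_lit 1) (nat_lit 4) (nat_lit 2) (nat_lit 5) (nat_lit 2) (nat_lit 4) (nat_lit 375) (nat_lit 271) (nat_lit 254)) (XT.lf (nat_lit 0) (nat_lit 266246143205) (nat_lit 76) (nat_lit 42359964153) (nat_lit 76) (nat_lit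 41308681280) (nat_lit 1) (nat_lit 4) (nat_lit 2) (nat_lit 5) (nat_lit 2) (nat_lit 4) (nat_lit 376) (nat_lit 271) (nat_lit 253))) (XT.nd (nat_lit 78) (nat_lit 0) (nat_lit 0) (XT.lf (nat_lit 0) (nat_lit 290825695948) (nat_lit 76) (nat_lit 44013294021) (nat_lit 76) (nat_lit 42936019059) (nat_lit 1) (nat_lit 4) (nat_lit 2) (nat_lit 5) (nat_lit 2) (nat_lit 4) (nat_lit 377) (nat_lit 271) (nat_lit 252)) (XT.nd (nat_lit 78) (nat_lit 0) (nat_lit 0) (XT.lf (nat_lit 0) (nat_lit 317292600213) (nat_lit 76) (nat_lit 45837995825) (nat_lit 76) (nat_lit 44736654114) (nat_lit 1) (nat_lit 4) (nat_lit 2) (nat_lit 5) (nat_lit 2) (nat_lit 4) (nat_lit 378) (nat_lit 271) (nat_lit 251)) (XT.lf (nat_lit 0) (nat_lit 345803696915) (nat_lit 76) (nat_lit 47844882615) (nat_lit 76) (nat_lit 46721256877) (nat_lit 1) (nat_lit 4) (nat_lit 2) (nat_lit 5) (nat_lit 2) (nat_lit 4) (nat_lit 379) (nat_lit 271) (nat_lit 250))))))))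
noncomputable def xc23 : XT := (XT.nd (nat_lit 1248) (nat_lit 0) (nat_lit 0) (XT.nd (nat_lit 624) (nat_lit 0) (nat_lit 0) (XT.nd (nat_lit 312) (nat_lit 0) (nat_lit 0) (XT.nd (nat_lit 156) (nat_lit 0) (nat_lit 0) (XT.nd (nat_lit 78) (nat_lit 0) (nat_lit 0) (XT.lf (nat_lit 0) (nat_lit 376527940701) (nat_lit 76) (nat_lit 50045847052) (nat_lit 76) (nat_lit 48901587956) (nat_lit 1) (nat_lit 4) (nat_lit 2) (nat_lit 5) (nat_lit 2) (nat_lit 4) (nat_lit 380) (nat_lit 271) (nat_lit 249)) (XT.lf (nat_lit 0) (nat_lit 409647401163) (nat_lit 76) (nat_lit 52453931889) (nat_lit 76) (nat_lit 51290567831) (nat_lit 1) (nat_lit 4) (nat_lit 2) (nat_lit 5) (nat_lit 2) (nat_lit 4) (nat_lit 381) (nat_lit 271) (nat_lit 248))) (XT.nd (nat_lit 78) (nat_lit 0) (nat_lit 0) (XT.lf (nat_lit 0) (nat_lit 445358341770) (nat_lit 76) (nat_lit 55083407258) (nat_lit 76) (nat_lit 53902353421) (nat_lit 1) (nat_lit 4) (nat_lit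 2) (nat_lit 5) (nat_lit 2) (nat_lit 4) (nat_lit 382) (nat_lit 271) (nat_lit 247)) (XT.lf (nat_lit 0) (nat_lit 483872382912) (nat_lit 76) (nat_lit 57949855235) (nat_lit 76) (nat_lit 56752421973) (nat_lit 1) (nat_lit 4) (nat_lit 2) (nat_lit 5) (nat_lit 2) (nat_lit 4) (nat_lit 383) (nat_lit 271) (nat_lit 246)))) (XT.nd (nat_lit 156) (nat_lit 0) (nat_lit 0) (XT.nd (nat_lit 78) (nat_lit 0) (nat_lit 0) (XT.lf (nat_lit 0) (nat_lit 525417755944) (nat_lit 76) (nat_lit 61070262178) (nat_lit 76) (nat_lit 59857662782) (nat_lit 1) (nat_lit 4) (nat_lit 2) (nat_lit 5) (nat_lit 2) (nat_lit 4) (nat_lit 384) (nat_lit 271) (nat_lit 245)) (XT.lf (nat_lit 0) (nat_lit 570240655669) (nat_lit 76) (nat_lit 64463119389) (nat_lit 76) (nat_lit 63236477276) (nat_lit 1) (nat_lit 4) (nat_lit 2) (nat_lit 5) (nat_lit 2) (nat_lit 4) (nat_lit 385) (nat_lit 271) (nat_lit 244))) (XT.nd (nat_lit 78) (nat_lit 0) (nat_lit 0)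 (XT.lf (nat_lit 0) (nat_lit 618606699269) (nat_lit 76) (nat_lit 68148532687) (nat_lit 76) (nat_lit 66908888058) (nat_lit 1) (nat_lit 4) (nat_lit 2) (nat_lit 5) (nat_lit 2) (nat_lit 4) (nat_lit 386) (nat_lit 271) (nat_lit 243)) (XT.lf (nat_lit 0) (nat_lit 670802500338) (nat_lit 76) (nat_lit 72148341559) (nat_lit 76) (nat_lit 70896657564) (nat_lit 1) (nat_lit 4) (nat_lit 2) (nat_lit 5) (nat_lit 2) (nat_lit 4) (nat_lit 387) (nat_lit 271) (nat_lit 242))))) (XT.nd (nat_lit 312) (nat_lit 0) (nat_lit 0) (XT.nd (nat_lit 156) (nat_lit 0) (nat_lit 0) (XT.nd (nat_lit 78) (nat_lit 0) (nat_lit 0) (XT.lf (nat_lit 0) (nat_lit 727137367325) (nat_lit 76) (nat_lit 76486248575) (nat_lit 76) (nat_lit 75223417019) (nat_lit 1) (nat_lit 4) (nat_lit 2) (nat_lit 5) (nat_lit 2) (nat_lit 4) (nat_lit 388) (nat_lit 271) (nat_lit 241)) (XT.lf (nat_lit 0) (nat_lit 787945136479) (nat_lit 76) (nat_lit 81187959853) (nat_lit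 76) (nat_lit 79914806480) (nat_lit 1) (nat_lit 4) (nat_lit 2) (nat_lit 5) (nat_lit 2) (nat_lit 4) (nat_lit 389) (nat_lit 271) (nat_lit 240))) (XT.nd (nat_lit 78) (nat_lit 0) (nat_lit 0) (XT.lf (nat_lit 0) (nat_lit 853586150137) (nat_lit 76) (nat_lit 86281337383) (nat_lit 76) (nat_lit 84998626774) (nat_lit 1) (nat_lit 4) (nat_lit 2) (nat_lit 5) (nat_lit 2) (nat_lit 4) (nat_lit 390) (nat_lit 271) (nat_lit 239)) (XT.lf (nat_lit 0) (nat_lit 924449392083) (nat_lit 76) (nat_lit 91796564145) (nat_lit 76) (nat_lit 90505004242) (nat_lit 1) (nat_lit 4) (nat_lit 2) (nat_lit 5) (nat_lit 2) (nat_lit 4) (nat_lit 391) (nat_lit 271) (nat_lit 238)))) (XT.nd (nat_lit 156) (nat_lit 0) (nat_lit 0) (XT.nd (nat_lit 78) (nat_lit 0) (nat_lit 0) (XT.lf (nat_lit 0) (nat_lit 1000954792639) (nat_lit 76) (nat_lit 97766322963) (nat_lit 76) (nat_lit 96466569269) (nat_lit 1) (nat_lit 4) (nat_lit 2) (nat_lit 5) (nat_lit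 2) (nat_lit 4) (nat_lit 392) (nat_lit 271) (nat_lit 237)) (XT.lf (nat_lit 0) (nat_lit 1083555717143) (nat_lit 76) (nat_lit 104225990186) (nat_lit 76) (nat_lit 102918649649) (nat_lit 1) (nat_lit 4) (nat_lit 2) (nat_lit 5) (nat_lit 2) (nat_lit 4) (nat_lit 393) (nat_lit 271) (nat_lit 236))) (XT.nd (nat_lit 78) (nat_lit 0) (nat_lit 0) (XT.lf (nat_lit 0) (nat_lit 1172741652553) (nat_lit 76) (nat_lit 111213845324) (nat_lit 76) (nat_lit 109899479932) (nat_lit 1) (nat_lit 4) (nat_lit 2) (nat_lit 5) (nat_lit 2) (nat_lit 4) (nat_lit 394) (nat_lit 271) (nat_lit 235)) (XT.lf (nat_lit 0) (nat_lit 1269041108118) (nat_lit 76) (nat_lit 118771297888) (nat_lit 76) (nat_lit 117450428001) (nat_lit 1) (nat_lit 4) (nat_lit 2) (nat_lit 5) (nat_lit 2) (nat_lit 4) (nat_lit 395) (nat_lit 271) (nat_lit 234)))))) (XT.nd (nat_lit 624) (nat_lit 0) (nat_lit 0) (XT.nd (nat_lit 312) (nat_lit 0) (nat_lit 0) (XT.nd (nat_lit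 156) (nat_lit 0) (nat_lit 0) (XT.nd (nat_lit 78) (nat_lit 0) (nat_lit 0) (XT.lf (nat_lit 0) (nat_lit 1373024747277) (nat_lit 76) (nat_lit 126943132782) (nat_lit 76) (nat_lit 125616240215) (nat_lit 1) (nat_lit 4) (nat_lit 2) (nat_lit 5) (nat_lit 2) (nat_lit 4) (nat_lit 396) (nat_lit 271) (nat_lit 233)) (XT.lf (nat_lit 0) (nat_lit 1485308769373) (nat_lit 76) (nat_lit 135777775695) (nat_lit 76) (nat_lit 134445306572) (nat_lit 1) (nat_lit 4) (nat_lit 2) (nat_lit 5) (nat_lit 2) (nat_lit 4) (nat_lit 397) (nat_lit 271) (nat_lit 232))) (XT.nd (nat_lit 78) (nat_lit 0) (nat_lit 0) (XT.lf (nat_lit 0) (nat_lit 1606558561205) (nat_lit 76) (nat_lit 145327580067) (nat_lit 76) (nat_lit 143989947466) (nat_lit 1) (nat_lit 4) (nat_lit 2) (nat_lit 5) (nat_lit 2) (nat_lit 4) (nat_lit 398) (nat_lit 271) (nat_lit 231)) (XT.lf (nat_lit 0) (nat_lit 1737492640057) (nat_lit 76) (nat_lit 155649137330) (nat_lit 76)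 (nat_lit 154306723731) (nat_lit 1) (nat_lit 4) (nat_lit 2) (nat_lit 5) (nat_lit 2) (nat_lit 4) (nat_lit 399) (nat_lit 271) (nat_lit 230)))) (XT.nd (nat_lit 156) (nat_lit 0) (nat_lit 0) (XT.nd (nat_lit 78) (nat_lit 0) (nat_lit 0) (XT.lf (nat_lit 0) (nat_lit 1878886911581) (nat_lit 76) (nat_lit 166803612268) (nat_lit 76) (nat_lit 165456771819) (nat_lit 1) (nat_lit 4) (nat_lit 2) (nat_lit 5) (nat_lit 2) (nat_lit 4) (nat_lit 400) (nat_lit 271) (nat_lit 229)) (XT.lf (nat_lit 0) (nat_lit 2031579267758) (nat_lit 76) (nat_lit 178857105474) (nat_lit 76) (nat_lit 177506166090) (nat_lit 1) (nat_lit 4) (nat_lit 2) (nat_lit 5) (nat_lit 2) (nat_lit 4) (nat_lit 401) (nat_lit 271) (nat_lit 228))) (XT.nd (nat_lit 78) (nat_lit 0) (nat_lit 0) (XT.lf (nat_lit 0) (nat_lit 2196474552178) (nat_lit 76) (nat_lit 191881045056) (nat_lit 76) (nat_lit 190526310361) (nat_lit 1) (nat_lit 4) (nat_lit 2) (nat_lit 5)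 (nat_lit 2) (nat_lit 4) (nat_lit 402) (nat_lit 271) (nat_lit 227)) (XT.lf (nat_lit 0) (nat_lit 2374549922084) (nat_lit 76) (nat_lit 205952609914) (nat_lit 76) (nat_lit 204594361043) (nat_lit 1) (nat_lit 4) (nat_lit 2) (nat_lit 5) (nat_lit 2) (nat_lit 4) (nat_lit 403) (nat_lit 271) (nat_lit 226))))) (XT.nd (nat_lit 312) (nat_lit 0) (nat_lit 0) (XT.nd (nat_lit 156) (nat_lit 0) (nat_lit 0) (XT.nd (nat_lit 78) (nat_lit 0) (nat_lit 0) (XT.lf (nat_lit 0) (nat_lit 2566860638926) (nat_lit 76) (nat_lit 221155187099) (nat_lit 76) (nat_lit 219793684362) (nat_lit 1) (nat_lit 4) (nat_lit 2) (nat_lit 5) (nat_lit 2) (nat_lit 4) (nat_lit 404) (nat_lit 271) (nat_lit 225)) (XT.lf (nat_lit 0) (nat_lit 2774546321768) (nat_lit 76) (nat_lit 237578865959) (nat_lit 76) (nat_lit 236214350382) (nat_lit 1) (nat_lit 4) (nat_lit 2) (nat_lit 5) (nat_lit 2) (nat_lit 4) (nat_lit 405) (nat_lit 271) (nat_lit 224))) (XT.nd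 (nat_lit 78) (nat_lit 0) (nat_lit 0) (XT.lf (nat_lit 0) (nat_lit 2998837700581) (nat_lit 76) (nat_lit 255320971997) (nat_lit 76) (nat_lit 253953666753) (nat_lit 1) (nat_lit 4) (nat_lit 2) (nat_lit 5) (nat_lit 2) (nat_lit 4) (nat_lit 406) (nat_lit 271) (nat_lit 223)) (XT.lf (nat_lit 0) (nat_lit 3241063909462) (nat_lit 76) (nat_lit 274486643620) (nat_lit 76) (nat_lit 273116755351) (nat_lit 1) (nat_lit 4) (nat_lit 2) (nat_lit 5) (nat_lit 2) (nat_lit 4) (nat_lit 407) (nat_lit 271) (nat_lit 222)))) (XT.nd (nat_lit 156) (nat_lit 0) (nat_lit 0) (XT.nd (nat_lit 78) (nat_lit 0) (nat_lit 0) (XT.lf (nat_lit 0) (nat_lit 3502660362983) (nat_lit 76) (nat_lit 295189455177) (nat_lit 76) (nat_lit 293817175219) (nat_lit 1) (nat_lit 4) (nat_lit 2) (nat_lit 5) (nat_lit 2) (nat_lit 4) (nat_lit 408) (nat_lit 271) (nat_lit 221)) (XT.lf (nat_lit 0) (nat_lit 3785177262349) (nat_lit 76) (nat_lit 317552089997)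 (nat_lit 76) (nat_lit 316177595512) (nat_lit 1) (nat_lit 4) (nat_lit 2) (nat_lit 5) (nat_lit 2) (nat_lit 4) (nat_lit 409) (nat_lit 271) (nat_lit 220))) (XT.nd (nat_lit 78) (nat_lit 0) (nat_lit 0) (XT.lf (nat_lit 0) (nat_lit 4090288781779) (nat_lit 76) (nat_lit 341707067397) (nat_lit 76) (nat_lit 340330522424) (nat_lit 1) (nat_lit 4) (nat_lit 2) (nat_lit 5) (nat_lit 2) (nat_lit 4) (nat_lit 410) (nat_lit 271) (nat_lit 219)) (XT.nd (nat_lit 78) (nat_lit 0) (nat_lit 0) (XT.lf (nat_lit 0) (nat_lit 4419802989536) (nat_lit 76) (nat_lit 367797527984) (nat_lit 76) (nat_lit 366419084411) (nat_lit 1) (nat_lit 4) (nat_lit 2) (nat_lit 5) (nat_lit 2) (nat_lit 4) (nat_lit 411) (nat_lit 271) (nat_lit 218)) (XT.lf (nat_lit 0) (nat_lit 4775672562407) (nat_lit 76) (nat_lit 395978081894) (nat_lit 76) (nat_lit 394597880358) (nat_lit 1) (nat_lit 4) (nat_lit 2) (nat_lit 5) (nat_lit 2) (nat_lit 4) (nat_lit 412)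 (nat_lit 271) (nat_lit 217))))))))
noncomputable def xc24 : XT := (XT.nd (nat_lit 1248) (nat_lit 0) (nat_lit 0) (XT.nd (nat_lit 624) (nat_lit 0) (nat_lit 0) (XT.nd (nat_lit 312) (nat_lit 0) (nat_lit 0) (XT.nd (nat_lit 156) (nat_lit 0) (nat_lit 0) (XT.nd (nat_lit 78) (nat_lit 0) (nat_lit 0) (XT.lf (nat_lit 0) (nat_lit 2393647739) (nat_lit 76) (nat_lit 18101980967) (nat_lit 76) (nat_lit 18101980967) (nat_lit 1) (nat_lit 4) (nat_lit 2) (nat_lit 5) (nat_lit 2) (nat_lit 4) (nat_lit 356) (nat_lit 272) (nat_lit 272)) (XT.lf (nat_lit 0) (nat_lit 12163959122) (nat_lit 76) (nat_lit 35517767101) (nat_lit 76) (nat_lit 35405593015) (nat_lit 1) (nat_lit 4) (nat_lit 2) (nat_lit 5) (nat_lit 2) (nat_lit 4) (nat_lit 357) (nat_lit 272) (nat_lit 271))) (XT.nd (nat_lit 78) (nat_lit 0) (nat_lit 0) (XT.lf (nat_lit 0) (nat_lit 19789760677) (nat_lit 76) (nat_lit 34945444535) (nat_lit 76) (nat_lit 34729405554)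 (nat_lit 1) (nat_lit 4) (nat_lit 2) (nat_lit 5) (nat_lit 2) (nat_lit 4) (nat_lit 358) (nat_lit 272) (nat_lit 270)) (XT.lf (nat_lit 0) (nat_lit 27709890077) (nat_lit 76) (nat_lit 34483602694) (nat_lit 76) (nat_lit 34171392516) (nat_lit 1) (nat_lit 4) (nat_lit 2) (nat_lit 5) (nat_lit 2) (nat_lit 4) (nat_lit 359) (nat_lit 272) (nat_lit 269)))) (XT.nd (nat_lit 156) (nat_lit 0) (nat_lit 0) (XT.nd (nat_lit 78) (nat_lit 0) (nat_lit 0) (XT.lf (nat_lit 0) (nat_lit 35971281423) (nat_lit 76) (nat_lit 34129504740) (nat_lit 76) (nat_lit 33728247155) (nat_lit 1) (nat_lit 4) (nat_lit 2) (nat_lit 5) (nat_lit 2) (nat_lit 4) (nat_lit 360) (nat_lit 272) (nat_lit 268)) (XT.lf (nat_lit 0) (nat_lit 44622891109) (nat_lit 76) (nat_lit 33881052313) (nat_lit 76) (nat_lit 33397343426) (nat_lit 1) (nat_lit 4) (nat_lit 2) (nat_lit 5) (nat_lit 2) (nat_lit 4) (nat_lit 361) (nat_lit 272) (nat_lit 267))) (XT.nd (nat_lit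 78) (nat_lit 0) (nat_lit 0) (XT.lf (nat_lit 0) (nat_lit 53715987932) (nat_lit 76) (nat_lit 33736773102) (nat_lit 76) (nat_lit 33176720418) (nat_lit 1) (nat_lit 4) (nat_lit 2) (nat_lit 5) (nat_lit 2) (nat_lit 4) (nat_lit 362) (nat_lit 272) (nat_lit 266)) (XT.lf (nat_lit 0) (nat_lit 63304456911) (nat_lit 76) (nat_lit 33695812121) (nat_lit 76) (nat_lit 33065070734) (nat_lit 1) (nat_lit 4) (nat_lit 2) (nat_lit 5) (nat_lit 2) (nat_lit 4) (nat_lit 363) (nat_lit 272) (nat_lit 265))))) (XT.nd (nat_lit 312) (nat_lit 0) (nat_lit 0) (XT.nd (nat_lit 156) (nat_lit 0) (nat_lit 0) (XT.nd (nat_lit 78) (nat_lit 0) (nat_lit 0) (XT.lf (nat_lit 0) (nat_lit 73445118602) (nat_lit 76) (nat_lit 33757926636) (nat_lit 76) (nat_lit 33061732748) (nat_lit 1) (nat_lit 4) (nat_lit 2) (nat_lit 5) (nat_lit 2) (nat_lit 4) (nat_lit 364) (nat_lit 272) (nat_lit 264)) (XT.lf (nat_lit 0) (nat_lit 84198065815) (nat_lit 76)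 (nat_lit 33923484735) (nat_lit 76) (nat_lit 33166686678) (nat_lit 1) (nat_lit 4) (nat_lit 2) (nat_lit 5) (nat_lit 2) (nat_lit 4) (nat_lit 365) (nat_lit 272) (nat_lit 263))) (XT.nd (nat_lit 78) (nat_lit 0) (nat_lit 0) (XT.lf (nat_lit 0) (nat_lit 95627019720) (nat_lit 76) (nat_lit 34193467502) (nat_lit 76) (nat_lit 33380554474) (nat_lit 1) (nat_lit 4) (nat_lit 2) (nat_lit 5) (nat_lit 2) (nat_lit 4) (nat_lit 366) (nat_lit 272) (nat_lit 262)) (XT.lf (nat_lit 0) (nat_lit 107799707450) (nat_lit 76) (nat_lit 34569474834) (nat_lit 76) (nat_lit 33704603501) (nat_lit 1) (nat_lit 4) (nat_lit 2) (nat_lit 5) (nat_lit 2) (nat_lit 4) (nat_lit 367) (nat_lit 272) (nat_lit 261)))) (XT.nd (nat_lit 156) (nat_lit 0) (nat_lit 0) (XT.nd (nat_lit 78) (nat_lit 0) (nat_lit 0) (XT.lf (nat_lit 0) (nat_lit 120788263451) (nat_lit 76) (nat_lit 35053734925) (nat_lit 76) (nat_lit 34140754049) (nat_lit 1) (nat_lit 4)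 (nat_lit 2) (nat_lit 5) (nat_lit 2) (nat_lit 4) (nat_lit 368) (nat_lit 272) (nat_lit 260)) (XT.lf (nat_lit 0) (nat_lit 134669656944) (nat_lit 76) (nat_lit 35649117462) (nat_lit 76) (nat_lit 34691590713) (nat_lit 1) (nat_lit 4) (nat_lit 2) (nat_lit 5) (nat_lit 2) (nat_lit 4) (nat_lit 369) (nat_lit 272) (nat_lit 259))) (XT.nd (nat_lit 78) (nat_lit 0) (nat_lit 0) (XT.lf (nat_lit 0) (nat_lit 149526148039) (nat_lit 76) (nat_lit 36359150640) (nat_lit 76) (nat_lit 35360377712) (nat_lit 1) (nat_lit 4) (nat_lit 2) (nat_lit 5) (nat_lit 2) (nat_lit 4) (nat_lit 370) (nat_lit 272) (nat_lit 258)) (XT.lf (nat_lit 0) (nat_lit 165445775201) (nat_lit 76) (nat_lit 37188042061) (nat_lit 76) (nat_lit 36151078227) (nat_lit 1) (nat_lit 4) (nat_lit 2) (nat_lit 5) (nat_lit 2) (nat_lit 4) (nat_lit 371) (nat_lit 272) (nat_lit 257)))))) (XT.nd (nat_lit 624) (nat_lit 0) (nat_lit 0) (XT.nd (nat_lit 312) (nat_lit 0)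 (nat_lit 0) (XT.nd (nat_lit 156) (nat_lit 0) (nat_lit 0) (XT.nd (nat_lit 78) (nat_lit 0) (nat_lit 0) (XT.lf (nat_lit 0) (nat_lit 182522876961) (nat_lit 76) (nat_lit 38140703675) (nat_lit 76) (nat_lit 37068377891) (nat_lit 1) (nat_lit 4) (nat_lit 2) (nat_lit 5) (nat_lit 2) (nat_lit 4) (nat_lit 372) (nat_lit 272) (nat_lit 256)) (XT.lf (nat_lit 0) (nat_lit 200858650961) (nat_lit 76) (nat_lit 39222780884) (nat_lit 76) (nat_lit 38117712554) (nat_lit 1) (nat_lit 4) (nat_lit 2) (nat_lit 5) (nat_lit 2) (nat_lit 4) (nat_lit 373) (nat_lit 272) (nat_lit 255))) (XT.nd (nat_lit 78) (nat_lit 0) (nat_lit 0) (XT.lf (nat_lit 0) (nat_lit 220561753637) (nat_lit 76) (nat_lit 40440685998) (nat_lit 76) (nat_lit 39305300495) (nat_lit 1) (nat_lit 4) (nat_lit 2) (nat_lit 5) (nat_lit 2) (nat_lit 4) (nat_lit 374) (nat_lit 272) (nat_lit 254)) (XT.lf (nat_lit 0) (nat_lit 241748944118) (nat_lit 76) (nat_lit 41801636232)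 (nat_lit 76) (nat_lit 40638179273) (nat_lit 1) (nat_lit 4) (nat_lit 2) (nat_lit 5) (nat_lit 2) (nat_lit 4) (nat_lit 375) (nat_lit 272) (nat_lit 253)))) (XT.nd (nat_lit 156) (nat_lit 0) (nat_lit 0) (XT.nd (nat_lit 78) (nat_lit 0) (nat_lit 0) (XT.lf (nat_lit 0) (nat_lit 264545776124) (nat_lit 76) (nat_lit 43313696477) (nat_lit 76) (nat_lit 42124247429) (nat_lit 1) (nat_lit 4) (nat_lit 2) (nat_lit 5) (nat_lit 2) (nat_lit 4) (nat_lit 376) (nat_lit 272) (nat_lit 252)) (XT.lf (nat_lit 0) (nat_lit 289087341993) (nat_lit 76) (nat_lit 44985827088) (nat_lit 76) (nat_lit 43772311291) (nat_lit 1) (nat_lit 4) (nat_lit 2) (nat_lit 5) (nat_lit 2) (nat_lit 4) (nat_lit 377) (nat_lit 272) (nat_lit 251))) (XT.nd (nat_lit 78) (nat_lit 0) (nat_lit 0) (XT.lf (nat_lit 0) (nat_lit 315519073227) (nat_lit 76) (nat_lit 46827936990) (nat_lit 76) (nat_lit 45592137166) (nat_lit 1) (nat_lit 4) (nat_lit 2) (nat_lit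 5) (nat_lit 2) (nat_lit 4) (nat_lit 378) (nat_lit 272) (nat_lit 250)) (XT.lf (nat_lit 0) (nat_lit 343997602308) (nat_lit 76) (nat_lit 48850942387) (nat_lit 76) (nat_lit 47594509205) (nat_lit 1) (nat_lit 4) (nat_lit 2) (nat_lit 5) (nat_lit 2) (nat_lit 4) (nat_lit 379) (nat_lit 272) (nat_lit 249))))) (XT.nd (nat_lit 312) (nat_lit 0) (nat_lit 0) (XT.nd (nat_lit 156) (nat_lit 0) (nat_lit 0) (XT.nd (nat_lit 78) (nat_lit 0) (nat_lit 0) (XT.lf (nat_lit 0) (nat_lit 374691690888) (nat_lit 76) (nat_lit 51066831461) (nat_lit 76) (nat_lit 49791293318) (nat_lit 1) (nat_lit 4) (nat_lit 2) (nat_lit 5) (nat_lit 2) (nat_lit 4) (nat_lit 380) (nat_lit 272) (nat_lit 248)) (XT.lf (nat_lit 0) (nat_lit 407783229864) (nat_lit 76) (nat_lit 53488735406) (nat_lit 76) (nat_lit 52195507483) (nat_lit 1) (nat_lit 4) (nat_lit 2) (nat_lit 5) (nat_lit 2) (nat_lit 4) (nat_lit 381) (nat_lit 272) (nat_lit 247))) (XT.nd (nat_lit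 78) (nat_lit 0) (nat_lit 0) (XT.lf (nat_lit 0) (nat_lit 443468317244) (nat_lit 76) (nat_lit 56131006245) (nat_lit 76) (nat_lit 54821398898) (nat_lit 1) (nat_lit 4) (nat_lit 2) (nat_lit 5) (nat_lit 2) (nat_lit 4) (nat_lit 382) (nat_lit 272) (nat_lit 246)) (XT.lf (nat_lit 0) (nat_lit 481958420212) (nat_lit 76) (nat_lit 59009301880) (nat_lit 76) (nat_lit 57684528398) (nat_lit 1) (nat_lit 4) (nat_lit 2) (nat_lit 5) (nat_lit 2) (nat_lit 4) (nat_lit 383) (nat_lit 272) (nat_lit 245)))) (XT.nd (nat_lit 156) (nat_lit 0) (nat_lit 0) (XT.nd (nat_lit 78) (nat_lit 0) (nat_lit 0) (XT.lf (nat_lit 0) (nat_lit 523481628268) (nat_lit 76) (nat_lit 62140678877) (nat_lit 76) (nat_lit 60801862679) (nat_lit 1) (nat_lit 4) (nat_lit 2) (nat_lit 5) (nat_lit 2) (nat_lit 4) (nat_lit 384) (nat_lit 272) (nat_lit 244)) (XT.lf (nat_lit 0) (nat_lit 568284004866) (nat_lit 76) (nat_lit 65543693545) (nat_lit 76) (nat_lit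 64191874831) (nat_lit 1) (nat_lit 4) (nat_lit 2) (nat_lit 5) (nat_lit 2) (nat_lit 4) (nat_lit 385) (nat_lit 272) (nat_lit 243))) (XT.nd (nat_lit 78) (nat_lit 0) (nat_lit 0) (XT.lf (nat_lit 0) (nat_lit 616631045573) (nat_lit 76) (nat_lit 69238511896) (nat_lit 76) (nat_lit 67874653815) (nat_lit 1) (nat_lit 4) (nat_lit 2) (nat_lit 5) (nat_lit 2) (nat_lit 4) (nat_lit 386) (nat_lit 272) (nat_lit 242)) (XT.lf (nat_lit 0) (nat_lit 668809251369) (nat_lit 76) (nat_lit 73247029150) (nat_lit 76) (nat_lit 71872023508) (nat_lit 1) (nat_lit 4) (nat_lit 2) (nat_lit 5) (nat_lit 2) (nat_lit 4) (nat_lit 387) (nat_lit 272) (nat_lit 241)))))))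
noncomputable def xc25 : XT := (XT.nd (nat_lit 1248) (nat_lit 0) (nat_lit 0) (XT.nd (nat_lit 624) (nat_lit 0) (nat_lit 0) (XT.nd (nat_lit 312) (nat_lit 0) (nat_lit 0) (XT.nd (nat_lit 156) (nat_lit 0) (nat_lit 0) (XT.nd (nat_lit 78) (nat_lit 0) (nat_lit 0) (XT.lf (nat_lit 0) (nat_lit 725127826437) (nat_lit 76) (nat_lit 77592999484) (nat_lit 76) (nat_lit 76207672025) (nat_lit 1) (nat_lit 4) (nat_lit 2) (nat_lit 5) (nat_lit 2) (nat_lit 4) (nat_lit 388) (nat_lit 272) (nat_lit 240)) (XT.lf (nat_lit 0) (nat_lit 785920510481) (nat_lit 76) (nat_lit 82302176795) (nat_lit 76) (nat_lit 80907292099) (nat_lit 1) (nat_lit 4) (nat_lit 2) (nat_lit 5) (nat_lit 2) (nat_lit 4) (nat_lit 389) (nat_lit 272) (nat_lit 239))) (XT.nd (nat_lit 78) (nat_lit 0) (nat_lit 0) (XT.lf (nat_lit 0) (nat_lit 851547556445) (nat_lit 76) (nat_lit 87402467320) (nat_lit 76) (nat_lit 85998733331) (nat_lit 1) (nat_lit 4) (nat_lit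 2) (nat_lit 5) (nat_lit 2) (nat_lit 4) (nat_lit 390) (nat_lit 272) (nat_lit 238)) (XT.lf (nat_lit 0) (nat_lit 922397865340) (nat_lit 76) (nat_lit 92924095003) (nat_lit 76) (nat_lit 91512167223) (nat_lit 1) (nat_lit 4) (nat_lit 2) (nat_lit 5) (nat_lit 2) (nat_lit 4) (nat_lit 391) (nat_lit 272) (nat_lit 237)))) (XT.nd (nat_lit 156) (nat_lit 0) (nat_lit 0) (XT.nd (nat_lit 78) (nat_lit 0) (nat_lit 0) (XT.lf (nat_lit 0) (nat_lit 998891290849) (nat_lit 76) (nat_lit 98899780599) (nat_lit 76) (nat_lit 97480265977) (nat_lit 1) (nat_lit 4) (nat_lit 2) (nat_lit 5) (nat_lit 2) (nat_lit 4) (nat_lit 392) (nat_lit 272) (nat_lit 236)) (XT.lf (nat_lit 0) (nat_lit 1081481127346) (nat_lit 76) (nat_lit 105364935580) (nat_lit 76) (nat_lit 103938396103) (nat_lit 1) (nat_lit 4) (nat_lit 2) (nat_lit 5) (nat_lit 2) (nat_lit 4) (nat_lit 393) (nat_lit 272) (nat_lit 235))) (XT.nd (nat_lit 78) (nat_lit 0) (nat_lit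 0) (XT.lf (nat_lit 0) (nat_lit 1170656796084) (nat_lit 76) (nat_lit 112357871975) (nat_lit 76) (nat_lit 110924828003) (nat_lit 1) (nat_lit 4) (nat_lit 2) (nat_lit 5) (nat_lit 2) (nat_lit 4) (nat_lit 394) (nat_lit 272) (nat_lit 234)) (XT.lf (nat_lit 0) (nat_lit 1266946745471) (nat_lit 76) (nat_lit 119920029407) (nat_lit 76) (nat_lit 118480962755) (nat_lit 1) (nat_lit 4) (nat_lit 2) (nat_lit 5) (nat_lit 2) (nat_lit 4) (nat_lit 395) (nat_lit 272) (nat_lit 233))))) (XT.nd (nat_lit 312) (nat_lit 0) (nat_lit 0) (XT.nd (nat_lit 156) (nat_lit 0) (nat_lit 0) (XT.nd (nat_lit 78) (nat_lit 0) (nat_lit 0) (XT.lf (nat_lit 0) (nat_lit 1370921582613) (nat_lit 76) (nat_lit 128096220661) (nat_lit 76) (nat_lit 126651577452) (nat_lit 1) (nat_lit 4) (nat_lit 2) (nat_lit 5) (nat_lit 2) (nat_lit 4) (nat_lit 396) (nat_lit 272) (nat_lit 232)) (XT.lf (nat_lit 0) (nat_lit 1483197454694) (nat_lit 76) (nat_lit 136934897240)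 (nat_lit 76) (nat_lit 135485090554) (nat_lit 1) (nat_lit 4) (nat_lit 2) (nat_lit 5) (nat_lit 2) (nat_lit 4) (nat_lit 397) (nat_lit 272) (nat_lit 231))) (XT.nd (nat_lit 78) (nat_lit 0) (nat_lit 0) (XT.lf (nat_lit 0) (nat_lit 1604439700215) (nat_lit 76) (nat_lit 146488436488) (nat_lit 76) (nat_lit 145033848803) (nat_lit 1) (nat_lit 4) (nat_lit 2) (nat_lit 5) (nat_lit 2) (nat_lit 4) (nat_lit 398) (nat_lit 272) (nat_lit 230)) (XT.lf (nat_lit 0) (nat_lit 1735366791742) (nat_lit 76) (nat_lit 156813451969) (nat_lit 76) (nat_lit 155354437434) (nat_lit 1) (nat_lit 4) (nat_lit 2) (nat_lit 5) (nat_lit 2) (nat_lit 4) (nat_lit 399) (nat_lit 272) (nat_lit 229)))) (XT.nd (nat_lit 156) (nat_lit 0) (nat_lit 0) (XT.nd (nat_lit 78) (nat_lit 0) (nat_lit 0) (XT.lf (nat_lit 0) (nat_lit 1876754593521) (nat_lit 76) (nat_lit 167971128962) (nat_lit 76) (nat_lit 166508015492) (nat_lit 1) (nat_lit 4) (nat_lit 2)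 (nat_lit 5) (nat_lit 2) (nat_lit 4) (nat_lit 400) (nat_lit 272) (nat_lit 228)) (XT.lf (nat_lit 0) (nat_lit 2029440959193) (nat_lit 76) (nat_lit 180027587033) (nat_lit 76) (nat_lit 178560678252) (nat_lit 1) (nat_lit 4) (nat_lit 2) (nat_lit 5) (nat_lit 2) (nat_lit 4) (nat_lit 401) (nat_lit 272) (nat_lit 227))) (XT.nd (nat_lit 78) (nat_lit 0) (nat_lit 0) (XT.lf (nat_lit 0) (nat_lit 2194330696849) (nat_lit 76) (nat_lit 193054271859) (nat_lit 76) (nat_lit 191583848902) (nat_lit 1) (nat_lit 4) (nat_lit 2) (nat_lit 5) (nat_lit 2) (nat_lit 4) (nat_lit 402) (nat_lit 272) (nat_lit 226)) (XT.lf (nat_lit 0) (nat_lit 2372400930863) (nat_lit 76) (nat_lit 207128378611) (nat_lit 76) (nat_lit 205654701787) (nat_lit 1) (nat_lit 4) (nat_lit 2) (nat_lit 5) (nat_lit 2) (nat_lit 4) (nat_lit 403) (nat_lit 272) (nat_lit 225)))))) (XT.nd (nat_lit 624) (nat_lit 0) (nat_lit 0) (XT.nd (nat_lit 312) (nat_lit 0) (nat_lit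 0) (XT.nd (nat_lit 156) (nat_lit 0) (nat_lit 0) (XT.nd (nat_lit 78) (nat_lit 0) (nat_lit 0) (XT.lf (nat_lit 0) (nat_lit 2564706892249) (nat_lit 76) (nat_lit 222333309402) (nat_lit 76) (nat_lit 220856619739) (nat_lit 1) (nat_lit 4) (nat_lit 2) (nat_lit 5) (nat_lit 2) (nat_lit 4) (nat_lit 404) (nat_lit 272) (nat_lit 224)) (XT.lf (nat_lit 0) (nat_lit 2772388171891) (nat_lit 76) (nat_lit 238759167526) (nat_lit 76) (nat_lit 237279688196) (nat_lit 1) (nat_lit 4) (nat_lit 2) (nat_lit 5) (nat_lit 2) (nat_lit 4) (nat_lit 405) (nat_lit 272) (nat_lit 223))) (XT.nd (nat_lit 78) (nat_lit 0) (nat_lit 0) (XT.lf (nat_lit 0) (nat_lit 2996675473667) (nat_lit 76) (nat_lit 256503291401) (nat_lit 76) (nat_lit 255021229047) (nat_lit 1) (nat_lit 4) (nat_lit 2) (nat_lit 5) (nat_lit 2) (nat_lit 4) (nat_lit 406) (nat_lit 272) (nat_lit 222)) (XT.lf (nat_lit 0) (nat_lit 3238897907514) (nat_lit 76) (nat_lit 275670831392)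 (nat_lit 76) (nat_lit 274186377348) (nat_lit 1) (nat_lit 4) (nat_lit 2) (nat_lit 5) (nat_lit 2) (nat_lit 4) (nat_lit 407) (nat_lit 272) (nat_lit 221)))) (XT.nd (nat_lit 156) (nat_lit 0) (nat_lit 0) (XT.nd (nat_lit 78) (nat_lit 0) (nat_lit 0) (XT.lf (nat_lit 0) (nat_lit 3500490865632) (nat_lit 76) (nat_lit 296375372919) (nat_lit 76) (nat_lit 294888704348) (nat_lit 1) (nat_lit 4) (nat_lit 2) (nat_lit 5) (nat_lit 2) (nat_lit 4) (nat_lit 408) (nat_lit 272) (nat_lit 220)) (XT.lf (nat_lit 0) (nat_lit 3783004528515) (nat_lit 76) (nat_lit 318739609563) (nat_lit 76) (nat_lit 317250890504) (nat_lit 1) (nat_lit 4) (nat_lit 2) (nat_lit 5) (nat_lit 2) (nat_lit 4) (nat_lit 409) (nat_lit 272) (nat_lit 219))) (XT.nd (nat_lit 78) (nat_lit 0) (nat_lit 0) (XT.lf (nat_lit 0) (nat_lit 4088113051201) (nat_lit 76) (nat_lit 342896070134) (nat_lit 76) (nat_lit 341405452475) (nat_lit 1) (nat_lit 4) (nat_lit 2)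 (nat_lit 5) (nat_lit 2) (nat_lit 4) (nat_lit 410) (nat_lit 272) (nat_lit 218)) (XT.lf (nat_lit 0) (nat_lit 4417624484196) (nat_lit 76) (nat_lit 368987904027) (nat_lit 76) (nat_lit 367495528405) (nat_lit 1) (nat_lit 4) (nat_lit 2) (nat_lit 5) (nat_lit 2) (nat_lit 4) (nat_lit 411) (nat_lit 272) (nat_lit 217))))) (XT.nd (nat_lit 42588) (nat_lit 0) (nat_lit 0) (XT.nd (nat_lit 42432) (nat_lit 0) (nat_lit 0) (XT.nd (nat_lit 42354) (nat_lit 0) (nat_lit 76) (XT.lf (nat_lit 0) (nat_lit 4773491487842) (nat_lit 76) (nat_lit 397169729517) (nat_lit 76) (nat_lit 395675726151) (nat_lit 1) (nat_lit 4) (nat_lit 2) (nat_lit 5) (nat_lit 2) (nat_lit 4) (nat_lit 412) (nat_lit 272) (nat_lit 216)) (XT.lf (nat_lit 0) (nat_lit 14490845291) (nat_lit 152) (nat_lit 4370381168) (nat_lit 0) (nat_lit 14490845291) (nat_lit 2) (nat_lit 5) (nat_lit 4) (nat_lit 4) (nat_lit 2) (nat_lit 4) (nat_lit 354) (nat_lit 273) (nat_lit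 273))) (XT.nd (nat_lit 78) (nat_lit 76) (nat_lit 0) (XT.lf (nat_lit 0) (nat_lit 34802633478) (nat_lit 152) (nat_lit 2264689292) (nat_lit 0) (nat_lit 34681485465) (nat_lit 2) (nat_lit 5) (nat_lit 4) (nat_lit 4) (nat_lit 2) (nat_lit 4) (nat_lit 355) (nat_lit 273) (nat_lit 272)) (XT.lf (nat_lit 0) (nat_lit 4610240288) (nat_lit 76) (nat_lit 36412739410) (nat_lit 76) (nat_lit 36179417312) (nat_lit 1) (nat_lit 4) (nat_lit 2) (nat_lit 5) (nat_lit 2) (nat_lit 4) (nat_lit 356) (nat_lit 273) (nat_lit 271)))) (XT.nd (nat_lit 156) (nat_lit 0) (nat_lit 0) (XT.nd (nat_lit 78) (nat_lit 0) (nat_lit 0) (XT.lf (nat_lit 0) (nat_lit 11822963941) (nat_lit 76) (nat_lit 35807682968) (nat_lit 76) (nat_lit 35470495975) (nat_lit 1) (nat_lit 4) (nat_lit 2) (nat_lit 5) (nat_lit 2) (nat_lit 4) (nat_lit 357) (nat_lit 273) (nat_lit 270)) (XT.lf (nat_lit 0) (nat_lit 19296969208) (nat_lit 76) (nat_lit 35310488542) (nat_lit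 76) (nat_lit 34877130350) (nat_lit 1) (nat_lit 4) (nat_lit 2) (nat_lit 5) (nat_lit 2) (nat_lit 4) (nat_lit 358) (nat_lit 273) (nat_lit 269))) (XT.nd (nat_lit 78) (nat_lit 0) (nat_lit 0) (XT.lf (nat_lit 0) (nat_lit 27076546490) (nat_lit 76) (nat_lit 34918209794) (nat_lit 76) (nat_lit 34395804196) (nat_lit 1) (nat_lit 4) (nat_lit 2) (nat_lit 5) (nat_lit 2) (nat_lit 4) (nat_lit 359) (nat_lit 273) (nat_lit 268)) (XT.nd (nat_lit 78) (nat_lit 0) (nat_lit 0) (XT.lf (nat_lit 0) (nat_lit 35207796986) (nat_lit 76) (nat_lit 34628522111) (nat_lit 76) (nat_lit 34023665211) (nat_lit 1) (nat_lit 4) (nat_lit 2) (nat_lit 5) (nat_lit 2) (nat_lit 4) (nat_lit 360) (nat_lit 273) (nat_lit 267)) (XT.lf (nat_lit 0) (nat_lit 43738905885) (nat_lit 76) (nat_lit 34439708823) (nat_lit 76) (nat_lit 33758508126) (nat_lit 1) (nat_lit 4) (nat_lit 2) (nat_lit 5) (nat_lit 2) (nat_lit 4) (nat_lit 361) (nat_lit 273) (nat_lit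 266))))))))
noncomputable def xc26 : XT := (XT.nd (nat_lit 1248) (nat_lit 0) (nat_lit 0) (XT.nd (nat_lit 624) (nat_lit 0) (nat_lit 0) (XT.nd (nat_lit 312) (nat_lit 0) (nat_lit 0) (XT.nd (nat_lit 156) (nat_lit 0) (nat_lit 0) (XT.nd (nat_lit 78) (nat_lit 0) (nat_lit 0) (XT.lf (nat_lit 0) (nat_lit 52720427905) (nat_lit 76) (nat_lit 34350651039) (nat_lit 76) (nat_lit 33598761639) (nat_lit 1) (nat_lit 4) (nat_lit 2) (nat_lit 5) (nat_lit 2) (nat_lit 4) (nat_lit 362) (nat_lit 273) (nat_lit 265)) (XT.lf (nat_lit 0) (nat_lit 62205586881) (nat_lit 76) (nat_lit 34360821007) (nat_lit 76) (nat_lit 33543479106) (nat_lit 1) (nat_lit 4) (nat_lit 2) (nat_lit 5) (nat_lit 2) (nat_lit 4) (nat_lit 363) (nat_lit 273) (nat_lit 264))) (XT.nd (nat_lit 78) (nat_lit 0) (nat_lit 0) (XT.lf (nat_lit 0) (nat_lit 72250591162) (nat_lit 76) (nat_lit 34470278995) (nat_lit 76) (nat_lit 33592332925) (nat_lit 1) (nat_lit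 4) (nat_lit 2) (nat_lit 5) (nat_lit 2) (nat_lit 4) (nat_lit 364) (nat_lit 273) (nat_lit 263)) (XT.lf (nat_lit 0) (nat_lit 82914966699) (nat_lit 76) (nat_lit 34679673641) (nat_lit 76) (nat_lit 33745612601) (nat_lit 1) (nat_lit 4) (nat_lit 2) (nat_lit 5) (nat_lit 2) (nat_lit 4) (nat_lit 365) (nat_lit 273) (nat_lit 262)))) (XT.nd (nat_lit 156) (nat_lit 0) (nat_lit 0) (XT.nd (nat_lit 78) (nat_lit 0) (nat_lit 0) (XT.lf (nat_lit 0) (nat_lit 94261909793) (nat_lit 76) (nat_lit 34990245805) (nat_lit 76) (nat_lit 34004226458) (nat_lit 1) (nat_lit 4) (nat_lit 2) (nat_lit 5) (nat_lit 2) (nat_lit 4) (nat_lit 366) (nat_lit 273) (nat_lit 261)) (XT.lf (nat_lit 0) (nat_lit 106358661586) (nat_lit 76) (nat_lit 35403835912) (nat_lit 76) (nat_lit 34369707023) (nat_lit 1) (nat_lit 4) (nat_lit 2) (nat_lit 5) (nat_lit 2) (nat_lit 4) (nat_lit 367) (nat_lit 273) (nat_lit 260))) (XT.nd (nat_lit 78) (nat_lit 0)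 (nat_lit 0) (XT.lf (nat_lit 0) (nat_lit 119276906536) (nat_lit 76) (nat_lit 35922894868) (nat_lit 76) (nat_lit 34844220106) (nat_lit 1) (nat_lit 4) (nat_lit 2) (nat_lit 5) (nat_lit 2) (nat_lit 4) (nat_lit 368) (nat_lit 273) (nat_lit 259)) (XT.lf (nat_lit 0) (nat_lit 133093197203) (nat_lit 76) (nat_lit 36550498577) (nat_lit 76) (nat_lit 35430577636) (nat_lit 1) (nat_lit 4) (nat_lit 2) (nat_lit 5) (nat_lit 2) (nat_lit 4) (nat_lit 369) (nat_lit 273) (nat_lit 258))))) (XT.nd (nat_lit 312) (nat_lit 0) (nat_lit 0) (XT.nd (nat_lit 156) (nat_lit 0) (nat_lit 0) (XT.nd (nat_lit 78) (nat_lit 0) (nat_lit 0) (XT.lf (nat_lit 0) (nat_lit 147889407903) (nat_lit 76) (nat_lit 37290366172) (nat_lit 76) (nat_lit 36132254325) (nat_lit 1) (nat_lit 4) (nat_lit 2) (nat_lit 5) (nat_lit 2) (nat_lit 4) (nat_lit 370) (nat_lit 273) (nat_lit 257)) (XT.lf (nat_lit 0) (nat_lit 163753219885) (nat_lit 76) (nat_lit 38146882054)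 (nat_lit 76) (nat_lit 36953408258) (nat_lit 1) (nat_lit 4) (nat_lit 2) (nat_lit 5) (nat_lit 2) (nat_lit 4) (nat_lit 371) (nat_lit 273) (nat_lit 256))) (XT.nd (nat_lit 78) (nat_lit 0) (nat_lit 0) (XT.lf (nat_lit 0) (nat_lit 180778640924) (nat_lit 76) (nat_lit 39125121873) (nat_lit 76) (nat_lit 37898905530) (nat_lit 1) (nat_lit 4) (nat_lit 2) (nat_lit 5) (nat_lit 2) (nat_lit 4) (nat_lit 372) (nat_lit 273) (nat_lit 255)) (XT.lf (nat_lit 0) (nat_lit 199066562402) (nat_lit 76) (nat_lit 40230882606) (nat_lit 76) (nat_lit 38974349090) (nat_lit 1) (nat_lit 4) (nat_lit 2) (nat_lit 5) (nat_lit 2) (nat_lit 4) (nat_lit 373) (nat_lit 273) (nat_lit 254)))) (XT.nd (nat_lit 156) (nat_lit 0) (nat_lit 0) (XT.nd (nat_lit 78) (nat_lit 0) (nat_lit 0) (XT.lf (nat_lit 0) (nat_lit 218725357189) (nat_lit 76) (nat_lit 41470716908) (nat_lit 76) (nat_lit 40186111936) (nat_lit 1) (nat_lit 4) (nat_lit 2) (nat_lit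 5) (nat_lit 2) (nat_lit 4) (nat_lit 374) (nat_lit 273) (nat_lit 253)) (XT.lf (nat_lit 0) (nat_lit 239871521846) (nat_lit 76) (nat_lit 42851971945) (nat_lit 76) (nat_lit 41541374885) (nat_lit 1) (nat_lit 4) (nat_lit 2) (nat_lit 5) (nat_lit 2) (nat_lit 4) (nat_lit 375) (nat_lit 273) (nat_lit 252))) (XT.nd (nat_lit 78) (nat_lit 0) (nat_lit 0) (XT.lf (nat_lit 0) (nat_lit 262630366979) (nat_lit 76) (nat_lit 44382832934) (nat_lit 76) (nat_lit 43048169124) (nat_lit 1) (nat_lit 4) (nat_lit 2) (nat_lit 5) (nat_lit 2) (nat_lit 4) (nat_lit 376) (nat_lit 273) (nat_lit 251)) (XT.lf (nat_lit 0) (nat_lit 287136759817) (nat_lit 76) (nat_lit 46072371642) (nat_lit 76) (nat_lit 44715423805) (nat_lit 1) (nat_lit 4) (nat_lit 2) (nat_lit 5) (nat_lit 2) (nat_lit 4) (nat_lit 377) (nat_lit 273) (nat_lit 250)))))) (XT.nd (nat_lit 624) (nat_lit 0) (nat_lit 0) (XT.nd (nat_lit 312) (nat_lit 0) (nat_lit 0) (XT.nd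 (nat_lit 156) (nat_lit 0) (nat_lit 0) (XT.nd (nat_lit 78) (nat_lit 0) (nat_lit 0) (XT.lf (nat_lit 0) (nat_lit 313535923430) (nat_lit 76) (nat_lit 47930600151) (nat_lit 76) (nat_lit 46553018956) (nat_lit 1) (nat_lit 4) (nat_lit 2) (nat_lit 5) (nat_lit 2) (nat_lit 4) (nat_lit 378) (nat_lit 273) (nat_lit 249)) (XT.lf (nat_lit 0) (nat_lit 341984297306) (nat_lit 76) (nat_lit 49968530185) (nat_lit 76) (nat_lit 48571844029) (nat_lit 1) (nat_lit 4) (nat_lit 2) (nat_lit 5) (nat_lit 2) (nat_lit 4) (nat_lit 379) (nat_lit 273) (nat_lit 248))) (XT.nd (nat_lit 78) (nat_lit 0) (nat_lit 0) (XT.lf (nat_lit 0) (nat_lit 372650464400) (nat_lit 76) (nat_lit 52198238368) (nat_lit 76) (nat_lit 50783862432) (nat_lit 1) (nat_lit 4) (nat_lit 2) (nat_lit 5) (nat_lit 2) (nat_lit 4) (nat_lit 380) (nat_lit 273) (nat_lit 247)) (XT.lf (nat_lit 0) (nat_lit 405716150148) (nat_lit 76) (nat_lit 54632937783) (nat_lit 76)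 (nat_lit 53202182423) (nat_lit 1) (nat_lit 4) (nat_lit 2) (nat_lit 5) (nat_lit 2) (nat_lit 4) (nat_lit 381) (nat_lit 273) (nat_lit 246)))) (XT.nd (nat_lit 156) (nat_lit 0) (nat_lit 0) (XT.nd (nat_lit 78) (nat_lit 0) (nat_lit 0) (XT.lf (nat_lit 0) (nat_lit 441377299353) (nat_lit 76) (nat_lit 57287056280) (nat_lit 76) (nat_lit 55841134786) (nat_lit 1) (nat_lit 4) (nat_lit 2) (nat_lit 5) (nat_lit 2) (nat_lit 4) (nat_lit 382) (nat_lit 273) (nat_lit 245)) (XT.lf (nat_lit 0) (nat_lit 479845237346) (nat_lit 76) (nat_lit 60176321969) (nat_lit 76) (nat_lit 58716357757) (nat_lit 1) (nat_lit 4) (nat_lit 2) (nat_lit 5) (nat_lit 2) (nat_lit 4) (nat_lit 383) (nat_lit 273) (nat_lit 244))) (XT.nd (nat_lit 78) (nat_lit 0) (nat_lit 0) (XT.lf (nat_lit 0) (nat_lit 521347922276) (nat_lit 76) (nat_lit 63317856423) (nat_lit 76) (nat_lit 61844889696) (nat_lit 1) (nat_lit 4) (nat_lit 2) (nat_lit 5) (nat_lit 2)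 (nat_lit 4) (nat_lit 384) (nat_lit 273) (nat_lit 243)) (XT.lf (nat_lit 0) (nat_lit 566131295980) (nat_lit 76) (nat_lit 66730276143) (nat_lit 76) (nat_lit 65245270050) (nat_lit 1) (nat_lit 4) (nat_lit 2) (nat_lit 5) (nat_lit 2) (nat_lit 4) (nat_lit 385) (nat_lit 273) (nat_lit 242))))) (XT.nd (nat_lit 312) (nat_lit 0) (nat_lit 0) (XT.nd (nat_lit 156) (nat_lit 0) (nat_lit 0) (XT.nd (nat_lit 78) (nat_lit 0) (nat_lit 0) (XT.lf (nat_lit 0) (nat_lit 614460741414) (nat_lit 76) (nat_lit 70433802877) (nat_lit 76) (nat_lit 68937649222) (nat_lit 1) (nat_lit 4) (nat_lit 2) (nat_lit 5) (nat_lit 2) (nat_lit 4) (nat_lit 386) (nat_lit 273) (nat_lit 241)) (XT.lf (nat_lit 0) (nat_lit 666622655291) (nat_lit 76) (nat_lit 74450383448) (nat_lit 76) (nat_lit 72943907977) (nat_lit 1) (nat_lit 4) (nat_lit 2) (nat_lit 5) (nat_lit 2) (nat_lit 4) (nat_lit 387) (nat_lit 273) (nat_lit 240))) (XT.nd (nat_lit 78) (nat_lit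 0) (nat_lit 0) (XT.lf (nat_lit 0) (nat_lit 722926145249) (nat_lit 76) (nat_lit 78803819815) (nat_lit 76) (nat_lit 77287787107) (nat_lit 1) (nat_lit 4) (nat_lit 2) (nat_lit 5) (nat_lit 2) (nat_lit 4) (nat_lit 388) (nat_lit 273) (nat_lit 239)) (XT.lf (nat_lit 0) (nat_lit 783704861599) (nat_lit 76) (nat_lit 83519910121) (nat_lit 76) (nat_lit 81995028119) (nat_lit 1) (nat_lit 4) (nat_lit 2) (nat_lit 5) (nat_lit 2) (nat_lit 4) (nat_lit 389) (nat_lit 273) (nat_lit 238)))) (XT.nd (nat_lit 156) (nat_lit 0) (nat_lit 0) (XT.nd (nat_lit 78) (nat_lit 0) (nat_lit 0) (XT.lf (nat_lit 0) (nat_lit 849318974511) (nat_lit 76) (nat_lit 88626601567) (nat_lit 76) (nat_lit 87093525775) (nat_lit 1) (nat_lit 4) (nat_lit 2) (nat_lit 5) (nat_lit 2) (nat_lit 4) (nat_lit 390) (nat_lit 273) (nat_lit 237)) (XT.lf (nat_lit 0) (nat_lit 920157308360) (nat_lit 76) (nat_lit 94154156029) (nat_lit 76) (nat_lit 92613493393)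 (nat_lit 1) (nat_lit 4) (nat_lit 2) (nat_lit 5) (nat_lit 2) (nat_lit 4) (nat_lit 391) (nat_lit 273) (nat_lit 236))) (XT.nd (nat_lit 78) (nat_lit 0) (nat_lit 0) (XT.lf (nat_lit 0) (nat_lit 996639645863) (nat_lit 76) (nat_lit 100135329383) (nat_lit 76) (nat_lit 98587641893) (nat_lit 1) (nat_lit 4) (nat_lit 2) (nat_lit 5) (nat_lit 2) (nat_lit 4) (nat_lit 392) (nat_lit 273) (nat_lit 235)) (XT.nd (nat_lit 78) (nat_lit 0) (nat_lit 0) (XT.lf (nat_lit 0) (nat_lit 1079219215687) (nat_lit 76) (nat_lit 106605565622) (nat_lit 76) (nat_lit 105051373637) (nat_lit 1) (nat_lit 4) (nat_lit 2) (nat_lit 5) (nat_lit 2) (nat_lit 4) (nat_lit 393) (nat_lit 273) (nat_lit 234)) (XT.lf (nat_lit 0) (nat_lit 1168385378247) (nat_lit 76) (nat_lit 113603206885) (nat_lit 76) (nat_lit 112042992219) (nat_lit 1) (nat_lit 4) (nat_lit 2) (nat_lit 5) (nat_lit 2) (nat_lit 4) (nat_lit 394) (nat_lit 273) (nat_lit 233))))))))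
noncomputable def xc27 : XT := (XT.nd (nat_lit 1248) (nat_lit 0) (nat_lit 0) (XT.nd (nat_lit 624) (nat_lit 0) (nat_lit 0) (XT.nd (nat_lit 312) (nat_lit 0) (nat_lit 0) (XT.nd (nat_lit 156) (nat_lit 0) (nat_lit 0) (XT.nd (nat_lit 78) (nat_lit 0) (nat_lit 0) (XT.lf (nat_lit 0) (nat_lit 1264666525617) (nat_lit 76) (nat_lit 121169720676) (nat_lit 76) (nat_lit 119603929454) (nat_lit 1) (nat_lit 4) (nat_lit 2) (nat_lit 5) (nat_lit 2) (nat_lit 4) (nat_lit 395) (nat_lit 273) (nat_lit 232)) (XT.lf (nat_lit 0) (nat_lit 1368633212743) (nat_lit 76) (nat_lit 129349945596) (nat_lit 76) (nat_lit 127778990896) (nat_lit 1) (nat_lit 4) (nat_lit 2) (nat_lit 5) (nat_lit 2) (nat_lit 4) (nat_lit 396) (nat_lit 273) (nat_lit 231))) (XT.nd (nat_lit 78) (nat_lit 0) (nat_lit 0) (XT.lf (nat_lit 0) (nat_lit 1480901538513) (nat_lit 76) (nat_lit 138192357051) (nat_lit 76) (nat_lit 136616621353) (nat_lit 1) (nat_lit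 4) (nat_lit 2) (nat_lit 5) (nat_lit 2) (nat_lit 4) (nat_lit 397) (nat_lit 273) (nat_lit 230)) (XT.lf (nat_lit 0) (nat_lit 1602136796709) (nat_lit 76) (nat_lit 147749354517) (nat_lit 76) (nat_lit 146169191969) (nat_lit 1) (nat_lit 4) (nat_lit 2) (nat_lit 5) (nat_lit 2) (nat_lit 4) (nat_lit 398) (nat_lit 273) (nat_lit 229)))) (XT.nd (nat_lit 156) (nat_lit 0) (nat_lit 0) (XT.nd (nat_lit 78) (nat_lit 0) (nat_lit 0) (XT.lf (nat_lit 0) (nat_lit 1733057418491) (nat_lit 76) (nat_lit 158077572052) (nat_lit 76) (nat_lit 156493310569) (nat_lit 1) (nat_lit 4) (nat_lit 2) (nat_lit 5) (nat_lit 2) (nat_lit 4) (nat_lit 399) (nat_lit 273) (nat_lit 228)) (XT.lf (nat_lit 0) (nat_lit 1874439229766) (nat_lit 76) (nat_lit 169238213910) (nat_lit 76) (nat_lit 167650157116) (nat_lit 1) (nat_lit 4) (nat_lit 2) (nat_lit 5) (nat_lit 2) (nat_lit 4) (nat_lit 400) (nat_lit 273) (nat_lit 227))) (XT.nd (nat_lit 78) (nat_lit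 0) (nat_lit 0) (XT.lf (nat_lit 0) (nat_lit 2027120048674) (nat_lit 76) (nat_lit 181297417226) (nat_lit 76) (nat_lit 179705846256) (nat_lit 1) (nat_lit 4) (nat_lit 2) (nat_lit 5) (nat_lit 2) (nat_lit 4) (nat_lit 401) (nat_lit 273) (nat_lit 226)) (XT.lf (nat_lit 0) (nat_lit 2192004650438) (nat_lit 76) (nat_lit 194326643946) (nat_lit 76) (nat_lit 192731819110) (nat_lit 1) (nat_lit 4) (nat_lit 2) (nat_lit 5) (nat_lit 2) (nat_lit 4) (nat_lit 402) (nat_lit 273) (nat_lit 225))))) (XT.nd (nat_lit 312) (nat_lit 0) (nat_lit 0) (XT.nd (nat_lit 156) (nat_lit 0) (nat_lit 0) (XT.nd (nat_lit 78) (nat_lit 0) (nat_lit 0) (XT.lf (nat_lit 0) (nat_lit 2370070128996) (nat_lit 76) (nat_lit 208403104303) (nat_lit 76) (nat_lit 206805266627) (nat_lit 1) (nat_lit 4) (nat_lit 2) (nat_lit 5) (nat_lit 2) (nat_lit 4) (nat_lit 403) (nat_lit 273) (nat_lit 224)) (XT.lf (nat_lit 0) (nat_lit 2562371687182) (nat_lit 76)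 (nat_lit 223610214359) (nat_lit 76) (nat_lit 222009587016) (nat_lit 1) (nat_lit 4) (nat_lit 2) (nat_lit 5) (nat_lit 2) (nat_lit 4) (nat_lit 404) (nat_lit 273) (nat_lit 223))) (XT.nd (nat_lit 78) (nat_lit 0) (nat_lit 0) (XT.lf (nat_lit 0) (nat_lit 2770048889787) (nat_lit 76) (nat_lit 240038090320) (nat_lit 76) (nat_lit 238434879953) (nat_lit 1) (nat_lit 4) (nat_lit 2) (nat_lit 5) (nat_lit 2) (nat_lit 4) (nat_lit 405) (nat_lit 273) (nat_lit 222)) (XT.lf (nat_lit 0) (nat_lit 2994332416529) (nat_lit 76) (nat_lit 257784082563) (nat_lit 76) (nat_lit 256178480506) (nat_lit 1) (nat_lit 4) (nat_lit 2) (nat_lit 5) (nat_lit 2) (nat_lit 4) (nat_lit 406) (nat_lit 273) (nat_lit 221)))) (XT.nd (nat_lit 156) (nat_lit 0) (nat_lit 0) (XT.nd (nat_lit 78) (nat_lit 0) (nat_lit 0) (XT.lf (nat_lit 0) (nat_lit 3236551354974) (nat_lit 76) (nat_lit 276953352523) (nat_lit 76) (nat_lit 275345535940) (nat_lit 1)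 (nat_lit 4) (nat_lit 2) (nat_lit 5) (nat_lit 2) (nat_lit 4) (nat_lit 407) (nat_lit 273) (nat_lit 220)) (XT.lf (nat_lit 0) (nat_lit 3498141076609) (nat_lit 76) (nat_lit 297659495875) (nat_lit 76) (nat_lit 296049628803) (nat_lit 1) (nat_lit 4) (nat_lit 2) (nat_lit 5) (nat_lit 2) (nat_lit 4) (nat_lit 408) (nat_lit 273) (nat_lit 219))) (XT.nd (nat_lit 78) (nat_lit 0) (nat_lit 0) (XT.lf (nat_lit 0) (nat_lit 3780651742748) (nat_lit 76) (nat_lit 320025215690) (nat_lit 76) (nat_lit 318413450018) (nat_lit 1) (nat_lit 4) (nat_lit 2) (nat_lit 5) (nat_lit 2) (nat_lit 4) (nat_lit 409) (nat_lit 273) (nat_lit 218)) (XT.lf (nat_lit 0) (nat_lit 4085757490671) (nat_lit 76) (nat_lit 344183049566) (nat_lit 76) (nat_lit 342569525932) (nat_lit 1) (nat_lit 4) (nat_lit 2) (nat_lit 5) (nat_lit 2) (nat_lit 4) (nat_lit 410) (nat_lit 273) (nat_lit 217)))))) (XT.nd (nat_lit 42822) (nat_lit 0) (nat_lit 0) (XT.nd (nat_lit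 42510) (nat_lit 0) (nat_lit 0) (XT.nd (nat_lit 42354) (nat_lit 0) (nat_lit 76) (XT.nd (nat_lit 42276) (nat_lit 0) (nat_lit 76) (XT.lf (nat_lit 0) (nat_lit 4415266354441) (nat_lit 76) (nat_lit 370276155039) (nat_lit 76) (nat_lit 368661003661) (nat_lit 1) (nat_lit 4) (nat_lit 2) (nat_lit 5) (nat_lit 2) (nat_lit 4) (nat_lit 411) (nat_lit 273) (nat_lit 216)) (XT.lf (nat_lit 0) (nat_lit 9149546177) (nat_lit 152) (nat_lit 10572379268) (nat_lit 0) (nat_lit 9149546177) (nat_lit 2) (nat_lit 5) (nat_lit 4) (nat_lit 4) (nat_lit 2) (nat_lit 4) (nat_lit 352) (nat_lit 274) (nat_lit 274))) (XT.nd (nat_lit 78) (nat_lit 0) (nat_lit 0) (XT.lf (nat_lit 0) (nat_lit 23545620002) (nat_lit 152) (nat_lit 15086978465) (nat_lit 0) (nat_lit 23414780148) (nat_lit 2) (nat_lit 5) (nat_lit 4) (nat_lit 4) (nat_lit 2) (nat_lit 4) (nat_lit 353) (nat_lit 274) (nat_lit 273)) (XT.lf (nat_lit 0) (nat_lit 29020549488) (nat_lit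 152) (nat_lit 8922416362) (nat_lit 0) (nat_lit 28768561621) (nat_lit 2) (nat_lit 5) (nat_lit 4) (nat_lit 4) (nat_lit 2) (nat_lit 4) (nat_lit 354) (nat_lit 274) (nat_lit 272)))) (XT.nd (nat_lit 156) (nat_lit 0) (nat_lit 0) (XT.nd (nat_lit 78) (nat_lit 76) (nat_lit 0) (XT.lf (nat_lit 0) (nat_lit 34756324837) (nat_lit 152) (nat_lit 2614541490) (nat_lit 0) (nat_lit 34392162884) (nat_lit 2) (nat_lit 5) (nat_lit 4) (nat_lit 4) (nat_lit 2) (nat_lit 4) (nat_lit 355) (nat_lit 274) (nat_lit 271)) (XT.lf (nat_lit 0) (nat_lit 4078025502) (nat_lit 76) (nat_lit 36806986938) (nat_lit 76) (nat_lit 36338960091) (nat_lit 1) (nat_lit 4) (nat_lit 2) (nat_lit 5) (nat_lit 2) (nat_lit 4) (nat_lit 356) (nat_lit 274) (nat_lit 270))) (XT.nd (nat_lit 78) (nat_lit 0) (nat_lit 0) (XT.lf (nat_lit 0) (nat_lit 11138952868) (nat_lit 76) (nat_lit 36277058636) (nat_lit 76) (nat_lit 35712860590) (nat_lit 1) (nat_lit 4)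 (nat_lit 2) (nat_lit 5) (nat_lit 2) (nat_lit 4) (nat_lit 357) (nat_lit 274) (nat_lit 269)) (XT.lf (nat_lit 0) (nat_lit 18472406016) (nat_lit 76) (nat_lit 35849427302) (nat_lit 76) (nat_lit 35196181851) (nat_lit 1) (nat_lit 4) (nat_lit 2) (nat_lit 5) (nat_lit 2) (nat_lit 4) (nat_lit 358) (nat_lit 274) (nat_lit 268))))) (XT.nd (nat_lit 312) (nat_lit 0) (nat_lit 0) (XT.nd (nat_lit 156) (nat_lit 0) (nat_lit 0) (XT.nd (nat_lit 78) (nat_lit 0) (nat_lit 0) (XT.lf (nat_lit 0) (nat_lit 26121842448) (nat_lit 76) (nat_lit 35521558826) (nat_lit 76) (nat_lit 34785862072) (nat_lit 1) (nat_lit 4) (nat_lit 2) (nat_lit 5) (nat_lit 2) (nat_lit 4) (nat_lit 359) (nat_lit 274) (nat_lit 267)) (XT.lf (nat_lit 0) (nat_lit 34132592157) (nat_lit 76) (nat_lit 35291510282) (nat_lit 76) (nat_lit 34479469731) (nat_lit 1) (nat_lit 4) (nat_lit 2) (nat_lit 5) (nat_lit 2) (nat_lit 4) (nat_lit 360) (nat_lit 274) (nat_lit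 266))) (XT.nd (nat_lit 78) (nat_lit 0) (nat_lit 0) (XT.lf (nat_lit 0) (nat_lit 42552126252) (nat_lit 76) (nat_lit 35157918421) (nat_lit 76) (nat_lit 34275189167) (nat_lit 1) (nat_lit 4) (nat_lit 2) (nat_lit 5) (nat_lit 2) (nat_lit 4) (nat_lit 361) (nat_lit 274) (nat_lit 265)) (XT.lf (nat_lit 0) (nat_lit 51430338269) (nat_lit 76) (nat_lit 35119991586) (nat_lit 76) (nat_lit 34171809831) (nat_lit 1) (nat_lit 4) (nat_lit 2) (nat_lit 5) (nat_lit 2) (nat_lit 4) (nat_lit 362) (nat_lit 274) (nat_lit 264)))) (XT.nd (nat_lit 156) (nat_lit 0) (nat_lit 0) (XT.nd (nat_lit 78) (nat_lit 0) (nat_lit 0) (XT.lf (nat_lit 0) (nat_lit 60819839835) (nat_lit 76) (nat_lit 35177505026) (nat_lit 76) (nat_lit 34168719103) (nat_lit 1) (nat_lit 4) (nat_lit 2) (nat_lit 5) (nat_lit 2) (nat_lit 4) (nat_lit 363) (nat_lit 274) (nat_lit 263)) (XT.lf (nat_lit 0) (nat_lit 70776272440) (nat_lit 76) (nat_lit 35330799562) (nat_lit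 76) (nat_lit 34265898668) (nat_lit 1) (nat_lit 4) (nat_lit 2) (nat_lit 5) (nat_lit 2) (nat_lit 4) (nat_lit 364) (nat_lit 274) (nat_lit 262))) (XT.nd (nat_lit 78) (nat_lit 0) (nat_lit 0) (XT.lf (nat_lit 0) (nat_lit 81358637167) (nat_lit 76) (nat_lit 35580783605) (nat_lit 76) (nat_lit 34463924405) (nat_lit 1) (nat_lit 4) (nat_lit 2) (nat_lit 5) (nat_lit 2) (nat_lit 4) (nat_lit 365) (nat_lit 274) (nat_lit 261)) (XT.nd (nat_lit 78) (nat_lit 0) (nat_lit 0) (XT.lf (nat_lit 0) (nat_lit 92629644324) (nat_lit 76) (nat_lit 35928938543) (nat_lit 76) (nat_lit 34763969800) (nat_lit 1) (nat_lit 4) (nat_lit 2) (nat_lit 5) (nat_lit 2) (nat_lit 4) (nat_lit 366) (nat_lit 274) (nat_lit 260)) (XT.lf (nat_lit 0) (nat_lit 104656085066) (nat_lit 76) (nat_lit 36377327515) (nat_lit 76) (nat_lit 35167812900) (nat_lit 1) (nat_lit 4) (nat_lit 2) (nat_lit 5) (nat_lit 2) (nat_lit 4) (nat_lit 367) (nat_lit 274) (nat_lit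 259))))))))
noncomputable def xc28 : XT := (XT.nd (nat_lit 1248) (nat_lit 0) (nat_lit 0) (XT.nd (nat_lit 624) (nat_lit 0) (nat_lit 0) (XT.nd (nat_lit 312) (nat_lit 0) (nat_lit 0) (XT.nd (nat_lit 156) (nat_lit 0) (nat_lit 0) (XT.nd (nat_lit 78) (nat_lit 0) (nat_lit 0) (XT.lf (nat_lit 0) (nat_lit 117509227189) (nat_lit 76) (nat_lit 36928607643) (nat_lit 76) (nat_lit 35677846848) (nat_lit 1) (nat_lit 4) (nat_lit 2) (nat_lit 5) (nat_lit 2) (nat_lit 4) (nat_lit 368) (nat_lit 274) (nat_lit 258)) (XT.lf (nat_lit 0) (nat_lit 131265237462) (nat_lit 76) (nat_lit 37586045770) (nat_lit 76) (nat_lit 36297094069) (nat_lit 1) (nat_lit 4) (nat_lit 2) (nat_lit 5) (nat_lit 2) (nat_lit 4) (nat_lit 369) (nat_lit 274) (nat_lit 257))) (XT.nd (nat_lit 78) (nat_lit 0) (nat_lit 0) (XT.lf (nat_lit 0) (nat_lit 146005632982) (nat_lit 76) (nat_lit 38353537826) (nat_lit 76) (nat_lit 37029224176) (nat_lit 1) (nat_lit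 4) (nat_lit 2) (nat_lit 5) (nat_lit 2) (nat_lit 4) (nat_lit 370) (nat_lit 274) (nat_lit 256)) (XT.lf (nat_lit 0) (nat_lit 161817764242) (nat_lit 76) (nat_lit 39235631914) (nat_lit 76) (nat_lit 37878575717) (nat_lit 1) (nat_lit 4) (nat_lit 2) (nat_lit 5) (nat_lit 2) (nat_lit 4) (nat_lit 371) (nat_lit 274) (nat_lit 255)))) (XT.nd (nat_lit 156) (nat_lit 0) (nat_lit 0) (XT.nd (nat_lit 78) (nat_lit 0) (nat_lit 0) (XT.lf (nat_lit 0) (nat_lit 178795332760) (nat_lit 76) (nat_lit 40237555256) (nat_lit 76) (nat_lit 38850181886) (nat_lit 1) (nat_lit 4) (nat_lit 2) (nat_lit 5) (nat_lit 2) (nat_lit 4) (nat_lit 372) (nat_lit 274) (nat_lit 254)) (XT.lf (nat_lit 0) (nat_lit 197038946349) (nat_lit 76) (nat_lit 41365245176) (nat_lit 76) (nat_lit 39949800350) (nat_lit 1) (nat_lit 4) (nat_lit 2) (nat_lit 5) (nat_lit 2) (nat_lit 4) (nat_lit 373) (nat_lit 274) (nat_lit 253))) (XT.nd (nat_lit 78) (nat_lit 0)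 (nat_lit 0) (XT.lf (nat_lit 0) (nat_lit 216656715313) (nat_lit 76) (nat_lit 42625384282) (nat_lit 76) (nat_lit 41183947367) (nat_lit 1) (nat_lit 4) (nat_lit 2) (nat_lit 5) (nat_lit 2) (nat_lit 4) (nat_lit 374) (nat_lit 274) (nat_lit 252)) (XT.lf (nat_lit 0) (nat_lit 237764893096) (nat_lit 76) (nat_lit 44025440063) (nat_lit 76) (nat_lit 42559936400) (nat_lit 1) (nat_lit 4) (nat_lit 2) (nat_lit 5) (nat_lit 2) (nat_lit 4) (nat_lit 375) (nat_lit 274) (nat_lit 251))))) (XT.nd (nat_lit 312) (nat_lit 0) (nat_lit 0) (XT.nd (nat_lit 156) (nat_lit 0) (nat_lit 0) (XT.nd (nat_lit 78) (nat_lit 0) (nat_lit 0) (XT.lf (nat_lit 0) (nat_lit 260488565198) (nat_lit 76) (nat_lit 45573709148) (nat_lit 76) (nat_lit 44085921458) (nat_lit 1) (nat_lit 4) (nat_lit 2) (nat_lit 5) (nat_lit 2) (nat_lit 4) (nat_lit 376) (nat_lit 274) (nat_lit 250)) (XT.lf (nat_lit 0) (nat_lit 284962390415) (nat_lit 76) (nat_lit 47279366464)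 (nat_lit 76) (nat_lit 45770945415) (nat_lit 1) (nat_lit 4) (nat_lit 2) (nat_lit 5) (nat_lit 2) (nat_lit 4) (nat_lit 377) (nat_lit 274) (nat_lit 249))) (XT.nd (nat_lit 78) (nat_lit 0) (nat_lit 0) (XT.lf (nat_lit 0) (nat_lit 311331398822) (nat_lit 76) (nat_lit 49152519610) (nat_lit 76) (nat_lit 47624993600) (nat_lit 1) (nat_lit 4) (nat_lit 2) (nat_lit 5) (nat_lit 2) (nat_lit 4) (nat_lit 378) (nat_lit 274) (nat_lit 248)) (XT.lf (nat_lit 0) (nat_lit 339751851212) (nat_lit 76) (nat_lit 51204268753) (nat_lit 76) (nat_lit 49659052964) (nat_lit 1) (nat_lit 4) (nat_lit 2) (nat_lit 5) (nat_lit 2) (nat_lit 4) (nat_lit 379) (nat_lit 274) (nat_lit 247)))) (XT.nd (nat_lit 156) (nat_lit 0) (nat_lit 0) (XT.nd (nat_lit 78) (nat_lit 0) (nat_lit 0) (XT.lf (nat_lit 0) (nat_lit 370392165078) (nat_lit 76) (nat_lit 53446772405) (nat_lit 76) (nat_lit 51885177191) (nat_lit 1) (nat_lit 4) (nat_lit 2) (nat_lit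 5) (nat_lit 2) (nat_lit 4) (nat_lit 380) (nat_lit 274) (nat_lit 246)) (XT.lf (nat_lit 0) (nat_lit 403433912652) (nat_lit 76) (nat_lit 55893319479) (nat_lit 76) (nat_lit 54316558130) (nat_lit 1) (nat_lit 4) (nat_lit 2) (nat_lit 5) (nat_lit 2) (nat_lit 4) (nat_lit 381) (nat_lit 274) (nat_lit 245))) (XT.nd (nat_lit 78) (nat_lit 0) (nat_lit 0) (XT.lf (nat_lit 0) (nat_lit 439072896882) (nat_lit 76) (nat_lit 58558408030) (nat_lit 76) (nat_lit 56967603964) (nat_lit 1) (nat_lit 4) (nat_lit 2) (nat_lit 5) (nat_lit 2) (nat_lit 4) (nat_lit 382) (nat_lit 274) (nat_lit 244)) (XT.lf (nat_lit 0) (nat_lit 477520311748) (nat_lit 76) (nat_lit 61457831175) (nat_lit 76) (nat_lit 59854024594) (nat_lit 1) (nat_lit 4) (nat_lit 2) (nat_lit 5) (nat_lit 2) (nat_lit 4) (nat_lit 383) (nat_lit 274) (nat_lit 243)))))) (XT.nd (nat_lit 624) (nat_lit 0) (nat_lit 0) (XT.nd (nat_lit 312) (nat_lit 0) (nat_lit 0) (XT.nd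 (nat_lit 156) (nat_lit 0) (nat_lit 0) (XT.nd (nat_lit 78) (nat_lit 0) (nat_lit 0) (XT.lf (nat_lit 0) (nat_lit 519003993784) (nat_lit 76) (nat_lit 64608770682) (nat_lit 76) (nat_lit 62992924735) (nat_lit 1) (nat_lit 4) (nat_lit 2) (nat_lit 5) (nat_lit 2) (nat_lit 4) (nat_lit 384) (nat_lit 274) (nat_lit 242)) (XT.lf (nat_lit 0) (nat_lit 563769772216) (nat_lit 76) (nat_lit 68029898785) (nat_lit 76) (nat_lit 66402905276) (nat_lit 1) (nat_lit 4) (nat_lit 2) (nat_lit 5) (nat_lit 2) (nat_lit 4) (nat_lit 385) (nat_lit 274) (nat_lit 241))) (XT.nd (nat_lit 78) (nat_lit 0) (nat_lit 0) (XT.lf (nat_lit 0) (nat_lit 612082925731) (nat_lit 76) (nat_lit 71741488835) (nat_lit 76) (nat_lit 70104173510) (nat_lit 1) (nat_lit 4) (nat_lit 2) (nat_lit 5) (nat_lit 2) (nat_lit 4) (nat_lit 386) (nat_lit 274) (nat_lit 240)) (XT.lf (nat_lit 0) (nat_lit 664229754497) (nat_lit 76) (nat_lit 75765535440) (nat_lit 76)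 (nat_lit 74118662878) (nat_lit 1) (nat_lit 4) (nat_lit 2) (nat_lit 5) (nat_lit 2) (nat_lit 4) (nat_lit 387) (nat_lit 274) (nat_lit 239)))) (XT.nd (nat_lit 156) (nat_lit 0) (nat_lit 0) (XT.nd (nat_lit 78) (nat_lit 0) (nat_lit 0) (XT.lf (nat_lit 0) (nat_lit 720519276761) (nat_lit 76) (nat_lit 80125884803) (nat_lit 76) (nat_lit 78470162947) (nat_lit 1) (nat_lit 4) (nat_lit 2) (nat_lit 5) (nat_lit 2) (nat_lit 4) (nat_lit 388) (nat_lit 274) (nat_lit 238)) (XT.lf (nat_lit 0) (nat_lit 781285060060) (nat_lit 76) (nat_lit 84848376030) (nat_lit 76) (nat_lit 83184460383) (nat_lit 1) (nat_lit 4) (nat_lit 2) (nat_lit 5) (nat_lit 2) (nat_lit 4) (nat_lit 389) (nat_lit 274) (nat_lit 237))) (XT.nd (nat_lit 78) (nat_lit 0) (nat_lit 0) (XT.lf (nat_lit 0) (nat_lit 846887197926) (nat_lit 76) (nat_lit 89960994254) (nat_lit 76) (nat_lit 88289491765) (nat_lit 1) (nat_lit 4) (nat_lit 2) (nat_lit 5) (nat_lit 2)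 (nat_lit 4) (nat_lit 390) (nat_lit 274) (nat_lit 236)) (XT.lf (nat_lit 0) (nat_lit 917714443768) (nat_lit 76) (nat_lit 95494036473) (nat_lit 76) (nat_lit 93815509129) (nat_lit 1) (nat_lit 4) (nat_lit 2) (nat_lit 5) (nat_lit 2) (nat_lit 4) (nat_lit 391) (nat_lit 274) (nat_lit 235))))) (XT.nd (nat_lit 312) (nat_lit 0) (nat_lit 0) (XT.nd (nat_lit 156) (nat_lit 0) (nat_lit 0) (XT.nd (nat_lit 78) (nat_lit 0) (nat_lit 0) (XT.lf (nat_lit 0) (nat_lit 994186514599) (nat_lit 76) (nat_lit 101480291086) (nat_lit 76) (nat_lit 99795259247) (nat_lit 1) (nat_lit 4) (nat_lit 2) (nat_lit 5) (nat_lit 2) (nat_lit 4) (nat_lit 392) (nat_lit 274) (nat_lit 234)) (XT.lf (nat_lit 0) (nat_lit 1076756578245) (nat_lit 76) (nat_lit 107955232192) (nat_lit 76) (nat_lit 106264177672) (nat_lit 1) (nat_lit 4) (nat_lit 2) (nat_lit 5) (nat_lit 2) (nat_lit 4) (nat_lit 393) (nat_lit 274) (nat_lit 233))) (XT.nd (nat_lit 78)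 (nat_lit 0) (nat_lit 0) (XT.lf (nat_lit 0) (nat_lit 1165913938788) (nat_lit 76) (nat_lit 114957229814) (nat_lit 76) (nat_lit 113260598739) (nat_lit 1) (nat_lit 4) (nat_lit 2) (nat_lit 5) (nat_lit 2) (nat_lit 4) (nat_lit 394) (nat_lit 274) (nat_lit 232)) (XT.lf (nat_lit 0) (nat_lit 1262186936142) (nat_lit 76) (nat_lit 122527777271) (nat_lit 76) (nat_lit 120825982718) (nat_lit 1) (nat_lit 4) (nat_lit 2) (nat_lit 5) (nat_lit 2) (nat_lit 4) (nat_lit 395) (nat_lit 274) (nat_lit 231)))) (XT.nd (nat_lit 156) (nat_lit 0) (nat_lit 0) (XT.nd (nat_lit 78) (nat_lit 0) (nat_lit 0) (XT.lf (nat_lit 0) (nat_lit 1366146076957) (nat_lit 76) (nat_lit 130711737067) (nat_lit 76) (nat_lit 129005161515) (nat_lit 1) (nat_lit 4) (nat_lit 2) (nat_lit 5) (nat_lit 2) (nat_lit 4) (nat_lit 396) (nat_lit 274) (nat_lit 230)) (XT.lf (nat_lit 0) (nat_lit 1478407415403) (nat_lit 76) (nat_lit 139557606740) (nat_lit 76)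 (nat_lit 137846604339) (nat_lit 1) (nat_lit 4) (nat_lit 2) (nat_lit 5) (nat_lit 2) (nat_lit 4) (nat_lit 397) (nat_lit 274) (nat_lit 229))) (XT.nd (nat_lit 78) (nat_lit 0) (nat_lit 0) (XT.lf (nat_lit 0) (nat_lit 1599636203854) (nat_lit 76) (nat_lit 149117806260) (nat_lit 76) (nat_lit 147402704924) (nat_lit 1) (nat_lit 4) (nat_lit 2) (nat_lit 5) (nat_lit 2) (nat_lit 4) (nat_lit 398) (nat_lit 274) (nat_lit 228)) (XT.lf (nat_lit 0) (nat_lit 1730550835131) (nat_lit 76) (nat_lit 159448988661) (nat_lit 76) (nat_lit 157730092014) (nat_lit 1) (nat_lit 4) (nat_lit 2) (nat_lit 5) (nat_lit 2) (nat_lit 4) (nat_lit 399) (nat_lit 274) (nat_lit 227)))))))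
noncomputable def xc29 : XT := (XT.nd (nat_lit 43290) (nat_lit 0) (nat_lit 0) (XT.nd (nat_lit 624) (nat_lit 0) (nat_lit 0) (XT.nd (nat_lit 312) (nat_lit 0) (nat_lit 0) (XT.nd (nat_lit 156) (nat_lit 0) (nat_lit 0) (XT.nd (nat_lit 78) (nat_lit 0) (nat_lit 0) (XT.lf (nat_lit 0) (nat_lit 1871927099642) (nat_lit 76) (nat_lit 170612375763) (nat_lit 76) (nat_lit 168889964940) (nat_lit 1) (nat_lit 4) (nat_lit 2) (nat_lit 5) (nat_lit 2) (nat_lit 4) (nat_lit 400) (nat_lit 274) (nat_lit 226)) (XT.lf (nat_lit 0) (nat_lit 2024602782657) (nat_lit 76) (nat_lit 182674120973) (nat_lit 76) (nat_lit 180948456283) (nat_lit 1) (nat_lit 4) (nat_lit 2) (nat_lit 5) (nat_lit 2) (nat_lit 4) (nat_lit 401) (nat_lit 274) (nat_lit 225))) (XT.nd (nat_lit 78) (nat_lit 0) (nat_lit 0) (XT.lf (nat_lit 0) (nat_lit 2189482628966) (nat_lit 76) (nat_lit 195705701299) (nat_lit 76) (nat_lit 193977023769) (nat_lit 1) (nat_lit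 4) (nat_lit 2) (nat_lit 5) (nat_lit 2) (nat_lit 4) (nat_lit 402) (nat_lit 274) (nat_lit 224)) (XT.lf (nat_lit 0) (nat_lit 2367543704324) (nat_lit 76) (nat_lit 209784340920) (nat_lit 76) (nat_lit 208052873724) (nat_lit 1) (nat_lit 4) (nat_lit 2) (nat_lit 5) (nat_lit 2) (nat_lit 4) (nat_lit 403) (nat_lit 274) (nat_lit 223)))) (XT.nd (nat_lit 156) (nat_lit 0) (nat_lit 0) (XT.nd (nat_lit 78) (nat_lit 0) (nat_lit 0) (XT.lf (nat_lit 0) (nat_lit 2559841185473) (nat_lit 76) (nat_lit 224993468813) (nat_lit 76) (nat_lit 223259418592) (nat_lit 1) (nat_lit 4) (nat_lit 2) (nat_lit 5) (nat_lit 2) (nat_lit 4) (nat_lit 404) (nat_lit 274) (nat_lit 222)) (XT.lf (nat_lit 0) (nat_lit 2767514613044) (nat_lit 76) (nat_lit 241423213142) (nat_lit 76) (nat_lit 239686771232) (nat_lit 1) (nat_lit 4) (nat_lit 2) (nat_lit 5) (nat_lit 2) (nat_lit 4) (nat_lit 405) (nat_lit 274) (nat_lit 221))) (XT.nd (nat_lit 78) (nat_lit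 0) (nat_lit 0) (XT.lf (nat_lit 0) (nat_lit 2991794644384) (nat_lit 76) (nat_lit 259170935355) (nat_lit 76) (nat_lit 257432278918) (nat_lit 1) (nat_lit 4) (nat_lit 2) (nat_lit 5) (nat_lit 2) (nat_lit 4) (nat_lit 406) (nat_lit 274) (nat_lit 220)) (XT.lf (nat_lit 0) (nat_lit 3234010346345) (nat_lit 76) (nat_lit 278341807140) (nat_lit 76) (nat_lit 276601100214) (nat_lit 1) (nat_lit 4) (nat_lit 2) (nat_lit 5) (nat_lit 2) (nat_lit 4) (nat_lit 407) (nat_lit 274) (nat_lit 219))))) (XT.nd (nat_lit 42354) (nat_lit 0) (nat_lit 76) (XT.nd (nat_lit 156) (nat_lit 0) (nat_lit 0) (XT.nd (nat_lit 78) (nat_lit 0) (nat_lit 0) (XT.lf (nat_lit 0) (nat_lit 3495597071237) (nat_lit 76) (nat_lit 299049433662) (nat_lit 76) (nat_lit 297306828137) (nat_lit 1) (nat_lit 4) (nat_lit 2) (nat_lit 5) (nat_lit 2) (nat_lit 4) (nat_lit 408) (nat_lit 274) (nat_lit 218)) (XT.lf (nat_lit 0) (nat_lit 3778104962613) (nat_lit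 76) (nat_lit 321416526783) (nat_lit 76) (nat_lit 319672163294) (nat_lit 1) (nat_lit 4) (nat_lit 2) (nat_lit 5) (nat_lit 2) (nat_lit 4) (nat_lit 409) (nat_lit 274) (nat_lit 217))) (XT.nd (nat_lit 78) (nat_lit 0) (nat_lit 0) (XT.lf (nat_lit 0) (nat_lit 4083208141311) (nat_lit 76) (nat_lit 345575632239) (nat_lit 76) (nat_lit 343829641007) (nat_lit 1) (nat_lit 4) (nat_lit 2) (nat_lit 5) (nat_lit 2) (nat_lit 4) (nat_lit 410) (nat_lit 274) (nat_lit 216)) (XT.lf (nat_lit 0) (nat_lit 4412714626169) (nat_lit 76) (nat_lit 371669915101) (nat_lit 76) (nat_lit 369922416699) (nat_lit 1) (nat_lit 4) (nat_lit 2) (nat_lit 5) (nat_lit 2) (nat_lit 4) (nat_lit 411) (nat_lit 274) (nat_lit 215)))) (XT.nd (nat_lit 156) (nat_lit 0) (nat_lit 0) (XT.nd (nat_lit 78) (nat_lit 0) (nat_lit 0) (XT.lf (nat_lit 0) (nat_lit 4308321652) (nat_lit 152) (nat_lit 16435631549) (nat_lit 0) (nat_lit 4308321652) (nat_lit 2) (nat_lit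 5) (nat_lit 4) (nat_lit 4) (nat_lit 2) (nat_lit 4) (nat_lit 350) (nat_lit 275) (nat_lit 275)) (XT.lf (nat_lit 0) (nat_lit 13391183051) (nat_lit 152) (nat_lit 27131654532) (nat_lit 0) (nat_lit 13249876008) (nat_lit 2) (nat_lit 5) (nat_lit 4) (nat_lit 4) (nat_lit 2) (nat_lit 4) (nat_lit 351) (nat_lit 275) (nat_lit 274))) (XT.nd (nat_lit 78) (nat_lit 0) (nat_lit 0) (XT.lf (nat_lit 0) (nat_lit 18341059971) (nat_lit 152) (nat_lit 21340944884) (nat_lit 0) (nat_lit 18068913075) (nat_lit 2) (nat_lit 5) (nat_lit 4) (nat_lit 4) (nat_lit 2) (nat_lit 4) (nat_lit 352) (nat_lit 275) (nat_lit 273)) (XT.lf (nat_lit 0) (nat_lit 23495606670) (nat_lit 152) (nat_lit 15464818839) (nat_lit 0) (nat_lit 23102311761) (nat_lit 2) (nat_lit 5) (nat_lit 4) (nat_lit 4) (nat_lit 2) (nat_lit 4) (nat_lit 353) (nat_lit 275) (nat_lit 272)))))) (XT.nd (nat_lit 624) (nat_lit 0) (nat_lit 0) (XT.nd (nat_lit 312) (nat_lit 0)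 (nat_lit 0) (XT.nd (nat_lit 156) (nat_lit 76) (nat_lit 0) (XT.nd (nat_lit 78) (nat_lit 0) (nat_lit 0) (XT.lf (nat_lit 0) (nat_lit 28885368609) (nat_lit 152) (nat_lit 9468454909) (nat_lit 0) (nat_lit 28379899614) (nat_lit 2) (nat_lit 5) (nat_lit 4) (nat_lit 4) (nat_lit 2) (nat_lit 4) (nat_lit 354) (nat_lit 275) (nat_lit 271)) (XT.lf (nat_lit 0) (nat_lit 34542285120) (nat_lit 152) (nat_lit 3316319085) (nat_lit 0) (nat_lit 33932951230) (nat_lit 2) (nat_lit 5) (nat_lit 4) (nat_lit 4) (nat_lit 2) (nat_lit 4) (nat_lit 355) (nat_lit 275) (nat_lit 270))) (XT.nd (nat_lit 78) (nat_lit 0) (nat_lit 0) (XT.lf (nat_lit 0) (nat_lit 3187497255) (nat_lit 76) (nat_lit 37389040799) (nat_lit 76) (nat_lit 36683535712) (nat_lit 1) (nat_lit 4) (nat_lit 2) (nat_lit 5) (nat_lit 2) (nat_lit 4) (nat_lit 356) (nat_lit 275) (nat_lit 269)) (XT.lf (nat_lit 0) (nat_lit 10107872502) (nat_lit 76) (nat_lit 36928675590)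 (nat_lit 76) (nat_lit 36134123096) (nat_lit 1) (nat_lit 4) (nat_lit 2) (nat_lit 5) (nat_lit 2) (nat_lit 4) (nat_lit 357) (nat_lit 275) (nat_lit 268)))) (XT.nd (nat_lit 156) (nat_lit 0) (nat_lit 0) (XT.nd (nat_lit 78) (nat_lit 0) (nat_lit 0) (XT.lf (nat_lit 0) (nat_lit 17311184800) (nat_lit 76) (nat_lit 36565454527) (nat_lit 76) (nat_lit 35688450732) (nat_lit 1) (nat_lit 4) (nat_lit 2) (nat_lit 5) (nat_lit 2) (nat_lit 4) (nat_lit 358) (nat_lit 275) (nat_lit 267)) (XT.lf (nat_lit 0) (nat_lit 24840120445) (nat_lit 76) (nat_lit 36297225191) (nat_lit 76) (nat_lit 35343877597) (nat_lit 1) (nat_lit 4) (nat_lit 2) (nat_lit 5) (nat_lit 2) (nat_lit 4) (nat_lit 359) (nat_lit 275) (nat_lit 266))) (XT.nd (nat_lit 78) (nat_lit 0) (nat_lit 0) (XT.lf (nat_lit 0) (nat_lit 32739295351) (nat_lit 76) (nat_lit 36122398073) (nat_lit 76) (nat_lit 35098361777) (nat_lit 1) (nat_lit 4) (nat_lit 2) (nat_lit 5)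 (nat_lit 2) (nat_lit 4) (nat_lit 360) (nat_lit 275) (nat_lit 265)) (XT.lf (nat_lit 0) (nat_lit 41055519443) (nat_lit 76) (nat_lit 36039937161) (nat_lit 76) (nat_lit 34950448364) (nat_lit 1) (nat_lit 4) (nat_lit 2) (nat_lit 5) (nat_lit 2) (nat_lit 4) (nat_lit 361) (nat_lit 275) (nat_lit 264))))) (XT.nd (nat_lit 312) (nat_lit 0) (nat_lit 0) (XT.nd (nat_lit 156) (nat_lit 0) (nat_lit 0) (XT.nd (nat_lit 78) (nat_lit 0) (nat_lit 0) (XT.lf (nat_lit 0) (nat_lit 49838074051) (nat_lit 76) (nat_lit 36049353798) (nat_lit 76) (nat_lit 34899260833) (nat_lit 1) (nat_lit 4) (nat_lit 2) (nat_lit 5) (nat_lit 2) (nat_lit 4) (nat_lit 362) (nat_lit 275) (nat_lit 263)) (XT.lf (nat_lit 0) (nat_lit 59139003940) (nat_lit 76) (nat_lit 36150703787) (nat_lit 76) (nat_lit 34944495851) (nat_lit 1) (nat_lit 4) (nat_lit 2) (nat_lit 5) (nat_lit 2) (nat_lit 4) (nat_lit 363) (nat_lit 275) (nat_lit 262))) (XT.nd (nat_lit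 78) (nat_lit 0) (nat_lit 0) (XT.lf (nat_lit 0) (nat_lit 69013425734) (nat_lit 76) (nat_lit 36344587719) (nat_lit 76) (nat_lit 35086421477) (nat_lit 1) (nat_lit 4) (nat_lit 2) (nat_lit 5) (nat_lit 2) (nat_lit 4) (nat_lit 364) (nat_lit 275) (nat_lit 261)) (XT.lf (nat_lit 0) (nat_lit 79519854525) (nat_lit 76) (nat_lit 36632154537) (nat_lit 76) (nat_lit 35325878752) (nat_lit 1) (nat_lit 4) (nat_lit 2) (nat_lit 5) (nat_lit 2) (nat_lit 4) (nat_lit 365) (nat_lit 275) (nat_lit 260)))) (XT.nd (nat_lit 156) (nat_lit 0) (nat_lit 0) (XT.nd (nat_lit 78) (nat_lit 0) (nat_lit 0) (XT.lf (nat_lit 0) (nat_lit 90720550630) (nat_lit 76) (nat_lit 37015108340) (nat_lit 76) (nat_lit 35664286682) (nat_lit 1) (nat_lit 4) (nat_lit 2) (nat_lit 5) (nat_lit 2) (nat_lit 4) (nat_lit 366) (nat_lit 275) (nat_lit 259)) (XT.lf (nat_lit 0) (nat_lit 102681888546) (nat_lit 76) (nat_lit 37495718484) (nat_lit 76) (nat_lit 36103650648)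 (nat_lit 1) (nat_lit 4) (nat_lit 2) (nat_lit 5) (nat_lit 2) (nat_lit 4) (nat_lit 367) (nat_lit 275) (nat_lit 258))) (XT.nd (nat_lit 78) (nat_lit 0) (nat_lit 0) (XT.lf (nat_lit 0) (nat_lit 115474750275) (nat_lit 76) (nat_lit 38076833030) (nat_lit 76) (nat_lit 36646574287) (nat_lit 1) (nat_lit 4) (nat_lit 2) (nat_lit 5) (nat_lit 2) (nat_lit 4) (nat_lit 368) (nat_lit 275) (nat_lit 257)) (XT.nd (nat_lit 78) (nat_lit 0) (nat_lit 0) (XT.lf (nat_lit 0) (nat_lit 129174945368) (nat_lit 76) (nat_lit 38761895618) (nat_lit 76) (nat_lit 37296274925) (nat_lit 1) (nat_lit 4) (nat_lit 2) (nat_lit 5) (nat_lit 2) (nat_lit 4) (nat_lit 369) (nat_lit 275) (nat_lit 256)) (XT.lf (nat_lit 0) (nat_lit 143863660166) (nat_lit 76) (nat_lit 39554965879) (nat_lit 76) (nat_lit 38056602640) (nat_lit 1) (nat_lit 4) (nat_lit 2) (nat_lit 5) (nat_lit 2) (nat_lit 4) (nat_lit 370) (nat_lit 275) (nat_lit 255))))))))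
noncomputable def xc30 : XT := (XT.nd (nat_lit 1248) (nat_lit 0) (nat_lit 0) (XT.nd (nat_lit 624) (nat_lit 0) (nat_lit 0) (XT.nd (nat_lit 312) (nat_lit 0) (nat_lit 0) (XT.nd (nat_lit 156) (nat_lit 0) (nat_lit 0) (XT.nd (nat_lit 78) (nat_lit 0) (nat_lit 0) (XT.lf (nat_lit 0) (nat_lit 159627938905) (nat_lit 76) (nat_lit 40460743490) (nat_lit 76) (nat_lit 38932063078) (nat_lit 1) (nat_lit 4) (nat_lit 2) (nat_lit 5) (nat_lit 2) (nat_lit 4) (nat_lit 371) (nat_lit 275) (nat_lit 254)) (XT.lf (nat_lit 0) (nat_lit 176561199534) (nat_lit 76) (nat_lit 41484596020) (nat_lit 76) (nat_lit 39927844152) (nat_lit 1) (nat_lit 4) (nat_lit 2) (nat_lit 5) (nat_lit 2) (nat_lit 4) (nat_lit 372) (nat_lit 275) (nat_lit 253))) (XT.nd (nat_lit 78) (nat_lit 0) (nat_lit 0) (XT.lf (nat_lit 0) (nat_lit 194763787299) (nat_lit 76) (nat_lit 42632590744) (nat_lit 76) (nat_lit 41049846787) (nat_lit 1) (nat_lit 4) (nat_lit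 2) (nat_lit 5) (nat_lit 2) (nat_lit 4) (nat_lit 373) (nat_lit 275) (nat_lit 252)) (XT.lf (nat_lit 0) (nat_lit 214343569389) (nat_lit 76) (nat_lit 43911530593) (nat_lit 76) (nat_lit 42304719887) (nat_lit 1) (nat_lit 4) (nat_lit 2) (nat_lit 5) (nat_lit 2) (nat_lit 4) (nat_lit 374) (nat_lit 275) (nat_lit 251)))) (XT.nd (nat_lit 156) (nat_lit 0) (nat_lit 0) (XT.nd (nat_lit 78) (nat_lit 0) (nat_lit 0) (XT.lf (nat_lit 0) (nat_lit 235416574142) (nat_lit 76) (nat_lit 45328994471) (nat_lit 76) (nat_lit 43699899739) (nat_lit 1) (nat_lit 4) (nat_lit 2) (nat_lit 5) (nat_lit 2) (nat_lit 4) (nat_lit 375) (nat_lit 275) (nat_lit 250)) (XT.lf (nat_lit 0) (nat_lit 258107678622) (nat_lit 76) (nat_lit 46893382164) (nat_lit 76) (nat_lit 45243654073) (nat_lit 1) (nat_lit 4) (nat_lit 2) (nat_lit 5) (nat_lit 2) (nat_lit 4) (nat_lit 376) (nat_lit 275) (nat_lit 249))) (XT.nd (nat_lit 78) (nat_lit 0) (nat_lit 0)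 (XT.lf (nat_lit 0) (nat_lit 282551348633) (nat_lit 76) (nat_lit 48613964117) (nat_lit 76) (nat_lit 46945131065) (nat_lit 1) (nat_lit 4) (nat_lit 2) (nat_lit 5) (nat_lit 2) (nat_lit 4) (nat_lit 377) (nat_lit 275) (nat_lit 248)) (XT.lf (nat_lit 0) (nat_lit 308892435555) (nat_lit 76) (nat_lit 50500936371) (nat_lit 76) (nat_lit 48814413540) (nat_lit 1) (nat_lit 4) (nat_lit 2) (nat_lit 5) (nat_lit 2) (nat_lit 4) (nat_lit 378) (nat_lit 275) (nat_lit 247))))) (XT.nd (nat_lit 312) (nat_lit 0) (nat_lit 0) (XT.nd (nat_lit 156) (nat_lit 0) (nat_lit 0) (XT.nd (nat_lit 78) (nat_lit 0) (nat_lit 0) (XT.lf (nat_lit 0) (nat_lit 337287034716) (nat_lit 76) (nat_lit 52565480984) (nat_lit 76) (nat_lit 50862578728) (nat_lit 1) (nat_lit 4) (nat_lit 2) (nat_lit 5) (nat_lit 2) (nat_lit 4) (nat_lit 379) (nat_lit 275) (nat_lit 246)) (XT.lf (nat_lit 0) (nat_lit 367903410409) (nat_lit 76) (nat_lit 54819832295) (nat_lit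 76) (nat_lit 53101763904) (nat_lit 1) (nat_lit 4) (nat_lit 2) (nat_lit 5) (nat_lit 2) (nat_lit 4) (nat_lit 380) (nat_lit 275) (nat_lit 245))) (XT.nd (nat_lit 78) (nat_lit 0) (nat_lit 0) (XT.lf (nat_lit 0) (nat_lit 400922993007) (nat_lit 76) (nat_lit 57277349422) (nat_lit 76) (nat_lit 55545238314) (nat_lit 1) (nat_lit 4) (nat_lit 2) (nat_lit 5) (nat_lit 2) (nat_lit 4) (nat_lit 381) (nat_lit 275) (nat_lit 244)) (XT.lf (nat_lit 0) (nat_lit 436541454111) (nat_lit 76) (nat_lit 59952595430) (nat_lit 76) (nat_lit 58207481806) (nat_lit 1) (nat_lit 4) (nat_lit 2) (nat_lit 5) (nat_lit 2) (nat_lit 4) (nat_lit 382) (nat_lit 275) (nat_lit 243)))) (XT.nd (nat_lit 156) (nat_lit 0) (nat_lit 0) (XT.nd (nat_lit 78) (nat_lit 0) (nat_lit 0) (XT.lf (nat_lit 0) (nat_lit 474969866083) (nat_lit 76) (nat_lit 62861423628) (nat_lit 76) (nat_lit 61104270638) (nat_lit 1) (nat_lit 4) (nat_lit 2) (nat_lit 5) (nat_lit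 2) (nat_lit 4) (nat_lit 383) (nat_lit 275) (nat_lit 242)) (XT.lf (nat_lit 0) (nat_lit 516435952846) (nat_lit 76) (nat_lit 66021071517) (nat_lit 76) (nat_lit 64252770966) (nat_lit 1) (nat_lit 4) (nat_lit 2) (nat_lit 5) (nat_lit 2) (nat_lit 4) (nat_lit 384) (nat_lit 275) (nat_lit 241))) (XT.nd (nat_lit 78) (nat_lit 0) (nat_lit 0) (XT.lf (nat_lit 0) (nat_lit 561185439359) (nat_lit 76) (nat_lit 69450262937) (nat_lit 76) (nat_lit 67671640570) (nat_lit 1) (nat_lit 4) (nat_lit 2) (nat_lit 5) (nat_lit 2) (nat_lit 4) (nat_lit 385) (nat_lit 275) (nat_lit 240)) (XT.lf (nat_lit 0) (nat_lit 609483507764) (nat_lit 76) (nat_lit 73169319021) (nat_lit 76) (nat_lit 71381139417) (nat_lit 1) (nat_lit 4) (nat_lit 2) (nat_lit 5) (nat_lit 2) (nat_lit 4) (nat_lit 386) (nat_lit 275) (nat_lit 239)))))) (XT.nd (nat_lit 624) (nat_lit 0) (nat_lit 0) (XT.nd (nat_lit 312) (nat_lit 0) (nat_lit 0) (XT.nd (nat_lit 156)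 (nat_lit 0) (nat_lit 0) (XT.nd (nat_lit 78) (nat_lit 0) (nat_lit 0) (XT.lf (nat_lit 0) (nat_lit 661616368836) (nat_lit 76) (nat_lit 77200278621) (nat_lit 76) (nat_lit 75403249723) (nat_lit 1) (nat_lit 4) (nat_lit 2) (nat_lit 5) (nat_lit 2) (nat_lit 4) (nat_lit 387) (nat_lit 275) (nat_lit 238)) (XT.lf (nat_lit 0) (nat_lit 717892958049) (nat_lit 76) (nat_lit 81567028904) (nat_lit 76) (nat_lit 79761806216) (nat_lit 1) (nat_lit 4) (nat_lit 2) (nat_lit 5) (nat_lit 2) (nat_lit 4) (nat_lit 388) (nat_lit 275) (nat_lit 237))) (XT.nd (nat_lit 78) (nat_lit 0) (nat_lit 0) (XT.lf (nat_lit 0) (nat_lit 778646766301) (nat_lit 76) (nat_lit 86295446910) (nat_lit 76) (nat_lit 84482637378) (nat_lit 1) (nat_lit 4) (nat_lit 2) (nat_lit 5) (nat_lit 2) (nat_lit 4) (nat_lit 389) (nat_lit 275) (nat_lit 236)) (XT.lf (nat_lit 0) (nat_lit 844237816161) (nat_lit 76) (nat_lit 91413552893) (nat_lit 76) (nat_lit 89593718506)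 (nat_lit 1) (nat_lit 4) (nat_lit 2) (nat_lit 5) (nat_lit 2) (nat_lit 4) (nat_lit 390) (nat_lit 275) (nat_lit 235)))) (XT.nd (nat_lit 156) (nat_lit 0) (nat_lit 0) (XT.nd (nat_lit 78) (nat_lit 0) (nat_lit 0) (XT.lf (nat_lit 0) (nat_lit 915054795330) (nat_lit 76) (nat_lit 96951676369) (nat_lit 76) (nat_lit 95125337488) (nat_lit 1) (nat_lit 4) (nat_lit 2) (nat_lit 5) (nat_lit 2) (nat_lit 4) (nat_lit 391) (nat_lit 275) (nat_lit 234)) (XT.lf (nat_lit 0) (nat_lit 991517359983) (nat_lit 76) (nat_lit 102942635849) (nat_lit 76) (nat_lit 101110274288) (nat_lit 1) (nat_lit 4) (nat_lit 2) (nat_lit 5) (nat_lit 2) (nat_lit 4) (nat_lit 392) (nat_lit 275) (nat_lit 233))) (XT.nd (nat_lit 78) (nat_lit 0) (nat_lit 0) (XT.lf (nat_lit 0) (nat_lit 1074078621612) (nat_lit 76) (nat_lit 109421933315) (nat_lit 76) (nat_lit 107583995197) (nat_lit 1) (nat_lit 4) (nat_lit 2) (nat_lit 5) (nat_lit 2) (nat_lit 4) (nat_lit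 393) (nat_lit 275) (nat_lit 232)) (XT.lf (nat_lit 0) (nat_lit 1163227832139) (nat_lit 76) (nat_lit 116427964603) (nat_lit 76) (nat_lit 114584863007) (nat_lit 1) (nat_lit 4) (nat_lit 2) (nat_lit 5) (nat_lit 2) (nat_lit 4) (nat_lit 394) (nat_lit 275) (nat_lit 231))))) (XT.nd (nat_lit 312) (nat_lit 0) (nat_lit 0) (XT.nd (nat_lit 156) (nat_lit 0) (nat_lit 0) (XT.nd (nat_lit 78) (nat_lit 0) (nat_lit 0) (XT.lf (nat_lit 0) (nat_lit 1259493283182) (nat_lit 76) (nat_lit 124002246936) (nat_lit 76) (nat_lit 122154364342) (nat_lit 1) (nat_lit 4) (nat_lit 2) (nat_lit 5) (nat_lit 2) (nat_lit 4) (nat_lit 395) (nat_lit 275) (nat_lit 230)) (XT.lf (nat_lit 0) (nat_lit 1363445436673) (nat_lit 76) (nat_lit 132189664950) (nat_lit 76) (nat_lit 130337355506) (nat_lit 1) (nat_lit 4) (nat_lit 2) (nat_lit 5) (nat_lit 2) (nat_lit 4) (nat_lit 396) (nat_lit 275) (nat_lit 229))) (XT.nd (nat_lit 78) (nat_lit 0) (nat_lit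 0) (XT.lf (nat_lit 0) (nat_lit 1475700305373) (nat_lit 76) (nat_lit 141038736678) (nat_lit 76) (nat_lit 139182328299) (nat_lit 1) (nat_lit 4) (nat_lit 2) (nat_lit 5) (nat_lit 2) (nat_lit 4) (nat_lit 397) (nat_lit 275) (nat_lit 228)) (XT.lf (nat_lit 0) (nat_lit 1596923103320) (nat_lit 76) (nat_lit 150601901062) (nat_lit 76) (nat_lit 148741697373) (nat_lit 1) (nat_lit 4) (nat_lit 2) (nat_lit 5) (nat_lit 2) (nat_lit 4) (nat_lit 398) (nat_lit 275) (nat_lit 227)))) (XT.nd (nat_lit 156) (nat_lit 0) (nat_lit 0) (XT.nd (nat_lit 78) (nat_lit 0) (nat_lit 0) (XT.lf (nat_lit 0) (nat_lit 1727832187833) (nat_lit 76) (nat_lit 160935828708) (nat_lit 76) (nat_lit 159072110843) (nat_lit 1) (nat_lit 4) (nat_lit 2) (nat_lit 5) (nat_lit 2) (nat_lit 4) (nat_lit 399) (nat_lit 275) (nat_lit 226)) (XT.lf (nat_lit 0) (nat_lit 1869203316452) (nat_lit 76) (nat_lit 172101757705) (nat_lit 76) (nat_lit 170234785972)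 (nat_lit 1) (nat_lit 4) (nat_lit 2) (nat_lit 5) (nat_lit 2) (nat_lit 4) (nat_lit 400) (nat_lit 275) (nat_lit 225))) (XT.nd (nat_lit 78) (nat_lit 0) (nat_lit 0) (XT.lf (nat_lit 0) (nat_lit 2021874244011) (nat_lit 76) (nat_lit 184165856520) (nat_lit 76) (nat_lit 182295871948) (nat_lit 1) (nat_lit 4) (nat_lit 2) (nat_lit 5) (nat_lit 2) (nat_lit 4) (nat_lit 401) (nat_lit 275) (nat_lit 224)) (XT.nd (nat_lit 78) (nat_lit 0) (nat_lit 0) (XT.lf (nat_lit 0) (nat_lit 2186749687120) (nat_lit 76) (nat_lit 197199616110) (nat_lit 76) (nat_lit 195326841871) (nat_lit 1) (nat_lit 4) (nat_lit 2) (nat_lit 5) (nat_lit 2) (nat_lit 4) (nat_lit 402) (nat_lit 275) (nat_lit 223)) (XT.lf (nat_lit 0) (nat_lit 2364806685441) (nat_lit 76) (nat_lit 211280273568) (nat_lit 76) (nat_lit 209404916305) (nat_lit 1) (nat_lit 4) (nat_lit 2) (nat_lit 5) (nat_lit 2) (nat_lit 4) (nat_lit 403) (nat_lit 275) (nat_lit 222))))))))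
noncomputable def xc31 : XT := (XT.nd (nat_lit 43134) (nat_lit 0) (nat_lit 0) (XT.nd (nat_lit 42510) (nat_lit 0) (nat_lit 76) (XT.nd (nat_lit 312) (nat_lit 0) (nat_lit 0) (XT.nd (nat_lit 156) (nat_lit 0) (nat_lit 0) (XT.nd (nat_lit 78) (nat_lit 0) (nat_lit 0) (XT.lf (nat_lit 0) (nat_lit 2557100391556) (nat_lit 76) (nat_lit 226491269829) (nat_lit 76) (nat_lit 224613520876) (nat_lit 1) (nat_lit 4) (nat_lit 2) (nat_lit 5) (nat_lit 2) (nat_lit 4) (nat_lit 404) (nat_lit 275) (nat_lit 221)) (XT.lf (nat_lit 0) (nat_lit 2764770323725) (nat_lit 76) (nat_lit 242922744128) (nat_lit 76) (nat_lit 241042780648) (nat_lit 1) (nat_lit 4) (nat_lit 2) (nat_lit 5) (nat_lit 2) (nat_lit 4) (nat_lit 405) (nat_lit 275) (nat_lit 220))) (XT.nd (nat_lit 78) (nat_lit 0) (nat_lit 0) (XT.lf (nat_lit 0) (nat_lit 2989047118581) (nat_lit 76) (nat_lit 260672068165) (nat_lit 76) (nat_lit 258790054198) (nat_lit 1) (nat_lit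 4) (nat_lit 2) (nat_lit 5) (nat_lit 2) (nat_lit 4) (nat_lit 406) (nat_lit 275) (nat_lit 219)) (XT.lf (nat_lit 0) (nat_lit 3231259823799) (nat_lit 76) (nat_lit 279844423121) (nat_lit 76) (nat_lit 277960510553) (nat_lit 1) (nat_lit 4) (nat_lit 2) (nat_lit 5) (nat_lit 2) (nat_lit 4) (nat_lit 407) (nat_lit 275) (nat_lit 218)))) (XT.nd (nat_lit 156) (nat_lit 0) (nat_lit 0) (XT.nd (nat_lit 78) (nat_lit 0) (nat_lit 0) (XT.lf (nat_lit 0) (nat_lit 3492843773928) (nat_lit 76) (nat_lit 300553422949) (nat_lit 76) (nat_lit 298667752418) (nat_lit 1) (nat_lit 4) (nat_lit 2) (nat_lit 5) (nat_lit 2) (nat_lit 4) (nat_lit 408) (nat_lit 275) (nat_lit 217)) (XT.lf (nat_lit 0) (nat_lit 3775349096079) (nat_lit 76) (nat_lit 322921787650) (nat_lit 76) (nat_lit 321034489375) (nat_lit 1) (nat_lit 4) (nat_lit 2) (nat_lit 5) (nat_lit 2) (nat_lit 4) (nat_lit 409) (nat_lit 275) (nat_lit 216))) (XT.nd (nat_lit 78) (nat_lit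 0) (nat_lit 0) (XT.lf (nat_lit 0) (nat_lit 4080449895866) (nat_lit 76) (nat_lit 347082070495) (nat_lit 76) (nat_lit 345193265050) (nat_lit 1) (nat_lit 4) (nat_lit 2) (nat_lit 5) (nat_lit 2) (nat_lit 4) (nat_lit 410) (nat_lit 275) (nat_lit 215)) (XT.lf (nat_lit 0) (nat_lit 4409954178027) (nat_lit 76) (nat_lit 373177443531) (nat_lit 76) (nat_lit 371287242559) (nat_lit 1) (nat_lit 4) (nat_lit 2) (nat_lit 5) (nat_lit 2) (nat_lit 4) (nat_lit 411) (nat_lit 275) (nat_lit 214))))) (XT.nd (nat_lit 312) (nat_lit 0) (nat_lit 0) (XT.nd (nat_lit 156) (nat_lit 0) (nat_lit 0) (XT.nd (nat_lit 78) (nat_lit 152) (nat_lit 0) (XT.lf (nat_lit 0) (nat_lit 21557013303) (nat_lit 76) (nat_lit 121955550) (nat_lit 76) (nat_lit 121955550) (nat_lit 4) (nat_lit 4) (nat_lit 5) (nat_lit 5) (nat_lit 5) (nat_lit 4) (nat_lit 348) (nat_lit 276) (nat_lit 276)) (XT.lf (nat_lit 0) (nat_lit 4141758772) (nat_lit 152) (nat_lit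 38593783079) (nat_lit 0) (nat_lit 3989147166) (nat_lit 2) (nat_lit 5) (nat_lit 4) (nat_lit 4) (nat_lit 2) (nat_lit 4) (nat_lit 349) (nat_lit 276) (nat_lit 275))) (XT.nd (nat_lit 78) (nat_lit 0) (nat_lit 0) (XT.lf (nat_lit 0) (nat_lit 8661968331) (nat_lit 152) (nat_lit 33083144355) (nat_lit 0) (nat_lit 8368049684) (nat_lit 2) (nat_lit 5) (nat_lit 4) (nat_lit 4) (nat_lit 2) (nat_lit 4) (nat_lit 350) (nat_lit 276) (nat_lit 274)) (XT.lf (nat_lit 0) (nat_lit 13337168651) (nat_lit 152) (nat_lit 27539722136) (nat_lit 0) (nat_lit 12912410150) (nat_lit 2) (nat_lit 5) (nat_lit 4) (nat_lit 4) (nat_lit 2) (nat_lit 4) (nat_lit 351) (nat_lit 276) (nat_lit 273)))) (XT.nd (nat_lit 156) (nat_lit 0) (nat_lit 0) (XT.nd (nat_lit 78) (nat_lit 0) (nat_lit 0) (XT.lf (nat_lit 0) (nat_lit 18195064622) (nat_lit 152) (nat_lit 21930666515) (nat_lit 0) (nat_lit 17649158108) (nat_lit 2) (nat_lit 5) (nat_lit 4) (nat_lit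 4) (nat_lit 2) (nat_lit 4) (nat_lit 352) (nat_lit 276) (nat_lit 272)) (XT.lf (nat_lit 0) (nat_lit 23264443775) (nat_lit 152) (nat_lit 16222738642) (nat_lit 0) (nat_lit 22606363175) (nat_lit 2) (nat_lit 5) (nat_lit 4) (nat_lit 4) (nat_lit 2) (nat_lit 4) (nat_lit 353) (nat_lit 276) (nat_lit 271))) (XT.nd (nat_lit 78) (nat_lit 0) (nat_lit 0) (XT.lf (nat_lit 0) (nat_lit 28575346876) (nat_lit 152) (nat_lit 10382113760) (nat_lit 0) (nat_lit 27813401381) (nat_lit 2) (nat_lit 5) (nat_lit 4) (nat_lit 4) (nat_lit 2) (nat_lit 4) (nat_lit 354) (nat_lit 276) (nat_lit 270)) (XT.lf (nat_lit 0) (nat_lit 34159245943) (nat_lit 152) (nat_lit 4374180759) (nat_lit 0) (nat_lit 33301129250) (nat_lit 2) (nat_lit 5) (nat_lit 4) (nat_lit 4) (nat_lit 2) (nat_lit 4) (nat_lit 355) (nat_lit 276) (nat_lit 269)))))) (XT.nd (nat_lit 624) (nat_lit 0) (nat_lit 0) (XT.nd (nat_lit 312) (nat_lit 0) (nat_lit 0) (XT.nd (nat_lit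 156) (nat_lit 0) (nat_lit 0) (XT.nd (nat_lit 78) (nat_lit 0) (nat_lit 0) (XT.lf (nat_lit 0) (nat_lit 1933378342) (nat_lit 76) (nat_lit 38162350202) (nat_lit 76) (nat_lit 37215186103) (nat_lit 1) (nat_lit 4) (nat_lit 2) (nat_lit 5) (nat_lit 2) (nat_lit 4) (nat_lit 356) (nat_lit 276) (nat_lit 268)) (XT.lf (nat_lit 0) (nat_lit 8723612739) (nat_lit 76) (nat_lit 37766395264) (nat_lit 76) (nat_lit 36736779863) (nat_lit 1) (nat_lit 4) (nat_lit 2) (nat_lit 5) (nat_lit 2) (nat_lit 4) (nat_lit 357) (nat_lit 276) (nat_lit 267))) (XT.nd (nat_lit 78) (nat_lit 0) (nat_lit 0) (XT.lf (nat_lit 0) (nat_lit 15806424250) (nat_lit 76) (nat_lit 37462813341) (nat_lit 76) (nat_lit 36356854142) (nat_lit 1) (nat_lit 4) (nat_lit 2) (nat_lit 5) (nat_lit 2) (nat_lit 4) (nat_lit 358) (nat_lit 276) (nat_lit 266)) (XT.lf (nat_lit 0) (nat_lit 23223785091) (nat_lit 76) (nat_lit 37249805431) (nat_lit 76) (nat_lit 36073157530)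 (nat_lit 1) (nat_lit 4) (nat_lit 2) (nat_lit 5) (nat_lit 2) (nat_lit 4) (nat_lit 359) (nat_lit 276) (nat_lit 265)))) (XT.nd (nat_lit 156) (nat_lit 0) (nat_lit 0) (XT.nd (nat_lit 78) (nat_lit 0) (nat_lit 0) (XT.lf (nat_lit 0) (nat_lit 31019649994) (nat_lit 76) (nat_lit 37126109262) (nat_lit 76) (nat_lit 35884008860) (nat_lit 1) (nat_lit 4) (nat_lit 2) (nat_lit 5) (nat_lit 2) (nat_lit 4) (nat_lit 360) (nat_lit 276) (nat_lit 264)) (XT.lf (nat_lit 0) (nat_lit 39240216677) (nat_lit 76) (nat_lit 37090991823) (nat_lit 76) (nat_lit 35788287252) (nat_lit 1) (nat_lit 4) (nat_lit 2) (nat_lit 5) (nat_lit 2) (nat_lit 4) (nat_lit 361) (nat_lit 276) (nat_lit 263))) (XT.nd (nat_lit 78) (nat_lit 0) (nat_lit 0) (XT.lf (nat_lit 0) (nat_lit 47934199608) (nat_lit 76) (nat_lit 37144245008) (nat_lit 76) (nat_lit 35785425467) (nat_lit 1) (nat_lit 4) (nat_lit 2) (nat_lit 5) (nat_lit 2) (nat_lit 4) (nat_lit 362)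 (nat_lit 276) (nat_lit 262)) (XT.lf (nat_lit 0) (nat_lit 57153118687) (nat_lit 76) (nat_lit 37286184393) (nat_lit 76) (nat_lit 35875406546) (nat_lit 1) (nat_lit 4) (nat_lit 2) (nat_lit 5) (nat_lit 2) (nat_lit 4) (nat_lit 363) (nat_lit 276) (nat_lit 261))))) (XT.nd (nat_lit 312) (nat_lit 0) (nat_lit 0) (XT.nd (nat_lit 156) (nat_lit 0) (nat_lit 0) (XT.nd (nat_lit 78) (nat_lit 0) (nat_lit 0) (XT.lf (nat_lit 0) (nat_lit 66951604545) (nat_lit 76) (nat_lit 37517651100) (nat_lit 76) (nat_lit 36058763710) (nat_lit 1) (nat_lit 4) (nat_lit 2) (nat_lit 5) (nat_lit 2) (nat_lit 4) (nat_lit 364) (nat_lit 276) (nat_lit 260)) (XT.lf (nat_lit 0) (nat_lit 77387722283) (nat_lit 76) (nat_lit 37840016783) (nat_lit 76) (nat_lit 36336583520) (nat_lit 1) (nat_lit 4) (nat_lit 2) (nat_lit 5) (nat_lit 2) (nat_lit 4) (nat_lit 365) (nat_lit 276) (nat_lit 259))) (XT.nd (nat_lit 78) (nat_lit 0) (nat_lit 0) (XT.lf (nat_lit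 0) (nat_lit 88523315563) (nat_lit 76) (nat_lit 38255191758) (nat_lit 76) (nat_lit 36710512316) (nat_lit 1) (nat_lit 4) (nat_lit 2) (nat_lit 5) (nat_lit 2) (nat_lit 4) (nat_lit 366) (nat_lit 276) (nat_lit 258)) (XT.lf (nat_lit 0) (nat_lit 100424373084) (nat_lit 76) (nat_lit 38765636320) (nat_lit 76) (nat_lit 37182765972) (nat_lit 1) (nat_lit 4) (nat_lit 2) (nat_lit 5) (nat_lit 2) (nat_lit 4) (nat_lit 367) (nat_lit 276) (nat_lit 257)))) (XT.nd (nat_lit 156) (nat_lit 0) (nat_lit 0) (XT.nd (nat_lit 78) (nat_lit 0) (nat_lit 0) (XT.lf (nat_lit 0) (nat_lit 113161419633) (nat_lit 76) (nat_lit 39374375327) (nat_lit 76) (nat_lit 37756143028) (nat_lit 1) (nat_lit 4) (nat_lit 2) (nat_lit 5) (nat_lit 2) (nat_lit 4) (nat_lit 368) (nat_lit 276) (nat_lit 256)) (XT.lf (nat_lit 0) (nat_lit 126809934004) (nat_lit 76) (nat_lit 40085016120) (nat_lit 76) (nat_lit 38434041275) (nat_lit 1) (nat_lit 4) (nat_lit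 2) (nat_lit 5) (nat_lit 2) (nat_lit 4) (nat_lit 369) (nat_lit 276) (nat_lit 255))) (XT.nd (nat_lit 78) (nat_lit 0) (nat_lit 0) (XT.lf (nat_lit 0) (nat_lit 141450796281) (nat_lit 76) (nat_lit 40901769904) (nat_lit 76) (nat_lit 39220477887) (nat_lit 1) (nat_lit 4) (nat_lit 2) (nat_lit 5) (nat_lit 2) (nat_lit 4) (nat_lit 370) (nat_lit 276) (nat_lit 254)) (XT.nd (nat_lit 78) (nat_lit 0) (nat_lit 0) (XT.lf (nat_lit 0) (nat_lit 157170767131) (nat_lit 76) (nat_lit 41829476702) (nat_lit 76) (nat_lit 40120113229) (nat_lit 1) (nat_lit 4) (nat_lit 2) (nat_lit 5) (nat_lit 2) (nat_lit 4) (nat_lit 371) (nat_lit 276) (nat_lit 253)) (XT.lf (nat_lit 0) (nat_lit 174063001936) (nat_lit 76) (nat_lit 42873634036) (nat_lit 76) (nat_lit 41138278474) (nat_lit 1) (nat_lit 4) (nat_lit 2) (nat_lit 5) (nat_lit 2) (nat_lit 4) (nat_lit 372) (nat_lit 276) (nat_lit 252))))))))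
noncomputable def xc32 : XT := (XT.nd (nat_lit 1248) (nat_lit 0) (nat_lit 0) (XT.nd (nat_lit 624) (nat_lit 0) (nat_lit 0) (XT.nd (nat_lit 312) (nat_lit 0) (nat_lit 0) (XT.nd (nat_lit 156) (nat_lit 0) (nat_lit 0) (XT.nd (nat_lit 78) (nat_lit 0) (nat_lit 0) (XT.lf (nat_lit 0) (nat_lit 192227602828) (nat_lit 76) (nat_lit 44040429504) (nat_lit 76) (nat_lit 42281007193) (nat_lit 1) (nat_lit 4) (nat_lit 2) (nat_lit 5) (nat_lit 2) (nat_lit 4) (nat_lit 373) (nat_lit 276) (nat_lit 251)) (XT.lf (nat_lit 0) (nat_lit 211772211887) (nat_lit 76) (nat_lit 45336777450) (nat_lit 76) (nat_lit 43555071112) (nat_lit 1) (nat_lit 4) (nat_lit 2) (nat_lit 5) (nat_lit 2) (nat_lit 4) (nat_lit 374) (nat_lit 276) (nat_lit 250))) (XT.nd (nat_lit 78) (nat_lit 0) (nat_lit 0) (XT.lf (nat_lit 0) (nat_lit 232812649018) (nat_lit 76) (nat_lit 46770359936) (nat_lit 76) (nat_lit 44968020240) (nat_lit 1) (nat_lit 4) (nat_lit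 2) (nat_lit 5) (nat_lit 2) (nat_lit 4) (nat_lit 375) (nat_lit 276) (nat_lit 249)) (XT.lf (nat_lit 0) (nat_lit 255473598293) (nat_lit 76) (nat_lit 48349672266) (nat_lit 76) (nat_lit 46528227608) (nat_lit 1) (nat_lit 4) (nat_lit 2) (nat_lit 5) (nat_lit 2) (nat_lit 4) (nat_lit 376) (nat_lit 276) (nat_lit 248)))) (XT.nd (nat_lit 156) (nat_lit 0) (nat_lit 0) (XT.nd (nat_lit 78) (nat_lit 0) (nat_lit 0) (XT.lf (nat_lit 0) (nat_lit 279889346818) (nat_lit 76) (nat_lit 50084073327) (nat_lit 76) (nat_lit 48244938890) (nat_lit 1) (nat_lit 4) (nat_lit 2) (nat_lit 5) (nat_lit 2) (nat_lit 4) (nat_lit 377) (nat_lit 276) (nat_lit 247)) (XT.lf (nat_lit 0) (nat_lit 306204580512) (nat_lit 76) (nat_lit 51983841051) (nat_lit 76) (nat_lit 50128327190) (nat_lit 1) (nat_lit 4) (nat_lit 2) (nat_lit 5) (nat_lit 2) (nat_lit 4) (nat_lit 378) (nat_lit 276) (nat_lit 246))) (XT.nd (nat_lit 78) (nat_lit 0) (nat_lit 0)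 (XT.lf (nat_lit 0) (nat_lit 334575241500) (nat_lit 76) (nat_lit 54060233323) (nat_lit 76) (nat_lit 52189553326) (nat_lit 1) (nat_lit 4) (nat_lit 2) (nat_lit 5) (nat_lit 2) (nat_lit 4) (nat_lit 379) (nat_lit 276) (nat_lit 245)) (XT.lf (nat_lit 0) (nat_lit 365169452216) (nat_lit 76) (nat_lit 56325554687) (nat_lit 76) (nat_lit 54440831974) (nat_lit 1) (nat_lit 4) (nat_lit 2) (nat_lit 5) (nat_lit 2) (nat_lit 4) (nat_lit 380) (nat_lit 276) (nat_lit 244))))) (XT.nd (nat_lit 312) (nat_lit 0) (nat_lit 0) (XT.nd (nat_lit 156) (nat_lit 0) (nat_lit 0) (XT.nd (nat_lit 78) (nat_lit 0) (nat_lit 0) (XT.lf (nat_lit 0) (nat_lit 398168511688) (nat_lit 76) (nat_lit 58793229271) (nat_lit 76) (nat_lit 56895504042) (nat_lit 1) (nat_lit 4) (nat_lit 2) (nat_lit 5) (nat_lit 2) (nat_lit 4) (nat_lit 381) (nat_lit 276) (nat_lit 243)) (XT.lf (nat_lit 0) (nat_lit 433767969898) (nat_lit 76) (nat_lit 61477880332) (nat_lit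 76) (nat_lit 59568115736) (nat_lit 1) (nat_lit 4) (nat_lit 2) (nat_lit 5) (nat_lit 2) (nat_lit 4) (nat_lit 382) (nat_lit 276) (nat_lit 242))) (XT.nd (nat_lit 78) (nat_lit 0) (nat_lit 0) (XT.lf (nat_lit 0) (nat_lit 472178786598) (nat_lit 76) (nat_lit 64395416912) (nat_lit 76) (nat_lit 62474504756) (nat_lit 1) (nat_lit 4) (nat_lit 2) (nat_lit 5) (nat_lit 2) (nat_lit 4) (nat_lit 383) (nat_lit 276) (nat_lit 241)) (XT.lf (nat_lit 0) (nat_lit 513628581442) (nat_lit 76) (nat_lit 67563128118) (nat_lit 76) (nat_lit 65631894146) (nat_lit 1) (nat_lit 4) (nat_lit 2) (nat_lit 5) (nat_lit 2) (nat_lit 4) (nat_lit 384) (nat_lit 276) (nat_lit 240)))) (XT.nd (nat_lit 156) (nat_lit 0) (nat_lit 0) (XT.nd (nat_lit 78) (nat_lit 0) (nat_lit 0) (XT.lf (nat_lit 0) (nat_lit 558362982844) (nat_lit 76) (nat_lit 70999785572) (nat_lit 76) (nat_lit 69058994362) (nat_lit 1) (nat_lit 4) (nat_lit 2) (nat_lit 5) (nat_lit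 2) (nat_lit 4) (nat_lit 385) (nat_lit 276) (nat_lit 239)) (XT.lf (nat_lit 0) (nat_lit 606647083554) (nat_lit 76) (nat_lit 74725754651) (nat_lit 76) (nat_lit 72776114148) (nat_lit 1) (nat_lit 4) (nat_lit 2) (nat_lit 5) (nat_lit 2) (nat_lit 4) (nat_lit 386) (nat_lit 276) (nat_lit 238))) (XT.nd (nat_lit 78) (nat_lit 0) (nat_lit 0) (XT.lf (nat_lit 0) (nat_lit 658767011576) (nat_lit 76) (nat_lit 78763115172) (nat_lit 76) (nat_lit 76805280878) (nat_lit 1) (nat_lit 4) (nat_lit 2) (nat_lit 5) (nat_lit 2) (nat_lit 4) (nat_lit 387) (nat_lit 276) (nat_lit 237)) (XT.lf (nat_lit 0) (nat_lit 715031625742) (nat_lit 76) (nat_lit 83135792234) (nat_lit 76) (nat_lit 81170371097) (nat_lit 1) (nat_lit 4) (nat_lit 2) (nat_lit 5) (nat_lit 2) (nat_lit 4) (nat_lit 388) (nat_lit 276) (nat_lit 236)))))) (XT.nd (nat_lit 624) (nat_lit 0) (nat_lit 0) (XT.nd (nat_lit 312) (nat_lit 0) (nat_lit 0) (XT.nd (nat_lit 156)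 (nat_lit 0) (nat_lit 0) (XT.nd (nat_lit 78) (nat_lit 0) (nat_lit 0) (XT.lf (nat_lit 0) (nat_lit 775774345988) (nat_lit 76) (nat_lit 87869697997) (nat_lit 76) (nat_lit 85897252006) (nat_lit 1) (nat_lit 4) (nat_lit 2) (nat_lit 5) (nat_lit 2) (nat_lit 4) (nat_lit 389) (nat_lit 276) (nat_lit 235)) (XT.lf (nat_lit 0) (nat_lit 841355129176) (nat_lit 76) (nat_lit 92992885237) (nat_lit 76) (nat_lit 91013934751) (nat_lit 1) (nat_lit 4) (nat_lit 2) (nat_lit 5) (nat_lit 2) (nat_lit 4) (nat_lit 390) (nat_lit 276) (nat_lit 234))) (XT.nd (nat_lit 78) (nat_lit 0) (nat_lit 0) (XT.lf (nat_lit 0) (nat_lit 912162602167) (nat_lit 76) (nat_lit 98535713582) (nat_lit 76) (nat_lit 96550740415) (nat_lit 1) (nat_lit 4) (nat_lit 2) (nat_lit 5) (nat_lit 2) (nat_lit 4) (nat_lit 391) (nat_lit 276) (nat_lit 233)) (XT.lf (nat_lit 0) (nat_lit 988616364802) (nat_lit 76) (nat_lit 104531029421) (nat_lit 76) (nat_lit 102540479698)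 (nat_lit 1) (nat_lit 4) (nat_lit 2) (nat_lit 5) (nat_lit 2) (nat_lit 4) (nat_lit 392) (nat_lit 276) (nat_lit 232)))) (XT.nd (nat_lit 156) (nat_lit 0) (nat_lit 0) (XT.nd (nat_lit 78) (nat_lit 0) (nat_lit 0) (XT.lf (nat_lit 0) (nat_lit 1071169476416) (nat_lit 76) (nat_lit 111014360553) (nat_lit 76) (nat_lit 109018647352) (nat_lit 1) (nat_lit 4) (nat_lit 2) (nat_lit 5) (nat_lit 2) (nat_lit 4) (nat_lit 393) (nat_lit 276) (nat_lit 231)) (XT.lf (nat_lit 0) (nat_lit 1160311140633) (nat_lit 76) (nat_lit 118024126717) (nat_lit 76) (nat_lit 116023632518) (nat_lit 1) (nat_lit 4) (nat_lit 2) (nat_lit 5) (nat_lit 2) (nat_lit 4) (nat_lit 394) (nat_lit 276) (nat_lit 230))) (XT.nd (nat_lit 78) (nat_lit 0) (nat_lit 0) (XT.lf (nat_lit 0) (nat_lit 1256569604351) (nat_lit 76) (nat_lit 125601867268) (nat_lit 76) (nat_lit 123596946219) (nat_lit 1) (nat_lit 4) (nat_lit 2) (nat_lit 5) (nat_lit 2) (nat_lit 4)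 (nat_lit 395) (nat_lit 276) (nat_lit 229)) (XT.lf (nat_lit 0) (nat_lit 1360515288097) (nat_lit 76) (nat_lit 133792487336) (nat_lit 76) (nat_lit 131783467352) (nat_lit 1) (nat_lit 4) (nat_lit 2) (nat_lit 5) (nat_lit 2) (nat_lit 4) (nat_lit 396) (nat_lit 276) (nat_lit 228))))) (XT.nd (nat_lit 312) (nat_lit 0) (nat_lit 0) (XT.nd (nat_lit 156) (nat_lit 0) (nat_lit 0) (XT.nd (nat_lit 78) (nat_lit 0) (nat_lit 0) (XT.lf (nat_lit 0) (nat_lit 1472764166292) (nat_lit 76) (nat_lit 142644523929) (nat_lit 76) (nat_lit 140631708634) (nat_lit 1) (nat_lit 4) (nat_lit 2) (nat_lit 5) (nat_lit 2) (nat_lit 4) (nat_lit 397) (nat_lit 276) (nat_lit 227)) (XT.lf (nat_lit 0) (nat_lit 1593981417474) (nat_lit 76) (nat_lit 152210433559) (nat_lit 76) (nat_lit 150194104088) (nat_lit 1) (nat_lit 4) (nat_lit 2) (nat_lit 5) (nat_lit 2) (nat_lit 4) (nat_lit 398) (nat_lit 276) (nat_lit 226))) (XT.nd (nat_lit 78) (nat_lit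 0) (nat_lit 0) (XT.lf (nat_lit 0) (nat_lit 1724885366096) (nat_lit 76) (nat_lit 162546903098) (nat_lit 76) (nat_lit 160527319760) (nat_lit 1) (nat_lit 4) (nat_lit 2) (nat_lit 5) (nat_lit 2) (nat_lit 4) (nat_lit 399) (nat_lit 276) (nat_lit 225)) (XT.lf (nat_lit 0) (nat_lit 1866251739258) (nat_lit 76) (nat_lit 173715185700) (nat_lit 76) (nat_lit 171692589522) (nat_lit 1) (nat_lit 4) (nat_lit 2) (nat_lit 5) (nat_lit 2) (nat_lit 4) (nat_lit 400) (nat_lit 276) (nat_lit 224)))) (XT.nd (nat_lit 156) (nat_lit 0) (nat_lit 0) (XT.nd (nat_lit 78) (nat_lit 0) (nat_lit 0) (XT.lf (nat_lit 0) (nat_lit 2018918263618) (nat_lit 76) (nat_lit 185781463780) (nat_lit 76) (nat_lit 183756077935) (nat_lit 1) (nat_lit 4) (nat_lit 2) (nat_lit 5) (nat_lit 2) (nat_lit 4) (nat_lit 401) (nat_lit 276) (nat_lit 223)) (XT.lf (nat_lit 0) (nat_lit 2183789629690) (nat_lit 76) (nat_lit 198817241207) (nat_lit 76) (nat_lit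 196789272338) (nat_lit 1) (nat_lit 4) (nat_lit 2) (nat_lit 5) (nat_lit 2) (nat_lit 4) (nat_lit 402) (nat_lit 276) (nat_lit 222))) (XT.nd (nat_lit 78) (nat_lit 0) (nat_lit 0) (XT.lf (nat_lit 0) (nat_lit 2361842852977) (nat_lit 76) (nat_lit 212899767033) (nat_lit 76) (nat_lit 210869406475) (nat_lit 1) (nat_lit 4) (nat_lit 2) (nat_lit 5) (nat_lit 2) (nat_lit 4) (nat_lit 403) (nat_lit 276) (nat_lit 221)) (XT.lf (nat_lit 0) (nat_lit 2554133063690) (nat_lit 76) (nat_lit 228112493264) (nat_lit 76) (nat_lit 226079918179) (nat_lit 1) (nat_lit 4) (nat_lit 2) (nat_lit 5) (nat_lit 2) (nat_lit 4) (nat_lit 404) (nat_lit 276) (nat_lit 220)))))))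
noncomputable def xc33 : XT := (XT.nd (nat_lit 42978) (nat_lit 0) (nat_lit 0) (XT.nd (nat_lit 42354) (nat_lit 0) (nat_lit 76) (XT.nd (nat_lit 312) (nat_lit 0) (nat_lit 0) (XT.nd (nat_lit 156) (nat_lit 0) (nat_lit 0) (XT.nd (nat_lit 78) (nat_lit 0) (nat_lit 0) (XT.lf (nat_lit 0) (nat_lit 2761799759375) (nat_lit 76) (nat_lit 244545569387) (nat_lit 76) (nat_lit 242510943814) (nat_lit 1) (nat_lit 4) (nat_lit 2) (nat_lit 5) (nat_lit 2) (nat_lit 4) (nat_lit 405) (nat_lit 276) (nat_lit 219)) (XT.lf (nat_lit 0) (nat_lit 2986073557488) (nat_lit 76) (nat_lit 262296376595) (nat_lit 76) (nat_lit 260259852422) (nat_lit 1) (nat_lit 4) (nat_lit 2) (nat_lit 5) (nat_lit 2) (nat_lit 4) (nat_lit 406) (nat_lit 276) (nat_lit 218))) (XT.nd (nat_lit 78) (nat_lit 0) (nat_lit 0) (XT.lf (nat_lit 0) (nat_lit 3228283487943) (nat_lit 76) (nat_lit 281470104857) (nat_lit 76) (nat_lit 279431822720) (nat_lit 1) (nat_lit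 4) (nat_lit 2) (nat_lit 5) (nat_lit 2) (nat_lit 4) (nat_lit 407) (nat_lit 276) (nat_lit 217)) (XT.lf (nat_lit 0) (nat_lit 3489864868847) (nat_lit 76) (nat_lit 302180376265) (nat_lit 76) (nat_lit 300140466385) (nat_lit 1) (nat_lit 4) (nat_lit 2) (nat_lit 5) (nat_lit 2) (nat_lit 4) (nat_lit 408) (nat_lit 276) (nat_lit 216)))) (XT.nd (nat_lit 156) (nat_lit 0) (nat_lit 0) (XT.nd (nat_lit 78) (nat_lit 0) (nat_lit 0) (XT.lf (nat_lit 0) (nat_lit 3772367812086) (nat_lit 76) (nat_lit 324549918354) (nat_lit 76) (nat_lit 322508501304) (nat_lit 1) (nat_lit 4) (nat_lit 2) (nat_lit 5) (nat_lit 2) (nat_lit 4) (nat_lit 409) (nat_lit 276) (nat_lit 215)) (XT.lf (nat_lit 0) (nat_lit 4077466409177) (nat_lit 76) (nat_lit 348711291374) (nat_lit 76) (nat_lit 346668478796) (nat_lit 1) (nat_lit 4) (nat_lit 2) (nat_lit 5) (nat_lit 2) (nat_lit 4) (nat_lit 410) (nat_lit 276) (nat_lit 214))) (XT.nd (nat_lit 41808)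 (nat_lit 0) (nat_lit 228) (XT.lf (nat_lit 0) (nat_lit 4406968651805) (nat_lit 76) (nat_lit 374807673831) (nat_lit 76) (nat_lit 372763569098) (nat_lit 1) (nat_lit 4) (nat_lit 2) (nat_lit 5) (nat_lit 2) (nat_lit 4) (nat_lit 411) (nat_lit 276) (nat_lit 213)) (XT.lf (nat_lit 0) (nat_lit 10759178118) (nat_lit 76) (nat_lit 4124463869) (nat_lit 76) (nat_lit 4124463869) (nat_lit 4) (nat_lit 4) (nat_lit 5) (nat_lit 5) (nat_lit 5) (nat_lit 4) (nat_lit 346) (nat_lit 277) (nat_lit 277))))) (XT.nd (nat_lit 312) (nat_lit 0) (nat_lit 0) (XT.nd (nat_lit 156) (nat_lit 152) (nat_lit 0) (XT.nd (nat_lit 78) (nat_lit 0) (nat_lit 0) (XT.lf (nat_lit 0) (nat_lit 32007606004) (nat_lit 76) (nat_lit 4433814620) (nat_lit 76) (nat_lit 4255808443) (nat_lit 4) (nat_lit 4) (nat_lit 5) (nat_lit 5) (nat_lit 5) (nat_lit 4) (nat_lit 347) (nat_lit 277) (nat_lit 276)) (XT.lf (nat_lit 0) (nat_lit 42908499620) (nat_lit 76)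 (nat_lit 522310636) (nat_lit 76) (nat_lit 179483925) (nat_lit 4) (nat_lit 4) (nat_lit 5) (nat_lit 5) (nat_lit 5) (nat_lit 4) (nat_lit 348) (nat_lit 277) (nat_lit 275))) (XT.nd (nat_lit 78) (nat_lit 0) (nat_lit 0) (XT.lf (nat_lit 0) (nat_lit 4083423220) (nat_lit 152) (nat_lit 39034496092) (nat_lit 0) (nat_lit 3624684039) (nat_lit 2) (nat_lit 5) (nat_lit 4) (nat_lit 4) (nat_lit 2) (nat_lit 4) (nat_lit 349) (nat_lit 277) (nat_lit 274)) (XT.lf (nat_lit 0) (nat_lit 8504293355) (nat_lit 152) (nat_lit 33720043716) (nat_lit 0) (nat_lit 7914714319) (nat_lit 2) (nat_lit 5) (nat_lit 4) (nat_lit 4) (nat_lit 2) (nat_lit 4) (nat_lit 350) (nat_lit 277) (nat_lit 273)))) (XT.nd (nat_lit 156) (nat_lit 0) (nat_lit 0) (XT.nd (nat_lit 78) (nat_lit 0) (nat_lit 0) (XT.lf (nat_lit 0) (nat_lit 13087512725) (nat_lit 152) (nat_lit 28358275523) (nat_lit 0) (nat_lit 12376785677) (nat_lit 2) (nat_lit 5) (nat_lit 4)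 (nat_lit 4) (nat_lit 2) (nat_lit 4) (nat_lit 351) (nat_lit 277) (nat_lit 272)) (XT.lf (nat_lit 0) (nat_lit 17860241150) (nat_lit 152) (nat_lit 22917418074) (nat_lit 0) (nat_lit 17037340016) (nat_lit 2) (nat_lit 5) (nat_lit 4) (nat_lit 4) (nat_lit 2) (nat_lit 4) (nat_lit 352) (nat_lit 277) (nat_lit 271))) (XT.nd (nat_lit 78) (nat_lit 0) (nat_lit 0) (XT.lf (nat_lit 0) (nat_lit 22850761465) (nat_lit 152) (nat_lit 17365229250) (nat_lit 0) (nat_lit 21923995436) (nat_lit 2) (nat_lit 5) (nat_lit 4) (nat_lit 4) (nat_lit 2) (nat_lit 4) (nat_lit 353) (nat_lit 277) (nat_lit 270)) (XT.lf (nat_lit 0) (nat_lit 28088647123) (nat_lit 152) (nat_lit 11668807191) (nat_lit 0) (nat_lit 27065709895) (nat_lit 2) (nat_lit 5) (nat_lit 4) (nat_lit 4) (nat_lit 2) (nat_lit 4) (nat_lit 354) (nat_lit 277) (nat_lit 269)))))) (XT.nd (nat_lit 624) (nat_lit 0) (nat_lit 0) (XT.nd (nat_lit 312) (nat_lit 0) (nat_lit 0) (XT.nd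 (nat_lit 156) (nat_lit 0) (nat_lit 0) (XT.nd (nat_lit 78) (nat_lit 76) (nat_lit 0) (XT.lf (nat_lit 0) (nat_lit 33604937446) (nat_lit 152) (nat_lit 5794395321) (nat_lit 0) (nat_lit 32492952813) (nat_lit 2) (nat_lit 5) (nat_lit 4) (nat_lit 4) (nat_lit 2) (nat_lit 4) (nat_lit 355) (nat_lit 277) (nat_lit 268)) (XT.lf (nat_lit 0) (nat_lit 308236947) (nat_lit 76) (nat_lit 39131497722) (nat_lit 76) (nat_lit 37937061787) (nat_lit 1) (nat_lit 4) (nat_lit 2) (nat_lit 5) (nat_lit 2) (nat_lit 4) (nat_lit 356) (nat_lit 277) (nat_lit 267))) (XT.nd (nat_lit 78) (nat_lit 0) (nat_lit 0) (XT.lf (nat_lit 0) (nat_lit 6977970557) (nat_lit 76) (nat_lit 38795181923) (nat_lit 76) (nat_lit 37524402190) (nat_lit 1) (nat_lit 4) (nat_lit 2) (nat_lit 5) (nat_lit 2) (nat_lit 4) (nat_lit 357) (nat_lit 277) (nat_lit 266)) (XT.lf (nat_lit 0) (nat_lit 13949207265) (nat_lit 76) (nat_lit 38546821426) (nat_lit 76) (nat_lit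 37205352991) (nat_lit 1) (nat_lit 4) (nat_lit 2) (nat_lit 5) (nat_lit 2) (nat_lit 4) (nat_lit 358) (nat_lit 277) (nat_lit 265)))) (XT.nd (nat_lit 156) (nat_lit 0) (nat_lit 0) (XT.nd (nat_lit 78) (nat_lit 0) (nat_lit 0) (XT.lf (nat_lit 0) (nat_lit 21263258103) (nat_lit 76) (nat_lit 38384944465) (nat_lit 76) (nat_lit 36978023528) (nat_lit 1) (nat_lit 4) (nat_lit 2) (nat_lit 5) (nat_lit 2) (nat_lit 4) (nat_lit 359) (nat_lit 277) (nat_lit 264)) (XT.lf (nat_lit 0) (nat_lit 28963465596) (nat_lit 76) (nat_lit 38308591769) (nat_lit 76) (nat_lit 36841066664) (nat_lit 1) (nat_lit 4) (nat_lit 2) (nat_lit 5) (nat_lit 2) (nat_lit 4) (nat_lit 360) (nat_lit 277) (nat_lit 263))) (XT.nd (nat_lit 78) (nat_lit 0) (nat_lit 0) (XT.lf (nat_lit 0) (nat_lit 37095460603) (nat_lit 76) (nat_lit 38317310878) (nat_lit 76) (nat_lit 36793670802) (nat_lit 1) (nat_lit 4) (nat_lit 2) (nat_lit 5) (nat_lit 2) (nat_lit 4)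 (nat_lit 361) (nat_lit 277) (nat_lit 262)) (XT.lf (nat_lit 0) (nat_lit 45707432723) (nat_lit 76) (nat_lit 38411153460) (nat_lit 76) (nat_lit 36835555078) (nat_lit 1) (nat_lit 4) (nat_lit 2) (nat_lit 5) (nat_lit 2) (nat_lit 4) (nat_lit 362) (nat_lit 277) (nat_lit 261))))) (XT.nd (nat_lit 312) (nat_lit 0) (nat_lit 0) (XT.nd (nat_lit 156) (nat_lit 0) (nat_lit 0) (XT.nd (nat_lit 78) (nat_lit 0) (nat_lit 0) (XT.lf (nat_lit 0) (nat_lit 54850415866) (nat_lit 76) (nat_lit 38590675619) (nat_lit 76) (nat_lit 36966967695) (nat_lit 1) (nat_lit 4) (nat_lit 2) (nat_lit 5) (nat_lit 2) (nat_lit 4) (nat_lit 363) (nat_lit 277) (nat_lit 260)) (XT.lf (nat_lit 0) (nat_lit 64578590672) (nat_lit 76) (nat_lit 38856941191) (nat_lit 76) (nat_lit 37188687394) (nat_lit 1) (nat_lit 4) (nat_lit 2) (nat_lit 5) (nat_lit 2) (nat_lit 4) (nat_lit 364) (nat_lit 277) (nat_lit 259))) (XT.nd (nat_lit 78) (nat_lit 0) (nat_lit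 0) (XT.lf (nat_lit 0) (nat_lit 74949605584) (nat_lit 76) (nat_lit 39211528046) (nat_lit 76) (nat_lit 37502028070) (nat_lit 1) (nat_lit 4) (nat_lit 2) (nat_lit 5) (nat_lit 2) (nat_lit 4) (nat_lit 365) (nat_lit 277) (nat_lit 258)) (XT.lf (nat_lit 0) (nat_lit 86024918469) (nat_lit 76) (nat_lit 39656537439) (nat_lit 76) (nat_lit 37908846557) (nat_lit 1) (nat_lit 4) (nat_lit 2) (nat_lit 5) (nat_lit 2) (nat_lit 4) (nat_lit 366) (nat_lit 277) (nat_lit 257)))) (XT.nd (nat_lit 156) (nat_lit 0) (nat_lit 0) (XT.nd (nat_lit 78) (nat_lit 0) (nat_lit 0) (XT.lf (nat_lit 0) (nat_lit 97870160811) (nat_lit 76) (nat_lit 40194606462) (nat_lit 76) (nat_lit 38411553630) (nat_lit 1) (nat_lit 4) (nat_lit 2) (nat_lit 5) (nat_lit 2) (nat_lit 4) (nat_lit 367) (nat_lit 277) (nat_lit 256)) (XT.lf (nat_lit 0) (nat_lit 110555526638) (nat_lit 76) (nat_lit 40828923674) (nat_lit 76) (nat_lit 39013128295) (nat_lit 1) (nat_lit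 4) (nat_lit 2) (nat_lit 5) (nat_lit 2) (nat_lit 4) (nat_lit 368) (nat_lit 277) (nat_lit 255))) (XT.nd (nat_lit 78) (nat_lit 0) (nat_lit 0) (XT.lf (nat_lit 0) (nat_lit 124156188488) (nat_lit 76) (nat_lit 41563247990) (nat_lit 76) (nat_lit 39717135439) (nat_lit 1) (nat_lit 4) (nat_lit 2) (nat_lit 5) (nat_lit 2) (nat_lit 4) (nat_lit 369) (nat_lit 277) (nat_lit 254)) (XT.nd (nat_lit 78) (nat_lit 0) (nat_lit 0) (XT.lf (nat_lit 0) (nat_lit 138752742876) (nat_lit 76) (nat_lit 42401930962) (nat_lit 76) (nat_lit 40527746955) (nat_lit 1) (nat_lit 4) (nat_lit 2) (nat_lit 5) (nat_lit 2) (nat_lit 4) (nat_lit 370) (nat_lit 277) (nat_lit 253)) (XT.lf (nat_lit 0) (nat_lit 154431687902) (nat_lit 76) (nat_lit 43349942564) (nat_lit 76) (nat_lit 41449766468) (nat_lit 1) (nat_lit 4) (nat_lit 2) (nat_lit 5) (nat_lit 2) (nat_lit 4) (nat_lit 371) (nat_lit 277) (nat_lit 252))))))))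
noncomputable def xc34 : XT := (XT.nd (nat_lit 1248) (nat_lit 0) (nat_lit 0) (XT.nd (nat_lit 624) (nat_lit 0) (nat_lit 0) (XT.nd (nat_lit 312) (nat_lit 0) (nat_lit 0) (XT.nd (nat_lit 156) (nat_lit 0) (nat_lit 0) (XT.nd (nat_lit 78) (nat_lit 0) (nat_lit 0) (XT.lf (nat_lit 0) (nat_lit 171285935833) (nat_lit 76) (nat_lit 44412900642) (nat_lit 76) (nat_lit 42488657796) (nat_lit 1) (nat_lit 4) (nat_lit 2) (nat_lit 5) (nat_lit 2) (nat_lit 4) (nat_lit 372) (nat_lit 277) (nat_lit 251)) (XT.lf (nat_lit 0) (nat_lit 189415363695) (nat_lit 76) (nat_lit 45597104206) (nat_lit 76) (nat_lit 43650577334) (nat_lit 1) (nat_lit 4) (nat_lit 2) (nat_lit 5) (nat_lit 2) (nat_lit 4) (nat_lit 373) (nat_lit 277) (nat_lit 250))) (XT.nd (nat_lit 78) (nat_lit 0) (nat_lit 0) (XT.lf (nat_lit 0) (nat_lit 208927405132) (nat_lit 76) (nat_lit 46909570760) (nat_lit 76) (nat_lit 44942410530) (nat_lit 1) (nat_lit 4) (nat_lit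 2) (nat_lit 5) (nat_lit 2) (nat_lit 4) (nat_lit 374) (nat_lit 277) (nat_lit 249)) (XT.lf (nat_lit 0) (nat_lit 229937687058) (nat_lit 76) (nat_lit 48358077883) (nat_lit 76) (nat_lit 46371812691) (nat_lit 1) (nat_lit 4) (nat_lit 2) (nat_lit 5) (nat_lit 2) (nat_lit 4) (nat_lit 375) (nat_lit 277) (nat_lit 248)))) (XT.nd (nat_lit 156) (nat_lit 0) (nat_lit 0) (XT.nd (nat_lit 78) (nat_lit 0) (nat_lit 0) (XT.lf (nat_lit 0) (nat_lit 252570714847) (nat_lit 76) (nat_lit 49951209321) (nat_lit 76) (nat_lit 47947254350) (nat_lit 1) (nat_lit 4) (nat_lit 2) (nat_lit 5) (nat_lit 2) (nat_lit 4) (nat_lit 376) (nat_lit 277) (nat_lit 247)) (XT.lf (nat_lit 0) (nat_lit 276960610144) (nat_lit 76) (nat_lit 51698405852) (nat_lit 76) (nat_lit 49678071457) (nat_lit 1) (nat_lit 4) (nat_lit 2) (nat_lit 5) (nat_lit 2) (nat_lit 4) (nat_lit 377) (nat_lit 277) (nat_lit 246))) (XT.nd (nat_lit 78) (nat_lit 0) (nat_lit 0)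 (XT.lf (nat_lit 0) (nat_lit 303251905664) (nat_lit 76) (nat_lit 53610021235) (nat_lit 76) (nat_lit 51574520705) (nat_lit 1) (nat_lit 4) (nat_lit 2) (nat_lit 5) (nat_lit 2) (nat_lit 4) (nat_lit 378) (nat_lit 277) (nat_lit 245)) (XT.lf (nat_lit 0) (nat_lit 331600401676) (nat_lit 76) (nat_lit 55697383560) (nat_lit 76) (nat_lit 53647840313) (nat_lit 1) (nat_lit 4) (nat_lit 2) (nat_lit 5) (nat_lit 2) (nat_lit 4) (nat_lit 379) (nat_lit 277) (nat_lit 244))))) (XT.nd (nat_lit 312) (nat_lit 0) (nat_lit 0) (XT.nd (nat_lit 156) (nat_lit 0) (nat_lit 0) (XT.nd (nat_lit 78) (nat_lit 0) (nat_lit 0) (XT.lf (nat_lit 0) (nat_lit 362174089266) (nat_lit 76) (nat_lit 57972862381) (nat_lit 76) (nat_lit 55910316618) (nat_lit 1) (nat_lit 4) (nat_lit 2) (nat_lit 5) (nat_lit 2) (nat_lit 4) (nat_lit 380) (nat_lit 277) (nat_lit 243)) (XT.lf (nat_lit 0) (nat_lit 395154145844) (nat_lit 76) (nat_lit 60449942018) (nat_lit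 76) (nat_lit 58375356889) (nat_lit 1) (nat_lit 4) (nat_lit 2) (nat_lit 5) (nat_lit 2) (nat_lit 4) (nat_lit 381) (nat_lit 277) (nat_lit 242))) (XT.nd (nat_lit 78) (nat_lit 0) (nat_lit 0) (XT.lf (nat_lit 0) (nat_lit 430736008781) (nat_lit 76) (nat_lit 63143301461) (nat_lit 76) (nat_lit 61057568770) (nat_lit 1) (nat_lit 4) (nat_lit 2) (nat_lit 5) (nat_lit 2) (nat_lit 4) (nat_lit 382) (nat_lit 277) (nat_lit 241)) (XT.lf (nat_lit 0) (nat_lit 469130533562) (nat_lit 76) (nat_lit 66068901358) (nat_lit 76) (nat_lit 63972846852) (nat_lit 1) (nat_lit 4) (nat_lit 2) (nat_lit 5) (nat_lit 2) (nat_lit 4) (nat_lit 383) (nat_lit 277) (nat_lit 240)))) (XT.nd (nat_lit 156) (nat_lit 0) (nat_lit 0) (XT.nd (nat_lit 78) (nat_lit 0) (nat_lit 0) (XT.lf (nat_lit 0) (nat_lit 510565243296) (nat_lit 76) (nat_lit 69244078599) (nat_lit 76) (nat_lit 67138466855) (nat_lit 1) (nat_lit 4) (nat_lit 2) (nat_lit 5) (nat_lit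 2) (nat_lit 4) (nat_lit 384) (nat_lit 277) (nat_lit 239)) (XT.lf (nat_lit 0) (nat_lit 555285677004) (nat_lit 76) (nat_lit 72687649047) (nat_lit 76) (nat_lit 70573188010) (nat_lit 1) (nat_lit 4) (nat_lit 2) (nat_lit 5) (nat_lit 2) (nat_lit 4) (nat_lit 385) (nat_lit 277) (nat_lit 238))) (XT.nd (nat_lit 78) (nat_lit 0) (nat_lit 0) (XT.lf (nat_lit 0) (nat_lit 603556844664) (nat_lit 76) (nat_lit 76420019047) (nat_lit 76) (nat_lit 74297364219) (nat_lit 1) (nat_lit 4) (nat_lit 2) (nat_lit 5) (nat_lit 2) (nat_lit 4) (nat_lit 386) (nat_lit 277) (nat_lit 237)) (XT.lf (nat_lit 0) (nat_lit 655664797638) (nat_lit 76) (nat_lit 80463306346) (nat_lit 76) (nat_lit 78333064675) (nat_lit 1) (nat_lit 4) (nat_lit 2) (nat_lit 5) (nat_lit 2) (nat_lit 4) (nat_lit 387) (nat_lit 277) (nat_lit 236)))))) (XT.nd (nat_lit 624) (nat_lit 0) (nat_lit 0) (XT.nd (nat_lit 312) (nat_lit 0) (nat_lit 0) (XT.nd (nat_lit 156)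 (nat_lit 0) (nat_lit 0) (XT.nd (nat_lit 78) (nat_lit 0) (nat_lit 0) (XT.lf (nat_lit 0) (nat_lit 711918323798) (nat_lit 76) (nat_lit 84841471166) (nat_lit 76) (nat_lit 82704204641) (nat_lit 1) (nat_lit 4) (nat_lit 2) (nat_lit 5) (nat_lit 2) (nat_lit 4) (nat_lit 388) (nat_lit 277) (nat_lit 235)) (XT.lf (nat_lit 0) (nat_lit 772650777372) (nat_lit 76) (nat_lit 89580458187) (nat_lit 76) (nat_lit 87436687167) (nat_lit 1) (nat_lit 4) (nat_lit 2) (nat_lit 5) (nat_lit 2) (nat_lit 4) (nat_lit 389) (nat_lit 277) (nat_lit 234))) (XT.nd (nat_lit 78) (nat_lit 0) (nat_lit 0) (XT.lf (nat_lit 0) (nat_lit 838222054381) (nat_lit 76) (nat_lit 94708350295) (nat_lit 76) (nat_lit 92558556594) (nat_lit 1) (nat_lit 4) (nat_lit 2) (nat_lit 5) (nat_lit 2) (nat_lit 4) (nat_lit 390) (nat_lit 277) (nat_lit 233)) (XT.lf (nat_lit 0) (nat_lit 909020725355) (nat_lit 76) (nat_lit 100255534999) (nat_lit 76) (nat_lit 98100164742)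 (nat_lit 1) (nat_lit 4) (nat_lit 2) (nat_lit 5) (nat_lit 2) (nat_lit 4) (nat_lit 391) (nat_lit 277) (nat_lit 232)))) (XT.nd (nat_lit 156) (nat_lit 0) (nat_lit 0) (XT.nd (nat_lit 78) (nat_lit 0) (nat_lit 0) (XT.lf (nat_lit 0) (nat_lit 985466337975) (nat_lit 76) (nat_lit 106254884504) (nat_lit 76) (nat_lit 104094350769) (nat_lit 1) (nat_lit 4) (nat_lit 2) (nat_lit 5) (nat_lit 2) (nat_lit 4) (nat_lit 392) (nat_lit 277) (nat_lit 231)) (XT.lf (nat_lit 0) (nat_lit 1068011903278) (nat_lit 76) (nat_lit 112741950512) (nat_lit 76) (nat_lit 110576635779) (nat_lit 1) (nat_lit 4) (nat_lit 2) (nat_lit 5) (nat_lit 2) (nat_lit 4) (nat_lit 393) (nat_lit 277) (nat_lit 230))) (XT.nd (nat_lit 78) (nat_lit 0) (nat_lit 0) (XT.lf (nat_lit 0) (nat_lit 1157146580170) (nat_lit 76) (nat_lit 119755174894) (nat_lit 76) (nat_lit 117585433311) (nat_lit 1) (nat_lit 4) (nat_lit 2) (nat_lit 5) (nat_lit 2) (nat_lit 4)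 (nat_lit 394) (nat_lit 277) (nat_lit 229)) (XT.lf (nat_lit 0) (nat_lit 1253398574143) (nat_lit 76) (nat_lit 127336117500) (nat_lit 76) (nat_lit 125162276981) (nat_lit 1) (nat_lit 4) (nat_lit 2) (nat_lit 5) (nat_lit 2) (nat_lit 4) (nat_lit 395) (nat_lit 277) (nat_lit 228))))) (XT.nd (nat_lit 312) (nat_lit 0) (nat_lit 0) (XT.nd (nat_lit 156) (nat_lit 0) (nat_lit 0) (XT.nd (nat_lit 78) (nat_lit 0) (nat_lit 0) (XT.lf (nat_lit 0) (nat_lit 1357338267384) (nat_lit 76) (nat_lit 135529702433) (nat_lit 76) (nat_lit 133352066604) (nat_lit 1) (nat_lit 4) (nat_lit 2) (nat_lit 5) (nat_lit 2) (nat_lit 4) (nat_lit 396) (nat_lit 277) (nat_lit 227)) (XT.lf (nat_lit 0) (nat_lit 1469581598815) (nat_lit 76) (nat_lit 144384484270) (nat_lit 76) (nat_lit 142203334265) (nat_lit 1) (nat_lit 4) (nat_lit 2) (nat_lit 5) (nat_lit 2) (nat_lit 4) (nat_lit 397) (nat_lit 277) (nat_lit 226))) (XT.nd (nat_lit 78) (nat_lit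 0) (nat_lit 0) (XT.lf (nat_lit 0) (nat_lit 1590793714105) (nat_lit 76) (nat_lit 153952935794) (nat_lit 76) (nat_lit 151768531922) (nat_lit 1) (nat_lit 4) (nat_lit 2) (nat_lit 5) (nat_lit 2) (nat_lit 4) (nat_lit 398) (nat_lit 277) (nat_lit 225)) (XT.lf (nat_lit 0) (nat_lit 1721692907271) (nat_lit 76) (nat_lit 164291758939) (nat_lit 76) (nat_lit 162104342227) (nat_lit 1) (nat_lit 4) (nat_lit 2) (nat_lit 5) (nat_lit 2) (nat_lit 4) (nat_lit 399) (nat_lit 277) (nat_lit 224)))) (XT.nd (nat_lit 156) (nat_lit 0) (nat_lit 0) (XT.nd (nat_lit 78) (nat_lit 0) (nat_lit 0) (XT.lf (nat_lit 0) (nat_lit 1863054877233) (nat_lit 76) (nat_lit 175462220805) (nat_lit 76) (nat_lit 173272014427) (nat_lit 1) (nat_lit 4) (nat_lit 2) (nat_lit 5) (nat_lit 2) (nat_lit 4) (nat_lit 400) (nat_lit 277) (nat_lit 223)) (XT.lf (nat_lit 0) (nat_lit 2015717324556) (nat_lit 76) (nat_lit 187530516722) (nat_lit 76) (nat_lit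 185337727319) (nat_lit 1) (nat_lit 4) (nat_lit 2) (nat_lit 5) (nat_lit 2) (nat_lit 4) (nat_lit 401) (nat_lit 277) (nat_lit 222))) (XT.nd (nat_lit 78) (nat_lit 0) (nat_lit 0) (XT.lf (nat_lit 0) (nat_lit 2180584915594) (nat_lit 76) (nat_lit 200568162517) (nat_lit 76) (nat_lit 198372981425) (nat_lit 1) (nat_lit 4) (nat_lit 2) (nat_lit 5) (nat_lit 2) (nat_lit 4) (nat_lit 402) (nat_lit 277) (nat_lit 221)) (XT.lf (nat_lit 0) (nat_lit 2358634643479) (nat_lit 76) (nat_lit 214652418313) (nat_lit 76) (nat_lit 212455022694) (nat_lit 1) (nat_lit 4) (nat_lit 2) (nat_lit 5) (nat_lit 2) (nat_lit 4) (nat_lit 403) (nat_lit 277) (nat_lit 220)))))))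
noncomputable def xc35 : XT := (XT.nd (nat_lit 42822) (nat_lit 0) (nat_lit 0) (XT.nd (nat_lit 42198) (nat_lit 0) (nat_lit 76) (XT.nd (nat_lit 312) (nat_lit 0) (nat_lit 0) (XT.nd (nat_lit 156) (nat_lit 0) (nat_lit 0) (XT.nd (nat_lit 78) (nat_lit 0) (nat_lit 0) (XT.lf (nat_lit 0) (nat_lit 2550921617709) (nat_lit 76) (nat_lit 229866746368) (nat_lit 76) (nat_lit 227667300261) (nat_lit 1) (nat_lit 4) (nat_lit 2) (nat_lit 5) (nat_lit 2) (nat_lit 4) (nat_lit 404) (nat_lit 277) (nat_lit 219)) (XT.lf (nat_lit 0) (nat_lit 2758585316650) (nat_lit 76) (nat_lit 246301305662) (nat_lit 76) (nat_lit 244099960955) (nat_lit 1) (nat_lit 4) (nat_lit 2) (nat_lit 5) (nat_lit 2) (nat_lit 4) (nat_lit 405) (nat_lit 277) (nat_lit 218))) (XT.nd (nat_lit 78) (nat_lit 0) (nat_lit 0) (XT.lf (nat_lit 0) (nat_lit 2982856340000) (nat_lit 76) (nat_lit 264053486176) (nat_lit 76) (nat_lit 261850383506) (nat_lit 1) (nat_lit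 4) (nat_lit 2) (nat_lit 5) (nat_lit 2) (nat_lit 4) (nat_lit 406) (nat_lit 277) (nat_lit 217)) (XT.lf (nat_lit 0) (nat_lit 3225063701230) (nat_lit 76) (nat_lit 283228486017) (nat_lit 76) (nat_lit 281023755603) (nat_lit 1) (nat_lit 4) (nat_lit 2) (nat_lit 5) (nat_lit 2) (nat_lit 4) (nat_lit 407) (nat_lit 277) (nat_lit 216)))) (XT.nd (nat_lit 156) (nat_lit 0) (nat_lit 0) (XT.nd (nat_lit 78) (nat_lit 0) (nat_lit 0) (XT.lf (nat_lit 0) (nat_lit 3486642703222) (nat_lit 76) (nat_lit 303939934814) (nat_lit 76) (nat_lit 301733697230) (nat_lit 1) (nat_lit 4) (nat_lit 2) (nat_lit 5) (nat_lit 2) (nat_lit 4) (nat_lit 408) (nat_lit 277) (nat_lit 215)) (XT.lf (nat_lit 0) (nat_lit 3769143443765) (nat_lit 76) (nat_lit 326310567078) (nat_lit 76) (nat_lit 324102933966) (nat_lit 1) (nat_lit 4) (nat_lit 2) (nat_lit 5) (nat_lit 2) (nat_lit 4) (nat_lit 409) (nat_lit 277) (nat_lit 214))) (XT.nd (nat_lit 78) (nat_lit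 0) (nat_lit 0) (XT.lf (nat_lit 0) (nat_lit 4074240001322) (nat_lit 76) (nat_lit 350472949519) (nat_lit 76) (nat_lit 348264024252) (nat_lit 1) (nat_lit 4) (nat_lit 2) (nat_lit 5) (nat_lit 2) (nat_lit 4) (nat_lit 410) (nat_lit 277) (nat_lit 213)) (XT.lf (nat_lit 0) (nat_lit 4403740355494) (nat_lit 76) (nat_lit 376570266625) (nat_lit 76) (nat_lit 374360144918) (nat_lit 1) (nat_lit 4) (nat_lit 2) (nat_lit 5) (nat_lit 2) (nat_lit 4) (nat_lit 411) (nat_lit 277) (nat_lit 212))))) (XT.nd (nat_lit 312) (nat_lit 152) (nat_lit 0) (XT.nd (nat_lit 156) (nat_lit 0) (nat_lit 0) (XT.nd (nat_lit 78) (nat_lit 0) (nat_lit 0) (XT.lf (nat_lit 0) (nat_lit 883975940) (nat_lit 76) (nat_lit 7877562161) (nat_lit 76) (nat_lit 7877562161) (nat_lit 4) (nat_lit 4) (nat_lit 5) (nat_lit 5) (nat_lit 5) (nat_lit 4) (nat_lit 344) (nat_lit 278) (nat_lit 278)) (XT.lf (nat_lit 0) (nat_lit 11378591800) (nat_lit 76) (nat_lit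 12182504743) (nat_lit 76) (nat_lit 11990258072) (nat_lit 4) (nat_lit 4) (nat_lit 5) (nat_lit 5) (nat_lit 5) (nat_lit 4) (nat_lit 345) (nat_lit 278) (nat_lit 277))) (XT.nd (nat_lit 78) (nat_lit 0) (nat_lit 0) (XT.lf (nat_lit 0) (nat_lit 21296387091) (nat_lit 76) (nat_lit 8549599237) (nat_lit 76) (nat_lit 8179346389) (nat_lit 4) (nat_lit 4) (nat_lit 5) (nat_lit 5) (nat_lit 5) (nat_lit 4) (nat_lit 346) (nat_lit 278) (nat_lit 276)) (XT.lf (nat_lit 0) (nat_lit 31580109871) (nat_lit 76) (nat_lit 4834879476) (nat_lit 76) (nat_lit 4299806094) (nat_lit 4) (nat_lit 4) (nat_lit 5) (nat_lit 5) (nat_lit 5) (nat_lit 4) (nat_lit 347) (nat_lit 278) (nat_lit 275)))) (XT.nd (nat_lit 156) (nat_lit 0) (nat_lit 0) (XT.nd (nat_lit 78) (nat_lit 152) (nat_lit 0) (XT.lf (nat_lit 0) (nat_lit 42290700721) (nat_lit 76) (nat_lit 1016332306) (nat_lit 76) (nat_lit 328647319) (nat_lit 4) (nat_lit 4) (nat_lit 5) (nat_lit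 5) (nat_lit 5) (nat_lit 4) (nat_lit 348) (nat_lit 278) (nat_lit 274)) (XT.lf (nat_lit 0) (nat_lit 3813794820) (nat_lit 152) (nat_lit 39918533750) (nat_lit 0) (nat_lit 3046209608) (nat_lit 2) (nat_lit 5) (nat_lit 4) (nat_lit 4) (nat_lit 2) (nat_lit 4) (nat_lit 349) (nat_lit 278) (nat_lit 273))) (XT.nd (nat_lit 78) (nat_lit 0) (nat_lit 0) (XT.lf (nat_lit 0) (nat_lit 8142684005) (nat_lit 152) (nat_lit 34785735400) (nat_lit 0) (nat_lit 7253950780) (nat_lit 2) (nat_lit 5) (nat_lit 4) (nat_lit 4) (nat_lit 2) (nat_lit 4) (nat_lit 350) (nat_lit 278) (nat_lit 272)) (XT.lf (nat_lit 0) (nat_lit 12640735830) (nat_lit 152) (nat_lit 29592165380) (nat_lit 0) (nat_lit 11639828519) (nat_lit 2) (nat_lit 5) (nat_lit 4) (nat_lit 4) (nat_lit 2) (nat_lit 4) (nat_lit 351) (nat_lit 278) (nat_lit 271)))))) (XT.nd (nat_lit 624) (nat_lit 0) (nat_lit 0) (XT.nd (nat_lit 312) (nat_lit 76) (nat_lit 0) (XT.nd (nat_lit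 156) (nat_lit 0) (nat_lit 0) (XT.nd (nat_lit 78) (nat_lit 0) (nat_lit 0) (XT.lf (nat_lit 0) (nat_lit 17334605416) (nat_lit 152) (nat_lit 24307046979) (nat_lit 0) (nat_lit 16229833211) (nat_lit 2) (nat_lit 5) (nat_lit 4) (nat_lit 4) (nat_lit 2) (nat_lit 4) (nat_lit 352) (nat_lit 278) (nat_lit 270)) (XT.lf (nat_lit 0) (nat_lit 22252108288) (nat_lit 152) (nat_lit 18899060977) (nat_lit 0) (nat_lit 21051164884) (nat_lit 2) (nat_lit 5) (nat_lit 4) (nat_lit 4) (nat_lit 2) (nat_lit 4) (nat_lit 353) (nat_lit 278) (nat_lit 269))) (XT.nd (nat_lit 78) (nat_lit 0) (nat_lit 0) (XT.lf (nat_lit 0) (nat_lit 27422385202) (nat_lit 152) (nat_lit 13336160050) (nat_lit 0) (nat_lit 26132394392) (nat_lit 2) (nat_lit 5) (nat_lit 4) (nat_lit 4) (nat_lit 2) (nat_lit 4) (nat_lit 354) (nat_lit 278) (nat_lit 268)) (XT.lf (nat_lit 0) (nat_lit 32876074837) (nat_lit 152) (nat_lit 7585378859) (nat_lit 0) (nat_lit 31503632725)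 (nat_lit 2) (nat_lit 5) (nat_lit 4) (nat_lit 4) (nat_lit 2) (nat_lit 4) (nat_lit 355) (nat_lit 278) (nat_lit 267)))) (XT.nd (nat_lit 156) (nat_lit 0) (nat_lit 0) (XT.nd (nat_lit 78) (nat_lit 76) (nat_lit 0) (XT.lf (nat_lit 0) (nat_lit 38645495353) (nat_lit 152) (nat_lit 1612638700) (nat_lit 0) (nat_lit 37196709443) (nat_lit 2) (nat_lit 5) (nat_lit 4) (nat_lit 4) (nat_lit 2) (nat_lit 4) (nat_lit 356) (nat_lit 278) (nat_lit 266)) (XT.lf (nat_lit 0) (nat_lit 4860601410) (nat_lit 76) (nat_lit 40021132080) (nat_lit 76) (nat_lit 38501657469) (nat_lit 1) (nat_lit 4) (nat_lit 2) (nat_lit 5) (nat_lit 2) (nat_lit 4) (nat_lit 357) (nat_lit 278) (nat_lit 265))) (XT.nd (nat_lit 78) (nat_lit 0) (nat_lit 0) (XT.lf (nat_lit 0) (nat_lit 11728528115) (nat_lit 76) (nat_lit 39823902533) (nat_lit 76) (nat_lit 38238975420) (nat_lit 1) (nat_lit 4) (nat_lit 2) (nat_lit 5) (nat_lit 2) (nat_lit 4) (nat_lit 358)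 (nat_lit 278) (nat_lit 264)) (XT.lf (nat_lit 0) (nat_lit 18946921544) (nat_lit 76) (nat_lit 39709369044) (nat_lit 76) (nat_lit 38063837763) (nat_lit 1) (nat_lit 4) (nat_lit 2) (nat_lit 5) (nat_lit 2) (nat_lit 4) (nat_lit 359) (nat_lit 278) (nat_lit 263))))) (XT.nd (nat_lit 312) (nat_lit 0) (nat_lit 0) (XT.nd (nat_lit 156) (nat_lit 0) (nat_lit 0) (XT.nd (nat_lit 78) (nat_lit 0) (nat_lit 0) (XT.lf (nat_lit 0) (nat_lit 26558557361) (nat_lit 76) (nat_lit 39676852897) (nat_lit 76) (nat_lit 37975206644) (nat_lit 1) (nat_lit 4) (nat_lit 2) (nat_lit 5) (nat_lit 2) (nat_lit 4) (nat_lit 360) (nat_lit 278) (nat_lit 262)) (XT.lf (nat_lit 0) (nat_lit 34608541556) (nat_lit 76) (nat_lit 39726161402) (nat_lit 76) (nat_lit 37972556843) (nat_lit 1) (nat_lit 4) (nat_lit 2) (nat_lit 5) (nat_lit 2) (nat_lit 4) (nat_lit 361) (nat_lit 278) (nat_lit 261))) (XT.nd (nat_lit 78) (nat_lit 0) (nat_lit 0) (XT.lf (nat_lit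 0) (nat_lit 43144577740) (nat_lit 76) (nat_lit 39857586758) (nat_lit 76) (nat_lit 38055872657) (nat_lit 1) (nat_lit 4) (nat_lit 2) (nat_lit 5) (nat_lit 2) (nat_lit 4) (nat_lit 362) (nat_lit 278) (nat_lit 260)) (XT.lf (nat_lit 0) (nat_lit 52217249831) (nat_lit 76) (nat_lit 40071907783) (nat_lit 76) (nat_lit 38225647809) (nat_lit 1) (nat_lit 4) (nat_lit 2) (nat_lit 5) (nat_lit 2) (nat_lit 4) (nat_lit 363) (nat_lit 278) (nat_lit 259)))) (XT.nd (nat_lit 156) (nat_lit 0) (nat_lit 0) (XT.nd (nat_lit 78) (nat_lit 0) (nat_lit 0) (XT.lf (nat_lit 0) (nat_lit 61880321811) (nat_lit 76) (nat_lit 40370394527) (nat_lit 76) (nat_lit 38482888374) (nat_lit 1) (nat_lit 4) (nat_lit 2) (nat_lit 5) (nat_lit 2) (nat_lit 4) (nat_lit 364) (nat_lit 278) (nat_lit 258)) (XT.lf (nat_lit 0) (nat_lit 72191056329) (nat_lit 76) (nat_lit 40754815799) (nat_lit 76) (nat_lit 38829118741) (nat_lit 1) (nat_lit 4) (nat_lit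 2) (nat_lit 5) (nat_lit 2) (nat_lit 4) (nat_lit 365) (nat_lit 278) (nat_lit 257))) (XT.nd (nat_lit 78) (nat_lit 0) (nat_lit 0) (XT.lf (nat_lit 0) (nat_lit 83210554034) (nat_lit 76) (nat_lit 41227449653) (nat_lit 76) (nat_lit 39266390644) (nat_lit 1) (nat_lit 4) (nat_lit 2) (nat_lit 5) (nat_lit 2) (nat_lit 4) (nat_lit 366) (nat_lit 278) (nat_lit 256)) (XT.nd (nat_lit 78) (nat_lit 0) (nat_lit 0) (XT.lf (nat_lit 0) (nat_lit 95004115654) (nat_lit 76) (nat_lit 41791096882) (nat_lit 76) (nat_lit 39797295326) (nat_lit 1) (nat_lit 4) (nat_lit 2) (nat_lit 5) (nat_lit 2) (nat_lit 4) (nat_lit 367) (nat_lit 278) (nat_lit 255)) (XT.lf (nat_lit 0) (nat_lit 107641628960) (nat_lit 76) (nat_lit 42449097616) (nat_lit 76) (nat_lit 40424978888) (nat_lit 1) (nat_lit 4) (nat_lit 2) (nat_lit 5) (nat_lit 2) (nat_lit 4) (nat_lit 368) (nat_lit 278) (nat_lit 254))))))))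
noncomputable def xc36 : XT := (XT.nd (nat_lit 1248) (nat_lit 0) (nat_lit 0) (XT.nd (nat_lit 624) (nat_lit 0) (nat_lit 0) (XT.nd (nat_lit 312) (nat_lit 0) (nat_lit 0) (XT.nd (nat_lit 156) (nat_lit 0) (nat_lit 0) (XT.nd (nat_lit 78) (nat_lit 0) (nat_lit 0) (XT.lf (nat_lit 0) (nat_lit 121197982921) (nat_lit 76) (nat_lit 43205351120) (nat_lit 76) (nat_lit 41153160936) (nat_lit 1) (nat_lit 4) (nat_lit 2) (nat_lit 5) (nat_lit 2) (nat_lit 4) (nat_lit 369) (nat_lit 278) (nat_lit 253)) (XT.lf (nat_lit 0) (nat_lit 135753511485) (nat_lit 76) (nat_lit 44064338896) (nat_lit 76) (nat_lit 41986156623) (nat_lit 1) (nat_lit 4) (nat_lit 2) (nat_lit 5) (nat_lit 2) (nat_lit 4) (nat_lit 370) (nat_lit 278) (nat_lit 252))) (XT.nd (nat_lit 78) (nat_lit 0) (nat_lit 0) (XT.lf (nat_lit 0) (nat_lit 151394469638) (nat_lit 76) (nat_lit 45031151242) (nat_lit 76) (nat_lit 42928902220) (nat_lit 1) (nat_lit 4) (nat_lit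 2) (nat_lit 5) (nat_lit 2) (nat_lit 4) (nat_lit 371) (nat_lit 278) (nat_lit 251)) (XT.lf (nat_lit 0) (nat_lit 168213544538) (nat_lit 76) (nat_lit 46111517416) (nat_lit 76) (nat_lit 43986984368) (nat_lit 1) (nat_lit 4) (nat_lit 2) (nat_lit 5) (nat_lit 2) (nat_lit 4) (nat_lit 372) (nat_lit 278) (nat_lit 250)))) (XT.nd (nat_lit 156) (nat_lit 0) (nat_lit 0) (XT.nd (nat_lit 78) (nat_lit 0) (nat_lit 0) (XT.lf (nat_lit 0) (nat_lit 186310404778) (nat_lit 76) (nat_lit 47311839589) (nat_lit 76) (nat_lit 45166673182) (nat_lit 1) (nat_lit 4) (nat_lit 2) (nat_lit 5) (nat_lit 2) (nat_lit 4) (nat_lit 373) (nat_lit 278) (nat_lit 249)) (XT.lf (nat_lit 0) (nat_lit 205792291010) (nat_lit 76) (nat_lit 48639230779) (nat_lit 76) (nat_lit 46474959411) (nat_lit 1) (nat_lit 4) (nat_lit 2) (nat_lit 5) (nat_lit 2) (nat_lit 4) (nat_lit 374) (nat_lit 278) (nat_lit 248))) (XT.nd (nat_lit 78) (nat_lit 0) (nat_lit 0)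 (XT.lf (nat_lit 0) (nat_lit 226774651450) (nat_lit 76) (nat_lit 50101557011) (nat_lit 76) (nat_lit 47919595863) (nat_lit 1) (nat_lit 4) (nat_lit 2) (nat_lit 5) (nat_lit 2) (nat_lit 4) (nat_lit 375) (nat_lit 278) (nat_lit 247)) (XT.lf (nat_lit 0) (nat_lit 249381826011) (nat_lit 76) (nat_lit 51707483919) (nat_lit 76) (nat_lit 49509143346) (nat_lit 1) (nat_lit 4) (nat_lit 2) (nat_lit 5) (nat_lit 2) (nat_lit 4) (nat_lit 376) (nat_lit 278) (nat_lit 246))))) (XT.nd (nat_lit 312) (nat_lit 0) (nat_lit 0) (XT.nd (nat_lit 156) (nat_lit 0) (nat_lit 0) (XT.nd (nat_lit 78) (nat_lit 0) (nat_lit 0) (XT.lf (nat_lit 0) (nat_lit 273747783134) (nat_lit 76) (nat_lit 53466528108) (nat_lit 76) (nat_lit 51253021402) (nat_lit 1) (nat_lit 4) (nat_lit 2) (nat_lit 5) (nat_lit 2) (nat_lit 4) (nat_lit 377) (nat_lit 278) (nat_lit 245)) (XT.lf (nat_lit 0) (nat_lit 300016913678) (nat_lit 76) (nat_lit 55389113544) (nat_lit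 76) (nat_lit 53161564121) (nat_lit 1) (nat_lit 4) (nat_lit 2) (nat_lit 5) (nat_lit 2) (nat_lit 4) (nat_lit 378) (nat_lit 278) (nat_lit 244))) (XT.nd (nat_lit 78) (nat_lit 0) (nat_lit 0) (XT.lf (nat_lit 0) (nat_lit 328344886564) (nat_lit 76) (nat_lit 57486633326) (nat_lit 76) (nat_lit 55246081387) (nat_lit 1) (nat_lit 4) (nat_lit 2) (nat_lit 5) (nat_lit 2) (nat_lit 4) (nat_lit 379) (nat_lit 278) (nat_lit 243)) (XT.lf (nat_lit 0) (nat_lit 358899571260) (nat_lit 76) (nat_lit 59771517200) (nat_lit 76) (nat_lit 57518925895) (nat_lit 1) (nat_lit 4) (nat_lit 2) (nat_lit 5) (nat_lit 2) (nat_lit 4) (nat_lit 380) (nat_lit 278) (nat_lit 242)))) (XT.nd (nat_lit 156) (nat_lit 0) (nat_lit 0) (XT.nd (nat_lit 78) (nat_lit 0) (nat_lit 0) (XT.lf (nat_lit 0) (nat_lit 391862032566) (nat_lit 76) (nat_lit 62257305219) (nat_lit 76) (nat_lit 59993566352) (nat_lit 1) (nat_lit 4) (nat_lit 2) (nat_lit 5) (nat_lit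 2) (nat_lit 4) (nat_lit 381) (nat_lit 278) (nat_lit 241)) (XT.lf (nat_lit 0) (nat_lit 427427603584) (nat_lit 76) (nat_lit 64958727979) (nat_lit 76) (nat_lit 62684667296) (nat_lit 1) (nat_lit 4) (nat_lit 2) (nat_lit 5) (nat_lit 2) (nat_lit 4) (nat_lit 382) (nat_lit 278) (nat_lit 240))) (XT.nd (nat_lit 78) (nat_lit 0) (nat_lit 0) (XT.lf (nat_lit 0) (nat_lit 465807043254) (nat_lit 76) (nat_lit 67891793911) (nat_lit 76) (nat_lit 65608175991) (nat_lit 1) (nat_lit 4) (nat_lit 2) (nat_lit 5) (nat_lit 2) (nat_lit 4) (nat_lit 383) (nat_lit 278) (nat_lit 239)) (XT.lf (nat_lit 0) (nat_lit 507227785294) (nat_lit 76) (nat_lit 71073884146) (nat_lit 76) (nat_lit 68781416932) (nat_lit 1) (nat_lit 4) (nat_lit 2) (nat_lit 5) (nat_lit 2) (nat_lit 4) (nat_lit 384) (nat_lit 278) (nat_lit 238)))))) (XT.nd (nat_lit 624) (nat_lit 0) (nat_lit 0) (XT.nd (nat_lit 312) (nat_lit 0) (nat_lit 0) (XT.nd (nat_lit 156)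 (nat_lit 0) (nat_lit 0) (XT.nd (nat_lit 78) (nat_lit 0) (nat_lit 0) (XT.lf (nat_lit 0) (nat_lit 551935285951) (nat_lit 76) (nat_lit 74523855515) (nat_lit 76) (nat_lit 72223194511) (nat_lit 1) (nat_lit 4) (nat_lit 2) (nat_lit 5) (nat_lit 2) (nat_lit 4) (nat_lit 385) (nat_lit 278) (nat_lit 237)) (XT.lf (nat_lit 0) (nat_lit 600194478564) (nat_lit 76) (nat_lit 78262152294) (nat_lit 76) (nat_lit 75953904446) (nat_lit 1) (nat_lit 4) (nat_lit 2) (nat_lit 5) (nat_lit 2) (nat_lit 4) (nat_lit 386) (nat_lit 278) (nat_lit 236))) (XT.nd (nat_lit 78) (nat_lit 0) (nat_lit 0) (XT.lf (nat_lit 0) (nat_lit 652291343533) (nat_lit 76) (nat_lit 82310927351) (nat_lit 76) (nat_lit 79995654649) (nat_lit 1) (nat_lit 4) (nat_lit 2) (nat_lit 5) (nat_lit 2) (nat_lit 4) (nat_lit 387) (nat_lit 278) (nat_lit 235)) (XT.lf (nat_lit 0) (nat_lit 708534603020) (nat_lit 76) (nat_lit 86694173429) (nat_lit 76) (nat_lit 84372396231)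 (nat_lit 1) (nat_lit 4) (nat_lit 2) (nat_lit 5) (nat_lit 2) (nat_lit 4) (nat_lit 388) (nat_lit 278) (nat_lit 234)))) (XT.nd (nat_lit 156) (nat_lit 0) (nat_lit 0) (XT.nd (nat_lit 78) (nat_lit 0) (nat_lit 0) (XT.lf (nat_lit 0) (nat_lit 769257550415) (nat_lit 76) (nat_lit 91437865317) (nat_lit 76) (nat_lit 89110065440) (nat_lit 1) (nat_lit 4) (nat_lit 2) (nat_lit 5) (nat_lit 2) (nat_lit 4) (nat_lit 389) (nat_lit 278) (nat_lit 233)) (XT.lf (nat_lit 0) (nat_lit 834820025407) (nat_lit 76) (nat_lit 96570113785) (nat_lit 76) (nat_lit 94236737351) (nat_lit 1) (nat_lit 4) (nat_lit 2) (nat_lit 5) (nat_lit 2) (nat_lit 4) (nat_lit 390) (nat_lit 278) (nat_lit 232))) (XT.nd (nat_lit 78) (nat_lit 0) (nat_lit 0) (XT.lf (nat_lit 0) (nat_lit 905610546366) (nat_lit 76) (nat_lit 102121332154) (nat_lit 76) (nat_lit 99782792243) (nat_lit 1) (nat_lit 4) (nat_lit 2) (nat_lit 5) (nat_lit 2) (nat_lit 4) (nat_lit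 391) (nat_lit 278) (nat_lit 231)) (XT.lf (nat_lit 0) (nat_lit 982048612675) (nat_lit 76) (nat_lit 108124416536) (nat_lit 76) (nat_lit 105781095626) (nat_lit 1) (nat_lit 4) (nat_lit 2) (nat_lit 5) (nat_lit 2) (nat_lit 4) (nat_lit 392) (nat_lit 278) (nat_lit 230))))) (XT.nd (nat_lit 312) (nat_lit 0) (nat_lit 0) (XT.nd (nat_lit 156) (nat_lit 0) (nat_lit 0) (XT.nd (nat_lit 78) (nat_lit 0) (nat_lit 0) (XT.lf (nat_lit 0) (nat_lit 1064587190653) (nat_lit 76) (nat_lit 114614940762) (nat_lit 76) (nat_lit 112267193002) (nat_lit 1) (nat_lit 4) (nat_lit 2) (nat_lit 5) (nat_lit 2) (nat_lit 4) (nat_lit 393) (nat_lit 278) (nat_lit 229)) (XT.lf (nat_lit 0) (nat_lit 1153715397800) (nat_lit 76) (nat_lit 121631367198) (nat_lit 76) (nat_lit 119279520503) (nat_lit 1) (nat_lit 4) (nat_lit 2) (nat_lit 5) (nat_lit 2) (nat_lit 4) (nat_lit 394) (nat_lit 278) (nat_lit 228))) (XT.nd (nat_lit 78) (nat_lit 0) (nat_lit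 0) (XT.lf (nat_lit 0) (nat_lit 1249961401268) (nat_lit 76) (nat_lit 129215274668) (nat_lit 76) (nat_lit 126859632663) (nat_lit 1) (nat_lit 4) (nat_lit 2) (nat_lit 5) (nat_lit 2) (nat_lit 4) (nat_lit 395) (nat_lit 278) (nat_lit 227)) (XT.lf (nat_lit 0) (nat_lit 1353895547745) (nat_lit 76) (nat_lit 137411604847) (nat_lit 76) (nat_lit 135052448665) (nat_lit 1) (nat_lit 4) (nat_lit 2) (nat_lit 5) (nat_lit 2) (nat_lit 4) (nat_lit 396) (nat_lit 278) (nat_lit 226)))) (XT.nd (nat_lit 156) (nat_lit 0) (nat_lit 0) (XT.nd (nat_lit 78) (nat_lit 0) (nat_lit 0) (XT.lf (nat_lit 0) (nat_lit 1466133743285) (nat_lit 76) (nat_lit 146268928578) (nat_lit 76) (nat_lit 143906518530) (nat_lit 1) (nat_lit 4) (nat_lit 2) (nat_lit 5) (nat_lit 2) (nat_lit 4) (nat_lit 397) (nat_lit 278) (nat_lit 225)) (XT.lf (nat_lit 0) (nat_lit 1587341103119) (nat_lit 76) (nat_lit 155839733707) (nat_lit 76) (nat_lit 153474310819)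 (nat_lit 1) (nat_lit 4) (nat_lit 2) (nat_lit 5) (nat_lit 2) (nat_lit 4) (nat_lit 398) (nat_lit 278) (nat_lit 224))) (XT.nd (nat_lit 78) (nat_lit 0) (nat_lit 0) (XT.lf (nat_lit 0) (nat_lit 1718235893084) (nat_lit 76) (nat_lit 166180736116) (nat_lit 76) (nat_lit 163812523562) (nat_lit 1) (nat_lit 4) (nat_lit 2) (nat_lit 5) (nat_lit 2) (nat_lit 4) (nat_lit 399) (nat_lit 278) (nat_lit 223)) (XT.lf (nat_lit 0) (nat_lit 1859593786010) (nat_lit 76) (nat_lit 177353215819) (nat_lit 76) (nat_lit 174982420240) (nat_lit 1) (nat_lit 4) (nat_lit 2) (nat_lit 5) (nat_lit 2) (nat_lit 4) (nat_lit 400) (nat_lit 278) (nat_lit 222)))))))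
noncomputable def xc37 : XT := (XT.nd (nat_lit 42666) (nat_lit 0) (nat_lit 0) (XT.nd (nat_lit 624) (nat_lit 0) (nat_lit 0) (XT.nd (nat_lit 312) (nat_lit 0) (nat_lit 0) (XT.nd (nat_lit 156) (nat_lit 0) (nat_lit 0) (XT.nd (nat_lit 78) (nat_lit 0) (nat_lit 0) (XT.lf (nat_lit 0) (nat_lit 2012252458299) (nat_lit 76) (nat_lit 189423380104) (nat_lit 76) (nat_lit 187050192835) (nat_lit 1) (nat_lit 4) (nat_lit 2) (nat_lit 5) (nat_lit 2) (nat_lit 4) (nat_lit 401) (nat_lit 278) (nat_lit 221)) (XT.lf (nat_lit 0) (nat_lit 2177116553935) (nat_lit 76) (nat_lit 202462755869) (nat_lit 76) (nat_lit 200087354073) (nat_lit 1) (nat_lit 4) (nat_lit 2) (nat_lit 5) (nat_lit 2) (nat_lit 4) (nat_lit 402) (nat_lit 278) (nat_lit 220))) (XT.nd (nat_lit 78) (nat_lit 0) (nat_lit 0) (XT.lf (nat_lit 0) (nat_lit 2355163045336) (nat_lit 76) (nat_lit 216548613490) (nat_lit 76) (nat_lit 214171161206) (nat_lit 1) (nat_lit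 4) (nat_lit 2) (nat_lit 5) (nat_lit 2) (nat_lit 4) (nat_lit 403) (nat_lit 278) (nat_lit 219)) (XT.lf (nat_lit 0) (nat_lit 2547447022822) (nat_lit 76) (nat_lit 231764424715) (nat_lit 76) (nat_lit 229385073831) (nat_lit 1) (nat_lit 4) (nat_lit 2) (nat_lit 5) (nat_lit 2) (nat_lit 4) (nat_lit 404) (nat_lit 278) (nat_lit 218)))) (XT.nd (nat_lit 156) (nat_lit 0) (nat_lit 0) (XT.nd (nat_lit 78) (nat_lit 0) (nat_lit 0) (XT.lf (nat_lit 0) (nat_lit 2755107947001) (nat_lit 76) (nat_lit 248200357315) (nat_lit 76) (nat_lit 245819248468) (nat_lit 1) (nat_lit 4) (nat_lit 2) (nat_lit 5) (nat_lit 2) (nat_lit 4) (nat_lit 405) (nat_lit 278) (nat_lit 217)) (XT.lf (nat_lit 0) (nat_lit 2979376401126) (nat_lit 76) (nat_lit 265953809409) (nat_lit 76) (nat_lit 263571072819) (nat_lit 1) (nat_lit 4) (nat_lit 2) (nat_lit 5) (nat_lit 2) (nat_lit 4) (nat_lit 406) (nat_lit 278) (nat_lit 216))) (XT.nd (nat_lit 78) (nat_lit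 0) (nat_lit 0) (XT.lf (nat_lit 0) (nat_lit 3221581383444) (nat_lit 76) (nat_lit 285129986639) (nat_lit 76) (nat_lit 282745742879) (nat_lit 1) (nat_lit 4) (nat_lit 2) (nat_lit 5) (nat_lit 2) (nat_lit 4) (nat_lit 407) (nat_lit 278) (nat_lit 215)) (XT.lf (nat_lit 0) (nat_lit 3483158182740) (nat_lit 76) (nat_lit 305842525611) (nat_lit 76) (nat_lit 303456886322) (nat_lit 1) (nat_lit 4) (nat_lit 2) (nat_lit 5) (nat_lit 2) (nat_lit 4) (nat_lit 408) (nat_lit 278) (nat_lit 214))))) (XT.nd (nat_lit 41730) (nat_lit 0) (nat_lit 228) (XT.nd (nat_lit 156) (nat_lit 0) (nat_lit 0) (XT.nd (nat_lit 78) (nat_lit 0) (nat_lit 0) (XT.lf (nat_lit 0) (nat_lit 3765656883749) (nat_lit 76) (nat_lit 328214167296) (nat_lit 76) (nat_lit 325827235852) (nat_lit 1) (nat_lit 4) (nat_lit 2) (nat_lit 5) (nat_lit 2) (nat_lit 4) (nat_lit 409) (nat_lit 278) (nat_lit 213)) (XT.lf (nat_lit 0) (nat_lit 4070751552850) (nat_lit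 76) (nat_lit 352377484385) (nat_lit 76) (nat_lit 349989356502) (nat_lit 1) (nat_lit 4) (nat_lit 2) (nat_lit 5) (nat_lit 2) (nat_lit 4) (nat_lit 410) (nat_lit 278) (nat_lit 212))) (XT.nd (nat_lit 41496) (nat_lit 0) (nat_lit 304) (XT.lf (nat_lit 0) (nat_lit 4400250158449) (nat_lit 76) (nat_lit 378475666907) (nat_lit 76) (nat_lit 376086431208) (nat_lit 1) (nat_lit 4) (nat_lit 2) (nat_lit 5) (nat_lit 2) (nat_lit 4) (nat_lit 411) (nat_lit 278) (nat_lit 211)) (XT.lf (nat_lit 0) (nat_lit 3391321966) (nat_lit 152) (nat_lit 7836960599) (nat_lit 0) (nat_lit 3391321966) (nat_lit 5) (nat_lit 5) (nat_lit 7) (nat_lit 4) (nat_lit 5) (nat_lit 4) (nat_lit 342) (nat_lit 279) (nat_lit 279)))) (XT.nd (nat_lit 156) (nat_lit 0) (nat_lit 0) (XT.nd (nat_lit 78) (nat_lit 76) (nat_lit 0) (XT.lf (nat_lit 0) (nat_lit 12086370286) (nat_lit 152) (nat_lit 7212677780) (nat_lit 0) (nat_lit 11878743882) (nat_lit 5) (nat_lit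 5) (nat_lit 7) (nat_lit 4) (nat_lit 5) (nat_lit 4) (nat_lit 343) (nat_lit 279) (nat_lit 278)) (XT.lf (nat_lit 0) (nat_lit 1528225202) (nat_lit 76) (nat_lit 16079849540) (nat_lit 76) (nat_lit 15679976465) (nat_lit 4) (nat_lit 4) (nat_lit 5) (nat_lit 5) (nat_lit 5) (nat_lit 4) (nat_lit 344) (nat_lit 279) (nat_lit 277))) (XT.nd (nat_lit 78) (nat_lit 0) (nat_lit 0) (XT.lf (nat_lit 0) (nat_lit 10916895976) (nat_lit 76) (nat_lit 12615654787) (nat_lit 76) (nat_lit 12037775535) (nat_lit 4) (nat_lit 4) (nat_lit 5) (nat_lit 5) (nat_lit 5) (nat_lit 4) (nat_lit 345) (nat_lit 279) (nat_lit 276)) (XT.lf (nat_lit 0) (nat_lit 20629164280) (nat_lit 76) (nat_lit 9083142640) (nat_lit 76) (nat_lit 8340442854) (nat_lit 4) (nat_lit 4) (nat_lit 5) (nat_lit 5) (nat_lit 5) (nat_lit 4) (nat_lit 346) (nat_lit 279) (nat_lit 275)))))) (XT.nd (nat_lit 624) (nat_lit 76) (nat_lit 0) (XT.nd (nat_lit 312) (nat_lit 0)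 (nat_lit 0) (XT.nd (nat_lit 156) (nat_lit 152) (nat_lit 0) (XT.nd (nat_lit 78) (nat_lit 0) (nat_lit 0) (XT.lf (nat_lit 0) (nat_lit 30722584295) (nat_lit 76) (nat_lit 5461379692) (nat_lit 76) (nat_lit 4566068301) (nat_lit 4) (nat_lit 4) (nat_lit 5) (nat_lit 5) (nat_lit 5) (nat_lit 4) (nat_lit 347) (nat_lit 279) (nat_lit 274)) (XT.lf (nat_lit 0) (nat_lit 41256968880) (nat_lit 76) (nat_lit 1728903645) (nat_lit 76) (nat_lit 692285212) (nat_lit 4) (nat_lit 4) (nat_lit 5) (nat_lit 5) (nat_lit 5) (nat_lit 4) (nat_lit 348) (nat_lit 279) (nat_lit 273))) (XT.nd (nat_lit 78) (nat_lit 0) (nat_lit 0) (XT.lf (nat_lit 0) (nat_lit 3331275773) (nat_lit 152) (nat_lit 41251134795) (nat_lit 0) (nat_lit 2250295878) (nat_lit 2) (nat_lit 5) (nat_lit 4) (nat_lit 4) (nat_lit 2) (nat_lit 4) (nat_lit 349) (nat_lit 279) (nat_lit 272)) (XT.lf (nat_lit 0) (nat_lit 7574997413) (nat_lit 152) (nat_lit 36286534617) (nat_lit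 0) (nat_lit 6381843431) (nat_lit 2) (nat_lit 5) (nat_lit 4) (nat_lit 4) (nat_lit 2) (nat_lit 4) (nat_lit 350) (nat_lit 279) (nat_lit 271)))) (XT.nd (nat_lit 156) (nat_lit 0) (nat_lit 0) (XT.nd (nat_lit 78) (nat_lit 0) (nat_lit 0) (XT.lf (nat_lit 0) (nat_lit 11994190399) (nat_lit 152) (nat_lit 31248703645) (nat_lit 0) (nat_lit 10697171523) (nat_lit 2) (nat_lit 5) (nat_lit 4) (nat_lit 4) (nat_lit 2) (nat_lit 4) (nat_lit 351) (nat_lit 279) (nat_lit 270)) (XT.lf (nat_lit 0) (nat_lit 16615042542) (nat_lit 152) (nat_lit 26107788067) (nat_lit 0) (nat_lit 15221852467) (nat_lit 2) (nat_lit 5) (nat_lit 4) (nat_lit 4) (nat_lit 2) (nat_lit 4) (nat_lit 352) (nat_lit 279) (nat_lit 269))) (XT.nd (nat_lit 78) (nat_lit 0) (nat_lit 0) (XT.lf (nat_lit 0) (nat_lit 21464936669) (nat_lit 152) (nat_lit 20833323198) (nat_lit 0) (nat_lit 19982699189) (nat_lit 2) (nat_lit 5) (nat_lit 4) (nat_lit 4) (nat_lit 2)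 (nat_lit 4) (nat_lit 353) (nat_lit 279) (nat_lit 268)) (XT.lf (nat_lit 0) (nat_lit 26572612895) (nat_lit 152) (nat_lit 15394052948) (nat_lit 0) (nat_lit 25007924112) (nat_lit 2) (nat_lit 5) (nat_lit 4) (nat_lit 4) (nat_lit 2) (nat_lit 4) (nat_lit 354) (nat_lit 279) (nat_lit 267))))) (XT.nd (nat_lit 312) (nat_lit 0) (nat_lit 0) (XT.nd (nat_lit 156) (nat_lit 76) (nat_lit 0) (XT.nd (nat_lit 78) (nat_lit 0) (nat_lit 0) (XT.lf (nat_lit 0) (nat_lit 31968338929) (nat_lit 152) (nat_lit 9757744607) (nat_lit 0) (nat_lit 30327306349) (nat_lit 2) (nat_lit 5) (nat_lit 4) (nat_lit 4) (nat_lit 2) (nat_lit 4) (nat_lit 355) (nat_lit 279) (nat_lit 266)) (XT.lf (nat_lit 0) (nat_lit 37684089445) (nat_lit 152) (nat_lit 3890997827) (nat_lit 0) (nat_lit 35972368163) (nat_lit 2) (nat_lit 5) (nat_lit 4) (nat_lit 4) (nat_lit 2) (nat_lit 4) (nat_lit 356) (nat_lit 279) (nat_lit 265))) (XT.nd (nat_lit 78) (nat_lit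 0) (nat_lit 0) (XT.lf (nat_lit 0) (nat_lit 2358957925) (nat_lit 76) (nat_lit 41451510626) (nat_lit 76) (nat_lit 39674336842) (nat_lit 1) (nat_lit 4) (nat_lit 2) (nat_lit 5) (nat_lit 2) (nat_lit 4) (nat_lit 357) (nat_lit 279) (nat_lit 264)) (XT.lf (nat_lit 0) (nat_lit 9131227220) (nat_lit 76) (nat_lit 41301624551) (nat_lit 76) (nat_lit 39463846599) (nat_lit 1) (nat_lit 4) (nat_lit 2) (nat_lit 5) (nat_lit 2) (nat_lit 4) (nat_lit 358) (nat_lit 279) (nat_lit 263)))) (XT.nd (nat_lit 156) (nat_lit 0) (nat_lit 0) (XT.nd (nat_lit 78) (nat_lit 0) (nat_lit 0) (XT.lf (nat_lit 0) (nat_lit 16261048973) (nat_lit 76) (nat_lit 41230927610) (nat_lit 76) (nat_lit 39337034687) (nat_lit 1) (nat_lit 4) (nat_lit 2) (nat_lit 5) (nat_lit 2) (nat_lit 4) (nat_lit 359) (nat_lit 279) (nat_lit 262)) (XT.lf (nat_lit 0) (nat_lit 23790673979) (nat_lit 76) (nat_lit 41239000859) (nat_lit 76) (nat_lit 39293149630) (nat_lit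 1) (nat_lit 4) (nat_lit 2) (nat_lit 5) (nat_lit 2) (nat_lit 4) (nat_lit 360) (nat_lit 279) (nat_lit 261))) (XT.nd (nat_lit 78) (nat_lit 0) (nat_lit 0) (XT.lf (nat_lit 0) (nat_lit 31764722239) (nat_lit 76) (nat_lit 41325892139) (nat_lit 76) (nat_lit 39331931367) (nat_lit 1) (nat_lit 4) (nat_lit 2) (nat_lit 5) (nat_lit 2) (nat_lit 4) (nat_lit 361) (nat_lit 279) (nat_lit 260)) (XT.nd (nat_lit 78) (nat_lit 0) (nat_lit 0) (XT.lf (nat_lit 0) (nat_lit 40230447371) (nat_lit 76) (nat_lit 41492116360) (nat_lit 76) (nat_lit 39453609715) (nat_lit 1) (nat_lit 4) (nat_lit 2) (nat_lit 5) (nat_lit 2) (nat_lit 4) (nat_lit 362) (nat_lit 279) (nat_lit 259)) (XT.lf (nat_lit 0) (nat_lit 49238016636) (nat_lit 76) (nat_lit 41738658557) (nat_lit 76) (nat_lit 39658905733) (nat_lit 1) (nat_lit 4) (nat_lit 2) (nat_lit 5) (nat_lit 2) (nat_lit 4) (nat_lit 363) (nat_lit 279) (nat_lit 258))))))))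
noncomputable def xc38 : XT := (XT.nd (nat_lit 1248) (nat_lit 0) (nat_lit 0) (XT.nd (nat_lit 624) (nat_lit 0) (nat_lit 0) (XT.nd (nat_lit 312) (nat_lit 0) (nat_lit 0) (XT.nd (nat_lit 156) (nat_lit 0) (nat_lit 0) (XT.nd (nat_lit 78) (nat_lit 0) (nat_lit 0) (XT.lf (nat_lit 0) (nat_lit 58840808221) (nat_lit 76) (nat_lit 42066979718) (nat_lit 76) (nat_lit 39949035989) (nat_lit 1) (nat_lit 4) (nat_lit 2) (nat_lit 5) (nat_lit 2) (nat_lit 4) (nat_lit 364) (nat_lit 279) (nat_lit 257)) (XT.lf (nat_lit 0) (nat_lit 69095727559) (nat_lit 76) (nat_lit 42479025452) (nat_lit 76) (nat_lit 40325719773) (nat_lit 1) (nat_lit 4) (nat_lit 2) (nat_lit 5) (nat_lit 2) (nat_lit 4) (nat_lit 365) (nat_lit 279) (nat_lit 256))) (XT.nd (nat_lit 78) (nat_lit 0) (nat_lit 0) (XT.lf (nat_lit 0) (nat_lit 80063544542) (nat_lit 76) (nat_lit 42977237511) (nat_lit 76) (nat_lit 40791189285) (nat_lit 1) (nat_lit 4) (nat_lit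 2) (nat_lit 5) (nat_lit 2) (nat_lit 4) (nat_lit 366) (nat_lit 279) (nat_lit 255)) (XT.lf (nat_lit 0) (nat_lit 91809253641) (nat_lit 76) (nat_lit 43564568262) (nat_lit 76) (nat_lit 41348202864) (nat_lit 1) (nat_lit 4) (nat_lit 2) (nat_lit 5) (nat_lit 2) (nat_lit 4) (nat_lit 367) (nat_lit 279) (nat_lit 254)))) (XT.nd (nat_lit 156) (nat_lit 0) (nat_lit 0) (XT.nd (nat_lit 78) (nat_lit 0) (nat_lit 0) (XT.lf (nat_lit 0) (nat_lit 104402459058) (nat_lit 76) (nat_lit 44244498185) (nat_lit 76) (nat_lit 42000061330) (nat_lit 1) (nat_lit 4) (nat_lit 2) (nat_lit 5) (nat_lit 2) (nat_lit 4) (nat_lit 368) (nat_lit 279) (nat_lit 253)) (XT.lf (nat_lit 0) (nat_lit 117917787195) (nat_lit 76) (nat_lit 45021056493) (nat_lit 76) (nat_lit 42750627549) (nat_lit 1) (nat_lit 4) (nat_lit 2) (nat_lit 5) (nat_lit 2) (nat_lit 4) (nat_lit 369) (nat_lit 279) (nat_lit 252))) (XT.nd (nat_lit 78) (nat_lit 0) (nat_lit 0)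 (XT.lf (nat_lit 0) (nat_lit 132435328886) (nat_lit 76) (nat_lit 45898845013) (nat_lit 76) (nat_lit 43604349320) (nat_lit 1) (nat_lit 4) (nat_lit 2) (nat_lit 5) (nat_lit 2) (nat_lit 4) (nat_lit 370) (nat_lit 279) (nat_lit 251)) (XT.lf (nat_lit 0) (nat_lit 148041114008) (nat_lit 76) (nat_lit 46883065455) (nat_lit 76) (nat_lit 44566285736) (nat_lit 1) (nat_lit 4) (nat_lit 2) (nat_lit 5) (nat_lit 2) (nat_lit 4) (nat_lit 371) (nat_lit 279) (nat_lit 250))))) (XT.nd (nat_lit 312) (nat_lit 0) (nat_lit 0) (XT.nd (nat_lit 156) (nat_lit 0) (nat_lit 0) (XT.nd (nat_lit 78) (nat_lit 0) (nat_lit 0) (XT.lf (nat_lit 0) (nat_lit 164827621286) (nat_lit 76) (nat_lit 47979550237) (nat_lit 76) (nat_lit 45642137159) (nat_lit 1) (nat_lit 4) (nat_lit 2) (nat_lit 5) (nat_lit 2) (nat_lit 4) (nat_lit 372) (nat_lit 279) (nat_lit 249)) (XT.lf (nat_lit 0) (nat_lit 182894326321) (nat_lit 76) (nat_lit 49194797046) (nat_lit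 76) (nat_lit 46838279007) (nat_lit 1) (nat_lit 4) (nat_lit 2) (nat_lit 5) (nat_lit 2) (nat_lit 4) (nat_lit 373) (nat_lit 279) (nat_lit 248))) (XT.nd (nat_lit 78) (nat_lit 0) (nat_lit 0) (XT.lf (nat_lit 0) (nat_lit 202348291067) (nat_lit 76) (nat_lit 50536007345) (nat_lit 76) (nat_lit 48161799527) (nat_lit 1) (nat_lit 4) (nat_lit 2) (nat_lit 5) (nat_lit 2) (nat_lit 4) (nat_lit 374) (nat_lit 279) (nat_lit 247)) (XT.lf (nat_lit 0) (nat_lit 223304798279) (nat_lit 76) (nat_lit 52011129047) (nat_lit 76) (nat_lit 49620541804) (nat_lit 1) (nat_lit 4) (nat_lit 2) (nat_lit 5) (nat_lit 2) (nat_lit 4) (nat_lit 375) (nat_lit 279) (nat_lit 246)))) (XT.nd (nat_lit 156) (nat_lit 0) (nat_lit 0) (XT.nd (nat_lit 78) (nat_lit 0) (nat_lit 0) (XT.lf (nat_lit 0) (nat_lit 245888034666) (nat_lit 76) (nat_lit 53628903613) (nat_lit 76) (nat_lit 51223150236) (nat_lit 1) (nat_lit 4) (nat_lit 2) (nat_lit 5) (nat_lit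 2) (nat_lit 4) (nat_lit 376) (nat_lit 279) (nat_lit 245)) (XT.lf (nat_lit 0) (nat_lit 270231826814) (nat_lit 76) (nat_lit 55398917856) (nat_lit 76) (nat_lit 52979121762) (nat_lit 1) (nat_lit 4) (nat_lit 2) (nat_lit 5) (nat_lit 2) (nat_lit 4) (nat_lit 377) (nat_lit 279) (nat_lit 244))) (XT.nd (nat_lit 78) (nat_lit 0) (nat_lit 0) (XT.lf (nat_lit 0) (nat_lit 296480434232) (nat_lit 76) (nat_lit 57331660749) (nat_lit 76) (nat_lit 54898862139) (nat_lit 1) (nat_lit 4) (nat_lit 2) (nat_lit 5) (nat_lit 2) (nat_lit 4) (nat_lit 378) (nat_lit 279) (nat_lit 243)) (XT.lf (nat_lit 0) (nat_lit 324789404223) (nat_lit 76) (nat_lit 59438585584) (nat_lit 76) (nat_lit 56993747608) (nat_lit 1) (nat_lit 4) (nat_lit 2) (nat_lit 5) (nat_lit 2) (nat_lit 4) (nat_lit 379) (nat_lit 279) (nat_lit 242)))))) (XT.nd (nat_lit 624) (nat_lit 0) (nat_lit 0) (XT.nd (nat_lit 312) (nat_lit 0) (nat_lit 0) (XT.nd (nat_lit 156)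 (nat_lit 0) (nat_lit 0) (XT.nd (nat_lit 78) (nat_lit 0) (nat_lit 0) (XT.lf (nat_lit 0) (nat_lit 355326493647) (nat_lit 76) (nat_lit 61732177840) (nat_lit 76) (nat_lit 59276192302) (nat_lit 1) (nat_lit 4) (nat_lit 2) (nat_lit 5) (nat_lit 2) (nat_lit 4) (nat_lit 380) (nat_lit 279) (nat_lit 241)) (XT.lf (nat_lit 0) (nat_lit 388272663033) (nat_lit 76) (nat_lit 64226029176) (nat_lit 76) (nat_lit 61759721822) (nat_lit 1) (nat_lit 4) (nat_lit 2) (nat_lit 5) (nat_lit 2) (nat_lit 4) (nat_lit 381) (nat_lit 279) (nat_lit 240))) (XT.nd (nat_lit 78) (nat_lit 0) (nat_lit 0) (XT.lf (nat_lit 0) (nat_lit 423823148941) (nat_lit 76) (nat_lit 66934917971) (nat_lit 76) (nat_lit 64459053379) (nat_lit 1) (nat_lit 4) (nat_lit 2) (nat_lit 5) (nat_lit 2) (nat_lit 4) (nat_lit 382) (nat_lit 279) (nat_lit 239)) (XT.lf (nat_lit 0) (nat_lit 462188620917) (nat_lit 76) (nat_lit 69874896897) (nat_lit 76) (nat_lit 67390183012)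 (nat_lit 1) (nat_lit 4) (nat_lit 2) (nat_lit 5) (nat_lit 2) (nat_lit 4) (nat_lit 383) (nat_lit 279) (nat_lit 238)))) (XT.nd (nat_lit 156) (nat_lit 0) (nat_lit 0) (XT.nd (nat_lit 78) (nat_lit 0) (nat_lit 0) (XT.lf (nat_lit 0) (nat_lit 503596429906) (nat_lit 76) (nat_lit 73063388053) (nat_lit 76) (nat_lit 70570480377) (nat_lit 1) (nat_lit 4) (nat_lit 2) (nat_lit 5) (nat_lit 2) (nat_lit 4) (nat_lit 384) (nat_lit 279) (nat_lit 237)) (XT.lf (nat_lit 0) (nat_lit 548291955517) (nat_lit 76) (nat_lit 76519286201) (nat_lit 76) (nat_lit 74018791682) (nat_lit 1) (nat_lit 4) (nat_lit 2) (nat_lit 5) (nat_lit 2) (nat_lit 4) (nat_lit 385) (nat_lit 279) (nat_lit 236))) (XT.nd (nat_lit 78) (nat_lit 0) (nat_lit 0) (XT.lf (nat_lit 0) (nat_lit 596540060123) (nat_lit 76) (nat_lit 80263070737) (nat_lit 76) (nat_lit 77755551364) (nat_lit 1) (nat_lit 4) (nat_lit 2) (nat_lit 5) (nat_lit 2) (nat_lit 4) (nat_lit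 386) (nat_lit 279) (nat_lit 235)) (XT.lf (nat_lit 0) (nat_lit 648626658419) (nat_lit 76) (nat_lit 84316927052) (nat_lit 76) (nat_lit 81802903184) (nat_lit 1) (nat_lit 4) (nat_lit 2) (nat_lit 5) (nat_lit 2) (nat_lit 4) (nat_lit 387) (nat_lit 279) (nat_lit 234))))) (XT.nd (nat_lit 312) (nat_lit 0) (nat_lit 0) (XT.nd (nat_lit 156) (nat_lit 0) (nat_lit 0) (XT.nd (nat_lit 78) (nat_lit 0) (nat_lit 0) (XT.lf (nat_lit 0) (nat_lit 704860411728) (nat_lit 76) (nat_lit 88704877997) (nat_lit 76) (nat_lit 86184831449) (nat_lit 1) (nat_lit 4) (nat_lit 2) (nat_lit 5) (nat_lit 2) (nat_lit 4) (nat_lit 388) (nat_lit 279) (nat_lit 233)) (XT.lf (nat_lit 0) (nat_lit 765574557107) (nat_lit 76) (nat_lit 93452926245) (nat_lit 76) (nat_lit 90927303141) (nat_lit 1) (nat_lit 4) (nat_lit 2) (nat_lit 5) (nat_lit 2) (nat_lit 4) (nat_lit 389) (nat_lit 279) (nat_lit 232))) (XT.nd (nat_lit 78) (nat_lit 0) (nat_lit 0)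 (XT.lf (nat_lit 0) (nat_lit 831128882083) (nat_lit 76) (nat_lit 98589208379) (nat_lit 76) (nat_lit 96058421796) (nat_lit 1) (nat_lit 4) (nat_lit 2) (nat_lit 5) (nat_lit 2) (nat_lit 4) (nat_lit 390) (nat_lit 279) (nat_lit 231)) (XT.lf (nat_lit 0) (nat_lit 901911856731) (nat_lit 76) (nat_lit 104144161624) (nat_lit 76) (nat_lit 101608594044) (nat_lit 1) (nat_lit 4) (nat_lit 2) (nat_lit 5) (nat_lit 2) (nat_lit 4) (nat_lit 391) (nat_lit 279) (nat_lit 230)))) (XT.nd (nat_lit 156) (nat_lit 0) (nat_lit 0) (XT.nd (nat_lit 78) (nat_lit 0) (nat_lit 0) (XT.lf (nat_lit 0) (nat_lit 978342935715) (nat_lit 76) (nat_lit 110150704224) (nat_lit 76) (nat_lit 107610709793) (nat_lit 1) (nat_lit 4) (nat_lit 2) (nat_lit 5) (nat_lit 2) (nat_lit 4) (nat_lit 392) (nat_lit 279) (nat_lit 229)) (XT.lf (nat_lit 0) (nat_lit 1060875043949) (nat_lit 76) (nat_lit 116644430504) (nat_lit 76) (nat_lit 114100337138) (nat_lit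 1) (nat_lit 4) (nat_lit 2) (nat_lit 5) (nat_lit 2) (nat_lit 4) (nat_lit 393) (nat_lit 279) (nat_lit 228))) (XT.nd (nat_lit 78) (nat_lit 0) (nat_lit 0) (XT.lf (nat_lit 0) (nat_lit 1149997260590) (nat_lit 76) (nat_lit 123663821805) (nat_lit 76) (nat_lit 121115933129) (nat_lit 1) (nat_lit 4) (nat_lit 2) (nat_lit 5) (nat_lit 2) (nat_lit 4) (nat_lit 394) (nat_lit 279) (nat_lit 227)) (XT.nd (nat_lit 78) (nat_lit 0) (nat_lit 0) (XT.lf (nat_lit 0) (nat_lit 1246237717295) (nat_lit 76) (nat_lit 131250474521) (nat_lit 76) (nat_lit 128699071668) (nat_lit 1) (nat_lit 4) (nat_lit 2) (nat_lit 5) (nat_lit 2) (nat_lit 4) (nat_lit 395) (nat_lit 279) (nat_lit 226)) (XT.lf (nat_lit 0) (nat_lit 1350166727880) (nat_lit 76) (nat_lit 139449346593) (nat_lit 76) (nat_lit 136894689873) (nat_lit 1) (nat_lit 4) (nat_lit 2) (nat_lit 5) (nat_lit 2) (nat_lit 4) (nat_lit 396) (nat_lit 279) (nat_lit 225))))))))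
noncomputable def xc39 : XT := (XT.nd (nat_lit 42510) (nat_lit 0) (nat_lit 76) (XT.nd (nat_lit 624) (nat_lit 0) (nat_lit 0) (XT.nd (nat_lit 312) (nat_lit 0) (nat_lit 0) (XT.nd (nat_lit 156) (nat_lit 0) (nat_lit 0) (XT.nd (nat_lit 78) (nat_lit 0) (nat_lit 0) (XT.lf (nat_lit 0) (nat_lit 1462400167963) (nat_lit 76) (nat_lit 148309023930) (nat_lit 76) (nat_lit 145751354371) (nat_lit 1) (nat_lit 4) (nat_lit 2) (nat_lit 5) (nat_lit 2) (nat_lit 4) (nat_lit 397) (nat_lit 279) (nat_lit 224)) (XT.lf (nat_lit 0) (nat_lit 1583603124598) (nat_lit 76) (nat_lit 157882008323) (nat_lit 76) (nat_lit 155321549097) (nat_lit 1) (nat_lit 4) (nat_lit 2) (nat_lit 5) (nat_lit 2) (nat_lit 4) (nat_lit 398) (nat_lit 279) (nat_lit 223))) (XT.nd (nat_lit 78) (nat_lit 0) (nat_lit 0) (XT.lf (nat_lit 0) (nat_lit 1714493837526) (nat_lit 76) (nat_lit 168225028569) (nat_lit 76) (nat_lit 165661986319) (nat_lit 1) (nat_lit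 4) (nat_lit 2) (nat_lit 5) (nat_lit 2) (nat_lit 4) (nat_lit 399) (nat_lit 279) (nat_lit 222)) (XT.lf (nat_lit 0) (nat_lit 1855847955418) (nat_lit 76) (nat_lit 179399376640) (nat_lit 76) (nat_lit 176833942701) (nat_lit 1) (nat_lit 4) (nat_lit 2) (nat_lit 5) (nat_lit 2) (nat_lit 4) (nat_lit 400) (nat_lit 279) (nat_lit 221)))) (XT.nd (nat_lit 156) (nat_lit 0) (nat_lit 0) (XT.nd (nat_lit 78) (nat_lit 0) (nat_lit 0) (XT.lf (nat_lit 0) (nat_lit 2008503132305) (nat_lit 76) (nat_lit 191471270895) (nat_lit 76) (nat_lit 188903622428) (nat_lit 1) (nat_lit 4) (nat_lit 2) (nat_lit 5) (nat_lit 2) (nat_lit 4) (nat_lit 401) (nat_lit 279) (nat_lit 220)) (XT.lf (nat_lit 0) (nat_lit 2173363991457) (nat_lit 76) (nat_lit 204512248484) (nat_lit 76) (nat_lit 201942549530) (nat_lit 1) (nat_lit 4) (nat_lit 2) (nat_lit 5) (nat_lit 2) (nat_lit 4) (nat_lit 402) (nat_lit 279) (nat_lit 219))) (XT.nd (nat_lit 78) (nat_lit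 0) (nat_lit 0) (XT.lf (nat_lit 0) (nat_lit 2351407486114) (nat_lit 76) (nat_lit 218599589276) (nat_lit 76) (nat_lit 216027991721) (nat_lit 1) (nat_lit 4) (nat_lit 2) (nat_lit 5) (nat_lit 2) (nat_lit 4) (nat_lit 403) (nat_lit 279) (nat_lit 218)) (XT.lf (nat_lit 0) (nat_lit 2543688688838) (nat_lit 76) (nat_lit 233816773807) (nat_lit 76) (nat_lit 231243418289) (nat_lit 1) (nat_lit 4) (nat_lit 2) (nat_lit 5) (nat_lit 2) (nat_lit 4) (nat_lit 404) (nat_lit 279) (nat_lit 217))))) (XT.nd (nat_lit 312) (nat_lit 0) (nat_lit 0) (XT.nd (nat_lit 156) (nat_lit 0) (nat_lit 0) (XT.nd (nat_lit 78) (nat_lit 0) (nat_lit 0) (XT.lf (nat_lit 0) (nat_lit 2751347043791) (nat_lit 76) (nat_lit 250253977987) (nat_lit 76) (nat_lit 247678994726) (nat_lit 1) (nat_lit 4) (nat_lit 2) (nat_lit 5) (nat_lit 2) (nat_lit 4) (nat_lit 405) (nat_lit 279) (nat_lit 216)) (XT.lf (nat_lit 0) (nat_lit 2975613119005) (nat_lit 76)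 (nat_lit 268008607470) (nat_lit 76) (nat_lit 265432117038) (nat_lit 1) (nat_lit 4) (nat_lit 2) (nat_lit 5) (nat_lit 2) (nat_lit 4) (nat_lit 406) (nat_lit 279) (nat_lit 215))) (XT.nd (nat_lit 78) (nat_lit 0) (nat_lit 0) (XT.lf (nat_lit 0) (nat_lit 3217815898627) (nat_lit 76) (nat_lit 287185874874) (nat_lit 76) (nat_lit 284607988915) (nat_lit 1) (nat_lit 4) (nat_lit 2) (nat_lit 5) (nat_lit 2) (nat_lit 4) (nat_lit 407) (nat_lit 279) (nat_lit 214)) (XT.lf (nat_lit 0) (nat_lit 3479390658389) (nat_lit 76) (nat_lit 307899423267) (nat_lit 76) (nat_lit 305320245152) (nat_lit 1) (nat_lit 4) (nat_lit 2) (nat_lit 5) (nat_lit 2) (nat_lit 4) (nat_lit 408) (nat_lit 279) (nat_lit 213)))) (XT.nd (nat_lit 156) (nat_lit 0) (nat_lit 0) (XT.nd (nat_lit 78) (nat_lit 0) (nat_lit 0) (XT.lf (nat_lit 0) (nat_lit 3761887470942) (nat_lit 76) (nat_lit 330271999601) (nat_lit 76) (nat_lit 327691625046) (nat_lit 1)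 (nat_lit 4) (nat_lit 2) (nat_lit 5) (nat_lit 2) (nat_lit 4) (nat_lit 409) (nat_lit 279) (nat_lit 212)) (XT.lf (nat_lit 0) (nat_lit 4066980391471) (nat_lit 76) (nat_lit 354436182106) (nat_lit 76) (nat_lit 351854699737) (nat_lit 1) (nat_lit 4) (nat_lit 2) (nat_lit 5) (nat_lit 2) (nat_lit 4) (nat_lit 410) (nat_lit 279) (nat_lit 211))) (XT.nd (nat_lit 41340) (nat_lit 0) (nat_lit 456) (XT.lf (nat_lit 0) (nat_lit 4396477378023) (nat_lit 76) (nat_lit 380535165939) (nat_lit 76) (nat_lit 377952657815) (nat_lit 1) (nat_lit 4) (nat_lit 2) (nat_lit 5) (nat_lit 2) (nat_lit 4) (nat_lit 411) (nat_lit 279) (nat_lit 210)) (XT.lf (nat_lit 0) (nat_lit 9934777115) (nat_lit 76) (nat_lit 1484161088) (nat_lit 76) (nat_lit 1484161088) (nat_lit 7) (nat_lit 4) (nat_lit 8) (nat_lit 5) (nat_lit 8) (nat_lit 4) (nat_lit 340) (nat_lit 280) (nat_lit 280)))))) (XT.nd (nat_lit 624) (nat_lit 152) (nat_lit 0) (XT.nd (nat_lit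 312) (nat_lit 0) (nat_lit 0) (XT.nd (nat_lit 156) (nat_lit 76) (nat_lit 0) (XT.nd (nat_lit 78) (nat_lit 0) (nat_lit 0) (XT.lf (nat_lit 0) (nat_lit 1852948855) (nat_lit 152) (nat_lit 23982093769) (nat_lit 0) (nat_lit 1628712338) (nat_lit 5) (nat_lit 5) (nat_lit 7) (nat_lit 4) (nat_lit 5) (nat_lit 4) (nat_lit 341) (nat_lit 280) (nat_lit 279)) (XT.lf (nat_lit 0) (nat_lit 6880669022) (nat_lit 152) (nat_lit 15919874544) (nat_lit 0) (nat_lit 6448806101) (nat_lit 5) (nat_lit 5) (nat_lit 7) (nat_lit 4) (nat_lit 5) (nat_lit 4) (nat_lit 342) (nat_lit 280) (nat_lit 278))) (XT.nd (nat_lit 78) (nat_lit 76) (nat_lit 0) (XT.lf (nat_lit 0) (nat_lit 12067532944) (nat_lit 152) (nat_lit 7686365703) (nat_lit 0) (nat_lit 11443423352) (nat_lit 5) (nat_lit 5) (nat_lit 7) (nat_lit 4) (nat_lit 5) (nat_lit 4) (nat_lit 343) (nat_lit 280) (nat_lit 277)) (XT.lf (nat_lit 0) (nat_lit 807624566) (nat_lit 76) (nat_lit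 16656076415) (nat_lit 76) (nat_lit 15853960647) (nat_lit 4) (nat_lit 4) (nat_lit 5) (nat_lit 5) (nat_lit 5) (nat_lit 4) (nat_lit 344) (nat_lit 280) (nat_lit 276)))) (XT.nd (nat_lit 156) (nat_lit 0) (nat_lit 0) (XT.nd (nat_lit 78) (nat_lit 0) (nat_lit 0) (XT.lf (nat_lit 0) (nat_lit 9990768354) (nat_lit 76) (nat_lit 13292275021) (nat_lit 76) (nat_lit 12325338718) (nat_lit 4) (nat_lit 4) (nat_lit 5) (nat_lit 5) (nat_lit 5) (nat_lit 4) (nat_lit 345) (nat_lit 280) (nat_lit 275)) (XT.lf (nat_lit 0) (nat_lit 19512733891) (nat_lit 76) (nat_lit 9852719687) (nat_lit 76) (nat_lit 8733171779) (nat_lit 4) (nat_lit 4) (nat_lit 5) (nat_lit 5) (nat_lit 5) (nat_lit 4) (nat_lit 346) (nat_lit 280) (nat_lit 274))) (XT.nd (nat_lit 78) (nat_lit 0) (nat_lit 0) (XT.lf (nat_lit 0) (nat_lit 29429947641) (nat_lit 76) (nat_lit 6317027863) (nat_lit 76) (nat_lit 5056172912) (nat_lit 4) (nat_lit 4) (nat_lit 5) (nat_lit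 5) (nat_lit 5) (nat_lit 4) (nat_lit 347) (nat_lit 280) (nat_lit 273)) (XT.lf (nat_lit 0) (nat_lit 39801178278) (nat_lit 76) (nat_lit 2664247300) (nat_lit 76) (nat_lit 1272552496) (nat_lit 4) (nat_lit 4) (nat_lit 5) (nat_lit 5) (nat_lit 5) (nat_lit 4) (nat_lit 348) (nat_lit 280) (nat_lit 272))))) (XT.nd (nat_lit 312) (nat_lit 0) (nat_lit 0) (XT.nd (nat_lit 156) (nat_lit 0) (nat_lit 0) (XT.nd (nat_lit 78) (nat_lit 0) (nat_lit 0) (XT.lf (nat_lit 0) (nat_lit 2633006708) (nat_lit 152) (nat_lit 43040196122) (nat_lit 0) (nat_lit 1232226322) (nat_lit 2) (nat_lit 5) (nat_lit 4) (nat_lit 4) (nat_lit 2) (nat_lit 4) (nat_lit 349) (nat_lit 280) (nat_lit 271)) (XT.lf (nat_lit 0) (nat_lit 6797869508) (nat_lit 152) (nat_lit 38231334992) (nat_lit 0) (nat_lit 5293224228) (nat_lit 2) (nat_lit 5) (nat_lit 4) (nat_lit 4) (nat_lit 2) (nat_lit 4) (nat_lit 350) (nat_lit 280) (nat_lit 270))) (XT.nd (nat_lit 78)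 (nat_lit 0) (nat_lit 0) (XT.lf (nat_lit 0) (nat_lit 11144045051) (nat_lit 152) (nat_lit 33337706843) (nat_lit 0) (nat_lit 9543228572) (nat_lit 2) (nat_lit 5) (nat_lit 4) (nat_lit 4) (nat_lit 2) (nat_lit 4) (nat_lit 351) (nat_lit 280) (nat_lit 269)) (XT.lf (nat_lit 0) (nat_lit 15697288451) (nat_lit 152) (nat_lit 28330312397) (nat_lit 0) (nat_lit 14007424565) (nat_lit 2) (nat_lit 5) (nat_lit 4) (nat_lit 4) (nat_lit 2) (nat_lit 4) (nat_lit 352) (nat_lit 280) (nat_lit 268)))) (XT.nd (nat_lit 156) (nat_lit 0) (nat_lit 0) (XT.nd (nat_lit 78) (nat_lit 0) (nat_lit 0) (XT.lf (nat_lit 0) (nat_lit 20484581889) (nat_lit 152) (nat_lit 23179478205) (nat_lit 0) (nat_lit 18712266702) (nat_lit 2) (nat_lit 5) (nat_lit 4) (nat_lit 4) (nat_lit 2) (nat_lit 4) (nat_lit 353) (nat_lit 280) (nat_lit 267)) (XT.lf (nat_lit 0) (nat_lit 25534294514) (nat_lit 152) (nat_lit 17854680806) (nat_lit 0) (nat_lit 23685635529)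 (nat_lit 2) (nat_lit 5) (nat_lit 4) (nat_lit 4) (nat_lit 2) (nat_lit 4) (nat_lit 354) (nat_lit 280) (nat_lit 266))) (XT.nd (nat_lit 78) (nat_lit 0) (nat_lit 0) (XT.lf (nat_lit 0) (nat_lit 30876350548) (nat_lit 152) (nat_lit 12324365844) (nat_lit 0) (nat_lit 28957002861) (nat_lit 2) (nat_lit 5) (nat_lit 4) (nat_lit 4) (nat_lit 2) (nat_lit 4) (nat_lit 355) (nat_lit 280) (nat_lit 265)) (XT.nd (nat_lit 78) (nat_lit 0) (nat_lit 0) (XT.lf (nat_lit 0) (nat_lit 36542406619) (nat_lit 152) (nat_lit 6555761083) (nat_lit 0) (nat_lit 34557606430) (nat_lit 2) (nat_lit 5) (nat_lit 4) (nat_lit 4) (nat_lit 2) (nat_lit 4) (nat_lit 356) (nat_lit 280) (nat_lit 264)) (XT.lf (nat_lit 0) (nat_lit 42566039356) (nat_lit 152) (nat_lit 514682197) (nat_lit 0) (nat_lit 40520634999) (nat_lit 2) (nat_lit 5) (nat_lit 4) (nat_lit 4) (nat_lit 2) (nat_lit 4) (nat_lit 357) (nat_lit 280) (nat_lit 263))))))))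
noncomputable def xc40 : XT := (XT.nd (nat_lit 1248) (nat_lit 0) (nat_lit 0) (XT.nd (nat_lit 624) (nat_lit 0) (nat_lit 0) (XT.nd (nat_lit 312) (nat_lit 0) (nat_lit 0) (XT.nd (nat_lit 156) (nat_lit 0) (nat_lit 0) (XT.nd (nat_lit 78) (nat_lit 0) (nat_lit 0) (XT.lf (nat_lit 0) (nat_lit 6141913169) (nat_lit 76) (nat_lit 42988744350) (nat_lit 76) (nat_lit 40887225023) (nat_lit 1) (nat_lit 4) (nat_lit 2) (nat_lit 5) (nat_lit 2) (nat_lit 4) (nat_lit 358) (nat_lit 280) (nat_lit 262)) (XT.lf (nat_lit 0) (nat_lit 13189724110) (nat_lit 76) (nat_lit 42958636806) (nat_lit 76) (nat_lit 40805159172) (nat_lit 1) (nat_lit 4) (nat_lit 2) (nat_lit 5) (nat_lit 2) (nat_lit 4) (nat_lit 359) (nat_lit 280) (nat_lit 261))) (XT.nd (nat_lit 78) (nat_lit 0) (nat_lit 0) (XT.lf (nat_lit 0) (nat_lit 20643413180) (nat_lit 76) (nat_lit 43004292829) (nat_lit 76) (nat_lit 40802705653) (nat_lit 1) (nat_lit 4) (nat_lit 2)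 (nat_lit 5) (nat_lit 2) (nat_lit 4) (nat_lit 360) (nat_lit 280) (nat_lit 260)) (XT.lf (nat_lit 0) (nat_lit 28547150388) (nat_lit 76) (nat_lit 43125982974) (nat_lit 76) (nat_lit 40879849925) (nat_lit 1) (nat_lit 4) (nat_lit 2) (nat_lit 5) (nat_lit 2) (nat_lit 4) (nat_lit 361) (nat_lit 280) (nat_lit 259)))) (XT.nd (nat_lit 156) (nat_lit 0) (nat_lit 0) (XT.nd (nat_lit 78) (nat_lit 0) (nat_lit 0) (XT.lf (nat_lit 0) (nat_lit 36947772694) (nat_lit 76) (nat_lit 43324428367) (nat_lit 76) (nat_lit 41037049140) (nat_lit 1) (nat_lit 4) (nat_lit 2) (nat_lit 5) (nat_lit 2) (nat_lit 4) (nat_lit 362) (nat_lit 280) (nat_lit 258)) (XT.lf (nat_lit 0) (nat_lit 45895061564) (nat_lit 76) (nat_lit 43600804982) (nat_lit 76) (nat_lit 41275234848) (nat_lit 1) (nat_lit 4) (nat_lit 2) (nat_lit 5) (nat_lit 2) (nat_lit 4) (nat_lit 363) (nat_lit 280) (nat_lit 257))) (XT.nd (nat_lit 78) (nat_lit 0) (nat_lit 0) (XT.lf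 (nat_lit 0) (nat_lit 55442037970) (nat_lit 76) (nat_lit 43956750605) (nat_lit 76) (nat_lit 41595818521) (nat_lit 1) (nat_lit 4) (nat_lit 2) (nat_lit 5) (nat_lit 2) (nat_lit 4) (nat_lit 364) (nat_lit 280) (nat_lit 256)) (XT.lf (nat_lit 0) (nat_lit 65645276586) (nat_lit 76) (nat_lit 44394374544) (nat_lit 76) (nat_lit 42000699913) (nat_lit 1) (nat_lit 4) (nat_lit 2) (nat_lit 5) (nat_lit 2) (nat_lit 4) (nat_lit 365) (nat_lit 280) (nat_lit 255))))) (XT.nd (nat_lit 312) (nat_lit 0) (nat_lit 0) (XT.nd (nat_lit 156) (nat_lit 0) (nat_lit 0) (XT.nd (nat_lit 78) (nat_lit 0) (nat_lit 0) (XT.lf (nat_lit 0) (nat_lit 76565241048) (nat_lit 76) (nat_lit 44916270126) (nat_lit 76) (nat_lit 42492278322) (nat_lit 1) (nat_lit 4) (nat_lit 2) (nat_lit 5) (nat_lit 2) (nat_lit 4) (nat_lit 366) (nat_lit 280) (nat_lit 254)) (XT.lf (nat_lit 0) (nat_lit 88266642258) (nat_lit 76) (nat_lit 45525530065) (nat_lit 76)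 (nat_lit 43073466806) (nat_lit 1) (nat_lit 4) (nat_lit 2) (nat_lit 5) (nat_lit 2) (nat_lit 4) (nat_lit 367) (nat_lit 280) (nat_lit 253))) (XT.nd (nat_lit 78) (nat_lit 0) (nat_lit 0) (XT.lf (nat_lit 0) (nat_lit 100818821851) (nat_lit 76) (nat_lit 46225764791) (nat_lit 76) (nat_lit 43747709443) (nat_lit 1) (nat_lit 4) (nat_lit 2) (nat_lit 5) (nat_lit 2) (nat_lit 4) (nat_lit 368) (nat_lit 280) (nat_lit 252)) (XT.lf (nat_lit 0) (nat_lit 114296163114) (nat_lit 76) (nat_lit 47021123843) (nat_lit 76) (nat_lit 44519001746) (nat_lit 1) (nat_lit 4) (nat_lit 2) (nat_lit 5) (nat_lit 2) (nat_lit 4) (nat_lit 369) (nat_lit 280) (nat_lit 251)))) (XT.nd (nat_lit 156) (nat_lit 0) (nat_lit 0) (XT.nd (nat_lit 78) (nat_lit 0) (nat_lit 0) (XT.lf (nat_lit 0) (nat_lit 128778531774) (nat_lit 76) (nat_lit 47916320459) (nat_lit 76) (nat_lit 45391914335) (nat_lit 1) (nat_lit 4) (nat_lit 2) (nat_lit 5) (nat_lit 2)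 (nat_lit 4) (nat_lit 370) (nat_lit 280) (nat_lit 250)) (XT.lf (nat_lit 0) (nat_lit 144351749274) (nat_lit 76) (nat_lit 48916659510) (nat_lit 76) (nat_lit 46371620027) (nat_lit 1) (nat_lit 4) (nat_lit 2) (nat_lit 5) (nat_lit 2) (nat_lit 4) (nat_lit 371) (nat_lit 280) (nat_lit 249))) (XT.nd (nat_lit 78) (nat_lit 0) (nat_lit 0) (XT.lf (nat_lit 0) (nat_lit 161108101348) (nat_lit 76) (nat_lit 50028068928) (nat_lit 76) (nat_lit 47463924485) (nat_lit 1) (nat_lit 4) (nat_lit 2) (nat_lit 5) (nat_lit 2) (nat_lit 4) (nat_lit 372) (nat_lit 280) (nat_lit 248)) (XT.lf (nat_lit 0) (nat_lit 179146884897) (nat_lit 76) (nat_lit 51257134846) (nat_lit 76) (nat_lit 48675300623) (nat_lit 1) (nat_lit 4) (nat_lit 2) (nat_lit 5) (nat_lit 2) (nat_lit 4) (nat_lit 373) (nat_lit 280) (nat_lit 247)))))) (XT.nd (nat_lit 624) (nat_lit 0) (nat_lit 0) (XT.nd (nat_lit 312) (nat_lit 0) (nat_lit 0) (XT.nd (nat_lit 156) (nat_lit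 0) (nat_lit 0) (XT.nd (nat_lit 78) (nat_lit 0) (nat_lit 0) (XT.lf (nat_lit 0) (nat_lit 198574996415) (nat_lit 76) (nat_lit 52611140615) (nat_lit 76) (nat_lit 50012926968) (nat_lit 1) (nat_lit 4) (nat_lit 2) (nat_lit 5) (nat_lit 2) (nat_lit 4) (nat_lit 374) (nat_lit 280) (nat_lit 246)) (XT.lf (nat_lit 0) (nat_lit 219507565453) (nat_lit 76) (nat_lit 54098109975) (nat_lit 76) (nat_lit 51484730193) (nat_lit 1) (nat_lit 4) (nat_lit 2) (nat_lit 5) (nat_lit 2) (nat_lit 4) (nat_lit 375) (nat_lit 280) (nat_lit 245))) (XT.nd (nat_lit 78) (nat_lit 0) (nat_lit 0) (XT.lf (nat_lit 0) (nat_lit 242068636864) (nat_lit 76) (nat_lit 55726854595) (nat_lit 76) (nat_lit 53099432096) (nat_lit 1) (nat_lit 4) (nat_lit 2) (nat_lit 5) (nat_lit 2) (nat_lit 4) (nat_lit 376) (nat_lit 280) (nat_lit 244)) (XT.lf (nat_lit 0) (nat_lit 266391905886) (nat_lit 76) (nat_lit 57507026295) (nat_lit 76) (nat_lit 54866601280)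 (nat_lit 1) (nat_lit 4) (nat_lit 2) (nat_lit 5) (nat_lit 2) (nat_lit 4) (nat_lit 377) (nat_lit 280) (nat_lit 243)))) (XT.nd (nat_lit 156) (nat_lit 0) (nat_lit 0) (XT.nd (nat_lit 78) (nat_lit 0) (nat_lit 0) (XT.lf (nat_lit 0) (nat_lit 292621510410) (nat_lit 76) (nat_lit 59449174241) (nat_lit 76) (nat_lit 56796709860) (nat_lit 1) (nat_lit 4) (nat_lit 2) (nat_lit 5) (nat_lit 2) (nat_lit 4) (nat_lit 378) (nat_lit 280) (nat_lit 242)) (XT.lf (nat_lit 0) (nat_lit 320912885128) (nat_lit 76) (nat_lit 61564807458) (nat_lit 76) (nat_lit 58901195515) (nat_lit 1) (nat_lit 4) (nat_lit 2) (nat_lit 5) (nat_lit 2) (nat_lit 4) (nat_lit 379) (nat_lit 280) (nat_lit 241))) (XT.nd (nat_lit 78) (nat_lit 0) (nat_lit 0) (XT.lf (nat_lit 0) (nat_lit 351433682633) (nat_lit 76) (nat_lit 63866463031) (nat_lit 76) (nat_lit 61192529272) (nat_lit 1) (nat_lit 4) (nat_lit 2) (nat_lit 5) (nat_lit 2) (nat_lit 4) (nat_lit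 380) (nat_lit 280) (nat_lit 240)) (XT.lf (nat_lit 0) (nat_lit 384364766909) (nat_lit 76) (nat_lit 66367780401) (nat_lit 76) (nat_lit 63684289405) (nat_lit 1) (nat_lit 4) (nat_lit 2) (nat_lit 5) (nat_lit 2) (nat_lit 4) (nat_lit 381) (nat_lit 280) (nat_lit 239))))) (XT.nd (nat_lit 312) (nat_lit 0) (nat_lit 0) (XT.nd (nat_lit 156) (nat_lit 0) (nat_lit 0) (XT.nd (nat_lit 78) (nat_lit 0) (nat_lit 0) (XT.lf (nat_lit 0) (nat_lit 419901285123) (nat_lit 76) (nat_lit 69083582190) (nat_lit 76) (nat_lit 66391241900) (nat_lit 1) (nat_lit 4) (nat_lit 2) (nat_lit 5) (nat_lit 2) (nat_lit 4) (nat_lit 382) (nat_lit 280) (nat_lit 238)) (XT.lf (nat_lit 0) (nat_lit 458253824048) (nat_lit 76) (nat_lit 72029962037) (nat_lit 76) (nat_lit 69329427957) (nat_lit 1) (nat_lit 4) (nat_lit 2) (nat_lit 5) (nat_lit 2) (nat_lit 4) (nat_lit 383) (nat_lit 280) (nat_lit 237))) (XT.nd (nat_lit 78) (nat_lit 0) (nat_lit 0)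 (XT.lf (nat_lit 0) (nat_lit 499649657990) (nat_lit 76) (nat_lit 75224379972) (nat_lit 76) (nat_lit 72516259049) (nat_lit 1) (nat_lit 4) (nat_lit 2) (nat_lit 5) (nat_lit 2) (nat_lit 4) (nat_lit 384) (nat_lit 280) (nat_lit 236)) (XT.lf (nat_lit 0) (nat_lit 544334095595) (nat_lit 76) (nat_lit 78685765878) (nat_lit 76) (nat_lit 75970620100) (nat_lit 1) (nat_lit 4) (nat_lit 2) (nat_lit 5) (nat_lit 2) (nat_lit 4) (nat_lit 385) (nat_lit 280) (nat_lit 235)))) (XT.nd (nat_lit 156) (nat_lit 0) (nat_lit 0) (XT.nd (nat_lit 78) (nat_lit 0) (nat_lit 0) (XT.lf (nat_lit 0) (nat_lit 592571933529) (nat_lit 76) (nat_lit 82434631671) (nat_lit 76) (nat_lit 79712981399) (nat_lit 1) (nat_lit 4) (nat_lit 2) (nat_lit 5) (nat_lit 2) (nat_lit 4) (nat_lit 386) (nat_lit 280) (nat_lit 234)) (XT.lf (nat_lit 0) (nat_lit 644649025646) (nat_lit 76) (nat_lit 86493192854) (nat_lit 76) (nat_lit 83765519901) (nat_lit 1) (nat_lit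 4) (nat_lit 2) (nat_lit 5) (nat_lit 2) (nat_lit 4) (nat_lit 387) (nat_lit 280) (nat_lit 233))) (XT.nd (nat_lit 78) (nat_lit 0) (nat_lit 0) (XT.lf (nat_lit 0) (nat_lit 700873976938) (nat_lit 76) (nat_lit 90885500159) (nat_lit 76) (nat_lit 88152250649) (nat_lit 1) (nat_lit 4) (nat_lit 2) (nat_lit 5) (nat_lit 2) (nat_lit 4) (nat_lit 388) (nat_lit 280) (nat_lit 232)) (XT.lf (nat_lit 0) (nat_lit 761579972301) (nat_lit 76) (nat_lit 95637582073) (nat_lit 76) (nat_lit 92899169086) (nat_lit 1) (nat_lit 4) (nat_lit 2) (nat_lit 5) (nat_lit 2) (nat_lit 4) (nat_lit 389) (nat_lit 280) (nat_lit 231)))))))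
noncomputable def xc41 : XT := (XT.nd (nat_lit 1248) (nat_lit 0) (nat_lit 0) (XT.nd (nat_lit 624) (nat_lit 0) (nat_lit 0) (XT.nd (nat_lit 312) (nat_lit 0) (nat_lit 0) (XT.nd (nat_lit 156) (nat_lit 0) (nat_lit 0) (XT.nd (nat_lit 78) (nat_lit 0) (nat_lit 0) (XT.lf (nat_lit 0) (nat_lit 827126750967) (nat_lit 76) (nat_lit 100777599082) (nat_lit 76) (nat_lit 98034405097) (nat_lit 1) (nat_lit 4) (nat_lit 2) (nat_lit 5) (nat_lit 2) (nat_lit 4) (nat_lit 390) (nat_lit 280) (nat_lit 230)) (XT.lf (nat_lit 0) (nat_lit 897902738290) (nat_lit 76) (nat_lit 106336010546) (nat_lit 76) (nat_lit 103588389711) (nat_lit 1) (nat_lit 4) (nat_lit 2) (nat_lit 5) (nat_lit 2) (nat_lit 4) (nat_lit 391) (nat_lit 280) (nat_lit 229))) (XT.nd (nat_lit 78) (nat_lit 0) (nat_lit 0) (XT.lf (nat_lit 0) (nat_lit 974327347529) (nat_lit 76) (nat_lit 112345755199) (nat_lit 76) (nat_lit 109594035429) (nat_lit 1) (nat_lit 4) (nat_lit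 2) (nat_lit 5) (nat_lit 2) (nat_lit 4) (nat_lit 392) (nat_lit 280) (nat_lit 228)) (XT.lf (nat_lit 0) (nat_lit 1056853465257) (nat_lit 76) (nat_lit 118842446344) (nat_lit 76) (nat_lit 116086931264) (nat_lit 1) (nat_lit 4) (nat_lit 2) (nat_lit 5) (nat_lit 2) (nat_lit 4) (nat_lit 393) (nat_lit 280) (nat_lit 227)))) (XT.nd (nat_lit 156) (nat_lit 0) (nat_lit 0) (XT.nd (nat_lit 78) (nat_lit 0) (nat_lit 0) (XT.lf (nat_lit 0) (nat_lit 1145970135135) (nat_lit 76) (nat_lit 125864582891) (nat_lit 76) (nat_lit 123105553634) (nat_lit 1) (nat_lit 4) (nat_lit 2) (nat_lit 5) (nat_lit 2) (nat_lit 4) (nat_lit 394) (nat_lit 280) (nat_lit 226)) (XT.lf (nat_lit 0) (nat_lit 1242205455948) (nat_lit 76) (nat_lit 133453777501) (nat_lit 76) (nat_lit 130691494377) (nat_lit 1) (nat_lit 4) (nat_lit 2) (nat_lit 5) (nat_lit 2) (nat_lit 4) (nat_lit 395) (nat_lit 280) (nat_lit 225))) (XT.nd (nat_lit 78) (nat_lit 0) (nat_lit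 0) (XT.lf (nat_lit 0) (nat_lit 1346129711077) (nat_lit 76) (nat_lit 141655003178) (nat_lit 76) (nat_lit 138889707214) (nat_lit 1) (nat_lit 4) (nat_lit 2) (nat_lit 5) (nat_lit 2) (nat_lit 4) (nat_lit 396) (nat_lit 280) (nat_lit 224)) (XT.lf (nat_lit 0) (nat_lit 1458358747960) (nat_lit 76) (nat_lit 150516859779) (nat_lit 76) (nat_lit 147748774149) (nat_lit 1) (nat_lit 4) (nat_lit 2) (nat_lit 5) (nat_lit 2) (nat_lit 4) (nat_lit 397) (nat_lit 280) (nat_lit 223))))) (XT.nd (nat_lit 312) (nat_lit 0) (nat_lit 0) (XT.nd (nat_lit 156) (nat_lit 0) (nat_lit 0) (XT.nd (nat_lit 78) (nat_lit 0) (nat_lit 0) (XT.lf (nat_lit 0) (nat_lit 1579557627558) (nat_lit 76) (nat_lit 160091862010) (nat_lit 76) (nat_lit 157321193355) (nat_lit 1) (nat_lit 4) (nat_lit 2) (nat_lit 5) (nat_lit 2) (nat_lit 4) (nat_lit 398) (nat_lit 280) (nat_lit 222)) (XT.lf (nat_lit 0) (nat_lit 1710444565452) (nat_lit 76) (nat_lit 170436750624)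 (nat_lit 76) (nat_lit 167663690280) (nat_lit 1) (nat_lit 4) (nat_lit 2) (nat_lit 5) (nat_lit 2) (nat_lit 4) (nat_lit 399) (nat_lit 280) (nat_lit 221))) (XT.nd (nat_lit 78) (nat_lit 0) (nat_lit 0) (XT.lf (nat_lit 0) (nat_lit 1851795187942) (nat_lit 76) (nat_lit 181612828665) (nat_lit 76) (nat_lit 178837553794) (nat_lit 1) (nat_lit 4) (nat_lit 2) (nat_lit 5) (nat_lit 2) (nat_lit 4) (nat_lit 400) (nat_lit 280) (nat_lit 220)) (XT.lf (nat_lit 0) (nat_lit 2004447128345) (nat_lit 76) (nat_lit 193686324744) (nat_lit 76) (nat_lit 190908999384) (nat_lit 1) (nat_lit 4) (nat_lit 2) (nat_lit 5) (nat_lit 2) (nat_lit 4) (nat_lit 401) (nat_lit 280) (nat_lit 219)))) (XT.nd (nat_lit 156) (nat_lit 0) (nat_lit 0) (XT.nd (nat_lit 78) (nat_lit 0) (nat_lit 0) (XT.lf (nat_lit 0) (nat_lit 2169304990754) (nat_lit 76) (nat_lit 206728785504) (nat_lit 76) (nat_lit 203949561544) (nat_lit 1) (nat_lit 4) (nat_lit 2)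 (nat_lit 5) (nat_lit 2) (nat_lit 4) (nat_lit 402) (nat_lit 280) (nat_lit 218)) (XT.lf (nat_lit 0) (nat_lit 2347345710649) (nat_lit 76) (nat_lit 220817499601) (nat_lit 76) (nat_lit 218036517679) (nat_lit 1) (nat_lit 4) (nat_lit 2) (nat_lit 5) (nat_lit 2) (nat_lit 4) (nat_lit 403) (nat_lit 280) (nat_lit 217))) (XT.nd (nat_lit 78) (nat_lit 0) (nat_lit 0) (XT.lf (nat_lit 0) (nat_lit 2539624344147) (nat_lit 76) (nat_lit 236035955712) (nat_lit 76) (nat_lit 233253346046) (nat_lit 1) (nat_lit 4) (nat_lit 2) (nat_lit 5) (nat_lit 2) (nat_lit 4) (nat_lit 404) (nat_lit 280) (nat_lit 216)) (XT.lf (nat_lit 0) (nat_lit 2747280320189) (nat_lit 76) (nat_lit 252474337281) (nat_lit 76) (nat_lit 249690220445) (nat_lit 1) (nat_lit 4) (nat_lit 2) (nat_lit 5) (nat_lit 2) (nat_lit 4) (nat_lit 405) (nat_lit 280) (nat_lit 215)))))) (XT.nd (nat_lit 41730) (nat_lit 0) (nat_lit 228) (XT.nd (nat_lit 312) (nat_lit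 0) (nat_lit 0) (XT.nd (nat_lit 156) (nat_lit 0) (nat_lit 0) (XT.nd (nat_lit 78) (nat_lit 0) (nat_lit 0) (XT.lf (nat_lit 0) (nat_lit 2971544192706) (nat_lit 76) (nat_lit 270230056938) (nat_lit 76) (nat_lit 267444544574) (nat_lit 1) (nat_lit 4) (nat_lit 2) (nat_lit 5) (nat_lit 2) (nat_lit 4) (nat_lit 406) (nat_lit 280) (nat_lit 214)) (XT.lf (nat_lit 0) (nat_lit 3213744932795) (nat_lit 76) (nat_lit 289408333764) (nat_lit 76) (nat_lit 286621529245) (nat_lit 1) (nat_lit 4) (nat_lit 2) (nat_lit 5) (nat_lit 2) (nat_lit 4) (nat_lit 407) (nat_lit 280) (nat_lit 213))) (XT.nd (nat_lit 78) (nat_lit 0) (nat_lit 0) (XT.lf (nat_lit 0) (nat_lit 3475317804100) (nat_lit 76) (nat_lit 310122816805) (nat_lit 76) (nat_lit 307334815846) (nat_lit 1) (nat_lit 4) (nat_lit 2) (nat_lit 5) (nat_lit 2) (nat_lit 4) (nat_lit 408) (nat_lit 280) (nat_lit 212)) (XT.lf (nat_lit 0) (nat_lit 3757812868081) (nat_lit 76) (nat_lit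 332496258555) (nat_lit 76) (nat_lit 329707149781) (nat_lit 1) (nat_lit 4) (nat_lit 2) (nat_lit 5) (nat_lit 2) (nat_lit 4) (nat_lit 409) (nat_lit 280) (nat_lit 211)))) (XT.nd (nat_lit 41262) (nat_lit 0) (nat_lit 456) (XT.nd (nat_lit 78) (nat_lit 0) (nat_lit 0) (XT.lf (nat_lit 0) (nat_lit 4062904169563) (nat_lit 76) (nat_lit 356661242371) (nat_lit 76) (nat_lit 353871107843) (nat_lit 1) (nat_lit 4) (nat_lit 2) (nat_lit 5) (nat_lit 2) (nat_lit 4) (nat_lit 410) (nat_lit 280) (nat_lit 210)) (XT.lf (nat_lit 0) (nat_lit 4392399656997) (nat_lit 76) (nat_lit 382760968159) (nat_lit 76) (nat_lit 379969883857) (nat_lit 1) (nat_lit 4) (nat_lit 2) (nat_lit 5) (nat_lit 2) (nat_lit 4) (nat_lit 411) (nat_lit 280) (nat_lit 209))) (XT.nd (nat_lit 78) (nat_lit 76) (nat_lit 0) (XT.lf (nat_lit 0) (nat_lit 5511038978) (nat_lit 152) (nat_lit 413591978) (nat_lit 0) (nat_lit 5511038978) (nat_lit 8) (nat_lit 5)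 (nat_lit 10) (nat_lit 4) (nat_lit 8) (nat_lit 4) (nat_lit 338) (nat_lit 281) (nat_lit 281)) (XT.lf (nat_lit 0) (nat_lit 9224272299) (nat_lit 76) (nat_lit 7657652973) (nat_lit 76) (nat_lit 7396103500) (nat_lit 7) (nat_lit 4) (nat_lit 8) (nat_lit 5) (nat_lit 8) (nat_lit 4) (nat_lit 339) (nat_lit 281) (nat_lit 280))))) (XT.nd (nat_lit 312) (nat_lit 76) (nat_lit 0) (XT.nd (nat_lit 156) (nat_lit 0) (nat_lit 0) (XT.nd (nat_lit 78) (nat_lit 152) (nat_lit 0) (XT.lf (nat_lit 0) (nat_lit 19631282461) (nat_lit 76) (nat_lit 3344299744) (nat_lit 76) (nat_lit 2840574832) (nat_lit 7) (nat_lit 4) (nat_lit 8) (nat_lit 5) (nat_lit 8) (nat_lit 4) (nat_lit 340) (nat_lit 281) (nat_lit 279)) (XT.lf (nat_lit 0) (nat_lit 1832604526) (nat_lit 152) (nat_lit 24493676726) (nat_lit 0) (nat_lit 1158566166) (nat_lit 5) (nat_lit 5) (nat_lit 7) (nat_lit 4) (nat_lit 5) (nat_lit 4) (nat_lit 341) (nat_lit 281) (nat_lit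 278))) (XT.nd (nat_lit 78) (nat_lit 0) (nat_lit 0) (XT.lf (nat_lit 0) (nat_lit 6743462261) (nat_lit 152) (nat_lit 16659192079) (nat_lit 0) (nat_lit 5877177230) (nat_lit 5) (nat_lit 5) (nat_lit 7) (nat_lit 4) (nat_lit 5) (nat_lit 4) (nat_lit 342) (nat_lit 281) (nat_lit 277)) (XT.lf (nat_lit 0) (nat_lit 11822120227) (nat_lit 152) (nat_lit 8636548589) (nat_lit 0) (nat_lit 10777829020) (nat_lit 5) (nat_lit 5) (nat_lit 7) (nat_lit 4) (nat_lit 5) (nat_lit 4) (nat_lit 343) (nat_lit 281) (nat_lit 276)))) (XT.nd (nat_lit 156) (nat_lit 0) (nat_lit 0) (XT.nd (nat_lit 78) (nat_lit 76) (nat_lit 0) (XT.lf (nat_lit 0) (nat_lit 17098674175) (nat_lit 152) (nat_lit 378204665) (nat_lit 0) (nat_lit 15889562434) (nat_lit 5) (nat_lit 5) (nat_lit 7) (nat_lit 4) (nat_lit 5) (nat_lit 4) (nat_lit 344) (nat_lit 281) (nat_lit 275)) (XT.lf (nat_lit 0) (nat_lit 8594720768) (nat_lit 76) (nat_lit 14216375045) (nat_lit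 76) (nat_lit 12854651699) (nat_lit 4) (nat_lit 4) (nat_lit 5) (nat_lit 5) (nat_lit 5) (nat_lit 4) (nat_lit 345) (nat_lit 281) (nat_lit 274))) (XT.nd (nat_lit 78) (nat_lit 0) (nat_lit 0) (XT.lf (nat_lit 0) (nat_lit 17940480041) (nat_lit 76) (nat_lit 10862890834) (nat_lit 76) (nat_lit 9359860446) (nat_lit 4) (nat_lit 4) (nat_lit 5) (nat_lit 5) (nat_lit 5) (nat_lit 4) (nat_lit 346) (nat_lit 281) (nat_lit 273)) (XT.nd (nat_lit 78) (nat_lit 0) (nat_lit 0) (XT.lf (nat_lit 0) (nat_lit 27694539842) (nat_lit 76) (nat_lit 7406894495) (nat_lit 76) (nat_lit 5773024252) (nat_lit 4) (nat_lit 4) (nat_lit 5) (nat_lit 5) (nat_lit 5) (nat_lit 4) (nat_lit 347) (nat_lit 281) (nat_lit 272)) (XT.lf (nat_lit 0) (nat_lit 37914702008) (nat_lit 76) (nat_lit 3827906048) (nat_lit 76) (nat_lit 2072887793) (nat_lit 4) (nat_lit 4) (nat_lit 5) (nat_lit 5) (nat_lit 5) (nat_lit 4) (nat_lit 348) (nat_lit 281) (nat_lit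 271))))))))
noncomputable def xc42 : XT := (XT.nd (nat_lit 1248) (nat_lit 0) (nat_lit 0) (XT.nd (nat_lit 624) (nat_lit 76) (nat_lit 0) (XT.nd (nat_lit 312) (nat_lit 0) (nat_lit 0) (XT.nd (nat_lit 156) (nat_lit 0) (nat_lit 0) (XT.nd (nat_lit 78) (nat_lit 0) (nat_lit 0) (XT.lf (nat_lit 0) (nat_lit 1700434006) (nat_lit 76) (nat_lit 14770968) (nat_lit 152) (nat_lit 45281903849) (nat_lit 2) (nat_lit 5) (nat_lit 3) (nat_lit 5) (nat_lit 4) (nat_lit 4) (nat_lit 349) (nat_lit 281) (nat_lit 270)) (XT.lf (nat_lit 0) (nat_lit 5806695090) (nat_lit 152) (nat_lit 40631661269) (nat_lit 0) (nat_lit 3981642094) (nat_lit 2) (nat_lit 5) (nat_lit 4) (nat_lit 4) (nat_lit 2) (nat_lit 4) (nat_lit 350) (nat_lit 281) (nat_lit 269))) (XT.nd (nat_lit 78) (nat_lit 0) (nat_lit 0) (XT.lf (nat_lit 0) (nat_lit 10085261889) (nat_lit 152) (nat_lit 35871554252) (nat_lit 0) (nat_lit 8171161487) (nat_lit 2) (nat_lit 5) (nat_lit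 4) (nat_lit 4) (nat_lit 2) (nat_lit 4) (nat_lit 351) (nat_lit 281) (nat_lit 268)) (XT.lf (nat_lit 0) (nat_lit 14575904600) (nat_lit 152) (nat_lit 30987790484) (nat_lit 0) (nat_lit 12579352896) (nat_lit 2) (nat_lit 5) (nat_lit 4) (nat_lit 4) (nat_lit 2) (nat_lit 4) (nat_lit 352) (nat_lit 281) (nat_lit 267)))) (XT.nd (nat_lit 156) (nat_lit 0) (nat_lit 0) (XT.nd (nat_lit 78) (nat_lit 0) (nat_lit 0) (XT.lf (nat_lit 0) (nat_lit 19305234438) (nat_lit 152) (nat_lit 25951429142) (nat_lit 0) (nat_lit 17232338936) (nat_lit 2) (nat_lit 5) (nat_lit 4) (nat_lit 4) (nat_lit 2) (nat_lit 4) (nat_lit 353) (nat_lit 281) (nat_lit 266)) (XT.lf (nat_lit 0) (nat_lit 24301277062) (nat_lit 152) (nat_lit 20732625122) (nat_lit 0) (nat_lit 22157692859) (nat_lit 2) (nat_lit 5) (nat_lit 4) (nat_lit 4) (nat_lit 2) (nat_lit 4) (nat_lit 354) (nat_lit 281) (nat_lit 265))) (XT.nd (nat_lit 78) (nat_lit 0) (nat_lit 0) (XT.lf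 (nat_lit 0) (nat_lit 29593638651) (nat_lit 152) (nat_lit 15300452178) (nat_lit 0) (nat_lit 27384601946) (nat_lit 2) (nat_lit 5) (nat_lit 4) (nat_lit 4) (nat_lit 2) (nat_lit 4) (nat_lit 355) (nat_lit 281) (nat_lit 264)) (XT.lf (nat_lit 0) (nat_lit 35213681347) (nat_lit 152) (nat_lit 9622719655) (nat_lit 0) (nat_lit 32944040473) (nat_lit 2) (nat_lit 5) (nat_lit 4) (nat_lit 4) (nat_lit 2) (nat_lit 4) (nat_lit 356) (nat_lit 281) (nat_lit 263))))) (XT.nd (nat_lit 312) (nat_lit 0) (nat_lit 0) (XT.nd (nat_lit 156) (nat_lit 0) (nat_lit 0) (XT.nd (nat_lit 78) (nat_lit 76) (nat_lit 0) (XT.lf (nat_lit 0) (nat_lit 41194709107) (nat_lit 152) (nat_lit 3665781732) (nat_lit 0) (nat_lit 38868953263) (nat_lit 2) (nat_lit 5) (nat_lit 4) (nat_lit 4) (nat_lit 2) (nat_lit 4) (nat_lit 357) (nat_lit 281) (nat_lit 262)) (XT.lf (nat_lit 0) (nat_lit 2742871505) (nat_lit 76) (nat_lit 44895259678) (nat_lit 76) (nat_lit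 42517545528) (nat_lit 1) (nat_lit 4) (nat_lit 2) (nat_lit 5) (nat_lit 2) (nat_lit 4) (nat_lit 358) (nat_lit 281) (nat_lit 261))) (XT.nd (nat_lit 78) (nat_lit 0) (nat_lit 0) (XT.lf (nat_lit 0) (nat_lit 9714746511) (nat_lit 76) (nat_lit 44902734909) (nat_lit 76) (nat_lit 42476911215) (nat_lit 1) (nat_lit 4) (nat_lit 2) (nat_lit 5) (nat_lit 2) (nat_lit 4) (nat_lit 359) (nat_lit 281) (nat_lit 260)) (XT.lf (nat_lit 0) (nat_lit 17098124529) (nat_lit 76) (nat_lit 44983189797) (nat_lit 76) (nat_lit 42512820231) (nat_lit 1) (nat_lit 4) (nat_lit 2) (nat_lit 5) (nat_lit 2) (nat_lit 4) (nat_lit 360) (nat_lit 281) (nat_lit 259)))) (XT.nd (nat_lit 156) (nat_lit 0) (nat_lit 0) (XT.nd (nat_lit 78) (nat_lit 0) (nat_lit 0) (XT.lf (nat_lit 0) (nat_lit 24936758911) (nat_lit 76) (nat_lit 45137101113) (nat_lit 76) (nat_lit 42625485369) (nat_lit 1) (nat_lit 4) (nat_lit 2) (nat_lit 5) (nat_lit 2) (nat_lit 4)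 (nat_lit 361) (nat_lit 281) (nat_lit 258)) (XT.lf (nat_lit 0) (nat_lit 33277100822) (nat_lit 76) (nat_lit 45365380925) (nat_lit 76) (nat_lit 42815574274) (nat_lit 1) (nat_lit 4) (nat_lit 2) (nat_lit 5) (nat_lit 2) (nat_lit 4) (nat_lit 362) (nat_lit 281) (nat_lit 257))) (XT.nd (nat_lit 78) (nat_lit 0) (nat_lit 0) (XT.lf (nat_lit 0) (nat_lit 42168574513) (nat_lit 76) (nat_lit 45669382001) (nat_lit 76) (nat_lit 43084213400) (nat_lit 1) (nat_lit 4) (nat_lit 2) (nat_lit 5) (nat_lit 2) (nat_lit 4) (nat_lit 363) (nat_lit 281) (nat_lit 256)) (XT.lf (nat_lit 0) (nat_lit 51663870196) (nat_lit 76) (nat_lit 46050905828) (nat_lit 76) (nat_lit 43432994681) (nat_lit 1) (nat_lit 4) (nat_lit 2) (nat_lit 5) (nat_lit 2) (nat_lit 4) (nat_lit 364) (nat_lit 281) (nat_lit 255)))))) (XT.nd (nat_lit 624) (nat_lit 0) (nat_lit 0) (XT.nd (nat_lit 312) (nat_lit 0) (nat_lit 0) (XT.nd (nat_lit 156) (nat_lit 0) (nat_lit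 0) (XT.nd (nat_lit 78) (nat_lit 0) (nat_lit 0) (XT.lf (nat_lit 0) (nat_lit 61819256291) (nat_lit 76) (nat_lit 46512213290) (nat_lit 76) (nat_lit 43863984970) (nat_lit 1) (nat_lit 4) (nat_lit 2) (nat_lit 5) (nat_lit 2) (nat_lit 4) (nat_lit 365) (nat_lit 281) (nat_lit 254)) (XT.lf (nat_lit 0) (nat_lit 72694912864) (nat_lit 76) (nat_lit 47056038060) (nat_lit 76) (nat_lit 44379738284) (nat_lit 1) (nat_lit 4) (nat_lit 2) (nat_lit 5) (nat_lit 2) (nat_lit 4) (nat_lit 366) (nat_lit 281) (nat_lit 253))) (XT.nd (nat_lit 78) (nat_lit 0) (nat_lit 0) (XT.lf (nat_lit 0) (nat_lit 84355288250) (nat_lit 76) (nat_lit 47685602803) (nat_lit 76) (nat_lit 44983310938) (nat_lit 1) (nat_lit 4) (nat_lit 2) (nat_lit 5) (nat_lit 2) (nat_lit 4) (nat_lit 367) (nat_lit 281) (nat_lit 252)) (XT.lf (nat_lit 0) (nat_lit 96869480970) (nat_lit 76) (nat_lit 48404638273) (nat_lit 76) (nat_lit 45678279659) (nat_lit 1) (nat_lit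 4) (nat_lit 2) (nat_lit 5) (nat_lit 2) (nat_lit 4) (nat_lit 368) (nat_lit 281) (nat_lit 251)))) (XT.nd (nat_lit 156) (nat_lit 0) (nat_lit 0) (XT.nd (nat_lit 78) (nat_lit 0) (nat_lit 0) (XT.lf (nat_lit 0) (nat_lit 110311649202) (nat_lit 76) (nat_lit 49217405421) (nat_lit 76) (nat_lit 46468762780) (nat_lit 1) (nat_lit 4) (nat_lit 2) (nat_lit 5) (nat_lit 2) (nat_lit 4) (nat_lit 369) (nat_lit 281) (nat_lit 250)) (XT.lf (nat_lit 0) (nat_lit 124761450241) (nat_lit 76) (nat_lit 50128720646) (nat_lit 76) (nat_lit 47359444647) (nat_lit 1) (nat_lit 4) (nat_lit 2) (nat_lit 5) (nat_lit 2) (nat_lit 4) (nat_lit 370) (nat_lit 281) (nat_lit 249))) (XT.nd (nat_lit 78) (nat_lit 0) (nat_lit 0) (XT.lf (nat_lit 0) (nat_lit 140304512536) (nat_lit 76) (nat_lit 51143984333) (nat_lit 76) (nat_lit 48355603372) (nat_lit 1) (nat_lit 4) (nat_lit 2) (nat_lit 5) (nat_lit 2) (nat_lit 4) (nat_lit 371) (nat_lit 281) (nat_lit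 248)) (XT.lf (nat_lit 0) (nat_lit 157032943124) (nat_lit 76) (nat_lit 52269212860) (nat_lit 76) (nat_lit 49463142120) (nat_lit 1) (nat_lit 4) (nat_lit 2) (nat_lit 5) (nat_lit 2) (nat_lit 4) (nat_lit 372) (nat_lit 281) (nat_lit 247))))) (XT.nd (nat_lit 312) (nat_lit 0) (nat_lit 0) (XT.nd (nat_lit 156) (nat_lit 0) (nat_lit 0) (XT.nd (nat_lit 78) (nat_lit 0) (nat_lit 0) (XT.lf (nat_lit 0) (nat_lit 175045873444) (nat_lit 76) (nat_lit 53511074248) (nat_lit 76) (nat_lit 50688624083) (nat_lit 1) (nat_lit 4) (nat_lit 2) (nat_lit 5) (nat_lit 2) (nat_lit 4) (nat_lit 373) (nat_lit 281) (nat_lit 246)) (XT.lf (nat_lit 0) (nat_lit 194450046788) (nat_lit 76) (nat_lit 54876927675) (nat_lit 76) (nat_lit 52039311376) (nat_lit 1) (nat_lit 4) (nat_lit 2) (nat_lit 5) (nat_lit 2) (nat_lit 4) (nat_lit 374) (nat_lit 281) (nat_lit 245))) (XT.nd (nat_lit 78) (nat_lit 0) (nat_lit 0) (XT.lf (nat_lit 0) (nat_lit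 215360450850) (nat_lit 76) (nat_lit 56374867088) (nat_lit 76) (nat_lit 53523208073) (nat_lit 1) (nat_lit 4) (nat_lit 2) (nat_lit 5) (nat_lit 2) (nat_lit 4) (nat_lit 375) (nat_lit 281) (nat_lit 244)) (XT.lf (nat_lit 0) (nat_lit 237900999136) (nat_lit 76) (nat_lit 58013769165) (nat_lit 76) (nat_lit 55149107634) (nat_lit 1) (nat_lit 4) (nat_lit 2) (nat_lit 5) (nat_lit 2) (nat_lit 4) (nat_lit 376) (nat_lit 281) (nat_lit 243)))) (XT.nd (nat_lit 156) (nat_lit 0) (nat_lit 0) (XT.nd (nat_lit 78) (nat_lit 0) (nat_lit 0) (XT.lf (nat_lit 0) (nat_lit 262205265263) (nat_lit 76) (nat_lit 59803345918) (nat_lit 76) (nat_lit 56926645020) (nat_lit 1) (nat_lit 4) (nat_lit 2) (nat_lit 5) (nat_lit 2) (nat_lit 4) (nat_lit 377) (nat_lit 281) (nat_lit 242)) (XT.lf (nat_lit 0) (nat_lit 288417274515) (nat_lit 76) (nat_lit 61754202247) (nat_lit 76) (nat_lit 58866353787) (nat_lit 1) (nat_lit 4) (nat_lit 2) (nat_lit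 5) (nat_lit 2) (nat_lit 4) (nat_lit 378) (nat_lit 281) (nat_lit 241))) (XT.nd (nat_lit 78) (nat_lit 0) (nat_lit 0) (XT.lf (nat_lit 0) (nat_lit 316692357315) (nat_lit 76) (nat_lit 63877898780) (nat_lit 76) (nat_lit 60979728505) (nat_lit 1) (nat_lit 4) (nat_lit 2) (nat_lit 5) (nat_lit 2) (nat_lit 4) (nat_lit 379) (nat_lit 281) (nat_lit 240)) (XT.nd (nat_lit 78) (nat_lit 0) (nat_lit 0) (XT.lf (nat_lit 0) (nat_lit 347198069709) (nat_lit 76) (nat_lit 66187020388) (nat_lit 76) (nat_lit 63279292875) (nat_lit 1) (nat_lit 4) (nat_lit 2) (nat_lit 5) (nat_lit 2) (nat_lit 4) (nat_lit 380) (nat_lit 281) (nat_lit 239)) (XT.lf (nat_lit 0) (nat_lit 380115186291) (nat_lit 76) (nat_lit 68695250753) (nat_lit 76) (nat_lit 65778673946) (nat_lit 1) (nat_lit 4) (nat_lit 2) (nat_lit 5) (nat_lit 2) (nat_lit 4) (nat_lit 381) (nat_lit 281) (nat_lit 238))))))))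
noncomputable def xc43 : XT := (XT.nd (nat_lit 1248) (nat_lit 0) (nat_lit 0) (XT.nd (nat_lit 624) (nat_lit 0) (nat_lit 0) (XT.nd (nat_lit 312) (nat_lit 0) (nat_lit 0) (XT.nd (nat_lit 156) (nat_lit 0) (nat_lit 0) (XT.nd (nat_lit 78) (nat_lit 0) (nat_lit 0) (XT.lf (nat_lit 0) (nat_lit 415638771454) (nat_lit 76) (nat_lit 71417453462) (nat_lit 76) (nat_lit 68492682865) (nat_lit 1) (nat_lit 4) (nat_lit 2) (nat_lit 5) (nat_lit 2) (nat_lit 4) (nat_lit 382) (nat_lit 281) (nat_lit 237)) (XT.lf (nat_lit 0) (nat_lit 453979335332) (nat_lit 76) (nat_lit 74369760088) (nat_lit 76) (nat_lit 71437402648) (nat_lit 1) (nat_lit 4) (nat_lit 2) (nat_lit 5) (nat_lit 2) (nat_lit 4) (nat_lit 383) (nat_lit 281) (nat_lit 236))) (XT.nd (nat_lit 78) (nat_lit 0) (nat_lit 0) (XT.lf (nat_lit 0) (nat_lit 495364081268) (nat_lit 76) (nat_lit 77569665781) (nat_lit 76) (nat_lit 74630283486) (nat_lit 1) (nat_lit 4) (nat_lit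 2) (nat_lit 5) (nat_lit 2) (nat_lit 4) (nat_lit 384) (nat_lit 281) (nat_lit 235)) (XT.lf (nat_lit 0) (nat_lit 540038252200) (nat_lit 76) (nat_lit 81036132944) (nat_lit 76) (nat_lit 78090246155) (nat_lit 1) (nat_lit 4) (nat_lit 2) (nat_lit 5) (nat_lit 2) (nat_lit 4) (nat_lit 385) (nat_lit 281) (nat_lit 234)))) (XT.nd (nat_lit 156) (nat_lit 0) (nat_lit 0) (XT.nd (nat_lit 78) (nat_lit 0) (nat_lit 0) (XT.lf (nat_lit 0) (nat_lit 588266583955) (nat_lit 76) (nat_lit 84789703606) (nat_lit 76) (nat_lit 81837794136) (nat_lit 1) (nat_lit 4) (nat_lit 2) (nat_lit 5) (nat_lit 2) (nat_lit 4) (nat_lit 386) (nat_lit 281) (nat_lit 233)) (XT.lf (nat_lit 0) (nat_lit 640334874056) (nat_lit 76) (nat_lit 88852621148) (nat_lit 76) (nat_lit 85895135122) (nat_lit 1) (nat_lit 4) (nat_lit 2) (nat_lit 5) (nat_lit 2) (nat_lit 4) (nat_lit 387) (nat_lit 281) (nat_lit 232))) (XT.nd (nat_lit 78) (nat_lit 0) (nat_lit 0)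 (XT.lf (nat_lit 0) (nat_lit 696551675333) (nat_lit 76) (nat_lit 93248962118) (nat_lit 76) (nat_lit 90286312614) (nat_lit 1) (nat_lit 4) (nat_lit 2) (nat_lit 5) (nat_lit 2) (nat_lit 4) (nat_lit 388) (nat_lit 281) (nat_lit 231)) (XT.lf (nat_lit 0) (nat_lit 757250124385) (nat_lit 76) (nat_lit 98004778908) (nat_lit 76) (nat_lit 95037348406) (nat_lit 1) (nat_lit 4) (nat_lit 2) (nat_lit 5) (nat_lit 2) (nat_lit 4) (nat_lit 389) (nat_lit 281) (nat_lit 230))))) (XT.nd (nat_lit 312) (nat_lit 0) (nat_lit 0) (XT.nd (nat_lit 156) (nat_lit 0) (nat_lit 0) (XT.nd (nat_lit 78) (nat_lit 0) (nat_lit 0) (XT.lf (nat_lit 0) (nat_lit 822789915726) (nat_lit 76) (nat_lit 103148254136) (nat_lit 76) (nat_lit 100176396784) (nat_lit 1) (nat_lit 4) (nat_lit 2) (nat_lit 5) (nat_lit 2) (nat_lit 4) (nat_lit 390) (nat_lit 281) (nat_lit 229)) (XT.lf (nat_lit 0) (nat_lit 893559433304) (nat_lit 76) (nat_lit 108709867654)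 (nat_lit 76) (nat_lit 105733911367) (nat_lit 1) (nat_lit 4) (nat_lit 2) (nat_lit 5) (nat_lit 2) (nat_lit 4) (nat_lit 391) (nat_lit 281) (nat_lit 228))) (XT.nd (nat_lit 78) (nat_lit 0) (nat_lit 0) (XT.lf (nat_lit 0) (nat_lit 969978052038) (nat_lit 76) (nat_lit 114722577172) (nat_lit 76) (nat_lit 111742825575) (nat_lit 1) (nat_lit 4) (nat_lit 2) (nat_lit 5) (nat_lit 2) (nat_lit 4) (nat_lit 392) (nat_lit 281) (nat_lit 227)) (XT.lf (nat_lit 0) (nat_lit 1052498623003) (nat_lit 76) (nat_lit 121222013562) (nat_lit 76) (nat_lit 118238747789) (nat_lit 1) (nat_lit 4) (nat_lit 2) (nat_lit 5) (nat_lit 2) (nat_lit 4) (nat_lit 393) (nat_lit 281) (nat_lit 226)))) (XT.nd (nat_lit 156) (nat_lit 0) (nat_lit 0) (XT.nd (nat_lit 78) (nat_lit 0) (nat_lit 0) (XT.lf (nat_lit 0) (nat_lit 1141610156988) (nat_lit 76) (nat_lit 128246692003) (nat_lit 76) (nat_lit 125260172362) (nat_lit 1) (nat_lit 4) (nat_lit 2)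 (nat_lit 5) (nat_lit 2) (nat_lit 4) (nat_lit 394) (nat_lit 281) (nat_lit 225)) (XT.lf (nat_lit 0) (nat_lit 1237840722345) (nat_lit 76) (nat_lit 135838240218) (nat_lit 76) (nat_lit 132848707737) (nat_lit 1) (nat_lit 4) (nat_lit 2) (nat_lit 5) (nat_lit 2) (nat_lit 4) (nat_lit 395) (nat_lit 281) (nat_lit 224))) (XT.nd (nat_lit 78) (nat_lit 0) (nat_lit 0) (XT.lf (nat_lit 0) (nat_lit 1341760574274) (nat_lit 76) (nat_lit 144041645159) (nat_lit 76) (nat_lit 141049323012) (nat_lit 1) (nat_lit 4) (nat_lit 2) (nat_lit 5) (nat_lit 2) (nat_lit 4) (nat_lit 396) (nat_lit 281) (nat_lit 223)) (XT.lf (nat_lit 0) (nat_lit 1453985534121) (nat_lit 76) (nat_lit 152905519598) (nat_lit 76) (nat_lit 149910614426) (nat_lit 1) (nat_lit 4) (nat_lit 2) (nat_lit 5) (nat_lit 2) (nat_lit 4) (nat_lit 397) (nat_lit 281) (nat_lit 222)))))) (XT.nd (nat_lit 624) (nat_lit 0) (nat_lit 0) (XT.nd (nat_lit 312) (nat_lit 0) (nat_lit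 0) (XT.nd (nat_lit 156) (nat_lit 0) (nat_lit 0) (XT.nd (nat_lit 78) (nat_lit 0) (nat_lit 0) (XT.lf (nat_lit 0) (nat_lit 1575180638684) (nat_lit 76) (nat_lit 162482390196) (nat_lit 76) (nat_lit 159485093335) (nat_lit 1) (nat_lit 4) (nat_lit 2) (nat_lit 5) (nat_lit 2) (nat_lit 4) (nat_lit 398) (nat_lit 281) (nat_lit 221)) (XT.lf (nat_lit 0) (nat_lit 1706064081176) (nat_lit 76) (nat_lit 172829008780) (nat_lit 76) (nat_lit 169829497392) (nat_lit 1) (nat_lit 4) (nat_lit 2) (nat_lit 5) (nat_lit 2) (nat_lit 4) (nat_lit 399) (nat_lit 281) (nat_lit 220))) (XT.nd (nat_lit 78) (nat_lit 0) (nat_lit 0) (XT.lf (nat_lit 0) (nat_lit 1847411467183) (nat_lit 76) (nat_lit 184006688646) (nat_lit 76) (nat_lit 181005126770) (nat_lit 1) (nat_lit 4) (nat_lit 2) (nat_lit 5) (nat_lit 2) (nat_lit 4) (nat_lit 400) (nat_lit 281) (nat_lit 219)) (XT.lf (nat_lit 0) (nat_lit 2000060410842) (nat_lit 76) (nat_lit 196081667895)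 (nat_lit 76) (nat_lit 193078207419) (nat_lit 1) (nat_lit 4) (nat_lit 2) (nat_lit 5) (nat_lit 2) (nat_lit 4) (nat_lit 401) (nat_lit 281) (nat_lit 218)))) (XT.nd (nat_lit 156) (nat_lit 0) (nat_lit 0) (XT.nd (nat_lit 78) (nat_lit 0) (nat_lit 0) (XT.lf (nat_lit 0) (nat_lit 2164915498488) (nat_lit 76) (nat_lit 209125501961) (nat_lit 76) (nat_lit 206120283522) (nat_lit 1) (nat_lit 4) (nat_lit 2) (nat_lit 5) (nat_lit 2) (nat_lit 4) (nat_lit 402) (nat_lit 281) (nat_lit 217)) (XT.lf (nat_lit 0) (nat_lit 2342953649158) (nat_lit 76) (nat_lit 223215487638) (nat_lit 76) (nat_lit 220208641456) (nat_lit 1) (nat_lit 4) (nat_lit 2) (nat_lit 5) (nat_lit 2) (nat_lit 4) (nat_lit 403) (nat_lit 281) (nat_lit 216))) (XT.nd (nat_lit 78) (nat_lit 0) (nat_lit 0) (XT.lf (nat_lit 0) (nat_lit 2535229903744) (nat_lit 76) (nat_lit 238435121138) (nat_lit 76) (nat_lit 235426767786) (nat_lit 1) (nat_lit 4) (nat_lit 2)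 (nat_lit 5) (nat_lit 2) (nat_lit 4) (nat_lit 404) (nat_lit 281) (nat_lit 215)) (XT.lf (nat_lit 0) (nat_lit 2742883677090) (nat_lit 76) (nat_lit 254874592881) (nat_lit 76) (nat_lit 251864844001) (nat_lit 1) (nat_lit 4) (nat_lit 2) (nat_lit 5) (nat_lit 2) (nat_lit 4) (nat_lit 405) (nat_lit 281) (nat_lit 214))))) (XT.nd (nat_lit 312) (nat_lit 0) (nat_lit 0) (XT.nd (nat_lit 156) (nat_lit 0) (nat_lit 0) (XT.nd (nat_lit 78) (nat_lit 0) (nat_lit 0) (XT.lf (nat_lit 0) (nat_lit 2967145510073) (nat_lit 76) (nat_lit 272631321960) (nat_lit 76) (nat_lit 269620280924) (nat_lit 1) (nat_lit 4) (nat_lit 2) (nat_lit 5) (nat_lit 2) (nat_lit 4) (nat_lit 406) (nat_lit 281) (nat_lit 213)) (XT.lf (nat_lit 0) (nat_lit 3209344361705) (nat_lit 76) (nat_lit 291810533434) (nat_lit 76) (nat_lit 288798295958) (nat_lit 1) (nat_lit 4) (nat_lit 2) (nat_lit 5) (nat_lit 2) (nat_lit 4) (nat_lit 407) (nat_lit 281) (nat_lit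 212))) (XT.nd (nat_lit 78) (nat_lit 0) (nat_lit 0) (XT.lf (nat_lit 0) (nat_lit 3470915484439) (nat_lit 76) (nat_lit 312525881892) (nat_lit 76) (nat_lit 309512536601) (nat_lit 1) (nat_lit 4) (nat_lit 2) (nat_lit 5) (nat_lit 2) (nat_lit 4) (nat_lit 408) (nat_lit 281) (nat_lit 211)) (XT.lf (nat_lit 0) (nat_lit 3753408929373) (nat_lit 76) (nat_lit 334900124952) (nat_lit 76) (nat_lit 331885753907) (nat_lit 1) (nat_lit 4) (nat_lit 2) (nat_lit 5) (nat_lit 2) (nat_lit 4) (nat_lit 409) (nat_lit 281) (nat_lit 210)))) (XT.nd (nat_lit 41106) (nat_lit 0) (nat_lit 532) (XT.nd (nat_lit 78) (nat_lit 0) (nat_lit 0) (XT.lf (nat_lit 0) (nat_lit 4058498731737) (nat_lit 76) (nat_lit 359065850723) (nat_lit 76) (nat_lit 356050529905) (nat_lit 1) (nat_lit 4) (nat_lit 2) (nat_lit 5) (nat_lit 2) (nat_lit 4) (nat_lit 410) (nat_lit 281) (nat_lit 209)) (XT.lf (nat_lit 0) (nat_lit 4387992831099) (nat_lit 76) (nat_lit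 385166263505) (nat_lit 76) (nat_lit 382150063268) (nat_lit 1) (nat_lit 4) (nat_lit 2) (nat_lit 5) (nat_lit 2) (nat_lit 4) (nat_lit 411) (nat_lit 281) (nat_lit 208))) (XT.nd (nat_lit 78) (nat_lit 0) (nat_lit 0) (XT.lf (nat_lit 0) (nat_lit 324891812) (nat_lit 152) (nat_lit 9539970877) (nat_lit 0) (nat_lit 324891812) (nat_lit 8) (nat_lit 5) (nat_lit 10) (nat_lit 4) (nat_lit 8) (nat_lit 4) (nat_lit 336) (nat_lit 282) (nat_lit 282)) (XT.nd (nat_lit 78) (nat_lit 0) (nat_lit 0) (XT.lf (nat_lit 0) (nat_lit 5838502393) (nat_lit 152) (nat_lit 10177645939) (nat_lit 0) (nat_lit 5556028962) (nat_lit 8) (nat_lit 5) (nat_lit 10) (nat_lit 4) (nat_lit 8) (nat_lit 4) (nat_lit 337) (nat_lit 282) (nat_lit 281)) (XT.lf (nat_lit 0) (nat_lit 11176989095) (nat_lit 152) (nat_lit 1071644603) (nat_lit 0) (nat_lit 10632966191) (nat_lit 8) (nat_lit 5) (nat_lit 10) (nat_lit 4) (nat_lit 8) (nat_lit 4) (nat_lit 338)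 (nat_lit 282) (nat_lit 280))))))))
noncomputable def xc44 : XT := (XT.nd (nat_lit 1248) (nat_lit 76) (nat_lit 0) (XT.nd (nat_lit 624) (nat_lit 152) (nat_lit 0) (XT.nd (nat_lit 312) (nat_lit 76) (nat_lit 0) (XT.nd (nat_lit 156) (nat_lit 152) (nat_lit 0) (XT.nd (nat_lit 78) (nat_lit 0) (nat_lit 0) (XT.lf (nat_lit 0) (nat_lit 8728667020) (nat_lit 76) (nat_lit 8178136839) (nat_lit 76) (nat_lit 7391938497) (nat_lit 7) (nat_lit 4) (nat_lit 8) (nat_lit 5) (nat_lit 8) (nat_lit 4) (nat_lit 339) (nat_lit 282) (nat_lit 279)) (XT.lf (nat_lit 0) (nat_lit 18915055174) (nat_lit 76) (nat_lit 3970735548) (nat_lit 76) (nat_lit 2960300688) (nat_lit 7) (nat_lit 4) (nat_lit 8) (nat_lit 5) (nat_lit 8) (nat_lit 4) (nat_lit 340) (nat_lit 282) (nat_lit 278))) (XT.nd (nat_lit 78) (nat_lit 0) (nat_lit 0) (XT.lf (nat_lit 0) (nat_lit 1567558791) (nat_lit 152) (nat_lit 25519874243) (nat_lit 0) (nat_lit 439724287)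 (nat_lit 5) (nat_lit 5) (nat_lit 7) (nat_lit 4) (nat_lit 5) (nat_lit 4) (nat_lit 341) (nat_lit 282) (nat_lit 277)) (XT.lf (nat_lit 0) (nat_lit 6370210570) (nat_lit 152) (nat_lit 17896254946) (nat_lit 0) (nat_lit 5064369890) (nat_lit 5) (nat_lit 5) (nat_lit 7) (nat_lit 4) (nat_lit 5) (nat_lit 4) (nat_lit 342) (nat_lit 282) (nat_lit 276)))) (XT.nd (nat_lit 156) (nat_lit 76) (nat_lit 0) (XT.nd (nat_lit 78) (nat_lit 0) (nat_lit 0) (XT.lf (nat_lit 0) (nat_lit 11348677837) (nat_lit 152) (nat_lit 10068857151) (nat_lit 0) (nat_lit 9878016623) (nat_lit 5) (nat_lit 5) (nat_lit 7) (nat_lit 4) (nat_lit 5) (nat_lit 4) (nat_lit 343) (nat_lit 282) (nat_lit 275)) (XT.lf (nat_lit 0) (nat_lit 16532462618) (nat_lit 152) (nat_lit 1991296277) (nat_lit 0) (nat_lit 14909189799) (nat_lit 5) (nat_lit 5) (nat_lit 7) (nat_lit 4) (nat_lit 5) (nat_lit 4) (nat_lit 344) (nat_lit 282) (nat_lit 274))) (XT.nd (nat_lit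 78) (nat_lit 0) (nat_lit 0) (XT.lf (nat_lit 0) (nat_lit 6720480345) (nat_lit 76) (nat_lit 15393431008) (nat_lit 76) (nat_lit 13628851146) (nat_lit 4) (nat_lit 4) (nat_lit 5) (nat_lit 5) (nat_lit 5) (nat_lit 4) (nat_lit 345) (nat_lit 282) (nat_lit 273)) (XT.lf (nat_lit 0) (nat_lit 15903085670) (nat_lit 76) (nat_lit 12119642282) (nat_lit 76) (nat_lit 10224222566) (nat_lit 4) (nat_lit 4) (nat_lit 5) (nat_lit 5) (nat_lit 5) (nat_lit 4) (nat_lit 346) (nat_lit 282) (nat_lit 272))))) (XT.nd (nat_lit 312) (nat_lit 0) (nat_lit 0) (XT.nd (nat_lit 156) (nat_lit 152) (nat_lit 0) (XT.nd (nat_lit 78) (nat_lit 0) (nat_lit 0) (XT.lf (nat_lit 0) (nat_lit 25506077000) (nat_lit 76) (nat_lit 8737438057) (nat_lit 76) (nat_lit 6720870329) (nat_lit 4) (nat_lit 4) (nat_lit 5) (nat_lit 5) (nat_lit 5) (nat_lit 4) (nat_lit 347) (nat_lit 282) (nat_lit 271)) (XT.lf (nat_lit 0) (nat_lit 35586360952) (nat_lit 76) (nat_lit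 5226775643) (nat_lit 76) (nat_lit 3098033829) (nat_lit 4) (nat_lit 4) (nat_lit 5) (nat_lit 5) (nat_lit 5) (nat_lit 4) (nat_lit 348) (nat_lit 282) (nat_lit 270))) (XT.nd (nat_lit 78) (nat_lit 76) (nat_lit 0) (XT.lf (nat_lit 0) (nat_lit 632451802) (nat_lit 152) (nat_lit 917106958) (nat_lit 76) (nat_lit 45553928385) (nat_lit 3) (nat_lit 5) (nat_lit 5) (nat_lit 5) (nat_lit 4) (nat_lit 4) (nat_lit 349) (nat_lit 282) (nat_lit 269)) (XT.lf (nat_lit 0) (nat_lit 4595600531) (nat_lit 152) (nat_lit 43501737602) (nat_lit 0) (nat_lit 2439324690) (nat_lit 2) (nat_lit 5) (nat_lit 4) (nat_lit 4) (nat_lit 2) (nat_lit 4) (nat_lit 350) (nat_lit 282) (nat_lit 268)))) (XT.nd (nat_lit 156) (nat_lit 0) (nat_lit 0) (XT.nd (nat_lit 78) (nat_lit 0) (nat_lit 0) (XT.lf (nat_lit 0) (nat_lit 8811566641) (nat_lit 152) (nat_lit 38865261263) (nat_lit 0) (nat_lit 6572839499) (nat_lit 2) (nat_lit 5) (nat_lit 4) (nat_lit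 4) (nat_lit 2) (nat_lit 4) (nat_lit 351) (nat_lit 282) (nat_lit 267)) (XT.lf (nat_lit 0) (nat_lit 13244245751) (nat_lit 152) (nat_lit 34095970345) (nat_lit 0) (nat_lit 10929174811) (nat_lit 2) (nat_lit 5) (nat_lit 4) (nat_lit 4) (nat_lit 2) (nat_lit 4) (nat_lit 352) (nat_lit 282) (nat_lit 266))) (XT.nd (nat_lit 78) (nat_lit 0) (nat_lit 0) (XT.lf (nat_lit 0) (nat_lit 17919905589) (nat_lit 152) (nat_lit 29165602382) (nat_lit 0) (nat_lit 15534145947) (nat_lit 2) (nat_lit 5) (nat_lit 4) (nat_lit 4) (nat_lit 2) (nat_lit 4) (nat_lit 353) (nat_lit 282) (nat_lit 265)) (XT.lf (nat_lit 0) (nat_lit 22866253769) (nat_lit 152) (nat_lit 24044940380) (nat_lit 0) (nat_lit 20415041625) (nat_lit 2) (nat_lit 5) (nat_lit 4) (nat_lit 4) (nat_lit 2) (nat_lit 4) (nat_lit 354) (nat_lit 282) (nat_lit 264)))))) (XT.nd (nat_lit 624) (nat_lit 0) (nat_lit 0) (XT.nd (nat_lit 312) (nat_lit 76) (nat_lit 0) (XT.nd (nat_lit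 156) (nat_lit 0) (nat_lit 0) (XT.nd (nat_lit 78) (nat_lit 0) (nat_lit 0) (XT.lf (nat_lit 0) (nat_lit 28112601982) (nat_lit 152) (nat_lit 18703639675) (nat_lit 0) (nat_lit 25600785670) (nat_lit 2) (nat_lit 5) (nat_lit 4) (nat_lit 4) (nat_lit 2) (nat_lit 4) (nat_lit 355) (nat_lit 282) (nat_lit 263)) (XT.lf (nat_lit 0) (nat_lit 33690039702) (nat_lit 152) (nat_lit 13110048115) (nat_lit 0) (nat_lit 31122108419) (nat_lit 2) (nat_lit 5) (nat_lit 4) (nat_lit 4) (nat_lit 2) (nat_lit 4) (nat_lit 356) (nat_lit 282) (nat_lit 262))) (XT.nd (nat_lit 78) (nat_lit 0) (nat_lit 0) (XT.lf (nat_lit 0) (nat_lit 39631618409) (nat_lit 152) (nat_lit 7231018490) (nat_lit 0) (nat_lit 37011728820) (nat_lit 2) (nat_lit 5) (nat_lit 4) (nat_lit 4) (nat_lit 2) (nat_lit 4) (nat_lit 357) (nat_lit 282) (nat_lit 261)) (XT.lf (nat_lit 0) (nat_lit 45972547460) (nat_lit 152) (nat_lit 1031712106) (nat_lit 0) (nat_lit 43304548329)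 (nat_lit 2) (nat_lit 5) (nat_lit 4) (nat_lit 4) (nat_lit 2) (nat_lit 4) (nat_lit 358) (nat_lit 282) (nat_lit 260)))) (XT.nd (nat_lit 156) (nat_lit 0) (nat_lit 0) (XT.nd (nat_lit 78) (nat_lit 0) (nat_lit 0) (XT.lf (nat_lit 0) (nat_lit 5815523716) (nat_lit 76) (nat_lit 47074742499) (nat_lit 76) (nat_lit 44362197495) (nat_lit 1) (nat_lit 4) (nat_lit 2) (nat_lit 5) (nat_lit 2) (nat_lit 4) (nat_lit 359) (nat_lit 282) (nat_lit 259)) (XT.lf (nat_lit 0) (nat_lit 13133798908) (nat_lit 76) (nat_lit 47187418559) (nat_lit 76) (nat_lit 44433627376) (nat_lit 1) (nat_lit 4) (nat_lit 2) (nat_lit 5) (nat_lit 2) (nat_lit 4) (nat_lit 360) (nat_lit 282) (nat_lit 258))) (XT.nd (nat_lit 78) (nat_lit 0) (nat_lit 0) (XT.lf (nat_lit 0) (nat_lit 20912152895) (nat_lit 76) (nat_lit 47371164294) (nat_lit 76) (nat_lit 44579182205) (nat_lit 1) (nat_lit 4) (nat_lit 2) (nat_lit 5) (nat_lit 2) (nat_lit 4) (nat_lit 361)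 (nat_lit 282) (nat_lit 257)) (XT.lf (nat_lit 0) (nat_lit 29196679627) (nat_lit 76) (nat_lit 47627068566) (nat_lit 76) (nat_lit 44799724527) (nat_lit 1) (nat_lit 4) (nat_lit 2) (nat_lit 5) (nat_lit 2) (nat_lit 4) (nat_lit 362) (nat_lit 282) (nat_lit 256))))) (XT.nd (nat_lit 312) (nat_lit 0) (nat_lit 0) (XT.nd (nat_lit 156) (nat_lit 0) (nat_lit 0) (XT.nd (nat_lit 78) (nat_lit 0) (nat_lit 0) (XT.lf (nat_lit 0) (nat_lit 38036472595) (nat_lit 76) (nat_lit 47956647847) (nat_lit 76) (nat_lit 45096561261) (nat_lit 1) (nat_lit 4) (nat_lit 2) (nat_lit 5) (nat_lit 2) (nat_lit 4) (nat_lit 363) (nat_lit 282) (nat_lit 255)) (XT.lf (nat_lit 0) (nat_lit 47483915758) (nat_lit 76) (nat_lit 48361855198) (nat_lit 76) (nat_lit 45471451439) (nat_lit 1) (nat_lit 4) (nat_lit 2) (nat_lit 5) (nat_lit 2) (nat_lit 4) (nat_lit 364) (nat_lit 282) (nat_lit 254))) (XT.nd (nat_lit 78) (nat_lit 0) (nat_lit 0) (XT.lf (nat_lit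 0) (nat_lit 57594993964) (nat_lit 76) (nat_lit 48845091847) (nat_lit 76) (nat_lit 45926616633) (nat_lit 1) (nat_lit 4) (nat_lit 2) (nat_lit 5) (nat_lit 2) (nat_lit 4) (nat_lit 365) (nat_lit 282) (nat_lit 253)) (XT.lf (nat_lit 0) (nat_lit 68429624713) (nat_lit 76) (nat_lit 49409221421) (nat_lit 76) (nat_lit 46464754118) (nat_lit 1) (nat_lit 4) (nat_lit 2) (nat_lit 5) (nat_lit 2) (nat_lit 4) (nat_lit 366) (nat_lit 282) (nat_lit 252)))) (XT.nd (nat_lit 156) (nat_lit 0) (nat_lit 0) (XT.nd (nat_lit 78) (nat_lit 0) (nat_lit 0) (XT.lf (nat_lit 0) (nat_lit 80052013226) (nat_lit 76) (nat_lit 50057586908) (nat_lit 76) (nat_lit 47089052856) (nat_lit 1) (nat_lit 4) (nat_lit 2) (nat_lit 5) (nat_lit 2) (nat_lit 4) (nat_lit 367) (nat_lit 282) (nat_lit 251)) (XT.lf (nat_lit 0) (nat_lit 92531032914) (nat_lit 76) (nat_lit 50794030474) (nat_lit 76) (nat_lit 47803212395) (nat_lit 1) (nat_lit 4) (nat_lit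 2) (nat_lit 5) (nat_lit 2) (nat_lit 4) (nat_lit 368) (nat_lit 282) (nat_lit 250))) (XT.nd (nat_lit 78) (nat_lit 0) (nat_lit 0) (XT.lf (nat_lit 0) (nat_lit 105940633525) (nat_lit 76) (nat_lit 51622916231) (nat_lit 76) (nat_lit 48611464793) (nat_lit 1) (nat_lit 4) (nat_lit 2) (nat_lit 5) (nat_lit 2) (nat_lit 4) (nat_lit 369) (nat_lit 282) (nat_lit 249)) (XT.lf (nat_lit 0) (nat_lit 120360279358) (nat_lit 76) (nat_lit 52549156092) (nat_lit 76) (nat_lit 49518599693) (nat_lit 1) (nat_lit 4) (nat_lit 2) (nat_lit 5) (nat_lit 2) (nat_lit 4) (nat_lit 370) (nat_lit 282) (nat_lit 248)))))))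
noncomputable def xc45 : XT := (XT.nd (nat_lit 1248) (nat_lit 0) (nat_lit 0) (XT.nd (nat_lit 624) (nat_lit 0) (nat_lit 0) (XT.nd (nat_lit 312) (nat_lit 0) (nat_lit 0) (XT.nd (nat_lit 156) (nat_lit 0) (nat_lit 0) (XT.nd (nat_lit 78) (nat_lit 0) (nat_lit 0) (XT.lf (nat_lit 0) (nat_lit 135875420167) (nat_lit 76) (nat_lit 53578238887) (nat_lit 76) (nat_lit 50529992709) (nat_lit 1) (nat_lit 4) (nat_lit 2) (nat_lit 5) (nat_lit 2) (nat_lit 4) (nat_lit 371) (nat_lit 282) (nat_lit 247)) (XT.lf (nat_lit 0) (nat_lit 152577997527) (nat_lit 76) (nat_lit 54716262885) (nat_lit 76) (nat_lit 51651637282) (nat_lit 1) (nat_lit 4) (nat_lit 2) (nat_lit 5) (nat_lit 2) (nat_lit 4) (nat_lit 372) (nat_lit 282) (nat_lit 246))) (XT.nd (nat_lit 78) (nat_lit 0) (nat_lit 0) (XT.lf (nat_lit 0) (nat_lit 170566989674) (nat_lit 76) (nat_lit 55969971931) (nat_lit 76) (nat_lit 52890180193) (nat_lit 1) (nat_lit 4) (nat_lit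 2) (nat_lit 5) (nat_lit 2) (nat_lit 4) (nat_lit 373) (nat_lit 282) (nat_lit 245)) (XT.lf (nat_lit 0) (nat_lit 189948998042) (nat_lit 76) (nat_lit 57346795412) (nat_lit 76) (nat_lit 54252960958) (nat_lit 1) (nat_lit 4) (nat_lit 2) (nat_lit 5) (nat_lit 2) (nat_lit 4) (nat_lit 374) (nat_lit 282) (nat_lit 244)))) (XT.nd (nat_lit 156) (nat_lit 0) (nat_lit 0) (XT.nd (nat_lit 78) (nat_lit 0) (nat_lit 0) (XT.lf (nat_lit 0) (nat_lit 210838878978) (nat_lit 76) (nat_lit 58854892282) (nat_lit 76) (nat_lit 55748055312) (nat_lit 1) (nat_lit 4) (nat_lit 2) (nat_lit 5) (nat_lit 2) (nat_lit 4) (nat_lit 375) (nat_lit 282) (nat_lit 243)) (XT.lf (nat_lit 0) (nat_lit 233360424369) (nat_lit 76) (nat_lit 60503199412) (nat_lit 76) (nat_lit 57384323076) (nat_lit 1) (nat_lit 4) (nat_lit 2) (nat_lit 5) (nat_lit 2) (nat_lit 4) (nat_lit 376) (nat_lit 282) (nat_lit 242))) (XT.nd (nat_lit 78) (nat_lit 0) (nat_lit 0)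 (XT.lf (nat_lit 0) (nat_lit 257647095224) (nat_lit 76) (nat_lit 62301484547) (nat_lit 76) (nat_lit 59171460649) (nat_lit 1) (nat_lit 4) (nat_lit 2) (nat_lit 5) (nat_lit 2) (nat_lit 4) (nat_lit 377) (nat_lit 282) (nat_lit 241)) (XT.lf (nat_lit 0) (nat_lit 283842812557) (nat_lit 76) (nat_lit 64260404192) (nat_lit 76) (nat_lit 61120058478) (nat_lit 1) (nat_lit 4) (nat_lit 2) (nat_lit 5) (nat_lit 2) (nat_lit 4) (nat_lit 378) (nat_lit 282) (nat_lit 240))))) (XT.nd (nat_lit 312) (nat_lit 0) (nat_lit 0) (XT.nd (nat_lit 156) (nat_lit 0) (nat_lit 0) (XT.nd (nat_lit 78) (nat_lit 0) (nat_lit 0) (XT.lf (nat_lit 0) (nat_lit 312102810246) (nat_lit 76) (nat_lit 66391566760) (nat_lit 76) (nat_lit 63241663809) (nat_lit 1) (nat_lit 4) (nat_lit 2) (nat_lit 5) (nat_lit 2) (nat_lit 4) (nat_lit 379) (nat_lit 282) (nat_lit 239)) (XT.lf (nat_lit 0) (nat_lit 342594554947) (nat_lit 76) (nat_lit 68707601362) (nat_lit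 76) (nat_lit 65548849117) (nat_lit 1) (nat_lit 4) (nat_lit 2) (nat_lit 5) (nat_lit 2) (nat_lit 4) (nat_lit 380) (nat_lit 282) (nat_lit 238))) (XT.nd (nat_lit 78) (nat_lit 0) (nat_lit 0) (XT.lf (nat_lit 0) (nat_lit 375498738477) (nat_lit 76) (nat_lit 71222232648) (nat_lit 76) (nat_lit 68055286613) (nat_lit 1) (nat_lit 4) (nat_lit 2) (nat_lit 5) (nat_lit 2) (nat_lit 4) (nat_lit 381) (nat_lit 282) (nat_lit 237)) (XT.lf (nat_lit 0) (nat_lit 411010348594) (nat_lit 76) (nat_lit 73950362136) (nat_lit 76) (nat_lit 70775829258) (nat_lit 1) (nat_lit 4) (nat_lit 2) (nat_lit 5) (nat_lit 2) (nat_lit 4) (nat_lit 382) (nat_lit 282) (nat_lit 236)))) (XT.nd (nat_lit 156) (nat_lit 0) (nat_lit 0) (XT.nd (nat_lit 78) (nat_lit 0) (nat_lit 0) (XT.lf (nat_lit 0) (nat_lit 449339824466) (nat_lit 76) (nat_lit 76908156520) (nat_lit 76) (nat_lit 73726598787) (nat_lit 1) (nat_lit 4) (nat_lit 2) (nat_lit 5) (nat_lit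 2) (nat_lit 4) (nat_lit 383) (nat_lit 282) (nat_lit 235)) (XT.lf (nat_lit 0) (nat_lit 490714303729) (nat_lit 76) (nat_lit 80113143470) (nat_lit 76) (nat_lit 76925081242) (nat_lit 1) (nat_lit 4) (nat_lit 2) (nat_lit 5) (nat_lit 2) (nat_lit 4) (nat_lit 384) (nat_lit 282) (nat_lit 234))) (XT.nd (nat_lit 78) (nat_lit 0) (nat_lit 0) (XT.lf (nat_lit 0) (nat_lit 535378968483) (nat_lit 76) (nat_lit 83584315501) (nat_lit 76) (nat_lit 80390230593) (nat_lit 1) (nat_lit 4) (nat_lit 2) (nat_lit 5) (nat_lit 2) (nat_lit 4) (nat_lit 385) (nat_lit 282) (nat_lit 233)) (XT.lf (nat_lit 0) (nat_lit 583598498221) (nat_lit 76) (nat_lit 87342242522) (nat_lit 76) (nat_lit 84142581058) (nat_lit 1) (nat_lit 4) (nat_lit 2) (nat_lit 5) (nat_lit 2) (nat_lit 4) (nat_lit 386) (nat_lit 282) (nat_lit 232)))))) (XT.nd (nat_lit 624) (nat_lit 0) (nat_lit 0) (XT.nd (nat_lit 312) (nat_lit 0) (nat_lit 0) (XT.nd (nat_lit 156)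 (nat_lit 0) (nat_lit 0) (XT.nd (nat_lit 78) (nat_lit 0) (nat_lit 0) (XT.lf (nat_lit 0) (nat_lit 635658638307) (nat_lit 76) (nat_lit 91409193730) (nat_lit 76) (nat_lit 88204368788) (nat_lit 1) (nat_lit 4) (nat_lit 2) (nat_lit 5) (nat_lit 2) (nat_lit 4) (nat_lit 387) (nat_lit 282) (nat_lit 231)) (XT.lf (nat_lit 0) (nat_lit 691867893272) (nat_lit 76) (nat_lit 95809269576) (nat_lit 76) (nat_lit 92599663636) (nat_lit 1) (nat_lit 4) (nat_lit 2) (nat_lit 5) (nat_lit 2) (nat_lit 4) (nat_lit 388) (nat_lit 282) (nat_lit 230))) (XT.nd (nat_lit 78) (nat_lit 0) (nat_lit 0) (XT.lf (nat_lit 0) (nat_lit 752559355000) (nat_lit 76) (nat_lit 100568544585) (nat_lit 76) (nat_lit 97354511794) (nat_lit 1) (nat_lit 4) (nat_lit 2) (nat_lit 5) (nat_lit 2) (nat_lit 4) (nat_lit 389) (nat_lit 282) (nat_lit 229)) (XT.lf (nat_lit 0) (nat_lit 818092676595) (nat_lit 76) (nat_lit 105715221866) (nat_lit 76) (nat_lit 102497090141)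 (nat_lit 1) (nat_lit 4) (nat_lit 2) (nat_lit 5) (nat_lit 2) (nat_lit 4) (nat_lit 390) (nat_lit 282) (nat_lit 228)))) (XT.nd (nat_lit 156) (nat_lit 0) (nat_lit 0) (XT.nd (nat_lit 78) (nat_lit 0) (nat_lit 0) (XT.lf (nat_lit 0) (nat_lit 888856203669) (nat_lit 76) (nat_lit 111279800249) (nat_lit 76) (nat_lit 108057873213) (nat_lit 1) (nat_lit 4) (nat_lit 2) (nat_lit 5) (nat_lit 2) (nat_lit 4) (nat_lit 391) (nat_lit 282) (nat_lit 227)) (XT.lf (nat_lit 0) (nat_lit 965269275639) (nat_lit 76) (nat_lit 117295255013) (nat_lit 76) (nat_lit 114069813801) (nat_lit 1) (nat_lit 4) (nat_lit 2) (nat_lit 5) (nat_lit 2) (nat_lit 4) (nat_lit 392) (nat_lit 282) (nat_lit 226))) (XT.nd (nat_lit 78) (nat_lit 0) (nat_lit 0) (XT.lf (nat_lit 0) (nat_lit 1047784710711) (nat_lit 76) (nat_lit 123797233297) (nat_lit 76) (nat_lit 120568538218) (nat_lit 1) (nat_lit 4) (nat_lit 2) (nat_lit 5) (nat_lit 2) (nat_lit 4) (nat_lit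 393) (nat_lit 282) (nat_lit 225)) (XT.lf (nat_lit 0) (nat_lit 1136891489241) (nat_lit 76) (nat_lit 130824265343) (nat_lit 76) (nat_lit 127592557424) (nat_lit 1) (nat_lit 4) (nat_lit 2) (nat_lit 5) (nat_lit 2) (nat_lit 4) (nat_lit 394) (nat_lit 282) (nat_lit 224))))) (XT.nd (nat_lit 312) (nat_lit 0) (nat_lit 0) (XT.nd (nat_lit 156) (nat_lit 0) (nat_lit 0) (XT.nd (nat_lit 78) (nat_lit 0) (nat_lit 0) (XT.lf (nat_lit 0) (nat_lit 1233117651398) (nat_lit 76) (nat_lit 138417992822) (nat_lit 76) (nat_lit 135183495237) (nat_lit 1) (nat_lit 4) (nat_lit 2) (nat_lit 5) (nat_lit 2) (nat_lit 4) (nat_lit 395) (nat_lit 282) (nat_lit 223)) (XT.lf (nat_lit 0) (nat_lit 1337033426290) (nat_lit 76) (nat_lit 146623415601) (nat_lit 76) (nat_lit 143386334991) (nat_lit 1) (nat_lit 4) (nat_lit 2) (nat_lit 5) (nat_lit 2) (nat_lit 4) (nat_lit 396) (nat_lit 282) (nat_lit 222))) (XT.nd (nat_lit 78) (nat_lit 0) (nat_lit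 0) (XT.lf (nat_lit 0) (nat_lit 1449254611103) (nat_lit 76) (nat_lit 155489158407) (nat_lit 76) (nat_lit 152249686108) (nat_lit 1) (nat_lit 4) (nat_lit 2) (nat_lit 5) (nat_lit 2) (nat_lit 4) (nat_lit 397) (nat_lit 282) (nat_lit 221)) (XT.lf (nat_lit 0) (nat_lit 1570446220264) (nat_lit 76) (nat_lit 165067758975) (nat_lit 76) (nat_lit 161826072149) (nat_lit 1) (nat_lit 4) (nat_lit 2) (nat_lit 5) (nat_lit 2) (nat_lit 4) (nat_lit 398) (nat_lit 282) (nat_lit 220)))) (XT.nd (nat_lit 156) (nat_lit 0) (nat_lit 0) (XT.nd (nat_lit 78) (nat_lit 0) (nat_lit 0) (XT.lf (nat_lit 0) (nat_lit 1701326426273) (nat_lit 76) (nat_lit 175415979384) (nat_lit 76) (nat_lit 172172242069) (nat_lit 1) (nat_lit 4) (nat_lit 2) (nat_lit 5) (nat_lit 2) (nat_lit 4) (nat_lit 399) (nat_lit 282) (nat_lit 219)) (XT.lf (nat_lit 0) (nat_lit 1842670815535) (nat_lit 76) (nat_lit 186595142420) (nat_lit 76) (nat_lit 183349506505)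 (nat_lit 1) (nat_lit 4) (nat_lit 2) (nat_lit 5) (nat_lit 2) (nat_lit 4) (nat_lit 400) (nat_lit 282) (nat_lit 218))) (XT.nd (nat_lit 78) (nat_lit 0) (nat_lit 0) (XT.lf (nat_lit 0) (nat_lit 1995316984432) (nat_lit 76) (nat_lit 198671494975) (nat_lit 76) (nat_lit 195424101098) (nat_lit 1) (nat_lit 4) (nat_lit 2) (nat_lit 5) (nat_lit 2) (nat_lit 4) (nat_lit 401) (nat_lit 282) (nat_lit 217)) (XT.nd (nat_lit 78) (nat_lit 0) (nat_lit 0) (XT.lf (nat_lit 0) (nat_lit 2160169502853) (nat_lit 76) (nat_lit 211716600621) (nat_lit 76) (nat_lit 208467579000) (nat_lit 1) (nat_lit 4) (nat_lit 2) (nat_lit 5) (nat_lit 2) (nat_lit 4) (nat_lit 402) (nat_lit 282) (nat_lit 216)) (XT.lf (nat_lit 0) (nat_lit 2338205274611) (nat_lit 76) (nat_lit 225807763687) (nat_lit 76) (nat_lit 222557234896) (nat_lit 1) (nat_lit 4) (nat_lit 2) (nat_lit 5) (nat_lit 2) (nat_lit 4) (nat_lit 403) (nat_lit 282) (nat_lit 215))))))))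
noncomputable def xc46 : XT := (XT.nd (nat_lit 42042) (nat_lit 0) (nat_lit 76) (XT.nd (nat_lit 41418) (nat_lit 0) (nat_lit 304) (XT.nd (nat_lit 312) (nat_lit 0) (nat_lit 0) (XT.nd (nat_lit 156) (nat_lit 0) (nat_lit 0) (XT.nd (nat_lit 78) (nat_lit 0) (nat_lit 0) (XT.lf (nat_lit 0) (nat_lit 2530479326501) (nat_lit 76) (nat_lit 241028487362) (nat_lit 76) (nat_lit 237776563043) (nat_lit 1) (nat_lit 4) (nat_lit 2) (nat_lit 5) (nat_lit 2) (nat_lit 4) (nat_lit 404) (nat_lit 282) (nat_lit 214)) (XT.lf (nat_lit 0) (nat_lit 2738131060314) (nat_lit 76) (nat_lit 257468968526) (nat_lit 76) (nat_lit 254215752052) (nat_lit 1) (nat_lit 4) (nat_lit 2) (nat_lit 5) (nat_lit 2) (nat_lit 4) (nat_lit 405) (nat_lit 282) (nat_lit 213))) (XT.nd (nat_lit 78) (nat_lit 0) (nat_lit 0) (XT.lf (nat_lit 0) (nat_lit 2962391004840) (nat_lit 76) (nat_lit 275226632253) (nat_lit 76) (nat_lit 271972219339) (nat_lit 1) (nat_lit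 4) (nat_lit 2) (nat_lit 5) (nat_lit 2) (nat_lit 4) (nat_lit 406) (nat_lit 282) (nat_lit 212)) (XT.lf (nat_lit 0) (nat_lit 3204588107901) (nat_lit 76) (nat_lit 294406709143) (nat_lit 76) (nat_lit 291151188414) (nat_lit 1) (nat_lit 4) (nat_lit 2) (nat_lit 5) (nat_lit 2) (nat_lit 4) (nat_lit 407) (nat_lit 282) (nat_lit 211)))) (XT.nd (nat_lit 156) (nat_lit 0) (nat_lit 0) (XT.nd (nat_lit 78) (nat_lit 0) (nat_lit 0) (XT.lf (nat_lit 0) (nat_lit 3466157611587) (nat_lit 76) (nat_lit 315122858912) (nat_lit 76) (nat_lit 311866312428) (nat_lit 1) (nat_lit 4) (nat_lit 2) (nat_lit 5) (nat_lit 2) (nat_lit 4) (nat_lit 408) (nat_lit 282) (nat_lit 210)) (XT.lf (nat_lit 0) (nat_lit 3748649557403) (nat_lit 76) (nat_lit 337497843927) (nat_lit 76) (nat_lit 334240347671) (nat_lit 1) (nat_lit 4) (nat_lit 2) (nat_lit 5) (nat_lit 2) (nat_lit 4) (nat_lit 409) (nat_lit 282) (nat_lit 209))) (XT.nd (nat_lit 78) (nat_lit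 0) (nat_lit 0) (XT.lf (nat_lit 0) (nat_lit 4053737971694) (nat_lit 76) (nat_lit 361664256693) (nat_lit 76) (nat_lit 358405881017) (nat_lit 1) (nat_lit 4) (nat_lit 2) (nat_lit 5) (nat_lit 2) (nat_lit 4) (nat_lit 410) (nat_lit 282) (nat_lit 208)) (XT.lf (nat_lit 0) (nat_lit 4383230785805) (nat_lit 76) (nat_lit 387765305582) (nat_lit 76) (nat_lit 384506115629) (nat_lit 1) (nat_lit 4) (nat_lit 2) (nat_lit 5) (nat_lit 2) (nat_lit 4) (nat_lit 411) (nat_lit 282) (nat_lit 207))))) (XT.nd (nat_lit 312) (nat_lit 228) (nat_lit 0) (XT.nd (nat_lit 156) (nat_lit 152) (nat_lit 0) (XT.nd (nat_lit 78) (nat_lit 0) (nat_lit 0) (XT.lf (nat_lit 0) (nat_lit 397249792) (nat_lit 76) (nat_lit 4360138009) (nat_lit 76) (nat_lit 4360138009) (nat_lit 10) (nat_lit 4) (nat_lit 11) (nat_lit 5) (nat_lit 11) (nat_lit 4) (nat_lit 334) (nat_lit 283) (nat_lit 283)) (XT.lf (nat_lit 0) (nat_lit 10944547403) (nat_lit 76) (nat_lit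 4324083099) (nat_lit 76) (nat_lit 3994606089) (nat_lit 10) (nat_lit 4) (nat_lit 11) (nat_lit 5) (nat_lit 11) (nat_lit 4) (nat_lit 335) (nat_lit 283) (nat_lit 282))) (XT.nd (nat_lit 78) (nat_lit 0) (nat_lit 0) (XT.lf (nat_lit 0) (nat_lit 817087655) (nat_lit 152) (nat_lit 19343959252) (nat_lit 0) (nat_lit 229542918) (nat_lit 8) (nat_lit 5) (nat_lit 10) (nat_lit 4) (nat_lit 8) (nat_lit 4) (nat_lit 336) (nat_lit 283) (nat_lit 281)) (XT.lf (nat_lit 0) (nat_lit 5878244131) (nat_lit 152) (nat_lit 10686124083) (nat_lit 0) (nat_lit 5029149921) (nat_lit 8) (nat_lit 5) (nat_lit 10) (nat_lit 4) (nat_lit 8) (nat_lit 4) (nat_lit 337) (nat_lit 283) (nat_lit 280)))) (XT.nd (nat_lit 156) (nat_lit 152) (nat_lit 0) (XT.nd (nat_lit 78) (nat_lit 76) (nat_lit 0) (XT.lf (nat_lit 0) (nat_lit 11098617600) (nat_lit 152) (nat_lit 1806475196) (nat_lit 0) (nat_lit 10007347951) (nat_lit 8) (nat_lit 5) (nat_lit 10)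 (nat_lit 4) (nat_lit 8) (nat_lit 4) (nat_lit 338) (nat_lit 283) (nat_lit 279)) (XT.lf (nat_lit 0) (nat_lit 7734519541) (nat_lit 76) (nat_lit 8960639446) (nat_lit 76) (nat_lit 7645133281) (nat_lit 7) (nat_lit 4) (nat_lit 8) (nat_lit 5) (nat_lit 8) (nat_lit 4) (nat_lit 339) (nat_lit 283) (nat_lit 278))) (XT.nd (nat_lit 78) (nat_lit 152) (nat_lit 0) (XT.lf (nat_lit 0) (nat_lit 17716628059) (nat_lit 76) (nat_lit 4851341802) (nat_lit 76) (nat_lit 3328209232) (nat_lit 7) (nat_lit 4) (nat_lit 8) (nat_lit 5) (nat_lit 8) (nat_lit 4) (nat_lit 340) (nat_lit 283) (nat_lit 277)) (XT.lf (nat_lit 0) (nat_lit 509620087) (nat_lit 76) (nat_lit 560091127) (nat_lit 152) (nat_lit 26520146567) (nat_lit 5) (nat_lit 5) (nat_lit 6) (nat_lit 5) (nat_lit 7) (nat_lit 4) (nat_lit 341) (nat_lit 283) (nat_lit 276)))))) (XT.nd (nat_lit 624) (nat_lit 152) (nat_lit 0) (XT.nd (nat_lit 312) (nat_lit 0) (nat_lit 0) (XT.nd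 (nat_lit 156) (nat_lit 76) (nat_lit 0) (XT.nd (nat_lit 78) (nat_lit 0) (nat_lit 0) (XT.lf (nat_lit 0) (nat_lit 5758702089) (nat_lit 152) (nat_lit 19638393888) (nat_lit 0) (nat_lit 4005567444) (nat_lit 5) (nat_lit 5) (nat_lit 7) (nat_lit 4) (nat_lit 5) (nat_lit 4) (nat_lit 342) (nat_lit 283) (nat_lit 275)) (XT.lf (nat_lit 0) (nat_lit 10644400189) (nat_lit 152) (nat_lit 11991779143) (nat_lit 0) (nat_lit 8738653938) (nat_lit 5) (nat_lit 5) (nat_lit 7) (nat_lit 4) (nat_lit 5) (nat_lit 4) (nat_lit 343) (nat_lit 283) (nat_lit 274))) (XT.nd (nat_lit 78) (nat_lit 76) (nat_lit 0) (XT.lf (nat_lit 0) (nat_lit 15742287595) (nat_lit 152) (nat_lit 4081609983) (nat_lit 0) (nat_lit 13695234302) (nat_lit 5) (nat_lit 5) (nat_lit 7) (nat_lit 4) (nat_lit 5) (nat_lit 4) (nat_lit 344) (nat_lit 283) (nat_lit 273)) (XT.lf (nat_lit 0) (nat_lit 4356940475) (nat_lit 76) (nat_lit 16830418056) (nat_lit 76) (nat_lit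 14652524909) (nat_lit 4) (nat_lit 4) (nat_lit 5) (nat_lit 5) (nat_lit 5) (nat_lit 4) (nat_lit 345) (nat_lit 283) (nat_lit 272)))) (XT.nd (nat_lit 156) (nat_lit 0) (nat_lit 0) (XT.nd (nat_lit 78) (nat_lit 0) (nat_lit 0) (XT.lf (nat_lit 0) (nat_lit 13388477328) (nat_lit 76) (nat_lit 13630421445) (nat_lit 76) (nat_lit 11331380285) (nat_lit 4) (nat_lit 4) (nat_lit 5) (nat_lit 5) (nat_lit 5) (nat_lit 4) (nat_lit 346) (nat_lit 283) (nat_lit 271)) (XT.lf (nat_lit 0) (nat_lit 22851590445) (nat_lit 76) (nat_lit 10316543253) (nat_lit 76) (nat_lit 7905328008) (nat_lit 4) (nat_lit 4) (nat_lit 5) (nat_lit 5) (nat_lit 5) (nat_lit 4) (nat_lit 347) (nat_lit 283) (nat_lit 270))) (XT.nd (nat_lit 78) (nat_lit 0) (nat_lit 0) (XT.lf (nat_lit 0) (nat_lit 32802357532) (nat_lit 76) (nat_lit 6869145685) (nat_lit 76) (nat_lit 4354065545) (nat_lit 4) (nat_lit 4) (nat_lit 5) (nat_lit 5) (nat_lit 5) (nat_lit 4) (nat_lit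 348) (nat_lit 283) (nat_lit 269)) (XT.lf (nat_lit 0) (nat_lit 43299746098) (nat_lit 76) (nat_lit 3267799716) (nat_lit 76) (nat_lit 656548377) (nat_lit 4) (nat_lit 4) (nat_lit 5) (nat_lit 5) (nat_lit 5) (nat_lit 4) (nat_lit 349) (nat_lit 283) (nat_lit 268))))) (XT.nd (nat_lit 312) (nat_lit 0) (nat_lit 0) (XT.nd (nat_lit 156) (nat_lit 0) (nat_lit 0) (XT.nd (nat_lit 78) (nat_lit 0) (nat_lit 0) (XT.lf (nat_lit 0) (nat_lit 3157408974) (nat_lit 152) (nat_lit 46858571852) (nat_lit 0) (nat_lit 657132359) (nat_lit 2) (nat_lit 5) (nat_lit 4) (nat_lit 4) (nat_lit 2) (nat_lit 4) (nat_lit 350) (nat_lit 283) (nat_lit 267)) (XT.lf (nat_lit 0) (nat_lit 7315411484) (nat_lit 152) (nat_lit 42336568363) (nat_lit 0) (nat_lit 4738791071) (nat_lit 2) (nat_lit 5) (nat_lit 4) (nat_lit 4) (nat_lit 2) (nat_lit 4) (nat_lit 351) (nat_lit 283) (nat_lit 266))) (XT.nd (nat_lit 78) (nat_lit 0) (nat_lit 0) (XT.lf (nat_lit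 0) (nat_lit 11694420594) (nat_lit 152) (nat_lit 37673270824) (nat_lit 0) (nat_lit 9047111479) (nat_lit 2) (nat_lit 5) (nat_lit 4) (nat_lit 4) (nat_lit 2) (nat_lit 4) (nat_lit 352) (nat_lit 283) (nat_lit 265)) (XT.lf (nat_lit 0) (nat_lit 16320385987) (nat_lit 152) (nat_lit 32841044880) (nat_lit 0) (nat_lit 13607624370) (nat_lit 2) (nat_lit 5) (nat_lit 4) (nat_lit 4) (nat_lit 2) (nat_lit 4) (nat_lit 353) (nat_lit 283) (nat_lit 264)))) (XT.nd (nat_lit 156) (nat_lit 0) (nat_lit 0) (XT.nd (nat_lit 78) (nat_lit 0) (nat_lit 0) (XT.lf (nat_lit 0) (nat_lit 21220720791) (nat_lit 152) (nat_lit 27811255117) (nat_lit 0) (nat_lit 18447355006) (nat_lit 2) (nat_lit 5) (nat_lit 4) (nat_lit 4) (nat_lit 2) (nat_lit 4) (nat_lit 354) (nat_lit 283) (nat_lit 263)) (XT.lf (nat_lit 0) (nat_lit 26424464029) (nat_lit 152) (nat_lit 22554095374) (nat_lit 0) (nat_lit 23594983273) (nat_lit 2) (nat_lit 5) (nat_lit 4)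 (nat_lit 4) (nat_lit 2) (nat_lit 4) (nat_lit 355) (nat_lit 283) (nat_lit 262))) (XT.nd (nat_lit 78) (nat_lit 0) (nat_lit 0) (XT.lf (nat_lit 0) (nat_lit 31962452695) (nat_lit 152) (nat_lit 17038412111) (nat_lit 0) (nat_lit 29081013633) (nat_lit 2) (nat_lit 5) (nat_lit 4) (nat_lit 4) (nat_lit 2) (nat_lit 4) (nat_lit 356) (nat_lit 283) (nat_lit 261)) (XT.nd (nat_lit 78) (nat_lit 0) (nat_lit 0) (XT.lf (nat_lit 0) (nat_lit 37867504502) (nat_lit 152) (nat_lit 11231519799) (nat_lit 0) (nat_lit 34937955897) (nat_lit 2) (nat_lit 5) (nat_lit 4) (nat_lit 4) (nat_lit 2) (nat_lit 4) (nat_lit 357) (nat_lit 283) (nat_lit 260)) (XT.lf (nat_lit 0) (nat_lit 44174612349) (nat_lit 152) (nat_lit 5099007224) (nat_lit 0) (nat_lit 41200517871) (nat_lit 2) (nat_lit 5) (nat_lit 4) (nat_lit 4) (nat_lit 2) (nat_lit 4) (nat_lit 358) (nat_lit 283) (nat_lit 259))))))))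
noncomputable def xc47 : XT := (XT.nd (nat_lit 1248) (nat_lit 0) (nat_lit 0) (XT.nd (nat_lit 624) (nat_lit 0) (nat_lit 0) (XT.nd (nat_lit 312) (nat_lit 0) (nat_lit 0) (XT.nd (nat_lit 156) (nat_lit 0) (nat_lit 0) (XT.nd (nat_lit 78) (nat_lit 0) (nat_lit 0) (XT.lf (nat_lit 0) (nat_lit 1468949219) (nat_lit 76) (nat_lit 49487530734) (nat_lit 76) (nat_lit 46472190077) (nat_lit 1) (nat_lit 4) (nat_lit 2) (nat_lit 5) (nat_lit 2) (nat_lit 4) (nat_lit 359) (nat_lit 283) (nat_lit 258)) (XT.lf (nat_lit 0) (nat_lit 8726944017) (nat_lit 76) (nat_lit 49630041212) (nat_lit 76) (nat_lit 46576509649) (nat_lit 1) (nat_lit 4) (nat_lit 2) (nat_lit 5) (nat_lit 2) (nat_lit 4) (nat_lit 360) (nat_lit 283) (nat_lit 257))) (XT.nd (nat_lit 78) (nat_lit 0) (nat_lit 0) (XT.lf (nat_lit 0) (nat_lit 16449482824) (nat_lit 76) (nat_lit 49841411408) (nat_lit 76) (nat_lit 46752517895) (nat_lit 1) (nat_lit 4) (nat_lit 2)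 (nat_lit 5) (nat_lit 2) (nat_lit 4) (nat_lit 361) (nat_lit 283) (nat_lit 256)) (XT.lf (nat_lit 0) (nat_lit 24682328833) (nat_lit 76) (nat_lit 50122893885) (nat_lit 76) (nat_lit 47001257826) (nat_lit 1) (nat_lit 4) (nat_lit 2) (nat_lit 5) (nat_lit 2) (nat_lit 4) (nat_lit 362) (nat_lit 283) (nat_lit 255)))) (XT.nd (nat_lit 156) (nat_lit 0) (nat_lit 0) (XT.nd (nat_lit 78) (nat_lit 0) (nat_lit 0) (XT.lf (nat_lit 0) (nat_lit 33474269281) (nat_lit 76) (nat_lit 50476156689) (nat_lit 76) (nat_lit 47324203457) (nat_lit 1) (nat_lit 4) (nat_lit 2) (nat_lit 5) (nat_lit 2) (nat_lit 4) (nat_lit 363) (nat_lit 283) (nat_lit 254)) (XT.lf (nat_lit 0) (nat_lit 42877404555) (nat_lit 76) (nat_lit 50903293227) (nat_lit 76) (nat_lit 47723268540) (nat_lit 1) (nat_lit 4) (nat_lit 2) (nat_lit 5) (nat_lit 2) (nat_lit 4) (nat_lit 364) (nat_lit 283) (nat_lit 253))) (XT.nd (nat_lit 78) (nat_lit 0) (nat_lit 0) (XT.lf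 (nat_lit 0) (nat_lit 52947456937) (nat_lit 76) (nat_lit 51406834681) (nat_lit 76) (nat_lit 48200817904) (nat_lit 1) (nat_lit 4) (nat_lit 2) (nat_lit 5) (nat_lit 2) (nat_lit 4) (nat_lit 365) (nat_lit 283) (nat_lit 252)) (XT.lf (nat_lit 0) (nat_lit 63744100813) (nat_lit 76) (nat_lit 51989764998) (nat_lit 76) (nat_lit 48759681473) (nat_lit 1) (nat_lit 4) (nat_lit 2) (nat_lit 5) (nat_lit 2) (nat_lit 4) (nat_lit 366) (nat_lit 283) (nat_lit 251))))) (XT.nd (nat_lit 312) (nat_lit 0) (nat_lit 0) (XT.nd (nat_lit 156) (nat_lit 0) (nat_lit 0) (XT.nd (nat_lit 78) (nat_lit 0) (nat_lit 0) (XT.lf (nat_lit 0) (nat_lit 75331316294) (nat_lit 76) (nat_lit 52655538582) (nat_lit 76) (nat_lit 49403171029) (nat_lit 1) (nat_lit 4) (nat_lit 2) (nat_lit 5) (nat_lit 2) (nat_lit 4) (nat_lit 367) (nat_lit 283) (nat_lit 250)) (XT.lf (nat_lit 0) (nat_lit 87777768361) (nat_lit 76) (nat_lit 53408100756) (nat_lit 76)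 (nat_lit 50135099845) (nat_lit 1) (nat_lit 4) (nat_lit 2) (nat_lit 5) (nat_lit 2) (nat_lit 4) (nat_lit 368) (nat_lit 283) (nat_lit 249))) (XT.nd (nat_lit 78) (nat_lit 0) (nat_lit 0) (XT.lf (nat_lit 0) (nat_lit 101157213767) (nat_lit 76) (nat_lit 54251911149) (nat_lit 76) (nat_lit 50959805277) (nat_lit 1) (nat_lit 4) (nat_lit 2) (nat_lit 5) (nat_lit 2) (nat_lit 4) (nat_lit 369) (nat_lit 283) (nat_lit 248)) (XT.lf (nat_lit 0) (nat_lit 115548938114) (nat_lit 76) (nat_lit 55191970119) (nat_lit 76) (nat_lit 51882174468) (nat_lit 1) (nat_lit 4) (nat_lit 2) (nat_lit 5) (nat_lit 2) (nat_lit 4) (nat_lit 370) (nat_lit 283) (nat_lit 247)))) (XT.nd (nat_lit 156) (nat_lit 0) (nat_lit 0) (XT.nd (nat_lit 78) (nat_lit 0) (nat_lit 0) (XT.lf (nat_lit 0) (nat_lit 131038225695) (nat_lit 76) (nat_lit 56233848384) (nat_lit 76) (nat_lit 52907673308) (nat_lit 1) (nat_lit 4) (nat_lit 2) (nat_lit 5) (nat_lit 2)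 (nat_lit 4) (nat_lit 371) (nat_lit 283) (nat_lit 246)) (XT.lf (nat_lit 0) (nat_lit 147716864881) (nat_lit 76) (nat_lit 57383720040) (nat_lit 76) (nat_lit 54042378830) (nat_lit 1) (nat_lit 4) (nat_lit 2) (nat_lit 5) (nat_lit 2) (nat_lit 4) (nat_lit 372) (nat_lit 283) (nat_lit 245))) (XT.nd (nat_lit 78) (nat_lit 0) (nat_lit 0) (XT.lf (nat_lit 0) (nat_lit 165683692052) (nat_lit 76) (nat_lit 58648399139) (nat_lit 76) (nat_lit 55293015212) (nat_lit 1) (nat_lit 4) (nat_lit 2) (nat_lit 5) (nat_lit 2) (nat_lit 4) (nat_lit 373) (nat_lit 283) (nat_lit 244)) (XT.lf (nat_lit 0) (nat_lit 185045177294) (nat_lit 76) (nat_lit 60035380077) (nat_lit 76) (nat_lit 56666993635) (nat_lit 1) (nat_lit 4) (nat_lit 2) (nat_lit 5) (nat_lit 2) (nat_lit 4) (nat_lit 374) (nat_lit 283) (nat_lit 243)))))) (XT.nd (nat_lit 624) (nat_lit 0) (nat_lit 0) (XT.nd (nat_lit 312) (nat_lit 0) (nat_lit 0) (XT.nd (nat_lit 156) (nat_lit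 0) (nat_lit 0) (XT.nd (nat_lit 78) (nat_lit 0) (nat_lit 0) (XT.lf (nat_lit 0) (nat_lit 205916055336) (nat_lit 76) (nat_lit 61552882001) (nat_lit 76) (nat_lit 58172456191) (nat_lit 1) (nat_lit 4) (nat_lit 2) (nat_lit 5) (nat_lit 2) (nat_lit 4) (nat_lit 375) (nat_lit 283) (nat_lit 242)) (XT.lf (nat_lit 0) (nat_lit 228420005454) (nat_lit 76) (nat_lit 63209897513) (nat_lit 76) (nat_lit 59818324142) (nat_lit 1) (nat_lit 4) (nat_lit 2) (nat_lit 5) (nat_lit 2) (nat_lit 4) (nat_lit 376) (nat_lit 283) (nat_lit 241))) (XT.nd (nat_lit 78) (nat_lit 0) (nat_lit 0) (XT.lf (nat_lit 0) (nat_lit 252690384391) (nat_lit 76) (nat_lit 65016245965) (nat_lit 76) (nat_lit 61614350778) (nat_lit 1) (nat_lit 4) (nat_lit 2) (nat_lit 5) (nat_lit 2) (nat_lit 4) (nat_lit 377) (nat_lit 283) (nat_lit 240)) (XT.lf (nat_lit 0) (nat_lit 278871016613) (nat_lit 76) (nat_lit 66982631644) (nat_lit 76) (nat_lit 63571179220)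 (nat_lit 1) (nat_lit 4) (nat_lit 2) (nat_lit 5) (nat_lit 2) (nat_lit 4) (nat_lit 378) (nat_lit 283) (nat_lit 239)))) (XT.nd (nat_lit 156) (nat_lit 0) (nat_lit 0) (XT.nd (nat_lit 78) (nat_lit 0) (nat_lit 0) (XT.lf (nat_lit 0) (nat_lit 307117046608) (nat_lit 76) (nat_lit 69120707206) (nat_lit 76) (nat_lit 65700405489) (nat_lit 1) (nat_lit 4) (nat_lit 2) (nat_lit 5) (nat_lit 2) (nat_lit 4) (nat_lit 379) (nat_lit 283) (nat_lit 238)) (XT.lf (nat_lit 0) (nat_lit 337595858258) (nat_lit 76) (nat_lit 71443142729) (nat_lit 76) (nat_lit 68014647221) (nat_lit 1) (nat_lit 4) (nat_lit 2) (nat_lit 5) (nat_lit 2) (nat_lit 4) (nat_lit 380) (nat_lit 283) (nat_lit 237))) (XT.nd (nat_lit 78) (nat_lit 0) (nat_lit 0) (XT.lf (nat_lit 0) (nat_lit 370488066742) (nat_lit 76) (nat_lit 73963700794) (nat_lit 76) (nat_lit 70527618443) (nat_lit 1) (nat_lit 4) (nat_lit 2) (nat_lit 5) (nat_lit 2) (nat_lit 4) (nat_lit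 381) (nat_lit 283) (nat_lit 236)) (XT.lf (nat_lit 0) (nat_lit 405988588852) (nat_lit 76) (nat_lit 76697318040) (nat_lit 76) (nat_lit 73254210834) (nat_lit 1) (nat_lit 4) (nat_lit 2) (nat_lit 5) (nat_lit 2) (nat_lit 4) (nat_lit 382) (nat_lit 283) (nat_lit 235))))) (XT.nd (nat_lit 312) (nat_lit 0) (nat_lit 0) (XT.nd (nat_lit 156) (nat_lit 0) (nat_lit 0) (XT.nd (nat_lit 78) (nat_lit 0) (nat_lit 0) (XT.lf (nat_lit 0) (nat_lit 444307798051) (nat_lit 76) (nat_lit 79660193681) (nat_lit 76) (nat_lit 76210581980) (nat_lit 1) (nat_lit 4) (nat_lit 2) (nat_lit 5) (nat_lit 2) (nat_lit 4) (nat_lit 383) (nat_lit 283) (nat_lit 234)) (XT.lf (nat_lit 0) (nat_lit 485672771136) (nat_lit 76) (nat_lit 82869885499) (nat_lit 76) (nat_lit 79414251118) (nat_lit 1) (nat_lit 4) (nat_lit 2) (nat_lit 5) (nat_lit 2) (nat_lit 4) (nat_lit 384) (nat_lit 283) (nat_lit 233))) (XT.nd (nat_lit 78) (nat_lit 0) (nat_lit 0)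 (XT.lf (nat_lit 0) (nat_lit 530328633873) (nat_lit 76) (nat_lit 86345413890) (nat_lit 76) (nat_lit 82884202952) (nat_lit 1) (nat_lit 4) (nat_lit 2) (nat_lit 5) (nat_lit 2) (nat_lit 4) (nat_lit 385) (nat_lit 283) (nat_lit 232)) (XT.lf (nat_lit 0) (nat_lit 578540013596) (nat_lit 76) (nat_lit 90107374577) (nat_lit 76) (nat_lit 86641000161) (nat_lit 1) (nat_lit 4) (nat_lit 2) (nat_lit 5) (nat_lit 2) (nat_lit 4) (nat_lit 386) (nat_lit 283) (nat_lit 231)))) (XT.nd (nat_lit 156) (nat_lit 0) (nat_lit 0) (XT.nd (nat_lit 78) (nat_lit 0) (nat_lit 0) (XT.lf (nat_lit 0) (nat_lit 630592607371) (nat_lit 76) (nat_lit 94178060661) (nat_lit 76) (nat_lit 90706905247) (nat_lit 1) (nat_lit 4) (nat_lit 2) (nat_lit 5) (nat_lit 2) (nat_lit 4) (nat_lit 387) (nat_lit 283) (nat_lit 230)) (XT.lf (nat_lit 0) (nat_lit 686794875011) (nat_lit 76) (nat_lit 98581594725) (nat_lit 76) (nat_lit 95106012462) (nat_lit 1) (nat_lit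 4) (nat_lit 2) (nat_lit 5) (nat_lit 2) (nat_lit 4) (nat_lit 388) (nat_lit 283) (nat_lit 229))) (XT.nd (nat_lit 78) (nat_lit 0) (nat_lit 0) (XT.lf (nat_lit 0) (nat_lit 747479866994) (nat_lit 76) (nat_lit 103344071788) (nat_lit 76) (nat_lit 99864390589) (nat_lit 1) (nat_lit 4) (nat_lit 2) (nat_lit 5) (nat_lit 2) (nat_lit 4) (nat_lit 389) (nat_lit 283) (nat_lit 228)) (XT.nd (nat_lit 78) (nat_lit 0) (nat_lit 0) (XT.lf (nat_lit 0) (nat_lit 813007198084) (nat_lit 76) (nat_lit 108493713934) (nat_lit 76) (nat_lit 105010237425) (nat_lit 1) (nat_lit 4) (nat_lit 2) (nat_lit 5) (nat_lit 2) (nat_lit 4) (nat_lit 390) (nat_lit 283) (nat_lit 227)) (XT.lf (nat_lit 0) (nat_lit 883765178394) (nat_lit 76) (nat_lit 114061037562) (nat_lit 76) (nat_lit 110574046877) (nat_lit 1) (nat_lit 4) (nat_lit 2) (nat_lit 5) (nat_lit 2) (nat_lit 4) (nat_lit 391) (nat_lit 283) (nat_lit 226))))))))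
noncomputable def xc48 : XT := (XT.nd (nat_lit 1248) (nat_lit 0) (nat_lit 0) (XT.nd (nat_lit 624) (nat_lit 0) (nat_lit 0) (XT.nd (nat_lit 312) (nat_lit 0) (nat_lit 0) (XT.nd (nat_lit 156) (nat_lit 0) (nat_lit 0) (XT.nd (nat_lit 78) (nat_lit 0) (nat_lit 0) (XT.lf (nat_lit 0) (nat_lit 960173114472) (nat_lit 76) (nat_lit 120079034220) (nat_lit 76) (nat_lit 116588789668) (nat_lit 1) (nat_lit 4) (nat_lit 2) (nat_lit 5) (nat_lit 2) (nat_lit 4) (nat_lit 392) (nat_lit 283) (nat_lit 225)) (XT.lf (nat_lit 0) (nat_lit 1042683794089) (nat_lit 76) (nat_lit 126583366109) (nat_lit 76) (nat_lit 123090108717) (nat_lit 1) (nat_lit 4) (nat_lit 2) (nat_lit 5) (nat_lit 2) (nat_lit 4) (nat_lit 393) (nat_lit 283) (nat_lit 224))) (XT.nd (nat_lit 78) (nat_lit 0) (nat_lit 0) (XT.lf (nat_lit 0) (nat_lit 1131786169419) (nat_lit 76) (nat_lit 133612577419) (nat_lit 76) (nat_lit 130116530361) (nat_lit 1) (nat_lit 4)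 (nat_lit 2) (nat_lit 5) (nat_lit 2) (nat_lit 4) (nat_lit 394) (nat_lit 283) (nat_lit 223)) (XT.lf (nat_lit 0) (nat_lit 1228008254538) (nat_lit 76) (nat_lit 141208322736) (nat_lit 76) (nat_lit 137709692653) (nat_lit 1) (nat_lit 4) (nat_lit 2) (nat_lit 5) (nat_lit 2) (nat_lit 4) (nat_lit 395) (nat_lit 283) (nat_lit 222)))) (XT.nd (nat_lit 156) (nat_lit 0) (nat_lit 0) (XT.nd (nat_lit 78) (nat_lit 0) (nat_lit 0) (XT.lf (nat_lit 0) (nat_lit 1331920254396) (nat_lit 76) (nat_lit 149415613882) (nat_lit 76) (nat_lit 145914592110) (nat_lit 1) (nat_lit 4) (nat_lit 2) (nat_lit 5) (nat_lit 2) (nat_lit 4) (nat_lit 396) (nat_lit 283) (nat_lit 221)) (XT.lf (nat_lit 0) (nat_lit 1444137943807) (nat_lit 76) (nat_lit 158283086658) (nat_lit 76) (nat_lit 154779850359) (nat_lit 1) (nat_lit 4) (nat_lit 2) (nat_lit 5) (nat_lit 2) (nat_lit 4) (nat_lit 397) (nat_lit 283) (nat_lit 220))) (XT.nd (nat_lit 78) (nat_lit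 0) (nat_lit 0) (XT.lf (nat_lit 0) (nat_lit 1565326316485) (nat_lit 76) (nat_lit 167863289051) (nat_lit 76) (nat_lit 164358002264) (nat_lit 1) (nat_lit 4) (nat_lit 2) (nat_lit 5) (nat_lit 2) (nat_lit 4) (nat_lit 398) (nat_lit 283) (nat_lit 219)) (XT.lf (nat_lit 0) (nat_lit 1696203525750) (nat_lit 76) (nat_lit 178212992630) (nat_lit 76) (nat_lit 174705807243) (nat_lit 1) (nat_lit 4) (nat_lit 2) (nat_lit 5) (nat_lit 2) (nat_lit 4) (nat_lit 399) (nat_lit 283) (nat_lit 218))))) (XT.nd (nat_lit 312) (nat_lit 0) (nat_lit 0) (XT.nd (nat_lit 156) (nat_lit 0) (nat_lit 0) (XT.nd (nat_lit 78) (nat_lit 0) (nat_lit 0) (XT.lf (nat_lit 0) (nat_lit 1837545140250) (nat_lit 76) (nat_lit 189393528972) (nat_lit 76) (nat_lit 185884585622) (nat_lit 1) (nat_lit 4) (nat_lit 2) (nat_lit 5) (nat_lit 2) (nat_lit 4) (nat_lit 400) (nat_lit 283) (nat_lit 217)) (XT.lf (nat_lit 0) (nat_lit 1990188739922) (nat_lit 76)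 (nat_lit 201471153108) (nat_lit 76) (nat_lit 197960582014) (nat_lit 1) (nat_lit 4) (nat_lit 2) (nat_lit 5) (nat_lit 2) (nat_lit 4) (nat_lit 401) (nat_lit 283) (nat_lit 216))) (XT.nd (nat_lit 78) (nat_lit 0) (nat_lit 0) (XT.lf (nat_lit 0) (nat_lit 2155038879431) (nat_lit 76) (nat_lit 214517436142) (nat_lit 76) (nat_lit 211005357878) (nat_lit 1) (nat_lit 4) (nat_lit 2) (nat_lit 5) (nat_lit 2) (nat_lit 4) (nat_lit 402) (nat_lit 283) (nat_lit 215)) (XT.lf (nat_lit 0) (nat_lit 2333072448492) (nat_lit 76) (nat_lit 228609689383) (nat_lit 76) (nat_lit 225096215591) (nat_lit 1) (nat_lit 4) (nat_lit 2) (nat_lit 5) (nat_lit 2) (nat_lit 4) (nat_lit 403) (nat_lit 283) (nat_lit 214)))) (XT.nd (nat_lit 156) (nat_lit 0) (nat_lit 0) (XT.nd (nat_lit 78) (nat_lit 0) (nat_lit 0) (XT.lf (nat_lit 0) (nat_lit 2525344460849) (nat_lit 76) (nat_lit 243831422478) (nat_lit 76) (nat_lit 240316656531) (nat_lit 1)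 (nat_lit 4) (nat_lit 2) (nat_lit 5) (nat_lit 2) (nat_lit 4) (nat_lit 404) (nat_lit 283) (nat_lit 213)) (XT.lf (nat_lit 0) (nat_lit 2732994306205) (nat_lit 76) (nat_lit 260272838292) (nat_lit 76) (nat_lit 256756875904) (nat_lit 1) (nat_lit 4) (nat_lit 2) (nat_lit 5) (nat_lit 2) (nat_lit 4) (nat_lit 405) (nat_lit 283) (nat_lit 212))) (XT.nd (nat_lit 78) (nat_lit 0) (nat_lit 0) (XT.lf (nat_lit 0) (nat_lit 2957252502160) (nat_lit 76) (nat_lit 278031367435) (nat_lit 76) (nat_lit 274514297232) (nat_lit 1) (nat_lit 4) (nat_lit 2) (nat_lit 5) (nat_lit 2) (nat_lit 4) (nat_lit 406) (nat_lit 283) (nat_lit 211)) (XT.lf (nat_lit 0) (nat_lit 3199447986173) (nat_lit 76) (nat_lit 297212245636) (nat_lit 76) (nat_lit 293694149679) (nat_lit 1) (nat_lit 4) (nat_lit 2) (nat_lit 5) (nat_lit 2) (nat_lit 4) (nat_lit 407) (nat_lit 283) (nat_lit 210)))))) (XT.nd (nat_lit 41262) (nat_lit 0) (nat_lit 304) (XT.nd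 (nat_lit 40950) (nat_lit 0) (nat_lit 684) (XT.nd (nat_lit 156) (nat_lit 0) (nat_lit 0) (XT.nd (nat_lit 78) (nat_lit 0) (nat_lit 0) (XT.lf (nat_lit 0) (nat_lit 3461015990741) (nat_lit 76) (nat_lit 317929137359) (nat_lit 76) (nat_lit 314410091629) (nat_lit 1) (nat_lit 4) (nat_lit 2) (nat_lit 5) (nat_lit 2) (nat_lit 4) (nat_lit 408) (nat_lit 283) (nat_lit 209)) (XT.lf (nat_lit 0) (nat_lit 3743506548485) (nat_lit 76) (nat_lit 340304809369) (nat_lit 76) (nat_lit 336784884220) (nat_lit 1) (nat_lit 4) (nat_lit 2) (nat_lit 5) (nat_lit 2) (nat_lit 4) (nat_lit 409) (nat_lit 283) (nat_lit 208))) (XT.nd (nat_lit 78) (nat_lit 0) (nat_lit 0) (XT.lf (nat_lit 0) (nat_lit 4048593677524) (nat_lit 76) (nat_lit 364471858241) (nat_lit 76) (nat_lit 360951118816) (nat_lit 1) (nat_lit 4) (nat_lit 2) (nat_lit 5) (nat_lit 2) (nat_lit 4) (nat_lit 410) (nat_lit 283) (nat_lit 207)) (XT.lf (nat_lit 0) (nat_lit 4378085301586)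 (nat_lit 76) (nat_lit 390573496118) (nat_lit 76) (nat_lit 387052002732) (nat_lit 1) (nat_lit 4) (nat_lit 2) (nat_lit 5) (nat_lit 2) (nat_lit 4) (nat_lit 411) (nat_lit 283) (nat_lit 206)))) (XT.nd (nat_lit 156) (nat_lit 76) (nat_lit 0) (XT.nd (nat_lit 78) (nat_lit 152) (nat_lit 0) (XT.lf (nat_lit 0) (nat_lit 7638541569) (nat_lit 76) (nat_lit 283906583) (nat_lit 76) (nat_lit 283906583) (nat_lit 13) (nat_lit 4) (nat_lit 14) (nat_lit 5) (nat_lit 14) (nat_lit 4) (nat_lit 332) (nat_lit 284) (nat_lit 284)) (XT.lf (nat_lit 0) (nat_lit 4500933494) (nat_lit 152) (nat_lit 8640492919) (nat_lit 0) (nat_lit 4145098323) (nat_lit 11) (nat_lit 5) (nat_lit 13) (nat_lit 4) (nat_lit 11) (nat_lit 4) (nat_lit 333) (nat_lit 284) (nat_lit 283))) (XT.nd (nat_lit 78) (nat_lit 0) (nat_lit 0) (XT.lf (nat_lit 0) (nat_lit 539145462) (nat_lit 76) (nat_lit 9196060046) (nat_lit 76) (nat_lit 8510747865) (nat_lit 10) (nat_lit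 4) (nat_lit 11) (nat_lit 5) (nat_lit 11) (nat_lit 4) (nat_lit 334) (nat_lit 284) (nat_lit 282)) (XT.lf (nat_lit 0) (nat_lit 10452754278) (nat_lit 76) (nat_lit 4910930883) (nat_lit 76) (nat_lit 3920547396) (nat_lit 10) (nat_lit 4) (nat_lit 11) (nat_lit 5) (nat_lit 11) (nat_lit 4) (nat_lit 335) (nat_lit 284) (nat_lit 281))))) (XT.nd (nat_lit 312) (nat_lit 152) (nat_lit 0) (XT.nd (nat_lit 156) (nat_lit 76) (nat_lit 0) (XT.nd (nat_lit 78) (nat_lit 0) (nat_lit 0) (XT.lf (nat_lit 0) (nat_lit 274123818) (nat_lit 76) (nat_lit 469616919) (nat_lit 152) (nat_lit 19679253671) (nat_lit 8) (nat_lit 5) (nat_lit 9) (nat_lit 5) (nat_lit 10) (nat_lit 4) (nat_lit 336) (nat_lit 284) (nat_lit 280)) (XT.lf (nat_lit 0) (nat_lit 5675489682) (nat_lit 152) (nat_lit 11706093574) (nat_lit 0) (nat_lit 4254743024) (nat_lit 8) (nat_lit 5) (nat_lit 10) (nat_lit 4) (nat_lit 8) (nat_lit 4) (nat_lit 337) (nat_lit 284)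 (nat_lit 279))) (XT.nd (nat_lit 78) (nat_lit 76) (nat_lit 0) (XT.lf (nat_lit 0) (nat_lit 10786499046) (nat_lit 152) (nat_lit 3036030289) (nat_lit 0) (nat_lit 9141515871) (nat_lit 8) (nat_lit 5) (nat_lit 10) (nat_lit 4) (nat_lit 8) (nat_lit 4) (nat_lit 338) (nat_lit 284) (nat_lit 278)) (XT.lf (nat_lit 0) (nat_lit 6235938619) (nat_lit 76) (nat_lit 10009797847) (nat_lit 76) (nat_lit 8157188267) (nat_lit 7) (nat_lit 4) (nat_lit 8) (nat_lit 5) (nat_lit 8) (nat_lit 4) (nat_lit 339) (nat_lit 284) (nat_lit 277)))) (XT.nd (nat_lit 156) (nat_lit 76) (nat_lit 0) (XT.nd (nat_lit 78) (nat_lit 76) (nat_lit 0) (XT.lf (nat_lit 0) (nat_lit 16028899324) (nat_lit 76) (nat_lit 5991336912) (nat_lit 76) (nat_lit 3946480662) (nat_lit 7) (nat_lit 4) (nat_lit 8) (nat_lit 5) (nat_lit 8) (nat_lit 4) (nat_lit 340) (nat_lit 284) (nat_lit 276)) (XT.lf (nat_lit 0) (nat_lit 376683085) (nat_lit 152) (nat_lit 1439361609)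 (nat_lit 76) (nat_lit 25854029942) (nat_lit 6) (nat_lit 5) (nat_lit 8) (nat_lit 5) (nat_lit 7) (nat_lit 4) (nat_lit 341) (nat_lit 284) (nat_lit 275))) (XT.nd (nat_lit 78) (nat_lit 0) (nat_lit 0) (XT.lf (nat_lit 0) (nat_lit 4905313064) (nat_lit 152) (nat_lit 21895932690) (nat_lit 0) (nat_lit 2694495507) (nat_lit 5) (nat_lit 5) (nat_lit 7) (nat_lit 4) (nat_lit 5) (nat_lit 4) (nat_lit 342) (nat_lit 284) (nat_lit 274)) (XT.lf (nat_lit 0) (nat_lit 9705113787) (nat_lit 152) (nat_lit 14416709659) (nat_lit 0) (nat_lit 7352989189) (nat_lit 5) (nat_lit 5) (nat_lit 7) (nat_lit 4) (nat_lit 5) (nat_lit 4) (nat_lit 343) (nat_lit 284) (nat_lit 273)))))))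
noncomputable def xc49 : XT := (XT.nd (nat_lit 1248) (nat_lit 76) (nat_lit 0) (XT.nd (nat_lit 624) (nat_lit 0) (nat_lit 0) (XT.nd (nat_lit 312) (nat_lit 152) (nat_lit 0) (XT.nd (nat_lit 156) (nat_lit 0) (nat_lit 0) (XT.nd (nat_lit 78) (nat_lit 76) (nat_lit 0) (XT.lf (nat_lit 0) (nat_lit 14723466585) (nat_lit 152) (nat_lit 6661532827) (nat_lit 0) (nat_lit 12240502132) (nat_lit 5) (nat_lit 5) (nat_lit 7) (nat_lit 4) (nat_lit 5) (nat_lit 4) (nat_lit 344) (nat_lit 284) (nat_lit 272)) (XT.lf (nat_lit 0) (nat_lit 1490094996) (nat_lit 76) (nat_lit 18535851667) (nat_lit 76) (nat_lit 15931739202) (nat_lit 4) (nat_lit 4) (nat_lit 5) (nat_lit 5) (nat_lit 5) (nat_lit 4) (nat_lit 345) (nat_lit 284) (nat_lit 271))) (XT.nd (nat_lit 78) (nat_lit 0) (nat_lit 0) (XT.lf (nat_lit 0) (nat_lit 10381753635) (nat_lit 76) (nat_lit 15404181089) (nat_lit 76) (nat_lit 12687894538) (nat_lit 4) (nat_lit 4) (nat_lit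 5) (nat_lit 5) (nat_lit 5) (nat_lit 4) (nat_lit 346) (nat_lit 284) (nat_lit 270)) (XT.lf (nat_lit 0) (nat_lit 19715349887) (nat_lit 76) (nat_lit 12153567743) (nat_lit 76) (nat_lit 9333416297) (nat_lit 4) (nat_lit 4) (nat_lit 5) (nat_lit 5) (nat_lit 5) (nat_lit 4) (nat_lit 347) (nat_lit 284) (nat_lit 269)))) (XT.nd (nat_lit 156) (nat_lit 152) (nat_lit 0) (XT.nd (nat_lit 78) (nat_lit 0) (nat_lit 0) (XT.lf (nat_lit 0) (nat_lit 29546193951) (nat_lit 76) (nat_lit 8764748735) (nat_lit 76) (nat_lit 5848426091) (nat_lit 4) (nat_lit 4) (nat_lit 5) (nat_lit 5) (nat_lit 5) (nat_lit 4) (nat_lit 348) (nat_lit 284) (nat_lit 268)) (XT.lf (nat_lit 0) (nat_lit 39932542681) (nat_lit 76) (nat_lit 5217642174) (nat_lit 76) (nat_lit 2212272124) (nat_lit 4) (nat_lit 4) (nat_lit 5) (nat_lit 5) (nat_lit 5) (nat_lit 4) (nat_lit 349) (nat_lit 284) (nat_lit 267))) (XT.nd (nat_lit 78) (nat_lit 0) (nat_lit 0) (XT.lf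 (nat_lit 0) (nat_lit 70493266) (nat_lit 76) (nat_lit 1447927223) (nat_lit 152) (nat_lit 49308951831) (nat_lit 2) (nat_lit 5) (nat_lit 3) (nat_lit 5) (nat_lit 4) (nat_lit 4) (nat_lit 350) (nat_lit 284) (nat_lit 266)) (XT.lf (nat_lit 0) (nat_lit 5587930314) (nat_lit 152) (nat_lit 46306046260) (nat_lit 0) (nat_lit 2658147768) (nat_lit 2) (nat_lit 5) (nat_lit 4) (nat_lit 4) (nat_lit 2) (nat_lit 4) (nat_lit 351) (nat_lit 284) (nat_lit 265))))) (XT.nd (nat_lit 312) (nat_lit 0) (nat_lit 0) (XT.nd (nat_lit 156) (nat_lit 0) (nat_lit 0) (XT.nd (nat_lit 78) (nat_lit 0) (nat_lit 0) (XT.lf (nat_lit 0) (nat_lit 9917244979) (nat_lit 152) (nat_lit 41740890739) (nat_lit 0) (nat_lit 6922009931) (nat_lit 2) (nat_lit 5) (nat_lit 4) (nat_lit 4) (nat_lit 2) (nat_lit 4) (nat_lit 352) (nat_lit 284) (nat_lit 264)) (XT.lf (nat_lit 0) (nat_lit 14497196997) (nat_lit 152) (nat_lit 36999537034) (nat_lit 0) (nat_lit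 11441357780) (nat_lit 2) (nat_lit 5) (nat_lit 4) (nat_lit 4) (nat_lit 2) (nat_lit 4) (nat_lit 353) (nat_lit 284) (nat_lit 263))) (XT.nd (nat_lit 78) (nat_lit 0) (nat_lit 0) (XT.lf (nat_lit 0) (nat_lit 19354926824) (nat_lit 152) (nat_lit 32053888233) (nat_lit 0) (nat_lit 16242972637) (nat_lit 2) (nat_lit 5) (nat_lit 4) (nat_lit 4) (nat_lit 2) (nat_lit 4) (nat_lit 354) (nat_lit 284) (nat_lit 262)) (XT.lf (nat_lit 0) (nat_lit 24519221009) (nat_lit 152) (nat_lit 26874636788) (nat_lit 0) (nat_lit 21355308516) (nat_lit 2) (nat_lit 5) (nat_lit 4) (nat_lit 4) (nat_lit 2) (nat_lit 4) (nat_lit 355) (nat_lit 284) (nat_lit 261)))) (XT.nd (nat_lit 156) (nat_lit 0) (nat_lit 0) (XT.nd (nat_lit 78) (nat_lit 0) (nat_lit 0) (XT.lf (nat_lit 0) (nat_lit 30020682775) (nat_lit 152) (nat_lit 21431090839) (nat_lit 0) (nat_lit 26808660739) (nat_lit 2) (nat_lit 5) (nat_lit 4) (nat_lit 4) (nat_lit 2) (nat_lit 4)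 (nat_lit 356) (nat_lit 284) (nat_lit 260)) (XT.lf (nat_lit 0) (nat_lit 35891913378) (nat_lit 152) (nat_lit 15690992335) (nat_lit 0) (nat_lit 32635345469) (nat_lit 2) (nat_lit 5) (nat_lit 4) (nat_lit 4) (nat_lit 2) (nat_lit 4) (nat_lit 357) (nat_lit 284) (nat_lit 259))) (XT.nd (nat_lit 78) (nat_lit 0) (nat_lit 0) (XT.lf (nat_lit 0) (nat_lit 42167705295) (nat_lit 152) (nat_lit 9620325878) (nat_lit 0) (nat_lit 38869891207) (nat_lit 2) (nat_lit 5) (nat_lit 4) (nat_lit 4) (nat_lit 2) (nat_lit 4) (nat_lit 358) (nat_lit 284) (nat_lit 258)) (XT.lf (nat_lit 0) (nat_lit 48885248404) (nat_lit 152) (nat_lit 3183117149) (nat_lit 0) (nat_lit 45549243410) (nat_lit 2) (nat_lit 5) (nat_lit 4) (nat_lit 4) (nat_lit 2) (nat_lit 4) (nat_lit 359) (nat_lit 284) (nat_lit 257)))))) (XT.nd (nat_lit 624) (nat_lit 0) (nat_lit 0) (XT.nd (nat_lit 312) (nat_lit 0) (nat_lit 0) (XT.nd (nat_lit 156) (nat_lit 0) (nat_lit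 0) (XT.nd (nat_lit 78) (nat_lit 0) (nat_lit 0) (XT.lf (nat_lit 0) (nat_lit 3851445160) (nat_lit 76) (nat_lit 52325532556) (nat_lit 76) (nat_lit 48954165612) (nat_lit 1) (nat_lit 4) (nat_lit 2) (nat_lit 5) (nat_lit 2) (nat_lit 4) (nat_lit 360) (nat_lit 284) (nat_lit 256)) (XT.lf (nat_lit 0) (nat_lit 11522303245) (nat_lit 76) (nat_lit 52562480957) (nat_lit 76) (nat_lit 49158371467) (nat_lit 1) (nat_lit 4) (nat_lit 2) (nat_lit 5) (nat_lit 2) (nat_lit 4) (nat_lit 361) (nat_lit 284) (nat_lit 255))) (XT.nd (nat_lit 78) (nat_lit 0) (nat_lit 0) (XT.lf (nat_lit 0) (nat_lit 19707296734) (nat_lit 76) (nat_lit 52867646957) (nat_lit 76) (nat_lit 49433220295) (nat_lit 1) (nat_lit 4) (nat_lit 2) (nat_lit 5) (nat_lit 2) (nat_lit 4) (nat_lit 362) (nat_lit 284) (nat_lit 254)) (XT.lf (nat_lit 0) (nat_lit 28454929292) (nat_lit 76) (nat_lit 53242838949) (nat_lit 76) (nat_lit 49780340830) (nat_lit 1) (nat_lit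 4) (nat_lit 2) (nat_lit 5) (nat_lit 2) (nat_lit 4) (nat_lit 363) (nat_lit 284) (nat_lit 253)))) (XT.nd (nat_lit 156) (nat_lit 0) (nat_lit 0) (XT.nd (nat_lit 78) (nat_lit 0) (nat_lit 0) (XT.lf (nat_lit 0) (nat_lit 37817038742) (nat_lit 76) (nat_lit 53690280291) (nat_lit 76) (nat_lit 50201790083) (nat_lit 1) (nat_lit 4) (nat_lit 2) (nat_lit 5) (nat_lit 2) (nat_lit 4) (nat_lit 364) (nat_lit 284) (nat_lit 252)) (XT.lf (nat_lit 0) (nat_lit 47849104251) (nat_lit 76) (nat_lit 54212622489) (nat_lit 76) (nat_lit 50700065532) (nat_lit 1) (nat_lit 4) (nat_lit 2) (nat_lit 5) (nat_lit 2) (nat_lit 4) (nat_lit 365) (nat_lit 284) (nat_lit 251))) (XT.nd (nat_lit 78) (nat_lit 0) (nat_lit 0) (XT.lf (nat_lit 0) (nat_lit 58610575095) (nat_lit 76) (nat_lit 54812960902) (nat_lit 76) (nat_lit 51278119919) (nat_lit 1) (nat_lit 4) (nat_lit 2) (nat_lit 5) (nat_lit 2) (nat_lit 4) (nat_lit 366) (nat_lit 284) (nat_lit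 250)) (XT.lf (nat_lit 0) (nat_lit 70165222955) (nat_lit 76) (nat_lit 55494853094) (nat_lit 76) (nat_lit 51939378752) (nat_lit 1) (nat_lit 4) (nat_lit 2) (nat_lit 5) (nat_lit 2) (nat_lit 4) (nat_lit 367) (nat_lit 284) (nat_lit 249))))) (XT.nd (nat_lit 312) (nat_lit 0) (nat_lit 0) (XT.nd (nat_lit 156) (nat_lit 0) (nat_lit 0) (XT.nd (nat_lit 78) (nat_lit 0) (nat_lit 0) (XT.lf (nat_lit 0) (nat_lit 82581519817) (nat_lit 76) (nat_lit 56262339905) (nat_lit 76) (nat_lit 52687760602) (nat_lit 1) (nat_lit 4) (nat_lit 2) (nat_lit 5) (nat_lit 2) (nat_lit 4) (nat_lit 368) (nat_lit 284) (nat_lit 248)) (XT.lf (nat_lit 0) (nat_lit 95933043737) (nat_lit 76) (nat_lit 57119969406) (nat_lit 76) (nat_lit 53527700324) (nat_lit 1) (nat_lit 4) (nat_lit 2) (nat_lit 5) (nat_lit 2) (nat_lit 4) (nat_lit 369) (nat_lit 284) (nat_lit 247))) (XT.nd (nat_lit 78) (nat_lit 0) (nat_lit 0) (XT.lf (nat_lit 0) (nat_lit 110298914857)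 (nat_lit 76) (nat_lit 58072823846) (nat_lit 76) (nat_lit 54464175339) (nat_lit 1) (nat_lit 4) (nat_lit 2) (nat_lit 5) (nat_lit 2) (nat_lit 4) (nat_lit 370) (nat_lit 284) (nat_lit 246)) (XT.lf (nat_lit 0) (nat_lit 125764264264) (nat_lit 76) (nat_lit 59126549770) (nat_lit 76) (nat_lit 55502735129) (nat_lit 1) (nat_lit 4) (nat_lit 2) (nat_lit 5) (nat_lit 2) (nat_lit 4) (nat_lit 371) (nat_lit 284) (nat_lit 245)))) (XT.nd (nat_lit 156) (nat_lit 0) (nat_lit 0) (XT.nd (nat_lit 78) (nat_lit 0) (nat_lit 0) (XT.lf (nat_lit 0) (nat_lit 142420738473) (nat_lit 76) (nat_lit 60287391479) (nat_lit 76) (nat_lit 56649534121) (nat_lit 1) (nat_lit 4) (nat_lit 2) (nat_lit 5) (nat_lit 2) (nat_lit 4) (nat_lit 372) (nat_lit 284) (nat_lit 244)) (XT.lf (nat_lit 0) (nat_lit 160367042518) (nat_lit 76) (nat_lit 61562228036) (nat_lit 76) (nat_lit 57911368162) (nat_lit 1) (nat_lit 4) (nat_lit 2) (nat_lit 5) (nat_lit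 2) (nat_lit 4) (nat_lit 373) (nat_lit 284) (nat_lit 243))) (XT.nd (nat_lit 78) (nat_lit 0) (nat_lit 0) (XT.lf (nat_lit 0) (nat_lit 179709524866) (nat_lit 76) (nat_lit 62958614027) (nat_lit 76) (nat_lit 59295714786) (nat_lit 1) (nat_lit 4) (nat_lit 2) (nat_lit 5) (nat_lit 2) (nat_lit 4) (nat_lit 374) (nat_lit 284) (nat_lit 242)) (XT.nd (nat_lit 78) (nat_lit 0) (nat_lit 0) (XT.lf (nat_lit 0) (nat_lit 200562807636) (nat_lit 76) (nat_lit 64484824332) (nat_lit 76) (nat_lit 60810777530) (nat_lit 1) (nat_lit 4) (nat_lit 2) (nat_lit 5) (nat_lit 2) (nat_lit 4) (nat_lit 375) (nat_lit 284) (nat_lit 241)) (XT.lf (nat_lit 0) (nat_lit 223050465835) (nat_lit 76) (nat_lit 66149903161) (nat_lit 76) (nat_lit 62465534543) (nat_lit 1) (nat_lit 4) (nat_lit 2) (nat_lit 5) (nat_lit 2) (nat_lit 4) (nat_lit 376) (nat_lit 284) (nat_lit 240))))))))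
noncomputable def xc50 : XT := (XT.nd (nat_lit 1248) (nat_lit 0) (nat_lit 0) (XT.nd (nat_lit 624) (nat_lit 0) (nat_lit 0) (XT.nd (nat_lit 312) (nat_lit 0) (nat_lit 0) (XT.nd (nat_lit 156) (nat_lit 0) (nat_lit 0) (XT.nd (nat_lit 78) (nat_lit 0) (nat_lit 0) (XT.lf (nat_lit 0) (nat_lit 247305759661) (nat_lit 76) (nat_lit 67963717647) (nat_lit 76) (nat_lit 64269791792) (nat_lit 1) (nat_lit 4) (nat_lit 2) (nat_lit 5) (nat_lit 2) (nat_lit 4) (nat_lit 377) (nat_lit 284) (nat_lit 239)) (XT.lf (nat_lit 0) (nat_lit 273472424189) (nat_lit 76) (nat_lit 69937016321) (nat_lit 76) (nat_lit 66234241172) (nat_lit 1) (nat_lit 4) (nat_lit 2) (nat_lit 5) (nat_lit 2) (nat_lit 4) (nat_lit 378) (nat_lit 284) (nat_lit 238))) (XT.nd (nat_lit 78) (nat_lit 0) (nat_lit 0) (XT.lf (nat_lit 0) (nat_lit 301705521133) (nat_lit 76) (nat_lit 72081492804) (nat_lit 76) (nat_lit 68370523865) (nat_lit 1) (nat_lit 4) (nat_lit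 2) (nat_lit 5) (nat_lit 2) (nat_lit 4) (nat_lit 379) (nat_lit 284) (nat_lit 237)) (XT.lf (nat_lit 0) (nat_lit 332172357736) (nat_lit 76) (nat_lit 74409855106) (nat_lit 76) (nat_lit 70691299324) (nat_lit 1) (nat_lit 4) (nat_lit 2) (nat_lit 5) (nat_lit 2) (nat_lit 4) (nat_lit 380) (nat_lit 284) (nat_lit 236)))) (XT.nd (nat_lit 156) (nat_lit 0) (nat_lit 0) (XT.nd (nat_lit 78) (nat_lit 0) (nat_lit 0) (XT.lf (nat_lit 0) (nat_lit 365053478214) (nat_lit 76) (nat_lit 76935900928) (nat_lit 76) (nat_lit 73210320292) (nat_lit 1) (nat_lit 4) (nat_lit 2) (nat_lit 5) (nat_lit 2) (nat_lit 4) (nat_lit 381) (nat_lit 284) (nat_lit 235)) (XT.lf (nat_lit 0) (nat_lit 400543733651) (nat_lit 76) (nat_lit 79674599432) (nat_lit 76) (nat_lit 75942514300) (nat_lit 1) (nat_lit 4) (nat_lit 2) (nat_lit 5) (nat_lit 2) (nat_lit 4) (nat_lit 382) (nat_lit 284) (nat_lit 234))) (XT.nd (nat_lit 78) (nat_lit 0) (nat_lit 0)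 (XT.lf (nat_lit 0) (nat_lit 438853436673) (nat_lit 76) (nat_lit 82642179941) (nat_lit 76) (nat_lit 78904072129) (nat_lit 1) (nat_lit 4) (nat_lit 2) (nat_lit 5) (nat_lit 2) (nat_lit 4) (nat_lit 383) (nat_lit 284) (nat_lit 233)) (XT.lf (nat_lit 0) (nat_lit 480209607741) (nat_lit 76) (nat_lit 85856228118) (nat_lit 76) (nat_lit 82112543750) (nat_lit 1) (nat_lit 4) (nat_lit 2) (nat_lit 5) (nat_lit 2) (nat_lit 4) (nat_lit 384) (nat_lit 284) (nat_lit 232))))) (XT.nd (nat_lit 312) (nat_lit 0) (nat_lit 0) (XT.nd (nat_lit 156) (nat_lit 0) (nat_lit 0) (XT.nd (nat_lit 78) (nat_lit 0) (nat_lit 0) (XT.lf (nat_lit 0) (nat_lit 524857320462) (nat_lit 76) (nat_lit 89335790175) (nat_lit 76) (nat_lit 85586942328) (nat_lit 1) (nat_lit 4) (nat_lit 2) (nat_lit 5) (nat_lit 2) (nat_lit 4) (nat_lit 385) (nat_lit 284) (nat_lit 231)) (XT.lf (nat_lit 0) (nat_lit 573061153874) (nat_lit 76) (nat_lit 93101485738) (nat_lit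 76) (nat_lit 89347856893) (nat_lit 1) (nat_lit 4) (nat_lit 2) (nat_lit 5) (nat_lit 2) (nat_lit 4) (nat_lit 386) (nat_lit 284) (nat_lit 230))) (XT.nd (nat_lit 78) (nat_lit 0) (nat_lit 0) (XT.lf (nat_lit 0) (nat_lit 625106760324) (nat_lit 76) (nat_lit 97175630040) (nat_lit 76) (nat_lit 93417574345) (nat_lit 1) (nat_lit 4) (nat_lit 2) (nat_lit 5) (nat_lit 2) (nat_lit 4) (nat_lit 387) (nat_lit 284) (nat_lit 229)) (XT.lf (nat_lit 0) (nat_lit 681302558220) (nat_lit 76) (nat_lit 101582366159) (nat_lit 76) (nat_lit 97820211529) (nat_lit 1) (nat_lit 4) (nat_lit 2) (nat_lit 5) (nat_lit 2) (nat_lit 4) (nat_lit 388) (nat_lit 284) (nat_lit 228)))) (XT.nd (nat_lit 156) (nat_lit 0) (nat_lit 0) (XT.nd (nat_lit 78) (nat_lit 0) (nat_lit 0) (XT.lf (nat_lit 0) (nat_lit 741981559697) (nat_lit 76) (nat_lit 106347808086) (nat_lit 76) (nat_lit 102581858146) (nat_lit 1) (nat_lit 4) (nat_lit 2) (nat_lit 5) (nat_lit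 2) (nat_lit 4) (nat_lit 389) (nat_lit 284) (nat_lit 227)) (XT.lf (nat_lit 0) (nat_lit 807503344024) (nat_lit 76) (nat_lit 111500195478) (nat_lit 76) (nat_lit 107730731361) (nat_lit 1) (nat_lit 4) (nat_lit 2) (nat_lit 5) (nat_lit 2) (nat_lit 4) (nat_lit 390) (nat_lit 284) (nat_lit 226))) (XT.nd (nat_lit 78) (nat_lit 0) (nat_lit 0) (XT.lf (nat_lit 0) (nat_lit 878256188441) (nat_lit 76) (nat_lit 117070061000) (nat_lit 76) (nat_lit 113297343017) (nat_lit 1) (nat_lit 4) (nat_lit 2) (nat_lit 5) (nat_lit 2) (nat_lit 4) (nat_lit 391) (nat_lit 284) (nat_lit 225)) (XT.lf (nat_lit 0) (nat_lit 954659369064) (nat_lit 76) (nat_lit 123090411263) (nat_lit 76) (nat_lit 119314680440) (nat_lit 1) (nat_lit 4) (nat_lit 2) (nat_lit 5) (nat_lit 2) (nat_lit 4) (nat_lit 392) (nat_lit 284) (nat_lit 224)))))) (XT.nd (nat_lit 624) (nat_lit 0) (nat_lit 0) (XT.nd (nat_lit 312) (nat_lit 0) (nat_lit 0) (XT.nd (nat_lit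 156) (nat_lit 0) (nat_lit 0) (XT.nd (nat_lit 78) (nat_lit 0) (nat_lit 0) (XT.lf (nat_lit 0) (nat_lit 1037165645480) (nat_lit 76) (nat_lit 129596922416) (nat_lit 76) (nat_lit 125818401927) (nat_lit 1) (nat_lit 4) (nat_lit 2) (nat_lit 5) (nat_lit 2) (nat_lit 4) (nat_lit 393) (nat_lit 284) (nat_lit 223)) (XT.lf (nat_lit 0) (nat_lit 1126263943773) (nat_lit 76) (nat_lit 136628151564) (nat_lit 76) (nat_lit 132847048050) (nat_lit 1) (nat_lit 4) (nat_lit 2) (nat_lit 5) (nat_lit 2) (nat_lit 4) (nat_lit 394) (nat_lit 284) (nat_lit 222))) (XT.nd (nat_lit 78) (nat_lit 0) (nat_lit 0) (XT.lf (nat_lit 0) (nat_lit 1222482253859) (nat_lit 76) (nat_lit 144225765248) (nat_lit 76) (nat_lit 140442270044) (nat_lit 1) (nat_lit 4) (nat_lit 2) (nat_lit 5) (nat_lit 2) (nat_lit 4) (nat_lit 395) (nat_lit 284) (nat_lit 221)) (XT.lf (nat_lit 0) (nat_lit 1326390758315) (nat_lit 76) (nat_lit 152434786364) (nat_lit 76)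 (nat_lit 148649076634) (nat_lit 1) (nat_lit 4) (nat_lit 2) (nat_lit 5) (nat_lit 2) (nat_lit 4) (nat_lit 396) (nat_lit 284) (nat_lit 220)))) (XT.nd (nat_lit 156) (nat_lit 0) (nat_lit 0) (XT.nd (nat_lit 78) (nat_lit 0) (nat_lit 0) (XT.lf (nat_lit 0) (nat_lit 1438605211242) (nat_lit 76) (nat_lit 161303860965) (nat_lit 76) (nat_lit 157516100746) (nat_lit 1) (nat_lit 4) (nat_lit 2) (nat_lit 5) (nat_lit 2) (nat_lit 4) (nat_lit 397) (nat_lit 284) (nat_lit 219)) (XT.lf (nat_lit 0) (nat_lit 1559790587176) (nat_lit 76) (nat_lit 170885546528) (nat_lit 76) (nat_lit 167095887710) (nat_lit 1) (nat_lit 4) (nat_lit 2) (nat_lit 5) (nat_lit 2) (nat_lit 4) (nat_lit 398) (nat_lit 284) (nat_lit 218))) (XT.nd (nat_lit 78) (nat_lit 0) (nat_lit 0) (XT.lf (nat_lit 0) (nat_lit 1690665021679) (nat_lit 76) (nat_lit 181236623413) (nat_lit 76) (nat_lit 177445206632) (nat_lit 1) (nat_lit 4) (nat_lit 2) (nat_lit 5)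 (nat_lit 2) (nat_lit 4) (nat_lit 399) (nat_lit 284) (nat_lit 217)) (XT.lf (nat_lit 0) (nat_lit 1832004066954) (nat_lit 76) (nat_lit 192418431335) (nat_lit 76) (nat_lit 188625386810) (nat_lit 1) (nat_lit 4) (nat_lit 2) (nat_lit 5) (nat_lit 2) (nat_lit 4) (nat_lit 400) (nat_lit 284) (nat_lit 216))))) (XT.nd (nat_lit 312) (nat_lit 0) (nat_lit 0) (XT.nd (nat_lit 156) (nat_lit 0) (nat_lit 0) (XT.nd (nat_lit 78) (nat_lit 0) (nat_lit 0) (XT.lf (nat_lit 0) (nat_lit 1984645287714) (nat_lit 76) (nat_lit 204497232859) (nat_lit 76) (nat_lit 200702681164) (nat_lit 1) (nat_lit 4) (nat_lit 2) (nat_lit 5) (nat_lit 2) (nat_lit 4) (nat_lit 401) (nat_lit 284) (nat_lit 215)) (XT.lf (nat_lit 0) (nat_lit 2149493224527) (nat_lit 76) (nat_lit 217544606068) (nat_lit 76) (nat_lit 213748658845) (nat_lit 1) (nat_lit 4) (nat_lit 2) (nat_lit 5) (nat_lit 2) (nat_lit 4) (nat_lit 402) (nat_lit 284) (nat_lit 214))) (XT.nd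 (nat_lit 78) (nat_lit 0) (nat_lit 0) (XT.lf (nat_lit 0) (nat_lit 2327524754055) (nat_lit 76) (nat_lit 231637868730) (nat_lit 76) (nat_lit 227840629352) (nat_lit 1) (nat_lit 4) (nat_lit 2) (nat_lit 5) (nat_lit 2) (nat_lit 4) (nat_lit 403) (nat_lit 284) (nat_lit 213)) (XT.lf (nat_lit 0) (nat_lit 2519794877955) (nat_lit 76) (nat_lit 246860536475) (nat_lit 76) (nat_lit 243062100656) (nat_lit 1) (nat_lit 4) (nat_lit 2) (nat_lit 5) (nat_lit 2) (nat_lit 4) (nat_lit 404) (nat_lit 284) (nat_lit 212)))) (XT.nd (nat_lit 156) (nat_lit 0) (nat_lit 0) (XT.nd (nat_lit 78) (nat_lit 0) (nat_lit 0) (XT.lf (nat_lit 0) (nat_lit 2727442974739) (nat_lit 76) (nat_lit 263302817704) (nat_lit 76) (nat_lit 259503274070) (nat_lit 1) (nat_lit 4) (nat_lit 2) (nat_lit 5) (nat_lit 2) (nat_lit 4) (nat_lit 405) (nat_lit 284) (nat_lit 211)) (XT.lf (nat_lit 0) (nat_lit 2951699551646) (nat_lit 76) (nat_lit 281062148158)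 (nat_lit 76) (nat_lit 277261578770) (nat_lit 1) (nat_lit 4) (nat_lit 2) (nat_lit 5) (nat_lit 2) (nat_lit 4) (nat_lit 406) (nat_lit 284) (nat_lit 210))) (XT.nd (nat_lit 78) (nat_lit 0) (nat_lit 0) (XT.lf (nat_lit 0) (nat_lit 3193893536541) (nat_lit 76) (nat_lit 300243768313) (nat_lit 76) (nat_lit 296442249153) (nat_lit 1) (nat_lit 4) (nat_lit 2) (nat_lit 5) (nat_lit 2) (nat_lit 4) (nat_lit 407) (nat_lit 284) (nat_lit 209)) (XT.lf (nat_lit 0) (nat_lit 3455460153038) (nat_lit 76) (nat_lit 320961347031) (nat_lit 76) (nat_lit 317158948451) (nat_lit 1) (nat_lit 4) (nat_lit 2) (nat_lit 5) (nat_lit 2) (nat_lit 4) (nat_lit 408) (nat_lit 284) (nat_lit 208)))))))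
noncomputable def xc51 : XT := (XT.nd (nat_lit 41730) (nat_lit 0) (nat_lit 76) (XT.nd (nat_lit 41106) (nat_lit 0) (nat_lit 304) (XT.nd (nat_lit 40794) (nat_lit 0) (nat_lit 760) (XT.nd (nat_lit 156) (nat_lit 0) (nat_lit 0) (XT.nd (nat_lit 78) (nat_lit 0) (nat_lit 0) (XT.lf (nat_lit 0) (nat_lit 3737949425530) (nat_lit 76) (nat_lit 343337655148) (nat_lit 76) (nat_lit 339534442291) (nat_lit 1) (nat_lit 4) (nat_lit 2) (nat_lit 5) (nat_lit 2) (nat_lit 4) (nat_lit 409) (nat_lit 284) (nat_lit 207)) (XT.lf (nat_lit 0) (nat_lit 4043035364521) (nat_lit 76) (nat_lit 367505293008) (nat_lit 76) (nat_lit 363701326191) (nat_lit 1) (nat_lit 4) (nat_lit 2) (nat_lit 5) (nat_lit 2) (nat_lit 4) (nat_lit 410) (nat_lit 284) (nat_lit 206))) (XT.nd (nat_lit 40560) (nat_lit 0) (nat_lit 988) (XT.lf (nat_lit 0) (nat_lit 4372525886686) (nat_lit 76) (nat_lit 393607476243) (nat_lit 76) (nat_lit 389802811314) (nat_lit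 1) (nat_lit 4) (nat_lit 2) (nat_lit 5) (nat_lit 2) (nat_lit 4) (nat_lit 411) (nat_lit 284) (nat_lit 205)) (XT.lf (nat_lit 0) (nat_lit 2640536368) (nat_lit 152) (nat_lit 2135934429) (nat_lit 0) (nat_lit 2640536368) (nat_lit 14) (nat_lit 5) (nat_lit 16) (nat_lit 4) (nat_lit 14) (nat_lit 4) (nat_lit 330) (nat_lit 285) (nat_lit 285)))) (XT.nd (nat_lit 156) (nat_lit 152) (nat_lit 0) (XT.nd (nat_lit 78) (nat_lit 0) (nat_lit 0) (XT.lf (nat_lit 0) (nat_lit 5131432918) (nat_lit 76) (nat_lit 5437888953) (nat_lit 76) (nat_lit 5022842810) (nat_lit 13) (nat_lit 4) (nat_lit 14) (nat_lit 5) (nat_lit 14) (nat_lit 4) (nat_lit 331) (nat_lit 285) (nat_lit 284)) (XT.lf (nat_lit 0) (nat_lit 15042952894) (nat_lit 76) (nat_lit 1089684969) (nat_lit 76) (nat_lit 290336841) (nat_lit 13) (nat_lit 4) (nat_lit 14) (nat_lit 5) (nat_lit 14) (nat_lit 4) (nat_lit 332) (nat_lit 285) (nat_lit 283))) (XT.nd (nat_lit 78)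 (nat_lit 0) (nat_lit 0) (XT.lf (nat_lit 0) (nat_lit 4616366372) (nat_lit 152) (nat_lit 9145059891) (nat_lit 0) (nat_lit 3546752207) (nat_lit 11) (nat_lit 5) (nat_lit 13) (nat_lit 4) (nat_lit 11) (nat_lit 4) (nat_lit 333) (nat_lit 285) (nat_lit 282)) (XT.lf (nat_lit 0) (nat_lit 9717983043) (nat_lit 152) (nat_lit 217003115) (nat_lit 0) (nat_lit 8343297572) (nat_lit 11) (nat_lit 5) (nat_lit 13) (nat_lit 4) (nat_lit 11) (nat_lit 4) (nat_lit 334) (nat_lit 285) (nat_lit 281))))) (XT.nd (nat_lit 312) (nat_lit 228) (nat_lit 0) (XT.nd (nat_lit 156) (nat_lit 76) (nat_lit 0) (XT.nd (nat_lit 78) (nat_lit 76) (nat_lit 0) (XT.lf (nat_lit 0) (nat_lit 9466253697) (nat_lit 76) (nat_lit 5758627056) (nat_lit 76) (nat_lit 4101468154) (nat_lit 10) (nat_lit 4) (nat_lit 11) (nat_lit 5) (nat_lit 11) (nat_lit 4) (nat_lit 335) (nat_lit 285) (nat_lit 280)) (XT.lf (nat_lit 0) (nat_lit 454944412) (nat_lit 152) (nat_lit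 972423996) (nat_lit 76) (nat_lit 19047495478) (nat_lit 9) (nat_lit 5) (nat_lit 11) (nat_lit 5) (nat_lit 10) (nat_lit 4) (nat_lit 336) (nat_lit 285) (nat_lit 279))) (XT.nd (nat_lit 78) (nat_lit 0) (nat_lit 0) (XT.lf (nat_lit 0) (nat_lit 5229037539) (nat_lit 152) (nat_lit 13243598675) (nat_lit 0) (nat_lit 3228219193) (nat_lit 8) (nat_lit 5) (nat_lit 10) (nat_lit 4) (nat_lit 8) (nat_lit 4) (nat_lit 337) (nat_lit 285) (nat_lit 278)) (XT.lf (nat_lit 0) (nat_lit 10238783842) (nat_lit 152) (nat_lit 4767596133) (nat_lit 0) (nat_lit 8030339092) (nat_lit 8) (nat_lit 5) (nat_lit 10) (nat_lit 4) (nat_lit 8) (nat_lit 4) (nat_lit 338) (nat_lit 285) (nat_lit 277)))) (XT.nd (nat_lit 156) (nat_lit 152) (nat_lit 0) (XT.nd (nat_lit 78) (nat_lit 0) (nat_lit 0) (XT.lf (nat_lit 0) (nat_lit 4224043774) (nat_lit 76) (nat_lit 11331829276) (nat_lit 76) (nat_lit 8931137855) (nat_lit 7) (nat_lit 4) (nat_lit 8) (nat_lit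 5) (nat_lit 8) (nat_lit 4) (nat_lit 339) (nat_lit 285) (nat_lit 276)) (XT.lf (nat_lit 0) (nat_lit 13841867616) (nat_lit 76) (nat_lit 7397476407) (nat_lit 76) (nat_lit 4818778809) (nat_lit 7) (nat_lit 4) (nat_lit 8) (nat_lit 5) (nat_lit 8) (nat_lit 4) (nat_lit 340) (nat_lit 285) (nat_lit 275))) (XT.nd (nat_lit 78) (nat_lit 152) (nat_lit 0) (XT.lf (nat_lit 0) (nat_lit 23891816740) (nat_lit 76) (nat_lit 3310361210) (nat_lit 76) (nat_lit 566843078) (nat_lit 7) (nat_lit 4) (nat_lit 8) (nat_lit 5) (nat_lit 8) (nat_lit 4) (nat_lit 341) (nat_lit 285) (nat_lit 274)) (XT.lf (nat_lit 0) (nat_lit 3804986373) (nat_lit 152) (nat_lit 24682249361) (nat_lit 0) (nat_lit 1123384765) (nat_lit 5) (nat_lit 5) (nat_lit 7) (nat_lit 4) (nat_lit 5) (nat_lit 4) (nat_lit 342) (nat_lit 285) (nat_lit 273)))))) (XT.nd (nat_lit 624) (nat_lit 152) (nat_lit 0) (XT.nd (nat_lit 312) (nat_lit 0) (nat_lit 0) (XT.nd (nat_lit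 156) (nat_lit 76) (nat_lit 0) (XT.nd (nat_lit 78) (nat_lit 0) (nat_lit 0) (XT.lf (nat_lit 0) (nat_lit 8525252489) (nat_lit 152) (nat_lit 17358018657) (nat_lit 0) (nat_lit 5712811027) (nat_lit 5) (nat_lit 5) (nat_lit 7) (nat_lit 4) (nat_lit 5) (nat_lit 4) (nat_lit 343) (nat_lit 285) (nat_lit 272)) (XT.lf (nat_lit 0) (nat_lit 13469962131) (nat_lit 152) (nat_lit 9746353239) (nat_lit 0) (nat_lit 10536372656) (nat_lit 5) (nat_lit 5) (nat_lit 7) (nat_lit 4) (nat_lit 5) (nat_lit 4) (nat_lit 344) (nat_lit 285) (nat_lit 271))) (XT.nd (nat_lit 78) (nat_lit 76) (nat_lit 0) (XT.lf (nat_lit 0) (nat_lit 18668417283) (nat_lit 152) (nat_lit 1802146941) (nat_lit 0) (nat_lit 15622653722) (nat_lit 5) (nat_lit 5) (nat_lit 7) (nat_lit 4) (nat_lit 5) (nat_lit 4) (nat_lit 345) (nat_lit 285) (nat_lit 270)) (XT.lf (nat_lit 0) (nat_lit 6865096968) (nat_lit 76) (nat_lit 17451432383) (nat_lit 76) (nat_lit 14301803928)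 (nat_lit 4) (nat_lit 4) (nat_lit 5) (nat_lit 5) (nat_lit 5) (nat_lit 4) (nat_lit 346) (nat_lit 285) (nat_lit 269)))) (XT.nd (nat_lit 156) (nat_lit 0) (nat_lit 0) (XT.nd (nat_lit 78) (nat_lit 0) (nat_lit 0) (XT.lf (nat_lit 0) (nat_lit 16078770196) (nat_lit 76) (nat_lit 14259397597) (nat_lit 76) (nat_lit 11013597943) (nat_lit 4) (nat_lit 4) (nat_lit 5) (nat_lit 5) (nat_lit 5) (nat_lit 4) (nat_lit 347) (nat_lit 285) (nat_lit 268)) (XT.lf (nat_lit 0) (nat_lit 25798574424) (nat_lit 76) (nat_lit 10924817997) (nat_lit 76) (nat_lit 7589970937) (nat_lit 4) (nat_lit 4) (nat_lit 5) (nat_lit 5) (nat_lit 5) (nat_lit 4) (nat_lit 348) (nat_lit 285) (nat_lit 267))) (XT.nd (nat_lit 78) (nat_lit 0) (nat_lit 0) (XT.lf (nat_lit 0) (nat_lit 36082108492) (nat_lit 76) (nat_lit 7427933109) (nat_lit 76) (nat_lit 4010634747) (nat_lit 4) (nat_lit 4) (nat_lit 5) (nat_lit 5) (nat_lit 5) (nat_lit 4) (nat_lit 349)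 (nat_lit 285) (nat_lit 266)) (XT.lf (nat_lit 0) (nat_lit 46990311859) (nat_lit 76) (nat_lit 3748020655) (nat_lit 76) (nat_lit 254378495) (nat_lit 4) (nat_lit 4) (nat_lit 5) (nat_lit 5) (nat_lit 5) (nat_lit 4) (nat_lit 350) (nat_lit 285) (nat_lit 265))))) (XT.nd (nat_lit 312) (nat_lit 0) (nat_lit 0) (XT.nd (nat_lit 156) (nat_lit 0) (nat_lit 0) (XT.nd (nat_lit 78) (nat_lit 0) (nat_lit 0) (XT.lf (nat_lit 0) (nat_lit 3618886205) (nat_lit 152) (nat_lit 50797217786) (nat_lit 0) (nat_lit 318579851) (nat_lit 2) (nat_lit 5) (nat_lit 4) (nat_lit 4) (nat_lit 2) (nat_lit 4) (nat_lit 351) (nat_lit 285) (nat_lit 264)) (XT.lf (nat_lit 0) (nat_lit 7902187494) (nat_lit 152) (nat_lit 46322934504) (nat_lit 0) (nat_lit 4541276973) (nat_lit 2) (nat_lit 5) (nat_lit 4) (nat_lit 4) (nat_lit 2) (nat_lit 4) (nat_lit 352) (nat_lit 285) (nat_lit 263))) (XT.nd (nat_lit 78) (nat_lit 0) (nat_lit 0) (XT.lf (nat_lit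 0) (nat_lit 12439534536) (nat_lit 152) (nat_lit 41665721761) (nat_lit 0) (nat_lit 9022509043) (nat_lit 2) (nat_lit 5) (nat_lit 4) (nat_lit 4) (nat_lit 2) (nat_lit 4) (nat_lit 353) (nat_lit 285) (nat_lit 262)) (XT.lf (nat_lit 0) (nat_lit 17257815311) (nat_lit 152) (nat_lit 36797981258) (nat_lit 0) (nat_lit 13788831512) (nat_lit 2) (nat_lit 5) (nat_lit 4) (nat_lit 4) (nat_lit 2) (nat_lit 4) (nat_lit 354) (nat_lit 285) (nat_lit 261)))) (XT.nd (nat_lit 156) (nat_lit 0) (nat_lit 0) (XT.nd (nat_lit 78) (nat_lit 0) (nat_lit 0) (XT.lf (nat_lit 0) (nat_lit 22385582595) (nat_lit 152) (nat_lit 31690867126) (nat_lit 0) (nat_lit 18868489253) (nat_lit 2) (nat_lit 5) (nat_lit 4) (nat_lit 4) (nat_lit 2) (nat_lit 4) (nat_lit 355) (nat_lit 285) (nat_lit 260)) (XT.lf (nat_lit 0) (nat_lit 27853223156) (nat_lit 152) (nat_lit 26314114986) (nat_lit 0) (nat_lit 24291583942) (nat_lit 2) (nat_lit 5) (nat_lit 4)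 (nat_lit 4) (nat_lit 2) (nat_lit 4) (nat_lit 356) (nat_lit 285) (nat_lit 259))) (XT.nd (nat_lit 78) (nat_lit 0) (nat_lit 0) (XT.lf (nat_lit 0) (nat_lit 33693137829) (nat_lit 152) (nat_lit 20635862601) (nat_lit 0) (nat_lit 30090252436) (nat_lit 2) (nat_lit 5) (nat_lit 4) (nat_lit 4) (nat_lit 2) (nat_lit 4) (nat_lit 357) (nat_lit 285) (nat_lit 258)) (XT.nd (nat_lit 78) (nat_lit 0) (nat_lit 0) (XT.lf (nat_lit 0) (nat_lit 39939933515) (nat_lit 152) (nat_lit 14622461069) (nat_lit 0) (nat_lit 36298857216) (nat_lit 2) (nat_lit 5) (nat_lit 4) (nat_lit 4) (nat_lit 2) (nat_lit 4) (nat_lit 358) (nat_lit 285) (nat_lit 257)) (XT.lf (nat_lit 0) (nat_lit 46630628262) (nat_lit 152) (nat_lit 8238275418) (nat_lit 0) (nat_lit 42954190012) (nat_lit 2) (nat_lit 5) (nat_lit 4) (nat_lit 4) (nat_lit 2) (nat_lit 4) (nat_lit 359) (nat_lit 285) (nat_lit 256))))))))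
noncomputable def xc52 : XT := (XT.nd (nat_lit 1248) (nat_lit 0) (nat_lit 0) (XT.nd (nat_lit 624) (nat_lit 0) (nat_lit 0) (XT.nd (nat_lit 312) (nat_lit 0) (nat_lit 0) (XT.nd (nat_lit 156) (nat_lit 0) (nat_lit 0) (XT.nd (nat_lit 78) (nat_lit 76) (nat_lit 0) (XT.lf (nat_lit 0) (nat_lit 53804870631) (nat_lit 152) (nat_lit 1445473437) (nat_lit 0) (nat_lit 50095689835) (nat_lit 2) (nat_lit 5) (nat_lit 4) (nat_lit 4) (nat_lit 2) (nat_lit 4) (nat_lit 360) (nat_lit 285) (nat_lit 255)) (XT.lf (nat_lit 0) (nat_lit 6101416057) (nat_lit 76) (nat_lit 55550497797) (nat_lit 76) (nat_lit 51810999829) (nat_lit 1) (nat_lit 4) (nat_lit 2) (nat_lit 5) (nat_lit 2) (nat_lit 4) (nat_lit 361) (nat_lit 285) (nat_lit 254))) (XT.nd (nat_lit 78) (nat_lit 0) (nat_lit 0) (XT.lf (nat_lit 0) (nat_lit 14242101656) (nat_lit 76) (nat_lit 55877592986) (nat_lit 76) (nat_lit 52110023562) (nat_lit 1) (nat_lit 4) (nat_lit 2)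 (nat_lit 5) (nat_lit 2) (nat_lit 4) (nat_lit 362) (nat_lit 285) (nat_lit 253)) (XT.lf (nat_lit 0) (nat_lit 22948708391) (nat_lit 76) (nat_lit 56273089781) (nat_lit 76) (nat_lit 52479528268) (nat_lit 1) (nat_lit 4) (nat_lit 2) (nat_lit 5) (nat_lit 2) (nat_lit 4) (nat_lit 363) (nat_lit 285) (nat_lit 252)))) (XT.nd (nat_lit 156) (nat_lit 0) (nat_lit 0) (XT.nd (nat_lit 78) (nat_lit 0) (nat_lit 0) (XT.lf (nat_lit 0) (nat_lit 32272830967) (nat_lit 76) (nat_lit 56739331868) (nat_lit 76) (nat_lit 52921703605) (nat_lit 1) (nat_lit 4) (nat_lit 2) (nat_lit 5) (nat_lit 2) (nat_lit 4) (nat_lit 364) (nat_lit 285) (nat_lit 251)) (XT.lf (nat_lit 0) (nat_lit 42269723445) (nat_lit 76) (nat_lit 57279082162) (nat_lit 76) (nat_lit 53439169872) (nat_lit 1) (nat_lit 4) (nat_lit 2) (nat_lit 5) (nat_lit 2) (nat_lit 4) (nat_lit 365) (nat_lit 285) (nat_lit 250))) (XT.nd (nat_lit 78) (nat_lit 0) (nat_lit 0) (XT.lf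 (nat_lit 0) (nat_lit 52998626668) (nat_lit 76) (nat_lit 57895539183) (nat_lit 76) (nat_lit 54034993536) (nat_lit 1) (nat_lit 4) (nat_lit 2) (nat_lit 5) (nat_lit 2) (nat_lit 4) (nat_lit 366) (nat_lit 285) (nat_lit 249)) (XT.lf (nat_lit 0) (nat_lit 64523119323) (nat_lit 76) (nat_lit 58592356011) (nat_lit 76) (nat_lit 54712705403) (nat_lit 1) (nat_lit 4) (nat_lit 2) (nat_lit 5) (nat_lit 2) (nat_lit 4) (nat_lit 367) (nat_lit 285) (nat_lit 248))))) (XT.nd (nat_lit 312) (nat_lit 0) (nat_lit 0) (XT.nd (nat_lit 156) (nat_lit 0) (nat_lit 0) (XT.nd (nat_lit 78) (nat_lit 0) (nat_lit 0) (XT.lf (nat_lit 0) (nat_lit 76911494699) (nat_lit 76) (nat_lit 59373661931) (nat_lit 76) (nat_lit 55476321543) (nat_lit 1) (nat_lit 4) (nat_lit 2) (nat_lit 5) (nat_lit 2) (nat_lit 4) (nat_lit 368) (nat_lit 285) (nat_lit 247)) (XT.lf (nat_lit 0) (nat_lit 90237165391) (nat_lit 76) (nat_lit 60244086903) (nat_lit 76)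 (nat_lit 56330367090) (nat_lit 1) (nat_lit 4) (nat_lit 2) (nat_lit 5) (nat_lit 2) (nat_lit 4) (nat_lit 369) (nat_lit 285) (nat_lit 246))) (XT.nd (nat_lit 78) (nat_lit 0) (nat_lit 0) (XT.lf (nat_lit 0) (nat_lit 104579098336) (nat_lit 76) (nat_lit 61208789001) (nat_lit 76) (nat_lit 57279903054) (nat_lit 1) (nat_lit 4) (nat_lit 2) (nat_lit 5) (nat_lit 2) (nat_lit 4) (nat_lit 370) (nat_lit 285) (nat_lit 245)) (XT.lf (nat_lit 0) (nat_lit 120022282767) (nat_lit 76) (nat_lit 62273484978) (nat_lit 76) (nat_lit 58330556314) (nat_lit 1) (nat_lit 4) (nat_lit 2) (nat_lit 5) (nat_lit 2) (nat_lit 4) (nat_lit 371) (nat_lit 285) (nat_lit 244)))) (XT.nd (nat_lit 156) (nat_lit 0) (nat_lit 0) (XT.nd (nat_lit 78) (nat_lit 0) (nat_lit 0) (XT.lf (nat_lit 0) (nat_lit 136658233851) (nat_lit 76) (nat_lit 63444484144) (nat_lit 76) (nat_lit 59488552964) (nat_lit 1) (nat_lit 4) (nat_lit 2) (nat_lit 5) (nat_lit 2)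 (nat_lit 4) (nat_lit 372) (nat_lit 285) (nat_lit 243)) (XT.lf (nat_lit 0) (nat_lit 154585535002) (nat_lit 76) (nat_lit 64728725753) (nat_lit 76) (nat_lit 60760755207) (nat_lit 1) (nat_lit 4) (nat_lit 2) (nat_lit 5) (nat_lit 2) (nat_lit 4) (nat_lit 373) (nat_lit 285) (nat_lit 242))) (XT.nd (nat_lit 78) (nat_lit 0) (nat_lit 0) (XT.lf (nat_lit 0) (nat_lit 173910422078) (nat_lit 76) (nat_lit 66133820127) (nat_lit 76) (nat_lit 62154702019) (nat_lit 1) (nat_lit 4) (nat_lit 2) (nat_lit 5) (nat_lit 2) (nat_lit 4) (nat_lit 374) (nat_lit 285) (nat_lit 241)) (XT.lf (nat_lit 0) (nat_lit 194747412928) (nat_lit 76) (nat_lit 67668093749) (nat_lit 76) (nat_lit 63678653825) (nat_lit 1) (nat_lit 4) (nat_lit 2) (nat_lit 5) (nat_lit 2) (nat_lit 4) (nat_lit 375) (nat_lit 285) (nat_lit 240)))))) (XT.nd (nat_lit 624) (nat_lit 0) (nat_lit 0) (XT.nd (nat_lit 312) (nat_lit 0) (nat_lit 0) (XT.nd (nat_lit 156) (nat_lit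 0) (nat_lit 0) (XT.nd (nat_lit 78) (nat_lit 0) (nat_lit 0) (XT.lf (nat_lit 0) (nat_lit 217219986017) (nat_lit 76) (nat_lit 69340638612) (nat_lit 76) (nat_lit 65341641451) (nat_lit 1) (nat_lit 4) (nat_lit 2) (nat_lit 5) (nat_lit 2) (nat_lit 4) (nat_lit 376) (nat_lit 285) (nat_lit 239)) (XT.lf (nat_lit 0) (nat_lit 241461312149) (nat_lit 76) (nat_lit 71161366093) (nat_lit 76) (nat_lit 67153519638) (nat_lit 1) (nat_lit 4) (nat_lit 2) (nat_lit 5) (nat_lit 2) (nat_lit 4) (nat_lit 377) (nat_lit 285) (nat_lit 238))) (XT.nd (nat_lit 78) (nat_lit 0) (nat_lit 0) (XT.lf (nat_lit 0) (nat_lit 267615043626) (nat_lit 76) (nat_lit 73141065688) (nat_lit 76) (nat_lit 69125025443) (nat_lit 1) (nat_lit 4) (nat_lit 2) (nat_lit 5) (nat_lit 2) (nat_lit 4) (nat_lit 378) (nat_lit 285) (nat_lit 237)) (XT.lf (nat_lit 0) (nat_lit 295836165524) (nat_lit 76) (nat_lit 75291468950) (nat_lit 76) (nat_lit 71267841862)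 (nat_lit 1) (nat_lit 4) (nat_lit 2) (nat_lit 5) (nat_lit 2) (nat_lit 4) (nat_lit 379) (nat_lit 285) (nat_lit 236)))) (XT.nd (nat_lit 156) (nat_lit 0) (nat_lit 0) (XT.nd (nat_lit 78) (nat_lit 0) (nat_lit 0) (XT.lf (nat_lit 0) (nat_lit 326291914120) (nat_lit 76) (nat_lit 77625319009) (nat_lit 76) (nat_lit 73594667067) (nat_lit 1) (nat_lit 4) (nat_lit 2) (nat_lit 5) (nat_lit 2) (nat_lit 4) (nat_lit 380) (nat_lit 285) (nat_lit 235)) (XT.lf (nat_lit 0) (nat_lit 359162767925) (nat_lit 76) (nat_lit 80156446089) (nat_lit 76) (nat_lit 76119289652) (nat_lit 1) (nat_lit 4) (nat_lit 2) (nat_lit 5) (nat_lit 2) (nat_lit 4) (nat_lit 381) (nat_lit 285) (nat_lit 234))) (XT.nd (nat_lit 78) (nat_lit 0) (nat_lit 0) (XT.lf (nat_lit 0) (nat_lit 394643517184) (nat_lit 76) (nat_lit 82899849461) (nat_lit 76) (nat_lit 78856670343) (nat_lit 1) (nat_lit 4) (nat_lit 2) (nat_lit 5) (nat_lit 2) (nat_lit 4) (nat_lit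 382) (nat_lit 285) (nat_lit 233)) (XT.lf (nat_lit 0) (nat_lit 432944418189) (nat_lit 76) (nat_lit 85871786329) (nat_lit 76) (nat_lit 81823030655) (nat_lit 1) (nat_lit 4) (nat_lit 2) (nat_lit 5) (nat_lit 2) (nat_lit 4) (nat_lit 383) (nat_lit 285) (nat_lit 232))))) (XT.nd (nat_lit 312) (nat_lit 0) (nat_lit 0) (XT.nd (nat_lit 156) (nat_lit 0) (nat_lit 0) (XT.nd (nat_lit 78) (nat_lit 0) (nat_lit 0) (XT.lf (nat_lit 0) (nat_lit 474292439242) (nat_lit 76) (nat_lit 89089868172) (nat_lit 76) (nat_lit 85035949020) (nat_lit 1) (nat_lit 4) (nat_lit 2) (nat_lit 5) (nat_lit 2) (nat_lit 4) (nat_lit 384) (nat_lit 285) (nat_lit 231)) (XT.lf (nat_lit 0) (nat_lit 518932605652) (nat_lit 76) (nat_lit 92573165105) (nat_lit 76) (nat_lit 88514464955) (nat_lit 1) (nat_lit 4) (nat_lit 2) (nat_lit 5) (nat_lit 2) (nat_lit 4) (nat_lit 385) (nat_lit 285) (nat_lit 230))) (XT.nd (nat_lit 78) (nat_lit 0) (nat_lit 0)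 (XT.lf (nat_lit 0) (nat_lit 567129451739) (nat_lit 76) (nat_lit 96342318886) (nat_lit 76) (nat_lit 92279191886) (nat_lit 1) (nat_lit 4) (nat_lit 2) (nat_lit 5) (nat_lit 2) (nat_lit 4) (nat_lit 386) (nat_lit 285) (nat_lit 229)) (XT.lf (nat_lit 0) (nat_lit 619168588444) (nat_lit 76) (nat_lit 100419665242) (nat_lit 76) (nat_lit 96352439307) (nat_lit 1) (nat_lit 4) (nat_lit 2) (nat_lit 5) (nat_lit 2) (nat_lit 4) (nat_lit 387) (nat_lit 285) (nat_lit 228)))) (XT.nd (nat_lit 156) (nat_lit 0) (nat_lit 0) (XT.nd (nat_lit 78) (nat_lit 0) (nat_lit 0) (XT.lf (nat_lit 0) (nat_lit 675358395835) (nat_lit 76) (nat_lit 104829366226) (nat_lit 76) (nat_lit 100758344980) (nat_lit 1) (nat_lit 4) (nat_lit 2) (nat_lit 5) (nat_lit 2) (nat_lit 4) (nat_lit 388) (nat_lit 285) (nat_lit 227)) (XT.lf (nat_lit 0) (nat_lit 736031850548) (nat_lit 76) (nat_lit 109597553399) (nat_lit 76) (nat_lit 105523017977) (nat_lit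 1) (nat_lit 4) (nat_lit 2) (nat_lit 5) (nat_lit 2) (nat_lit 4) (nat_lit 389) (nat_lit 285) (nat_lit 226))) (XT.nd (nat_lit 78) (nat_lit 0) (nat_lit 0) (XT.lf (nat_lit 0) (nat_lit 801548498983) (nat_lit 76) (nat_lit 114752482684) (nat_lit 76) (nat_lit 110674693395) (nat_lit 1) (nat_lit 4) (nat_lit 2) (nat_lit 5) (nat_lit 2) (nat_lit 4) (nat_lit 390) (nat_lit 285) (nat_lit 225)) (XT.lf (nat_lit 0) (nat_lit 872296587945) (nat_lit 76) (nat_lit 120324701811) (nat_lit 76) (nat_lit 116243899683) (nat_lit 1) (nat_lit 4) (nat_lit 2) (nat_lit 5) (nat_lit 2) (nat_lit 4) (nat_lit 391) (nat_lit 285) (nat_lit 224)))))))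
noncomputable def xc53 : XT := (XT.nd (nat_lit 1248) (nat_lit 0) (nat_lit 0) (XT.nd (nat_lit 624) (nat_lit 0) (nat_lit 0) (XT.nd (nat_lit 312) (nat_lit 0) (nat_lit 0) (XT.nd (nat_lit 156) (nat_lit 0) (nat_lit 0) (XT.nd (nat_lit 78) (nat_lit 0) (nat_lit 0) (XT.lf (nat_lit 0) (nat_lit 948695365367) (nat_lit 76) (nat_lit 126347231339) (nat_lit 76) (nat_lit 122263639543) (nat_lit 1) (nat_lit 4) (nat_lit 2) (nat_lit 5) (nat_lit 2) (nat_lit 4) (nat_lit 392) (nat_lit 285) (nat_lit 223)) (XT.lf (nat_lit 0) (nat_lit 1031197564747) (nat_lit 76) (nat_lit 132855760329) (nat_lit 76) (nat_lit 128769585510) (nat_lit 1) (nat_lit 4) (nat_lit 2) (nat_lit 5) (nat_lit 2) (nat_lit 4) (nat_lit 393) (nat_lit 285) (nat_lit 222))) (XT.nd (nat_lit 78) (nat_lit 0) (nat_lit 0) (XT.lf (nat_lit 0) (nat_lit 1120292088006) (nat_lit 76) (nat_lit 139888857844) (nat_lit 76) (nat_lit 135800291335) (nat_lit 1) (nat_lit 4)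 (nat_lit 2) (nat_lit 5) (nat_lit 2) (nat_lit 4) (nat_lit 394) (nat_lit 285) (nat_lit 221)) (XT.lf (nat_lit 0) (nat_lit 1216506902689) (nat_lit 76) (nat_lit 147488201498) (nat_lit 76) (nat_lit 143397420463) (nat_lit 1) (nat_lit 4) (nat_lit 2) (nat_lit 5) (nat_lit 2) (nat_lit 4) (nat_lit 395) (nat_lit 285) (nat_lit 220)))) (XT.nd (nat_lit 156) (nat_lit 0) (nat_lit 0) (XT.nd (nat_lit 78) (nat_lit 0) (nat_lit 0) (XT.lf (nat_lit 0) (nat_lit 1320412170662) (nat_lit 76) (nat_lit 155698824439) (nat_lit 76) (nat_lit 151605992915) (nat_lit 1) (nat_lit 4) (nat_lit 2) (nat_lit 5) (nat_lit 2) (nat_lit 4) (nat_lit 396) (nat_lit 285) (nat_lit 219)) (XT.lf (nat_lit 0) (nat_lit 1432623626845) (nat_lit 76) (nat_lit 164569382211) (nat_lit 76) (nat_lit 160474652086) (nat_lit 1) (nat_lit 4) (nat_lit 2) (nat_lit 5) (nat_lit 2) (nat_lit 4) (nat_lit 397) (nat_lit 285) (nat_lit 218))) (XT.nd (nat_lit 78) (nat_lit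 0) (nat_lit 0) (XT.lf (nat_lit 0) (nat_lit 1553806228017) (nat_lit 76) (nat_lit 174152441080) (nat_lit 76) (nat_lit 170055952993) (nat_lit 1) (nat_lit 4) (nat_lit 2) (nat_lit 5) (nat_lit 2) (nat_lit 4) (nat_lit 398) (nat_lit 285) (nat_lit 217)) (XT.lf (nat_lit 0) (nat_lit 1684678093294) (nat_lit 76) (nat_lit 184504789545) (nat_lit 76) (nat_lit 180406673714) (nat_lit 1) (nat_lit 4) (nat_lit 2) (nat_lit 5) (nat_lit 2) (nat_lit 4) (nat_lit 399) (nat_lit 285) (nat_lit 216))))) (XT.nd (nat_lit 312) (nat_lit 0) (nat_lit 0) (XT.nd (nat_lit 156) (nat_lit 0) (nat_lit 0) (XT.nd (nat_lit 78) (nat_lit 0) (nat_lit 0) (XT.lf (nat_lit 0) (nat_lit 1826014759657) (nat_lit 76) (nat_lit 195687774855) (nat_lit 76) (nat_lit 191588151855) (nat_lit 1) (nat_lit 4) (nat_lit 2) (nat_lit 5) (nat_lit 2) (nat_lit 4) (nat_lit 400) (nat_lit 285) (nat_lit 215)) (XT.lf (nat_lit 0) (nat_lit 1978653777721) (nat_lit 76)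 (nat_lit 207767666554) (nat_lit 76) (nat_lit 203666648026) (nat_lit 1) (nat_lit 4) (nat_lit 2) (nat_lit 5) (nat_lit 2) (nat_lit 4) (nat_lit 401) (nat_lit 285) (nat_lit 214))) (XT.nd (nat_lit 78) (nat_lit 0) (nat_lit 0) (XT.lf (nat_lit 0) (nat_lit 2143499675000) (nat_lit 76) (nat_lit 220816049184) (nat_lit 76) (nat_lit 216713738500) (nat_lit 1) (nat_lit 4) (nat_lit 2) (nat_lit 5) (nat_lit 2) (nat_lit 4) (nat_lit 402) (nat_lit 285) (nat_lit 213)) (XT.lf (nat_lit 0) (nat_lit 2321529316072) (nat_lit 76) (nat_lit 234910246495) (nat_lit 76) (nat_lit 230806739371) (nat_lit 1) (nat_lit 4) (nat_lit 2) (nat_lit 5) (nat_lit 2) (nat_lit 4) (nat_lit 403) (nat_lit 285) (nat_lit 212)))) (XT.nd (nat_lit 156) (nat_lit 0) (nat_lit 0) (XT.nd (nat_lit 78) (nat_lit 0) (nat_lit 0) (XT.lf (nat_lit 0) (nat_lit 2513797691400) (nat_lit 76) (nat_lit 250133779655) (nat_lit 76) (nat_lit 246029164716) (nat_lit 1)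 (nat_lit 4) (nat_lit 2) (nat_lit 5) (nat_lit 2) (nat_lit 4) (nat_lit 404) (nat_lit 285) (nat_lit 211)) (XT.lf (nat_lit 0) (nat_lit 2721444169137) (nat_lit 76) (nat_lit 266576862195) (nat_lit 76) (nat_lit 262471221502) (nat_lit 1) (nat_lit 4) (nat_lit 2) (nat_lit 5) (nat_lit 2) (nat_lit 4) (nat_lit 405) (nat_lit 285) (nat_lit 210))) (XT.nd (nat_lit 78) (nat_lit 0) (nat_lit 0) (XT.lf (nat_lit 0) (nat_lit 2945699246927) (nat_lit 76) (nat_lit 284336934604) (nat_lit 76) (nat_lit 280230344138) (nat_lit 1) (nat_lit 4) (nat_lit 2) (nat_lit 5) (nat_lit 2) (nat_lit 4) (nat_lit 406) (nat_lit 285) (nat_lit 209)) (XT.lf (nat_lit 0) (nat_lit 3187891843749) (nat_lit 76) (nat_lit 303519241755) (nat_lit 76) (nat_lit 299411771869) (nat_lit 1) (nat_lit 4) (nat_lit 2) (nat_lit 5) (nat_lit 2) (nat_lit 4) (nat_lit 407) (nat_lit 285) (nat_lit 208)))))) (XT.nd (nat_lit 40950) (nat_lit 0) (nat_lit 456) (XT.nd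 (nat_lit 40638) (nat_lit 0) (nat_lit 912) (XT.nd (nat_lit 156) (nat_lit 0) (nat_lit 0) (XT.nd (nat_lit 78) (nat_lit 0) (nat_lit 0) (XT.lf (nat_lit 0) (nat_lit 3449457174994) (nat_lit 76) (nat_lit 324237456579) (nat_lit 76) (nat_lit 320129172416) (nat_lit 1) (nat_lit 4) (nat_lit 2) (nat_lit 5) (nat_lit 2) (nat_lit 4) (nat_lit 408) (nat_lit 285) (nat_lit 207)) (XT.lf (nat_lit 0) (nat_lit 3731945257437) (nat_lit 76) (nat_lit 346614353683) (nat_lit 76) (nat_lit 342505315560) (nat_lit 1) (nat_lit 4) (nat_lit 2) (nat_lit 5) (nat_lit 2) (nat_lit 4) (nat_lit 409) (nat_lit 285) (nat_lit 206))) (XT.nd (nat_lit 78) (nat_lit 0) (nat_lit 0) (XT.lf (nat_lit 0) (nat_lit 4037030094532) (nat_lit 76) (nat_lit 370782536902) (nat_lit 76) (nat_lit 366672800668) (nat_lit 1) (nat_lit 4) (nat_lit 2) (nat_lit 5) (nat_lit 2) (nat_lit 4) (nat_lit 410) (nat_lit 285) (nat_lit 205)) (XT.lf (nat_lit 0) (nat_lit 4366519596423)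 (nat_lit 76) (nat_lit 396885225098) (nat_lit 76) (nat_lit 392774842465) (nat_lit 1) (nat_lit 4) (nat_lit 2) (nat_lit 5) (nat_lit 2) (nat_lit 4) (nat_lit 411) (nat_lit 285) (nat_lit 204)))) (XT.nd (nat_lit 156) (nat_lit 76) (nat_lit 0) (XT.nd (nat_lit 78) (nat_lit 152) (nat_lit 0) (XT.lf (nat_lit 0) (nat_lit 2745196810) (nat_lit 76) (nat_lit 1997991471) (nat_lit 76) (nat_lit 1997991471) (nat_lit 16) (nat_lit 4) (nat_lit 17) (nat_lit 5) (nat_lit 17) (nat_lit 4) (nat_lit 328) (nat_lit 286) (nat_lit 286)) (XT.lf (nat_lit 0) (nat_lit 693983724) (nat_lit 152) (nat_lit 13203578806) (nat_lit 0) (nat_lit 245733890) (nat_lit 14) (nat_lit 5) (nat_lit 16) (nat_lit 4) (nat_lit 14) (nat_lit 4) (nat_lit 329) (nat_lit 286) (nat_lit 285))) (XT.nd (nat_lit 78) (nat_lit 76) (nat_lit 0) (XT.lf (nat_lit 0) (nat_lit 5597914925) (nat_lit 152) (nat_lit 4512080408) (nat_lit 0) (nat_lit 4734618947) (nat_lit 14)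 (nat_lit 5) (nat_lit 16) (nat_lit 4) (nat_lit 14) (nat_lit 4) (nat_lit 330) (nat_lit 286) (nat_lit 284)) (XT.lf (nat_lit 0) (nat_lit 4644442008) (nat_lit 76) (nat_lit 6108336160) (nat_lit 76) (nat_lit 4860738197) (nat_lit 13) (nat_lit 4) (nat_lit 14) (nat_lit 5) (nat_lit 14) (nat_lit 4) (nat_lit 331) (nat_lit 286) (nat_lit 283))))) (XT.nd (nat_lit 312) (nat_lit 228) (nat_lit 0) (XT.nd (nat_lit 156) (nat_lit 76) (nat_lit 0) (XT.nd (nat_lit 78) (nat_lit 152) (nat_lit 0) (XT.lf (nat_lit 0) (nat_lit 14339174720) (nat_lit 76) (nat_lit 1859044824) (nat_lit 76) (nat_lit 255611690) (nat_lit 13) (nat_lit 4) (nat_lit 14) (nat_lit 5) (nat_lit 14) (nat_lit 4) (nat_lit 332) (nat_lit 286) (nat_lit 282)) (XT.lf (nat_lit 0) (nat_lit 4492081004) (nat_lit 152) (nat_lit 10157183864) (nat_lit 0) (nat_lit 2702349390) (nat_lit 11) (nat_lit 5) (nat_lit 13) (nat_lit 4) (nat_lit 11) (nat_lit 4) (nat_lit 333)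 (nat_lit 286) (nat_lit 281))) (XT.nd (nat_lit 78) (nat_lit 76) (nat_lit 0) (XT.lf (nat_lit 0) (nat_lit 9482874635) (nat_lit 152) (nat_lit 1437100575) (nat_lit 0) (nat_lit 7410669589) (nat_lit 11) (nat_lit 5) (nat_lit 13) (nat_lit 4) (nat_lit 11) (nat_lit 4) (nat_lit 334) (nat_lit 286) (nat_lit 280)) (XT.lf (nat_lit 0) (nat_lit 7979199732) (nat_lit 76) (nat_lit 6872195003) (nat_lit 76) (nat_lit 4538440485) (nat_lit 10) (nat_lit 4) (nat_lit 11) (nat_lit 5) (nat_lit 11) (nat_lit 4) (nat_lit 335) (nat_lit 286) (nat_lit 279)))) (XT.nd (nat_lit 156) (nat_lit 76) (nat_lit 0) (XT.nd (nat_lit 78) (nat_lit 152) (nat_lit 0) (XT.lf (nat_lit 0) (nat_lit 17840132009) (nat_lit 76) (nat_lit 2641541333) (nat_lit 76) (nat_lit 65611376) (nat_lit 10) (nat_lit 4) (nat_lit 11) (nat_lit 5) (nat_lit 11) (nat_lit 4) (nat_lit 336) (nat_lit 286) (nat_lit 278)) (XT.lf (nat_lit 0) (nat_lit 4536242059) (nat_lit 152)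 (nat_lit 15307750530) (nat_lit 0) (nat_lit 1943495324) (nat_lit 8) (nat_lit 5) (nat_lit 10) (nat_lit 4) (nat_lit 8) (nat_lit 4) (nat_lit 337) (nat_lit 286) (nat_lit 277))) (XT.nd (nat_lit 78) (nat_lit 76) (nat_lit 0) (XT.lf (nat_lit 0) (nat_lit 9452226269) (nat_lit 152) (nat_lit 7011433860) (nat_lit 0) (nat_lit 6667232864) (nat_lit 8) (nat_lit 5) (nat_lit 10) (nat_lit 4) (nat_lit 8) (nat_lit 4) (nat_lit 338) (nat_lit 286) (nat_lit 276)) (XT.nd (nat_lit 78) (nat_lit 0) (nat_lit 0) (XT.lf (nat_lit 0) (nat_lit 1686912666) (nat_lit 76) (nat_lit 12934567995) (nat_lit 76) (nat_lit 9971568413) (nat_lit 7) (nat_lit 4) (nat_lit 8) (nat_lit 5) (nat_lit 8) (nat_lit 4) (nat_lit 339) (nat_lit 286) (nat_lit 275)) (XT.lf (nat_lit 0) (nat_lit 11142572745) (nat_lit 76) (nat_lit 9078092963) (nat_lit 76) (nat_lit 5950272847) (nat_lit 7) (nat_lit 4) (nat_lit 8) (nat_lit 5) (nat_lit 8) (nat_lit 4) (nat_lit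 340) (nat_lit 286) (nat_lit 274))))))))
noncomputable def xc54 : XT := (XT.nd (nat_lit 1248) (nat_lit 76) (nat_lit 0) (XT.nd (nat_lit 624) (nat_lit 152) (nat_lit 0) (XT.nd (nat_lit 312) (nat_lit 76) (nat_lit 0) (XT.nd (nat_lit 156) (nat_lit 0) (nat_lit 0) (XT.nd (nat_lit 78) (nat_lit 152) (nat_lit 0) (XT.lf (nat_lit 0) (nat_lit 21042370238) (nat_lit 76) (nat_lit 5063086875) (nat_lit 76) (nat_lit 1782655153) (nat_lit 7) (nat_lit 4) (nat_lit 8) (nat_lit 5) (nat_lit 8) (nat_lit 4) (nat_lit 341) (nat_lit 286) (nat_lit 273)) (XT.lf (nat_lit 0) (nat_lit 1714520391) (nat_lit 76) (nat_lit 754834971) (nat_lit 152) (nat_lit 27277174234) (nat_lit 5) (nat_lit 5) (nat_lit 6) (nat_lit 5) (nat_lit 7) (nat_lit 4) (nat_lit 342) (nat_lit 286) (nat_lit 272))) (XT.nd (nat_lit 78) (nat_lit 0) (nat_lit 0) (XT.lf (nat_lit 0) (nat_lit 7097824524) (nat_lit 152) (nat_lit 20833136117) (nat_lit 0) (nat_lit 3808399878)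 (nat_lit 5) (nat_lit 5) (nat_lit 7) (nat_lit 4) (nat_lit 5) (nat_lit 4) (nat_lit 343) (nat_lit 286) (nat_lit 271)) (XT.lf (nat_lit 0) (nat_lit 11974346060) (nat_lit 152) (nat_lit 13354351638) (nat_lit 0) (nat_lit 8572747328) (nat_lit 5) (nat_lit 5) (nat_lit 7) (nat_lit 4) (nat_lit 5) (nat_lit 4) (nat_lit 344) (nat_lit 286) (nat_lit 270)))) (XT.nd (nat_lit 156) (nat_lit 0) (nat_lit 0) (XT.nd (nat_lit 78) (nat_lit 76) (nat_lit 0) (XT.lf (nat_lit 0) (nat_lit 17109664075) (nat_lit 152) (nat_lit 5533183247) (nat_lit 0) (nat_lit 13604200449) (nat_lit 5) (nat_lit 5) (nat_lit 7) (nat_lit 4) (nat_lit 5) (nat_lit 4) (nat_lit 345) (nat_lit 286) (nat_lit 269)) (XT.lf (nat_lit 0) (nat_lit 2817667879) (nat_lit 76) (nat_lit 19784307186) (nat_lit 76) (nat_lit 16182672361) (nat_lit 4) (nat_lit 4) (nat_lit 5) (nat_lit 5) (nat_lit 5) (nat_lit 4) (nat_lit 346) (nat_lit 286) (nat_lit 268))) (XT.nd (nat_lit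 78) (nat_lit 0) (nat_lit 0) (XT.lf (nat_lit 0) (nat_lit 11920301272) (nat_lit 76) (nat_lit 16646511808) (nat_lit 76) (nat_lit 12955829577) (nat_lit 4) (nat_lit 4) (nat_lit 5) (nat_lit 5) (nat_lit 5) (nat_lit 4) (nat_lit 347) (nat_lit 286) (nat_lit 267)) (XT.lf (nat_lit 0) (nat_lit 21537290837) (nat_lit 76) (nat_lit 13362153881) (nat_lit 76) (nat_lit 9589020348) (nat_lit 4) (nat_lit 4) (nat_lit 5) (nat_lit 5) (nat_lit 5) (nat_lit 4) (nat_lit 348) (nat_lit 286) (nat_lit 266))))) (XT.nd (nat_lit 312) (nat_lit 0) (nat_lit 0) (XT.nd (nat_lit 156) (nat_lit 152) (nat_lit 0) (XT.nd (nat_lit 78) (nat_lit 0) (nat_lit 0) (XT.lf (nat_lit 0) (nat_lit 31725626142) (nat_lit 76) (nat_lit 9911770544) (nat_lit 76) (nat_lit 6062293213) (nat_lit 4) (nat_lit 4) (nat_lit 5) (nat_lit 5) (nat_lit 5) (nat_lit 4) (nat_lit 349) (nat_lit 286) (nat_lit 265)) (XT.lf (nat_lit 0) (nat_lit 42545682507) (nat_lit 76) (nat_lit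 6274915080) (nat_lit 76) (nat_lit 2354749047) (nat_lit 4) (nat_lit 4) (nat_lit 5) (nat_lit 5) (nat_lit 5) (nat_lit 4) (nat_lit 350) (nat_lit 286) (nat_lit 264))) (XT.nd (nat_lit 78) (nat_lit 76) (nat_lit 0) (XT.lf (nat_lit 0) (nat_lit 1477766229) (nat_lit 152) (nat_lit 911864776) (nat_lit 76) (nat_lit 52543407809) (nat_lit 3) (nat_lit 5) (nat_lit 5) (nat_lit 5) (nat_lit 4) (nat_lit 4) (nat_lit 351) (nat_lit 286) (nat_lit 263)) (XT.lf (nat_lit 0) (nat_lit 5637307060) (nat_lit 152) (nat_lit 51446554972) (nat_lit 0) (nat_lit 1890804557) (nat_lit 2) (nat_lit 5) (nat_lit 4) (nat_lit 4) (nat_lit 2) (nat_lit 4) (nat_lit 352) (nat_lit 286) (nat_lit 262)))) (XT.nd (nat_lit 156) (nat_lit 0) (nat_lit 0) (XT.nd (nat_lit 78) (nat_lit 0) (nat_lit 0) (XT.lf (nat_lit 0) (nat_lit 10135205048) (nat_lit 152) (nat_lit 46867250527) (nat_lit 0) (nat_lit 6336744239) (nat_lit 2) (nat_lit 5) (nat_lit 4) (nat_lit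 4) (nat_lit 2) (nat_lit 4) (nat_lit 353) (nat_lit 286) (nat_lit 261)) (XT.lf (nat_lit 0) (nat_lit 14916958923) (nat_lit 152) (nat_lit 42071647337) (nat_lit 0) (nat_lit 11070388571) (nat_lit 2) (nat_lit 5) (nat_lit 4) (nat_lit 4) (nat_lit 2) (nat_lit 4) (nat_lit 354) (nat_lit 286) (nat_lit 260))) (XT.nd (nat_lit 78) (nat_lit 0) (nat_lit 0) (XT.lf (nat_lit 0) (nat_lit 20010905002) (nat_lit 152) (nat_lit 37031327013) (nat_lit 0) (nat_lit 16119788778) (nat_lit 2) (nat_lit 5) (nat_lit 4) (nat_lit 4) (nat_lit 2) (nat_lit 4) (nat_lit 355) (nat_lit 286) (nat_lit 259)) (XT.lf (nat_lit 0) (nat_lit 25447229634) (nat_lit 152) (nat_lit 31716420992) (nat_lit 0) (nat_lit 21514867232) (nat_lit 2) (nat_lit 5) (nat_lit 4) (nat_lit 4) (nat_lit 2) (nat_lit 4) (nat_lit 356) (nat_lit 286) (nat_lit 258)))))) (XT.nd (nat_lit 624) (nat_lit 0) (nat_lit 0) (XT.nd (nat_lit 312) (nat_lit 76) (nat_lit 0) (XT.nd (nat_lit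 156) (nat_lit 0) (nat_lit 0) (XT.nd (nat_lit 78) (nat_lit 0) (nat_lit 0) (XT.lf (nat_lit 0) (nat_lit 31258148076) (nat_lit 152) (nat_lit 26095433532) (nat_lit 0) (nat_lit 27287594767) (nat_lit 2) (nat_lit 5) (nat_lit 4) (nat_lit 4) (nat_lit 2) (nat_lit 4) (nat_lit 357) (nat_lit 286) (nat_lit 257)) (XT.lf (nat_lit 0) (nat_lit 37478095399) (nat_lit 152) (nat_lit 20135055078) (nat_lit 0) (nat_lit 33472180140) (nat_lit 2) (nat_lit 5) (nat_lit 4) (nat_lit 4) (nat_lit 2) (nat_lit 4) (nat_lit 358) (nat_lit 286) (nat_lit 256))) (XT.nd (nat_lit 78) (nat_lit 0) (nat_lit 0) (XT.lf (nat_lit 0) (nat_lit 44143930551) (nat_lit 152) (nat_lit 13799964871) (nat_lit 0) (nat_lit 40105272746) (nat_lit 2) (nat_lit 5) (nat_lit 4) (nat_lit 4) (nat_lit 2) (nat_lit 4) (nat_lit 359) (nat_lit 286) (nat_lit 255)) (XT.lf (nat_lit 0) (nat_lit 51295154777) (nat_lit 152) (nat_lit 7052621633) (nat_lit 0) (nat_lit 47226179799)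 (nat_lit 2) (nat_lit 5) (nat_lit 4) (nat_lit 4) (nat_lit 2) (nat_lit 4) (nat_lit 360) (nat_lit 286) (nat_lit 254)))) (XT.nd (nat_lit 156) (nat_lit 0) (nat_lit 0) (XT.nd (nat_lit 78) (nat_lit 0) (nat_lit 0) (XT.lf (nat_lit 0) (nat_lit 154697484) (nat_lit 76) (nat_lit 58823168696) (nat_lit 76) (nat_lit 54726122262) (nat_lit 1) (nat_lit 4) (nat_lit 2) (nat_lit 5) (nat_lit 2) (nat_lit 4) (nat_lit 361) (nat_lit 286) (nat_lit 253)) (XT.lf (nat_lit 0) (nat_lit 8254357260) (nat_lit 76) (nat_lit 59170568689) (nat_lit 76) (nat_lit 55047530165) (nat_lit 1) (nat_lit 4) (nat_lit 2) (nat_lit 5) (nat_lit 2) (nat_lit 4) (nat_lit 362) (nat_lit 286) (nat_lit 252))) (XT.nd (nat_lit 78) (nat_lit 0) (nat_lit 0) (XT.lf (nat_lit 0) (nat_lit 16922977121) (nat_lit 76) (nat_lit 59584866228) (nat_lit 76) (nat_lit 55437760956) (nat_lit 1) (nat_lit 4) (nat_lit 2) (nat_lit 5) (nat_lit 2) (nat_lit 4) (nat_lit 363)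 (nat_lit 286) (nat_lit 251)) (XT.lf (nat_lit 0) (nat_lit 26211926666) (nat_lit 76) (nat_lit 60068516411) (nat_lit 76) (nat_lit 55899127112) (nat_lit 1) (nat_lit 4) (nat_lit 2) (nat_lit 5) (nat_lit 2) (nat_lit 4) (nat_lit 364) (nat_lit 286) (nat_lit 250))))) (XT.nd (nat_lit 312) (nat_lit 0) (nat_lit 0) (XT.nd (nat_lit 156) (nat_lit 0) (nat_lit 0) (XT.nd (nat_lit 78) (nat_lit 0) (nat_lit 0) (XT.lf (nat_lit 0) (nat_lit 36176251522) (nat_lit 76) (nat_lit 60624385313) (nat_lit 76) (nat_lit 56434362655) (nat_lit 1) (nat_lit 4) (nat_lit 2) (nat_lit 5) (nat_lit 2) (nat_lit 4) (nat_lit 365) (nat_lit 286) (nat_lit 249)) (XT.lf (nat_lit 0) (nat_lit 46874999540) (nat_lit 76) (nat_lit 61255766971) (nat_lit 76) (nat_lit 57046639352) (nat_lit 1) (nat_lit 4) (nat_lit 2) (nat_lit 5) (nat_lit 2) (nat_lit 4) (nat_lit 366) (nat_lit 286) (nat_lit 248))) (XT.nd (nat_lit 78) (nat_lit 0) (nat_lit 0) (XT.lf (nat_lit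 0) (nat_lit 58371570709) (nat_lit 76) (nat_lit 61966402908) (nat_lit 76) (nat_lit 57739585510) (nat_lit 1) (nat_lit 4) (nat_lit 2) (nat_lit 5) (nat_lit 2) (nat_lit 4) (nat_lit 367) (nat_lit 286) (nat_lit 247)) (XT.lf (nat_lit 0) (nat_lit 70734092857) (nat_lit 76) (nat_lit 62760504297) (nat_lit 76) (nat_lit 58517307475) (nat_lit 1) (nat_lit 4) (nat_lit 2) (nat_lit 5) (nat_lit 2) (nat_lit 4) (nat_lit 368) (nat_lit 286) (nat_lit 246)))) (XT.nd (nat_lit 156) (nat_lit 0) (nat_lit 0) (XT.nd (nat_lit 78) (nat_lit 0) (nat_lit 0) (XT.lf (nat_lit 0) (nat_lit 84035825375) (nat_lit 76) (nat_lit 63642776927) (nat_lit 76) (nat_lit 59384413970) (nat_lit 1) (nat_lit 4) (nat_lit 2) (nat_lit 5) (nat_lit 2) (nat_lit 4) (nat_lit 369) (nat_lit 286) (nat_lit 245)) (XT.lf (nat_lit 0) (nat_lit 98355593345) (nat_lit 76) (nat_lit 64618449079) (nat_lit 76) (nat_lit 60346043405) (nat_lit 1) (nat_lit 4) (nat_lit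 2) (nat_lit 5) (nat_lit 2) (nat_lit 4) (nat_lit 370) (nat_lit 286) (nat_lit 244))) (XT.nd (nat_lit 78) (nat_lit 0) (nat_lit 0) (XT.lf (nat_lit 0) (nat_lit 113778254650) (nat_lit 76) (nat_lit 65693302513) (nat_lit 76) (nat_lit 61407894323) (nat_lit 1) (nat_lit 4) (nat_lit 2) (nat_lit 5) (nat_lit 2) (nat_lit 4) (nat_lit 371) (nat_lit 286) (nat_lit 243)) (XT.nd (nat_lit 78) (nat_lit 0) (nat_lit 0) (XT.lf (nat_lit 0) (nat_lit 130395202840) (nat_lit 76) (nat_lit 66873706732) (nat_lit 76) (nat_lit 62576259176) (nat_lit 1) (nat_lit 4) (nat_lit 2) (nat_lit 5) (nat_lit 2) (nat_lit 4) (nat_lit 372) (nat_lit 286) (nat_lit 242)) (XT.lf (nat_lit 0) (nat_lit 148304908718) (nat_lit 76) (nat_lit 68166656724) (nat_lit 76) (nat_lit 63858061606) (nat_lit 1) (nat_lit 4) (nat_lit 2) (nat_lit 5) (nat_lit 2) (nat_lit 4) (nat_lit 373) (nat_lit 286) (nat_lit 241))))))))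
noncomputable def xc55 : XT := (XT.nd (nat_lit 1248) (nat_lit 0) (nat_lit 0) (XT.nd (nat_lit 624) (nat_lit 0) (nat_lit 0) (XT.nd (nat_lit 312) (nat_lit 0) (nat_lit 0) (XT.nd (nat_lit 156) (nat_lit 0) (nat_lit 0) (XT.nd (nat_lit 78) (nat_lit 0) (nat_lit 0) (XT.lf (nat_lit 0) (nat_lit 167613503874) (nat_lit 76) (nat_lit 69579814414) (nat_lit 76) (nat_lit 65260897480) (nat_lit 1) (nat_lit 4) (nat_lit 2) (nat_lit 5) (nat_lit 2) (nat_lit 4) (nat_lit 374) (nat_lit 286) (nat_lit 240)) (XT.lf (nat_lit 0) (nat_lit 188435409614) (nat_lit 76) (nat_lit 71121554070) (nat_lit 76) (nat_lit 66793079900) (nat_lit 1) (nat_lit 4) (nat_lit 2) (nat_lit 5) (nat_lit 2) (nat_lit 4) (nat_lit 375) (nat_lit 286) (nat_lit 239))) (XT.nd (nat_lit 78) (nat_lit 0) (nat_lit 0) (XT.lf (nat_lit 0) (nat_lit 210894015009) (nat_lit 76) (nat_lit 72801011928) (nat_lit 76) (nat_lit 68463688463) (nat_lit 1) (nat_lit 4) (nat_lit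 2) (nat_lit 5) (nat_lit 2) (nat_lit 4) (nat_lit 376) (nat_lit 286) (nat_lit 238)) (XT.lf (nat_lit 0) (nat_lit 235122408090) (nat_lit 76) (nat_lit 74628140330) (nat_lit 76) (nat_lit 70282623075) (nat_lit 1) (nat_lit 4) (nat_lit 2) (nat_lit 5) (nat_lit 2) (nat_lit 4) (nat_lit 377) (nat_lit 286) (nat_lit 237)))) (XT.nd (nat_lit 156) (nat_lit 0) (nat_lit 0) (XT.nd (nat_lit 78) (nat_lit 0) (nat_lit 0) (XT.lf (nat_lit 0) (nat_lit 261264164520) (nat_lit 76) (nat_lit 76613766703) (nat_lit 76) (nat_lit 72260662605) (nat_lit 1) (nat_lit 4) (nat_lit 2) (nat_lit 5) (nat_lit 2) (nat_lit 4) (nat_lit 378) (nat_lit 286) (nat_lit 236)) (XT.lf (nat_lit 0) (nat_lit 289474198412) (nat_lit 76) (nat_lit 78769657723) (nat_lit 76) (nat_lit 74409528771) (nat_lit 1) (nat_lit 4) (nat_lit 2) (nat_lit 5) (nat_lit 2) (nat_lit 4) (nat_lit 379) (nat_lit 286) (nat_lit 235))) (XT.nd (nat_lit 78) (nat_lit 0) (nat_lit 0)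 (XT.lf (nat_lit 0) (nat_lit 319919680336) (nat_lit 76) (nat_lit 81108589040) (nat_lit 76) (nat_lit 76741955593) (nat_lit 1) (nat_lit 4) (nat_lit 2) (nat_lit 5) (nat_lit 2) (nat_lit 4) (nat_lit 380) (nat_lit 286) (nat_lit 234)) (XT.lf (nat_lit 0) (nat_lit 352781027963) (nat_lit 76) (nat_lit 83644420988) (nat_lit 76) (nat_lit 79271764860) (nat_lit 1) (nat_lit 4) (nat_lit 2) (nat_lit 5) (nat_lit 2) (nat_lit 4) (nat_lit 381) (nat_lit 286) (nat_lit 233))))) (XT.nd (nat_lit 312) (nat_lit 0) (nat_lit 0) (XT.nd (nat_lit 156) (nat_lit 0) (nat_lit 0) (XT.nd (nat_lit 78) (nat_lit 0) (nat_lit 0) (XT.lf (nat_lit 0) (nat_lit 388252975205) (nat_lit 76) (nat_lit 86392180719) (nat_lit 76) (nat_lit 82013948035) (nat_lit 1) (nat_lit 4) (nat_lit 2) (nat_lit 5) (nat_lit 2) (nat_lit 4) (nat_lit 382) (nat_lit 286) (nat_lit 232)) (XT.lf (nat_lit 0) (nat_lit 426545726194) (nat_lit 76) (nat_lit 89368151253) (nat_lit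 76) (nat_lit 84984755091) (nat_lit 1) (nat_lit 4) (nat_lit 2) (nat_lit 5) (nat_lit 2) (nat_lit 4) (nat_lit 383) (nat_lit 286) (nat_lit 231))) (XT.nd (nat_lit 78) (nat_lit 0) (nat_lit 0) (XT.lf (nat_lit 0) (nat_lit 467886200936) (nat_lit 76) (nat_lit 92589967972) (nat_lit 76) (nat_lit 88201790812) (nat_lit 1) (nat_lit 4) (nat_lit 2) (nat_lit 5) (nat_lit 2) (nat_lit 4) (nat_lit 384) (nat_lit 286) (nat_lit 230)) (XT.lf (nat_lit 0) (nat_lit 512519380021) (nat_lit 76) (nat_lit 96076723123) (nat_lit 76) (nat_lit 91684119113) (nat_lit 1) (nat_lit 4) (nat_lit 2) (nat_lit 5) (nat_lit 2) (nat_lit 4) (nat_lit 385) (nat_lit 286) (nat_lit 229)))) (XT.nd (nat_lit 156) (nat_lit 0) (nat_lit 0) (XT.nd (nat_lit 78) (nat_lit 0) (nat_lit 0) (XT.lf (nat_lit 0) (nat_lit 560709756363) (nat_lit 76) (nat_lit 99849078958) (nat_lit 76) (nat_lit 95452376013) (nat_lit 1) (nat_lit 4) (nat_lit 2) (nat_lit 5) (nat_lit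 2) (nat_lit 4) (nat_lit 386) (nat_lit 286) (nat_lit 228)) (XT.lf (nat_lit 0) (nat_lit 612742902563) (nat_lit 76) (nat_lit 103929390180) (nat_lit 76) (nat_lit 99528891924) (nat_lit 1) (nat_lit 4) (nat_lit 2) (nat_lit 5) (nat_lit 2) (nat_lit 4) (nat_lit 387) (nat_lit 286) (nat_lit 227))) (XT.nd (nat_lit 78) (nat_lit 0) (nat_lit 0) (XT.lf (nat_lit 0) (nat_lit 668927163190) (nat_lit 76) (nat_lit 108341836409) (nat_lit 76) (nat_lit 103937823977) (nat_lit 1) (nat_lit 4) (nat_lit 2) (nat_lit 5) (nat_lit 2) (nat_lit 4) (nat_lit 388) (nat_lit 286) (nat_lit 226)) (XT.lf (nat_lit 0) (nat_lit 729595482012) (nat_lit 76) (nat_lit 113112565475) (nat_lit 76) (nat_lit 108705299176) (nat_lit 1) (nat_lit 4) (nat_lit 2) (nat_lit 5) (nat_lit 2) (nat_lit 4) (nat_lit 389) (nat_lit 286) (nat_lit 225)))))) (XT.nd (nat_lit 624) (nat_lit 0) (nat_lit 0) (XT.nd (nat_lit 312) (nat_lit 0) (nat_lit 0) (XT.nd (nat_lit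 156) (nat_lit 0) (nat_lit 0) (XT.nd (nat_lit 78) (nat_lit 0) (nat_lit 0) (XT.lf (nat_lit 0) (nat_lit 795107374991) (nat_lit 76) (nat_lit 118269848366) (nat_lit 76) (nat_lit 113859569227) (nat_lit 1) (nat_lit 4) (nat_lit 2) (nat_lit 5) (nat_lit 2) (nat_lit 4) (nat_lit 390) (nat_lit 286) (nat_lit 224)) (XT.lf (nat_lit 0) (nat_lit 865851060752) (nat_lit 76) (nat_lit 123844246757) (nat_lit 76) (nat_lit 119431177952) (nat_lit 1) (nat_lit 4) (nat_lit 2) (nat_lit 5) (nat_lit 2) (nat_lit 4) (nat_lit 391) (nat_lit 286) (nat_lit 223))) (XT.nd (nat_lit 78) (nat_lit 0) (nat_lit 0) (XT.lf (nat_lit 0) (nat_lit 942245761138) (nat_lit 76) (nat_lit 129868794122) (nat_lit 76) (nat_lit 125453142292) (nat_lit 1) (nat_lit 4) (nat_lit 2) (nat_lit 5) (nat_lit 2) (nat_lit 4) (nat_lit 392) (nat_lit 286) (nat_lit 222)) (XT.lf (nat_lit 0) (nat_lit 1024744185483) (nat_lit 76) (nat_lit 136379191480) (nat_lit 76)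 (nat_lit 131961147961) (nat_lit 1) (nat_lit 4) (nat_lit 2) (nat_lit 5) (nat_lit 2) (nat_lit 4) (nat_lit 393) (nat_lit 286) (nat_lit 221)))) (XT.nd (nat_lit 156) (nat_lit 0) (nat_lit 0) (XT.nd (nat_lit 78) (nat_lit 0) (nat_lit 0) (XT.lf (nat_lit 0) (nat_lit 1113835213340) (nat_lit 76) (nat_lit 143414018965) (nat_lit 76) (nat_lit 138993760919) (nat_lit 1) (nat_lit 4) (nat_lit 2) (nat_lit 5) (nat_lit 2) (nat_lit 4) (nat_lit 394) (nat_lit 286) (nat_lit 220)) (XT.lf (nat_lit 0) (nat_lit 1210046791540) (nat_lit 76) (nat_lit 151014964444) (nat_lit 76) (nat_lit 146592655910) (nat_lit 1) (nat_lit 4) (nat_lit 2) (nat_lit 5) (nat_lit 2) (nat_lit 4) (nat_lit 395) (nat_lit 286) (nat_lit 219))) (XT.nd (nat_lit 78) (nat_lit 0) (nat_lit 0) (XT.lf (nat_lit 0) (nat_lit 1313949062769) (nat_lit 76) (nat_lit 159227070555) (nat_lit 76) (nat_lit 154802863421) (nat_lit 1) (nat_lit 4) (nat_lit 2) (nat_lit 5)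 (nat_lit 2) (nat_lit 4) (nat_lit 396) (nat_lit 286) (nat_lit 218)) (XT.lf (nat_lit 0) (nat_lit 1426157744190) (nat_lit 76) (nat_lit 168099001633) (nat_lit 76) (nat_lit 163673036535) (nat_lit 1) (nat_lit 4) (nat_lit 2) (nat_lit 5) (nat_lit 2) (nat_lit 4) (nat_lit 397) (nat_lit 286) (nat_lit 217))))) (XT.nd (nat_lit 312) (nat_lit 0) (nat_lit 0) (XT.nd (nat_lit 156) (nat_lit 0) (nat_lit 0) (XT.nd (nat_lit 78) (nat_lit 0) (nat_lit 0) (XT.lf (nat_lit 0) (nat_lit 1547337776136) (nat_lit 76) (nat_lit 177683332082) (nat_lit 76) (nat_lit 173255739241) (nat_lit 1) (nat_lit 4) (nat_lit 2) (nat_lit 5) (nat_lit 2) (nat_lit 4) (nat_lit 398) (nat_lit 286) (nat_lit 216)) (XT.lf (nat_lit 0) (nat_lit 1678207262502) (nat_lit 76) (nat_lit 188036857936) (nat_lit 76) (nat_lit 183607757925) (nat_lit 1) (nat_lit 4) (nat_lit 2) (nat_lit 5) (nat_lit 2) (nat_lit 4) (nat_lit 399) (nat_lit 286) (nat_lit 215))) (XT.nd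 (nat_lit 78) (nat_lit 0) (nat_lit 0) (XT.lf (nat_lit 0) (nat_lit 1819541726169) (nat_lit 76) (nat_lit 199220933421) (nat_lit 76) (nat_lit 194790437882) (nat_lit 1) (nat_lit 4) (nat_lit 2) (nat_lit 5) (nat_lit 2) (nat_lit 4) (nat_lit 400) (nat_lit 286) (nat_lit 214)) (XT.lf (nat_lit 0) (nat_lit 1972178704699) (nat_lit 76) (nat_lit 211301834540) (nat_lit 76) (nat_lit 206870046846) (nat_lit 1) (nat_lit 4) (nat_lit 2) (nat_lit 5) (nat_lit 2) (nat_lit 4) (nat_lit 401) (nat_lit 286) (nat_lit 213)))) (XT.nd (nat_lit 156) (nat_lit 0) (nat_lit 0) (XT.nd (nat_lit 78) (nat_lit 0) (nat_lit 0) (XT.lf (nat_lit 0) (nat_lit 2137022713521) (nat_lit 76) (nat_lit 224351151820) (nat_lit 76) (nat_lit 219918167686) (nat_lit 1) (nat_lit 4) (nat_lit 2) (nat_lit 5) (nat_lit 2) (nat_lit 4) (nat_lit 402) (nat_lit 286) (nat_lit 212)) (XT.lf (nat_lit 0) (nat_lit 2315050606021) (nat_lit 76) (nat_lit 238446214546)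 (nat_lit 76) (nat_lit 234012122597) (nat_lit 1) (nat_lit 4) (nat_lit 2) (nat_lit 5) (nat_lit 2) (nat_lit 4) (nat_lit 403) (nat_lit 286) (nat_lit 211))) (XT.nd (nat_lit 78) (nat_lit 0) (nat_lit 0) (XT.lf (nat_lit 0) (nat_lit 2507317362303) (nat_lit 76) (nat_lit 253670549017) (nat_lit 76) (nat_lit 249235431314) (nat_lit 1) (nat_lit 4) (nat_lit 2) (nat_lit 5) (nat_lit 2) (nat_lit 4) (nat_lit 404) (nat_lit 286) (nat_lit 210)) (XT.nd (nat_lit 78) (nat_lit 0) (nat_lit 0) (XT.lf (nat_lit 0) (nat_lit 2714962340921) (nat_lit 76) (nat_lit 270114373512) (nat_lit 76) (nat_lit 265678306036) (nat_lit 1) (nat_lit 4) (nat_lit 2) (nat_lit 5) (nat_lit 2) (nat_lit 4) (nat_lit 405) (nat_lit 286) (nat_lit 209)) (XT.lf (nat_lit 0) (nat_lit 2939216030639) (nat_lit 76) (nat_lit 287875132915) (nat_lit 76) (nat_lit 283438186020) (nat_lit 1) (nat_lit 4) (nat_lit 2) (nat_lit 5) (nat_lit 2) (nat_lit 4) (nat_lit 406)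 (nat_lit 286) (nat_lit 208))))))))
noncomputable def xc56 : XT := (XT.nd (nat_lit 41418) (nat_lit 0) (nat_lit 76) (XT.nd (nat_lit 40794) (nat_lit 0) (nat_lit 684) (XT.nd (nat_lit 312) (nat_lit 0) (nat_lit 0) (XT.nd (nat_lit 156) (nat_lit 0) (nat_lit 0) (XT.nd (nat_lit 78) (nat_lit 0) (nat_lit 0) (XT.lf (nat_lit 0) (nat_lit 3181407342210) (nat_lit 76) (nat_lit 307058076172) (nat_lit 76) (nat_lit 302620315000) (nat_lit 1) (nat_lit 4) (nat_lit 2) (nat_lit 5) (nat_lit 2) (nat_lit 4) (nat_lit 407) (nat_lit 286) (nat_lit 207)) (XT.lf (nat_lit 0) (nat_lit 3442971483406) (nat_lit 76) (nat_lit 327776879984) (nat_lit 76) (nat_lit 323338364852) (nat_lit 1) (nat_lit 4) (nat_lit 2) (nat_lit 5) (nat_lit 2) (nat_lit 4) (nat_lit 408) (nat_lit 286) (nat_lit 206))) (XT.nd (nat_lit 78) (nat_lit 0) (nat_lit 0) (XT.lf (nat_lit 0) (nat_lit 3725458463953) (nat_lit 76) (nat_lit 350154322447) (nat_lit 76) (nat_lit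 345715109203) (nat_lit 1) (nat_lit 4) (nat_lit 2) (nat_lit 5) (nat_lit 2) (nat_lit 4) (nat_lit 409) (nat_lit 286) (nat_lit 205)) (XT.lf (nat_lit 0) (nat_lit 4030542280773) (nat_lit 76) (nat_lit 374323010628) (nat_lit 76) (nat_lit 369883150984) (nat_lit 1) (nat_lit 4) (nat_lit 2) (nat_lit 5) (nat_lit 2) (nat_lit 4) (nat_lit 410) (nat_lit 286) (nat_lit 204)))) (XT.nd (nat_lit 40326) (nat_lit 0) (nat_lit 1140) (XT.nd (nat_lit 40248) (nat_lit 0) (nat_lit 1216) (XT.lf (nat_lit 0) (nat_lit 4360030837965) (nat_lit 76) (nat_lit 400426166381) (nat_lit 76) (nat_lit 395985708220) (nat_lit 1) (nat_lit 4) (nat_lit 2) (nat_lit 5) (nat_lit 2) (nat_lit 4) (nat_lit 411) (nat_lit 286) (nat_lit 203)) (XT.lf (nat_lit 0) (nat_lit 71788291) (nat_lit 152) (nat_lit 6017512531) (nat_lit 0) (nat_lit 71788291) (nat_lit 17) (nat_lit 5) (nat_lit 19) (nat_lit 4) (nat_lit 17) (nat_lit 4) (nat_lit 326) (nat_lit 287)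 (nat_lit 287))) (XT.nd (nat_lit 78) (nat_lit 76) (nat_lit 0) (XT.lf (nat_lit 0) (nat_lit 4887664333) (nat_lit 152) (nat_lit 3627335352) (nat_lit 0) (nat_lit 4364825726) (nat_lit 17) (nat_lit 5) (nat_lit 19) (nat_lit 4) (nat_lit 17) (nat_lit 4) (nat_lit 327) (nat_lit 287) (nat_lit 286)) (XT.lf (nat_lit 0) (nat_lit 5259171746) (nat_lit 76) (nat_lit 4620308428) (nat_lit 76) (nat_lit 3613359999) (nat_lit 16) (nat_lit 4) (nat_lit 17) (nat_lit 5) (nat_lit 17) (nat_lit 4) (nat_lit 328) (nat_lit 287) (nat_lit 285))))) (XT.nd (nat_lit 312) (nat_lit 228) (nat_lit 0) (XT.nd (nat_lit 156) (nat_lit 76) (nat_lit 0) (XT.nd (nat_lit 78) (nat_lit 0) (nat_lit 0) (XT.lf (nat_lit 0) (nat_lit 450022914) (nat_lit 76) (nat_lit 465948805) (nat_lit 152) (nat_lit 13248476104) (nat_lit 14) (nat_lit 5) (nat_lit 15) (nat_lit 5) (nat_lit 16) (nat_lit 4) (nat_lit 329) (nat_lit 287) (nat_lit 284)) (XT.lf (nat_lit 0)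 (nat_lit 5687023093) (nat_lit 152) (nat_lit 5234138534) (nat_lit 0) (nat_lit 3955315309) (nat_lit 14) (nat_lit 5) (nat_lit 16) (nat_lit 4) (nat_lit 14) (nat_lit 4) (nat_lit 330) (nat_lit 287) (nat_lit 283))) (XT.nd (nat_lit 78) (nat_lit 0) (nat_lit 0) (XT.lf (nat_lit 0) (nat_lit 3667574317) (nat_lit 76) (nat_lit 7038157450) (nat_lit 76) (nat_lit 4950614496) (nat_lit 13) (nat_lit 4) (nat_lit 14) (nat_lit 5) (nat_lit 14) (nat_lit 4) (nat_lit 331) (nat_lit 287) (nat_lit 282)) (XT.lf (nat_lit 0) (nat_lit 13161578081) (nat_lit 76) (nat_lit 2880451899) (nat_lit 76) (nat_lit 463431934) (nat_lit 13) (nat_lit 4) (nat_lit 14) (nat_lit 5) (nat_lit 14) (nat_lit 4) (nat_lit 332) (nat_lit 287) (nat_lit 281)))) (XT.nd (nat_lit 156) (nat_lit 76) (nat_lit 0) (XT.nd (nat_lit 78) (nat_lit 0) (nat_lit 0) (XT.lf (nat_lit 0) (nat_lit 4127340883) (nat_lit 152) (nat_lit 11682862607) (nat_lit 0) (nat_lit 1606886003)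 (nat_lit 11) (nat_lit 5) (nat_lit 13) (nat_lit 4) (nat_lit 11) (nat_lit 4) (nat_lit 333) (nat_lit 287) (nat_lit 280)) (XT.lf (nat_lit 0) (nat_lit 9015520588) (nat_lit 152) (nat_lit 3155347361) (nat_lit 0) (nat_lit 6233516235) (nat_lit 11) (nat_lit 5) (nat_lit 13) (nat_lit 4) (nat_lit 11) (nat_lit 4) (nat_lit 334) (nat_lit 287) (nat_lit 279))) (XT.nd (nat_lit 78) (nat_lit 0) (nat_lit 0) (XT.lf (nat_lit 0) (nat_lit 5982780211) (nat_lit 76) (nat_lit 8258233646) (nat_lit 76) (nat_lit 5234053855) (nat_lit 10) (nat_lit 4) (nat_lit 11) (nat_lit 5) (nat_lit 11) (nat_lit 4) (nat_lit 335) (nat_lit 287) (nat_lit 278)) (XT.lf (nat_lit 0) (nat_lit 15669922763) (nat_lit 76) (nat_lit 4109215153) (nat_lit 76) (nat_lit 860798844) (nat_lit 10) (nat_lit 4) (nat_lit 11) (nat_lit 5) (nat_lit 11) (nat_lit 4) (nat_lit 336) (nat_lit 287) (nat_lit 277)))))) (XT.nd (nat_lit 624) (nat_lit 228) (nat_lit 0) (XT.nd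 (nat_lit 312) (nat_lit 152) (nat_lit 0) (XT.nd (nat_lit 156) (nat_lit 76) (nat_lit 0) (XT.nd (nat_lit 78) (nat_lit 0) (nat_lit 0) (XT.lf (nat_lit 0) (nat_lit 3592997788) (nat_lit 152) (nat_lit 17910781147) (nat_lit 0) (nat_lit 392958239) (nat_lit 8) (nat_lit 5) (nat_lit 10) (nat_lit 4) (nat_lit 8) (nat_lit 4) (nat_lit 337) (nat_lit 287) (nat_lit 276)) (XT.lf (nat_lit 0) (nat_lit 8422165245) (nat_lit 152) (nat_lit 9780840285) (nat_lit 0) (nat_lit 5044119520) (nat_lit 8) (nat_lit 5) (nat_lit 10) (nat_lit 4) (nat_lit 8) (nat_lit 4) (nat_lit 338) (nat_lit 287) (nat_lit 275))) (XT.nd (nat_lit 78) (nat_lit 76) (nat_lit 0) (XT.lf (nat_lit 0) (nat_lit 13470463465) (nat_lit 152) (nat_lit 1320931636) (nat_lit 0) (nat_lit 9927597205) (nat_lit 8) (nat_lit 5) (nat_lit 10) (nat_lit 4) (nat_lit 8) (nat_lit 4) (nat_lit 339) (nat_lit 287) (nat_lit 274)) (XT.lf (nat_lit 0) (nat_lit 7915018892) (nat_lit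 76) (nat_lit 11043145791) (nat_lit 76) (nat_lit 7347667926) (nat_lit 7) (nat_lit 4) (nat_lit 8) (nat_lit 5) (nat_lit 8) (nat_lit 4) (nat_lit 340) (nat_lit 287) (nat_lit 273)))) (XT.nd (nat_lit 156) (nat_lit 76) (nat_lit 0) (XT.nd (nat_lit 78) (nat_lit 76) (nat_lit 0) (XT.lf (nat_lit 0) (nat_lit 17675787095) (nat_lit 76) (nat_lit 7094907396) (nat_lit 76) (nat_lit 3258122489) (nat_lit 7) (nat_lit 4) (nat_lit 8) (nat_lit 5) (nat_lit 8) (nat_lit 4) (nat_lit 341) (nat_lit 287) (nat_lit 272)) (XT.lf (nat_lit 0) (nat_lit 957789690) (nat_lit 152) (nat_lit 1975422204) (nat_lit 76) (nat_lit 26965679286) (nat_lit 6) (nat_lit 5) (nat_lit 8) (nat_lit 5) (nat_lit 7) (nat_lit 4) (nat_lit 342) (nat_lit 287) (nat_lit 271))) (XT.nd (nat_lit 78) (nat_lit 0) (nat_lit 0) (XT.lf (nat_lit 0) (nat_lit 5414371060) (nat_lit 152) (nat_lit 24862655327) (nat_lit 0) (nat_lit 1628470343) (nat_lit 5) (nat_lit 5) (nat_lit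 7) (nat_lit 4) (nat_lit 5) (nat_lit 4) (nat_lit 343) (nat_lit 287) (nat_lit 270)) (XT.lf (nat_lit 0) (nat_lit 10227755459) (nat_lit 152) (nat_lit 17506908755) (nat_lit 0) (nat_lit 6337989849) (nat_lit 5) (nat_lit 5) (nat_lit 7) (nat_lit 4) (nat_lit 5) (nat_lit 4) (nat_lit 344) (nat_lit 287) (nat_lit 269))))) (XT.nd (nat_lit 312) (nat_lit 152) (nat_lit 0) (XT.nd (nat_lit 156) (nat_lit 76) (nat_lit 0) (XT.nd (nat_lit 78) (nat_lit 0) (nat_lit 0) (XT.lf (nat_lit 0) (nat_lit 15304613164) (nat_lit 152) (nat_lit 9799664352) (nat_lit 0) (nat_lit 11318676355) (nat_lit 5) (nat_lit 5) (nat_lit 7) (nat_lit 4) (nat_lit 5) (nat_lit 4) (nat_lit 345) (nat_lit 287) (nat_lit 268)) (XT.lf (nat_lit 0) (nat_lit 20675029257) (nat_lit 152) (nat_lit 1695249557) (nat_lit 0) (nat_lit 16600045041) (nat_lit 5) (nat_lit 5) (nat_lit 7) (nat_lit 4) (nat_lit 5) (nat_lit 4) (nat_lit 346) (nat_lit 287) (nat_lit 267)))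 (XT.nd (nat_lit 78) (nat_lit 0) (nat_lit 0) (XT.lf (nat_lit 0) (nat_lit 7215300334) (nat_lit 76) (nat_lit 19329056237) (nat_lit 76) (nat_lit 15171620720) (nat_lit 4) (nat_lit 4) (nat_lit 5) (nat_lit 5) (nat_lit 5) (nat_lit 4) (nat_lit 347) (nat_lit 287) (nat_lit 266)) (XT.lf (nat_lit 0) (nat_lit 16737091137) (nat_lit 76) (nat_lit 16091199860) (nat_lit 76) (nat_lit 11857420545) (nat_lit 4) (nat_lit 4) (nat_lit 5) (nat_lit 5) (nat_lit 5) (nat_lit 4) (nat_lit 348) (nat_lit 287) (nat_lit 265)))) (XT.nd (nat_lit 156) (nat_lit 152) (nat_lit 0) (XT.nd (nat_lit 78) (nat_lit 0) (nat_lit 0) (XT.lf (nat_lit 0) (nat_lit 26837279440) (nat_lit 76) (nat_lit 12683873513) (nat_lit 76) (nat_lit 8379405496) (nat_lit 4) (nat_lit 4) (nat_lit 5) (nat_lit 5) (nat_lit 5) (nat_lit 4) (nat_lit 349) (nat_lit 287) (nat_lit 264)) (XT.lf (nat_lit 0) (nat_lit 37575718212) (nat_lit 76) (nat_lit 9086885633) (nat_lit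 76) (nat_lit 4716965115) (nat_lit 4) (nat_lit 4) (nat_lit 5) (nat_lit 5) (nat_lit 5) (nat_lit 4) (nat_lit 350) (nat_lit 287) (nat_lit 263))) (XT.nd (nat_lit 78) (nat_lit 152) (nat_lit 0) (XT.lf (nat_lit 0) (nat_lit 49016042644) (nat_lit 76) (nat_lit 5278920736) (nat_lit 76) (nat_lit 848396049) (nat_lit 4) (nat_lit 4) (nat_lit 5) (nat_lit 5) (nat_lit 5) (nat_lit 4) (nat_lit 351) (nat_lit 287) (nat_lit 262)) (XT.lf (nat_lit 0) (nat_lit 2035493078) (nat_lit 76) (nat_lit 1100147660) (nat_lit 152) (nat_lit 56068425254) (nat_lit 2) (nat_lit 5) (nat_lit 3) (nat_lit 5) (nat_lit 4) (nat_lit 4) (nat_lit 352) (nat_lit 287) (nat_lit 261)))))))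
noncomputable def xc57 : XT := (XT.nd (nat_lit 1248) (nat_lit 0) (nat_lit 0) (XT.nd (nat_lit 624) (nat_lit 76) (nat_lit 0) (XT.nd (nat_lit 312) (nat_lit 0) (nat_lit 0) (XT.nd (nat_lit 156) (nat_lit 0) (nat_lit 0) (XT.nd (nat_lit 78) (nat_lit 0) (nat_lit 0) (XT.lf (nat_lit 0) (nat_lit 7570553249) (nat_lit 152) (nat_lit 52634947205) (nat_lit 0) (nat_lit 3368147726) (nat_lit 2) (nat_lit 5) (nat_lit 4) (nat_lit 4) (nat_lit 2) (nat_lit 4) (nat_lit 353) (nat_lit 287) (nat_lit 260)) (XT.lf (nat_lit 0) (nat_lit 12318485919) (nat_lit 152) (nat_lit 47906137823) (nat_lit 0) (nat_lit 8071534524) (nat_lit 2) (nat_lit 5) (nat_lit 4) (nat_lit 4) (nat_lit 2) (nat_lit 4) (nat_lit 354) (nat_lit 287) (nat_lit 259))) (XT.nd (nat_lit 78) (nat_lit 0) (nat_lit 0) (XT.lf (nat_lit 0) (nat_lit 17381116069) (nat_lit 152) (nat_lit 42927663619) (nat_lit 0) (nat_lit 13092918495) (nat_lit 2) (nat_lit 5) (nat_lit 4)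 (nat_lit 4) (nat_lit 2) (nat_lit 4) (nat_lit 355) (nat_lit 287) (nat_lit 258)) (XT.lf (nat_lit 0) (nat_lit 22788444470) (nat_lit 152) (nat_lit 37670022522) (nat_lit 0) (nat_lit 18462055990) (nat_lit 2) (nat_lit 5) (nat_lit 4) (nat_lit 4) (nat_lit 2) (nat_lit 4) (nat_lit 356) (nat_lit 287) (nat_lit 257)))) (XT.nd (nat_lit 156) (nat_lit 0) (nat_lit 0) (XT.nd (nat_lit 78) (nat_lit 0) (nat_lit 0) (XT.lf (nat_lit 0) (nat_lit 28572514549) (nat_lit 152) (nat_lit 32102058141) (nat_lit 0) (nat_lit 24210764119) (nat_lit 2) (nat_lit 5) (nat_lit 4) (nat_lit 4) (nat_lit 2) (nat_lit 4) (nat_lit 357) (nat_lit 287) (nat_lit 256)) (XT.lf (nat_lit 0) (nat_lit 34767602277) (nat_lit 152) (nat_lit 26190775131) (nat_lit 0) (nat_lit 30373109301) (nat_lit 2) (nat_lit 5) (nat_lit 4) (nat_lit 4) (nat_lit 2) (nat_lit 4) (nat_lit 358) (nat_lit 287) (nat_lit 255))) (XT.nd (nat_lit 78) (nat_lit 0) (nat_lit 0) (XT.lf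 (nat_lit 0) (nat_lit 41410419286) (nat_lit 152) (nat_lit 19901143667) (nat_lit 0) (nat_lit 36985609137) (nat_lit 2) (nat_lit 5) (nat_lit 4) (nat_lit 4) (nat_lit 2) (nat_lit 4) (nat_lit 359) (nat_lit 287) (nat_lit 254)) (XT.lf (nat_lit 0) (nat_lit 48540330416) (nat_lit 152) (nat_lit 13195891859) (nat_lit 0) (nat_lit 44087448811) (nat_lit 2) (nat_lit 5) (nat_lit 4) (nat_lit 4) (nat_lit 2) (nat_lit 4) (nat_lit 360) (nat_lit 287) (nat_lit 253))))) (XT.nd (nat_lit 312) (nat_lit 0) (nat_lit 0) (XT.nd (nat_lit 156) (nat_lit 0) (nat_lit 0) (XT.nd (nat_lit 78) (nat_lit 76) (nat_lit 0) (XT.lf (nat_lit 0) (nat_lit 56199586994) (nat_lit 152) (nat_lit 6035284881) (nat_lit 0) (nat_lit 51720713300) (nat_lit 2) (nat_lit 5) (nat_lit 4) (nat_lit 4) (nat_lit 2) (nat_lit 4) (nat_lit 361) (nat_lit 287) (nat_lit 252)) (XT.lf (nat_lit 0) (nat_lit 1708580614) (nat_lit 76) (nat_lit 62766087995) (nat_lit 76) (nat_lit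 58263147552) (nat_lit 1) (nat_lit 4) (nat_lit 2) (nat_lit 5) (nat_lit 2) (nat_lit 4) (nat_lit 362) (nat_lit 287) (nat_lit 251))) (XT.nd (nat_lit 78) (nat_lit 0) (nat_lit 0) (XT.lf (nat_lit 0) (nat_lit 10342027444) (nat_lit 76) (nat_lit 63197793631) (nat_lit 76) (nat_lit 58672569161) (nat_lit 1) (nat_lit 4) (nat_lit 2) (nat_lit 5) (nat_lit 2) (nat_lit 4) (nat_lit 363) (nat_lit 287) (nat_lit 250)) (XT.lf (nat_lit 0) (nat_lit 19598409368) (nat_lit 76) (nat_lit 63697562422) (nat_lit 76) (nat_lit 59151704594) (nat_lit 1) (nat_lit 4) (nat_lit 2) (nat_lit 5) (nat_lit 2) (nat_lit 4) (nat_lit 364) (nat_lit 287) (nat_lit 249)))) (XT.nd (nat_lit 156) (nat_lit 0) (nat_lit 0) (XT.nd (nat_lit 78) (nat_lit 0) (nat_lit 0) (XT.lf (nat_lit 0) (nat_lit 29532579019) (nat_lit 76) (nat_lit 64268355960) (nat_lit 76) (nat_lit 59703393171) (nat_lit 1) (nat_lit 4) (nat_lit 2) (nat_lit 5) (nat_lit 2) (nat_lit 4)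 (nat_lit 365) (nat_lit 287) (nat_lit 248)) (XT.lf (nat_lit 0) (nat_lit 40203405551) (nat_lit 76) (nat_lit 64913556727) (nat_lit 76) (nat_lit 60330904159) (nat_lit 1) (nat_lit 4) (nat_lit 2) (nat_lit 5) (nat_lit 2) (nat_lit 4) (nat_lit 366) (nat_lit 287) (nat_lit 247))) (XT.nd (nat_lit 78) (nat_lit 0) (nat_lit 0) (XT.lf (nat_lit 0) (nat_lit 51674123492) (nat_lit 76) (nat_lit 65636988134) (nat_lit 76) (nat_lit 61037956140) (nat_lit 1) (nat_lit 4) (nat_lit 2) (nat_lit 5) (nat_lit 2) (nat_lit 4) (nat_lit 367) (nat_lit 287) (nat_lit 246)) (XT.lf (nat_lit 0) (nat_lit 64012707466) (nat_lit 76) (nat_lit 66442937182) (nat_lit 76) (nat_lit 61828739054) (nat_lit 1) (nat_lit 4) (nat_lit 2) (nat_lit 5) (nat_lit 2) (nat_lit 4) (nat_lit 368) (nat_lit 287) (nat_lit 245)))))) (XT.nd (nat_lit 624) (nat_lit 0) (nat_lit 0) (XT.nd (nat_lit 312) (nat_lit 0) (nat_lit 0) (XT.nd (nat_lit 156) (nat_lit 0) (nat_lit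 0) (XT.nd (nat_lit 78) (nat_lit 0) (nat_lit 0) (XT.lf (nat_lit 0) (nat_lit 77292275008) (nat_lit 76) (nat_lit 67336179865) (nat_lit 76) (nat_lit 62707939020) (nat_lit 1) (nat_lit 4) (nat_lit 2) (nat_lit 5) (nat_lit 2) (nat_lit 4) (nat_lit 369) (nat_lit 287) (nat_lit 244)) (XT.lf (nat_lit 0) (nat_lit 91591519852) (nat_lit 76) (nat_lit 68322009474) (nat_lit 76) (nat_lit 63680766113) (nat_lit 1) (nat_lit 4) (nat_lit 2) (nat_lit 5) (nat_lit 2) (nat_lit 4) (nat_lit 370) (nat_lit 287) (nat_lit 243))) (XT.nd (nat_lit 78) (nat_lit 0) (nat_lit 0) (XT.lf (nat_lit 0) (nat_lit 106995178263) (nat_lit 76) (nat_lit 69406267961) (nat_lit 76) (nat_lit 64752985234) (nat_lit 1) (nat_lit 4) (nat_lit 2) (nat_lit 5) (nat_lit 2) (nat_lit 4) (nat_lit 371) (nat_lit 287) (nat_lit 242)) (XT.lf (nat_lit 0) (nat_lit 123594531180) (nat_lit 76) (nat_lit 70595380562) (nat_lit 76) (nat_lit 65930950274) (nat_lit 1) (nat_lit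 4) (nat_lit 2) (nat_lit 5) (nat_lit 2) (nat_lit 4) (nat_lit 372) (nat_lit 287) (nat_lit 241)))) (XT.nd (nat_lit 156) (nat_lit 0) (nat_lit 0) (XT.nd (nat_lit 78) (nat_lit 0) (nat_lit 0) (XT.lf (nat_lit 0) (nat_lit 141487945139) (nat_lit 76) (nat_lit 71896393871) (nat_lit 76) (nat_lit 67221641766) (nat_lit 1) (nat_lit 4) (nat_lit 2) (nat_lit 5) (nat_lit 2) (nat_lit 4) (nat_lit 373) (nat_lit 287) (nat_lit 240)) (XT.lf (nat_lit 0) (nat_lit 160781455186) (nat_lit 76) (nat_lit 73317017595) (nat_lit 76) (nat_lit 68632708254) (nat_lit 1) (nat_lit 4) (nat_lit 2) (nat_lit 5) (nat_lit 2) (nat_lit 4) (nat_lit 374) (nat_lit 287) (nat_lit 239))) (XT.nd (nat_lit 78) (nat_lit 0) (nat_lit 0) (XT.lf (nat_lit 0) (nat_lit 181589393231) (nat_lit 76) (nat_lit 74865670246) (nat_lit 76) (nat_lit 70172511611) (nat_lit 1) (nat_lit 4) (nat_lit 2) (nat_lit 5) (nat_lit 2) (nat_lit 4) (nat_lit 375) (nat_lit 287) (nat_lit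 238)) (XT.lf (nat_lit 0) (nat_lit 204035065575) (nat_lit 76) (nat_lit 76551529025) (nat_lit 76) (nat_lit 71850176599) (nat_lit 1) (nat_lit 4) (nat_lit 2) (nat_lit 5) (nat_lit 2) (nat_lit 4) (nat_lit 376) (nat_lit 287) (nat_lit 237))))) (XT.nd (nat_lit 312) (nat_lit 0) (nat_lit 0) (XT.nd (nat_lit 156) (nat_lit 0) (nat_lit 0) (XT.nd (nat_lit 78) (nat_lit 0) (nat_lit 0) (XT.lf (nat_lit 0) (nat_lit 228251483609) (nat_lit 76) (nat_lit 78384584205) (nat_lit 76) (nat_lit 73675644936) (nat_lit 1) (nat_lit 4) (nat_lit 2) (nat_lit 5) (nat_lit 2) (nat_lit 4) (nat_lit 377) (nat_lit 287) (nat_lit 236)) (XT.lf (nat_lit 0) (nat_lit 254382152033) (nat_lit 76) (nat_lit 80375698337) (nat_lit 76) (nat_lit 75659734213) (nat_lit 1) (nat_lit 4) (nat_lit 2) (nat_lit 5) (nat_lit 2) (nat_lit 4) (nat_lit 378) (nat_lit 287) (nat_lit 235))) (XT.nd (nat_lit 78) (nat_lit 0) (nat_lit 0) (XT.lf (nat_lit 0) (nat_lit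 282581919252) (nat_lit 76) (nat_lit 82536670614) (nat_lit 76) (nat_lit 77814201996) (nat_lit 1) (nat_lit 4) (nat_lit 2) (nat_lit 5) (nat_lit 2) (nat_lit 4) (nat_lit 379) (nat_lit 287) (nat_lit 234)) (XT.lf (nat_lit 0) (nat_lit 313017894998) (nat_lit 76) (nat_lit 84880306799) (nat_lit 76) (nat_lit 80151815500) (nat_lit 1) (nat_lit 4) (nat_lit 2) (nat_lit 5) (nat_lit 2) (nat_lit 4) (nat_lit 380) (nat_lit 287) (nat_lit 233)))) (XT.nd (nat_lit 156) (nat_lit 0) (nat_lit 0) (XT.nd (nat_lit 78) (nat_lit 0) (nat_lit 0) (XT.lf (nat_lit 0) (nat_lit 345870440608) (nat_lit 76) (nat_lit 87420495106) (nat_lit 76) (nat_lit 82686427251) (nat_lit 1) (nat_lit 4) (nat_lit 2) (nat_lit 5) (nat_lit 2) (nat_lit 4) (nat_lit 381) (nat_lit 287) (nat_lit 232)) (XT.lf (nat_lit 0) (nat_lit 381334237835) (nat_lit 76) (nat_lit 90172288503) (nat_lit 76) (nat_lit 85433057170) (nat_lit 1) (nat_lit 4) (nat_lit 2) (nat_lit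 5) (nat_lit 2) (nat_lit 4) (nat_lit 382) (nat_lit 287) (nat_lit 231))) (XT.nd (nat_lit 78) (nat_lit 0) (nat_lit 0) (XT.lf (nat_lit 0) (nat_lit 419619442513) (nat_lit 76) (nat_lit 93151993913) (nat_lit 76) (nat_lit 88407981582) (nat_lit 1) (nat_lit 4) (nat_lit 2) (nat_lit 5) (nat_lit 2) (nat_lit 4) (nat_lit 383) (nat_lit 287) (nat_lit 230)) (XT.nd (nat_lit 78) (nat_lit 0) (nat_lit 0) (XT.lf (nat_lit 0) (nat_lit 460952929930) (nat_lit 76) (nat_lit 96377268850) (nat_lit 76) (nat_lit 91628829670) (nat_lit 1) (nat_lit 4) (nat_lit 2) (nat_lit 5) (nat_lit 2) (nat_lit 4) (nat_lit 384) (nat_lit 287) (nat_lit 229)) (XT.lf (nat_lit 0) (nat_lit 505579639270) (nat_lit 76) (nat_lit 99867226055) (nat_lit 76) (nat_lit 95114687939) (nat_lit 1) (nat_lit 4) (nat_lit 2) (nat_lit 5) (nat_lit 2) (nat_lit 4) (nat_lit 385) (nat_lit 287) (nat_lit 228))))))))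
noncomputable def xc58 : XT := (XT.nd (nat_lit 1248) (nat_lit 0) (nat_lit 0) (XT.nd (nat_lit 624) (nat_lit 0) (nat_lit 0) (XT.nd (nat_lit 312) (nat_lit 0) (nat_lit 0) (XT.nd (nat_lit 156) (nat_lit 0) (nat_lit 0) (XT.nd (nat_lit 78) (nat_lit 0) (nat_lit 0) (XT.lf (nat_lit 0) (nat_lit 553764025108) (nat_lit 76) (nat_lit 103642546756) (nat_lit 76) (nat_lit 98886213329) (nat_lit 1) (nat_lit 4) (nat_lit 2) (nat_lit 5) (nat_lit 2) (nat_lit 4) (nat_lit 386) (nat_lit 287) (nat_lit 227)) (XT.lf (nat_lit 0) (nat_lit 605791624544) (nat_lit 76) (nat_lit 107725603222) (nat_lit 76) (nat_lit 102965755619) (nat_lit 1) (nat_lit 4) (nat_lit 2) (nat_lit 5) (nat_lit 2) (nat_lit 4) (nat_lit 387) (nat_lit 287) (nat_lit 226))) (XT.nd (nat_lit 78) (nat_lit 0) (nat_lit 0) (XT.lf (nat_lit 0) (nat_lit 661970749278) (nat_lit 76) (nat_lit 112140591345) (nat_lit 76) (nat_lit 107377489875) (nat_lit 1) (nat_lit 4) (nat_lit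 2) (nat_lit 5) (nat_lit 2) (nat_lit 4) (nat_lit 388) (nat_lit 287) (nat_lit 225)) (XT.lf (nat_lit 0) (nat_lit 722634312644) (nat_lit 76) (nat_lit 116913674017) (nat_lit 76) (nat_lit 112147559707) (nat_lit 1) (nat_lit 4) (nat_lit 2) (nat_lit 5) (nat_lit 2) (nat_lit 4) (nat_lit 389) (nat_lit 287) (nat_lit 224)))) (XT.nd (nat_lit 156) (nat_lit 0) (nat_lit 0) (XT.nd (nat_lit 78) (nat_lit 0) (nat_lit 0) (XT.lf (nat_lit 0) (nat_lit 788141802423) (nat_lit 76) (nat_lit 122073136172) (nat_lit 76) (nat_lit 117304232196) (nat_lit 1) (nat_lit 4) (nat_lit 2) (nat_lit 5) (nat_lit 2) (nat_lit 4) (nat_lit 390) (nat_lit 287) (nat_lit 223)) (XT.lf (nat_lit 0) (nat_lit 858881411148) (nat_lit 76) (nat_lit 127649552400) (nat_lit 76) (nat_lit 122878065400) (nat_lit 1) (nat_lit 4) (nat_lit 2) (nat_lit 5) (nat_lit 2) (nat_lit 4) (nat_lit 391) (nat_lit 287) (nat_lit 222))) (XT.nd (nat_lit 78) (nat_lit 0) (nat_lit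 0) (XT.lf (nat_lit 0) (nat_lit 935272336499) (nat_lit 76) (nat_lit 133675968133) (nat_lit 76) (nat_lit 128902089443) (nat_lit 1) (nat_lit 4) (nat_lit 2) (nat_lit 5) (nat_lit 2) (nat_lit 4) (nat_lit 392) (nat_lit 287) (nat_lit 221)) (XT.lf (nat_lit 0) (nat_lit 1017767265443) (nat_lit 76) (nat_lit 140188095461) (nat_lit 76) (nat_lit 135412002244) (nat_lit 1) (nat_lit 4) (nat_lit 2) (nat_lit 5) (nat_lit 2) (nat_lit 4) (nat_lit 393) (nat_lit 287) (nat_lit 220))))) (XT.nd (nat_lit 312) (nat_lit 0) (nat_lit 0) (XT.nd (nat_lit 156) (nat_lit 0) (nat_lit 0) (XT.nd (nat_lit 78) (nat_lit 0) (nat_lit 0) (XT.lf (nat_lit 0) (nat_lit 1106855056816) (nat_lit 76) (nat_lit 147224524771) (nat_lit 76) (nat_lit 142446381066) (nat_lit 1) (nat_lit 4) (nat_lit 2) (nat_lit 5) (nat_lit 2) (nat_lit 4) (nat_lit 394) (nat_lit 287) (nat_lit 219)) (XT.lf (nat_lit 0) (nat_lit 1203063638272) (nat_lit 76) (nat_lit 154826953420)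 (nat_lit 76) (nat_lit 150046911115) (nat_lit 1) (nat_lit 4) (nat_lit 2) (nat_lit 5) (nat_lit 2) (nat_lit 4) (nat_lit 395) (nat_lit 287) (nat_lit 218))) (XT.nd (nat_lit 78) (nat_lit 0) (nat_lit 0) (XT.lf (nat_lit 0) (nat_lit 1306963134738) (nat_lit 76) (nat_lit 163040432837) (nat_lit 76) (nat_lit 158258632569) (nat_lit 1) (nat_lit 4) (nat_lit 2) (nat_lit 5) (nat_lit 2) (nat_lit 4) (nat_lit 396) (nat_lit 287) (nat_lit 217)) (XT.lf (nat_lit 0) (nat_lit 1419169246934) (nat_lit 76) (nat_lit 171913635494) (nat_lit 76) (nat_lit 167130207483) (nat_lit 1) (nat_lit 4) (nat_lit 2) (nat_lit 5) (nat_lit 2) (nat_lit 4) (nat_lit 397) (nat_lit 287) (nat_lit 216)))) (XT.nd (nat_lit 156) (nat_lit 0) (nat_lit 0) (XT.nd (nat_lit 78) (nat_lit 0) (nat_lit 0) (XT.lf (nat_lit 0) (nat_lit 1540346899969) (nat_lit 76) (nat_lit 181499143332) (nat_lit 76) (nat_lit 176714208151) (nat_lit 1) (nat_lit 4) (nat_lit 2)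 (nat_lit 5) (nat_lit 2) (nat_lit 4) (nat_lit 398) (nat_lit 287) (nat_lit 215)) (XT.lf (nat_lit 0) (nat_lit 1671214183638) (nat_lit 76) (nat_lit 191853759361) (nat_lit 76) (nat_lit 187067428651) (nat_lit 1) (nat_lit 4) (nat_lit 2) (nat_lit 5) (nat_lit 2) (nat_lit 4) (nat_lit 399) (nat_lit 287) (nat_lit 214))) (XT.nd (nat_lit 78) (nat_lit 0) (nat_lit 0) (XT.lf (nat_lit 0) (nat_lit 1812546607772) (nat_lit 76) (nat_lit 203038844267) (nat_lit 76) (nat_lit 198251221402) (nat_lit 1) (nat_lit 4) (nat_lit 2) (nat_lit 5) (nat_lit 2) (nat_lit 4) (nat_lit 400) (nat_lit 287) (nat_lit 213)) (XT.lf (nat_lit 0) (nat_lit 1965181697845) (nat_lit 76) (nat_lit 215120680035) (nat_lit 76) (nat_lit 210331860731) (nat_lit 1) (nat_lit 4) (nat_lit 2) (nat_lit 5) (nat_lit 2) (nat_lit 4) (nat_lit 401) (nat_lit 287) (nat_lit 212)))))) (XT.nd (nat_lit 624) (nat_lit 0) (nat_lit 0) (XT.nd (nat_lit 312) (nat_lit 0) (nat_lit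 0) (XT.nd (nat_lit 156) (nat_lit 0) (nat_lit 0) (XT.nd (nat_lit 78) (nat_lit 0) (nat_lit 0) (XT.lf (nat_lit 0) (nat_lit 2130023958096) (nat_lit 76) (nat_lit 228170862730) (nat_lit 76) (nat_lit 223380935611) (nat_lit 1) (nat_lit 4) (nat_lit 2) (nat_lit 5) (nat_lit 2) (nat_lit 4) (nat_lit 402) (nat_lit 287) (nat_lit 211)) (XT.lf (nat_lit 0) (nat_lit 2308050231549) (nat_lit 76) (nat_lit 242266726768) (nat_lit 76) (nat_lit 237475773893) (nat_lit 1) (nat_lit 4) (nat_lit 2) (nat_lit 5) (nat_lit 2) (nat_lit 4) (nat_lit 403) (nat_lit 287) (nat_lit 210))) (XT.nd (nat_lit 78) (nat_lit 0) (nat_lit 0) (XT.lf (nat_lit 0) (nat_lit 2500315488712) (nat_lit 76) (nat_lit 257491803194) (nat_lit 76) (nat_lit 252699900547) (nat_lit 1) (nat_lit 4) (nat_lit 2) (nat_lit 5) (nat_lit 2) (nat_lit 4) (nat_lit 404) (nat_lit 287) (nat_lit 209)) (XT.lf (nat_lit 0) (nat_lit 2707959079258) (nat_lit 76) (nat_lit 273936314683)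 (nat_lit 76) (nat_lit 269143532617) (nat_lit 1) (nat_lit 4) (nat_lit 2) (nat_lit 5) (nat_lit 2) (nat_lit 4) (nat_lit 405) (nat_lit 287) (nat_lit 208)))) (XT.nd (nat_lit 156) (nat_lit 0) (nat_lit 0) (XT.nd (nat_lit 78) (nat_lit 0) (nat_lit 0) (XT.lf (nat_lit 0) (nat_lit 2932211483724) (nat_lit 76) (nat_lit 291697710193) (nat_lit 76) (nat_lit 286904113850) (nat_lit 1) (nat_lit 4) (nat_lit 2) (nat_lit 5) (nat_lit 2) (nat_lit 4) (nat_lit 406) (nat_lit 287) (nat_lit 207)) (XT.lf (nat_lit 0) (nat_lit 3174401605246) (nat_lit 76) (nat_lit 310881242438) (nat_lit 76) (nat_lit 306086892134) (nat_lit 1) (nat_lit 4) (nat_lit 2) (nat_lit 5) (nat_lit 2) (nat_lit 4) (nat_lit 407) (nat_lit 287) (nat_lit 206))) (XT.nd (nat_lit 78) (nat_lit 0) (nat_lit 0) (XT.lf (nat_lit 0) (nat_lit 3435964644546) (nat_lit 76) (nat_lit 331600591608) (nat_lit 76) (nat_lit 326805543193) (nat_lit 1) (nat_lit 4) (nat_lit 2)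 (nat_lit 5) (nat_lit 2) (nat_lit 4) (nat_lit 408) (nat_lit 287) (nat_lit 205)) (XT.lf (nat_lit 0) (nat_lit 3718450604818) (nat_lit 76) (nat_lit 353978539033) (nat_lit 76) (nat_lit 349182844219) (nat_lit 1) (nat_lit 4) (nat_lit 2) (nat_lit 5) (nat_lit 2) (nat_lit 4) (nat_lit 409) (nat_lit 287) (nat_lit 204))))) (XT.nd (nat_lit 40326) (nat_lit 0) (nat_lit 988) (XT.nd (nat_lit 40170) (nat_lit 0) (nat_lit 1368) (XT.nd (nat_lit 78) (nat_lit 0) (nat_lit 0) (XT.lf (nat_lit 0) (nat_lit 4023533476940) (nat_lit 76) (nat_lit 378147694771) (nat_lit 76) (nat_lit 373351401438) (nat_lit 1) (nat_lit 4) (nat_lit 2) (nat_lit 5) (nat_lit 2) (nat_lit 4) (nat_lit 410) (nat_lit 287) (nat_lit 203)) (XT.lf (nat_lit 0) (nat_lit 4353021159411) (nat_lit 76) (nat_lit 404251283448) (nat_lit 76) (nat_lit 399454435932) (nat_lit 1) (nat_lit 4) (nat_lit 2) (nat_lit 5) (nat_lit 2) (nat_lit 4) (nat_lit 411) (nat_lit 287)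 (nat_lit 202))) (XT.nd (nat_lit 78) (nat_lit 152) (nat_lit 0) (XT.lf (nat_lit 0) (nat_lit 1631649471) (nat_lit 152) (nat_lit 2388557129) (nat_lit 0) (nat_lit 1631649471) (nat_lit 21) (nat_lit 5) (nat_lit 23) (nat_lit 4) (nat_lit 21) (nat_lit 4) (nat_lit 324) (nat_lit 288) (nat_lit 288)) (XT.lf (nat_lit 0) (nat_lit 3557585486) (nat_lit 152) (nat_lit 4423002824) (nat_lit 152) (nat_lit 3813163873) (nat_lit 19) (nat_lit 4) (nat_lit 21) (nat_lit 5) (nat_lit 21) (nat_lit 4) (nat_lit 325) (nat_lit 288) (nat_lit 287)))) (XT.nd (nat_lit 156) (nat_lit 228) (nat_lit 0) (XT.nd (nat_lit 78) (nat_lit 0) (nat_lit 0) (XT.lf (nat_lit 0) (nat_lit 46727738) (nat_lit 76) (nat_lit 540403216) (nat_lit 152) (nat_lit 11744846195) (nat_lit 17) (nat_lit 5) (nat_lit 18) (nat_lit 5) (nat_lit 19) (nat_lit 4) (nat_lit 326) (nat_lit 288) (nat_lit 286)) (XT.lf (nat_lit 0) (nat_lit 5194047891) (nat_lit 152) (nat_lit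 4084218211) (nat_lit 0) (nat_lit 3622433766) (nat_lit 17) (nat_lit 5) (nat_lit 19) (nat_lit 4) (nat_lit 17) (nat_lit 4) (nat_lit 327) (nat_lit 288) (nat_lit 285))) (XT.nd (nat_lit 78) (nat_lit 152) (nat_lit 0) (XT.lf (nat_lit 0) (nat_lit 4564135916) (nat_lit 76) (nat_lit 5490036163) (nat_lit 76) (nat_lit 3470172204) (nat_lit 16) (nat_lit 4) (nat_lit 17) (nat_lit 5) (nat_lit 17) (nat_lit 4) (nat_lit 328) (nat_lit 288) (nat_lit 284)) (XT.nd (nat_lit 78) (nat_lit 76) (nat_lit 0) (XT.lf (nat_lit 0) (nat_lit 926974795) (nat_lit 152) (nat_lit 506802528) (nat_lit 76) (nat_lit 12771981735) (nat_lit 15) (nat_lit 5) (nat_lit 17) (nat_lit 5) (nat_lit 16) (nat_lit 4) (nat_lit 329) (nat_lit 288) (nat_lit 283)) (XT.lf (nat_lit 0) (nat_lit 5548925289) (nat_lit 152) (nat_lit 6442322099) (nat_lit 0) (nat_lit 2938543727) (nat_lit 14) (nat_lit 5) (nat_lit 16) (nat_lit 4) (nat_lit 14) (nat_lit 4) (nat_lit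 330) (nat_lit 288) (nat_lit 282))))))))
noncomputable def xc59 : XT := (XT.nd (nat_lit 1248) (nat_lit 304) (nat_lit 0) (XT.nd (nat_lit 624) (nat_lit 228) (nat_lit 0) (XT.nd (nat_lit 312) (nat_lit 228) (nat_lit 0) (XT.nd (nat_lit 156) (nat_lit 152) (nat_lit 0) (XT.nd (nat_lit 78) (nat_lit 0) (nat_lit 0) (XT.lf (nat_lit 0) (nat_lit 2195040998) (nat_lit 76) (nat_lit 8232862877) (nat_lit 76) (nat_lit 5293004305) (nat_lit 13) (nat_lit 4) (nat_lit 14) (nat_lit 5) (nat_lit 14) (nat_lit 4) (nat_lit 331) (nat_lit 288) (nat_lit 281)) (XT.lf (nat_lit 0) (nat_lit 11503184625) (nat_lit 76) (nat_lit 4159958978) (nat_lit 76) (nat_lit 915029101) (nat_lit 13) (nat_lit 4) (nat_lit 14) (nat_lit 5) (nat_lit 14) (nat_lit 4) (nat_lit 332) (nat_lit 288) (nat_lit 280))) (XT.nd (nat_lit 78) (nat_lit 0) (nat_lit 0) (XT.lf (nat_lit 0) (nat_lit 3519984588) (nat_lit 152) (nat_lit 13731137180) (nat_lit 0) (nat_lit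 253870413) (nat_lit 11) (nat_lit 5) (nat_lit 13) (nat_lit 4) (nat_lit 11) (nat_lit 4) (nat_lit 333) (nat_lit 288) (nat_lit 279)) (XT.lf (nat_lit 0) (nat_lit 8313151399) (nat_lit 152) (nat_lit 5381925679) (nat_lit 0) (nat_lit 4804861786) (nat_lit 11) (nat_lit 5) (nat_lit 13) (nat_lit 4) (nat_lit 11) (nat_lit 4) (nat_lit 334) (nat_lit 288) (nat_lit 278)))) (XT.nd (nat_lit 156) (nat_lit 152) (nat_lit 0) (XT.nd (nat_lit 78) (nat_lit 0) (nat_lit 0) (XT.lf (nat_lit 0) (nat_lit 3465164500) (nat_lit 76) (nat_lit 9924956547) (nat_lit 76) (nat_lit 6192430418) (nat_lit 10) (nat_lit 4) (nat_lit 11) (nat_lit 5) (nat_lit 11) (nat_lit 4) (nat_lit 335) (nat_lit 288) (nat_lit 277)) (XT.lf (nat_lit 0) (nat_lit 12991390639) (nat_lit 76) (nat_lit 5851526180) (nat_lit 76) (nat_lit 1911373646) (nat_lit 10) (nat_lit 4) (nat_lit 11) (nat_lit 5) (nat_lit 11) (nat_lit 4) (nat_lit 336) (nat_lit 288) (nat_lit 276)))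 (XT.nd (nat_lit 78) (nat_lit 0) (nat_lit 0) (XT.lf (nat_lit 0) (nat_lit 921965411) (nat_lit 76) (nat_lit 1508017577) (nat_lit 152) (nat_lit 19596366176) (nat_lit 8) (nat_lit 5) (nat_lit 9) (nat_lit 5) (nat_lit 10) (nat_lit 4) (nat_lit 337) (nat_lit 288) (nat_lit 275)) (XT.lf (nat_lit 0) (nat_lit 7142496705) (nat_lit 152) (nat_lit 13092226707) (nat_lit 0) (nat_lit 3151380610) (nat_lit 8) (nat_lit 5) (nat_lit 10) (nat_lit 4) (nat_lit 8) (nat_lit 4) (nat_lit 338) (nat_lit 288) (nat_lit 274))))) (XT.nd (nat_lit 312) (nat_lit 152) (nat_lit 0) (XT.nd (nat_lit 156) (nat_lit 0) (nat_lit 0) (XT.nd (nat_lit 78) (nat_lit 76) (nat_lit 0) (XT.lf (nat_lit 0) (nat_lit 12116363552) (nat_lit 152) (nat_lit 4774958497) (nat_lit 0) (nat_lit 7972635852) (nat_lit 8) (nat_lit 5) (nat_lit 10) (nat_lit 4) (nat_lit 8) (nat_lit 4) (nat_lit 339) (nat_lit 288) (nat_lit 273)) (XT.lf (nat_lit 0) (nat_lit 4140079809)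 (nat_lit 76) (nat_lit 13304279647) (nat_lit 76) (nat_lit 9019244905) (nat_lit 7) (nat_lit 4) (nat_lit 8) (nat_lit 5) (nat_lit 8) (nat_lit 4) (nat_lit 340) (nat_lit 288) (nat_lit 272))) (XT.nd (nat_lit 78) (nat_lit 0) (nat_lit 0) (XT.lf (nat_lit 0) (nat_lit 13772117190) (nat_lit 76) (nat_lit 9417863191) (nat_lit 76) (nat_lit 5001988595) (nat_lit 7) (nat_lit 4) (nat_lit 8) (nat_lit 5) (nat_lit 8) (nat_lit 4) (nat_lit 341) (nat_lit 288) (nat_lit 271)) (XT.lf (nat_lit 0) (nat_lit 23926791532) (nat_lit 76) (nat_lit 5339597893) (nat_lit 76) (nat_lit 802575284) (nat_lit 7) (nat_lit 4) (nat_lit 8) (nat_lit 5) (nat_lit 8) (nat_lit 4) (nat_lit 342) (nat_lit 288) (nat_lit 270)))) (XT.nd (nat_lit 156) (nat_lit 0) (nat_lit 0) (XT.nd (nat_lit 78) (nat_lit 0) (nat_lit 0) (XT.lf (nat_lit 0) (nat_lit 2602056162) (nat_lit 76) (nat_lit 884123095) (nat_lit 152) (nat_lit 28607595006) (nat_lit 5) (nat_lit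 5) (nat_lit 6) (nat_lit 5) (nat_lit 7) (nat_lit 4) (nat_lit 343) (nat_lit 288) (nat_lit 269)) (XT.lf (nat_lit 0) (nat_lit 8219840164) (nat_lit 152) (nat_lit 22228632336) (nat_lit 0) (nat_lit 3818857212) (nat_lit 5) (nat_lit 5) (nat_lit 7) (nat_lit 4) (nat_lit 5) (nat_lit 4) (nat_lit 344) (nat_lit 288) (nat_lit 268))) (XT.nd (nat_lit 78) (nat_lit 0) (nat_lit 0) (XT.lf (nat_lit 0) (nat_lit 13242567952) (nat_lit 152) (nat_lit 14626873106) (nat_lit 0) (nat_lit 8752537593) (nat_lit 5) (nat_lit 5) (nat_lit 7) (nat_lit 4) (nat_lit 5) (nat_lit 4) (nat_lit 345) (nat_lit 288) (nat_lit 267)) (XT.lf (nat_lit 0) (nat_lit 18562863750) (nat_lit 152) (nat_lit 6620129768) (nat_lit 0) (nat_lit 13990382090) (nat_lit 5) (nat_lit 5) (nat_lit 7) (nat_lit 4) (nat_lit 5) (nat_lit 4) (nat_lit 346) (nat_lit 288) (nat_lit 266)))))) (XT.nd (nat_lit 624) (nat_lit 76) (nat_lit 0) (XT.nd (nat_lit 312) (nat_lit 152)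 (nat_lit 0) (XT.nd (nat_lit 156) (nat_lit 0) (nat_lit 0) (XT.nd (nat_lit 78) (nat_lit 0) (nat_lit 0) (XT.lf (nat_lit 0) (nat_lit 1935885896) (nat_lit 76) (nat_lit 22322927444) (nat_lit 76) (nat_lit 17674101986) (nat_lit 4) (nat_lit 4) (nat_lit 5) (nat_lit 5) (nat_lit 5) (nat_lit 4) (nat_lit 347) (nat_lit 288) (nat_lit 265)) (XT.lf (nat_lit 0) (nat_lit 11369529698) (nat_lit 76) (nat_lit 19128128058) (nat_lit 76) (nat_lit 14408613898) (nat_lit 4) (nat_lit 4) (nat_lit 5) (nat_lit 5) (nat_lit 5) (nat_lit 4) (nat_lit 348) (nat_lit 288) (nat_lit 264))) (XT.nd (nat_lit 78) (nat_lit 0) (nat_lit 0) (XT.lf (nat_lit 0) (nat_lit 21388100406) (nat_lit 76) (nat_lit 15760669295) (nat_lit 76) (nat_lit 10975702633) (nat_lit 4) (nat_lit 4) (nat_lit 5) (nat_lit 5) (nat_lit 5) (nat_lit 4) (nat_lit 349) (nat_lit 288) (nat_lit 263)) (XT.lf (nat_lit 0) (nat_lit 32050967331) (nat_lit 76) (nat_lit 12200595845)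 (nat_lit 76) (nat_lit 7355025014) (nat_lit 4) (nat_lit 4) (nat_lit 5) (nat_lit 5) (nat_lit 5) (nat_lit 4) (nat_lit 350) (nat_lit 288) (nat_lit 262)))) (XT.nd (nat_lit 156) (nat_lit 76) (nat_lit 0) (XT.nd (nat_lit 78) (nat_lit 76) (nat_lit 0) (XT.lf (nat_lit 0) (nat_lit 43421317831) (nat_lit 76) (nat_lit 8426810975) (nat_lit 76) (nat_lit 3525125174) (nat_lit 4) (nat_lit 4) (nat_lit 5) (nat_lit 5) (nat_lit 5) (nat_lit 4) (nat_lit 351) (nat_lit 288) (nat_lit 261)) (XT.lf (nat_lit 0) (nat_lit 509845053) (nat_lit 152) (nat_lit 3893166396) (nat_lit 76) (nat_lit 55042746641) (nat_lit 3) (nat_lit 5) (nat_lit 5) (nat_lit 5) (nat_lit 4) (nat_lit 4) (nat_lit 352) (nat_lit 288) (nat_lit 260))) (XT.nd (nat_lit 78) (nat_lit 0) (nat_lit 0) (XT.lf (nat_lit 0) (nat_lit 4730381200) (nat_lit 152) (nat_lit 59002990739) (nat_lit 0) (nat_lit 99127821) (nat_lit 2) (nat_lit 5) (nat_lit 4) (nat_lit 4) (nat_lit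 2) (nat_lit 4) (nat_lit 353) (nat_lit 288) (nat_lit 259)) (XT.lf (nat_lit 0) (nat_lit 9446997941) (nat_lit 152) (nat_lit 54336027476) (nat_lit 0) (nat_lit 4774498382) (nat_lit 2) (nat_lit 5) (nat_lit 4) (nat_lit 4) (nat_lit 2) (nat_lit 4) (nat_lit 354) (nat_lit 288) (nat_lit 258))))) (XT.nd (nat_lit 312) (nat_lit 76) (nat_lit 0) (XT.nd (nat_lit 156) (nat_lit 0) (nat_lit 0) (XT.nd (nat_lit 78) (nat_lit 0) (nat_lit 0) (XT.lf (nat_lit 0) (nat_lit 14480631859) (nat_lit 152) (nat_lit 49414818197) (nat_lit 0) (nat_lit 9769941395) (nat_lit 2) (nat_lit 5) (nat_lit 4) (nat_lit 4) (nat_lit 2) (nat_lit 4) (nat_lit 355) (nat_lit 288) (nat_lit 257)) (XT.lf (nat_lit 0) (nat_lit 19861111898) (nat_lit 152) (nat_lit 44210200178) (nat_lit 0) (nat_lit 15115059483) (nat_lit 2) (nat_lit 5) (nat_lit 4) (nat_lit 4) (nat_lit 2) (nat_lit 4) (nat_lit 356) (nat_lit 288) (nat_lit 256))) (XT.nd (nat_lit 78) (nat_lit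 0) (nat_lit 0) (XT.lf (nat_lit 0) (nat_lit 25620322382) (nat_lit 152) (nat_lit 38691331240) (nat_lit 0) (nat_lit 20841527421) (nat_lit 2) (nat_lit 5) (nat_lit 4) (nat_lit 4) (nat_lit 2) (nat_lit 4) (nat_lit 357) (nat_lit 288) (nat_lit 255)) (XT.lf (nat_lit 0) (nat_lit 31792391967) (nat_lit 152) (nat_lit 32825506974) (nat_lit 0) (nat_lit 26983279834) (nat_lit 2) (nat_lit 5) (nat_lit 4) (nat_lit 4) (nat_lit 2) (nat_lit 4) (nat_lit 358) (nat_lit 288) (nat_lit 254)))) (XT.nd (nat_lit 156) (nat_lit 76) (nat_lit 0) (XT.nd (nat_lit 78) (nat_lit 0) (nat_lit 0) (XT.lf (nat_lit 0) (nat_lit 38413895880) (nat_lit 152) (nat_lit 26577966939) (nat_lit 0) (nat_lit 33576712291) (nat_lit 2) (nat_lit 5) (nat_lit 4) (nat_lit 4) (nat_lit 2) (nat_lit 4) (nat_lit 359) (nat_lit 288) (nat_lit 253)) (XT.lf (nat_lit 0) (nat_lit 45524072663) (nat_lit 152) (nat_lit 19911688677) (nat_lit 0) (nat_lit 40660896984) (nat_lit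 2) (nat_lit 5) (nat_lit 4) (nat_lit 4) (nat_lit 2) (nat_lit 4) (nat_lit 360) (nat_lit 288) (nat_lit 252))) (XT.nd (nat_lit 78) (nat_lit 76) (nat_lit 0) (XT.lf (nat_lit 0) (nat_lit 53165056696) (nat_lit 152) (nat_lit 12787168315) (nat_lit 0) (nat_lit 48277814269) (nat_lit 2) (nat_lit 5) (nat_lit 4) (nat_lit 4) (nat_lit 2) (nat_lit 4) (nat_lit 361) (nat_lit 288) (nat_lit 251)) (XT.nd (nat_lit 78) (nat_lit 76) (nat_lit 0) (XT.lf (nat_lit 0) (nat_lit 61382127885) (nat_lit 152) (nat_lit 5162186475) (nat_lit 0) (nat_lit 56472601431) (nat_lit 2) (nat_lit 5) (nat_lit 4) (nat_lit 4) (nat_lit 2) (nat_lit 4) (nat_lit 362) (nat_lit 288) (nat_lit 250)) (XT.lf (nat_lit 0) (nat_lit 3166861141) (nat_lit 76) (nat_lit 67133281931) (nat_lit 76) (nat_lit 62203122118) (nat_lit 1) (nat_lit 4) (nat_lit 2) (nat_lit 5) (nat_lit 2) (nat_lit 4) (nat_lit 363) (nat_lit 288) (nat_lit 249))))))))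
noncomputable def xc60 : XT := (XT.nd (nat_lit 1248) (nat_lit 0) (nat_lit 0) (XT.nd (nat_lit 624) (nat_lit 0) (nat_lit 0) (XT.nd (nat_lit 312) (nat_lit 0) (nat_lit 0) (XT.nd (nat_lit 156) (nat_lit 0) (nat_lit 0) (XT.nd (nat_lit 78) (nat_lit 0) (nat_lit 0) (XT.lf (nat_lit 0) (nat_lit 12393087860) (nat_lit 76) (nat_lit 67647975358) (nat_lit 76) (nat_lit 62698710584) (nat_lit 1) (nat_lit 4) (nat_lit 2) (nat_lit 5) (nat_lit 2) (nat_lit 4) (nat_lit 364) (nat_lit 288) (nat_lit 248)) (XT.lf (nat_lit 0) (nat_lit 22299336025) (nat_lit 76) (nat_lit 68232588005) (nat_lit 76) (nat_lit 63265633452) (nat_lit 1) (nat_lit 4) (nat_lit 2) (nat_lit 5) (nat_lit 2) (nat_lit 4) (nat_lit 365) (nat_lit 288) (nat_lit 247))) (XT.nd (nat_lit 78) (nat_lit 0) (nat_lit 0) (XT.lf (nat_lit 0) (nat_lit 32944309329) (nat_lit 76) (nat_lit 68890584242) (nat_lit 76) (nat_lit 63907250264) (nat_lit 1) (nat_lit 4) (nat_lit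 2) (nat_lit 5) (nat_lit 2) (nat_lit 4) (nat_lit 366) (nat_lit 288) (nat_lit 246)) (XT.lf (nat_lit 0) (nat_lit 44391089096) (nat_lit 76) (nat_lit 69625863307) (nat_lit 76) (nat_lit 64627363195) (nat_lit 1) (nat_lit 4) (nat_lit 2) (nat_lit 5) (nat_lit 2) (nat_lit 4) (nat_lit 367) (nat_lit 288) (nat_lit 245)))) (XT.nd (nat_lit 156) (nat_lit 0) (nat_lit 0) (XT.nd (nat_lit 78) (nat_lit 0) (nat_lit 0) (XT.lf (nat_lit 0) (nat_lit 56707508094) (nat_lit 76) (nat_lit 70442782409) (nat_lit 76) (nat_lit 65430239579) (nat_lit 1) (nat_lit 4) (nat_lit 2) (nat_lit 5) (nat_lit 2) (nat_lit 4) (nat_lit 368) (nat_lit 288) (nat_lit 244)) (XT.lf (nat_lit 0) (nat_lit 69966552510) (nat_lit 76) (nat_lit 71346182549) (nat_lit 76) (nat_lit 66320637204) (nat_lit 1) (nat_lit 4) (nat_lit 2) (nat_lit 5) (nat_lit 2) (nat_lit 4) (nat_lit 369) (nat_lit 288) (nat_lit 243))) (XT.nd (nat_lit 78) (nat_lit 0) (nat_lit 0) (XT.lf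 (nat_lit 0) (nat_lit 84246794459) (nat_lit 76) (nat_lit 72341417210) (nat_lit 76) (nat_lit 67303832499) (nat_lit 1) (nat_lit 4) (nat_lit 2) (nat_lit 5) (nat_lit 2) (nat_lit 4) (nat_lit 370) (nat_lit 288) (nat_lit 242)) (XT.lf (nat_lit 0) (nat_lit 99632857598) (nat_lit 76) (nat_lit 73434384080) (nat_lit 76) (nat_lit 68385651807) (nat_lit 1) (nat_lit 4) (nat_lit 2) (nat_lit 5) (nat_lit 2) (nat_lit 4) (nat_lit 371) (nat_lit 288) (nat_lit 241))))) (XT.nd (nat_lit 312) (nat_lit 0) (nat_lit 0) (XT.nd (nat_lit 156) (nat_lit 0) (nat_lit 0) (XT.nd (nat_lit 78) (nat_lit 0) (nat_lit 0) (XT.lf (nat_lit 0) (nat_lit 116215918596) (nat_lit 76) (nat_lit 74631559998) (nat_lit 76) (nat_lit 69572505909) (nat_lit 1) (nat_lit 4) (nat_lit 2) (nat_lit 5) (nat_lit 2) (nat_lit 4) (nat_lit 372) (nat_lit 288) (nat_lit 240)) (XT.lf (nat_lit 0) (nat_lit 134094247445) (nat_lit 76) (nat_lit 75940039341) (nat_lit 76)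 (nat_lit 70871428015) (nat_lit 1) (nat_lit 4) (nat_lit 2) (nat_lit 5) (nat_lit 2) (nat_lit 4) (nat_lit 373) (nat_lit 288) (nat_lit 239))) (XT.nd (nat_lit 78) (nat_lit 0) (nat_lit 0) (XT.lf (nat_lit 0) (nat_lit 153373789797) (nat_lit 76) (nat_lit 77367576060) (nat_lit 76) (nat_lit 72290115440) (nat_lit 1) (nat_lit 4) (nat_lit 2) (nat_lit 5) (nat_lit 2) (nat_lit 4) (nat_lit 374) (nat_lit 288) (nat_lit 238)) (XT.lf (nat_lit 0) (nat_lit 174168794792) (nat_lit 76) (nat_lit 78922629632) (nat_lit 76) (nat_lit 73836975221) (nat_lit 1) (nat_lit 4) (nat_lit 2) (nat_lit 5) (nat_lit 2) (nat_lit 4) (nat_lit 375) (nat_lit 288) (nat_lit 237)))) (XT.nd (nat_lit 156) (nat_lit 0) (nat_lit 0) (XT.nd (nat_lit 78) (nat_lit 0) (nat_lit 0) (XT.lf (nat_lit 0) (nat_lit 196602492089) (nat_lit 76) (nat_lit 80614415189) (nat_lit 76) (nat_lit 75521173936) (nat_lit 1) (nat_lit 4) (nat_lit 2) (nat_lit 5) (nat_lit 2)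 (nat_lit 4) (nat_lit 376) (nat_lit 288) (nat_lit 236)) (XT.lf (nat_lit 0) (nat_lit 220807822117) (nat_lit 76) (nat_lit 82452958127) (nat_lit 76) (nat_lit 77352692019) (nat_lit 1) (nat_lit 4) (nat_lit 2) (nat_lit 5) (nat_lit 2) (nat_lit 4) (nat_lit 377) (nat_lit 288) (nat_lit 235))) (XT.nd (nat_lit 78) (nat_lit 0) (nat_lit 0) (XT.lf (nat_lit 0) (nat_lit 246928223868) (nat_lit 76) (nat_lit 84449153516) (nat_lit 76) (nat_lit 79342382913) (nat_lit 1) (nat_lit 4) (nat_lit 2) (nat_lit 5) (nat_lit 2) (nat_lit 4) (nat_lit 378) (nat_lit 288) (nat_lit 234)) (XT.lf (nat_lit 0) (nat_lit 275118484909) (nat_lit 76) (nat_lit 86614830662) (nat_lit 76) (nat_lit 81502037378) (nat_lit 1) (nat_lit 4) (nat_lit 2) (nat_lit 5) (nat_lit 2) (nat_lit 4) (nat_lit 379) (nat_lit 288) (nat_lit 233)))))) (XT.nd (nat_lit 624) (nat_lit 0) (nat_lit 0) (XT.nd (nat_lit 312) (nat_lit 0) (nat_lit 0) (XT.nd (nat_lit 156) (nat_lit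 0) (nat_lit 0) (XT.nd (nat_lit 78) (nat_lit 0) (nat_lit 0) (XT.lf (nat_lit 0) (nat_lit 305545658638) (nat_lit 76) (nat_lit 88962823206) (nat_lit 76) (nat_lit 83844453366) (nat_lit 1) (nat_lit 4) (nat_lit 2) (nat_lit 5) (nat_lit 2) (nat_lit 4) (nat_lit 380) (nat_lit 288) (nat_lit 232)) (XT.lf (nat_lit 0) (nat_lit 338390054233) (nat_lit 76) (nat_lit 91507045179) (nat_lit 76) (nat_lit 86383511861) (nat_lit 1) (nat_lit 4) (nat_lit 2) (nat_lit 5) (nat_lit 2) (nat_lit 4) (nat_lit 381) (nat_lit 288) (nat_lit 231))) (XT.nd (nat_lit 78) (nat_lit 0) (nat_lit 0) (XT.lf (nat_lit 0) (nat_lit 373846305148) (nat_lit 76) (nat_lit 94262573451) (nat_lit 76) (nat_lit 89134259136) (nat_lit 1) (nat_lit 4) (nat_lit 2) (nat_lit 5) (nat_lit 2) (nat_lit 4) (nat_lit 382) (nat_lit 288) (nat_lit 230)) (XT.lf (nat_lit 0) (nat_lit 412124522502) (nat_lit 76) (nat_lit 97245737080) (nat_lit 76) (nat_lit 92112995915)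 (nat_lit 1) (nat_lit 4) (nat_lit 2) (nat_lit 5) (nat_lit 2) (nat_lit 4) (nat_lit 383) (nat_lit 288) (nat_lit 229)))) (XT.nd (nat_lit 156) (nat_lit 0) (nat_lit 0) (XT.nd (nat_lit 78) (nat_lit 0) (nat_lit 0) (XT.lf (nat_lit 0) (nat_lit 453451540173) (nat_lit 76) (nat_lit 100474214071) (nat_lit 76) (nat_lit 95337373971) (nat_lit 1) (nat_lit 4) (nat_lit 2) (nat_lit 5) (nat_lit 2) (nat_lit 4) (nat_lit 384) (nat_lit 288) (nat_lit 228)) (XT.lf (nat_lit 0) (nat_lit 498072259009) (nat_lit 76) (nat_lit 103967136141) (nat_lit 76) (nat_lit 98826500730) (nat_lit 1) (nat_lit 4) (nat_lit 2) (nat_lit 5) (nat_lit 2) (nat_lit 4) (nat_lit 385) (nat_lit 288) (nat_lit 227))) (XT.nd (nat_lit 78) (nat_lit 0) (nat_lit 0) (XT.lf (nat_lit 0) (nat_lit 546251098083) (nat_lit 76) (nat_lit 107745202087) (nat_lit 76) (nat_lit 102601052500) (nat_lit 1) (nat_lit 4) (nat_lit 2) (nat_lit 5) (nat_lit 2) (nat_lit 4) (nat_lit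 386) (nat_lit 288) (nat_lit 226)) (XT.lf (nat_lit 0) (nat_lit 598273561626) (nat_lit 76) (nat_lit 111830800447) (nat_lit 76) (nat_lit 106683396993) (nat_lit 1) (nat_lit 4) (nat_lit 2) (nat_lit 5) (nat_lit 2) (nat_lit 4) (nat_lit 387) (nat_lit 288) (nat_lit 225))))) (XT.nd (nat_lit 312) (nat_lit 0) (nat_lit 0) (XT.nd (nat_lit 156) (nat_lit 0) (nat_lit 0) (XT.nd (nat_lit 78) (nat_lit 0) (nat_lit 0) (XT.lf (nat_lit 0) (nat_lit 654447930905) (nat_lit 76) (nat_lit 116248142175) (nat_lit 76) (nat_lit 111097725881) (nat_lit 1) (nat_lit 4) (nat_lit 2) (nat_lit 5) (nat_lit 2) (nat_lit 4) (nat_lit 388) (nat_lit 288) (nat_lit 224)) (XT.lf (nat_lit 0) (nat_lit 715107091071) (nat_lit 76) (nat_lit 121023404111) (nat_lit 76) (nat_lit 115870198151) (nat_lit 1) (nat_lit 4) (nat_lit 2) (nat_lit 5) (nat_lit 2) (nat_lit 4) (nat_lit 389) (nat_lit 288) (nat_lit 223))) (XT.nd (nat_lit 78) (nat_lit 0) (nat_lit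 0) (XT.lf (nat_lit 0) (nat_lit 780610503813) (nat_lit 76) (nat_lit 126184884103) (nat_lit 76) (nat_lit 121029095118) (nat_lit 1) (nat_lit 4) (nat_lit 2) (nat_lit 5) (nat_lit 2) (nat_lit 4) (nat_lit 390) (nat_lit 288) (nat_lit 222)) (XT.lf (nat_lit 0) (nat_lit 851346337504) (nat_lit 76) (nat_lit 131763168700) (nat_lit 76) (nat_lit 126604988026) (nat_lit 1) (nat_lit 4) (nat_lit 2) (nat_lit 5) (nat_lit 2) (nat_lit 4) (nat_lit 391) (nat_lit 288) (nat_lit 221)))) (XT.nd (nat_lit 156) (nat_lit 0) (nat_lit 0) (XT.nd (nat_lit 78) (nat_lit 0) (nat_lit 0) (XT.lf (nat_lit 0) (nat_lit 927733767453) (nat_lit 76) (nat_lit 137791314402) (nat_lit 76) (nat_lit 132630919201) (nat_lit 1) (nat_lit 4) (nat_lit 2) (nat_lit 5) (nat_lit 2) (nat_lit 4) (nat_lit 392) (nat_lit 288) (nat_lit 220)) (XT.lf (nat_lit 0) (nat_lit 1010225459913) (nat_lit 76) (nat_lit 144305043555) (nat_lit 76) (nat_lit 139142597866) (nat_lit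 1) (nat_lit 4) (nat_lit 2) (nat_lit 5) (nat_lit 2) (nat_lit 4) (nat_lit 393) (nat_lit 288) (nat_lit 219))) (XT.nd (nat_lit 78) (nat_lit 0) (nat_lit 0) (XT.lf (nat_lit 0) (nat_lit 1099310254543) (nat_lit 76) (nat_lit 151342956035) (nat_lit 76) (nat_lit 146178611746) (nat_lit 1) (nat_lit 4) (nat_lit 2) (nat_lit 5) (nat_lit 2) (nat_lit 4) (nat_lit 394) (nat_lit 288) (nat_lit 218)) (XT.lf (nat_lit 0) (nat_lit 1195516061236) (nat_lit 76) (nat_lit 158946757990) (nat_lit 76) (nat_lit 153780655738) (nat_lit 1) (nat_lit 4) (nat_lit 2) (nat_lit 5) (nat_lit 2) (nat_lit 4) (nat_lit 395) (nat_lit 288) (nat_lit 217)))))))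
noncomputable def xc61 : XT := (XT.nd (nat_lit 41106) (nat_lit 0) (nat_lit 532) (XT.nd (nat_lit 624) (nat_lit 0) (nat_lit 0) (XT.nd (nat_lit 312) (nat_lit 0) (nat_lit 0) (XT.nd (nat_lit 156) (nat_lit 0) (nat_lit 0) (XT.nd (nat_lit 78) (nat_lit 0) (nat_lit 0) (XT.lf (nat_lit 0) (nat_lit 1299412988478) (nat_lit 76) (nat_lit 167161508988) (nat_lit 76) (nat_lit 161993778992) (nat_lit 1) (nat_lit 4) (nat_lit 2) (nat_lit 5) (nat_lit 2) (nat_lit 4) (nat_lit 396) (nat_lit 288) (nat_lit 216)) (XT.lf (nat_lit 0) (nat_lit 1411616721761) (nat_lit 76) (nat_lit 176035889033) (nat_lit 76) (nat_lit 170866651867) (nat_lit 1) (nat_lit 4) (nat_lit 2) (nat_lit 5) (nat_lit 2) (nat_lit 4) (nat_lit 397) (nat_lit 288) (nat_lit 215))) (XT.nd (nat_lit 78) (nat_lit 0) (nat_lit 0) (XT.lf (nat_lit 0) (nat_lit 1532792172100) (nat_lit 76) (nat_lit 185622487046) (nat_lit 76) (nat_lit 180451854352) (nat_lit 1) (nat_lit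 4) (nat_lit 2) (nat_lit 5) (nat_lit 2) (nat_lit 4) (nat_lit 398) (nat_lit 288) (nat_lit 214)) (XT.lf (nat_lit 0) (nat_lit 1663657416236) (nat_lit 76) (nat_lit 195978112495) (nat_lit 76) (nat_lit 190806187646) (nat_lit 1) (nat_lit 4) (nat_lit 2) (nat_lit 5) (nat_lit 2) (nat_lit 4) (nat_lit 399) (nat_lit 288) (nat_lit 213)))) (XT.nd (nat_lit 156) (nat_lit 0) (nat_lit 0) (XT.nd (nat_lit 78) (nat_lit 0) (nat_lit 0) (XT.lf (nat_lit 0) (nat_lit 1804987951912) (nat_lit 76) (nat_lit 207164132050) (nat_lit 76) (nat_lit 201991010761) (nat_lit 1) (nat_lit 4) (nat_lit 2) (nat_lit 5) (nat_lit 2) (nat_lit 4) (nat_lit 400) (nat_lit 288) (nat_lit 212)) (XT.lf (nat_lit 0) (nat_lit 1957621293414) (nat_lit 76) (nat_lit 219246833235) (nat_lit 76) (nat_lit 214072604131) (nat_lit 1) (nat_lit 4) (nat_lit 2) (nat_lit 5) (nat_lit 2) (nat_lit 4) (nat_lit 401) (nat_lit 288) (nat_lit 211))) (XT.nd (nat_lit 78) (nat_lit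 0) (nat_lit 0) (XT.lf (nat_lit 0) (nat_lit 2122461934618) (nat_lit 76) (nat_lit 232297817241) (nat_lit 76) (nat_lit 227122562382) (nat_lit 1) (nat_lit 4) (nat_lit 2) (nat_lit 5) (nat_lit 2) (nat_lit 4) (nat_lit 402) (nat_lit 288) (nat_lit 210)) (XT.lf (nat_lit 0) (nat_lit 2300486708953) (nat_lit 76) (nat_lit 246394423233) (nat_lit 76) (nat_lit 241218218601) (nat_lit 1) (nat_lit 4) (nat_lit 2) (nat_lit 5) (nat_lit 2) (nat_lit 4) (nat_lit 403) (nat_lit 288) (nat_lit 209))))) (XT.nd (nat_lit 312) (nat_lit 0) (nat_lit 0) (XT.nd (nat_lit 156) (nat_lit 0) (nat_lit 0) (XT.nd (nat_lit 78) (nat_lit 0) (nat_lit 0) (XT.lf (nat_lit 0) (nat_lit 2492750578044) (nat_lit 76) (nat_lit 261620186654) (nat_lit 76) (nat_lit 256443102603) (nat_lit 1) (nat_lit 4) (nat_lit 2) (nat_lit 5) (nat_lit 2) (nat_lit 4) (nat_lit 404) (nat_lit 288) (nat_lit 208)) (XT.lf (nat_lit 0) (nat_lit 2700392883338) (nat_lit 76)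 (nat_lit 278065334250) (nat_lit 76) (nat_lit 272887435922) (nat_lit 1) (nat_lit 4) (nat_lit 2) (nat_lit 5) (nat_lit 2) (nat_lit 4) (nat_lit 405) (nat_lit 288) (nat_lit 207))) (XT.nd (nat_lit 78) (nat_lit 0) (nat_lit 0) (XT.lf (nat_lit 0) (nat_lit 2924644097755) (nat_lit 76) (nat_lit 295827318747) (nat_lit 76) (nat_lit 290648666459) (nat_lit 1) (nat_lit 4) (nat_lit 2) (nat_lit 5) (nat_lit 2) (nat_lit 4) (nat_lit 406) (nat_lit 288) (nat_lit 206)) (XT.lf (nat_lit 0) (nat_lit 3166833117381) (nat_lit 76) (nat_lit 315011396350) (nat_lit 76) (nat_lit 309832045951) (nat_lit 1) (nat_lit 4) (nat_lit 2) (nat_lit 5) (nat_lit 2) (nat_lit 4) (nat_lit 407) (nat_lit 288) (nat_lit 205)))) (XT.nd (nat_lit 156) (nat_lit 0) (nat_lit 0) (XT.nd (nat_lit 78) (nat_lit 0) (nat_lit 0) (XT.lf (nat_lit 0) (nat_lit 3428395136406) (nat_lit 76) (nat_lit 335731250483) (nat_lit 76) (nat_lit 330551253684) (nat_lit 1)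 (nat_lit 4) (nat_lit 2) (nat_lit 5) (nat_lit 2) (nat_lit 4) (nat_lit 408) (nat_lit 288) (nat_lit 204)) (XT.lf (nat_lit 0) (nat_lit 3710880151980) (nat_lit 76) (nat_lit 358109665465) (nat_lit 76) (nat_lit 352929070148) (nat_lit 1) (nat_lit 4) (nat_lit 2) (nat_lit 5) (nat_lit 2) (nat_lit 4) (nat_lit 409) (nat_lit 288) (nat_lit 203))) (XT.nd (nat_lit 78) (nat_lit 0) (nat_lit 0) (XT.lf (nat_lit 0) (nat_lit 4015962149381) (nat_lit 76) (nat_lit 382279254126) (nat_lit 76) (nat_lit 377098104626) (nat_lit 1) (nat_lit 4) (nat_lit 2) (nat_lit 5) (nat_lit 2) (nat_lit 4) (nat_lit 410) (nat_lit 288) (nat_lit 202)) (XT.lf (nat_lit 0) (nat_lit 4345449021925) (nat_lit 76) (nat_lit 408383243658) (nat_lit 76) (nat_lit 403201581025) (nat_lit 1) (nat_lit 4) (nat_lit 2) (nat_lit 5) (nat_lit 2) (nat_lit 4) (nat_lit 411) (nat_lit 288) (nat_lit 201)))))) (XT.nd (nat_lit 624) (nat_lit 532) (nat_lit 0) (XT.nd (nat_lit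 312) (nat_lit 304) (nat_lit 0) (XT.nd (nat_lit 156) (nat_lit 304) (nat_lit 0) (XT.nd (nat_lit 78) (nat_lit 0) (nat_lit 0) (XT.lf (nat_lit 0) (nat_lit 401572173) (nat_lit 152) (nat_lit 2406136388) (nat_lit 152) (nat_lit 2406136388) (nat_lit 23) (nat_lit 4) (nat_lit 25) (nat_lit 5) (nat_lit 25) (nat_lit 4) (nat_lit 322) (nat_lit 289) (nat_lit 289)) (XT.lf (nat_lit 0) (nat_lit 9021327866) (nat_lit 152) (nat_lit 1273071738) (nat_lit 152) (nat_lit 561755585) (nat_lit 23) (nat_lit 4) (nat_lit 25) (nat_lit 5) (nat_lit 25) (nat_lit 4) (nat_lit 323) (nat_lit 289) (nat_lit 288))) (XT.nd (nat_lit 78) (nat_lit 152) (nat_lit 0) (XT.lf (nat_lit 0) (nat_lit 3794601174) (nat_lit 152) (nat_lit 4993289044) (nat_lit 0) (nat_lit 2526136155) (nat_lit 21) (nat_lit 5) (nat_lit 23) (nat_lit 4) (nat_lit 21) (nat_lit 4) (nat_lit 324) (nat_lit 289) (nat_lit 287)) (XT.lf (nat_lit 0) (nat_lit 3119325312) (nat_lit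 152) (nat_lit 5264132622) (nat_lit 152) (nat_lit 3431001907) (nat_lit 19) (nat_lit 4) (nat_lit 21) (nat_lit 5) (nat_lit 21) (nat_lit 4) (nat_lit 325) (nat_lit 289) (nat_lit 286)))) (XT.nd (nat_lit 156) (nat_lit 152) (nat_lit 0) (XT.nd (nat_lit 78) (nat_lit 76) (nat_lit 0) (XT.lf (nat_lit 0) (nat_lit 832138433) (nat_lit 228) (nat_lit 625121379) (nat_lit 76) (nat_lit 10904234559) (nat_lit 18) (nat_lit 5) (nat_lit 21) (nat_lit 5) (nat_lit 19) (nat_lit 4) (nat_lit 326) (nat_lit 289) (nat_lit 285)) (XT.lf (nat_lit 0) (nat_lit 5285792004) (nat_lit 152) (nat_lit 5000691383) (nat_lit 0) (nat_lit 2656089094) (nat_lit 17) (nat_lit 5) (nat_lit 19) (nat_lit 4) (nat_lit 17) (nat_lit 4) (nat_lit 327) (nat_lit 289) (nat_lit 284))) (XT.nd (nat_lit 78) (nat_lit 76) (nat_lit 0) (XT.lf (nat_lit 0) (nat_lit 3401167401) (nat_lit 76) (nat_lit 6610320090) (nat_lit 76) (nat_lit 3565571036) (nat_lit 16) (nat_lit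 4) (nat_lit 17) (nat_lit 5) (nat_lit 17) (nat_lit 4) (nat_lit 328) (nat_lit 289) (nat_lit 283)) (XT.lf (nat_lit 0) (nat_lit 730608546) (nat_lit 152) (nat_lit 1909385262) (nat_lit 76) (nat_lit 11627197091) (nat_lit 15) (nat_lit 5) (nat_lit 17) (nat_lit 5) (nat_lit 16) (nat_lit 4) (nat_lit 329) (nat_lit 289) (nat_lit 282))))) (XT.nd (nat_lit 312) (nat_lit 228) (nat_lit 0) (XT.nd (nat_lit 156) (nat_lit 152) (nat_lit 0) (XT.nd (nat_lit 78) (nat_lit 76) (nat_lit 0) (XT.lf (nat_lit 0) (nat_lit 5182803157) (nat_lit 152) (nat_lit 8143790710) (nat_lit 0) (nat_lit 1678278889) (nat_lit 14) (nat_lit 5) (nat_lit 16) (nat_lit 4) (nat_lit 14) (nat_lit 4) (nat_lit 330) (nat_lit 289) (nat_lit 281)) (XT.lf (nat_lit 0) (nat_lit 218115929) (nat_lit 76) (nat_lit 9699532175) (nat_lit 76) (nat_lit 5889936602) (nat_lit 13) (nat_lit 4) (nat_lit 14) (nat_lit 5) (nat_lit 14) (nat_lit 4) (nat_lit 331) (nat_lit 289)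 (nat_lit 280))) (XT.nd (nat_lit 78) (nat_lit 152) (nat_lit 0) (XT.lf (nat_lit 0) (nat_lit 9354166836) (nat_lit 76) (nat_lit 5705148325) (nat_lit 76) (nat_lit 1613079321) (nat_lit 13) (nat_lit 4) (nat_lit 14) (nat_lit 5) (nat_lit 14) (nat_lit 4) (nat_lit 332) (nat_lit 289) (nat_lit 279)) (XT.lf (nat_lit 0) (nat_lit 1264383985) (nat_lit 76) (nat_lit 1436578737) (nat_lit 152) (nat_lit 14912116523) (nat_lit 11) (nat_lit 5) (nat_lit 12) (nat_lit 5) (nat_lit 13) (nat_lit 4) (nat_lit 333) (nat_lit 289) (nat_lit 278)))) (XT.nd (nat_lit 156) (nat_lit 152) (nat_lit 0) (XT.nd (nat_lit 78) (nat_lit 76) (nat_lit 0) (XT.lf (nat_lit 0) (nat_lit 7371604878) (nat_lit 152) (nat_lit 8130030065) (nat_lit 0) (nat_lit 3116240141) (nat_lit 11) (nat_lit 5) (nat_lit 13) (nat_lit 4) (nat_lit 11) (nat_lit 4) (nat_lit 334) (nat_lit 289) (nat_lit 277)) (XT.lf (nat_lit 0) (nat_lit 411433394) (nat_lit 76) (nat_lit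 11882240583) (nat_lit 76) (nat_lit 7419249441) (nat_lit 10) (nat_lit 4) (nat_lit 11) (nat_lit 5) (nat_lit 11) (nat_lit 4) (nat_lit 335) (nat_lit 289) (nat_lit 276))) (XT.nd (nat_lit 78) (nat_lit 152) (nat_lit 0) (XT.lf (nat_lit 0) (nat_lit 9788662856) (nat_lit 76) (nat_lit 7878799221) (nat_lit 76) (nat_lit 3223561409) (nat_lit 10) (nat_lit 4) (nat_lit 11) (nat_lit 5) (nat_lit 11) (nat_lit 4) (nat_lit 336) (nat_lit 289) (nat_lit 275)) (XT.nd (nat_lit 78) (nat_lit 76) (nat_lit 0) (XT.lf (nat_lit 0) (nat_lit 1086171909) (nat_lit 152) (nat_lit 2574006416) (nat_lit 76) (nat_lit 18513244334) (nat_lit 9) (nat_lit 5) (nat_lit 11) (nat_lit 5) (nat_lit 10) (nat_lit 4) (nat_lit 337) (nat_lit 289) (nat_lit 274)) (XT.lf (nat_lit 0) (nat_lit 5605637426) (nat_lit 152) (nat_lit 16965216155) (nat_lit 0) (nat_lit 977799905) (nat_lit 8) (nat_lit 5) (nat_lit 10) (nat_lit 4) (nat_lit 8) (nat_lit 4) (nat_lit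 338) (nat_lit 289) (nat_lit 273))))))))
noncomputable def xc62 : XT := (XT.nd (nat_lit 1248) (nat_lit 76) (nat_lit 0) (XT.nd (nat_lit 624) (nat_lit 228) (nat_lit 0) (XT.nd (nat_lit 312) (nat_lit 152) (nat_lit 0) (XT.nd (nat_lit 156) (nat_lit 76) (nat_lit 0) (XT.nd (nat_lit 78) (nat_lit 0) (nat_lit 0) (XT.lf (nat_lit 0) (nat_lit 10510586336) (nat_lit 152) (nat_lit 8780022425) (nat_lit 0) (nat_lit 5741441773) (nat_lit 8) (nat_lit 5) (nat_lit 10) (nat_lit 4) (nat_lit 8) (nat_lit 4) (nat_lit 339) (nat_lit 289) (nat_lit 272)) (XT.lf (nat_lit 0) (nat_lit 15675200317) (nat_lit 152) (nat_lit 194378864) (nat_lit 0) (nat_lit 10775215900) (nat_lit 8) (nat_lit 5) (nat_lit 10) (nat_lit 4) (nat_lit 8) (nat_lit 4) (nat_lit 340) (nat_lit 289) (nat_lit 271))) (XT.nd (nat_lit 78) (nat_lit 0) (nat_lit 0) (XT.lf (nat_lit 0) (nat_lit 9308227663) (nat_lit 76) (nat_lit 12045719923) (nat_lit 76) (nat_lit 7024587493)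 (nat_lit 7) (nat_lit 4) (nat_lit 8) (nat_lit 5) (nat_lit 8) (nat_lit 4) (nat_lit 341) (nat_lit 289) (nat_lit 270)) (XT.lf (nat_lit 0) (nat_lit 19352536074) (nat_lit 76) (nat_lit 8020456973) (nat_lit 76) (nat_lit 2887150457) (nat_lit 7) (nat_lit 4) (nat_lit 8) (nat_lit 5) (nat_lit 8) (nat_lit 4) (nat_lit 342) (nat_lit 289) (nat_lit 269)))) (XT.nd (nat_lit 156) (nat_lit 0) (nat_lit 0) (XT.nd (nat_lit 78) (nat_lit 76) (nat_lit 0) (XT.lf (nat_lit 0) (nat_lit 1388788677) (nat_lit 152) (nat_lit 2348490961) (nat_lit 76) (nat_lit 28561071927) (nat_lit 6) (nat_lit 5) (nat_lit 8) (nat_lit 5) (nat_lit 7) (nat_lit 4) (nat_lit 343) (nat_lit 289) (nat_lit 268)) (XT.lf (nat_lit 0) (nat_lit 5938701417) (nat_lit 152) (nat_lit 27547502964) (nat_lit 0) (nat_lit 1000421224) (nat_lit 5) (nat_lit 5) (nat_lit 7) (nat_lit 4) (nat_lit 5) (nat_lit 4) (nat_lit 344) (nat_lit 289) (nat_lit 267))) (XT.nd (nat_lit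 78) (nat_lit 0) (nat_lit 0) (XT.lf (nat_lit 0) (nat_lit 10911308911) (nat_lit 152) (nat_lit 20043415191) (nat_lit 0) (nat_lit 5890577415) (nat_lit 5) (nat_lit 5) (nat_lit 7) (nat_lit 4) (nat_lit 5) (nat_lit 4) (nat_lit 345) (nat_lit 289) (nat_lit 266)) (XT.lf (nat_lit 0) (nat_lit 16185197029) (nat_lit 152) (nat_lit 12127108388) (nat_lit 0) (nat_lit 11088121736) (nat_lit 5) (nat_lit 5) (nat_lit 7) (nat_lit 4) (nat_lit 5) (nat_lit 4) (nat_lit 346) (nat_lit 289) (nat_lit 265))))) (XT.nd (nat_lit 312) (nat_lit 152) (nat_lit 0) (XT.nd (nat_lit 156) (nat_lit 0) (nat_lit 0) (XT.nd (nat_lit 78) (nat_lit 76) (nat_lit 0) (XT.lf (nat_lit 0) (nat_lit 21791618444) (nat_lit 152) (nat_lit 3751671107) (nat_lit 0) (nat_lit 16623854449) (nat_lit 5) (nat_lit 5) (nat_lit 7) (nat_lit 4) (nat_lit 5) (nat_lit 4) (nat_lit 347) (nat_lit 289) (nat_lit 264)) (XT.lf (nat_lit 0) (nat_lit 5402798747) (nat_lit 76)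 (nat_lit 22490935086) (nat_lit 76) (nat_lit 17257718589) (nat_lit 4) (nat_lit 4) (nat_lit 5) (nat_lit 5) (nat_lit 5) (nat_lit 4) (nat_lit 348) (nat_lit 289) (nat_lit 263))) (XT.nd (nat_lit 78) (nat_lit 0) (nat_lit 0) (XT.lf (nat_lit 0) (nat_lit 15345797609) (nat_lit 76) (nat_lit 19160390753) (nat_lit 76) (nat_lit 13866570088) (nat_lit 4) (nat_lit 4) (nat_lit 5) (nat_lit 5) (nat_lit 5) (nat_lit 4) (nat_lit 349) (nat_lit 289) (nat_lit 262)) (XT.lf (nat_lit 0) (nat_lit 25938690601) (nat_lit 76) (nat_lit 15634497330) (nat_lit 76) (nat_lit 10284561694) (nat_lit 4) (nat_lit 4) (nat_lit 5) (nat_lit 5) (nat_lit 5) (nat_lit 4) (nat_lit 350) (nat_lit 289) (nat_lit 261)))) (XT.nd (nat_lit 156) (nat_lit 152) (nat_lit 0) (XT.nd (nat_lit 78) (nat_lit 0) (nat_lit 0) (XT.lf (nat_lit 0) (nat_lit 37244250424) (nat_lit 76) (nat_lit 11892360633) (nat_lit 76) (nat_lit 6490466691) (nat_lit 4) (nat_lit 4) (nat_lit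 5) (nat_lit 5) (nat_lit 5) (nat_lit 4) (nat_lit 351) (nat_lit 289) (nat_lit 260)) (XT.lf (nat_lit 0) (nat_lit 49329472985) (nat_lit 76) (nat_lit 7911805039) (nat_lit 76) (nat_lit 2461801555) (nat_lit 4) (nat_lit 4) (nat_lit 5) (nat_lit 5) (nat_lit 5) (nat_lit 4) (nat_lit 352) (nat_lit 289) (nat_lit 259))) (XT.nd (nat_lit 78) (nat_lit 76) (nat_lit 0) (XT.lf (nat_lit 0) (nat_lit 1733998024) (nat_lit 152) (nat_lit 1887833466) (nat_lit 76) (nat_lit 60484565817) (nat_lit 3) (nat_lit 5) (nat_lit 5) (nat_lit 5) (nat_lit 4) (nat_lit 4) (nat_lit 353) (nat_lit 289) (nat_lit 258)) (XT.lf (nat_lit 0) (nat_lit 6285478763) (nat_lit 152) (nat_lit 61399419345) (nat_lit 0) (nat_lit 1159742156) (nat_lit 2) (nat_lit 5) (nat_lit 4) (nat_lit 4) (nat_lit 2) (nat_lit 4) (nat_lit 354) (nat_lit 289) (nat_lit 257)))))) (XT.nd (nat_lit 624) (nat_lit 76) (nat_lit 0) (XT.nd (nat_lit 312) (nat_lit 0) (nat_lit 0) (XT.nd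 (nat_lit 156) (nat_lit 0) (nat_lit 0) (XT.nd (nat_lit 78) (nat_lit 0) (nat_lit 0) (XT.lf (nat_lit 0) (nat_lit 11292264319) (nat_lit 152) (nat_lit 56531233144) (nat_lit 0) (nat_lit 6131165762) (nat_lit 2) (nat_lit 5) (nat_lit 4) (nat_lit 4) (nat_lit 2) (nat_lit 4) (nat_lit 355) (nat_lit 289) (nat_lit 256)) (XT.lf (nat_lit 0) (nat_lit 16647884763) (nat_lit 152) (nat_lit 51375710569) (nat_lit 0) (nat_lit 11454043659) (nat_lit 2) (nat_lit 5) (nat_lit 4) (nat_lit 4) (nat_lit 2) (nat_lit 4) (nat_lit 356) (nat_lit 289) (nat_lit 255))) (XT.nd (nat_lit 78) (nat_lit 0) (nat_lit 0) (XT.lf (nat_lit 0) (nat_lit 22384077104) (nat_lit 152) (nat_lit 45902300374) (nat_lit 0) (nat_lit 17159918828) (nat_lit 2) (nat_lit 5) (nat_lit 4) (nat_lit 4) (nat_lit 2) (nat_lit 4) (nat_lit 357) (nat_lit 289) (nat_lit 254)) (XT.lf (nat_lit 0) (nat_lit 28534833594) (nat_lit 152) (nat_lit 40078567537) (nat_lit 0) (nat_lit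 23282603861) (nat_lit 2) (nat_lit 5) (nat_lit 4) (nat_lit 4) (nat_lit 2) (nat_lit 4) (nat_lit 358) (nat_lit 289) (nat_lit 253)))) (XT.nd (nat_lit 156) (nat_lit 0) (nat_lit 0) (XT.nd (nat_lit 78) (nat_lit 0) (nat_lit 0) (XT.lf (nat_lit 0) (nat_lit 35136603159) (nat_lit 152) (nat_lit 33870001048) (nat_lit 0) (nat_lit 29858381337) (nat_lit 2) (nat_lit 5) (nat_lit 4) (nat_lit 4) (nat_lit 2) (nat_lit 4) (nat_lit 359) (nat_lit 289) (nat_lit 252)) (XT.lf (nat_lit 0) (nat_lit 42228507397) (nat_lit 152) (nat_lit 27239809402) (nat_lit 0) (nat_lit 36926218826) (nat_lit 2) (nat_lit 5) (nat_lit 4) (nat_lit 4) (nat_lit 2) (nat_lit 4) (nat_lit 360) (nat_lit 289) (nat_lit 251))) (XT.nd (nat_lit 78) (nat_lit 0) (nat_lit 0) (XT.lf (nat_lit 0) (nat_lit 49852572408) (nat_lit 152) (nat_lit 20148702575) (nat_lit 0) (nat_lit 44527999810) (nat_lit 2) (nat_lit 5) (nat_lit 4) (nat_lit 4) (nat_lit 2) (nat_lit 4)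 (nat_lit 361) (nat_lit 289) (nat_lit 250)) (XT.lf (nat_lit 0) (nat_lit 58053977835) (nat_lit 152) (nat_lit 12554659191) (nat_lit 0) (nat_lit 52708771880) (nat_lit 2) (nat_lit 5) (nat_lit 4) (nat_lit 4) (nat_lit 2) (nat_lit 4) (nat_lit 362) (nat_lit 289) (nat_lit 249))))) (XT.nd (nat_lit 312) (nat_lit 0) (nat_lit 0) (XT.nd (nat_lit 156) (nat_lit 0) (nat_lit 0) (XT.nd (nat_lit 78) (nat_lit 76) (nat_lit 0) (XT.lf (nat_lit 0) (nat_lit 66881324601) (nat_lit 152) (nat_lit 4412677514) (nat_lit 0) (nat_lit 61517013684) (nat_lit 2) (nat_lit 5) (nat_lit 4) (nat_lit 4) (nat_lit 2) (nat_lit 4) (nat_lit 363) (nat_lit 289) (nat_lit 248)) (XT.lf (nat_lit 0) (nat_lit 4553263939) (nat_lit 76) (nat_lit 71943165075) (nat_lit 76) (nat_lit 66561164378) (nat_lit 1) (nat_lit 4) (nat_lit 2) (nat_lit 5) (nat_lit 2) (nat_lit 4) (nat_lit 364) (nat_lit 289) (nat_lit 247))) (XT.nd (nat_lit 78) (nat_lit 0) (nat_lit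 0) (XT.lf (nat_lit 0) (nat_lit 14433658877) (nat_lit 76) (nat_lit 72540573192) (nat_lit 76) (nat_lit 67142193071) (nat_lit 1) (nat_lit 4) (nat_lit 2) (nat_lit 5) (nat_lit 2) (nat_lit 4) (nat_lit 365) (nat_lit 289) (nat_lit 246)) (XT.lf (nat_lit 0) (nat_lit 25054694007) (nat_lit 76) (nat_lit 73210417087) (nat_lit 76) (nat_lit 67796870832) (nat_lit 1) (nat_lit 4) (nat_lit 2) (nat_lit 5) (nat_lit 2) (nat_lit 4) (nat_lit 366) (nat_lit 289) (nat_lit 245)))) (XT.nd (nat_lit 156) (nat_lit 0) (nat_lit 0) (XT.nd (nat_lit 78) (nat_lit 0) (nat_lit 0) (XT.lf (nat_lit 0) (nat_lit 36479308798) (nat_lit 76) (nat_lit 73956666206) (nat_lit 76) (nat_lit 68529077233) (nat_lit 1) (nat_lit 4) (nat_lit 2) (nat_lit 5) (nat_lit 2) (nat_lit 4) (nat_lit 367) (nat_lit 289) (nat_lit 244)) (XT.lf (nat_lit 0) (nat_lit 48775204670) (nat_lit 76) (nat_lit 74783742764) (nat_lit 76) (nat_lit 69343151276) (nat_lit 1) (nat_lit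 4) (nat_lit 2) (nat_lit 5) (nat_lit 2) (nat_lit 4) (nat_lit 368) (nat_lit 289) (nat_lit 243))) (XT.nd (nat_lit 78) (nat_lit 0) (nat_lit 0) (XT.lf (nat_lit 0) (nat_lit 62015246192) (nat_lit 76) (nat_lit 75696547957) (nat_lit 76) (nat_lit 70243917103) (nat_lit 1) (nat_lit 4) (nat_lit 2) (nat_lit 5) (nat_lit 2) (nat_lit 4) (nat_lit 369) (nat_lit 289) (nat_lit 242)) (XT.nd (nat_lit 78) (nat_lit 0) (nat_lit 0) (XT.lf (nat_lit 0) (nat_lit 76277892869) (nat_lit 76) (nat_lit 76700491001) (nat_lit 76) (nat_lit 71236712585) (nat_lit 1) (nat_lit 4) (nat_lit 2) (nat_lit 5) (nat_lit 2) (nat_lit 4) (nat_lit 370) (nat_lit 289) (nat_lit 241)) (XT.lf (nat_lit 0) (nat_lit 91647664088) (nat_lit 76) (nat_lit 77801521187) (nat_lit 76) (nat_lit 72327420955) (nat_lit 1) (nat_lit 4) (nat_lit 2) (nat_lit 5) (nat_lit 2) (nat_lit 4) (nat_lit 371) (nat_lit 289) (nat_lit 240))))))))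
noncomputable def xc63 : XT := (XT.nd (nat_lit 1248) (nat_lit 0) (nat_lit 0) (XT.nd (nat_lit 624) (nat_lit 0) (nat_lit 0) (XT.nd (nat_lit 312) (nat_lit 0) (nat_lit 0) (XT.nd (nat_lit 156) (nat_lit 0) (nat_lit 0) (XT.nd (nat_lit 78) (nat_lit 0) (nat_lit 0) (XT.lf (nat_lit 0) (nat_lit 108215639976) (nat_lit 76) (nat_lit 79006163140) (nat_lit 76) (nat_lit 73522505671) (nat_lit 1) (nat_lit 4) (nat_lit 2) (nat_lit 5) (nat_lit 2) (nat_lit 4) (nat_lit 372) (nat_lit 289) (nat_lit 239)) (XT.lf (nat_lit 0) (nat_lit 126080001130) (nat_lit 76) (nat_lit 80321555477) (nat_lit 76) (nat_lit 74829048714) (nat_lit 1) (nat_lit 4) (nat_lit 2) (nat_lit 5) (nat_lit 2) (nat_lit 4) (nat_lit 373) (nat_lit 289) (nat_lit 238))) (XT.nd (nat_lit 78) (nat_lit 0) (nat_lit 0) (XT.lf (nat_lit 0) (nat_lit 145346610432) (nat_lit 76) (nat_lit 81755493117) (nat_lit 76) (nat_lit 76254792563) (nat_lit 1) (nat_lit 4) (nat_lit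 2) (nat_lit 5) (nat_lit 2) (nat_lit 4) (nat_lit 374) (nat_lit 289) (nat_lit 237)) (XT.lf (nat_lit 0) (nat_lit 166129640380) (nat_lit 76) (nat_lit 83316473467) (nat_lit 76) (nat_lit 77808186071) (nat_lit 1) (nat_lit 4) (nat_lit 2) (nat_lit 5) (nat_lit 2) (nat_lit 4) (nat_lit 375) (nat_lit 289) (nat_lit 236)))) (XT.nd (nat_lit 156) (nat_lit 0) (nat_lit 0) (XT.nd (nat_lit 78) (nat_lit 0) (nat_lit 0) (XT.lf (nat_lit 0) (nat_lit 188552249671) (nat_lit 76) (nat_lit 85013746783) (nat_lit 76) (nat_lit 79498434532) (nat_lit 1) (nat_lit 4) (nat_lit 2) (nat_lit 5) (nat_lit 2) (nat_lit 4) (nat_lit 376) (nat_lit 289) (nat_lit 235)) (XT.lf (nat_lit 0) (nat_lit 212747313027) (nat_lit 76) (nat_lit 86857370979) (nat_lit 76) (nat_lit 81335554232) (nat_lit 1) (nat_lit 4) (nat_lit 2) (nat_lit 5) (nat_lit 2) (nat_lit 4) (nat_lit 377) (nat_lit 289) (nat_lit 234))) (XT.nd (nat_lit 78) (nat_lit 0) (nat_lit 0)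 (XT.lf (nat_lit 0) (nat_lit 238858208600) (nat_lit 76) (nat_lit 88858271235) (nat_lit 76) (nat_lit 83330431809) (nat_lit 1) (nat_lit 4) (nat_lit 2) (nat_lit 5) (nat_lit 2) (nat_lit 4) (nat_lit 378) (nat_lit 289) (nat_lit 233)) (XT.lf (nat_lit 0) (nat_lit 267039667623) (nat_lit 76) (nat_lit 91028304740) (nat_lit 76) (nat_lit 85494888757) (nat_lit 1) (nat_lit 4) (nat_lit 2) (nat_lit 5) (nat_lit 2) (nat_lit 4) (nat_lit 379) (nat_lit 289) (nat_lit 232))))) (XT.nd (nat_lit 312) (nat_lit 0) (nat_lit 0) (XT.nd (nat_lit 156) (nat_lit 0) (nat_lit 0) (XT.nd (nat_lit 78) (nat_lit 0) (nat_lit 0) (XT.lf (nat_lit 0) (nat_lit 297458691337) (nat_lit 76) (nat_lit 93380330950) (nat_lit 76) (nat_lit 87841751490) (nat_lit 1) (nat_lit 4) (nat_lit 2) (nat_lit 5) (nat_lit 2) (nat_lit 4) (nat_lit 380) (nat_lit 289) (nat_lit 231)) (XT.lf (nat_lit 0) (nat_lit 330295540620) (nat_lit 76) (nat_lit 95928287799) (nat_lit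 76) (nat_lit 90384927340) (nat_lit 1) (nat_lit 4) (nat_lit 2) (nat_lit 5) (nat_lit 2) (nat_lit 4) (nat_lit 381) (nat_lit 289) (nat_lit 230))) (XT.nd (nat_lit 78) (nat_lit 0) (nat_lit 0) (XT.lf (nat_lit 0) (nat_lit 365744804211) (nat_lit 76) (nat_lit 98687274290) (nat_lit 76) (nat_lit 93139486981) (nat_lit 1) (nat_lit 4) (nat_lit 2) (nat_lit 5) (nat_lit 2) (nat_lit 4) (nat_lit 382) (nat_lit 289) (nat_lit 229)) (XT.lf (nat_lit 0) (nat_lit 404016551820) (nat_lit 76) (nat_lit 101673639973) (nat_lit 76) (nat_lit 96121753729) (nat_lit 1) (nat_lit 4) (nat_lit 2) (nat_lit 5) (nat_lit 2) (nat_lit 4) (nat_lit 383) (nat_lit 289) (nat_lit 228)))) (XT.nd (nat_lit 156) (nat_lit 0) (nat_lit 0) (XT.nd (nat_lit 78) (nat_lit 0) (nat_lit 0) (XT.lf (nat_lit 0) (nat_lit 445337578987) (nat_lit 76) (nat_lit 104905081829) (nat_lit 76) (nat_lit 99349400275) (nat_lit 1) (nat_lit 4) (nat_lit 2) (nat_lit 5) (nat_lit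 2) (nat_lit 4) (nat_lit 384) (nat_lit 289) (nat_lit 227)) (XT.lf (nat_lit 0) (nat_lit 489952751058) (nat_lit 76) (nat_lit 108400749144) (nat_lit 76) (nat_lit 102841553414) (nat_lit 1) (nat_lit 4) (nat_lit 2) (nat_lit 5) (nat_lit 2) (nat_lit 4) (nat_lit 385) (nat_lit 289) (nat_lit 226))) (XT.nd (nat_lit 78) (nat_lit 0) (nat_lit 0) (XT.lf (nat_lit 0) (nat_lit 538126454240) (nat_lit 76) (nat_lit 112181356984) (nat_lit 76) (nat_lit 106618907386) (nat_lit 1) (nat_lit 4) (nat_lit 2) (nat_lit 5) (nat_lit 2) (nat_lit 4) (nat_lit 386) (nat_lit 289) (nat_lit 225)) (XT.lf (nat_lit 0) (nat_lit 590144162328) (nat_lit 76) (nat_lit 116269308949) (nat_lit 76) (nat_lit 110703846512) (nat_lit 1) (nat_lit 4) (nat_lit 2) (nat_lit 5) (nat_lit 2) (nat_lit 4) (nat_lit 387) (nat_lit 289) (nat_lit 224)))))) (XT.nd (nat_lit 624) (nat_lit 0) (nat_lit 0) (XT.nd (nat_lit 312) (nat_lit 0) (nat_lit 0) (XT.nd (nat_lit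 156) (nat_lit 0) (nat_lit 0) (XT.nd (nat_lit 78) (nat_lit 0) (nat_lit 0) (XT.lf (nat_lit 0) (nat_lit 646314128407) (nat_lit 76) (nat_lit 120688829941) (nat_lit 76) (nat_lit 115120577838) (nat_lit 1) (nat_lit 4) (nat_lit 2) (nat_lit 5) (nat_lit 2) (nat_lit 4) (nat_lit 388) (nat_lit 289) (nat_lit 223)) (XT.lf (nat_lit 0) (nat_lit 706969211536) (nat_lit 76) (nat_lit 125466109715) (nat_lit 76) (nat_lit 119895274586) (nat_lit 1) (nat_lit 4) (nat_lit 2) (nat_lit 5) (nat_lit 2) (nat_lit 4) (nat_lit 389) (nat_lit 289) (nat_lit 222))) (XT.nd (nat_lit 78) (nat_lit 0) (nat_lit 0) (XT.lf (nat_lit 0) (nat_lit 772468849244) (nat_lit 76) (nat_lit 130629458075) (nat_lit 76) (nat_lit 125056231257) (nat_lit 1) (nat_lit 4) (nat_lit 2) (nat_lit 5) (nat_lit 2) (nat_lit 4) (nat_lit 390) (nat_lit 289) (nat_lit 221)) (XT.lf (nat_lit 0) (nat_lit 843201187532) (nat_lit 76) (nat_lit 136209472641) (nat_lit 76) (nat_lit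 130634031297) (nat_lit 1) (nat_lit 4) (nat_lit 2) (nat_lit 5) (nat_lit 2) (nat_lit 4) (nat_lit 391) (nat_lit 289) (nat_lit 220)))) (XT.nd (nat_lit 156) (nat_lit 0) (nat_lit 0) (XT.nd (nat_lit 78) (nat_lit 0) (nat_lit 0) (XT.lf (nat_lit 0) (nat_lit 919585380998) (nat_lit 76) (nat_lit 142239220168) (nat_lit 76) (nat_lit 136661728335) (nat_lit 1) (nat_lit 4) (nat_lit 2) (nat_lit 5) (nat_lit 2) (nat_lit 4) (nat_lit 392) (nat_lit 289) (nat_lit 219)) (XT.lf (nat_lit 0) (nat_lit 1002074076714) (nat_lit 76) (nat_lit 148754432492) (nat_lit 76) (nat_lit 143175042059) (nat_lit 1) (nat_lit 4) (nat_lit 2) (nat_lit 5) (nat_lit 2) (nat_lit 4) (nat_lit 393) (nat_lit 289) (nat_lit 218))) (XT.nd (nat_lit 78) (nat_lit 0) (nat_lit 0) (XT.lf (nat_lit 0) (nat_lit 1091156096581) (nat_lit 76) (nat_lit 155793718278) (nat_lit 76) (nat_lit 150212569882) (nat_lit 1) (nat_lit 4) (nat_lit 2) (nat_lit 5) (nat_lit 2)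 (nat_lit 4) (nat_lit 394) (nat_lit 289) (nat_lit 217)) (XT.lf (nat_lit 0) (nat_lit 1187359334050) (nat_lit 76) (nat_lit 163398791813) (nat_lit 76) (nat_lit 157816015673) (nat_lit 1) (nat_lit 4) (nat_lit 2) (nat_lit 5) (nat_lit 2) (nat_lit 4) (nat_lit 395) (nat_lit 289) (nat_lit 216))))) (XT.nd (nat_lit 312) (nat_lit 0) (nat_lit 0) (XT.nd (nat_lit 156) (nat_lit 0) (nat_lit 0) (XT.nd (nat_lit 78) (nat_lit 0) (nat_lit 0) (XT.lf (nat_lit 0) (nat_lit 1291253882379) (nat_lit 76) (nat_lit 171614720199) (nat_lit 76) (nat_lit 166030436889) (nat_lit 1) (nat_lit 4) (nat_lit 2) (nat_lit 5) (nat_lit 2) (nat_lit 4) (nat_lit 396) (nat_lit 289) (nat_lit 215)) (XT.lf (nat_lit 0) (nat_lit 1403455412967) (nat_lit 76) (nat_lit 180490190419) (nat_lit 76) (nat_lit 174904511582) (nat_lit 1) (nat_lit 4) (nat_lit 2) (nat_lit 5) (nat_lit 2) (nat_lit 4) (nat_lit 397) (nat_lit 289) (nat_lit 214))) (XT.nd (nat_lit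 78) (nat_lit 0) (nat_lit 0) (XT.lf (nat_lit 0) (nat_lit 1524628823772) (nat_lit 76) (nat_lit 190077797853) (nat_lit 76) (nat_lit 184490826860) (nat_lit 1) (nat_lit 4) (nat_lit 2) (nat_lit 5) (nat_lit 2) (nat_lit 4) (nat_lit 398) (nat_lit 289) (nat_lit 213)) (XT.lf (nat_lit 0) (nat_lit 1655492179451) (nat_lit 76) (nat_lit 200434357951) (nat_lit 76) (nat_lit 194846190518) (nat_lit 1) (nat_lit 4) (nat_lit 2) (nat_lit 5) (nat_lit 2) (nat_lit 4) (nat_lit 399) (nat_lit 289) (nat_lit 212)))) (XT.nd (nat_lit 156) (nat_lit 0) (nat_lit 0) (XT.nd (nat_lit 78) (nat_lit 0) (nat_lit 0) (XT.lf (nat_lit 0) (nat_lit 1796820966556) (nat_lit 76) (nat_lit 211621242922) (nat_lit 76) (nat_lit 206031967674) (nat_lit 1) (nat_lit 4) (nat_lit 2) (nat_lit 5) (nat_lit 2) (nat_lit 4) (nat_lit 400) (nat_lit 289) (nat_lit 211)) (XT.lf (nat_lit 0) (nat_lit 1949452689011) (nat_lit 76) (nat_lit 223704745417) (nat_lit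 76) (nat_lit 218114444415) (nat_lit 1) (nat_lit 4) (nat_lit 2) (nat_lit 5) (nat_lit 2) (nat_lit 4) (nat_lit 401) (nat_lit 289) (nat_lit 210))) (XT.nd (nat_lit 78) (nat_lit 0) (nat_lit 0) (XT.lf (nat_lit 0) (nat_lit 2114291831096) (nat_lit 76) (nat_lit 236756471378) (nat_lit 76) (nat_lit 231165220603) (nat_lit 1) (nat_lit 4) (nat_lit 2) (nat_lit 5) (nat_lit 2) (nat_lit 4) (nat_lit 402) (nat_lit 289) (nat_lit 209)) (XT.nd (nat_lit 78) (nat_lit 0) (nat_lit 0) (XT.lf (nat_lit 0) (nat_lit 2292315217359) (nat_lit 76) (nat_lit 250853764365) (nat_lit 76) (nat_lit 245261634171) (nat_lit 1) (nat_lit 4) (nat_lit 2) (nat_lit 5) (nat_lit 2) (nat_lit 4) (nat_lit 403) (nat_lit 289) (nat_lit 208)) (XT.lf (nat_lit 0) (nat_lit 2484577801198) (nat_lit 76) (nat_lit 266080163892) (nat_lit 76) (nat_lit 260487219421) (nat_lit 1) (nat_lit 4) (nat_lit 2) (nat_lit 5) (nat_lit 2) (nat_lit 4) (nat_lit 404) (nat_lit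 289) (nat_lit 207))))))))
noncomputable def xc64 : XT := (XT.nd (nat_lit 40950) (nat_lit 0) (nat_lit 304) (XT.nd (nat_lit 40326) (nat_lit 0) (nat_lit 1140) (XT.nd (nat_lit 312) (nat_lit 0) (nat_lit 0) (XT.nd (nat_lit 156) (nat_lit 0) (nat_lit 0) (XT.nd (nat_lit 78) (nat_lit 0) (nat_lit 0) (XT.lf (nat_lit 0) (nat_lit 2692218916444) (nat_lit 76) (nat_lit 282525900475) (nat_lit 76) (nat_lit 276932202044) (nat_lit 1) (nat_lit 4) (nat_lit 2) (nat_lit 5) (nat_lit 2) (nat_lit 4) (nat_lit 405) (nat_lit 289) (nat_lit 206)) (XT.lf (nat_lit 0) (nat_lit 2916469028965) (nat_lit 76) (nat_lit 300288430331) (nat_lit 76) (nat_lit 294694033789) (nat_lit 1) (nat_lit 4) (nat_lit 2) (nat_lit 5) (nat_lit 2) (nat_lit 4) (nat_lit 406) (nat_lit 289) (nat_lit 205))) (XT.nd (nat_lit 78) (nat_lit 0) (nat_lit 0) (XT.lf (nat_lit 0) (nat_lit 3158657028316) (nat_lit 76) (nat_lit 319473012897) (nat_lit 76) (nat_lit 313877969955)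 (nat_lit 1) (nat_lit 4) (nat_lit 2) (nat_lit 5) (nat_lit 2) (nat_lit 4) (nat_lit 407) (nat_lit 289) (nat_lit 204)) (XT.lf (nat_lit 0) (nat_lit 3420218102643) (nat_lit 76) (nat_lit 340193334586) (nat_lit 76) (nat_lit 334597693126) (nat_lit 1) (nat_lit 4) (nat_lit 2) (nat_lit 5) (nat_lit 2) (nat_lit 4) (nat_lit 408) (nat_lit 289) (nat_lit 203)))) (XT.nd (nat_lit 156) (nat_lit 0) (nat_lit 0) (XT.nd (nat_lit 78) (nat_lit 0) (nat_lit 0) (XT.lf (nat_lit 0) (nat_lit 3702702243495) (nat_lit 76) (nat_lit 362572182491) (nat_lit 76) (nat_lit 356975986848) (nat_lit 1) (nat_lit 4) (nat_lit 2) (nat_lit 5) (nat_lit 2) (nat_lit 4) (nat_lit 409) (nat_lit 289) (nat_lit 202)) (XT.lf (nat_lit 0) (nat_lit 4007783430969) (nat_lit 76) (nat_lit 386742172007) (nat_lit 76) (nat_lit 381145463232) (nat_lit 1) (nat_lit 4) (nat_lit 2) (nat_lit 5) (nat_lit 2) (nat_lit 4) (nat_lit 410) (nat_lit 289) (nat_lit 201)))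 (XT.nd (nat_lit 39780) (nat_lit 0) (nat_lit 2052) (XT.lf (nat_lit 0) (nat_lit 4337269553581) (nat_lit 76) (nat_lit 412846532702) (nat_lit 76) (nat_lit 407249348803) (nat_lit 1) (nat_lit 4) (nat_lit 2) (nat_lit 5) (nat_lit 2) (nat_lit 4) (nat_lit 411) (nat_lit 289) (nat_lit 200)) (XT.lf (nat_lit 0) (nat_lit 2689280258) (nat_lit 152) (nat_lit 1071938715) (nat_lit 152) (nat_lit 1071938715) (nat_lit 28) (nat_lit 4) (nat_lit 30) (nat_lit 5) (nat_lit 30) (nat_lit 4) (nat_lit 320) (nat_lit 290) (nat_lit 290))))) (XT.nd (nat_lit 312) (nat_lit 380) (nat_lit 0) (XT.nd (nat_lit 156) (nat_lit 152) (nat_lit 0) (XT.nd (nat_lit 78) (nat_lit 152) (nat_lit 0) (XT.lf (nat_lit 0) (nat_lit 1980811035) (nat_lit 228) (nat_lit 6843485332) (nat_lit 0) (nat_lit 1212589590) (nat_lit 25) (nat_lit 5) (nat_lit 28) (nat_lit 4) (nat_lit 25) (nat_lit 4) (nat_lit 321) (nat_lit 290) (nat_lit 289)) (XT.lf (nat_lit 0) (nat_lit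 596715689) (nat_lit 152) (nat_lit 5660391980) (nat_lit 152) (nat_lit 4180854382) (nat_lit 23) (nat_lit 4) (nat_lit 25) (nat_lit 5) (nat_lit 25) (nat_lit 4) (nat_lit 322) (nat_lit 290) (nat_lit 288))) (XT.nd (nat_lit 78) (nat_lit 152) (nat_lit 0) (XT.lf (nat_lit 0) (nat_lit 8623761563) (nat_lit 152) (nat_lit 2195170346) (nat_lit 152) (nat_lit 57006680) (nat_lit 23) (nat_lit 4) (nat_lit 25) (nat_lit 5) (nat_lit 25) (nat_lit 4) (nat_lit 323) (nat_lit 290) (nat_lit 287)) (XT.lf (nat_lit 0) (nat_lit 4123191309) (nat_lit 152) (nat_lit 5643094438) (nat_lit 0) (nat_lit 1578744441) (nat_lit 21) (nat_lit 5) (nat_lit 23) (nat_lit 4) (nat_lit 21) (nat_lit 4) (nat_lit 324) (nat_lit 290) (nat_lit 286)))) (XT.nd (nat_lit 156) (nat_lit 152) (nat_lit 0) (XT.nd (nat_lit 78) (nat_lit 76) (nat_lit 0) (XT.lf (nat_lit 0) (nat_lit 2240207866) (nat_lit 152) (nat_lit 6341537739) (nat_lit 152) (nat_lit 3274252264)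 (nat_lit 19) (nat_lit 4) (nat_lit 21) (nat_lit 5) (nat_lit 21) (nat_lit 4) (nat_lit 325) (nat_lit 290) (nat_lit 285)) (XT.lf (nat_lit 0) (nat_lit 872793682) (nat_lit 228) (nat_lit 1735984437) (nat_lit 76) (nat_lit 9802707269) (nat_lit 18) (nat_lit 5) (nat_lit 21) (nat_lit 5) (nat_lit 19) (nat_lit 4) (nat_lit 326) (nat_lit 290) (nat_lit 284))) (XT.nd (nat_lit 78) (nat_lit 76) (nat_lit 0) (XT.lf (nat_lit 0) (nat_lit 5163440343) (nat_lit 152) (nat_lit 6382185821) (nat_lit 0) (nat_lit 1460065222) (nat_lit 17) (nat_lit 5) (nat_lit 19) (nat_lit 4) (nat_lit 17) (nat_lit 4) (nat_lit 327) (nat_lit 290) (nat_lit 283)) (XT.lf (nat_lit 0) (nat_lit 1763374535) (nat_lit 76) (nat_lit 7987798929) (nat_lit 76) (nat_lit 3900121823) (nat_lit 16) (nat_lit 4) (nat_lit 17) (nat_lit 5) (nat_lit 17) (nat_lit 4) (nat_lit 328) (nat_lit 290) (nat_lit 282)))))) (XT.nd (nat_lit 624) (nat_lit 380) (nat_lit 0) (XT.nd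 (nat_lit 312) (nat_lit 228) (nat_lit 0) (XT.nd (nat_lit 156) (nat_lit 76) (nat_lit 0) (XT.nd (nat_lit 78) (nat_lit 76) (nat_lit 0) (XT.lf (nat_lit 0) (nat_lit 314886259) (nat_lit 152) (nat_lit 3788548857) (nat_lit 76) (nat_lit 10246538115) (nat_lit 15) (nat_lit 5) (nat_lit 17) (nat_lit 5) (nat_lit 16) (nat_lit 4) (nat_lit 329) (nat_lit 290) (nat_lit 281)) (XT.lf (nat_lit 0) (nat_lit 4586487084) (nat_lit 152) (nat_lit 10348627142) (nat_lit 0) (nat_lit 167052559) (nat_lit 14) (nat_lit 5) (nat_lit 16) (nat_lit 4) (nat_lit 14) (nat_lit 4) (nat_lit 330) (nat_lit 290) (nat_lit 280))) (XT.nd (nat_lit 78) (nat_lit 76) (nat_lit 0) (XT.lf (nat_lit 0) (nat_lit 9226652501) (nat_lit 152) (nat_lit 2161115490) (nat_lit 0) (nat_lit 4524744545) (nat_lit 14) (nat_lit 5) (nat_lit 16) (nat_lit 4) (nat_lit 14) (nat_lit 4) (nat_lit 331) (nat_lit 290) (nat_lit 279)) (XT.lf (nat_lit 0) (nat_lit 6701789794) (nat_lit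 76) (nat_lit 7525176618) (nat_lit 76) (nat_lit 2561719189) (nat_lit 13) (nat_lit 4) (nat_lit 14) (nat_lit 5) (nat_lit 14) (nat_lit 4) (nat_lit 332) (nat_lit 290) (nat_lit 278)))) (XT.nd (nat_lit 156) (nat_lit 76) (nat_lit 0) (XT.nd (nat_lit 78) (nat_lit 76) (nat_lit 0) (XT.lf (nat_lit 0) (nat_lit 1687013577) (nat_lit 152) (nat_lit 1696644626) (nat_lit 76) (nat_lit 14356605657) (nat_lit 12) (nat_lit 5) (nat_lit 14) (nat_lit 5) (nat_lit 13) (nat_lit 4) (nat_lit 333) (nat_lit 290) (nat_lit 277)) (XT.lf (nat_lit 0) (nat_lit 6185301491) (nat_lit 152) (nat_lit 11415945584) (nat_lit 0) (nat_lit 1157644653) (nat_lit 11) (nat_lit 5) (nat_lit 13) (nat_lit 4) (nat_lit 11) (nat_lit 4) (nat_lit 334) (nat_lit 290) (nat_lit 276))) (XT.nd (nat_lit 78) (nat_lit 76) (nat_lit 0) (XT.lf (nat_lit 0) (nat_lit 11022051309) (nat_lit 152) (nat_lit 3036606948) (nat_lit 0) (nat_lit 5802147801) (nat_lit 11) (nat_lit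 5) (nat_lit 13) (nat_lit 4) (nat_lit 11) (nat_lit 4) (nat_lit 335) (nat_lit 290) (nat_lit 275)) (XT.lf (nat_lit 0) (nat_lit 6042760284) (nat_lit 76) (nat_lit 10203047746) (nat_lit 76) (nat_lit 4805138061) (nat_lit 10) (nat_lit 4) (nat_lit 11) (nat_lit 5) (nat_lit 11) (nat_lit 4) (nat_lit 336) (nat_lit 290) (nat_lit 274))))) (XT.nd (nat_lit 312) (nat_lit 228) (nat_lit 0) (XT.nd (nat_lit 156) (nat_lit 0) (nat_lit 0) (XT.nd (nat_lit 78) (nat_lit 152) (nat_lit 0) (XT.lf (nat_lit 0) (nat_lit 15755470901) (nat_lit 76) (nat_lit 6074129007) (nat_lit 76) (nat_lit 511398789) (nat_lit 10) (nat_lit 4) (nat_lit 11) (nat_lit 5) (nat_lit 11) (nat_lit 4) (nat_lit 337) (nat_lit 290) (nat_lit 273)) (XT.lf (nat_lit 0) (nat_lit 2272251369) (nat_lit 76) (nat_lit 1567937666) (nat_lit 152) (nat_lit 19892530951) (nat_lit 8) (nat_lit 5) (nat_lit 9) (nat_lit 5) (nat_lit 10) (nat_lit 4) (nat_lit 338) (nat_lit 290)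 (nat_lit 272))) (XT.nd (nat_lit 78) (nat_lit 0) (nat_lit 0) (XT.lf (nat_lit 0) (nat_lit 8643616101) (nat_lit 152) (nat_lit 13359857134) (nat_lit 0) (nat_lit 3220793077) (nat_lit 8) (nat_lit 5) (nat_lit 10) (nat_lit 4) (nat_lit 8) (nat_lit 4) (nat_lit 339) (nat_lit 290) (nat_lit 271)) (XT.lf (nat_lit 0) (nat_lit 13749144059) (nat_lit 152) (nat_lit 4887446152) (nat_lit 0) (nat_lit 8205173022) (nat_lit 8) (nat_lit 5) (nat_lit 10) (nat_lit 4) (nat_lit 8) (nat_lit 4) (nat_lit 340) (nat_lit 290) (nat_lit 270)))) (XT.nd (nat_lit 156) (nat_lit 152) (nat_lit 0) (XT.nd (nat_lit 78) (nat_lit 0) (nat_lit 0) (XT.lf (nat_lit 0) (nat_lit 4257665837) (nat_lit 76) (nat_lit 14994050078) (nat_lit 76) (nat_lit 9337904955) (nat_lit 7) (nat_lit 4) (nat_lit 8) (nat_lit 5) (nat_lit 8) (nat_lit 4) (nat_lit 341) (nat_lit 290) (nat_lit 269)) (XT.lf (nat_lit 0) (nat_lit 14199783570) (nat_lit 76) (nat_lit 11017863375)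 (nat_lit 76) (nat_lit 5257853358) (nat_lit 7) (nat_lit 4) (nat_lit 8) (nat_lit 5) (nat_lit 8) (nat_lit 4) (nat_lit 342) (nat_lit 290) (nat_lit 268))) (XT.nd (nat_lit 78) (nat_lit 152) (nat_lit 0) (XT.lf (nat_lit 0) (nat_lit 24740459046) (nat_lit 76) (nat_lit 6818098955) (nat_lit 76) (nat_lit 961917739) (nat_lit 7) (nat_lit 4) (nat_lit 8) (nat_lit 5) (nat_lit 8) (nat_lit 4) (nat_lit 343) (nat_lit 290) (nat_lit 267)) (XT.lf (nat_lit 0) (nat_lit 1178453514) (nat_lit 76) (nat_lit 2246393666) (nat_lit 152) (nat_lit 31302672028) (nat_lit 5) (nat_lit 5) (nat_lit 6) (nat_lit 5) (nat_lit 7) (nat_lit 4) (nat_lit 344) (nat_lit 290) (nat_lit 266)))))))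
noncomputable def xc65 : XT := (XT.nd (nat_lit 1248) (nat_lit 76) (nat_lit 0) (XT.nd (nat_lit 624) (nat_lit 152) (nat_lit 0) (XT.nd (nat_lit 312) (nat_lit 76) (nat_lit 0) (XT.nd (nat_lit 156) (nat_lit 0) (nat_lit 0) (XT.nd (nat_lit 78) (nat_lit 0) (nat_lit 0) (XT.lf (nat_lit 0) (nat_lit 8297021172) (nat_lit 152) (nat_lit 26081388635) (nat_lit 0) (nat_lit 2715836057) (nat_lit 5) (nat_lit 5) (nat_lit 7) (nat_lit 4) (nat_lit 5) (nat_lit 4) (nat_lit 345) (nat_lit 290) (nat_lit 265)) (XT.lf (nat_lit 0) (nat_lit 13527939217) (nat_lit 152) (nat_lit 18248819364) (nat_lit 0) (nat_lit 7876065401) (nat_lit 5) (nat_lit 5) (nat_lit 7) (nat_lit 4) (nat_lit 5) (nat_lit 4) (nat_lit 346) (nat_lit 290) (nat_lit 264))) (XT.nd (nat_lit 78) (nat_lit 0) (nat_lit 0) (XT.lf (nat_lit 0) (nat_lit 19094573527) (nat_lit 152) (nat_lit 9950916835) (nat_lit 0) (nat_lit 13377247209) (nat_lit 5) (nat_lit 5) (nat_lit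 7) (nat_lit 4) (nat_lit 5) (nat_lit 4) (nat_lit 347) (nat_lit 290) (nat_lit 263)) (XT.lf (nat_lit 0) (nat_lit 25029911564) (nat_lit 152) (nat_lit 1138508291) (nat_lit 0) (nat_lit 19251981077) (nat_lit 5) (nat_lit 5) (nat_lit 7) (nat_lit 4) (nat_lit 5) (nat_lit 4) (nat_lit 348) (nat_lit 290) (nat_lit 262)))) (XT.nd (nat_lit 156) (nat_lit 0) (nat_lit 0) (XT.nd (nat_lit 78) (nat_lit 0) (nat_lit 0) (XT.lf (nat_lit 0) (nat_lit 8674564809) (nat_lit 76) (nat_lit 22903184384) (nat_lit 76) (nat_lit 17069138926) (nat_lit 4) (nat_lit 4) (nat_lit 5) (nat_lit 5) (nat_lit 5) (nat_lit 4) (nat_lit 349) (nat_lit 290) (nat_lit 261)) (XT.lf (nat_lit 0) (nat_lit 19202667124) (nat_lit 76) (nat_lit 19408939134) (nat_lit 76) (nat_lit 13522935371) (nat_lit 4) (nat_lit 4) (nat_lit 5) (nat_lit 5) (nat_lit 5) (nat_lit 4) (nat_lit 350) (nat_lit 290) (nat_lit 260))) (XT.nd (nat_lit 78) (nat_lit 0) (nat_lit 0) (XT.lf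 (nat_lit 0) (nat_lit 30448235577) (nat_lit 76) (nat_lit 15696106302) (nat_lit 76) (nat_lit 9761992996) (nat_lit 4) (nat_lit 4) (nat_lit 5) (nat_lit 5) (nat_lit 5) (nat_lit 4) (nat_lit 351) (nat_lit 290) (nat_lit 259)) (XT.lf (nat_lit 0) (nat_lit 42477910576) (nat_lit 76) (nat_lit 11742683916) (nat_lit 76) (nat_lit 5764024737) (nat_lit 4) (nat_lit 4) (nat_lit 5) (nat_lit 5) (nat_lit 5) (nat_lit 4) (nat_lit 352) (nat_lit 290) (nat_lit 258))))) (XT.nd (nat_lit 312) (nat_lit 0) (nat_lit 0) (XT.nd (nat_lit 156) (nat_lit 76) (nat_lit 0) (XT.nd (nat_lit 78) (nat_lit 76) (nat_lit 0) (XT.lf (nat_lit 0) (nat_lit 55362979082) (nat_lit 76) (nat_lit 7525244287) (nat_lit 76) (nat_lit 1505338929) (nat_lit 4) (nat_lit 4) (nat_lit 5) (nat_lit 5) (nat_lit 5) (nat_lit 4) (nat_lit 353) (nat_lit 290) (nat_lit 257)) (XT.lf (nat_lit 0) (nat_lit 2887262934) (nat_lit 152) (nat_lit 52589360) (nat_lit 76) (nat_lit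 66213591238) (nat_lit 3) (nat_lit 5) (nat_lit 5) (nat_lit 5) (nat_lit 4) (nat_lit 4) (nat_lit 354) (nat_lit 290) (nat_lit 256))) (XT.nd (nat_lit 78) (nat_lit 0) (nat_lit 0) (XT.lf (nat_lit 0) (nat_lit 7797119419) (nat_lit 152) (nat_lit 64319079809) (nat_lit 0) (nat_lit 2155028480) (nat_lit 2) (nat_lit 5) (nat_lit 4) (nat_lit 4) (nat_lit 2) (nat_lit 4) (nat_lit 355) (nat_lit 290) (nat_lit 255)) (XT.lf (nat_lit 0) (nat_lit 13129721720) (nat_lit 152) (nat_lit 59209015977) (nat_lit 0) (nat_lit 7457313608) (nat_lit 2) (nat_lit 5) (nat_lit 4) (nat_lit 4) (nat_lit 2) (nat_lit 4) (nat_lit 356) (nat_lit 290) (nat_lit 254)))) (XT.nd (nat_lit 156) (nat_lit 0) (nat_lit 0) (XT.nd (nat_lit 78) (nat_lit 0) (nat_lit 0) (XT.lf (nat_lit 0) (nat_lit 18844600965) (nat_lit 152) (nat_lit 53777697212) (nat_lit 0) (nat_lit 13144121398) (nat_lit 2) (nat_lit 5) (nat_lit 4) (nat_lit 4) (nat_lit 2) (nat_lit 4) (nat_lit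 357) (nat_lit 290) (nat_lit 253)) (XT.lf (nat_lit 0) (nat_lit 24975623107) (nat_lit 152) (nat_lit 47992937921) (nat_lit 0) (nat_lit 19249151450) (nat_lit 2) (nat_lit 5) (nat_lit 4) (nat_lit 4) (nat_lit 2) (nat_lit 4) (nat_lit 358) (nat_lit 290) (nat_lit 252))) (XT.nd (nat_lit 78) (nat_lit 0) (nat_lit 0) (XT.lf (nat_lit 0) (nat_lit 31559120128) (nat_lit 152) (nat_lit 41820458048) (nat_lit 0) (nat_lit 25808581722) (nat_lit 2) (nat_lit 5) (nat_lit 4) (nat_lit 4) (nat_lit 2) (nat_lit 4) (nat_lit 359) (nat_lit 290) (nat_lit 251)) (XT.lf (nat_lit 0) (nat_lit 38634105344) (nat_lit 152) (nat_lit 35223679936) (nat_lit 0) (nat_lit 32861282911) (nat_lit 2) (nat_lit 5) (nat_lit 4) (nat_lit 4) (nat_lit 2) (nat_lit 4) (nat_lit 360) (nat_lit 290) (nat_lit 250)))))) (XT.nd (nat_lit 624) (nat_lit 0) (nat_lit 0) (XT.nd (nat_lit 312) (nat_lit 76) (nat_lit 0) (XT.nd (nat_lit 156) (nat_lit 0) (nat_lit 0)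 (XT.nd (nat_lit 78) (nat_lit 0) (nat_lit 0) (XT.lf (nat_lit 0) (nat_lit 46242504593) (nat_lit 152) (nat_lit 28163511565) (nat_lit 0) (nat_lit 40449048802) (nat_lit 2) (nat_lit 5) (nat_lit 4) (nat_lit 4) (nat_lit 2) (nat_lit 4) (nat_lit 361) (nat_lit 290) (nat_lit 249)) (XT.lf (nat_lit 0) (nat_lit 54429404686) (nat_lit 152) (nat_lit 20598114902) (nat_lit 0) (nat_lit 48616843934) (nat_lit 2) (nat_lit 5) (nat_lit 4) (nat_lit 4) (nat_lit 2) (nat_lit 4) (nat_lit 362) (nat_lit 290) (nat_lit 248))) (XT.nd (nat_lit 78) (nat_lit 0) (nat_lit 0) (XT.lf (nat_lit 0) (nat_lit 63243320585) (nat_lit 152) (nat_lit 12482657965) (nat_lit 0) (nat_lit 57413070054) (nat_lit 2) (nat_lit 5) (nat_lit 4) (nat_lit 4) (nat_lit 2) (nat_lit 4) (nat_lit 363) (nat_lit 290) (nat_lit 247)) (XT.lf (nat_lit 0) (nat_lit 72736482905) (nat_lit 152) (nat_lit 3769049158) (nat_lit 0) (nat_lit 66889852949) (nat_lit 2) (nat_lit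 5) (nat_lit 4) (nat_lit 4) (nat_lit 2) (nat_lit 4) (nat_lit 364) (nat_lit 290) (nat_lit 246)))) (XT.nd (nat_lit 156) (nat_lit 0) (nat_lit 0) (XT.nd (nat_lit 78) (nat_lit 0) (nat_lit 0) (XT.lf (nat_lit 0) (nat_lit 5888936155) (nat_lit 76) (nat_lit 77217840322) (nat_lit 76) (nat_lit 71356044232) (nat_lit 1) (nat_lit 4) (nat_lit 2) (nat_lit 5) (nat_lit 2) (nat_lit 4) (nat_lit 365) (nat_lit 290) (nat_lit 245)) (XT.lf (nat_lit 0) (nat_lit 16487806309) (nat_lit 76) (nat_lit 77898654271) (nat_lit 76) (nat_lit 72022815464) (nat_lit 1) (nat_lit 4) (nat_lit 2) (nat_lit 5) (nat_lit 2) (nat_lit 4) (nat_lit 366) (nat_lit 290) (nat_lit 244))) (XT.nd (nat_lit 78) (nat_lit 0) (nat_lit 0) (XT.lf (nat_lit 0) (nat_lit 27891897974) (nat_lit 76) (nat_lit 78655060847) (nat_lit 76) (nat_lit 72766219524) (nat_lit 1) (nat_lit 4) (nat_lit 2) (nat_lit 5) (nat_lit 2) (nat_lit 4) (nat_lit 367) (nat_lit 290) (nat_lit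 243)) (XT.lf (nat_lit 0) (nat_lit 40168790952) (nat_lit 76) (nat_lit 79491542458) (nat_lit 76) (nat_lit 73590661769) (nat_lit 1) (nat_lit 4) (nat_lit 2) (nat_lit 5) (nat_lit 2) (nat_lit 4) (nat_lit 368) (nat_lit 290) (nat_lit 242))))) (XT.nd (nat_lit 312) (nat_lit 0) (nat_lit 0) (XT.nd (nat_lit 156) (nat_lit 0) (nat_lit 0) (XT.nd (nat_lit 78) (nat_lit 0) (nat_lit 0) (XT.lf (nat_lit 0) (nat_lit 53391237201) (nat_lit 76) (nat_lit 80413056034) (nat_lit 76) (nat_lit 74501027783) (nat_lit 1) (nat_lit 4) (nat_lit 2) (nat_lit 5) (nat_lit 2) (nat_lit 4) (nat_lit 369) (nat_lit 290) (nat_lit 241)) (XT.lf (nat_lit 0) (nat_lit 67637591959) (nat_lit 76) (nat_lit 81425062394) (nat_lit 76) (nat_lit 75502712327) (nat_lit 1) (nat_lit 4) (nat_lit 2) (nat_lit 5) (nat_lit 2) (nat_lit 4) (nat_lit 370) (nat_lit 290) (nat_lit 240))) (XT.nd (nat_lit 78) (nat_lit 0) (nat_lit 0) (XT.lf (nat_lit 0) (nat_lit 82992278069)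 (nat_lit 76) (nat_lit 82533558615) (nat_lit 76) (nat_lit 76601651311) (nat_lit 1) (nat_lit 4) (nat_lit 2) (nat_lit 5) (nat_lit 2) (nat_lit 4) (nat_lit 371) (nat_lit 290) (nat_lit 239)) (XT.lf (nat_lit 0) (nat_lit 99546286262) (nat_lit 76) (nat_lit 83745113562) (nat_lit 76) (nat_lit 77804356964) (nat_lit 1) (nat_lit 4) (nat_lit 2) (nat_lit 5) (nat_lit 2) (nat_lit 4) (nat_lit 372) (nat_lit 290) (nat_lit 238)))) (XT.nd (nat_lit 156) (nat_lit 0) (nat_lit 0) (XT.nd (nat_lit 78) (nat_lit 0) (nat_lit 0) (XT.lf (nat_lit 0) (nat_lit 117397714366) (nat_lit 76) (nat_lit 85066906820) (nat_lit 76) (nat_lit 79117956432) (nat_lit 1) (nat_lit 4) (nat_lit 2) (nat_lit 5) (nat_lit 2) (nat_lit 4) (nat_lit 373) (nat_lit 290) (nat_lit 237)) (XT.lf (nat_lit 0) (nat_lit 136652348620) (nat_lit 76) (nat_lit 86506771238) (nat_lit 76) (nat_lit 80550234007) (nat_lit 1) (nat_lit 4) (nat_lit 2) (nat_lit 5) (nat_lit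 2) (nat_lit 4) (nat_lit 374) (nat_lit 290) (nat_lit 236))) (XT.nd (nat_lit 78) (nat_lit 0) (nat_lit 0) (XT.lf (nat_lit 0) (nat_lit 157424290562) (nat_lit 76) (nat_lit 88073239347) (nat_lit 76) (nat_lit 82109677261) (nat_lit 1) (nat_lit 4) (nat_lit 2) (nat_lit 5) (nat_lit 2) (nat_lit 4) (nat_lit 375) (nat_lit 290) (nat_lit 235)) (XT.nd (nat_lit 78) (nat_lit 0) (nat_lit 0) (XT.lf (nat_lit 0) (nat_lit 179836633181) (nat_lit 76) (nat_lit 89775593919) (nat_lit 76) (nat_lit 83805527339) (nat_lit 1) (nat_lit 4) (nat_lit 2) (nat_lit 5) (nat_lit 2) (nat_lit 4) (nat_lit 376) (nat_lit 290) (nat_lit 234)) (XT.lf (nat_lit 0) (nat_lit 204022190358) (nat_lit 76) (nat_lit 91623922983) (nat_lit 76) (nat_lit 85647833722) (nat_lit 1) (nat_lit 4) (nat_lit 2) (nat_lit 5) (nat_lit 2) (nat_lit 4) (nat_lit 377) (nat_lit 290) (nat_lit 233))))))))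
noncomputable def xc66 : XT := (XT.nd (nat_lit 1248) (nat_lit 0) (nat_lit 0) (XT.nd (nat_lit 624) (nat_lit 0) (nat_lit 0) (XT.nd (nat_lit 312) (nat_lit 0) (nat_lit 0) (XT.nd (nat_lit 156) (nat_lit 0) (nat_lit 0) (XT.nd (nat_lit 78) (nat_lit 0) (nat_lit 0) (XT.lf (nat_lit 0) (nat_lit 230124283914) (nat_lit 76) (nat_lit 93629179599) (nat_lit 76) (nat_lit 87647513782) (nat_lit 1) (nat_lit 4) (nat_lit 2) (nat_lit 5) (nat_lit 2) (nat_lit 4) (nat_lit 378) (nat_lit 290) (nat_lit 232)) (XT.lf (nat_lit 0) (nat_lit 258297592922) (nat_lit 76) (nat_lit 95803246770) (nat_lit 76) (nat_lit 89816417475) (nat_lit 1) (nat_lit 4) (nat_lit 2) (nat_lit 5) (nat_lit 2) (nat_lit 4) (nat_lit 379) (nat_lit 290) (nat_lit 231))) (XT.nd (nat_lit 78) (nat_lit 0) (nat_lit 0) (XT.lf (nat_lit 0) (nat_lit 288709070325) (nat_lit 76) (nat_lit 98159007856) (nat_lit 76) (nat_lit 92167397563) (nat_lit 1) (nat_lit 4) (nat_lit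 2) (nat_lit 5) (nat_lit 2) (nat_lit 4) (nat_lit 380) (nat_lit 290) (nat_lit 230)) (XT.lf (nat_lit 0) (nat_lit 321538932284) (nat_lit 76) (nat_lit 100710422923) (nat_lit 76) (nat_lit 94714385780) (nat_lit 1) (nat_lit 4) (nat_lit 2) (nat_lit 5) (nat_lit 2) (nat_lit 4) (nat_lit 381) (nat_lit 290) (nat_lit 229)))) (XT.nd (nat_lit 156) (nat_lit 0) (nat_lit 0) (XT.nd (nat_lit 78) (nat_lit 0) (nat_lit 0) (XT.lf (nat_lit 0) (nat_lit 356981726130) (nat_lit 76) (nat_lit 103472611468) (nat_lit 76) (nat_lit 97472475390) (nat_lit 1) (nat_lit 4) (nat_lit 2) (nat_lit 5) (nat_lit 2) (nat_lit 4) (nat_lit 382) (nat_lit 290) (nat_lit 228)) (XT.lf (nat_lit 0) (nat_lit 395247483233) (nat_lit 76) (nat_lit 106461942016) (nat_lit 76) (nat_lit 100458010627) (nat_lit 1) (nat_lit 4) (nat_lit 2) (nat_lit 5) (nat_lit 2) (nat_lit 4) (nat_lit 383) (nat_lit 290) (nat_lit 227))) (XT.nd (nat_lit 78) (nat_lit 0) (nat_lit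 0) (XT.lf (nat_lit 0) (nat_lit 436562963636) (nat_lit 76) (nat_lit 109696129118) (nat_lit 76) (nat_lit 103688683552) (nat_lit 1) (nat_lit 4) (nat_lit 2) (nat_lit 5) (nat_lit 2) (nat_lit 4) (nat_lit 384) (nat_lit 290) (nat_lit 226)) (XT.lf (nat_lit 0) (nat_lit 481172999816) (nat_lit 76) (nat_lit 113194338326) (nat_lit 76) (nat_lit 107183638894) (nat_lit 1) (nat_lit 4) (nat_lit 2) (nat_lit 5) (nat_lit 2) (nat_lit 4) (nat_lit 385) (nat_lit 290) (nat_lit 225))))) (XT.nd (nat_lit 312) (nat_lit 0) (nat_lit 0) (XT.nd (nat_lit 156) (nat_lit 0) (nat_lit 0) (XT.nd (nat_lit 78) (nat_lit 0) (nat_lit 0) (XT.lf (nat_lit 0) (nat_lit 529341947541) (nat_lit 76) (nat_lit 116977299771) (nat_lit 76) (nat_lit 110963587499) (nat_lit 1) (nat_lit 4) (nat_lit 2) (nat_lit 5) (nat_lit 2) (nat_lit 4) (nat_lit 386) (nat_lit 290) (nat_lit 224)) (XT.lf (nat_lit 0) (nat_lit 581355252429) (nat_lit 76) (nat_lit 121067431001)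 (nat_lit 76) (nat_lit 115050929062) (nat_lit 1) (nat_lit 4) (nat_lit 2) (nat_lit 5) (nat_lit 2) (nat_lit 4) (nat_lit 387) (nat_lit 290) (nat_lit 223))) (XT.nd (nat_lit 78) (nat_lit 0) (nat_lit 0) (XT.lf (nat_lit 0) (nat_lit 637521141472) (nat_lit 76) (nat_lit 125488969830) (nat_lit 76) (nat_lit 119469884868) (nat_lit 1) (nat_lit 4) (nat_lit 2) (nat_lit 5) (nat_lit 2) (nat_lit 4) (nat_lit 388) (nat_lit 290) (nat_lit 222)) (XT.lf (nat_lit 0) (nat_lit 698172449566) (nat_lit 76) (nat_lit 130268117971) (nat_lit 76) (nat_lit 124246641319) (nat_lit 1) (nat_lit 4) (nat_lit 2) (nat_lit 5) (nat_lit 2) (nat_lit 4) (nat_lit 389) (nat_lit 290) (nat_lit 221)))) (XT.nd (nat_lit 156) (nat_lit 0) (nat_lit 0) (XT.nd (nat_lit 78) (nat_lit 0) (nat_lit 0) (XT.lf (nat_lit 0) (nat_lit 763668591872) (nat_lit 76) (nat_lit 135433196302) (nat_lit 76) (nat_lit 129409505122) (nat_lit 1) (nat_lit 4) (nat_lit 2) (nat_lit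 5) (nat_lit 2) (nat_lit 4) (nat_lit 390) (nat_lit 290) (nat_lit 220)) (XT.lf (nat_lit 0) (nat_lit 834397693677) (nat_lit 76) (nat_lit 141014812693) (nat_lit 76) (nat_lit 134989071025) (nat_lit 1) (nat_lit 4) (nat_lit 2) (nat_lit 5) (nat_lit 2) (nat_lit 4) (nat_lit 391) (nat_lit 290) (nat_lit 219))) (XT.nd (nat_lit 78) (nat_lit 0) (nat_lit 0) (XT.lf (nat_lit 0) (nat_lit 910778890399) (nat_lit 76) (nat_lit 147046043390) (nat_lit 76) (nat_lit 141018403122) (nat_lit 1) (nat_lit 4) (nat_lit 2) (nat_lit 5) (nat_lit 2) (nat_lit 4) (nat_lit 392) (nat_lit 290) (nat_lit 218)) (XT.lf (nat_lit 0) (nat_lit 993264811353) (nat_lit 76) (nat_lit 153562629020) (nat_lit 76) (nat_lit 147533230789) (nat_lit 1) (nat_lit 4) (nat_lit 2) (nat_lit 5) (nat_lit 2) (nat_lit 4) (nat_lit 393) (nat_lit 290) (nat_lit 217)))))) (XT.nd (nat_lit 624) (nat_lit 0) (nat_lit 0) (XT.nd (nat_lit 312) (nat_lit 0) (nat_lit 0) (XT.nd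 (nat_lit 156) (nat_lit 0) (nat_lit 0) (XT.nd (nat_lit 78) (nat_lit 0) (nat_lit 0) (XT.lf (nat_lit 0) (nat_lit 1082344261995) (nat_lit 76) (nat_lit 160603186385) (nat_lit 76) (nat_lit 154572160411) (nat_lit 1) (nat_lit 4) (nat_lit 2) (nat_lit 5) (nat_lit 2) (nat_lit 4) (nat_lit 394) (nat_lit 290) (nat_lit 216)) (XT.lf (nat_lit 0) (nat_lit 1178545120552) (nat_lit 76) (nat_lit 168209437309) (nat_lit 76) (nat_lit 162176904165) (nat_lit 1) (nat_lit 4) (nat_lit 2) (nat_lit 5) (nat_lit 2) (nat_lit 4) (nat_lit 395) (nat_lit 290) (nat_lit 215))) (XT.nd (nat_lit 78) (nat_lit 0) (nat_lit 0) (XT.lf (nat_lit 0) (nat_lit 1282437466185) (nat_lit 76) (nat_lit 176426455870) (nat_lit 76) (nat_lit 170392527198) (nat_lit 1) (nat_lit 4) (nat_lit 2) (nat_lit 5) (nat_lit 2) (nat_lit 4) (nat_lit 396) (nat_lit 290) (nat_lit 214)) (XT.lf (nat_lit 0) (nat_lit 1394636957239) (nat_lit 76) (nat_lit 185302935511) (nat_lit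 76) (nat_lit 179267714684) (nat_lit 1) (nat_lit 4) (nat_lit 2) (nat_lit 5) (nat_lit 2) (nat_lit 4) (nat_lit 397) (nat_lit 290) (nat_lit 213)))) (XT.nd (nat_lit 156) (nat_lit 0) (nat_lit 0) (XT.nd (nat_lit 78) (nat_lit 0) (nat_lit 0) (XT.lf (nat_lit 0) (nat_lit 1515808479587) (nat_lit 76) (nat_lit 194891477594) (nat_lit 76) (nat_lit 188855060326) (nat_lit 1) (nat_lit 4) (nat_lit 2) (nat_lit 5) (nat_lit 2) (nat_lit 4) (nat_lit 398) (nat_lit 290) (nat_lit 212)) (XT.lf (nat_lit 0) (nat_lit 1646670086695) (nat_lit 76) (nat_lit 205248903108) (nat_lit 76) (nat_lit 199211378025) (nat_lit 1) (nat_lit 4) (nat_lit 2) (nat_lit 5) (nat_lit 2) (nat_lit 4) (nat_lit 399) (nat_lit 290) (nat_lit 211))) (XT.nd (nat_lit 78) (nat_lit 0) (nat_lit 0) (XT.lf (nat_lit 0) (nat_lit 1787997254752) (nat_lit 76) (nat_lit 216436589390) (nat_lit 76) (nat_lit 210398038553) (nat_lit 1) (nat_lit 4) (nat_lit 2) (nat_lit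 5) (nat_lit 2) (nat_lit 4) (nat_lit 400) (nat_lit 290) (nat_lit 210)) (XT.lf (nat_lit 0) (nat_lit 1940627478089) (nat_lit 76) (nat_lit 228520833840) (nat_lit 76) (nat_lit 222481333230) (nat_lit 1) (nat_lit 4) (nat_lit 2) (nat_lit 5) (nat_lit 2) (nat_lit 4) (nat_lit 401) (nat_lit 290) (nat_lit 209))))) (XT.nd (nat_lit 312) (nat_lit 0) (nat_lit 0) (XT.nd (nat_lit 156) (nat_lit 0) (nat_lit 0) (XT.nd (nat_lit 78) (nat_lit 0) (nat_lit 0) (XT.lf (nat_lit 0) (nat_lit 2105465232103) (nat_lit 76) (nat_lit 241573246795) (nat_lit 76) (nat_lit 235532866766) (nat_lit 1) (nat_lit 4) (nat_lit 2) (nat_lit 5) (nat_lit 2) (nat_lit 4) (nat_lit 402) (nat_lit 290) (nat_lit 208)) (XT.lf (nat_lit 0) (nat_lit 2283487333113) (nat_lit 76) (nat_lit 255671175888) (nat_lit 76) (nat_lit 249629981583) (nat_lit 1) (nat_lit 4) (nat_lit 2) (nat_lit 5) (nat_lit 2) (nat_lit 4) (nat_lit 403) (nat_lit 290) (nat_lit 207)))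 (XT.nd (nat_lit 78) (nat_lit 0) (nat_lit 0) (XT.lf (nat_lit 0) (nat_lit 2475748726904) (nat_lit 76) (nat_lit 270898164403) (nat_lit 76) (nat_lit 264856216137) (nat_lit 1) (nat_lit 4) (nat_lit 2) (nat_lit 5) (nat_lit 2) (nat_lit 4) (nat_lit 404) (nat_lit 290) (nat_lit 206)) (XT.lf (nat_lit 0) (nat_lit 2683388740253) (nat_lit 76) (nat_lit 287344446345) (nat_lit 76) (nat_lit 281301799968) (nat_lit 1) (nat_lit 4) (nat_lit 2) (nat_lit 5) (nat_lit 2) (nat_lit 4) (nat_lit 405) (nat_lit 290) (nat_lit 205)))) (XT.nd (nat_lit 156) (nat_lit 0) (nat_lit 0) (XT.nd (nat_lit 78) (nat_lit 0) (nat_lit 0) (XT.lf (nat_lit 0) (nat_lit 2907637832500) (nat_lit 76) (nat_lit 305107481163) (nat_lit 76) (nat_lit 299064188386) (nat_lit 1) (nat_lit 4) (nat_lit 2) (nat_lit 5) (nat_lit 2) (nat_lit 4) (nat_lit 406) (nat_lit 290) (nat_lit 204)) (XT.lf (nat_lit 0) (nat_lit 3149824887152) (nat_lit 76) (nat_lit 324292531286)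 (nat_lit 76) (nat_lit 318248639991) (nat_lit 1) (nat_lit 4) (nat_lit 2) (nat_lit 5) (nat_lit 2) (nat_lit 4) (nat_lit 407) (nat_lit 290) (nat_lit 203))) (XT.nd (nat_lit 78) (nat_lit 0) (nat_lit 0) (XT.lf (nat_lit 0) (nat_lit 3411385086758) (nat_lit 76) (nat_lit 345013285898) (nat_lit 76) (nat_lit 338968840421) (nat_lit 1) (nat_lit 4) (nat_lit 2) (nat_lit 5) (nat_lit 2) (nat_lit 4) (nat_lit 408) (nat_lit 290) (nat_lit 202)) (XT.lf (nat_lit 0) (nat_lit 3693868417684) (nat_lit 76) (nat_lit 367392534659) (nat_lit 76) (nat_lit 361347576048) (nat_lit 1) (nat_lit 4) (nat_lit 2) (nat_lit 5) (nat_lit 2) (nat_lit 4) (nat_lit 409) (nat_lit 290) (nat_lit 201)))))))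
noncomputable def xc67 : XT := (XT.nd (nat_lit 40794) (nat_lit 0) (nat_lit 304) (XT.nd (nat_lit 40170) (nat_lit 0) (nat_lit 988) (XT.nd (nat_lit 39858) (nat_lit 0) (nat_lit 1596) (XT.nd (nat_lit 39702) (nat_lit 0) (nat_lit 2204) (XT.nd (nat_lit 78) (nat_lit 0) (nat_lit 0) (XT.lf (nat_lit 0) (nat_lit 3998948855225) (nat_lit 76) (nat_lit 391562895337) (nat_lit 76) (nat_lit 385517461603) (nat_lit 1) (nat_lit 4) (nat_lit 2) (nat_lit 5) (nat_lit 2) (nat_lit 4) (nat_lit 410) (nat_lit 290) (nat_lit 200)) (XT.lf (nat_lit 0) (nat_lit 4328434283456) (nat_lit 76) (nat_lit 417667599699) (nat_lit 76) (nat_lit 411621726038) (nat_lit 1) (nat_lit 4) (nat_lit 2) (nat_lit 5) (nat_lit 2) (nat_lit 4) (nat_lit 411) (nat_lit 290) (nat_lit 199))) (XT.nd (nat_lit 78) (nat_lit 0) (nat_lit 0) (XT.lf (nat_lit 0) (nat_lit 25764860) (nat_lit 228) (nat_lit 4454351911) (nat_lit 0) (nat_lit 25764860) (nat_lit 30) (nat_lit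 5) (nat_lit 33) (nat_lit 4) (nat_lit 30) (nat_lit 4) (nat_lit 318) (nat_lit 291) (nat_lit 291)) (XT.lf (nat_lit 0) (nat_lit 4072588126) (nat_lit 228) (nat_lit 2077359919) (nat_lit 0) (nat_lit 3176534632) (nat_lit 30) (nat_lit 5) (nat_lit 33) (nat_lit 4) (nat_lit 30) (nat_lit 4) (nat_lit 319) (nat_lit 291) (nat_lit 290)))) (XT.nd (nat_lit 156) (nat_lit 228) (nat_lit 0) (XT.nd (nat_lit 78) (nat_lit 228) (nat_lit 0) (XT.lf (nat_lit 0) (nat_lit 5192407305) (nat_lit 152) (nat_lit 3104760597) (nat_lit 152) (nat_lit 1379027942) (nat_lit 28) (nat_lit 4) (nat_lit 30) (nat_lit 5) (nat_lit 30) (nat_lit 4) (nat_lit 320) (nat_lit 291) (nat_lit 289)) (XT.lf (nat_lit 0) (nat_lit 2557632321) (nat_lit 228) (nat_lit 7251378033) (nat_lit 0) (nat_lit 248415562) (nat_lit 25) (nat_lit 5) (nat_lit 28) (nat_lit 4) (nat_lit 25) (nat_lit 4) (nat_lit 321) (nat_lit 291) (nat_lit 288))) (XT.nd (nat_lit 78) (nat_lit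 228) (nat_lit 0) (XT.lf (nat_lit 0) (nat_lit 6707016552) (nat_lit 228) (nat_lit 22603314) (nat_lit 0) (nat_lit 3739173726) (nat_lit 25) (nat_lit 5) (nat_lit 28) (nat_lit 4) (nat_lit 25) (nat_lit 4) (nat_lit 322) (nat_lit 291) (nat_lit 287)) (XT.lf (nat_lit 0) (nat_lit 231951905) (nat_lit 228) (nat_lit 3095221814) (nat_lit 76) (nat_lit 7587979126) (nat_lit 22) (nat_lit 5) (nat_lit 25) (nat_lit 5) (nat_lit 23) (nat_lit 4) (nat_lit 323) (nat_lit 291) (nat_lit 286))))) (XT.nd (nat_lit 312) (nat_lit 228) (nat_lit 0) (XT.nd (nat_lit 156) (nat_lit 152) (nat_lit 0) (XT.nd (nat_lit 78) (nat_lit 152) (nat_lit 0) (XT.lf (nat_lit 0) (nat_lit 4251016547) (nat_lit 152) (nat_lit 6730381139) (nat_lit 0) (nat_lit 415509627) (nat_lit 21) (nat_lit 5) (nat_lit 23) (nat_lit 4) (nat_lit 21) (nat_lit 4) (nat_lit 324) (nat_lit 291) (nat_lit 285)) (XT.lf (nat_lit 0) (nat_lit 915023565) (nat_lit 152) (nat_lit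 7661602799) (nat_lit 152) (nat_lit 3341986057) (nat_lit 19) (nat_lit 4) (nat_lit 21) (nat_lit 5) (nat_lit 21) (nat_lit 4) (nat_lit 325) (nat_lit 291) (nat_lit 284))) (XT.nd (nat_lit 78) (nat_lit 76) (nat_lit 0) (XT.lf (nat_lit 0) (nat_lit 708213816) (nat_lit 228) (nat_lit 3294781837) (nat_lit 76) (nat_lit 8479340692) (nat_lit 18) (nat_lit 5) (nat_lit 21) (nat_lit 5) (nat_lit 19) (nat_lit 4) (nat_lit 326) (nat_lit 291) (nat_lit 283)) (XT.lf (nat_lit 0) (nat_lit 4826267860) (nat_lit 152) (nat_lit 8236888157) (nat_lit 0) (nat_lit 27274601) (nat_lit 17) (nat_lit 5) (nat_lit 19) (nat_lit 4) (nat_lit 17) (nat_lit 4) (nat_lit 327) (nat_lit 291) (nat_lit 282)))) (XT.nd (nat_lit 156) (nat_lit 152) (nat_lit 0) (XT.nd (nat_lit 78) (nat_lit 76) (nat_lit 0) (XT.lf (nat_lit 0) (nat_lit 9280320108) (nat_lit 152) (nat_lit 340992081) (nat_lit 0) (nat_lit 4125491678) (nat_lit 17) (nat_lit 5) (nat_lit 19)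 (nat_lit 4) (nat_lit 17) (nat_lit 4) (nat_lit 328) (nat_lit 291) (nat_lit 281)) (XT.lf (nat_lit 0) (nat_lit 8290345544) (nat_lit 76) (nat_lit 5823951516) (nat_lit 76) (nat_lit 339646077) (nat_lit 16) (nat_lit 4) (nat_lit 17) (nat_lit 5) (nat_lit 17) (nat_lit 4) (nat_lit 329) (nat_lit 291) (nat_lit 280))) (XT.nd (nat_lit 78) (nat_lit 0) (nat_lit 0) (XT.lf (nat_lit 0) (nat_lit 2108493985) (nat_lit 76) (nat_lit 1688559250) (nat_lit 152) (nat_lit 11421947735) (nat_lit 14) (nat_lit 5) (nat_lit 15) (nat_lit 5) (nat_lit 16) (nat_lit 4) (nat_lit 330) (nat_lit 291) (nat_lit 279)) (XT.lf (nat_lit 0) (nat_lit 8313799654) (nat_lit 152) (nat_lit 5033759465) (nat_lit 0) (nat_lit 2691716157) (nat_lit 14) (nat_lit 5) (nat_lit 16) (nat_lit 4) (nat_lit 14) (nat_lit 4) (nat_lit 331) (nat_lit 291) (nat_lit 278)))))) (XT.nd (nat_lit 624) (nat_lit 228) (nat_lit 0) (XT.nd (nat_lit 312) (nat_lit 228) (nat_lit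 0) (XT.nd (nat_lit 156) (nat_lit 76) (nat_lit 0) (XT.nd (nat_lit 78) (nat_lit 76) (nat_lit 0) (XT.lf (nat_lit 0) (nat_lit 3530335709) (nat_lit 76) (nat_lit 9630829209) (nat_lit 76) (nat_lit 3766570274) (nat_lit 13) (nat_lit 4) (nat_lit 14) (nat_lit 5) (nat_lit 14) (nat_lit 4) (nat_lit 332) (nat_lit 291) (nat_lit 277)) (XT.lf (nat_lit 0) (nat_lit 466178819) (nat_lit 152) (nat_lit 5118843507) (nat_lit 76) (nat_lit 12302753366) (nat_lit 12) (nat_lit 5) (nat_lit 14) (nat_lit 5) (nat_lit 13) (nat_lit 4) (nat_lit 333) (nat_lit 291) (nat_lit 276))) (XT.nd (nat_lit 78) (nat_lit 0) (nat_lit 0) (XT.lf (nat_lit 0) (nat_lit 3635081803) (nat_lit 76) (nat_lit 1139535340) (nat_lit 152) (nat_lit 14147014838) (nat_lit 11) (nat_lit 5) (nat_lit 12) (nat_lit 5) (nat_lit 13) (nat_lit 4) (nat_lit 334) (nat_lit 291) (nat_lit 275)) (XT.lf (nat_lit 0) (nat_lit 9514123796) (nat_lit 152) (nat_lit 7010864265) (nat_lit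 0) (nat_lit 3506375160) (nat_lit 11) (nat_lit 5) (nat_lit 13) (nat_lit 4) (nat_lit 11) (nat_lit 4) (nat_lit 335) (nat_lit 291) (nat_lit 274)))) (XT.nd (nat_lit 156) (nat_lit 152) (nat_lit 0) (XT.nd (nat_lit 78) (nat_lit 0) (nat_lit 0) (XT.lf (nat_lit 0) (nat_lit 1731484983) (nat_lit 76) (nat_lit 12838045080) (nat_lit 76) (nat_lit 6665475910) (nat_lit 10) (nat_lit 4) (nat_lit 11) (nat_lit 5) (nat_lit 11) (nat_lit 4) (nat_lit 336) (nat_lit 291) (nat_lit 273)) (XT.lf (nat_lit 0) (nat_lit 11325917233) (nat_lit 76) (nat_lit 8764685870) (nat_lit 76) (nat_lit 2439505095) (nat_lit 10) (nat_lit 4) (nat_lit 11) (nat_lit 5) (nat_lit 11) (nat_lit 4) (nat_lit 337) (nat_lit 291) (nat_lit 272))) (XT.nd (nat_lit 78) (nat_lit 76) (nat_lit 0) (XT.lf (nat_lit 0) (nat_lit 1894277081) (nat_lit 152) (nat_lit 2526391488) (nat_lit 76) (nat_lit 19514038716) (nat_lit 9) (nat_lit 5) (nat_lit 11) (nat_lit 5) (nat_lit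 10) (nat_lit 4) (nat_lit 338) (nat_lit 291) (nat_lit 271)) (XT.lf (nat_lit 0) (nat_lit 6504389319) (nat_lit 152) (nat_lit 18541602385) (nat_lit 0) (nat_lit 395752586) (nat_lit 8) (nat_lit 5) (nat_lit 10) (nat_lit 4) (nat_lit 8) (nat_lit 4) (nat_lit 339) (nat_lit 291) (nat_lit 270))))) (XT.nd (nat_lit 312) (nat_lit 152) (nat_lit 0) (XT.nd (nat_lit 156) (nat_lit 76) (nat_lit 0) (XT.nd (nat_lit 78) (nat_lit 0) (nat_lit 0) (XT.lf (nat_lit 0) (nat_lit 11555207997) (nat_lit 152) (nat_lit 10174036384) (nat_lit 0) (nat_lit 5334397178) (nat_lit 8) (nat_lit 5) (nat_lit 10) (nat_lit 4) (nat_lit 8) (nat_lit 4) (nat_lit 340) (nat_lit 291) (nat_lit 269)) (XT.lf (nat_lit 0) (nat_lit 16904726146) (nat_lit 152) (nat_lit 1338988769) (nat_lit 0) (nat_lit 10580050432) (nat_lit 8) (nat_lit 5) (nat_lit 10) (nat_lit 4) (nat_lit 8) (nat_lit 4) (nat_lit 341) (nat_lit 291) (nat_lit 268))) (XT.nd (nat_lit 78) (nat_lit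 0) (nat_lit 0) (XT.lf (nat_lit 0) (nat_lit 8437999190) (nat_lit 76) (nat_lit 14349579508) (nat_lit 76) (nat_lit 7928732597) (nat_lit 7) (nat_lit 4) (nat_lit 8) (nat_lit 5) (nat_lit 8) (nat_lit 4) (nat_lit 342) (nat_lit 291) (nat_lit 267)) (XT.lf (nat_lit 0) (nat_lit 18891062632) (nat_lit 76) (nat_lit 10191890060) (nat_lit 76) (nat_lit 3681995742) (nat_lit 7) (nat_lit 4) (nat_lit 8) (nat_lit 5) (nat_lit 8) (nat_lit 4) (nat_lit 343) (nat_lit 291) (nat_lit 266)))) (XT.nd (nat_lit 156) (nat_lit 0) (nat_lit 0) (XT.nd (nat_lit 78) (nat_lit 76) (nat_lit 0) (XT.lf (nat_lit 0) (nat_lit 769221064) (nat_lit 152) (nat_lit 4992365806) (nat_lit 76) (nat_lit 29221383928) (nat_lit 6) (nat_lit 5) (nat_lit 8) (nat_lit 5) (nat_lit 7) (nat_lit 4) (nat_lit 344) (nat_lit 291) (nat_lit 265)) (XT.lf (nat_lit 0) (nat_lit 4572099235) (nat_lit 76) (nat_lit 832126078) (nat_lit 152) (nat_lit 31964460594) (nat_lit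 5) (nat_lit 5) (nat_lit 6) (nat_lit 5) (nat_lit 7) (nat_lit 4) (nat_lit 345) (nat_lit 291) (nat_lit 264))) (XT.nd (nat_lit 78) (nat_lit 0) (nat_lit 0) (XT.lf (nat_lit 0) (nat_lit 10575343601) (nat_lit 152) (nat_lit 25021539501) (nat_lit 0) (nat_lit 4335178676) (nat_lit 5) (nat_lit 5) (nat_lit 7) (nat_lit 4) (nat_lit 5) (nat_lit 4) (nat_lit 346) (nat_lit 291) (nat_lit 263)) (XT.nd (nat_lit 78) (nat_lit 0) (nat_lit 0) (XT.lf (nat_lit 0) (nat_lit 16105137998) (nat_lit 152) (nat_lit 16795428409) (nat_lit 0) (nat_lit 9804368905) (nat_lit 5) (nat_lit 5) (nat_lit 7) (nat_lit 4) (nat_lit 5) (nat_lit 4) (nat_lit 347) (nat_lit 291) (nat_lit 262)) (XT.lf (nat_lit 0) (nat_lit 22006365005) (nat_lit 152) (nat_lit 8049493418) (nat_lit 0) (nat_lit 15649480941) (nat_lit 5) (nat_lit 5) (nat_lit 7) (nat_lit 4) (nat_lit 5) (nat_lit 4) (nat_lit 348) (nat_lit 291) (nat_lit 261))))))))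
noncomputable def xc68 : XT := (XT.nd (nat_lit 1248) (nat_lit 76) (nat_lit 0) (XT.nd (nat_lit 624) (nat_lit 0) (nat_lit 0) (XT.nd (nat_lit 312) (nat_lit 152) (nat_lit 0) (XT.nd (nat_lit 156) (nat_lit 0) (nat_lit 0) (XT.nd (nat_lit 78) (nat_lit 0) (nat_lit 0) (XT.lf (nat_lit 0) (nat_lit 1334868775) (nat_lit 76) (nat_lit 27011229706) (nat_lit 76) (nat_lit 20602387335) (nat_lit 4) (nat_lit 4) (nat_lit 5) (nat_lit 5) (nat_lit 5) (nat_lit 4) (nat_lit 349) (nat_lit 291) (nat_lit 260)) (XT.lf (nat_lit 0) (nat_lit 11802979721) (nat_lit 76) (nat_lit 23546288321) (nat_lit 76) (nat_lit 17089336407) (nat_lit 4) (nat_lit 4) (nat_lit 5) (nat_lit 5) (nat_lit 5) (nat_lit 4) (nat_lit 350) (nat_lit 291) (nat_lit 259))) (XT.nd (nat_lit 78) (nat_lit 0) (nat_lit 0) (XT.lf (nat_lit 0) (nat_lit 22993000612) (nat_lit 76) (nat_lit 19860588697) (nat_lit 76) (nat_lit 13359090910) (nat_lit 4) (nat_lit 4) (nat_lit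 5) (nat_lit 5) (nat_lit 5) (nat_lit 4) (nat_lit 351) (nat_lit 291) (nat_lit 258)) (XT.lf (nat_lit 0) (nat_lit 34971242681) (nat_lit 76) (nat_lit 15932289651) (nat_lit 76) (nat_lit 9389545686) (nat_lit 4) (nat_lit 4) (nat_lit 5) (nat_lit 5) (nat_lit 5) (nat_lit 4) (nat_lit 352) (nat_lit 291) (nat_lit 257)))) (XT.nd (nat_lit 156) (nat_lit 152) (nat_lit 0) (XT.nd (nat_lit 78) (nat_lit 0) (nat_lit 0) (XT.lf (nat_lit 0) (nat_lit 47808688105) (nat_lit 76) (nat_lit 11738112374) (nat_lit 76) (nat_lit 5157177503) (nat_lit 4) (nat_lit 4) (nat_lit 5) (nat_lit 5) (nat_lit 5) (nat_lit 4) (nat_lit 353) (nat_lit 291) (nat_lit 256)) (XT.lf (nat_lit 0) (nat_lit 61581410634) (nat_lit 76) (nat_lit 7253202482) (nat_lit 76) (nat_lit 636905661) (nat_lit 4) (nat_lit 4) (nat_lit 5) (nat_lit 5) (nat_lit 5) (nat_lit 4) (nat_lit 354) (nat_lit 291) (nat_lit 255))) (XT.nd (nat_lit 78) (nat_lit 0) (nat_lit 0) (XT.lf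 (nat_lit 0) (nat_lit 1732791804) (nat_lit 76) (nat_lit 2296934720) (nat_lit 152) (nat_lit 70582815009) (nat_lit 2) (nat_lit 5) (nat_lit 3) (nat_lit 5) (nat_lit 4) (nat_lit 4) (nat_lit 355) (nat_lit 291) (nat_lit 254)) (XT.lf (nat_lit 0) (nat_lit 9285774394) (nat_lit 152) (nat_lit 67756535992) (nat_lit 0) (nat_lit 3101185005) (nat_lit 2) (nat_lit 5) (nat_lit 4) (nat_lit 4) (nat_lit 2) (nat_lit 4) (nat_lit 356) (nat_lit 291) (nat_lit 253))))) (XT.nd (nat_lit 312) (nat_lit 0) (nat_lit 0) (XT.nd (nat_lit 156) (nat_lit 0) (nat_lit 0) (XT.nd (nat_lit 78) (nat_lit 0) (nat_lit 0) (XT.lf (nat_lit 0) (nat_lit 14980919292) (nat_lit 152) (nat_lit 62364190772) (nat_lit 0) (nat_lit 8770337814) (nat_lit 2) (nat_lit 5) (nat_lit 4) (nat_lit 4) (nat_lit 2) (nat_lit 4) (nat_lit 357) (nat_lit 291) (nat_lit 252)) (XT.lf (nat_lit 0) (nat_lit 21093668889) (nat_lit 152) (nat_lit 56615518097) (nat_lit 0) (nat_lit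 14859020662) (nat_lit 2) (nat_lit 5) (nat_lit 4) (nat_lit 4) (nat_lit 2) (nat_lit 4) (nat_lit 358) (nat_lit 291) (nat_lit 251))) (XT.nd (nat_lit 78) (nat_lit 0) (nat_lit 0) (XT.lf (nat_lit 0) (nat_lit 27660246887) (nat_lit 152) (nat_lit 50476451758) (nat_lit 0) (nat_lit 21403314633) (nat_lit 2) (nat_lit 5) (nat_lit 4) (nat_lit 4) (nat_lit 2) (nat_lit 4) (nat_lit 359) (nat_lit 291) (nat_lit 250)) (XT.lf (nat_lit 0) (nat_lit 34719566342) (nat_lit 152) (nat_lit 43910612103) (nat_lit 0) (nat_lit 28442000730) (nat_lit 2) (nat_lit 5) (nat_lit 4) (nat_lit 4) (nat_lit 2) (nat_lit 4) (nat_lit 360) (nat_lit 291) (nat_lit 249)))) (XT.nd (nat_lit 156) (nat_lit 0) (nat_lit 0) (XT.nd (nat_lit 78) (nat_lit 0) (nat_lit 0) (XT.lf (nat_lit 0) (nat_lit 42313460256) (nat_lit 152) (nat_lit 36879090452) (nat_lit 0) (nat_lit 36016789683) (nat_lit 2) (nat_lit 5) (nat_lit 4) (nat_lit 4) (nat_lit 2) (nat_lit 4)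 (nat_lit 361) (nat_lit 291) (nat_lit 248)) (XT.lf (nat_lit 0) (nat_lit 50486929483) (nat_lit 152) (nat_lit 29340218529) (nat_lit 0) (nat_lit 44172569131) (nat_lit 2) (nat_lit 5) (nat_lit 4) (nat_lit 4) (nat_lit 2) (nat_lit 4) (nat_lit 362) (nat_lit 291) (nat_lit 247))) (XT.nd (nat_lit 78) (nat_lit 0) (nat_lit 0) (XT.lf (nat_lit 0) (nat_lit 59288409397) (nat_lit 152) (nat_lit 21249321537) (nat_lit 0) (nat_lit 52957669619) (nat_lit 2) (nat_lit 5) (nat_lit 4) (nat_lit 4) (nat_lit 2) (nat_lit 4) (nat_lit 363) (nat_lit 291) (nat_lit 246)) (XT.lf (nat_lit 0) (nat_lit 68770056914) (nat_lit 152) (nat_lit 12558453419) (nat_lit 0) (nat_lit 62424151002) (nat_lit 2) (nat_lit 5) (nat_lit 4) (nat_lit 4) (nat_lit 2) (nat_lit 4) (nat_lit 364) (nat_lit 291) (nat_lit 245)))))) (XT.nd (nat_lit 624) (nat_lit 0) (nat_lit 0) (XT.nd (nat_lit 312) (nat_lit 0) (nat_lit 0) (XT.nd (nat_lit 156) (nat_lit 0) (nat_lit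 0) (XT.nd (nat_lit 78) (nat_lit 76) (nat_lit 0) (XT.lf (nat_lit 0) (nat_lit 78988059576) (nat_lit 152) (nat_lit 3216112736) (nat_lit 0) (nat_lit 72628110947) (nat_lit 2) (nat_lit 5) (nat_lit 4) (nat_lit 4) (nat_lit 2) (nat_lit 4) (nat_lit 365) (nat_lit 291) (nat_lit 244)) (XT.lf (nat_lit 0) (nat_lit 7192879494) (nat_lit 76) (nat_lit 82983077941) (nat_lit 76) (nat_lit 76610126796) (nat_lit 1) (nat_lit 4) (nat_lit 2) (nat_lit 5) (nat_lit 2) (nat_lit 4) (nat_lit 366) (nat_lit 291) (nat_lit 243))) (XT.nd (nat_lit 78) (nat_lit 0) (nat_lit 0) (XT.lf (nat_lit 0) (nat_lit 18577968264) (nat_lit 76) (nat_lit 83748889569) (nat_lit 76) (nat_lit 77363899058) (nat_lit 1) (nat_lit 4) (nat_lit 2) (nat_lit 5) (nat_lit 2) (nat_lit 4) (nat_lit 367) (nat_lit 291) (nat_lit 242)) (XT.lf (nat_lit 0) (nat_lit 30837265970) (nat_lit 76) (nat_lit 84594079563) (nat_lit 76) (nat_lit 78197941490) (nat_lit 1) (nat_lit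 4) (nat_lit 2) (nat_lit 5) (nat_lit 2) (nat_lit 4) (nat_lit 368) (nat_lit 291) (nat_lit 241)))) (XT.nd (nat_lit 156) (nat_lit 0) (nat_lit 0) (XT.nd (nat_lit 78) (nat_lit 0) (nat_lit 0) (XT.lf (nat_lit 0) (nat_lit 44043420300) (nat_lit 76) (nat_lit 85523656455) (nat_lit 76) (nat_lit 79117196567) (nat_lit 1) (nat_lit 4) (nat_lit 2) (nat_lit 5) (nat_lit 2) (nat_lit 4) (nat_lit 369) (nat_lit 291) (nat_lit 240)) (XT.lf (nat_lit 0) (nat_lit 58274689948) (nat_lit 76) (nat_lit 86543128850) (nat_lit 76) (nat_lit 80127111724) (nat_lit 1) (nat_lit 4) (nat_lit 2) (nat_lit 5) (nat_lit 2) (nat_lit 4) (nat_lit 370) (nat_lit 291) (nat_lit 239))) (XT.nd (nat_lit 78) (nat_lit 0) (nat_lit 0) (XT.lf (nat_lit 0) (nat_lit 73615408363) (nat_lit 76) (nat_lit 87658538065) (nat_lit 76) (nat_lit 81233671646) (nat_lit 1) (nat_lit 4) (nat_lit 2) (nat_lit 5) (nat_lit 2) (nat_lit 4) (nat_lit 371) (nat_lit 291) (nat_lit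 238)) (XT.lf (nat_lit 0) (nat_lit 90156483506) (nat_lit 76) (nat_lit 88876493933) (nat_lit 76) (nat_lit 82443433723) (nat_lit 1) (nat_lit 4) (nat_lit 2) (nat_lit 5) (nat_lit 2) (nat_lit 4) (nat_lit 372) (nat_lit 291) (nat_lit 237))))) (XT.nd (nat_lit 312) (nat_lit 0) (nat_lit 0) (XT.nd (nat_lit 156) (nat_lit 0) (nat_lit 0) (XT.nd (nat_lit 78) (nat_lit 0) (nat_lit 0) (XT.lf (nat_lit 0) (nat_lit 107995936563) (nat_lit 76) (nat_lit 90204213970) (nat_lit 76) (nat_lit 83763566917) (nat_lit 1) (nat_lit 4) (nat_lit 2) (nat_lit 5) (nat_lit 2) (nat_lit 4) (nat_lit 373) (nat_lit 291) (nat_lit 236)) (XT.lf (nat_lit 0) (nat_lit 127239482811) (nat_lit 76) (nat_lit 91649566146) (nat_lit 76) (nat_lit 85201894239) (nat_lit 1) (nat_lit 4) (nat_lit 2) (nat_lit 5) (nat_lit 2) (nat_lit 4) (nat_lit 374) (nat_lit 291) (nat_lit 235))) (XT.nd (nat_lit 78) (nat_lit 0) (nat_lit 0) (XT.lf (nat_lit 0) (nat_lit 148001158080)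 (nat_lit 76) (nat_lit 93221115512) (nat_lit 76) (nat_lit 86766939110) (nat_lit 1) (nat_lit 4) (nat_lit 2) (nat_lit 5) (nat_lit 2) (nat_lit 4) (nat_lit 375) (nat_lit 291) (nat_lit 234)) (XT.lf (nat_lit 0) (nat_lit 170403994521) (nat_lit 76) (nat_lit 94928174953) (nat_lit 76) (nat_lit 88467975870) (nat_lit 1) (nat_lit 4) (nat_lit 2) (nat_lit 5) (nat_lit 2) (nat_lit 4) (nat_lit 376) (nat_lit 291) (nat_lit 233)))) (XT.nd (nat_lit 156) (nat_lit 0) (nat_lit 0) (XT.nd (nat_lit 78) (nat_lit 0) (nat_lit 0) (XT.lf (nat_lit 0) (nat_lit 194580749681) (nat_lit 76) (nat_lit 96780860376) (nat_lit 76) (nat_lit 90315084737) (nat_lit 1) (nat_lit 4) (nat_lit 2) (nat_lit 5) (nat_lit 2) (nat_lit 4) (nat_lit 377) (nat_lit 291) (nat_lit 232)) (XT.lf (nat_lit 0) (nat_lit 220674693221) (nat_lit 76) (nat_lit 98790150658) (nat_lit 76) (nat_lit 92319211541) (nat_lit 1) (nat_lit 4) (nat_lit 2) (nat_lit 5) (nat_lit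 2) (nat_lit 4) (nat_lit 378) (nat_lit 291) (nat_lit 231))) (XT.nd (nat_lit 78) (nat_lit 0) (nat_lit 0) (XT.lf (nat_lit 0) (nat_lit 248840455919) (nat_lit 76) (nat_lit 100967952704) (nat_lit 76) (nat_lit 94492232589) (nat_lit 1) (nat_lit 4) (nat_lit 2) (nat_lit 5) (nat_lit 2) (nat_lit 4) (nat_lit 379) (nat_lit 291) (nat_lit 230)) (XT.lf (nat_lit 0) (nat_lit 279244945996) (nat_lit 76) (nat_lit 103327172009) (nat_lit 76) (nat_lit 96847025044) (nat_lit 1) (nat_lit 4) (nat_lit 2) (nat_lit 5) (nat_lit 2) (nat_lit 4) (nat_lit 380) (nat_lit 291) (nat_lit 229)))))))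
noncomputable def xc69 : XT := (XT.nd (nat_lit 1248) (nat_lit 0) (nat_lit 0) (XT.nd (nat_lit 624) (nat_lit 0) (nat_lit 0) (XT.nd (nat_lit 312) (nat_lit 0) (nat_lit 0) (XT.nd (nat_lit 156) (nat_lit 0) (nat_lit 0) (XT.nd (nat_lit 78) (nat_lit 0) (nat_lit 0) (XT.lf (nat_lit 0) (nat_lit 312068338210) (nat_lit 76) (nat_lit 105881789130) (nat_lit 76) (nat_lit 99397543230) (nat_lit 1) (nat_lit 4) (nat_lit 2) (nat_lit 5) (nat_lit 2) (nat_lit 4) (nat_lit 381) (nat_lit 291) (nat_lit 228)) (XT.lf (nat_lit 0) (nat_lit 347505141551) (nat_lit 76) (nat_lit 108646942540) (nat_lit 76) (nat_lit 102158901329) (nat_lit 1) (nat_lit 4) (nat_lit 2) (nat_lit 5) (nat_lit 2) (nat_lit 4) (nat_lit 382) (nat_lit 291) (nat_lit 227))) (XT.nd (nat_lit 78) (nat_lit 0) (nat_lit 0) (XT.lf (nat_lit 0) (nat_lit 385765351891) (nat_lit 76) (nat_lit 111639018333) (nat_lit 76) (nat_lit 105147462946) (nat_lit 1) (nat_lit 4) (nat_lit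 2) (nat_lit 5) (nat_lit 2) (nat_lit 4) (nat_lit 383) (nat_lit 291) (nat_lit 226)) (XT.lf (nat_lit 0) (nat_lit 427075696402) (nat_lit 76) (nat_lit 114875747328) (nat_lit 76) (nat_lit 108380938075) (nat_lit 1) (nat_lit 4) (nat_lit 2) (nat_lit 5) (nat_lit 2) (nat_lit 4) (nat_lit 384) (nat_lit 291) (nat_lit 225)))) (XT.nd (nat_lit 156) (nat_lit 0) (nat_lit 0) (XT.nd (nat_lit 78) (nat_lit 0) (nat_lit 0) (XT.lf (nat_lit 0) (nat_lit 471680977125) (nat_lit 76) (nat_lit 118376310142) (nat_lit 76) (nat_lit 111878488049) (nat_lit 1) (nat_lit 4) (nat_lit 2) (nat_lit 5) (nat_lit 2) (nat_lit 4) (nat_lit 385) (nat_lit 291) (nat_lit 224)) (XT.lf (nat_lit 0) (nat_lit 519845521651) (nat_lit 76) (nat_lit 122161450851) (nat_lit 76) (nat_lit 115660839091) (nat_lit 1) (nat_lit 4) (nat_lit 2) (nat_lit 5) (nat_lit 2) (nat_lit 4) (nat_lit 386) (nat_lit 291) (nat_lit 223))) (XT.nd (nat_lit 78) (nat_lit 0) (nat_lit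 0) (XT.lf (nat_lit 0) (nat_lit 571854749502) (nat_lit 76) (nat_lit 126253599918) (nat_lit 76) (nat_lit 119750405134) (nat_lit 1) (nat_lit 4) (nat_lit 2) (nat_lit 5) (nat_lit 2) (nat_lit 4) (nat_lit 387) (nat_lit 291) (nat_lit 222)) (XT.lf (nat_lit 0) (nat_lit 628016863510) (nat_lit 76) (nat_lit 130677007116) (nat_lit 76) (nat_lit 124171420642) (nat_lit 1) (nat_lit 4) (nat_lit 2) (nat_lit 5) (nat_lit 2) (nat_lit 4) (nat_lit 388) (nat_lit 291) (nat_lit 221))))) (XT.nd (nat_lit 312) (nat_lit 0) (nat_lit 0) (XT.nd (nat_lit 156) (nat_lit 0) (nat_lit 0) (XT.nd (nat_lit 78) (nat_lit 0) (nat_lit 0) (XT.lf (nat_lit 0) (nat_lit 688664676203) (nat_lit 76) (nat_lit 135457885227) (nat_lit 76) (nat_lit 128950084226) (nat_lit 1) (nat_lit 4) (nat_lit 2) (nat_lit 5) (nat_lit 2) (nat_lit 4) (nat_lit 389) (nat_lit 291) (nat_lit 220)) (XT.lf (nat_lit 0) (nat_lit 754157582026) (nat_lit 76) (nat_lit 140624565381)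 (nat_lit 76) (nat_lit 134114713892) (nat_lit 1) (nat_lit 4) (nat_lit 2) (nat_lit 5) (nat_lit 2) (nat_lit 4) (nat_lit 390) (nat_lit 291) (nat_lit 219))) (XT.nd (nat_lit 78) (nat_lit 0) (nat_lit 0) (XT.lf (nat_lit 0) (nat_lit 824883687087) (nat_lit 76) (nat_lit 146207664943) (nat_lit 76) (nat_lit 139695914854) (nat_lit 1) (nat_lit 4) (nat_lit 2) (nat_lit 5) (nat_lit 2) (nat_lit 4) (nat_lit 391) (nat_lit 291) (nat_lit 218)) (XT.lf (nat_lit 0) (nat_lit 901262109046) (nat_lit 76) (nat_lit 152240268946) (nat_lit 76) (nat_lit 145726760894) (nat_lit 1) (nat_lit 4) (nat_lit 2) (nat_lit 5) (nat_lit 2) (nat_lit 4) (nat_lit 392) (nat_lit 291) (nat_lit 217)))) (XT.nd (nat_lit 156) (nat_lit 0) (nat_lit 0) (XT.nd (nat_lit 78) (nat_lit 0) (nat_lit 0) (XT.lf (nat_lit 0) (nat_lit 983745460775) (nat_lit 76) (nat_lit 158758126156) (nat_lit 76) (nat_lit 152242990360) (nat_lit 1) (nat_lit 4) (nat_lit 2) (nat_lit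 5) (nat_lit 2) (nat_lit 4) (nat_lit 393) (nat_lit 291) (nat_lit 216)) (XT.lf (nat_lit 0) (nat_lit 1072822532505) (nat_lit 76) (nat_lit 165799860910) (nat_lit 76) (nat_lit 159283217944) (nat_lit 1) (nat_lit 4) (nat_lit 2) (nat_lit 5) (nat_lit 2) (nat_lit 4) (nat_lit 394) (nat_lit 291) (nat_lit 215))) (XT.nd (nat_lit 78) (nat_lit 0) (nat_lit 0) (XT.lf (nat_lit 0) (nat_lit 1169021188366) (nat_lit 76) (nat_lit 173407202008) (nat_lit 76) (nat_lit 166889163515) (nat_lit 1) (nat_lit 4) (nat_lit 2) (nat_lit 5) (nat_lit 2) (nat_lit 4) (nat_lit 395) (nat_lit 291) (nat_lit 214)) (XT.lf (nat_lit 0) (nat_lit 1272911494465) (nat_lit 76) (nat_lit 181625229990) (nat_lit 76) (nat_lit 175105899341) (nat_lit 1) (nat_lit 4) (nat_lit 2) (nat_lit 5) (nat_lit 2) (nat_lit 4) (nat_lit 396) (nat_lit 291) (nat_lit 213)))))) (XT.nd (nat_lit 624) (nat_lit 0) (nat_lit 0) (XT.nd (nat_lit 312) (nat_lit 0) (nat_lit 0)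 (XT.nd (nat_lit 156) (nat_lit 0) (nat_lit 0) (XT.nd (nat_lit 78) (nat_lit 0) (nat_lit 0) (XT.lf (nat_lit 0) (nat_lit 1385109097063) (nat_lit 76) (nat_lit 190502644280) (nat_lit 76) (nat_lit 183982117192) (nat_lit 1) (nat_lit 4) (nat_lit 2) (nat_lit 5) (nat_lit 2) (nat_lit 4) (nat_lit 397) (nat_lit 291) (nat_lit 212)) (XT.lf (nat_lit 0) (nat_lit 1506278870839) (nat_lit 76) (nat_lit 200092051779) (nat_lit 76) (nat_lit 193570416875) (nat_lit 1) (nat_lit 4) (nat_lit 2) (nat_lit 5) (nat_lit 2) (nat_lit 4) (nat_lit 398) (nat_lit 291) (nat_lit 211))) (XT.nd (nat_lit 78) (nat_lit 0) (nat_lit 0) (XT.lf (nat_lit 0) (nat_lit 1637138858900) (nat_lit 76) (nat_lit 210450278604) (nat_lit 76) (nat_lit 203927617945) (nat_lit 1) (nat_lit 4) (nat_lit 2) (nat_lit 5) (nat_lit 2) (nat_lit 4) (nat_lit 399) (nat_lit 291) (nat_lit 210)) (XT.lf (nat_lit 0) (nat_lit 1778464527839) (nat_lit 76) (nat_lit 221638706840)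 (nat_lit 76) (nat_lit 215115096409) (nat_lit 1) (nat_lit 4) (nat_lit 2) (nat_lit 5) (nat_lit 2) (nat_lit 4) (nat_lit 400) (nat_lit 291) (nat_lit 209)))) (XT.nd (nat_lit 156) (nat_lit 0) (nat_lit 0) (XT.nd (nat_lit 78) (nat_lit 0) (nat_lit 0) (XT.lf (nat_lit 0) (nat_lit 1931093363104) (nat_lit 76) (nat_lit 233723638285) (nat_lit 76) (nat_lit 227199148435) (nat_lit 1) (nat_lit 4) (nat_lit 2) (nat_lit 5) (nat_lit 2) (nat_lit 4) (nat_lit 401) (nat_lit 291) (nat_lit 208)) (XT.lf (nat_lit 0) (nat_lit 2095929831865) (nat_lit 76) (nat_lit 246776687347) (nat_lit 76) (nat_lit 240251383220) (nat_lit 1) (nat_lit 4) (nat_lit 2) (nat_lit 5) (nat_lit 2) (nat_lit 4) (nat_lit 402) (nat_lit 291) (nat_lit 207))) (XT.nd (nat_lit 78) (nat_lit 0) (nat_lit 0) (XT.lf (nat_lit 0) (nat_lit 2273950742827) (nat_lit 76) (nat_lit 260875205428) (nat_lit 76) (nat_lit 254349147340) (nat_lit 1) (nat_lit 4) (nat_lit 2)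 (nat_lit 5) (nat_lit 2) (nat_lit 4) (nat_lit 403) (nat_lit 291) (nat_lit 206)) (XT.lf (nat_lit 0) (nat_lit 2466211034722) (nat_lit 76) (nat_lit 276102739301) (nat_lit 76) (nat_lit 269575983103) (nat_lit 1) (nat_lit 4) (nat_lit 2) (nat_lit 5) (nat_lit 2) (nat_lit 4) (nat_lit 404) (nat_lit 291) (nat_lit 205))))) (XT.nd (nat_lit 312) (nat_lit 0) (nat_lit 0) (XT.nd (nat_lit 156) (nat_lit 0) (nat_lit 0) (XT.nd (nat_lit 78) (nat_lit 0) (nat_lit 0) (XT.lf (nat_lit 0) (nat_lit 2673850027797) (nat_lit 76) (nat_lit 292549526205) (nat_lit 76) (nat_lit 286022123607) (nat_lit 1) (nat_lit 4) (nat_lit 2) (nat_lit 5) (nat_lit 2) (nat_lit 4) (nat_lit 405) (nat_lit 291) (nat_lit 204)) (XT.lf (nat_lit 0) (nat_lit 2898098175344) (nat_lit 76) (nat_lit 310313028580) (nat_lit 76) (nat_lit 303785027464) (nat_lit 1) (nat_lit 4) (nat_lit 2) (nat_lit 5) (nat_lit 2) (nat_lit 4) (nat_lit 406) (nat_lit 291) (nat_lit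 203))) (XT.nd (nat_lit 78) (nat_lit 0) (nat_lit 0) (XT.lf (nat_lit 0) (nat_lit 3140284355276) (nat_lit 76) (nat_lit 329498511626) (nat_lit 76) (nat_lit 322969956327) (nat_lit 1) (nat_lit 4) (nat_lit 2) (nat_lit 5) (nat_lit 2) (nat_lit 4) (nat_lit 407) (nat_lit 291) (nat_lit 202)) (XT.lf (nat_lit 0) (nat_lit 3401843744955) (nat_lit 76) (nat_lit 350219667094) (nat_lit 76) (nat_lit 343690598662) (nat_lit 1) (nat_lit 4) (nat_lit 2) (nat_lit 5) (nat_lit 2) (nat_lit 4) (nat_lit 408) (nat_lit 291) (nat_lit 201)))) (XT.nd (nat_lit 39624) (nat_lit 0) (nat_lit 2356) (XT.nd (nat_lit 78) (nat_lit 0) (nat_lit 0) (XT.lf (nat_lit 0) (nat_lit 3684326325949) (nat_lit 76) (nat_lit 372599287016) (nat_lit 76) (nat_lit 366069743461) (nat_lit 1) (nat_lit 4) (nat_lit 2) (nat_lit 5) (nat_lit 2) (nat_lit 4) (nat_lit 409) (nat_lit 291) (nat_lit 200)) (XT.lf (nat_lit 0) (nat_lit 3989406069108) (nat_lit 76) (nat_lit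 396769991363) (nat_lit 76) (nat_lit 390240007879) (nat_lit 1) (nat_lit 4) (nat_lit 2) (nat_lit 5) (nat_lit 2) (nat_lit 4) (nat_lit 410) (nat_lit 291) (nat_lit 199))) (XT.nd (nat_lit 78) (nat_lit 304) (nat_lit 0) (XT.lf (nat_lit 0) (nat_lit 992307238) (nat_lit 228) (nat_lit 2234031375) (nat_lit 0) (nat_lit 992307238) (nat_lit 36) (nat_lit 5) (nat_lit 39) (nat_lit 4) (nat_lit 36) (nat_lit 4) (nat_lit 316) (nat_lit 292) (nat_lit 292)) (XT.nd (nat_lit 78) (nat_lit 76) (nat_lit 0) (XT.lf (nat_lit 0) (nat_lit 2025422789) (nat_lit 228) (nat_lit 3866566018) (nat_lit 228) (nat_lit 2821409223) (nat_lit 33) (nat_lit 4) (nat_lit 36) (nat_lit 5) (nat_lit 36) (nat_lit 4) (nat_lit 317) (nat_lit 292) (nat_lit 291)) (XT.lf (nat_lit 0) (nat_lit 920154036) (nat_lit 304) (nat_lit 98974172) (nat_lit 76) (nat_lit 8000752683) (nat_lit 32) (nat_lit 5) (nat_lit 36) (nat_lit 5) (nat_lit 33) (nat_lit 4) (nat_lit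 318) (nat_lit 292) (nat_lit 290))))))))
noncomputable def xc70 : XT := (XT.nd (nat_lit 1248) (nat_lit 608) (nat_lit 0) (XT.nd (nat_lit 624) (nat_lit 456) (nat_lit 0) (XT.nd (nat_lit 312) (nat_lit 532) (nat_lit 0) (XT.nd (nat_lit 156) (nat_lit 228) (nat_lit 0) (XT.nd (nat_lit 78) (nat_lit 152) (nat_lit 0) (XT.lf (nat_lit 0) (nat_lit 4797285076) (nat_lit 228) (nat_lit 2445189353) (nat_lit 0) (nat_lit 2103814649) (nat_lit 30) (nat_lit 5) (nat_lit 33) (nat_lit 4) (nat_lit 30) (nat_lit 4) (nat_lit 319) (nat_lit 292) (nat_lit 289)) (XT.lf (nat_lit 0) (nat_lit 4632844540) (nat_lit 152) (nat_lit 4267371564) (nat_lit 152) (nat_lit 805679691) (nat_lit 28) (nat_lit 4) (nat_lit 30) (nat_lit 5) (nat_lit 30) (nat_lit 4) (nat_lit 320) (nat_lit 292) (nat_lit 288))) (XT.nd (nat_lit 78) (nat_lit 0) (nat_lit 0) (XT.lf (nat_lit 0) (nat_lit 2003962960) (nat_lit 152) (nat_lit 965734629) (nat_lit 228) (nat_lit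 7127071888) (nat_lit 25) (nat_lit 5) (nat_lit 27) (nat_lit 5) (nat_lit 28) (nat_lit 4) (nat_lit 321) (nat_lit 292) (nat_lit 287)) (XT.lf (nat_lit 0) (nat_lit 6991632383) (nat_lit 228) (nat_lit 1008931938) (nat_lit 0) (nat_lit 2517897111) (nat_lit 25) (nat_lit 5) (nat_lit 28) (nat_lit 4) (nat_lit 25) (nat_lit 4) (nat_lit 322) (nat_lit 292) (nat_lit 286)))) (XT.nd (nat_lit 156) (nat_lit 228) (nat_lit 0) (XT.nd (nat_lit 78) (nat_lit 76) (nat_lit 0) (XT.lf (nat_lit 0) (nat_lit 326361794) (nat_lit 228) (nat_lit 4359568435) (nat_lit 76) (nat_lit 6288851238) (nat_lit 22) (nat_lit 5) (nat_lit 25) (nat_lit 5) (nat_lit 23) (nat_lit 4) (nat_lit 323) (nat_lit 292) (nat_lit 285)) (XT.lf (nat_lit 0) (nat_lit 3181838703) (nat_lit 76) (nat_lit 1021564315) (nat_lit 152) (nat_lit 7264596658) (nat_lit 21) (nat_lit 5) (nat_lit 22) (nat_lit 5) (nat_lit 23) (nat_lit 4) (nat_lit 324) (nat_lit 292) (nat_lit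 284))) (XT.nd (nat_lit 78) (nat_lit 228) (nat_lit 0) (XT.lf (nat_lit 0) (nat_lit 8388851030) (nat_lit 152) (nat_lit 820855727) (nat_lit 0) (nat_lit 2791305293) (nat_lit 21) (nat_lit 5) (nat_lit 23) (nat_lit 4) (nat_lit 21) (nat_lit 4) (nat_lit 325) (nat_lit 292) (nat_lit 283)) (XT.lf (nat_lit 0) (nat_lit 337423549) (nat_lit 228) (nat_lit 5310750897) (nat_lit 76) (nat_lit 6926292655) (nat_lit 18) (nat_lit 5) (nat_lit 21) (nat_lit 5) (nat_lit 19) (nat_lit 4) (nat_lit 326) (nat_lit 292) (nat_lit 282))))) (XT.nd (nat_lit 312) (nat_lit 228) (nat_lit 0) (XT.nd (nat_lit 156) (nat_lit 152) (nat_lit 0) (XT.nd (nat_lit 78) (nat_lit 0) (nat_lit 0) (XT.lf (nat_lit 0) (nat_lit 2576368049) (nat_lit 76) (nat_lit 1737700178) (nat_lit 152) (nat_lit 8879880773) (nat_lit 17) (nat_lit 5) (nat_lit 18) (nat_lit 5) (nat_lit 19) (nat_lit 4) (nat_lit 327) (nat_lit 292) (nat_lit 281)) (XT.lf (nat_lit 0) (nat_lit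 8641817935) (nat_lit 152) (nat_lit 2829386797) (nat_lit 0) (nat_lit 2389291050) (nat_lit 17) (nat_lit 5) (nat_lit 19) (nat_lit 4) (nat_lit 17) (nat_lit 4) (nat_lit 328) (nat_lit 292) (nat_lit 280))) (XT.nd (nat_lit 78) (nat_lit 76) (nat_lit 0) (XT.lf (nat_lit 0) (nat_lit 5525207369) (nat_lit 76) (nat_lit 7805835129) (nat_lit 76) (nat_lit 1248236939) (nat_lit 16) (nat_lit 4) (nat_lit 17) (nat_lit 5) (nat_lit 17) (nat_lit 4) (nat_lit 329) (nat_lit 292) (nat_lit 279)) (XT.lf (nat_lit 0) (nat_lit 2805482636) (nat_lit 152) (nat_lit 1004667737) (nat_lit 76) (nat_lit 11546264554) (nat_lit 15) (nat_lit 5) (nat_lit 17) (nat_lit 5) (nat_lit 16) (nat_lit 4) (nat_lit 330) (nat_lit 292) (nat_lit 278)))) (XT.nd (nat_lit 156) (nat_lit 152) (nat_lit 0) (XT.nd (nat_lit 78) (nat_lit 0) (nat_lit 0) (XT.lf (nat_lit 0) (nat_lit 7168434371) (nat_lit 152) (nat_lit 8427750113) (nat_lit 0) (nat_lit 592859283)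 (nat_lit 14) (nat_lit 5) (nat_lit 16) (nat_lit 4) (nat_lit 14) (nat_lit 4) (nat_lit 331) (nat_lit 292) (nat_lit 277)) (XT.lf (nat_lit 0) (nat_lit 11859899514) (nat_lit 152) (nat_lit 170035455) (nat_lit 0) (nat_lit 5060087909) (nat_lit 14) (nat_lit 5) (nat_lit 16) (nat_lit 4) (nat_lit 14) (nat_lit 4) (nat_lit 332) (nat_lit 292) (nat_lit 276))) (XT.nd (nat_lit 78) (nat_lit 76) (nat_lit 0) (XT.lf (nat_lit 0) (nat_lit 8945860124) (nat_lit 76) (nat_lit 8059237892) (nat_lit 76) (nat_lit 1051799883) (nat_lit 13) (nat_lit 4) (nat_lit 14) (nat_lit 5) (nat_lit 14) (nat_lit 4) (nat_lit 333) (nat_lit 292) (nat_lit 275)) (XT.lf (nat_lit 0) (nat_lit 3156453380) (nat_lit 152) (nat_lit 634261649) (nat_lit 76) (nat_lit 15314324308) (nat_lit 12) (nat_lit 5) (nat_lit 14) (nat_lit 5) (nat_lit 13) (nat_lit 4) (nat_lit 334) (nat_lit 292) (nat_lit 274)))))) (XT.nd (nat_lit 624) (nat_lit 228) (nat_lit 0) (XT.nd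 (nat_lit 312) (nat_lit 228) (nat_lit 0) (XT.nd (nat_lit 156) (nat_lit 76) (nat_lit 0) (XT.nd (nat_lit 78) (nat_lit 0) (nat_lit 0) (XT.lf (nat_lit 0) (nat_lit 7751060589) (nat_lit 152) (nat_lit 11555471275) (nat_lit 0) (nat_lit 919865351) (nat_lit 11) (nat_lit 5) (nat_lit 13) (nat_lit 4) (nat_lit 11) (nat_lit 4) (nat_lit 335) (nat_lit 292) (nat_lit 273)) (XT.lf (nat_lit 0) (nat_lit 12704950361) (nat_lit 152) (nat_lit 3012099520) (nat_lit 0) (nat_lit 5721143518) (nat_lit 11) (nat_lit 5) (nat_lit 13) (nat_lit 4) (nat_lit 11) (nat_lit 4) (nat_lit 336) (nat_lit 292) (nat_lit 272))) (XT.nd (nat_lit 78) (nat_lit 0) (nat_lit 0) (XT.lf (nat_lit 0) (nat_lit 6314203899) (nat_lit 76) (nat_lit 11777490820) (nat_lit 76) (nat_lit 4652376934) (nat_lit 10) (nat_lit 4) (nat_lit 11) (nat_lit 5) (nat_lit 11) (nat_lit 4) (nat_lit 337) (nat_lit 292) (nat_lit 271)) (XT.lf (nat_lit 0) (nat_lit 16346990720) (nat_lit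 76) (nat_lit 7532899752) (nat_lit 76) (nat_lit 276946013) (nat_lit 10) (nat_lit 4) (nat_lit 11) (nat_lit 5) (nat_lit 11) (nat_lit 4) (nat_lit 338) (nat_lit 292) (nat_lit 270)))) (XT.nd (nat_lit 156) (nat_lit 76) (nat_lit 0) (XT.nd (nat_lit 78) (nat_lit 0) (nat_lit 0) (XT.lf (nat_lit 0) (nat_lit 1254607038) (nat_lit 76) (nat_lit 2895252957) (nat_lit 152) (nat_lit 21530342762) (nat_lit 8) (nat_lit 5) (nat_lit 9) (nat_lit 5) (nat_lit 10) (nat_lit 4) (nat_lit 339) (nat_lit 292) (nat_lit 269)) (XT.lf (nat_lit 0) (nat_lit 9080391027) (nat_lit 152) (nat_lit 16085477500) (nat_lit 0) (nat_lit 2145876362) (nat_lit 8) (nat_lit 5) (nat_lit 10) (nat_lit 4) (nat_lit 8) (nat_lit 4) (nat_lit 340) (nat_lit 292) (nat_lit 268))) (XT.nd (nat_lit 78) (nat_lit 76) (nat_lit 0) (XT.lf (nat_lit 0) (nat_lit 14383004786) (nat_lit 152) (nat_lit 7340317558) (nat_lit 0) (nat_lit 7352318923) (nat_lit 8) (nat_lit 5)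 (nat_lit 10) (nat_lit 4) (nat_lit 8) (nat_lit 4) (nat_lit 341) (nat_lit 292) (nat_lit 267)) (XT.lf (nat_lit 0) (nat_lit 2033039028) (nat_lit 76) (nat_lit 18035348875) (nat_lit 76) (nat_lit 10915615605) (nat_lit 7) (nat_lit 4) (nat_lit 8) (nat_lit 5) (nat_lit 8) (nat_lit 4) (nat_lit 342) (nat_lit 292) (nat_lit 266))))) (XT.nd (nat_lit 312) (nat_lit 76) (nat_lit 0) (XT.nd (nat_lit 156) (nat_lit 152) (nat_lit 0) (XT.nd (nat_lit 78) (nat_lit 0) (nat_lit 0) (XT.lf (nat_lit 0) (nat_lit 12404980215) (nat_lit 76) (nat_lit 13916617735) (nat_lit 76) (nat_lit 6714433164) (nat_lit 7) (nat_lit 4) (nat_lit 8) (nat_lit 5) (nat_lit 8) (nat_lit 4) (nat_lit 343) (nat_lit 292) (nat_lit 265)) (XT.lf (nat_lit 0) (nat_lit 23450441243) (nat_lit 76) (nat_lit 9543418919) (nat_lit 76) (nat_lit 2264890549) (nat_lit 7) (nat_lit 4) (nat_lit 8) (nat_lit 5) (nat_lit 8) (nat_lit 4) (nat_lit 344) (nat_lit 292) (nat_lit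 264))) (XT.nd (nat_lit 78) (nat_lit 76) (nat_lit 0) (XT.lf (nat_lit 0) (nat_lit 2336351753) (nat_lit 152) (nat_lit 2489605424) (nat_lit 76) (nat_lit 32834644947) (nat_lit 6) (nat_lit 5) (nat_lit 8) (nat_lit 5) (nat_lit 7) (nat_lit 4) (nat_lit 345) (nat_lit 292) (nat_lit 263)) (XT.lf (nat_lit 0) (nat_lit 7309913318) (nat_lit 152) (nat_lit 32485403438) (nat_lit 0) (nat_lit 444478528) (nat_lit 5) (nat_lit 5) (nat_lit 7) (nat_lit 4) (nat_lit 5) (nat_lit 4) (nat_lit 346) (nat_lit 292) (nat_lit 262)))) (XT.nd (nat_lit 156) (nat_lit 76) (nat_lit 0) (XT.nd (nat_lit 78) (nat_lit 0) (nat_lit 0) (XT.lf (nat_lit 0) (nat_lit 12805596685) (nat_lit 152) (nat_lit 24325765898) (nat_lit 0) (nat_lit 5884046925) (nat_lit 5) (nat_lit 5) (nat_lit 7) (nat_lit 4) (nat_lit 5) (nat_lit 4) (nat_lit 347) (nat_lit 292) (nat_lit 261)) (XT.lf (nat_lit 0) (nat_lit 18675239405) (nat_lit 152) (nat_lit 15641380493) (nat_lit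 0) (nat_lit 11701731339) (nat_lit 5) (nat_lit 5) (nat_lit 7) (nat_lit 4) (nat_lit 5) (nat_lit 4) (nat_lit 348) (nat_lit 292) (nat_lit 260))) (XT.nd (nat_lit 78) (nat_lit 76) (nat_lit 0) (XT.lf (nat_lit 0) (nat_lit 24953624545) (nat_lit 152) (nat_lit 6380784199) (nat_lit 0) (nat_lit 17932006936) (nat_lit 5) (nat_lit 5) (nat_lit 7) (nat_lit 4) (nat_lit 5) (nat_lit 4) (nat_lit 349) (nat_lit 292) (nat_lit 259)) (XT.nd (nat_lit 78) (nat_lit 0) (nat_lit 0) (XT.lf (nat_lit 0) (nat_lit 3695778395) (nat_lit 76) (nat_lit 28071062514) (nat_lit 76) (nat_lit 21004899032) (nat_lit 4) (nat_lit 4) (nat_lit 5) (nat_lit 5) (nat_lit 5) (nat_lit 4) (nat_lit 350) (nat_lit 292) (nat_lit 258)) (XT.lf (nat_lit 0) (nat_lit 14834366357) (nat_lit 76) (nat_lit 24410486231) (nat_lit 76) (nat_lit 17303076570) (nat_lit 4) (nat_lit 4) (nat_lit 5) (nat_lit 5) (nat_lit 5) (nat_lit 4) (nat_lit 351) (nat_lit 292) (nat_lit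 257))))))))
noncomputable def xc71 : XT := (XT.nd (nat_lit 1248) (nat_lit 0) (nat_lit 0) (XT.nd (nat_lit 624) (nat_lit 76) (nat_lit 0) (XT.nd (nat_lit 312) (nat_lit 76) (nat_lit 0) (XT.nd (nat_lit 156) (nat_lit 76) (nat_lit 0) (XT.nd (nat_lit 78) (nat_lit 0) (nat_lit 0) (XT.lf (nat_lit 0) (nat_lit 26764985344) (nat_lit 76) (nat_lit 20505449537) (nat_lit 76) (nat_lit 13359848970) (nat_lit 4) (nat_lit 4) (nat_lit 5) (nat_lit 5) (nat_lit 5) (nat_lit 4) (nat_lit 352) (nat_lit 292) (nat_lit 256)) (XT.lf (nat_lit 0) (nat_lit 39558335321) (nat_lit 76) (nat_lit 16332811475) (nat_lit 76) (nat_lit 9151848958) (nat_lit 4) (nat_lit 4) (nat_lit 5) (nat_lit 5) (nat_lit 5) (nat_lit 4) (nat_lit 353) (nat_lit 292) (nat_lit 255))) (XT.nd (nat_lit 78) (nat_lit 76) (nat_lit 0) (XT.lf (nat_lit 0) (nat_lit 53290228732) (nat_lit 76) (nat_lit 11867845301) (nat_lit 76) (nat_lit 4654140238) (nat_lit 4) (nat_lit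 4) (nat_lit 5) (nat_lit 5) (nat_lit 5) (nat_lit 4) (nat_lit 354) (nat_lit 292) (nat_lit 254)) (XT.lf (nat_lit 0) (nat_lit 151929919) (nat_lit 152) (nat_lit 6928008003) (nat_lit 76) (nat_lit 67885955809) (nat_lit 3) (nat_lit 5) (nat_lit 5) (nat_lit 5) (nat_lit 4) (nat_lit 4) (nat_lit 355) (nat_lit 292) (nat_lit 253)))) (XT.nd (nat_lit 156) (nat_lit 0) (nat_lit 0) (XT.nd (nat_lit 78) (nat_lit 0) (nat_lit 0) (XT.lf (nat_lit 0) (nat_lit 3408262814) (nat_lit 76) (nat_lit 1726523967) (nat_lit 152) (nat_lit 75383921558) (nat_lit 2) (nat_lit 5) (nat_lit 3) (nat_lit 5) (nat_lit 4) (nat_lit 4) (nat_lit 356) (nat_lit 292) (nat_lit 252)) (XT.lf (nat_lit 0) (nat_lit 10770136192) (nat_lit 152) (nat_lit 71712663979) (nat_lit 0) (nat_lit 4012649358) (nat_lit 2) (nat_lit 5) (nat_lit 4) (nat_lit 4) (nat_lit 2) (nat_lit 4) (nat_lit 357) (nat_lit 292) (nat_lit 251))) (XT.nd (nat_lit 78) (nat_lit 0) (nat_lit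 0) (XT.lf (nat_lit 0) (nat_lit 16865966767) (nat_lit 152) (nat_lit 65997404838) (nat_lit 0) (nat_lit 10086195906) (nat_lit 2) (nat_lit 5) (nat_lit 4) (nat_lit 4) (nat_lit 2) (nat_lit 4) (nat_lit 358) (nat_lit 292) (nat_lit 250)) (XT.lf (nat_lit 0) (nat_lit 23416879004) (nat_lit 152) (nat_lit 59889276956) (nat_lit 0) (nat_lit 16616474784) (nat_lit 2) (nat_lit 5) (nat_lit 4) (nat_lit 4) (nat_lit 2) (nat_lit 4) (nat_lit 359) (nat_lit 292) (nat_lit 249))))) (XT.nd (nat_lit 312) (nat_lit 76) (nat_lit 0) (XT.nd (nat_lit 156) (nat_lit 0) (nat_lit 0) (XT.nd (nat_lit 78) (nat_lit 0) (nat_lit 0) (XT.lf (nat_lit 0) (nat_lit 30461693123) (nat_lit 152) (nat_lit 53352084020) (nat_lit 0) (nat_lit 23642183943) (nat_lit 2) (nat_lit 5) (nat_lit 4) (nat_lit 4) (nat_lit 2) (nat_lit 4) (nat_lit 360) (nat_lit 292) (nat_lit 248)) (XT.lf (nat_lit 0) (nat_lit 38042156172) (nat_lit 152) (nat_lit 46347087109) (nat_lit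 0) (nat_lit 31204957212) (nat_lit 2) (nat_lit 5) (nat_lit 4) (nat_lit 4) (nat_lit 2) (nat_lit 4) (nat_lit 361) (nat_lit 292) (nat_lit 247))) (XT.nd (nat_lit 78) (nat_lit 0) (nat_lit 0) (XT.lf (nat_lit 0) (nat_lit 46203189413) (nat_lit 152) (nat_lit 38832775131) (nat_lit 0) (nat_lit 39349611028) (nat_lit 2) (nat_lit 5) (nat_lit 4) (nat_lit 4) (nat_lit 2) (nat_lit 4) (nat_lit 362) (nat_lit 292) (nat_lit 246)) (XT.lf (nat_lit 0) (nat_lit 54993154524) (nat_lit 152) (nat_lit 30764618828) (nat_lit 0) (nat_lit 48124410005) (nat_lit 2) (nat_lit 5) (nat_lit 4) (nat_lit 4) (nat_lit 2) (nat_lit 4) (nat_lit 363) (nat_lit 292) (nat_lit 245)))) (XT.nd (nat_lit 156) (nat_lit 76) (nat_lit 0) (XT.nd (nat_lit 78) (nat_lit 0) (nat_lit 0) (XT.lf (nat_lit 0) (nat_lit 64464140187) (nat_lit 152) (nat_lit 22094806905) (nat_lit 0) (nat_lit 57581352951) (nat_lit 2) (nat_lit 5) (nat_lit 4) (nat_lit 4) (nat_lit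 2) (nat_lit 4) (nat_lit 364) (nat_lit 292) (nat_lit 244)) (XT.lf (nat_lit 0) (nat_lit 74672270762) (nat_lit 152) (nat_lit 12771962698) (nat_lit 0) (nat_lit 67776481010) (nat_lit 2) (nat_lit 5) (nat_lit 4) (nat_lit 4) (nat_lit 2) (nat_lit 4) (nat_lit 365) (nat_lit 292) (nat_lit 243))) (XT.nd (nat_lit 78) (nat_lit 76) (nat_lit 0) (XT.lf (nat_lit 0) (nat_lit 85678038875) (nat_lit 152) (nat_lit 2740839723) (nat_lit 0) (nat_lit 78770209757) (nat_lit 2) (nat_lit 5) (nat_lit 4) (nat_lit 4) (nat_lit 2) (nat_lit 4) (nat_lit 366) (nat_lit 292) (nat_lit 242)) (XT.lf (nat_lit 0) (nat_lit 8482326011) (nat_lit 76) (nat_lit 89268338024) (nat_lit 76) (nat_lit 82349361345) (nat_lit 1) (nat_lit 4) (nat_lit 2) (nat_lit 5) (nat_lit 2) (nat_lit 4) (nat_lit 367) (nat_lit 292) (nat_lit 241)))))) (XT.nd (nat_lit 624) (nat_lit 0) (nat_lit 0) (XT.nd (nat_lit 312) (nat_lit 0) (nat_lit 0) (XT.nd (nat_lit 156) (nat_lit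 0) (nat_lit 0) (XT.nd (nat_lit 78) (nat_lit 0) (nat_lit 0) (XT.lf (nat_lit 0) (nat_lit 20725331798) (nat_lit 76) (nat_lit 90121591335) (nat_lit 76) (nat_lit 83192292839) (nat_lit 1) (nat_lit 4) (nat_lit 2) (nat_lit 5) (nat_lit 2) (nat_lit 4) (nat_lit 368) (nat_lit 292) (nat_lit 240)) (XT.lf (nat_lit 0) (nat_lit 33916401018) (nat_lit 76) (nat_lit 91058634261) (nat_lit 76) (nat_lit 84119778528) (nat_lit 1) (nat_lit 4) (nat_lit 2) (nat_lit 5) (nat_lit 2) (nat_lit 4) (nat_lit 369) (nat_lit 292) (nat_lit 239))) (XT.nd (nat_lit 78) (nat_lit 0) (nat_lit 0) (XT.lf (nat_lit 0) (nat_lit 48133702971) (nat_lit 76) (nat_lit 92085019650) (nat_lit 76) (nat_lit 85137314624) (nat_lit 1) (nat_lit 4) (nat_lit 2) (nat_lit 5) (nat_lit 2) (nat_lit 4) (nat_lit 370) (nat_lit 292) (nat_lit 238)) (XT.lf (nat_lit 0) (nat_lit 63461488335) (nat_lit 76) (nat_lit 93206829787) (nat_lit 76) (nat_lit 86250930970) (nat_lit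 1) (nat_lit 4) (nat_lit 2) (nat_lit 5) (nat_lit 2) (nat_lit 4) (nat_lit 371) (nat_lit 292) (nat_lit 237)))) (XT.nd (nat_lit 156) (nat_lit 0) (nat_lit 0) (XT.nd (nat_lit 78) (nat_lit 0) (nat_lit 0) (XT.lf (nat_lit 0) (nat_lit 79990588432) (nat_lit 76) (nat_lit 94430712433) (nat_lit 76) (nat_lit 87467226773) (nat_lit 1) (nat_lit 4) (nat_lit 2) (nat_lit 5) (nat_lit 2) (nat_lit 4) (nat_lit 372) (nat_lit 292) (nat_lit 236)) (XT.lf (nat_lit 0) (nat_lit 97818953482) (nat_lit 76) (nat_lit 95763920228) (nat_lit 76) (nat_lit 88793409713) (nat_lit 1) (nat_lit 4) (nat_lit 2) (nat_lit 5) (nat_lit 2) (nat_lit 4) (nat_lit 373) (nat_lit 292) (nat_lit 235))) (XT.nd (nat_lit 78) (nat_lit 0) (nat_lit 0) (XT.lf (nat_lit 0) (nat_lit 117052233058) (nat_lit 76) (nat_lit 97214353662) (nat_lit 76) (nat_lit 90237338652) (nat_lit 1) (nat_lit 4) (nat_lit 2) (nat_lit 5) (nat_lit 2) (nat_lit 4) (nat_lit 374) (nat_lit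 292) (nat_lit 234)) (XT.lf (nat_lit 0) (nat_lit 137804402149) (nat_lit 76) (nat_lit 98790607896) (nat_lit 76) (nat_lit 91807570206) (nat_lit 1) (nat_lit 4) (nat_lit 2) (nat_lit 5) (nat_lit 2) (nat_lit 4) (nat_lit 375) (nat_lit 292) (nat_lit 233))))) (XT.nd (nat_lit 312) (nat_lit 0) (nat_lit 0) (XT.nd (nat_lit 156) (nat_lit 0) (nat_lit 0) (XT.nd (nat_lit 78) (nat_lit 0) (nat_lit 0) (XT.lf (nat_lit 0) (nat_lit 160198436572) (nat_lit 76) (nat_lit 100502023695) (nat_lit 76) (nat_lit 93513409449) (nat_lit 1) (nat_lit 4) (nat_lit 2) (nat_lit 5) (nat_lit 2) (nat_lit 4) (nat_lit 376) (nat_lit 292) (nat_lit 232)) (XT.lf (nat_lit 0) (nat_lit 184367041717) (nat_lit 76) (nat_lit 102358742784) (nat_lit 76) (nat_lit 95364965060) (nat_lit 1) (nat_lit 4) (nat_lit 2) (nat_lit 5) (nat_lit 2) (nat_lit 4) (nat_lit 377) (nat_lit 292) (nat_lit 231))) (XT.nd (nat_lit 78) (nat_lit 0) (nat_lit 0) (XT.lf (nat_lit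 0) (nat_lit 210453438947) (nat_lit 76) (nat_lit 104371767942) (nat_lit 76) (nat_lit 97373209220) (nat_lit 1) (nat_lit 4) (nat_lit 2) (nat_lit 5) (nat_lit 2) (nat_lit 4) (nat_lit 378) (nat_lit 292) (nat_lit 230)) (XT.lf (nat_lit 0) (nat_lit 238612214319) (nat_lit 76) (nat_lit 106553028207) (nat_lit 76) (nat_lit 99550042635) (nat_lit 1) (nat_lit 4) (nat_lit 2) (nat_lit 5) (nat_lit 2) (nat_lit 4) (nat_lit 379) (nat_lit 292) (nat_lit 229)))) (XT.nd (nat_lit 156) (nat_lit 0) (nat_lit 0) (XT.nd (nat_lit 78) (nat_lit 0) (nat_lit 0) (XT.lf (nat_lit 0) (nat_lit 269010234652) (nat_lit 76) (nat_lit 108915449566) (nat_lit 76) (nat_lit 101908365058) (nat_lit 1) (nat_lit 4) (nat_lit 2) (nat_lit 5) (nat_lit 2) (nat_lit 4) (nat_lit 380) (nat_lit 292) (nat_lit 228)) (XT.lf (nat_lit 0) (nat_lit 301827636361) (nat_lit 76) (nat_lit 111473031552) (nat_lit 76) (nat_lit 104462151734) (nat_lit 1) (nat_lit 4)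 (nat_lit 2) (nat_lit 5) (nat_lit 2) (nat_lit 4) (nat_lit 381) (nat_lit 292) (nat_lit 227))) (XT.nd (nat_lit 78) (nat_lit 0) (nat_lit 0) (XT.lf (nat_lit 0) (nat_lit 337258892938) (nat_lit 76) (nat_lit 114240930207) (nat_lit 76) (nat_lit 107226536213) (nat_lit 1) (nat_lit 4) (nat_lit 2) (nat_lit 5) (nat_lit 2) (nat_lit 4) (nat_lit 382) (nat_lit 292) (nat_lit 226)) (XT.nd (nat_lit 78) (nat_lit 0) (nat_lit 0) (XT.lf (nat_lit 0) (nat_lit 375513967386) (nat_lit 76) (nat_lit 117235547894) (nat_lit 76) (nat_lit 110217900033) (nat_lit 1) (nat_lit 4) (nat_lit 2) (nat_lit 5) (nat_lit 2) (nat_lit 4) (nat_lit 383) (nat_lit 292) (nat_lit 225)) (XT.lf (nat_lit 0) (nat_lit 416819556441) (nat_lit 76) (nat_lit 120474630495) (nat_lit 76) (nat_lit 113453969794) (nat_lit 1) (nat_lit 4) (nat_lit 2) (nat_lit 5) (nat_lit 2) (nat_lit 4) (nat_lit 384) (nat_lit 292) (nat_lit 224))))))))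
noncomputable def xc72 : XT := (XT.nd (nat_lit 1248) (nat_lit 0) (nat_lit 0) (XT.nd (nat_lit 624) (nat_lit 0) (nat_lit 0) (XT.nd (nat_lit 312) (nat_lit 0) (nat_lit 0) (XT.nd (nat_lit 156) (nat_lit 0) (nat_lit 0) (XT.nd (nat_lit 78) (nat_lit 0) (nat_lit 0) (XT.lf (nat_lit 0) (nat_lit 461420433964) (nat_lit 76) (nat_lit 123977372573) (nat_lit 76) (nat_lit 116953922206) (nat_lit 1) (nat_lit 4) (nat_lit 2) (nat_lit 5) (nat_lit 2) (nat_lit 4) (nat_lit 385) (nat_lit 292) (nat_lit 223)) (XT.lf (nat_lit 0) (nat_lit 509580901453) (nat_lit 76) (nat_lit 127764531119) (nat_lit 76) (nat_lit 120738497728) (nat_lit 1) (nat_lit 4) (nat_lit 2) (nat_lit 5) (nat_lit 2) (nat_lit 4) (nat_lit 386) (nat_lit 292) (nat_lit 222))) (XT.nd (nat_lit 78) (nat_lit 0) (nat_lit 0) (XT.lf (nat_lit 0) (nat_lit 561586354270) (nat_lit 76) (nat_lit 131858548554) (nat_lit 76) (nat_lit 124830123473) (nat_lit 1) (nat_lit 4)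 (nat_lit 2) (nat_lit 5) (nat_lit 2) (nat_lit 4) (nat_lit 387) (nat_lit 292) (nat_lit 221)) (XT.lf (nat_lit 0) (nat_lit 617744972876) (nat_lit 76) (nat_lit 136283685721) (nat_lit 76) (nat_lit 129253046113) (nat_lit 1) (nat_lit 4) (nat_lit 2) (nat_lit 5) (nat_lit 2) (nat_lit 4) (nat_lit 388) (nat_lit 292) (nat_lit 220)))) (XT.nd (nat_lit 156) (nat_lit 0) (nat_lit 0) (XT.nd (nat_lit 78) (nat_lit 0) (nat_lit 0) (XT.lf (nat_lit 0) (nat_lit 678389549085) (nat_lit 76) (nat_lit 141066165657) (nat_lit 76) (nat_lit 134033475561) (nat_lit 1) (nat_lit 4) (nat_lit 2) (nat_lit 5) (nat_lit 2) (nat_lit 4) (nat_lit 389) (nat_lit 292) (nat_lit 219)) (XT.lf (nat_lit 0) (nat_lit 743879458164) (nat_lit 76) (nat_lit 146234328982) (nat_lit 76) (nat_lit 139199740286) (nat_lit 1) (nat_lit 4) (nat_lit 2) (nat_lit 5) (nat_lit 2) (nat_lit 4) (nat_lit 390) (nat_lit 292) (nat_lit 218))) (XT.nd (nat_lit 78) (nat_lit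 0) (nat_lit 0) (XT.lf (nat_lit 0) (nat_lit 814602788463) (nat_lit 76) (nat_lit 151818801850) (nat_lit 76) (nat_lit 144782455190) (nat_lit 1) (nat_lit 4) (nat_lit 2) (nat_lit 5) (nat_lit 2) (nat_lit 4) (nat_lit 391) (nat_lit 292) (nat_lit 217)) (XT.lf (nat_lit 0) (nat_lit 890978641197) (nat_lit 76) (nat_lit 157852677433) (nat_lit 76) (nat_lit 150814703030) (nat_lit 1) (nat_lit 4) (nat_lit 2) (nat_lit 5) (nat_lit 2) (nat_lit 4) (nat_lit 392) (nat_lit 292) (nat_lit 216))))) (XT.nd (nat_lit 312) (nat_lit 0) (nat_lit 0) (XT.nd (nat_lit 156) (nat_lit 0) (nat_lit 0) (XT.nd (nat_lit 78) (nat_lit 0) (nat_lit 0) (XT.lf (nat_lit 0) (nat_lit 973459614014) (nat_lit 76) (nat_lit 164371712031) (nat_lit 76) (nat_lit 157332230458) (nat_lit 1) (nat_lit 4) (nat_lit 2) (nat_lit 5) (nat_lit 2) (nat_lit 4) (nat_lit 393) (nat_lit 292) (nat_lit 215)) (XT.lf (nat_lit 0) (nat_lit 1062534483048) (nat_lit 76) (nat_lit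 171414536960) (nat_lit 76) (nat_lit 164373659859) (nat_lit 1) (nat_lit 4) (nat_lit 2) (nat_lit 5) (nat_lit 2) (nat_lit 4) (nat_lit 394) (nat_lit 292) (nat_lit 214))) (XT.nd (nat_lit 78) (nat_lit 0) (nat_lit 0) (XT.lf (nat_lit 0) (nat_lit 1158731099375) (nat_lit 76) (nat_lit 179022887479) (nat_lit 76) (nat_lit 171980718223) (nat_lit 1) (nat_lit 4) (nat_lit 2) (nat_lit 5) (nat_lit 2) (nat_lit 4) (nat_lit 395) (nat_lit 292) (nat_lit 213)) (XT.lf (nat_lit 0) (nat_lit 1262619517018) (nat_lit 76) (nat_lit 187241850110) (nat_lit 76) (nat_lit 180198484414) (nat_lit 1) (nat_lit 4) (nat_lit 2) (nat_lit 5) (nat_lit 2) (nat_lit 4) (nat_lit 396) (nat_lit 292) (nat_lit 212)))) (XT.nd (nat_lit 156) (nat_lit 0) (nat_lit 0) (XT.nd (nat_lit 78) (nat_lit 0) (nat_lit 0) (XT.lf (nat_lit 0) (nat_lit 1374815371044) (nat_lit 76) (nat_lit 196120129816) (nat_lit 76) (nat_lit 189075656305) (nat_lit 1) (nat_lit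 4) (nat_lit 2) (nat_lit 5) (nat_lit 2) (nat_lit 4) (nat_lit 397) (nat_lit 292) (nat_lit 211)) (XT.lf (nat_lit 0) (nat_lit 1495983525773) (nat_lit 76) (nat_lit 205710338625) (nat_lit 76) (nat_lit 198664839360) (nat_lit 1) (nat_lit 4) (nat_lit 2) (nat_lit 5) (nat_lit 2) (nat_lit 4) (nat_lit 398) (nat_lit 292) (nat_lit 210))) (XT.nd (nat_lit 78) (nat_lit 0) (nat_lit 0) (XT.lf (nat_lit 0) (nat_lit 1626842014715) (nat_lit 76) (nat_lit 216069307405) (nat_lit 76) (nat_lit 209022858367) (nat_lit 1) (nat_lit 4) (nat_lit 2) (nat_lit 5) (nat_lit 2) (nat_lit 4) (nat_lit 399) (nat_lit 292) (nat_lit 209)) (XT.lf (nat_lit 0) (nat_lit 1768166295583) (nat_lit 76) (nat_lit 227258422636) (nat_lit 76) (nat_lit 220211094179) (nat_lit 1) (nat_lit 4) (nat_lit 2) (nat_lit 5) (nat_lit 2) (nat_lit 4) (nat_lit 400) (nat_lit 292) (nat_lit 208)))))) (XT.nd (nat_lit 624) (nat_lit 0) (nat_lit 0) (XT.nd (nat_lit 312)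 (nat_lit 0) (nat_lit 0) (XT.nd (nat_lit 156) (nat_lit 0) (nat_lit 0) (XT.nd (nat_lit 78) (nat_lit 0) (nat_lit 0) (XT.lf (nat_lit 0) (nat_lit 1920793845595) (nat_lit 76) (nat_lit 239343990188) (nat_lit 76) (nat_lit 232295847453) (nat_lit 1) (nat_lit 4) (nat_lit 2) (nat_lit 5) (nat_lit 2) (nat_lit 4) (nat_lit 401) (nat_lit 292) (nat_lit 207)) (XT.lf (nat_lit 0) (nat_lit 2085629124309) (nat_lit 76) (nat_lit 252397628237) (nat_lit 76) (nat_lit 245348731543) (nat_lit 1) (nat_lit 4) (nat_lit 2) (nat_lit 5) (nat_lit 2) (nat_lit 4) (nat_lit 402) (nat_lit 292) (nat_lit 206))) (XT.nd (nat_lit 78) (nat_lit 0) (nat_lit 0) (XT.lf (nat_lit 0) (nat_lit 2263648933374) (nat_lit 76) (nat_lit 266496691677) (nat_lit 76) (nat_lit 259447096871) (nat_lit 1) (nat_lit 4) (nat_lit 2) (nat_lit 5) (nat_lit 2) (nat_lit 4) (nat_lit 403) (nat_lit 292) (nat_lit 205)) (XT.lf (nat_lit 0) (nat_lit 2455908204994) (nat_lit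 76) (nat_lit 281724730512) (nat_lit 76) (nat_lit 274674489307) (nat_lit 1) (nat_lit 4) (nat_lit 2) (nat_lit 5) (nat_lit 2) (nat_lit 4) (nat_lit 404) (nat_lit 292) (nat_lit 204)))) (XT.nd (nat_lit 156) (nat_lit 0) (nat_lit 0) (XT.nd (nat_lit 78) (nat_lit 0) (nat_lit 0) (XT.lf (nat_lit 0) (nat_lit 2663546253370) (nat_lit 76) (nat_lit 298171984973) (nat_lit 76) (nat_lit 291121145250) (nat_lit 1) (nat_lit 4) (nat_lit 2) (nat_lit 5) (nat_lit 2) (nat_lit 4) (nat_lit 405) (nat_lit 292) (nat_lit 203)) (XT.lf (nat_lit 0) (nat_lit 2887793526197) (nat_lit 76) (nat_lit 315935920272) (nat_lit 76) (nat_lit 308884526365) (nat_lit 1) (nat_lit 4) (nat_lit 2) (nat_lit 5) (nat_lit 2) (nat_lit 4) (nat_lit 406) (nat_lit 292) (nat_lit 202))) (XT.nd (nat_lit 78) (nat_lit 0) (nat_lit 0) (XT.lf (nat_lit 0) (nat_lit 3129978896202) (nat_lit 76) (nat_lit 335121804173) (nat_lit 76) (nat_lit 328069897133) (nat_lit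 1) (nat_lit 4) (nat_lit 2) (nat_lit 5) (nat_lit 2) (nat_lit 4) (nat_lit 407) (nat_lit 292) (nat_lit 201)) (XT.lf (nat_lit 0) (nat_lit 3391537535948) (nat_lit 76) (nat_lit 355843330802) (nat_lit 76) (nat_lit 348790948640) (nat_lit 1) (nat_lit 4) (nat_lit 2) (nat_lit 5) (nat_lit 2) (nat_lit 4) (nat_lit 408) (nat_lit 292) (nat_lit 200))))) (XT.nd (nat_lit 39624) (nat_lit 0) (nat_lit 2204) (XT.nd (nat_lit 39468) (nat_lit 0) (nat_lit 2888) (XT.nd (nat_lit 78) (nat_lit 0) (nat_lit 0) (XT.lf (nat_lit 0) (nat_lit 3674019422561) (nat_lit 76) (nat_lit 378223294393) (nat_lit 76) (nat_lit 371170472302) (nat_lit 1) (nat_lit 4) (nat_lit 2) (nat_lit 5) (nat_lit 2) (nat_lit 4) (nat_lit 409) (nat_lit 292) (nat_lit 199)) (XT.lf (nat_lit 0) (nat_lit 3979098522774) (nat_lit 76) (nat_lit 402394316951) (nat_lit 76) (nat_lit 395341087519) (nat_lit 1) (nat_lit 4) (nat_lit 2) (nat_lit 5) (nat_lit 2) (nat_lit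 4) (nat_lit 410) (nat_lit 292) (nat_lit 198))) (XT.nd (nat_lit 78) (nat_lit 228) (nat_lit 0) (XT.lf (nat_lit 0) (nat_lit 1865113371) (nat_lit 304) (nat_lit 244866442) (nat_lit 0) (nat_lit 1865113371) (nat_lit 42) (nat_lit 5) (nat_lit 46) (nat_lit 4) (nat_lit 42) (nat_lit 4) (nat_lit 314) (nat_lit 293) (nat_lit 293)) (XT.lf (nat_lit 0) (nat_lit 5732682535) (nat_lit 228) (nat_lit 1836926115) (nat_lit 228) (nat_lit 617855230) (nat_lit 39) (nat_lit 4) (nat_lit 42) (nat_lit 5) (nat_lit 42) (nat_lit 4) (nat_lit 315) (nat_lit 293) (nat_lit 292)))) (XT.nd (nat_lit 156) (nat_lit 228) (nat_lit 0) (XT.nd (nat_lit 78) (nat_lit 228) (nat_lit 0) (XT.lf (nat_lit 0) (nat_lit 2991139181) (nat_lit 228) (nat_lit 4638938972) (nat_lit 0) (nat_lit 817213047) (nat_lit 36) (nat_lit 5) (nat_lit 39) (nat_lit 4) (nat_lit 36) (nat_lit 4) (nat_lit 316) (nat_lit 293) (nat_lit 291)) (XT.lf (nat_lit 0) (nat_lit 1678998290)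 (nat_lit 228) (nat_lit 5097994229) (nat_lit 228) (nat_lit 1956330322) (nat_lit 33) (nat_lit 4) (nat_lit 36) (nat_lit 5) (nat_lit 36) (nat_lit 4) (nat_lit 317) (nat_lit 293) (nat_lit 290))) (XT.nd (nat_lit 78) (nat_lit 152) (nat_lit 0) (XT.lf (nat_lit 0) (nat_lit 1630446624) (nat_lit 304) (nat_lit 646388421) (nat_lit 76) (nat_lit 6770401752) (nat_lit 32) (nat_lit 5) (nat_lit 36) (nat_lit 5) (nat_lit 33) (nat_lit 4) (nat_lit 318) (nat_lit 293) (nat_lit 289)) (XT.lf (nat_lit 0) (nat_lit 5354919984) (nat_lit 228) (nat_lit 3183027950) (nat_lit 0) (nat_lit 848071316) (nat_lit 30) (nat_lit 5) (nat_lit 33) (nat_lit 4) (nat_lit 30) (nat_lit 4) (nat_lit 319) (nat_lit 293) (nat_lit 288)))))))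
noncomputable def xc73 : XT := (XT.nd (nat_lit 1248) (nat_lit 532) (nat_lit 0) (XT.nd (nat_lit 624) (nat_lit 532) (nat_lit 0) (XT.nd (nat_lit 312) (nat_lit 304) (nat_lit 0) (XT.nd (nat_lit 156) (nat_lit 228) (nat_lit 0) (XT.nd (nat_lit 78) (nat_lit 228) (nat_lit 0) (XT.lf (nat_lit 0) (nat_lit 3696556296) (nat_lit 152) (nat_lit 5638599878) (nat_lit 152) (nat_lit 420435057) (nat_lit 28) (nat_lit 4) (nat_lit 30) (nat_lit 5) (nat_lit 30) (nat_lit 4) (nat_lit 320) (nat_lit 293) (nat_lit 287)) (XT.lf (nat_lit 0) (nat_lit 795130492) (nat_lit 152) (nat_lit 2412524017) (nat_lit 228) (nat_lit 6948438814) (nat_lit 25) (nat_lit 5) (nat_lit 27) (nat_lit 5) (nat_lit 28) (nat_lit 4) (nat_lit 321) (nat_lit 293) (nat_lit 286))) (XT.nd (nat_lit 78) (nat_lit 228) (nat_lit 0) (XT.lf (nat_lit 0) (nat_lit 7098290747) (nat_lit 228) (nat_lit 2397965228) (nat_lit 0) (nat_lit 1092152006) (nat_lit 25) (nat_lit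 5) (nat_lit 28) (nat_lit 4) (nat_lit 25) (nat_lit 4) (nat_lit 322) (nat_lit 293) (nat_lit 285)) (XT.lf (nat_lit 0) (nat_lit 229634157) (nat_lit 228) (nat_lit 6051338300) (nat_lit 76) (nat_lit 4774315032) (nat_lit 22) (nat_lit 5) (nat_lit 25) (nat_lit 5) (nat_lit 23) (nat_lit 4) (nat_lit 323) (nat_lit 293) (nat_lit 284)))) (XT.nd (nat_lit 156) (nat_lit 228) (nat_lit 0) (XT.nd (nat_lit 78) (nat_lit 0) (nat_lit 0) (XT.lf (nat_lit 0) (nat_lit 1248091227) (nat_lit 76) (nat_lit 2723629155) (nat_lit 152) (nat_lit 7587676036) (nat_lit 21) (nat_lit 5) (nat_lit 22) (nat_lit 5) (nat_lit 23) (nat_lit 4) (nat_lit 324) (nat_lit 293) (nat_lit 283)) (XT.lf (nat_lit 0) (nat_lit 8029579232) (nat_lit 152) (nat_lit 2952190173) (nat_lit 0) (nat_lit 1120933858) (nat_lit 21) (nat_lit 5) (nat_lit 23) (nat_lit 4) (nat_lit 21) (nat_lit 4) (nat_lit 325) (nat_lit 293) (nat_lit 282))) (XT.nd (nat_lit 78) (nat_lit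 76) (nat_lit 0) (XT.lf (nat_lit 0) (nat_lit 4885974977) (nat_lit 152) (nat_lit 7547453165) (nat_lit 152) (nat_lit 254505806) (nat_lit 19) (nat_lit 4) (nat_lit 21) (nat_lit 5) (nat_lit 21) (nat_lit 4) (nat_lit 326) (nat_lit 293) (nat_lit 281)) (XT.lf (nat_lit 0) (nat_lit 3593339278) (nat_lit 228) (nat_lit 174636830) (nat_lit 76) (nat_lit 9551321218) (nat_lit 18) (nat_lit 5) (nat_lit 21) (nat_lit 5) (nat_lit 19) (nat_lit 4) (nat_lit 327) (nat_lit 293) (nat_lit 280))))) (XT.nd (nat_lit 312) (nat_lit 228) (nat_lit 0) (XT.nd (nat_lit 156) (nat_lit 152) (nat_lit 0) (XT.nd (nat_lit 78) (nat_lit 76) (nat_lit 0) (XT.lf (nat_lit 0) (nat_lit 7789474029) (nat_lit 152) (nat_lit 5804766791) (nat_lit 0) (nat_lit 402196677) (nat_lit 17) (nat_lit 5) (nat_lit 19) (nat_lit 4) (nat_lit 17) (nat_lit 4) (nat_lit 328) (nat_lit 293) (nat_lit 279)) (XT.lf (nat_lit 0) (nat_lit 2258233394) (nat_lit 76) (nat_lit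 10069439999) (nat_lit 76) (nat_lit 2399689216) (nat_lit 16) (nat_lit 4) (nat_lit 17) (nat_lit 5) (nat_lit 17) (nat_lit 4) (nat_lit 329) (nat_lit 293) (nat_lit 278))) (XT.nd (nat_lit 78) (nat_lit 76) (nat_lit 0) (XT.lf (nat_lit 0) (nat_lit 1639666034) (nat_lit 152) (nat_lit 4520794903) (nat_lit 76) (nat_lit 9352060687) (nat_lit 15) (nat_lit 5) (nat_lit 17) (nat_lit 5) (nat_lit 16) (nat_lit 4) (nat_lit 330) (nat_lit 293) (nat_lit 277)) (XT.lf (nat_lit 0) (nat_lit 3950720623) (nat_lit 76) (nat_lit 1878219914) (nat_lit 152) (nat_lit 10530151292) (nat_lit 14) (nat_lit 5) (nat_lit 15) (nat_lit 5) (nat_lit 16) (nat_lit 4) (nat_lit 331) (nat_lit 293) (nat_lit 276)))) (XT.nd (nat_lit 156) (nat_lit 152) (nat_lit 0) (XT.nd (nat_lit 78) (nat_lit 76) (nat_lit 0) (XT.lf (nat_lit 0) (nat_lit 10409497905) (nat_lit 152) (nat_lit 4225650893) (nat_lit 0) (nat_lit 2633838451) (nat_lit 14) (nat_lit 5) (nat_lit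 16) (nat_lit 4) (nat_lit 14) (nat_lit 4) (nat_lit 332) (nat_lit 293) (nat_lit 275)) (XT.lf (nat_lit 0) (nat_lit 4559559750) (nat_lit 76) (nat_lit 10828778861) (nat_lit 76) (nat_lit 2860872736) (nat_lit 13) (nat_lit 4) (nat_lit 14) (nat_lit 5) (nat_lit 14) (nat_lit 4) (nat_lit 333) (nat_lit 293) (nat_lit 274))) (XT.nd (nat_lit 78) (nat_lit 76) (nat_lit 0) (XT.lf (nat_lit 0) (nat_lit 1377343838) (nat_lit 152) (nat_lit 5281037118) (nat_lit 76) (nat_lit 12647329879) (nat_lit 12) (nat_lit 5) (nat_lit 14) (nat_lit 5) (nat_lit 13) (nat_lit 4) (nat_lit 334) (nat_lit 293) (nat_lit 273)) (XT.lf (nat_lit 0) (nat_lit 3695767454) (nat_lit 76) (nat_lit 2076588454) (nat_lit 152) (nat_lit 14670712529) (nat_lit 11) (nat_lit 5) (nat_lit 12) (nat_lit 5) (nat_lit 13) (nat_lit 4) (nat_lit 335) (nat_lit 293) (nat_lit 272)))))) (XT.nd (nat_lit 624) (nat_lit 228) (nat_lit 0) (XT.nd (nat_lit 312) (nat_lit 152)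 (nat_lit 0) (XT.nd (nat_lit 156) (nat_lit 76) (nat_lit 0) (XT.nd (nat_lit 78) (nat_lit 76) (nat_lit 0) (XT.lf (nat_lit 0) (nat_lit 10620864567) (nat_lit 152) (nat_lit 8258025749) (nat_lit 0) (nat_lit 2784434529) (nat_lit 11) (nat_lit 5) (nat_lit 13) (nat_lit 4) (nat_lit 11) (nat_lit 4) (nat_lit 336) (nat_lit 293) (nat_lit 271)) (XT.lf (nat_lit 0) (nat_lit 690631857) (nat_lit 76) (nat_lit 15130397515) (nat_lit 76) (nat_lit 7163127623) (nat_lit 10) (nat_lit 4) (nat_lit 11) (nat_lit 5) (nat_lit 11) (nat_lit 4) (nat_lit 337) (nat_lit 293) (nat_lit 270))) (XT.nd (nat_lit 78) (nat_lit 76) (nat_lit 0) (XT.lf (nat_lit 0) (nat_lit 10629525497) (nat_lit 76) (nat_lit 10929911393) (nat_lit 76) (nat_lit 2841493488) (nat_lit 10) (nat_lit 4) (nat_lit 11) (nat_lit 5) (nat_lit 11) (nat_lit 4) (nat_lit 338) (nat_lit 293) (nat_lit 269)) (XT.lf (nat_lit 0) (nat_lit 1636108192) (nat_lit 152) (nat_lit 4797486950)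 (nat_lit 76) (nat_lit 19501857027) (nat_lit 9) (nat_lit 5) (nat_lit 11) (nat_lit 5) (nat_lit 10) (nat_lit 4) (nat_lit 339) (nat_lit 293) (nat_lit 268)))) (XT.nd (nat_lit 156) (nat_lit 76) (nat_lit 0) (XT.nd (nat_lit 78) (nat_lit 0) (nat_lit 0) (XT.lf (nat_lit 0) (nat_lit 4893031129) (nat_lit 76) (nat_lit 1451915031) (nat_lit 152) (nat_lit 21239803824) (nat_lit 8) (nat_lit 5) (nat_lit 9) (nat_lit 5) (nat_lit 10) (nat_lit 4) (nat_lit 340) (nat_lit 293) (nat_lit 267)) (XT.lf (nat_lit 0) (nat_lit 11569211337) (nat_lit 152) (nat_lit 13994869648) (nat_lit 0) (nat_lit 3790852000) (nat_lit 8) (nat_lit 5) (nat_lit 10) (nat_lit 4) (nat_lit 8) (nat_lit 4) (nat_lit 341) (nat_lit 293) (nat_lit 266))) (XT.nd (nat_lit 78) (nat_lit 76) (nat_lit 0) (XT.lf (nat_lit 0) (nat_lit 17165486862) (nat_lit 152) (nat_lit 4800278099) (nat_lit 0) (nat_lit 9304676223) (nat_lit 8) (nat_lit 5) (nat_lit 10) (nat_lit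 4) (nat_lit 8) (nat_lit 4) (nat_lit 342) (nat_lit 293) (nat_lit 265)) (XT.lf (nat_lit 0) (nat_lit 5243775751) (nat_lit 76) (nat_lit 18014354438) (nat_lit 76) (nat_lit 10077200001) (nat_lit 7) (nat_lit 4) (nat_lit 8) (nat_lit 5) (nat_lit 8) (nat_lit 4) (nat_lit 343) (nat_lit 293) (nat_lit 264))))) (XT.nd (nat_lit 312) (nat_lit 76) (nat_lit 0) (XT.nd (nat_lit 156) (nat_lit 152) (nat_lit 0) (XT.nd (nat_lit 78) (nat_lit 0) (nat_lit 0) (XT.lf (nat_lit 0) (nat_lit 16219687522) (nat_lit 76) (nat_lit 13674556092) (nat_lit 76) (nat_lit 5666712953) (nat_lit 7) (nat_lit 4) (nat_lit 8) (nat_lit 5) (nat_lit 8) (nat_lit 4) (nat_lit 344) (nat_lit 293) (nat_lit 263)) (XT.lf (nat_lit 0) (nat_lit 27939725515) (nat_lit 76) (nat_lit 9051900708) (nat_lit 76) (nat_lit 978605068) (nat_lit 7) (nat_lit 4) (nat_lit 8) (nat_lit 5) (nat_lit 8) (nat_lit 4) (nat_lit 345) (nat_lit 293) (nat_lit 262))) (XT.nd (nat_lit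 78) (nat_lit 76) (nat_lit 0) (XT.lf (nat_lit 0) (nat_lit 3814063223) (nat_lit 152) (nat_lit 200648303) (nat_lit 76) (nat_lit 36554995337) (nat_lit 6) (nat_lit 5) (nat_lit 8) (nat_lit 5) (nat_lit 7) (nat_lit 4) (nat_lit 346) (nat_lit 293) (nat_lit 261)) (XT.lf (nat_lit 0) (nat_lit 9176396750) (nat_lit 152) (nat_lit 32586553525) (nat_lit 0) (nat_lit 1593049732) (nat_lit 5) (nat_lit 5) (nat_lit 7) (nat_lit 4) (nat_lit 5) (nat_lit 4) (nat_lit 347) (nat_lit 293) (nat_lit 260)))) (XT.nd (nat_lit 156) (nat_lit 76) (nat_lit 0) (XT.nd (nat_lit 78) (nat_lit 0) (nat_lit 0) (XT.lf (nat_lit 0) (nat_lit 15016794760) (nat_lit 152) (nat_lit 23959158477) (nat_lit 0) (nat_lit 7385338199) (nat_lit 5) (nat_lit 5) (nat_lit 7) (nat_lit 4) (nat_lit 5) (nat_lit 4) (nat_lit 348) (nat_lit 293) (nat_lit 259)) (XT.lf (nat_lit 0) (nat_lit 21268101464) (nat_lit 152) (nat_lit 14751331032) (nat_lit 0) (nat_lit 13592099031)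 (nat_lit 5) (nat_lit 5) (nat_lit 7) (nat_lit 4) (nat_lit 5) (nat_lit 4) (nat_lit 349) (nat_lit 293) (nat_lit 258))) (XT.nd (nat_lit 78) (nat_lit 76) (nat_lit 0) (XT.lf (nat_lit 0) (nat_lit 27967361645) (nat_lit 152) (nat_lit 4908506286) (nat_lit 0) (nat_lit 20250113033) (nat_lit 5) (nat_lit 5) (nat_lit 7) (nat_lit 4) (nat_lit 5) (nat_lit 4) (nat_lit 350) (nat_lit 293) (nat_lit 257)) (XT.nd (nat_lit 78) (nat_lit 0) (nat_lit 0) (XT.lf (nat_lit 0) (nat_lit 5923985350) (nat_lit 76) (nat_lit 29372761260) (nat_lit 76) (nat_lit 21617321742) (nat_lit 4) (nat_lit 4) (nat_lit 5) (nat_lit 5) (nat_lit 5) (nat_lit 4) (nat_lit 351) (nat_lit 293) (nat_lit 256)) (XT.lf (nat_lit 0) (nat_lit 17810508890) (nat_lit 76) (nat_lit 25489263781) (nat_lit 76) (nat_lit 17698462313) (nat_lit 4) (nat_lit 4) (nat_lit 5) (nat_lit 5) (nat_lit 5) (nat_lit 4) (nat_lit 352) (nat_lit 293) (nat_lit 255))))))))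
noncomputable def xc74 : XT := (XT.nd (nat_lit 1248) (nat_lit 0) (nat_lit 0) (XT.nd (nat_lit 624) (nat_lit 76) (nat_lit 0) (XT.nd (nat_lit 312) (nat_lit 76) (nat_lit 0) (XT.nd (nat_lit 156) (nat_lit 76) (nat_lit 0) (XT.nd (nat_lit 78) (nat_lit 0) (nat_lit 0) (XT.lf (nat_lit 0) (nat_lit 30563029750) (nat_lit 76) (nat_lit 21336569437) (nat_lit 76) (nat_lit 13513025423) (nat_lit 4) (nat_lit 4) (nat_lit 5) (nat_lit 5) (nat_lit 5) (nat_lit 4) (nat_lit 353) (nat_lit 293) (nat_lit 254)) (XT.lf (nat_lit 0) (nat_lit 44257118423) (nat_lit 76) (nat_lit 16890069668) (nat_lit 76) (nat_lit 9036208481) (nat_lit 4) (nat_lit 4) (nat_lit 5) (nat_lit 5) (nat_lit 5) (nat_lit 4) (nat_lit 354) (nat_lit 293) (nat_lit 253))) (XT.nd (nat_lit 78) (nat_lit 76) (nat_lit 0) (XT.lf (nat_lit 0) (nat_lit 58973925065) (nat_lit 76) (nat_lit 12123414847) (nat_lit 76) (nat_lit 4241482203) (nat_lit 4) (nat_lit 4) (nat_lit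 5) (nat_lit 5) (nat_lit 5) (nat_lit 4) (nat_lit 355) (nat_lit 293) (nat_lit 252)) (XT.lf (nat_lit 0) (nat_lit 854566638) (nat_lit 152) (nat_lit 6130426124) (nat_lit 76) (nat_lit 73922728376) (nat_lit 3) (nat_lit 5) (nat_lit 5) (nat_lit 5) (nat_lit 4) (nat_lit 4) (nat_lit 356) (nat_lit 293) (nat_lit 251)))) (XT.nd (nat_lit 156) (nat_lit 0) (nat_lit 0) (XT.nd (nat_lit 78) (nat_lit 0) (nat_lit 0) (XT.lf (nat_lit 0) (nat_lit 4998523004) (nat_lit 76) (nat_lit 1218070498) (nat_lit 152) (nat_lit 80689739319) (nat_lit 2) (nat_lit 5) (nat_lit 3) (nat_lit 5) (nat_lit 4) (nat_lit 4) (nat_lit 357) (nat_lit 293) (nat_lit 250)) (XT.lf (nat_lit 0) (nat_lit 12267463691) (nat_lit 152) (nat_lit 76194194508) (nat_lit 0) (nat_lit 4902393776) (nat_lit 2) (nat_lit 5) (nat_lit 4) (nat_lit 4) (nat_lit 2) (nat_lit 4) (nat_lit 358) (nat_lit 293) (nat_lit 249))) (XT.nd (nat_lit 78) (nat_lit 0) (nat_lit 0) (XT.lf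 (nat_lit 0) (nat_lit 18803870593) (nat_lit 152) (nat_lit 70114713346) (nat_lit 0) (nat_lit 11419695717) (nat_lit 2) (nat_lit 5) (nat_lit 4) (nat_lit 4) (nat_lit 2) (nat_lit 4) (nat_lit 359) (nat_lit 293) (nat_lit 248)) (XT.lf (nat_lit 0) (nat_lit 25835253847) (nat_lit 152) (nat_lit 63604045151) (nat_lit 0) (nat_lit 18433389192) (nat_lit 2) (nat_lit 5) (nat_lit 4) (nat_lit 4) (nat_lit 2) (nat_lit 4) (nat_lit 360) (nat_lit 293) (nat_lit 247))))) (XT.nd (nat_lit 312) (nat_lit 76) (nat_lit 0) (XT.nd (nat_lit 156) (nat_lit 0) (nat_lit 0) (XT.nd (nat_lit 78) (nat_lit 0) (nat_lit 0) (XT.lf (nat_lit 0) (nat_lit 33403280909) (nat_lit 152) (nat_lit 56623608185) (nat_lit 0) (nat_lit 25985036829) (nat_lit 2) (nat_lit 5) (nat_lit 4) (nat_lit 4) (nat_lit 2) (nat_lit 4) (nat_lit 361) (nat_lit 293) (nat_lit 246)) (XT.lf (nat_lit 0) (nat_lit 41552799348) (nat_lit 152) (nat_lit 49132036896) (nat_lit 0)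 (nat_lit 34119389133) (nat_lit 2) (nat_lit 5) (nat_lit 4) (nat_lit 4) (nat_lit 2) (nat_lit 4) (nat_lit 362) (nat_lit 293) (nat_lit 245))) (XT.nd (nat_lit 78) (nat_lit 0) (nat_lit 0) (XT.lf (nat_lit 0) (nat_lit 50332102604) (nat_lit 152) (nat_lit 41084936787) (nat_lit 0) (nat_lit 42884649673) (nat_lit 2) (nat_lit 5) (nat_lit 4) (nat_lit 4) (nat_lit 2) (nat_lit 4) (nat_lit 363) (nat_lit 293) (nat_lit 244)) (XT.lf (nat_lit 0) (nat_lit 59793216180) (nat_lit 152) (nat_lit 32434621340) (nat_lit 0) (nat_lit 52332760733) (nat_lit 2) (nat_lit 5) (nat_lit 4) (nat_lit 4) (nat_lit 2) (nat_lit 4) (nat_lit 364) (nat_lit 293) (nat_lit 243)))) (XT.nd (nat_lit 156) (nat_lit 76) (nat_lit 0) (XT.nd (nat_lit 78) (nat_lit 0) (nat_lit 0) (XT.lf (nat_lit 0) (nat_lit 69992205934) (nat_lit 152) (nat_lit 23129829425) (nat_lit 0) (nat_lit 62519711120) (nat_lit 2) (nat_lit 5) (nat_lit 4) (nat_lit 4) (nat_lit 2)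 (nat_lit 4) (nat_lit 365) (nat_lit 293) (nat_lit 242)) (XT.lf (nat_lit 0) (nat_lit 80989510323) (nat_lit 152) (nat_lit 13115421536) (nat_lit 0) (nat_lit 73505867948) (nat_lit 2) (nat_lit 5) (nat_lit 4) (nat_lit 4) (nat_lit 2) (nat_lit 4) (nat_lit 366) (nat_lit 293) (nat_lit 241))) (XT.nd (nat_lit 78) (nat_lit 76) (nat_lit 0) (XT.lf (nat_lit 0) (nat_lit 92850298559) (nat_lit 152) (nat_lit 2332053033) (nat_lit 0) (nat_lit 85356334368) (nat_lit 2) (nat_lit 5) (nat_lit 4) (nat_lit 4) (nat_lit 2) (nat_lit 4) (nat_lit 367) (nat_lit 293) (nat_lit 240)) (XT.lf (nat_lit 0) (nat_lit 9773065863) (nat_lit 76) (nat_lit 96106833399) (nat_lit 76) (nat_lit 88603311971) (nat_lit 1) (nat_lit 4) (nat_lit 2) (nat_lit 5) (nat_lit 2) (nat_lit 4) (nat_lit 368) (nat_lit 293) (nat_lit 239)))))) (XT.nd (nat_lit 624) (nat_lit 0) (nat_lit 0) (XT.nd (nat_lit 312) (nat_lit 0) (nat_lit 0) (XT.nd (nat_lit 156) (nat_lit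 0) (nat_lit 0) (XT.nd (nat_lit 78) (nat_lit 0) (nat_lit 0) (XT.lf (nat_lit 0) (nat_lit 22950167388) (nat_lit 76) (nat_lit 97050789321) (nat_lit 76) (nat_lit 89538418598) (nat_lit 1) (nat_lit 4) (nat_lit 2) (nat_lit 5) (nat_lit 2) (nat_lit 4) (nat_lit 369) (nat_lit 293) (nat_lit 238)) (XT.lf (nat_lit 0) (nat_lit 37154536291) (nat_lit 76) (nat_lit 98083575631) (nat_lit 76) (nat_lit 90563011118) (nat_lit 1) (nat_lit 4) (nat_lit 2) (nat_lit 5) (nat_lit 2) (nat_lit 4) (nat_lit 370) (nat_lit 293) (nat_lit 237))) (XT.nd (nat_lit 78) (nat_lit 0) (nat_lit 0) (XT.lf (nat_lit 0) (nat_lit 52470346608) (nat_lit 76) (nat_lit 99211312546) (nat_lit 76) (nat_lit 91683161190) (nat_lit 1) (nat_lit 4) (nat_lit 2) (nat_lit 5) (nat_lit 2) (nat_lit 4) (nat_lit 371) (nat_lit 293) (nat_lit 236)) (XT.lf (nat_lit 0) (nat_lit 68988358698) (nat_lit 76) (nat_lit 100440682950) (nat_lit 76) (nat_lit 92905506740) (nat_lit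 1) (nat_lit 4) (nat_lit 2) (nat_lit 5) (nat_lit 2) (nat_lit 4) (nat_lit 372) (nat_lit 293) (nat_lit 235)))) (XT.nd (nat_lit 156) (nat_lit 0) (nat_lit 0) (XT.nd (nat_lit 78) (nat_lit 0) (nat_lit 0) (XT.lf (nat_lit 0) (nat_lit 86806457076) (nat_lit 76) (nat_lit 101778972002) (nat_lit 76) (nat_lit 94237291297) (nat_lit 1) (nat_lit 4) (nat_lit 2) (nat_lit 5) (nat_lit 2) (nat_lit 4) (nat_lit 373) (nat_lit 293) (nat_lit 234)) (XT.lf (nat_lit 0) (nat_lit 106030230474) (nat_lit 76) (nat_lit 103234110304) (nat_lit 76) (nat_lit 95686406918) (nat_lit 1) (nat_lit 4) (nat_lit 2) (nat_lit 5) (nat_lit 2) (nat_lit 4) (nat_lit 374) (nat_lit 293) (nat_lit 233))) (XT.nd (nat_lit 78) (nat_lit 0) (nat_lit 0) (XT.lf (nat_lit 0) (nat_lit 126773597548) (nat_lit 76) (nat_lit 104814720897) (nat_lit 76) (nat_lit 97261440955) (nat_lit 1) (nat_lit 4) (nat_lit 2) (nat_lit 5) (nat_lit 2) (nat_lit 4) (nat_lit 375) (nat_lit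 293) (nat_lit 232)) (XT.lf (nat_lit 0) (nat_lit 149159481956) (nat_lit 76) (nat_lit 106530170363) (nat_lit 76) (nat_lit 98971726943) (nat_lit 1) (nat_lit 4) (nat_lit 2) (nat_lit 5) (nat_lit 2) (nat_lit 4) (nat_lit 376) (nat_lit 293) (nat_lit 231))))) (XT.nd (nat_lit 312) (nat_lit 0) (nat_lit 0) (XT.nd (nat_lit 156) (nat_lit 0) (nat_lit 0) (XT.nd (nat_lit 78) (nat_lit 0) (nat_lit 0) (XT.lf (nat_lit 0) (nat_lit 173320540790) (nat_lit 76) (nat_lit 108390624328) (nat_lit 76) (nat_lit 100827399910) (nat_lit 1) (nat_lit 4) (nat_lit 2) (nat_lit 5) (nat_lit 2) (nat_lit 4) (nat_lit 377) (nat_lit 293) (nat_lit 230)) (XT.lf (nat_lit 0) (nat_lit 199399950695) (nat_lit 76) (nat_lit 110407107704) (nat_lit 76) (nat_lit 102839456436) (nat_lit 1) (nat_lit 4) (nat_lit 2) (nat_lit 5) (nat_lit 2) (nat_lit 4) (nat_lit 378) (nat_lit 293) (nat_lit 229))) (XT.nd (nat_lit 78) (nat_lit 0) (nat_lit 0) (XT.lf (nat_lit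 0) (nat_lit 227552256322) (nat_lit 76) (nat_lit 112591570023) (nat_lit 76) (nat_lit 105019819820) (nat_lit 1) (nat_lit 4) (nat_lit 2) (nat_lit 5) (nat_lit 2) (nat_lit 4) (nat_lit 379) (nat_lit 293) (nat_lit 228)) (XT.lf (nat_lit 0) (nat_lit 257944286150) (nat_lit 76) (nat_lit 114956956247) (nat_lit 76) (nat_lit 107381410733) (nat_lit 1) (nat_lit 4) (nat_lit 2) (nat_lit 5) (nat_lit 2) (nat_lit 4) (nat_lit 380) (nat_lit 293) (nat_lit 227)))) (XT.nd (nat_lit 156) (nat_lit 0) (nat_lit 0) (XT.nd (nat_lit 78) (nat_lit 0) (nat_lit 0) (XT.lf (nat_lit 0) (nat_lit 290756141095) (nat_lit 76) (nat_lit 117517283478) (nat_lit 76) (nat_lit 109938223788) (nat_lit 1) (nat_lit 4) (nat_lit 2) (nat_lit 5) (nat_lit 2) (nat_lit 4) (nat_lit 381) (nat_lit 293) (nat_lit 226)) (XT.lf (nat_lit 0) (nat_lit 326182261780) (nat_lit 76) (nat_lit 120287724027) (nat_lit 76) (nat_lit 112705410470) (nat_lit 1) (nat_lit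 4) (nat_lit 2) (nat_lit 5) (nat_lit 2) (nat_lit 4) (nat_lit 382) (nat_lit 293) (nat_lit 225))) (XT.nd (nat_lit 78) (nat_lit 0) (nat_lit 0) (XT.lf (nat_lit 0) (nat_lit 364432580772) (nat_lit 76) (nat_lit 123284695319) (nat_lit 76) (nat_lit 115699368923) (nat_lit 1) (nat_lit 4) (nat_lit 2) (nat_lit 5) (nat_lit 2) (nat_lit 4) (nat_lit 383) (nat_lit 293) (nat_lit 224)) (XT.nd (nat_lit 78) (nat_lit 0) (nat_lit 0) (XT.lf (nat_lit 0) (nat_lit 405733766627) (nat_lit 76) (nat_lit 126525957184) (nat_lit 76) (nat_lit 118937841121) (nat_lit 1) (nat_lit 4) (nat_lit 2) (nat_lit 5) (nat_lit 2) (nat_lit 4) (nat_lit 384) (nat_lit 293) (nat_lit 223)) (XT.lf (nat_lit 0) (nat_lit 450330567114) (nat_lit 76) (nat_lit 130030717100) (nat_lit 76) (nat_lit 122440018012) (nat_lit 1) (nat_lit 4) (nat_lit 2) (nat_lit 5) (nat_lit 2) (nat_lit 4) (nat_lit 385) (nat_lit 293) (nat_lit 222))))))))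
noncomputable def xc75 : XT := (XT.nd (nat_lit 1248) (nat_lit 0) (nat_lit 0) (XT.nd (nat_lit 624) (nat_lit 0) (nat_lit 0) (XT.nd (nat_lit 312) (nat_lit 0) (nat_lit 0) (XT.nd (nat_lit 156) (nat_lit 0) (nat_lit 0) (XT.nd (nat_lit 78) (nat_lit 0) (nat_lit 0) (XT.lf (nat_lit 0) (nat_lit 498487259568) (nat_lit 76) (nat_lit 133819744014) (nat_lit 76) (nat_lit 126226653237) (nat_lit 1) (nat_lit 4) (nat_lit 2) (nat_lit 5) (nat_lit 2) (nat_lit 4) (nat_lit 386) (nat_lit 293) (nat_lit 221)) (XT.lf (nat_lit 0) (nat_lit 550489216983) (nat_lit 76) (nat_lit 137915491419) (nat_lit 76) (nat_lit 130320186115) (nat_lit 1) (nat_lit 4) (nat_lit 2) (nat_lit 5) (nat_lit 2) (nat_lit 4) (nat_lit 387) (nat_lit 293) (nat_lit 220))) (XT.nd (nat_lit 78) (nat_lit 0) (nat_lit 0) (XT.lf (nat_lit 0) (nat_lit 606644599106) (nat_lit 76) (nat_lit 142342230410) (nat_lit 76) (nat_lit 134744874618) (nat_lit 1) (nat_lit 4)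 (nat_lit 2) (nat_lit 5) (nat_lit 2) (nat_lit 4) (nat_lit 388) (nat_lit 293) (nat_lit 219)) (XT.lf (nat_lit 0) (nat_lit 667286178571) (nat_lit 76) (nat_lit 147126193516) (nat_lit 76) (nat_lit 139526939124) (nat_lit 1) (nat_lit 4) (nat_lit 2) (nat_lit 5) (nat_lit 2) (nat_lit 4) (nat_lit 389) (nat_lit 293) (nat_lit 218)))) (XT.nd (nat_lit 156) (nat_lit 0) (nat_lit 0) (XT.nd (nat_lit 78) (nat_lit 0) (nat_lit 0) (XT.lf (nat_lit 0) (nat_lit 732773312887) (nat_lit 76) (nat_lit 152295730147) (nat_lit 76) (nat_lit 144694717792) (nat_lit 1) (nat_lit 4) (nat_lit 2) (nat_lit 5) (nat_lit 2) (nat_lit 4) (nat_lit 390) (nat_lit 293) (nat_lit 217)) (XT.lf (nat_lit 0) (nat_lit 803494073961) (nat_lit 76) (nat_lit 157881474595) (nat_lit 76) (nat_lit 150278834496) (nat_lit 1) (nat_lit 4) (nat_lit 2) (nat_lit 5) (nat_lit 2) (nat_lit 4) (nat_lit 391) (nat_lit 293) (nat_lit 216))) (XT.nd (nat_lit 78) (nat_lit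 0) (nat_lit 0) (XT.lf (nat_lit 0) (nat_lit 879867547784) (nat_lit 76) (nat_lit 163916527567) (nat_lit 76) (nat_lit 156312380298) (nat_lit 1) (nat_lit 4) (nat_lit 2) (nat_lit 5) (nat_lit 2) (nat_lit 4) (nat_lit 392) (nat_lit 293) (nat_lit 215)) (XT.lf (nat_lit 0) (nat_lit 962346317904) (nat_lit 76) (nat_lit 170436652339) (nat_lit 76) (nat_lit 162831109543) (nat_lit 1) (nat_lit 4) (nat_lit 2) (nat_lit 5) (nat_lit 2) (nat_lit 4) (nat_lit 393) (nat_lit 293) (nat_lit 214))))) (XT.nd (nat_lit 312) (nat_lit 0) (nat_lit 0) (XT.nd (nat_lit 156) (nat_lit 0) (nat_lit 0) (XT.nd (nat_lit 78) (nat_lit 0) (nat_lit 0) (XT.lf (nat_lit 0) (nat_lit 1051419147405) (nat_lit 76) (nat_lit 177480486690) (nat_lit 76) (nat_lit 169873651738) (nat_lit 1) (nat_lit 4) (nat_lit 2) (nat_lit 5) (nat_lit 2) (nat_lit 4) (nat_lit 394) (nat_lit 293) (nat_lit 213)) (XT.lf (nat_lit 0) (nat_lit 1147613875275) (nat_lit 76) (nat_lit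 185089771858) (nat_lit 76) (nat_lit 177481740466) (nat_lit 1) (nat_lit 4) (nat_lit 2) (nat_lit 5) (nat_lit 2) (nat_lit 4) (nat_lit 395) (nat_lit 293) (nat_lit 212))) (XT.nd (nat_lit 78) (nat_lit 0) (nat_lit 0) (XT.lf (nat_lit 0) (nat_lit 1251500544346) (nat_lit 76) (nat_lit 193309599904) (nat_lit 76) (nat_lit 185700460698) (nat_lit 1) (nat_lit 4) (nat_lit 2) (nat_lit 5) (nat_lit 2) (nat_lit 4) (nat_lit 396) (nat_lit 293) (nat_lit 211)) (XT.lf (nat_lit 0) (nat_lit 1363694779325) (nat_lit 76) (nat_lit 202188680922) (nat_lit 76) (nat_lit 194578515960) (nat_lit 1) (nat_lit 4) (nat_lit 2) (nat_lit 5) (nat_lit 2) (nat_lit 4) (nat_lit 397) (nat_lit 293) (nat_lit 210)))) (XT.nd (nat_lit 156) (nat_lit 0) (nat_lit 0) (XT.nd (nat_lit 78) (nat_lit 0) (nat_lit 0) (XT.lf (nat_lit 0) (nat_lit 1484861434936) (nat_lit 76) (nat_lit 211779631685) (nat_lit 76) (nat_lit 204168516951) (nat_lit 1) (nat_lit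 4) (nat_lit 2) (nat_lit 5) (nat_lit 2) (nat_lit 4) (nat_lit 398) (nat_lit 293) (nat_lit 209)) (XT.lf (nat_lit 0) (nat_lit 1615718535806) (nat_lit 76) (nat_lit 222139287460) (nat_lit 76) (nat_lit 214527293307) (nat_lit 1) (nat_lit 4) (nat_lit 2) (nat_lit 5) (nat_lit 2) (nat_lit 4) (nat_lit 399) (nat_lit 293) (nat_lit 208))) (XT.nd (nat_lit 78) (nat_lit 0) (nat_lit 0) (XT.lf (nat_lit 0) (nat_lit 1757041531422) (nat_lit 76) (nat_lit 233329038798) (nat_lit 76) (nat_lit 225716230368) (nat_lit 1) (nat_lit 4) (nat_lit 2) (nat_lit 5) (nat_lit 2) (nat_lit 4) (nat_lit 400) (nat_lit 293) (nat_lit 207)) (XT.lf (nat_lit 0) (nat_lit 1909667891386) (nat_lit 76) (nat_lit 245415195337) (nat_lit 76) (nat_lit 237801632946) (nat_lit 1) (nat_lit 4) (nat_lit 2) (nat_lit 5) (nat_lit 2) (nat_lit 4) (nat_lit 401) (nat_lit 293) (nat_lit 206)))))) (XT.nd (nat_lit 624) (nat_lit 0) (nat_lit 0) (XT.nd (nat_lit 312)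 (nat_lit 0) (nat_lit 0) (XT.nd (nat_lit 156) (nat_lit 0) (nat_lit 0) (XT.nd (nat_lit 78) (nat_lit 0) (nat_lit 0) (XT.lf (nat_lit 0) (nat_lit 2074502068203) (nat_lit 76) (nat_lit 258469378745) (nat_lit 76) (nat_lit 250855118243) (nat_lit 1) (nat_lit 4) (nat_lit 2) (nat_lit 5) (nat_lit 2) (nat_lit 4) (nat_lit 402) (nat_lit 293) (nat_lit 205)) (XT.lf (nat_lit 0) (nat_lit 2252520856994) (nat_lit 76) (nat_lit 272568947146) (nat_lit 76) (nat_lit 264954040245) (nat_lit 1) (nat_lit 4) (nat_lit 2) (nat_lit 5) (nat_lit 2) (nat_lit 4) (nat_lit 403) (nat_lit 293) (nat_lit 204))) (XT.nd (nat_lit 78) (nat_lit 0) (nat_lit 0) (XT.lf (nat_lit 0) (nat_lit 2444779183915) (nat_lit 76) (nat_lit 287797453539) (nat_lit 76) (nat_lit 280181948120) (nat_lit 1) (nat_lit 4) (nat_lit 2) (nat_lit 5) (nat_lit 2) (nat_lit 4) (nat_lit 404) (nat_lit 293) (nat_lit 203)) (XT.lf (nat_lit 0) (nat_lit 2652416357570) (nat_lit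 76) (nat_lit 304245140923) (nat_lit 76) (nat_lit 296629081321) (nat_lit 1) (nat_lit 4) (nat_lit 2) (nat_lit 5) (nat_lit 2) (nat_lit 4) (nat_lit 405) (nat_lit 293) (nat_lit 202)))) (XT.nd (nat_lit 156) (nat_lit 0) (nat_lit 0) (XT.nd (nat_lit 78) (nat_lit 0) (nat_lit 0) (XT.lf (nat_lit 0) (nat_lit 2876662820470) (nat_lit 76) (nat_lit 322009477077) (nat_lit 76) (nat_lit 314392904342) (nat_lit 1) (nat_lit 4) (nat_lit 2) (nat_lit 5) (nat_lit 2) (nat_lit 4) (nat_lit 406) (nat_lit 293) (nat_lit 201)) (XT.lf (nat_lit 0) (nat_lit 3118847440543) (nat_lit 76) (nat_lit 341195732139) (nat_lit 76) (nat_lit 333578684282) (nat_lit 1) (nat_lit 4) (nat_lit 2) (nat_lit 5) (nat_lit 2) (nat_lit 4) (nat_lit 407) (nat_lit 293) (nat_lit 200))) (XT.nd (nat_lit 78) (nat_lit 0) (nat_lit 0) (XT.lf (nat_lit 0) (nat_lit 3380405385908) (nat_lit 76) (nat_lit 361917602438) (nat_lit 76) (nat_lit 354300114651) (nat_lit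 1) (nat_lit 4) (nat_lit 2) (nat_lit 5) (nat_lit 2) (nat_lit 4) (nat_lit 408) (nat_lit 293) (nat_lit 199)) (XT.lf (nat_lit 0) (nat_lit 3662886629574) (nat_lit 76) (nat_lit 384297884240) (nat_lit 76) (nat_lit 376679989112) (nat_lit 1) (nat_lit 4) (nat_lit 2) (nat_lit 5) (nat_lit 2) (nat_lit 4) (nat_lit 409) (nat_lit 293) (nat_lit 198))))) (XT.nd (nat_lit 39468) (nat_lit 0) (nat_lit 2204) (XT.nd (nat_lit 39312) (nat_lit 0) (nat_lit 3116) (XT.nd (nat_lit 39234) (nat_lit 0) (nat_lit 3420) (XT.lf (nat_lit 0) (nat_lit 3967965134467) (nat_lit 76) (nat_lit 408469201439) (nat_lit 76) (nat_lit 400850929143) (nat_lit 1) (nat_lit 4) (nat_lit 2) (nat_lit 5) (nat_lit 2) (nat_lit 4) (nat_lit 410) (nat_lit 293) (nat_lit 197)) (XT.lf (nat_lit 0) (nat_lit 1705503402) (nat_lit 304) (nat_lit 1031523073) (nat_lit 304) (nat_lit 1031523073) (nat_lit 46) (nat_lit 4) (nat_lit 50) (nat_lit 5) (nat_lit 50) (nat_lit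 4) (nat_lit 312) (nat_lit 294) (nat_lit 294))) (XT.nd (nat_lit 78) (nat_lit 0) (nat_lit 0) (XT.lf (nat_lit 0) (nat_lit 1389377722) (nat_lit 304) (nat_lit 6277017109) (nat_lit 0) (nat_lit 72781165) (nat_lit 42) (nat_lit 5) (nat_lit 46) (nat_lit 4) (nat_lit 42) (nat_lit 4) (nat_lit 313) (nat_lit 294) (nat_lit 293)) (XT.lf (nat_lit 0) (nat_lit 4927337497) (nat_lit 304) (nat_lit 640994202) (nat_lit 0) (nat_lit 2391670055) (nat_lit 42) (nat_lit 5) (nat_lit 46) (nat_lit 4) (nat_lit 42) (nat_lit 4) (nat_lit 314) (nat_lit 294) (nat_lit 292)))) (XT.nd (nat_lit 156) (nat_lit 456) (nat_lit 0) (XT.nd (nat_lit 78) (nat_lit 152) (nat_lit 0) (XT.lf (nat_lit 0) (nat_lit 419653458) (nat_lit 304) (nat_lit 2791557587) (nat_lit 76) (nat_lit 4994896620) (nat_lit 38) (nat_lit 5) (nat_lit 42) (nat_lit 5) (nat_lit 39) (nat_lit 4) (nat_lit 315) (nat_lit 294) (nat_lit 291)) (XT.lf (nat_lit 0) (nat_lit 3310606137)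 (nat_lit 152) (nat_lit 545259109) (nat_lit 228) (nat_lit 4620434618) (nat_lit 36) (nat_lit 5) (nat_lit 38) (nat_lit 5) (nat_lit 39) (nat_lit 4) (nat_lit 316) (nat_lit 294) (nat_lit 290))) (XT.nd (nat_lit 78) (nat_lit 228) (nat_lit 0) (XT.lf (nat_lit 0) (nat_lit 984096404) (nat_lit 228) (nat_lit 6522991208) (nat_lit 228) (nat_lit 1266202922) (nat_lit 33) (nat_lit 4) (nat_lit 36) (nat_lit 5) (nat_lit 36) (nat_lit 4) (nat_lit 317) (nat_lit 294) (nat_lit 289)) (XT.nd (nat_lit 78) (nat_lit 152) (nat_lit 0) (XT.lf (nat_lit 0) (nat_lit 2182799611) (nat_lit 304) (nat_lit 1546244256) (nat_lit 76) (nat_lit 5365254584) (nat_lit 32) (nat_lit 5) (nat_lit 36) (nat_lit 5) (nat_lit 33) (nat_lit 4) (nat_lit 318) (nat_lit 294) (nat_lit 288)) (XT.lf (nat_lit 0) (nat_lit 5134306423) (nat_lit 152) (nat_lit 629633632) (nat_lit 228) (nat_lit 3680757159) (nat_lit 30) (nat_lit 5) (nat_lit 32) (nat_lit 5) (nat_lit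 33) (nat_lit 4) (nat_lit 319) (nat_lit 294) (nat_lit 287))))))))
noncomputable def xc76 : XT := (XT.nd (nat_lit 1248) (nat_lit 532) (nat_lit 0) (XT.nd (nat_lit 624) (nat_lit 456) (nat_lit 0) (XT.nd (nat_lit 312) (nat_lit 380) (nat_lit 0) (XT.nd (nat_lit 156) (nat_lit 304) (nat_lit 0) (XT.nd (nat_lit 78) (nat_lit 76) (nat_lit 0) (XT.lf (nat_lit 0) (nat_lit 2377994196) (nat_lit 152) (nat_lit 7226571337) (nat_lit 152) (nat_lit 221011110) (nat_lit 28) (nat_lit 4) (nat_lit 30) (nat_lit 5) (nat_lit 30) (nat_lit 4) (nat_lit 320) (nat_lit 294) (nat_lit 286)) (XT.lf (nat_lit 0) (nat_lit 3286364958) (nat_lit 228) (nat_lit 779760065) (nat_lit 76) (nat_lit 6168547839) (nat_lit 27) (nat_lit 5) (nat_lit 30) (nat_lit 5) (nat_lit 28) (nat_lit 4) (nat_lit 321) (nat_lit 294) (nat_lit 285))) (XT.nd (nat_lit 78) (nat_lit 152) (nat_lit 0) (XT.lf (nat_lit 0) (nat_lit 6466170680) (nat_lit 152) (nat_lit 575288720)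 (nat_lit 228) (nat_lit 3636481481) (nat_lit 25) (nat_lit 5) (nat_lit 27) (nat_lit 5) (nat_lit 28) (nat_lit 4) (nat_lit 322) (nat_lit 294) (nat_lit 284)) (XT.lf (nat_lit 0) (nat_lit 2974983461) (nat_lit 152) (nat_lit 8120144695) (nat_lit 152) (nat_lit 61900731) (nat_lit 23) (nat_lit 4) (nat_lit 25) (nat_lit 5) (nat_lit 25) (nat_lit 4) (nat_lit 323) (nat_lit 294) (nat_lit 283)))) (XT.nd (nat_lit 156) (nat_lit 228) (nat_lit 0) (XT.nd (nat_lit 78) (nat_lit 76) (nat_lit 0) (XT.lf (nat_lit 0) (nat_lit 3571368798) (nat_lit 228) (nat_lit 1078046697) (nat_lit 76) (nat_lit 7020881812) (nat_lit 22) (nat_lit 5) (nat_lit 25) (nat_lit 5) (nat_lit 23) (nat_lit 4) (nat_lit 324) (nat_lit 294) (nat_lit 282)) (XT.lf (nat_lit 0) (nat_lit 6667175201) (nat_lit 76) (nat_lit 827399386) (nat_lit 152) (nat_lit 4729882674) (nat_lit 21) (nat_lit 5) (nat_lit 22) (nat_lit 5) (nat_lit 23) (nat_lit 4) (nat_lit 325)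 (nat_lit 294) (nat_lit 281))) (XT.nd (nat_lit 78) (nat_lit 76) (nat_lit 0) (XT.lf (nat_lit 0) (nat_lit 2031872382) (nat_lit 152) (nat_lit 9703718670) (nat_lit 152) (nat_lit 1087198367) (nat_lit 19) (nat_lit 4) (nat_lit 21) (nat_lit 5) (nat_lit 21) (nat_lit 4) (nat_lit 326) (nat_lit 294) (nat_lit 280)) (XT.lf (nat_lit 0) (nat_lit 2728626102) (nat_lit 228) (nat_lit 3270455020) (nat_lit 76) (nat_lit 7462631993) (nat_lit 18) (nat_lit 5) (nat_lit 21) (nat_lit 5) (nat_lit 19) (nat_lit 4) (nat_lit 327) (nat_lit 294) (nat_lit 279))))) (XT.nd (nat_lit 312) (nat_lit 228) (nat_lit 0) (XT.nd (nat_lit 156) (nat_lit 152) (nat_lit 0) (XT.nd (nat_lit 78) (nat_lit 0) (nat_lit 0) (XT.lf (nat_lit 0) (nat_lit 4820154900) (nat_lit 76) (nat_lit 1944856406) (nat_lit 152) (nat_lit 7386681382) (nat_lit 17) (nat_lit 5) (nat_lit 18) (nat_lit 5) (nat_lit 19) (nat_lit 4) (nat_lit 328) (nat_lit 294) (nat_lit 278))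 (XT.lf (nat_lit 0) (nat_lit 11135038855) (nat_lit 152) (nat_lit 1453402621) (nat_lit 0) (nat_lit 2307685105) (nat_lit 17) (nat_lit 5) (nat_lit 19) (nat_lit 4) (nat_lit 17) (nat_lit 4) (nat_lit 329) (nat_lit 294) (nat_lit 277))) (XT.nd (nat_lit 78) (nat_lit 0) (nat_lit 0) (XT.lf (nat_lit 0) (nat_lit 241985556) (nat_lit 152) (nat_lit 8566199229) (nat_lit 76) (nat_lit 6884118100) (nat_lit 15) (nat_lit 5) (nat_lit 17) (nat_lit 5) (nat_lit 16) (nat_lit 4) (nat_lit 330) (nat_lit 294) (nat_lit 276)) (XT.lf (nat_lit 0) (nat_lit 4274547061) (nat_lit 152) (nat_lit 402707816) (nat_lit 76) (nat_lit 11874198941) (nat_lit 15) (nat_lit 5) (nat_lit 17) (nat_lit 5) (nat_lit 16) (nat_lit 4) (nat_lit 331) (nat_lit 294) (nat_lit 275)))) (XT.nd (nat_lit 156) (nat_lit 152) (nat_lit 0) (XT.nd (nat_lit 78) (nat_lit 0) (nat_lit 0) (XT.lf (nat_lit 0) (nat_lit 8633117542) (nat_lit 76) (nat_lit 85396713) (nat_lit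 152) (nat_lit 8753802652) (nat_lit 14) (nat_lit 5) (nat_lit 15) (nat_lit 5) (nat_lit 16) (nat_lit 4) (nat_lit 332) (nat_lit 294) (nat_lit 274)) (XT.lf (nat_lit 0) (nat_lit 13529285160) (nat_lit 152) (nat_lit 383045189) (nat_lit 0) (nat_lit 4553693697) (nat_lit 14) (nat_lit 5) (nat_lit 16) (nat_lit 4) (nat_lit 14) (nat_lit 4) (nat_lit 333) (nat_lit 294) (nat_lit 273))) (XT.nd (nat_lit 78) (nat_lit 76) (nat_lit 0) (XT.lf (nat_lit 0) (nat_lit 8999142868) (nat_lit 76) (nat_lit 9835880294) (nat_lit 76) (nat_lit 695468297) (nat_lit 13) (nat_lit 4) (nat_lit 14) (nat_lit 5) (nat_lit 14) (nat_lit 4) (nat_lit 334) (nat_lit 294) (nat_lit 272)) (XT.lf (nat_lit 0) (nat_lit 3593552606) (nat_lit 152) (nat_lit 1818434180) (nat_lit 76) (nat_lit 15268492597) (nat_lit 12) (nat_lit 5) (nat_lit 14) (nat_lit 5) (nat_lit 13) (nat_lit 4) (nat_lit 335) (nat_lit 294) (nat_lit 271)))))) (XT.nd (nat_lit 624) (nat_lit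 228) (nat_lit 0) (XT.nd (nat_lit 312) (nat_lit 152) (nat_lit 0) (XT.nd (nat_lit 156) (nat_lit 76) (nat_lit 0) (XT.nd (nat_lit 78) (nat_lit 0) (nat_lit 0) (XT.lf (nat_lit 0) (nat_lit 7778158152) (nat_lit 76) (nat_lit 497076846) (nat_lit 152) (nat_lit 13638874427) (nat_lit 11) (nat_lit 5) (nat_lit 12) (nat_lit 5) (nat_lit 13) (nat_lit 4) (nat_lit 336) (nat_lit 294) (nat_lit 270)) (XT.lf (nat_lit 0) (nat_lit 13399305278) (nat_lit 152) (nat_lit 5299083422) (nat_lit 0) (nat_lit 4542665928) (nat_lit 11) (nat_lit 5) (nat_lit 13) (nat_lit 4) (nat_lit 11) (nat_lit 4) (nat_lit 337) (nat_lit 294) (nat_lit 269))) (XT.nd (nat_lit 78) (nat_lit 0) (nat_lit 0) (XT.lf (nat_lit 0) (nat_lit 4273831744) (nat_lit 76) (nat_lit 14683626824) (nat_lit 76) (nat_lit 5714813387) (nat_lit 10) (nat_lit 4) (nat_lit 11) (nat_lit 5) (nat_lit 11) (nat_lit 4) (nat_lit 338) (nat_lit 294) (nat_lit 268)) (XT.lf (nat_lit 0)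 (nat_lit 14746507294) (nat_lit 76) (nat_lit 10269857552) (nat_lit 76) (nat_lit 1197179222) (nat_lit 10) (nat_lit 4) (nat_lit 11) (nat_lit 5) (nat_lit 11) (nat_lit 4) (nat_lit 339) (nat_lit 294) (nat_lit 267)))) (XT.nd (nat_lit 156) (nat_lit 0) (nat_lit 0) (XT.nd (nat_lit 78) (nat_lit 76) (nat_lit 0) (XT.lf (nat_lit 0) (nat_lit 3413299667) (nat_lit 152) (nat_lit 2069186220) (nat_lit 76) (nat_lit 22395337856) (nat_lit 9) (nat_lit 5) (nat_lit 11) (nat_lit 5) (nat_lit 10) (nat_lit 4) (nat_lit 340) (nat_lit 294) (nat_lit 266)) (XT.lf (nat_lit 0) (nat_lit 8317785972) (nat_lit 76) (nat_lit 132061579) (nat_lit 152) (nat_lit 21213193927) (nat_lit 8) (nat_lit 5) (nat_lit 9) (nat_lit 5) (nat_lit 10) (nat_lit 4) (nat_lit 341) (nat_lit 294) (nat_lit 265))) (XT.nd (nat_lit 78) (nat_lit 0) (nat_lit 0) (XT.lf (nat_lit 0) (nat_lit 14005712774) (nat_lit 152) (nat_lit 12218843605) (nat_lit 0) (nat_lit 5357242184)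 (nat_lit 8) (nat_lit 5) (nat_lit 10) (nat_lit 4) (nat_lit 8) (nat_lit 4) (nat_lit 342) (nat_lit 294) (nat_lit 264)) (XT.lf (nat_lit 0) (nat_lit 19937767042) (nat_lit 152) (nat_lit 2503174778) (nat_lit 0) (nat_lit 11218607751) (nat_lit 8) (nat_lit 5) (nat_lit 10) (nat_lit 4) (nat_lit 8) (nat_lit 4) (nat_lit 343) (nat_lit 294) (nat_lit 263))))) (XT.nd (nat_lit 312) (nat_lit 0) (nat_lit 0) (XT.nd (nat_lit 156) (nat_lit 152) (nat_lit 0) (XT.nd (nat_lit 78) (nat_lit 0) (nat_lit 0) (XT.lf (nat_lit 0) (nat_lit 8276526783) (nat_lit 76) (nat_lit 18200511070) (nat_lit 76) (nat_lit 9415899276) (nat_lit 7) (nat_lit 4) (nat_lit 8) (nat_lit 5) (nat_lit 8) (nat_lit 4) (nat_lit 344) (nat_lit 294) (nat_lit 262)) (XT.lf (nat_lit 0) (nat_lit 19936937498) (nat_lit 76) (nat_lit 13606491205) (nat_lit 76) (nat_lit 4761275244) (nat_lit 7) (nat_lit 4) (nat_lit 8) (nat_lit 5) (nat_lit 8) (nat_lit 4) (nat_lit 345)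 (nat_lit 294) (nat_lit 261))) (XT.nd (nat_lit 78) (nat_lit 76) (nat_lit 0) (XT.lf (nat_lit 0) (nat_lit 191164886) (nat_lit 152) (nat_lit 8503707968) (nat_lit 76) (nat_lit 32218951674) (nat_lit 6) (nat_lit 5) (nat_lit 8) (nat_lit 5) (nat_lit 7) (nat_lit 4) (nat_lit 346) (nat_lit 294) (nat_lit 260)) (XT.lf (nat_lit 0) (nat_lit 2017384187) (nat_lit 76) (nat_lit 3256978036) (nat_lit 152) (nat_lit 38448096468) (nat_lit 5) (nat_lit 5) (nat_lit 6) (nat_lit 5) (nat_lit 7) (nat_lit 4) (nat_lit 347) (nat_lit 294) (nat_lit 259)))) (XT.nd (nat_lit 156) (nat_lit 0) (nat_lit 0) (XT.nd (nat_lit 78) (nat_lit 0) (nat_lit 0) (XT.lf (nat_lit 0) (nat_lit 11009351397) (nat_lit 152) (nat_lit 33052117906) (nat_lit 0) (nat_lit 2674722896) (nat_lit 5) (nat_lit 5) (nat_lit 7) (nat_lit 4) (nat_lit 5) (nat_lit 4) (nat_lit 348) (nat_lit 294) (nat_lit 258)) (XT.lf (nat_lit 0) (nat_lit 17235585477) (nat_lit 152) (nat_lit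 23893150506) (nat_lit 0) (nat_lit 8859710797) (nat_lit 5) (nat_lit 5) (nat_lit 7) (nat_lit 4) (nat_lit 5) (nat_lit 4) (nat_lit 349) (nat_lit 294) (nat_lit 257))) (XT.nd (nat_lit 78) (nat_lit 0) (nat_lit 0) (XT.lf (nat_lit 0) (nat_lit 23911630263) (nat_lit 152) (nat_lit 14095566543) (nat_lit 0) (nat_lit 15497564677) (nat_lit 5) (nat_lit 5) (nat_lit 7) (nat_lit 4) (nat_lit 5) (nat_lit 4) (nat_lit 350) (nat_lit 294) (nat_lit 256)) (XT.lf (nat_lit 0) (nat_lit 31077047504) (nat_lit 152) (nat_lit 3601306260) (nat_lit 0) (nat_lit 22627619968) (nat_lit 5) (nat_lit 5) (nat_lit 7) (nat_lit 4) (nat_lit 5) (nat_lit 4) (nat_lit 351) (nat_lit 294) (nat_lit 255)))))))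
noncomputable def xc77 : XT := (XT.nd (nat_lit 1248) (nat_lit 76) (nat_lit 0) (XT.nd (nat_lit 624) (nat_lit 0) (nat_lit 0) (XT.nd (nat_lit 312) (nat_lit 152) (nat_lit 0) (XT.nd (nat_lit 156) (nat_lit 0) (nat_lit 0) (XT.nd (nat_lit 78) (nat_lit 0) (nat_lit 0) (XT.lf (nat_lit 0) (nat_lit 8054749757) (nat_lit 76) (nat_lit 30913266098) (nat_lit 76) (nat_lit 22431096016) (nat_lit 4) (nat_lit 4) (nat_lit 5) (nat_lit 5) (nat_lit 5) (nat_lit 4) (nat_lit 352) (nat_lit 294) (nat_lit 254)) (XT.lf (nat_lit 0) (nat_lit 20769465878) (nat_lit 76) (nat_lit 26779038159) (nat_lit 76) (nat_lit 18266550904) (nat_lit 4) (nat_lit 4) (nat_lit 5) (nat_lit 5) (nat_lit 5) (nat_lit 4) (nat_lit 353) (nat_lit 294) (nat_lit 253))) (XT.nd (nat_lit 78) (nat_lit 0) (nat_lit 0) (XT.lf (nat_lit 0) (nat_lit 34428550164) (nat_lit 76) (nat_lit 22349636914) (nat_lit 76) (nat_lit 13809078203) (nat_lit 4) (nat_lit 4) (nat_lit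 5) (nat_lit 5) (nat_lit 5) (nat_lit 4) (nat_lit 354) (nat_lit 294) (nat_lit 252)) (XT.lf (nat_lit 0) (nat_lit 49112945336) (nat_lit 76) (nat_lit 17598814058) (nat_lit 76) (nat_lit 9032263258) (nat_lit 4) (nat_lit 4) (nat_lit 5) (nat_lit 5) (nat_lit 5) (nat_lit 4) (nat_lit 355) (nat_lit 294) (nat_lit 251)))) (XT.nd (nat_lit 156) (nat_lit 76) (nat_lit 0) (XT.nd (nat_lit 78) (nat_lit 76) (nat_lit 0) (XT.lf (nat_lit 0) (nat_lit 64909670032) (nat_lit 76) (nat_lit 12498416568) (nat_lit 76) (nat_lit 3907799019) (nat_lit 4) (nat_lit 4) (nat_lit 5) (nat_lit 5) (nat_lit 5) (nat_lit 4) (nat_lit 356) (nat_lit 294) (nat_lit 250)) (XT.lf (nat_lit 0) (nat_lit 1514909272) (nat_lit 152) (nat_lit 5461890290) (nat_lit 76) (nat_lit 80356004896) (nat_lit 3) (nat_lit 5) (nat_lit 5) (nat_lit 5) (nat_lit 4) (nat_lit 4) (nat_lit 357) (nat_lit 294) (nat_lit 249))) (XT.nd (nat_lit 78) (nat_lit 0) (nat_lit 0) (XT.lf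 (nat_lit 0) (nat_lit 6528033758) (nat_lit 76) (nat_lit 761181959) (nat_lit 152) (nat_lit 86523437014) (nat_lit 2) (nat_lit 5) (nat_lit 3) (nat_lit 5) (nat_lit 4) (nat_lit 4) (nat_lit 358) (nat_lit 294) (nat_lit 248)) (XT.lf (nat_lit 0) (nat_lit 13793885309) (nat_lit 152) (nat_lit 81213356107) (nat_lit 0) (nat_lit 5782181702) (nat_lit 2) (nat_lit 5) (nat_lit 4) (nat_lit 4) (nat_lit 2) (nat_lit 4) (nat_lit 359) (nat_lit 294) (nat_lit 247))))) (XT.nd (nat_lit 312) (nat_lit 0) (nat_lit 0) (XT.nd (nat_lit 156) (nat_lit 0) (nat_lit 0) (XT.nd (nat_lit 78) (nat_lit 0) (nat_lit 0) (XT.lf (nat_lit 0) (nat_lit 20812832577) (nat_lit 152) (nat_lit 74727247856) (nat_lit 0) (nat_lit 12784749545) (nat_lit 2) (nat_lit 5) (nat_lit 4) (nat_lit 4) (nat_lit 2) (nat_lit 4) (nat_lit 360) (nat_lit 294) (nat_lit 246)) (XT.lf (nat_lit 0) (nat_lit 28369344837) (nat_lit 152) (nat_lit 67769551580) (nat_lit 0) (nat_lit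 20326095670) (nat_lit 2) (nat_lit 5) (nat_lit 4) (nat_lit 4) (nat_lit 2) (nat_lit 4) (nat_lit 361) (nat_lit 294) (nat_lit 245))) (XT.nd (nat_lit 78) (nat_lit 0) (nat_lit 0) (XT.lf (nat_lit 0) (nat_lit 36508201421) (nat_lit 152) (nat_lit 60299036485) (nat_lit 0) (nat_lit 28450909537) (nat_lit 2) (nat_lit 5) (nat_lit 4) (nat_lit 4) (nat_lit 2) (nat_lit 4) (nat_lit 362) (nat_lit 294) (nat_lit 244)) (XT.lf (nat_lit 0) (nat_lit 45277632590) (nat_lit 152) (nat_lit 52271432853) (nat_lit 0) (nat_lit 37207338191) (nat_lit 2) (nat_lit 5) (nat_lit 4) (nat_lit 4) (nat_lit 2) (nat_lit 4) (nat_lit 363) (nat_lit 294) (nat_lit 243)))) (XT.nd (nat_lit 156) (nat_lit 0) (nat_lit 0) (XT.nd (nat_lit 78) (nat_lit 0) (nat_lit 0) (XT.lf (nat_lit 0) (nat_lit 54729605345) (nat_lit 152) (nat_lit 43639169698) (nat_lit 0) (nat_lit 46647271580) (nat_lit 2) (nat_lit 5) (nat_lit 4) (nat_lit 4) (nat_lit 2) (nat_lit 4)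 (nat_lit 364) (nat_lit 294) (nat_lit 242)) (XT.lf (nat_lit 0) (nat_lit 64920131375) (nat_lit 152) (nat_lit 34351092869) (nat_lit 0) (nat_lit 56826650049) (nat_lit 2) (nat_lit 5) (nat_lit 4) (nat_lit 4) (nat_lit 2) (nat_lit 4) (nat_lit 365) (nat_lit 294) (nat_lit 241))) (XT.nd (nat_lit 78) (nat_lit 0) (nat_lit 0) (XT.lf (nat_lit 0) (nat_lit 75909598983) (nat_lit 152) (nat_lit 24352161911) (nat_lit 0) (nat_lit 67805795841) (nat_lit 2) (nat_lit 5) (nat_lit 4) (nat_lit 4) (nat_lit 2) (nat_lit 4) (nat_lit 366) (nat_lit 294) (nat_lit 240)) (XT.lf (nat_lit 0) (nat_lit 87763130940) (nat_lit 152) (nat_lit 13583123899) (nat_lit 0) (nat_lit 79649770560) (nat_lit 2) (nat_lit 5) (nat_lit 4) (nat_lit 4) (nat_lit 2) (nat_lit 4) (nat_lit 367) (nat_lit 294) (nat_lit 239)))))) (XT.nd (nat_lit 624) (nat_lit 0) (nat_lit 0) (XT.nd (nat_lit 312) (nat_lit 0) (nat_lit 0) (XT.nd (nat_lit 156) (nat_lit 0) (nat_lit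 0) (XT.nd (nat_lit 78) (nat_lit 76) (nat_lit 0) (XT.lf (nat_lit 0) (nat_lit 100550970398) (nat_lit 152) (nat_lit 1980162313) (nat_lit 0) (nat_lit 92428760725) (nat_lit 2) (nat_lit 5) (nat_lit 4) (nat_lit 4) (nat_lit 2) (nat_lit 4) (nat_lit 368) (nat_lit 294) (nat_lit 238)) (XT.lf (nat_lit 0) (nat_lit 11079734323) (nat_lit 76) (nat_lit 103535630700) (nat_lit 76) (nat_lit 95405227236) (nat_lit 1) (nat_lit 4) (nat_lit 2) (nat_lit 5) (nat_lit 2) (nat_lit 4) (nat_lit 369) (nat_lit 294) (nat_lit 237))) (XT.nd (nat_lit 78) (nat_lit 0) (nat_lit 0) (XT.lf (nat_lit 0) (nat_lit 25272128179) (nat_lit 76) (nat_lit 104574343789) (nat_lit 76) (nat_lit 96436353482) (nat_lit 1) (nat_lit 4) (nat_lit 2) (nat_lit 5) (nat_lit 2) (nat_lit 4) (nat_lit 370) (nat_lit 294) (nat_lit 236)) (XT.lf (nat_lit 0) (nat_lit 40576850490) (nat_lit 76) (nat_lit 105707568462) (nat_lit 76) (nat_lit 97562553300) (nat_lit 1)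 (nat_lit 4) (nat_lit 2) (nat_lit 5) (nat_lit 2) (nat_lit 4) (nat_lit 371) (nat_lit 294) (nat_lit 235)))) (XT.nd (nat_lit 156) (nat_lit 0) (nat_lit 0) (XT.nd (nat_lit 78) (nat_lit 0) (nat_lit 0) (XT.lf (nat_lit 0) (nat_lit 57084595907) (nat_lit 76) (nat_lit 106942020124) (nat_lit 76) (nat_lit 98790500467) (nat_lit 1) (nat_lit 4) (nat_lit 2) (nat_lit 5) (nat_lit 2) (nat_lit 4) (nat_lit 372) (nat_lit 294) (nat_lit 234)) (XT.lf (nat_lit 0) (nat_lit 74893188107) (nat_lit 76) (nat_lit 108285014044) (nat_lit 76) (nat_lit 100127471707) (nat_lit 1) (nat_lit 4) (nat_lit 2) (nat_lit 5) (nat_lit 2) (nat_lit 4) (nat_lit 373) (nat_lit 294) (nat_lit 233))) (XT.nd (nat_lit 78) (nat_lit 0) (nat_lit 0) (XT.lf (nat_lit 0) (nat_lit 94108159488) (nat_lit 76) (nat_lit 109744508705) (nat_lit 76) (nat_lit 101581389812) (nat_lit 1) (nat_lit 4) (nat_lit 2) (nat_lit 5) (nat_lit 2) (nat_lit 4) (nat_lit 374) (nat_lit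 294) (nat_lit 232)) (XT.lf (nat_lit 0) (nat_lit 114843376547) (nat_lit 76) (nat_lit 111329152964) (nat_lit 76) (nat_lit 103160870593) (nat_lit 1) (nat_lit 4) (nat_lit 2) (nat_lit 5) (nat_lit 2) (nat_lit 4) (nat_lit 375) (nat_lit 294) (nat_lit 231))))) (XT.nd (nat_lit 312) (nat_lit 0) (nat_lit 0) (XT.nd (nat_lit 156) (nat_lit 0) (nat_lit 0) (XT.nd (nat_lit 78) (nat_lit 0) (nat_lit 0) (XT.lf (nat_lit 0) (nat_lit 137221714643) (nat_lit 76) (nat_lit 113048337306) (nat_lit 76) (nat_lit 104875273936) (nat_lit 1) (nat_lit 4) (nat_lit 2) (nat_lit 5) (nat_lit 2) (nat_lit 4) (nat_lit 376) (nat_lit 294) (nat_lit 230)) (XT.lf (nat_lit 0) (nat_lit 161375786153) (nat_lit 76) (nat_lit 114912249489) (nat_lit 76) (nat_lit 106734759270) (nat_lit 1) (nat_lit 4) (nat_lit 2) (nat_lit 5) (nat_lit 2) (nat_lit 4) (nat_lit 377) (nat_lit 294) (nat_lit 229))) (XT.nd (nat_lit 78) (nat_lit 0) (nat_lit 0) (XT.lf (nat_lit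 0) (nat_lit 187448726312) (nat_lit 76) (nat_lit 116931934920) (nat_lit 76) (nat_lit 108750345765) (nat_lit 1) (nat_lit 4) (nat_lit 2) (nat_lit 5) (nat_lit 2) (nat_lit 4) (nat_lit 378) (nat_lit 294) (nat_lit 228)) (XT.lf (nat_lit 0) (nat_lit 215595041435) (nat_lit 76) (nat_lit 119119362103) (nat_lit 76) (nat_lit 110933977638) (nat_lit 1) (nat_lit 4) (nat_lit 2) (nat_lit 5) (nat_lit 2) (nat_lit 4) (nat_lit 379) (nat_lit 294) (nat_lit 227)))) (XT.nd (nat_lit 156) (nat_lit 0) (nat_lit 0) (XT.nd (nat_lit 78) (nat_lit 0) (nat_lit 0) (XT.lf (nat_lit 0) (nat_lit 245981524499) (nat_lit 76) (nat_lit 121487493572) (nat_lit 76) (nat_lit 113298594931) (nat_lit 1) (nat_lit 4) (nat_lit 2) (nat_lit 5) (nat_lit 2) (nat_lit 4) (nat_lit 380) (nat_lit 294) (nat_lit 226)) (XT.lf (nat_lit 0) (nat_lit 278788243552) (nat_lit 76) (nat_lit 124050362697) (nat_lit 76) (nat_lit 115858210189) (nat_lit 1) (nat_lit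 4) (nat_lit 2) (nat_lit 5) (nat_lit 2) (nat_lit 4) (nat_lit 381) (nat_lit 294) (nat_lit 225))) (XT.nd (nat_lit 78) (nat_lit 0) (nat_lit 0) (XT.lf (nat_lit 0) (nat_lit 314209608781) (nat_lit 76) (nat_lit 126823156852) (nat_lit 76) (nat_lit 118627991504) (nat_lit 1) (nat_lit 4) (nat_lit 2) (nat_lit 5) (nat_lit 2) (nat_lit 4) (nat_lit 382) (nat_lit 294) (nat_lit 224)) (XT.nd (nat_lit 78) (nat_lit 0) (nat_lit 0) (XT.lf (nat_lit 0) (nat_lit 352455524573) (nat_lit 76) (nat_lit 129822307408) (nat_lit 76) (nat_lit 121624352394) (nat_lit 1) (nat_lit 4) (nat_lit 2) (nat_lit 5) (nat_lit 2) (nat_lit 4) (nat_lit 383) (nat_lit 294) (nat_lit 223)) (XT.lf (nat_lit 0) (nat_lit 393752633391) (nat_lit 76) (nat_lit 133065587110) (nat_lit 76) (nat_lit 124865049071) (nat_lit 1) (nat_lit 4) (nat_lit 2) (nat_lit 5) (nat_lit 2) (nat_lit 4) (nat_lit 384) (nat_lit 294) (nat_lit 222))))))))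
noncomputable def xc78 : XT := (XT.nd (nat_lit 1248) (nat_lit 0) (nat_lit 0) (XT.nd (nat_lit 624) (nat_lit 0) (nat_lit 0) (XT.nd (nat_lit 312) (nat_lit 0) (nat_lit 0) (XT.nd (nat_lit 156) (nat_lit 0) (nat_lit 0) (XT.nd (nat_lit 78) (nat_lit 0) (nat_lit 0) (XT.lf (nat_lit 0) (nat_lit 438345658844) (nat_lit 76) (nat_lit 136572215393) (nat_lit 76) (nat_lit 128369285665) (nat_lit 1) (nat_lit 4) (nat_lit 2) (nat_lit 5) (nat_lit 2) (nat_lit 4) (nat_lit 385) (nat_lit 294) (nat_lit 221)) (XT.lf (nat_lit 0) (nat_lit 486498855896) (nat_lit 76) (nat_lit 140362972278) (nat_lit 76) (nat_lit 132157828022) (nat_lit 1) (nat_lit 4) (nat_lit 2) (nat_lit 5) (nat_lit 2) (nat_lit 4) (nat_lit 386) (nat_lit 294) (nat_lit 220))) (XT.nd (nat_lit 78) (nat_lit 0) (nat_lit 0) (XT.lf (nat_lit 0) (nat_lit 538497576828) (nat_lit 76) (nat_lit 144460321507) (nat_lit 76) (nat_lit 136253126763) (nat_lit 1) (nat_lit 4)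 (nat_lit 2) (nat_lit 5) (nat_lit 2) (nat_lit 4) (nat_lit 387) (nat_lit 294) (nat_lit 219)) (XT.lf (nat_lit 0) (nat_lit 594649962207) (nat_lit 76) (nat_lit 148888543669) (nat_lit 76) (nat_lit 140679450326) (nat_lit 1) (nat_lit 4) (nat_lit 2) (nat_lit 5) (nat_lit 2) (nat_lit 4) (nat_lit 388) (nat_lit 294) (nat_lit 218)))) (XT.nd (nat_lit 156) (nat_lit 0) (nat_lit 0) (XT.nd (nat_lit 78) (nat_lit 0) (nat_lit 0) (XT.lf (nat_lit 0) (nat_lit 655288766909) (nat_lit 76) (nat_lit 153673880081) (nat_lit 76) (nat_lit 145463028775) (nat_lit 1) (nat_lit 4) (nat_lit 2) (nat_lit 5) (nat_lit 2) (nat_lit 4) (nat_lit 389) (nat_lit 294) (nat_lit 217)) (XT.lf (nat_lit 0) (nat_lit 720773332001) (nat_lit 76) (nat_lit 158844688292) (nat_lit 76) (nat_lit 150632209242) (nat_lit 1) (nat_lit 4) (nat_lit 2) (nat_lit 5) (nat_lit 2) (nat_lit 4) (nat_lit 390) (nat_lit 294) (nat_lit 216))) (XT.nd (nat_lit 78) (nat_lit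 0) (nat_lit 0) (XT.lf (nat_lit 0) (nat_lit 791491714162) (nat_lit 76) (nat_lit 164431610128) (nat_lit 76) (nat_lit 156217623908) (nat_lit 1) (nat_lit 4) (nat_lit 2) (nat_lit 5) (nat_lit 2) (nat_lit 4) (nat_lit 391) (nat_lit 294) (nat_lit 215)) (XT.lf (nat_lit 0) (nat_lit 867862985289) (nat_lit 76) (nat_lit 170467753275) (nat_lit 76) (nat_lit 162252371527) (nat_lit 1) (nat_lit 4) (nat_lit 2) (nat_lit 5) (nat_lit 2) (nat_lit 4) (nat_lit 392) (nat_lit 294) (nat_lit 214))))) (XT.nd (nat_lit 312) (nat_lit 0) (nat_lit 0) (XT.nd (nat_lit 156) (nat_lit 0) (nat_lit 0) (XT.nd (nat_lit 78) (nat_lit 0) (nat_lit 0) (XT.lf (nat_lit 0) (nat_lit 950339715876) (nat_lit 76) (nat_lit 176988887468) (nat_lit 76) (nat_lit 168772213565) (nat_lit 1) (nat_lit 4) (nat_lit 2) (nat_lit 5) (nat_lit 2) (nat_lit 4) (nat_lit 393) (nat_lit 294) (nat_lit 213)) (XT.lf (nat_lit 0) (nat_lit 1039410656919) (nat_lit 76) (nat_lit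 184033656468) (nat_lit 76) (nat_lit 175815786124) (nat_lit 1) (nat_lit 4) (nat_lit 2) (nat_lit 5) (nat_lit 2) (nat_lit 4) (nat_lit 394) (nat_lit 294) (nat_lit 212))) (XT.nd (nat_lit 78) (nat_lit 0) (nat_lit 0) (XT.lf (nat_lit 0) (nat_lit 1135603636218) (nat_lit 76) (nat_lit 191643807052) (nat_lit 76) (nat_lit 183424828894) (nat_lit 1) (nat_lit 4) (nat_lit 2) (nat_lit 5) (nat_lit 2) (nat_lit 4) (nat_lit 395) (nat_lit 294) (nat_lit 211)) (XT.lf (nat_lit 0) (nat_lit 1239488686242) (nat_lit 76) (nat_lit 199864436409) (nat_lit 76) (nat_lit 191644432496) (nat_lit 1) (nat_lit 4) (nat_lit 2) (nat_lit 5) (nat_lit 2) (nat_lit 4) (nat_lit 396) (nat_lit 294) (nat_lit 210)))) (XT.nd (nat_lit 156) (nat_lit 0) (nat_lit 0) (XT.nd (nat_lit 78) (nat_lit 0) (nat_lit 0) (XT.lf (nat_lit 0) (nat_lit 1351681422103) (nat_lit 76) (nat_lit 208744259381) (nat_lit 76) (nat_lit 200523305695) (nat_lit 1) (nat_lit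 4) (nat_lit 2) (nat_lit 5) (nat_lit 2) (nat_lit 4) (nat_lit 397) (nat_lit 294) (nat_lit 209)) (XT.lf (nat_lit 0) (nat_lit 1472846689642) (nat_lit 76) (nat_lit 218335897140) (nat_lit 76) (nat_lit 210114064035) (nat_lit 1) (nat_lit 4) (nat_lit 2) (nat_lit 5) (nat_lit 2) (nat_lit 4) (nat_lit 398) (nat_lit 294) (nat_lit 208))) (XT.nd (nat_lit 78) (nat_lit 0) (nat_lit 0) (XT.lf (nat_lit 0) (nat_lit 1603702505260) (nat_lit 76) (nat_lit 228696189021) (nat_lit 76) (nat_lit 220473541639) (nat_lit 1) (nat_lit 4) (nat_lit 2) (nat_lit 5) (nat_lit 2) (nat_lit 4) (nat_lit 399) (nat_lit 294) (nat_lit 207)) (XT.lf (nat_lit 0) (nat_lit 1745024310827) (nat_lit 76) (nat_lit 239886529346) (nat_lit 76) (nat_lit 231663128004) (nat_lit 1) (nat_lit 4) (nat_lit 2) (nat_lit 5) (nat_lit 2) (nat_lit 4) (nat_lit 400) (nat_lit 294) (nat_lit 206)))))) (XT.nd (nat_lit 624) (nat_lit 0) (nat_lit 0) (XT.nd (nat_lit 312)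 (nat_lit 0) (nat_lit 0) (XT.nd (nat_lit 156) (nat_lit 0) (nat_lit 0) (XT.nd (nat_lit 78) (nat_lit 0) (nat_lit 0) (XT.lf (nat_lit 0) (nat_lit 1897649568895) (nat_lit 76) (nat_lit 251973231244) (nat_lit 76) (nat_lit 243749131790) (nat_lit 1) (nat_lit 4) (nat_lit 2) (nat_lit 5) (nat_lit 2) (nat_lit 4) (nat_lit 401) (nat_lit 294) (nat_lit 205)) (XT.lf (nat_lit 0) (nat_lit 2062482725437) (nat_lit 76) (nat_lit 265027919613) (nat_lit 76) (nat_lit 256803173761) (nat_lit 1) (nat_lit 4) (nat_lit 2) (nat_lit 5) (nat_lit 2) (nat_lit 4) (nat_lit 402) (nat_lit 294) (nat_lit 204))) (XT.nd (nat_lit 78) (nat_lit 0) (nat_lit 0) (XT.lf (nat_lit 0) (nat_lit 2240500569529) (nat_lit 76) (nat_lit 279127955572) (nat_lit 76) (nat_lit 270902611202) (nat_lit 1) (nat_lit 4) (nat_lit 2) (nat_lit 5) (nat_lit 2) (nat_lit 4) (nat_lit 403) (nat_lit 294) (nat_lit 203)) (XT.lf (nat_lit 0) (nat_lit 2432758021730) (nat_lit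 76) (nat_lit 294356894888) (nat_lit 76) (nat_lit 286130996334) (nat_lit 1) (nat_lit 4) (nat_lit 2) (nat_lit 5) (nat_lit 2) (nat_lit 4) (nat_lit 404) (nat_lit 294) (nat_lit 202)))) (XT.nd (nat_lit 156) (nat_lit 0) (nat_lit 0) (XT.nd (nat_lit 78) (nat_lit 0) (nat_lit 0) (XT.lf (nat_lit 0) (nat_lit 2640394385458) (nat_lit 76) (nat_lit 310804983127) (nat_lit 76) (nat_lit 302578571441) (nat_lit 1) (nat_lit 4) (nat_lit 2) (nat_lit 5) (nat_lit 2) (nat_lit 4) (nat_lit 405) (nat_lit 294) (nat_lit 201)) (XT.lf (nat_lit 0) (nat_lit 2864640098426) (nat_lit 76) (nat_lit 328569690443) (nat_lit 76) (nat_lit 320342803634) (nat_lit 1) (nat_lit 4) (nat_lit 2) (nat_lit 5) (nat_lit 2) (nat_lit 4) (nat_lit 406) (nat_lit 294) (nat_lit 200))) (XT.nd (nat_lit 78) (nat_lit 0) (nat_lit 0) (XT.lf (nat_lit 0) (nat_lit 3106824024117) (nat_lit 76) (nat_lit 347756289174) (nat_lit 76) (nat_lit 339528962436) (nat_lit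 1) (nat_lit 4) (nat_lit 2) (nat_lit 5) (nat_lit 2) (nat_lit 4) (nat_lit 407) (nat_lit 294) (nat_lit 199)) (XT.lf (nat_lit 0) (nat_lit 3368381326536) (nat_lit 76) (nat_lit 368478477684) (nat_lit 76) (nat_lit 360250743605) (nat_lit 1) (nat_lit 4) (nat_lit 2) (nat_lit 5) (nat_lit 2) (nat_lit 4) (nat_lit 408) (nat_lit 294) (nat_lit 198))))) (XT.nd (nat_lit 39312) (nat_lit 0) (nat_lit 2660) (XT.nd (nat_lit 39156) (nat_lit 0) (nat_lit 3724) (XT.nd (nat_lit 78) (nat_lit 0) (nat_lit 0) (XT.lf (nat_lit 0) (nat_lit 3650861974882) (nat_lit 76) (nat_lit 390859054127) (nat_lit 76) (nat_lit 382630942880) (nat_lit 1) (nat_lit 4) (nat_lit 2) (nat_lit 5) (nat_lit 2) (nat_lit 4) (nat_lit 409) (nat_lit 294) (nat_lit 197)) (XT.lf (nat_lit 0) (nat_lit 3955939928552) (nat_lit 76) (nat_lit 415030644140) (nat_lit 76) (nat_lit 406802183664) (nat_lit 1) (nat_lit 4) (nat_lit 2) (nat_lit 5) (nat_lit 2) (nat_lit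 4) (nat_lit 410) (nat_lit 294) (nat_lit 196))) (XT.nd (nat_lit 78) (nat_lit 0) (nat_lit 0) (XT.lf (nat_lit 0) (nat_lit 15539728) (nat_lit 532) (nat_lit 3568536260) (nat_lit 0) (nat_lit 15539728) (nat_lit 50) (nat_lit 5) (nat_lit 57) (nat_lit 4) (nat_lit 50) (nat_lit 4) (nat_lit 310) (nat_lit 295) (nat_lit 295)) (XT.lf (nat_lit 0) (nat_lit 3408019016) (nat_lit 532) (nat_lit 2079407164) (nat_lit 0) (nat_lit 1872340792) (nat_lit 50) (nat_lit 5) (nat_lit 57) (nat_lit 4) (nat_lit 50) (nat_lit 4) (nat_lit 311) (nat_lit 295) (nat_lit 294)))) (XT.nd (nat_lit 156) (nat_lit 456) (nat_lit 0) (XT.nd (nat_lit 78) (nat_lit 304) (nat_lit 0) (XT.lf (nat_lit 0) (nat_lit 3272117332) (nat_lit 304) (nat_lit 3616294512) (nat_lit 304) (nat_lit 658692007) (nat_lit 46) (nat_lit 4) (nat_lit 50) (nat_lit 5) (nat_lit 50) (nat_lit 4) (nat_lit 312) (nat_lit 295) (nat_lit 293)) (XT.lf (nat_lit 0) (nat_lit 1129814492)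 (nat_lit 228) (nat_lit 1468268947) (nat_lit 304) (nat_lit 5158683607) (nat_lit 42) (nat_lit 5) (nat_lit 45) (nat_lit 5) (nat_lit 46) (nat_lit 4) (nat_lit 313) (nat_lit 295) (nat_lit 292))) (XT.nd (nat_lit 78) (nat_lit 456) (nat_lit 0) (XT.lf (nat_lit 0) (nat_lit 5990096309) (nat_lit 304) (nat_lit 1095674519) (nat_lit 0) (nat_lit 903735247) (nat_lit 42) (nat_lit 5) (nat_lit 46) (nat_lit 4) (nat_lit 42) (nat_lit 4) (nat_lit 314) (nat_lit 295) (nat_lit 291)) (XT.nd (nat_lit 78) (nat_lit 152) (nat_lit 0) (XT.lf (nat_lit 0) (nat_lit 1280732613) (nat_lit 304) (nat_lit 3467594021) (nat_lit 76) (nat_lit 3495140023) (nat_lit 38) (nat_lit 5) (nat_lit 42) (nat_lit 5) (nat_lit 39) (nat_lit 4) (nat_lit 315) (nat_lit 295) (nat_lit 290)) (XT.lf (nat_lit 0) (nat_lit 2460139381) (nat_lit 152) (nat_lit 2135723604) (nat_lit 228) (nat_lit 3927670934) (nat_lit 36) (nat_lit 5) (nat_lit 38) (nat_lit 5) (nat_lit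 39) (nat_lit 4) (nat_lit 316) (nat_lit 295) (nat_lit 289))))))))
noncomputable def xc79 : XT := (XT.nd (nat_lit 1248) (nat_lit 684) (nat_lit 0) (XT.nd (nat_lit 624) (nat_lit 608) (nat_lit 0) (XT.nd (nat_lit 312) (nat_lit 456) (nat_lit 0) (XT.nd (nat_lit 156) (nat_lit 304) (nat_lit 0) (XT.nd (nat_lit 78) (nat_lit 304) (nat_lit 0) (XT.lf (nat_lit 0) (nat_lit 8088125369) (nat_lit 228) (nat_lit 60229238) (nat_lit 0) (nat_lit 685061365) (nat_lit 36) (nat_lit 5) (nat_lit 39) (nat_lit 4) (nat_lit 36) (nat_lit 4) (nat_lit 317) (nat_lit 295) (nat_lit 288)) (XT.lf (nat_lit 0) (nat_lit 2580486198) (nat_lit 304) (nat_lit 2803874157) (nat_lit 76) (nat_lit 3776984383) (nat_lit 32) (nat_lit 5) (nat_lit 36) (nat_lit 5) (nat_lit 33) (nat_lit 4) (nat_lit 318) (nat_lit 295) (nat_lit 287))) (XT.nd (nat_lit 78) (nat_lit 152) (nat_lit 0) (XT.lf (nat_lit 0) (nat_lit 3676533441) (nat_lit 152) (nat_lit 2361512252)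 (nat_lit 228) (nat_lit 3483722874) (nat_lit 30) (nat_lit 5) (nat_lit 32) (nat_lit 5) (nat_lit 33) (nat_lit 4) (nat_lit 319) (nat_lit 295) (nat_lit 286)) (XT.lf (nat_lit 0) (nat_lit 669344539) (nat_lit 152) (nat_lit 9040696142) (nat_lit 152) (nat_lit 206226077) (nat_lit 28) (nat_lit 4) (nat_lit 30) (nat_lit 5) (nat_lit 30) (nat_lit 4) (nat_lit 320) (nat_lit 295) (nat_lit 285)))) (XT.nd (nat_lit 156) (nat_lit 228) (nat_lit 0) (XT.nd (nat_lit 78) (nat_lit 152) (nat_lit 0) (XT.lf (nat_lit 0) (nat_lit 3215582051) (nat_lit 228) (nat_lit 2710725093) (nat_lit 76) (nat_lit 4405923672) (nat_lit 27) (nat_lit 5) (nat_lit 30) (nat_lit 5) (nat_lit 28) (nat_lit 4) (nat_lit 321) (nat_lit 295) (nat_lit 284)) (XT.lf (nat_lit 0) (nat_lit 4305578064) (nat_lit 152) (nat_lit 2534591373) (nat_lit 228) (nat_lit 3945871829) (nat_lit 25) (nat_lit 5) (nat_lit 27) (nat_lit 5) (nat_lit 28) (nat_lit 4) (nat_lit 322)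 (nat_lit 295) (nat_lit 283))) (XT.nd (nat_lit 78) (nat_lit 76) (nat_lit 0) (XT.lf (nat_lit 0) (nat_lit 506342635) (nat_lit 152) (nat_lit 10204396030) (nat_lit 152) (nat_lit 569132892) (nat_lit 23) (nat_lit 4) (nat_lit 25) (nat_lit 5) (nat_lit 25) (nat_lit 4) (nat_lit 323) (nat_lit 295) (nat_lit 282)) (XT.lf (nat_lit 0) (nat_lit 3013680262) (nat_lit 228) (nat_lit 3781854335) (nat_lit 76) (nat_lit 5004728576) (nat_lit 22) (nat_lit 5) (nat_lit 25) (nat_lit 5) (nat_lit 23) (nat_lit 4) (nat_lit 324) (nat_lit 295) (nat_lit 281))))) (XT.nd (nat_lit 312) (nat_lit 228) (nat_lit 0) (XT.nd (nat_lit 156) (nat_lit 304) (nat_lit 0) (XT.nd (nat_lit 78) (nat_lit 0) (nat_lit 0) (XT.lf (nat_lit 0) (nat_lit 3699619239) (nat_lit 76) (nat_lit 3095683887) (nat_lit 152) (nat_lit 5570521512) (nat_lit 21) (nat_lit 5) (nat_lit 22) (nat_lit 5) (nat_lit 23) (nat_lit 4) (nat_lit 325) (nat_lit 295) (nat_lit 280))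 (XT.lf (nat_lit 0) (nat_lit 10864111608) (nat_lit 152) (nat_lit 1240933655) (nat_lit 0) (nat_lit 872957500) (nat_lit 21) (nat_lit 5) (nat_lit 23) (nat_lit 4) (nat_lit 21) (nat_lit 4) (nat_lit 326) (nat_lit 295) (nat_lit 279))) (XT.nd (nat_lit 78) (nat_lit 76) (nat_lit 0) (XT.lf (nat_lit 0) (nat_lit 1652842759) (nat_lit 228) (nat_lit 6858312474) (nat_lit 76) (nat_lit 5115842016) (nat_lit 18) (nat_lit 5) (nat_lit 21) (nat_lit 5) (nat_lit 19) (nat_lit 4) (nat_lit 327) (nat_lit 295) (nat_lit 278)) (XT.lf (nat_lit 0) (nat_lit 928854189) (nat_lit 76) (nat_lit 4603623230) (nat_lit 152) (nat_lit 8797094482) (nat_lit 17) (nat_lit 5) (nat_lit 18) (nat_lit 5) (nat_lit 19) (nat_lit 4) (nat_lit 328) (nat_lit 295) (nat_lit 277)))) (XT.nd (nat_lit 156) (nat_lit 152) (nat_lit 0) (XT.nd (nat_lit 78) (nat_lit 76) (nat_lit 0) (XT.lf (nat_lit 0) (nat_lit 9508488854) (nat_lit 76) (nat_lit 274557863) (nat_lit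 152) (nat_lit 5300566697) (nat_lit 17) (nat_lit 5) (nat_lit 18) (nat_lit 5) (nat_lit 19) (nat_lit 4) (nat_lit 329) (nat_lit 295) (nat_lit 276)) (XT.lf (nat_lit 0) (nat_lit 2693805824) (nat_lit 76) (nat_lit 11730847357) (nat_lit 76) (nat_lit 1469343879) (nat_lit 16) (nat_lit 4) (nat_lit 17) (nat_lit 5) (nat_lit 17) (nat_lit 4) (nat_lit 330) (nat_lit 295) (nat_lit 275))) (XT.nd (nat_lit 78) (nat_lit 76) (nat_lit 0) (XT.lf (nat_lit 0) (nat_lit 2579592312) (nat_lit 152) (nat_lit 5103577871) (nat_lit 76) (nat_lit 9077415510) (nat_lit 15) (nat_lit 5) (nat_lit 17) (nat_lit 5) (nat_lit 16) (nat_lit 4) (nat_lit 331) (nat_lit 295) (nat_lit 274)) (XT.lf (nat_lit 0) (nat_lit 3585079939) (nat_lit 76) (nat_lit 3264177989) (nat_lit 152) (nat_lit 10846172437) (nat_lit 14) (nat_lit 5) (nat_lit 15) (nat_lit 5) (nat_lit 16) (nat_lit 4) (nat_lit 332) (nat_lit 295) (nat_lit 273)))))) (XT.nd (nat_lit 624)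 (nat_lit 304) (nat_lit 0) (XT.nd (nat_lit 312) (nat_lit 152) (nat_lit 0) (XT.nd (nat_lit 156) (nat_lit 152) (nat_lit 0) (XT.nd (nat_lit 78) (nat_lit 76) (nat_lit 0) (XT.lf (nat_lit 0) (nat_lit 11531395282) (nat_lit 152) (nat_lit 5673137797) (nat_lit 0) (nat_lit 1494929792) (nat_lit 14) (nat_lit 5) (nat_lit 16) (nat_lit 4) (nat_lit 14) (nat_lit 4) (nat_lit 333) (nat_lit 295) (nat_lit 272)) (XT.lf (nat_lit 0) (nat_lit 3337507018) (nat_lit 76) (nat_lit 13315145470) (nat_lit 76) (nat_lit 3126068374) (nat_lit 13) (nat_lit 4) (nat_lit 14) (nat_lit 5) (nat_lit 14) (nat_lit 4) (nat_lit 334) (nat_lit 295) (nat_lit 271))) (XT.nd (nat_lit 78) (nat_lit 76) (nat_lit 0) (XT.lf (nat_lit 0) (nat_lit 1236487276) (nat_lit 152) (nat_lit 7758490602) (nat_lit 76) (nat_lit 11942279215) (nat_lit 12) (nat_lit 5) (nat_lit 14) (nat_lit 5) (nat_lit 13) (nat_lit 4) (nat_lit 335) (nat_lit 295) (nat_lit 270)) (XT.lf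 (nat_lit 0) (nat_lit 1438905957) (nat_lit 76) (nat_lit 4282310364) (nat_lit 152) (nat_lit 16465452573) (nat_lit 11) (nat_lit 5) (nat_lit 12) (nat_lit 5) (nat_lit 13) (nat_lit 4) (nat_lit 336) (nat_lit 295) (nat_lit 269)))) (XT.nd (nat_lit 156) (nat_lit 152) (nat_lit 0) (XT.nd (nat_lit 78) (nat_lit 0) (nat_lit 0) (XT.lf (nat_lit 0) (nat_lit 10710242290) (nat_lit 152) (nat_lit 11902449263) (nat_lit 0) (nat_lit 911749693) (nat_lit 11) (nat_lit 5) (nat_lit 13) (nat_lit 4) (nat_lit 11) (nat_lit 4) (nat_lit 337) (nat_lit 295) (nat_lit 268)) (XT.lf (nat_lit 0) (nat_lit 16124860422) (nat_lit 152) (nat_lit 2619799889) (nat_lit 0) (nat_lit 6222502931) (nat_lit 11) (nat_lit 5) (nat_lit 13) (nat_lit 4) (nat_lit 11) (nat_lit 4) (nat_lit 338) (nat_lit 295) (nat_lit 267))) (XT.nd (nat_lit 78) (nat_lit 76) (nat_lit 0) (XT.lf (nat_lit 0) (nat_lit 7640386207) (nat_lit 76) (nat_lit 14437532940) (nat_lit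 76) (nat_lit 4439004250) (nat_lit 10) (nat_lit 4) (nat_lit 11) (nat_lit 5) (nat_lit 11) (nat_lit 4) (nat_lit 339) (nat_lit 295) (nat_lit 266)) (XT.lf (nat_lit 0) (nat_lit 296079676) (nat_lit 152) (nat_lit 9471730369) (nat_lit 76) (nat_lit 18422652788) (nat_lit 9) (nat_lit 5) (nat_lit 11) (nat_lit 5) (nat_lit 10) (nat_lit 4) (nat_lit 340) (nat_lit 295) (nat_lit 265))))) (XT.nd (nat_lit 312) (nat_lit 228) (nat_lit 0) (XT.nd (nat_lit 156) (nat_lit 0) (nat_lit 0) (XT.nd (nat_lit 78) (nat_lit 0) (nat_lit 0) (XT.lf (nat_lit 0) (nat_lit 456224976) (nat_lit 76) (nat_lit 4652550203) (nat_lit 152) (nat_lit 24884829643) (nat_lit 8) (nat_lit 5) (nat_lit 9) (nat_lit 5) (nat_lit 10) (nat_lit 4) (nat_lit 341) (nat_lit 295) (nat_lit 264)) (XT.lf (nat_lit 0) (nat_lit 10521446416) (nat_lit 152) (nat_lit 20368320207) (nat_lit 0) (nat_lit 1034065679) (nat_lit 8) (nat_lit 5) (nat_lit 10) (nat_lit 4) (nat_lit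 8) (nat_lit 4) (nat_lit 342) (nat_lit 295) (nat_lit 263))) (XT.nd (nat_lit 78) (nat_lit 0) (nat_lit 0) (XT.lf (nat_lit 0) (nat_lit 16421578344) (nat_lit 152) (nat_lit 10713827419) (nat_lit 0) (nat_lit 6868745105) (nat_lit 8) (nat_lit 5) (nat_lit 10) (nat_lit 4) (nat_lit 8) (nat_lit 4) (nat_lit 343) (nat_lit 295) (nat_lit 262)) (XT.lf (nat_lit 0) (nat_lit 22732240765) (nat_lit 152) (nat_lit 404795728) (nat_lit 0) (nat_lit 13118803358) (nat_lit 8) (nat_lit 5) (nat_lit 10) (nat_lit 4) (nat_lit 8) (nat_lit 4) (nat_lit 344) (nat_lit 295) (nat_lit 261)))) (XT.nd (nat_lit 156) (nat_lit 152) (nat_lit 0) (XT.nd (nat_lit 78) (nat_lit 0) (nat_lit 0) (XT.lf (nat_lit 0) (nat_lit 11179088717) (nat_lit 76) (nat_lit 18580598831) (nat_lit 76) (nat_lit 8911046454) (nat_lit 7) (nat_lit 4) (nat_lit 8) (nat_lit 5) (nat_lit 8) (nat_lit 4) (nat_lit 345) (nat_lit 295) (nat_lit 260)) (XT.lf (nat_lit 0) (nat_lit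 23606373785) (nat_lit 76) (nat_lit 13698757609) (nat_lit 76) (nat_lit 3977246926) (nat_lit 7) (nat_lit 4) (nat_lit 8) (nat_lit 5) (nat_lit 8) (nat_lit 4) (nat_lit 346) (nat_lit 295) (nat_lit 259))) (XT.nd (nat_lit 78) (nat_lit 76) (nat_lit 0) (XT.lf (nat_lit 0) (nat_lit 1231139377) (nat_lit 152) (nat_lit 7208850320) (nat_lit 76) (nat_lit 35664585912) (nat_lit 6) (nat_lit 5) (nat_lit 8) (nat_lit 5) (nat_lit 7) (nat_lit 4) (nat_lit 347) (nat_lit 295) (nat_lit 258)) (XT.nd (nat_lit 78) (nat_lit 0) (nat_lit 0) (XT.lf (nat_lit 0) (nat_lit 4103925300) (nat_lit 76) (nat_lit 2587464795) (nat_lit 152) (nat_lit 40448906779) (nat_lit 5) (nat_lit 5) (nat_lit 6) (nat_lit 5) (nat_lit 7) (nat_lit 4) (nat_lit 348) (nat_lit 295) (nat_lit 257)) (XT.lf (nat_lit 0) (nat_lit 12832180191) (nat_lit 152) (nat_lit 33860416367) (nat_lit 0) (nat_lit 3706798452) (nat_lit 5) (nat_lit 5) (nat_lit 7) (nat_lit 4) (nat_lit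 5) (nat_lit 4) (nat_lit 349) (nat_lit 295) (nat_lit 256))))))))
noncomputable def xc80 : XT := (XT.nd (nat_lit 1248) (nat_lit 76) (nat_lit 0) (XT.nd (nat_lit 624) (nat_lit 152) (nat_lit 0) (XT.nd (nat_lit 312) (nat_lit 0) (nat_lit 0) (XT.nd (nat_lit 156) (nat_lit 76) (nat_lit 0) (XT.nd (nat_lit 78) (nat_lit 0) (nat_lit 0) (XT.lf (nat_lit 0) (nat_lit 19486729242) (nat_lit 152) (nat_lit 24104722018) (nat_lit 0) (nat_lit 10325985553) (nat_lit 5) (nat_lit 5) (nat_lit 7) (nat_lit 4) (nat_lit 5) (nat_lit 4) (nat_lit 350) (nat_lit 295) (nat_lit 255)) (XT.lf (nat_lit 0) (nat_lit 26632243024) (nat_lit 152) (nat_lit 13649248414) (nat_lit 0) (nat_lit 17438756789) (nat_lit 5) (nat_lit 5) (nat_lit 7) (nat_lit 4) (nat_lit 5) (nat_lit 4) (nat_lit 351) (nat_lit 295) (nat_lit 254))) (XT.nd (nat_lit 78) (nat_lit 76) (nat_lit 0) (XT.lf (nat_lit 0) (nat_lit 34311065323) (nat_lit 152) (nat_lit 2432037193)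 (nat_lit 0) (nat_lit 25087261915) (nat_lit 5) (nat_lit 5) (nat_lit 7) (nat_lit 4) (nat_lit 5) (nat_lit 4) (nat_lit 352) (nat_lit 295) (nat_lit 253)) (XT.lf (nat_lit 0) (nat_lit 10119607771) (nat_lit 76) (nat_lit 32692469308) (nat_lit 76) (nat_lit 23440594444) (nat_lit 4) (nat_lit 4) (nat_lit 5) (nat_lit 5) (nat_lit 5) (nat_lit 4) (nat_lit 353) (nat_lit 295) (nat_lit 252)))) (XT.nd (nat_lit 156) (nat_lit 0) (nat_lit 0) (XT.nd (nat_lit 78) (nat_lit 0) (nat_lit 0) (XT.lf (nat_lit 0) (nat_lit 23746280588) (nat_lit 76) (nat_lit 28278900028) (nat_lit 76) (nat_lit 19001033076) (nat_lit 4) (nat_lit 4) (nat_lit 5) (nat_lit 5) (nat_lit 5) (nat_lit 4) (nat_lit 354) (nat_lit 295) (nat_lit 251)) (XT.lf (nat_lit 0) (nat_lit 38400665139) (nat_lit 76) (nat_lit 23542736401) (nat_lit 76) (nat_lit 14240802699) (nat_lit 4) (nat_lit 4) (nat_lit 5) (nat_lit 5) (nat_lit 5) (nat_lit 4) (nat_lit 355) (nat_lit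 295) (nat_lit 250))) (XT.nd (nat_lit 78) (nat_lit 0) (nat_lit 0) (XT.lf (nat_lit 0) (nat_lit 54169602224) (nat_lit 76) (nat_lit 18455912270) (nat_lit 76) (nat_lit 9131694541) (nat_lit 4) (nat_lit 4) (nat_lit 5) (nat_lit 5) (nat_lit 5) (nat_lit 4) (nat_lit 356) (nat_lit 295) (nat_lit 249)) (XT.lf (nat_lit 0) (nat_lit 71146537395) (nat_lit 76) (nat_lit 12988283492) (nat_lit 76) (nat_lit 3643432405) (nat_lit 4) (nat_lit 4) (nat_lit 5) (nat_lit 5) (nat_lit 5) (nat_lit 4) (nat_lit 357) (nat_lit 295) (nat_lit 248))))) (XT.nd (nat_lit 312) (nat_lit 0) (nat_lit 0) (XT.nd (nat_lit 156) (nat_lit 0) (nat_lit 0) (XT.nd (nat_lit 78) (nat_lit 76) (nat_lit 0) (XT.lf (nat_lit 0) (nat_lit 2143627136) (nat_lit 152) (nat_lit 4905211605) (nat_lit 76) (nat_lit 87229837011) (nat_lit 3) (nat_lit 5) (nat_lit 5) (nat_lit 5) (nat_lit 4) (nat_lit 4) (nat_lit 358) (nat_lit 295) (nat_lit 247)) (XT.lf (nat_lit 0)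 (nat_lit 8018751179) (nat_lit 76) (nat_lit 346824304) (nat_lit 152) (nat_lit 92912491802) (nat_lit 2) (nat_lit 5) (nat_lit 3) (nat_lit 5) (nat_lit 4) (nat_lit 4) (nat_lit 359) (nat_lit 295) (nat_lit 246))) (XT.nd (nat_lit 78) (nat_lit 0) (nat_lit 0) (XT.lf (nat_lit 0) (nat_lit 15364666816) (nat_lit 152) (nat_lit 86787607413) (nat_lit 0) (nat_lit 6662791582) (nat_lit 2) (nat_lit 5) (nat_lit 4) (nat_lit 4) (nat_lit 2) (nat_lit 4) (nat_lit 360) (nat_lit 295) (nat_lit 245)) (XT.lf (nat_lit 0) (nat_lit 22910517221) (nat_lit 152) (nat_lit 79850967331) (nat_lit 0) (nat_lit 14194599271) (nat_lit 2) (nat_lit 5) (nat_lit 4) (nat_lit 4) (nat_lit 2) (nat_lit 4) (nat_lit 361) (nat_lit 295) (nat_lit 244)))) (XT.nd (nat_lit 156) (nat_lit 0) (nat_lit 0) (XT.nd (nat_lit 78) (nat_lit 0) (nat_lit 0) (XT.lf (nat_lit 0) (nat_lit 31039501718) (nat_lit 152) (nat_lit 72399948712) (nat_lit 0) (nat_lit 22310581252)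 (nat_lit 2) (nat_lit 5) (nat_lit 4) (nat_lit 4) (nat_lit 2) (nat_lit 4) (nat_lit 362) (nat_lit 295) (nat_lit 243)) (XT.lf (nat_lit 0) (nat_lit 39799792067) (nat_lit 152) (nat_lit 64390397372) (nat_lit 0) (nat_lit 31058832234) (nat_lit 2) (nat_lit 5) (nat_lit 4) (nat_lit 4) (nat_lit 2) (nat_lit 4) (nat_lit 363) (nat_lit 295) (nat_lit 242))) (XT.nd (nat_lit 78) (nat_lit 0) (nat_lit 0) (XT.lf (nat_lit 0) (nat_lit 49243301098) (nat_lit 152) (nat_lit 55774849303) (nat_lit 0) (nat_lit 40491193704) (nat_lit 2) (nat_lit 5) (nat_lit 4) (nat_lit 4) (nat_lit 2) (nat_lit 4) (nat_lit 364) (nat_lit 295) (nat_lit 241)) (XT.lf (nat_lit 0) (nat_lit 59425990347) (nat_lit 152) (nat_lit 46502249405) (nat_lit 0) (nat_lit 50663561137) (nat_lit 2) (nat_lit 5) (nat_lit 4) (nat_lit 4) (nat_lit 2) (nat_lit 4) (nat_lit 365) (nat_lit 295) (nat_lit 240)))))) (XT.nd (nat_lit 624) (nat_lit 0) (nat_lit 0) (XT.nd (nat_lit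 312) (nat_lit 76) (nat_lit 0) (XT.nd (nat_lit 156) (nat_lit 0) (nat_lit 0) (XT.nd (nat_lit 78) (nat_lit 0) (nat_lit 0) (XT.lf (nat_lit 0) (nat_lit 70408201676) (nat_lit 152) (nat_lit 36517648939) (nat_lit 0) (nat_lit 61636215229) (nat_lit 2) (nat_lit 5) (nat_lit 4) (nat_lit 4) (nat_lit 2) (nat_lit 4) (nat_lit 366) (nat_lit 295) (nat_lit 239)) (XT.lf (nat_lit 0) (nat_lit 82255014857) (nat_lit 152) (nat_lit 25761879901) (nat_lit 0) (nat_lit 73474179115) (nat_lit 2) (nat_lit 5) (nat_lit 4) (nat_lit 4) (nat_lit 2) (nat_lit 4) (nat_lit 367) (nat_lit 295) (nat_lit 238))) (XT.nd (nat_lit 78) (nat_lit 0) (nat_lit 0) (XT.lf (nat_lit 0) (nat_lit 95036633225) (nat_lit 152) (nat_lit 14171204402) (nat_lit 0) (nat_lit 86247603694) (nat_lit 2) (nat_lit 5) (nat_lit 4) (nat_lit 4) (nat_lit 2) (nat_lit 4) (nat_lit 368) (nat_lit 295) (nat_lit 237)) (XT.lf (nat_lit 0) (nat_lit 108828799706) (nat_lit 152)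 (nat_lit 1676936955) (nat_lit 0) (nat_lit 100032183331) (nat_lit 2) (nat_lit 5) (nat_lit 4) (nat_lit 4) (nat_lit 2) (nat_lit 4) (nat_lit 369) (nat_lit 295) (nat_lit 236)))) (XT.nd (nat_lit 156) (nat_lit 0) (nat_lit 0) (XT.nd (nat_lit 78) (nat_lit 0) (nat_lit 0) (XT.lf (nat_lit 0) (nat_lit 12416064365) (nat_lit 76) (nat_lit 111595787937) (nat_lit 76) (nat_lit 102792146708) (nat_lit 1) (nat_lit 4) (nat_lit 2) (nat_lit 5) (nat_lit 2) (nat_lit 4) (nat_lit 370) (nat_lit 295) (nat_lit 235)) (XT.lf (nat_lit 0) (nat_lit 27710520004) (nat_lit 76) (nat_lit 112734093867) (nat_lit 76) (nat_lit 103923948143) (nat_lit 1) (nat_lit 4) (nat_lit 2) (nat_lit 5) (nat_lit 2) (nat_lit 4) (nat_lit 371) (nat_lit 295) (nat_lit 234))) (XT.nd (nat_lit 78) (nat_lit 0) (nat_lit 0) (XT.lf (nat_lit 0) (nat_lit 44208759243) (nat_lit 76) (nat_lit 113973250397) (nat_lit 76) (nat_lit 105157081992) (nat_lit 1) (nat_lit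 4) (nat_lit 2) (nat_lit 5) (nat_lit 2) (nat_lit 4) (nat_lit 372) (nat_lit 295) (nat_lit 233)) (XT.lf (nat_lit 0) (nat_lit 62008549426) (nat_lit 76) (nat_lit 115320600676) (nat_lit 76) (nat_lit 106498855715) (nat_lit 1) (nat_lit 4) (nat_lit 2) (nat_lit 5) (nat_lit 2) (nat_lit 4) (nat_lit 373) (nat_lit 295) (nat_lit 232))))) (XT.nd (nat_lit 312) (nat_lit 0) (nat_lit 0) (XT.nd (nat_lit 156) (nat_lit 0) (nat_lit 0) (XT.nd (nat_lit 78) (nat_lit 0) (nat_lit 0) (XT.lf (nat_lit 0) (nat_lit 81215370791) (nat_lit 76) (nat_lit 116784129003) (nat_lit 76) (nat_lit 107957220564) (nat_lit 1) (nat_lit 4) (nat_lit 2) (nat_lit 5) (nat_lit 2) (nat_lit 4) (nat_lit 374) (nat_lit 295) (nat_lit 231)) (XT.lf (nat_lit 0) (nat_lit 101943041538) (nat_lit 76) (nat_lit 118372508138) (nat_lit 76) (nat_lit 109540818701) (nat_lit 1) (nat_lit 4) (nat_lit 2) (nat_lit 5) (nat_lit 2) (nat_lit 4) (nat_lit 375) (nat_lit 295)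 (nat_lit 230))) (XT.nd (nat_lit 78) (nat_lit 0) (nat_lit 0) (XT.lf (nat_lit 0) (nat_lit 124314392311) (nat_lit 76) (nat_lit 120095150698) (nat_lit 76) (nat_lit 111259034411) (nat_lit 1) (nat_lit 4) (nat_lit 2) (nat_lit 5) (nat_lit 2) (nat_lit 4) (nat_lit 376) (nat_lit 295) (nat_lit 229)) (XT.lf (nat_lit 0) (nat_lit 148461994074) (nat_lit 76) (nat_lit 121962264936) (nat_lit 76) (nat_lit 113122049714) (nat_lit 1) (nat_lit 4) (nat_lit 2) (nat_lit 5) (nat_lit 2) (nat_lit 4) (nat_lit 377) (nat_lit 295) (nat_lit 228)))) (XT.nd (nat_lit 156) (nat_lit 0) (nat_lit 0) (XT.nd (nat_lit 78) (nat_lit 0) (nat_lit 0) (XT.lf (nat_lit 0) (nat_lit 174528943729) (nat_lit 76) (nat_lit 123984915231) (nat_lit 76) (nat_lit 115140904698) (nat_lit 1) (nat_lit 4) (nat_lit 2) (nat_lit 5) (nat_lit 2) (nat_lit 4) (nat_lit 378) (nat_lit 295) (nat_lit 227)) (XT.lf (nat_lit 0) (nat_lit 202669712088) (nat_lit 76) (nat_lit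 126175087660) (nat_lit 76) (nat_lit 117327562951) (nat_lit 1) (nat_lit 4) (nat_lit 2) (nat_lit 5) (nat_lit 2) (nat_lit 4) (nat_lit 379) (nat_lit 295) (nat_lit 226))) (XT.nd (nat_lit 78) (nat_lit 0) (nat_lit 0) (XT.lf (nat_lit 0) (nat_lit 233051059260) (nat_lit 76) (nat_lit 128545761023) (nat_lit 76) (nat_lit 119694982447) (nat_lit 1) (nat_lit 4) (nat_lit 2) (nat_lit 5) (nat_lit 2) (nat_lit 4) (nat_lit 380) (nat_lit 295) (nat_lit 225)) (XT.lf (nat_lit 0) (nat_lit 265853022857) (nat_lit 76) (nat_lit 131110983753) (nat_lit 76) (nat_lit 122257192338) (nat_lit 1) (nat_lit 4) (nat_lit 2) (nat_lit 5) (nat_lit 2) (nat_lit 4) (nat_lit 381) (nat_lit 295) (nat_lit 224)))))))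
noncomputable def xc81 : XT := (XT.nd (nat_lit 1248) (nat_lit 0) (nat_lit 0) (XT.nd (nat_lit 624) (nat_lit 0) (nat_lit 0) (XT.nd (nat_lit 312) (nat_lit 0) (nat_lit 0) (XT.nd (nat_lit 156) (nat_lit 0) (nat_lit 0) (XT.nd (nat_lit 78) (nat_lit 0) (nat_lit 0) (XT.lf (nat_lit 0) (nat_lit 301269984886) (nat_lit 76) (nat_lit 133885957172) (nat_lit 76) (nat_lit 125029376090) (nat_lit 1) (nat_lit 4) (nat_lit 2) (nat_lit 5) (nat_lit 2) (nat_lit 4) (nat_lit 382) (nat_lit 295) (nat_lit 223)) (XT.lf (nat_lit 0) (nat_lit 339511823641) (nat_lit 76) (nat_lit 136887125565) (nat_lit 76) (nat_lit 128027961459) (nat_lit 1) (nat_lit 4) (nat_lit 2) (nat_lit 5) (nat_lit 2) (nat_lit 4) (nat_lit 383) (nat_lit 295) (nat_lit 222))) (XT.nd (nat_lit 78) (nat_lit 0) (nat_lit 0) (XT.lf (nat_lit 0) (nat_lit 380805157425) (nat_lit 76) (nat_lit 140132273635) (nat_lit 76) (nat_lit 131270717839) (nat_lit 1) (nat_lit 4)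 (nat_lit 2) (nat_lit 5) (nat_lit 2) (nat_lit 4) (nat_lit 384) (nat_lit 295) (nat_lit 221)) (XT.lf (nat_lit 0) (nat_lit 425394687476) (nat_lit 76) (nat_lit 143640631889) (nat_lit 76) (nat_lit 134776861566) (nat_lit 1) (nat_lit 4) (nat_lit 2) (nat_lit 5) (nat_lit 2) (nat_lit 4) (nat_lit 385) (nat_lit 295) (nat_lit 220)))) (XT.nd (nat_lit 156) (nat_lit 0) (nat_lit 0) (XT.nd (nat_lit 78) (nat_lit 0) (nat_lit 0) (XT.lf (nat_lit 0) (nat_lit 473544648045) (nat_lit 76) (nat_lit 147432990597) (nat_lit 76) (nat_lit 138567169786) (nat_lit 1) (nat_lit 4) (nat_lit 2) (nat_lit 5) (nat_lit 2) (nat_lit 4) (nat_lit 386) (nat_lit 295) (nat_lit 219)) (XT.lf (nat_lit 0) (nat_lit 525540372233) (nat_lit 76) (nat_lit 151531822997) (nat_lit 76) (nat_lit 142664103586) (nat_lit 1) (nat_lit 4) (nat_lit 2) (nat_lit 5) (nat_lit 2) (nat_lit 4) (nat_lit 387) (nat_lit 295) (nat_lit 218))) (XT.nd (nat_lit 78) (nat_lit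 0) (nat_lit 0) (XT.lf (nat_lit 0) (nat_lit 581689982849) (nat_lit 76) (nat_lit 155961418465) (nat_lit 76) (nat_lit 147091941091) (nat_lit 1) (nat_lit 4) (nat_lit 2) (nat_lit 5) (nat_lit 2) (nat_lit 4) (nat_lit 388) (nat_lit 295) (nat_lit 217)) (XT.lf (nat_lit 0) (nat_lit 642326218327) (nat_lit 76) (nat_lit 160748026457) (nat_lit 76) (nat_lit 151876921340) (nat_lit 1) (nat_lit 4) (nat_lit 2) (nat_lit 5) (nat_lit 2) (nat_lit 4) (nat_lit 389) (nat_lit 295) (nat_lit 216))))) (XT.nd (nat_lit 312) (nat_lit 0) (nat_lit 0) (XT.nd (nat_lit 156) (nat_lit 0) (nat_lit 0) (XT.nd (nat_lit 78) (nat_lit 0) (nat_lit 0) (XT.lf (nat_lit 0) (nat_lit 707808404506) (nat_lit 76) (nat_lit 165920012057) (nat_lit 76) (nat_lit 157047399769) (nat_lit 1) (nat_lit 4) (nat_lit 2) (nat_lit 5) (nat_lit 2) (nat_lit 4) (nat_lit 390) (nat_lit 295) (nat_lit 215)) (XT.lf (nat_lit 0) (nat_lit 778524583972) (nat_lit 76) (nat_lit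 171508024068) (nat_lit 76) (nat_lit 162634016252) (nat_lit 1) (nat_lit 4) (nat_lit 2) (nat_lit 5) (nat_lit 2) (nat_lit 4) (nat_lit 391) (nat_lit 295) (nat_lit 214))) (XT.nd (nat_lit 78) (nat_lit 0) (nat_lit 0) (XT.lf (nat_lit 0) (nat_lit 854893815565) (nat_lit 76) (nat_lit 177545176635) (nat_lit 76) (nat_lit 168669876664) (nat_lit 1) (nat_lit 4) (nat_lit 2) (nat_lit 5) (nat_lit 2) (nat_lit 4) (nat_lit 392) (nat_lit 295) (nat_lit 213)) (XT.lf (nat_lit 0) (nat_lit 937368657695) (nat_lit 76) (nat_lit 184067245478) (nat_lit 76) (nat_lit 175190749067) (nat_lit 1) (nat_lit 4) (nat_lit 2) (nat_lit 5) (nat_lit 2) (nat_lit 4) (nat_lit 393) (nat_lit 295) (nat_lit 212)))) (XT.nd (nat_lit 156) (nat_lit 0) (nat_lit 0) (XT.nd (nat_lit 78) (nat_lit 0) (nat_lit 0) (XT.lf (nat_lit 0) (nat_lit 1026437850167) (nat_lit 76) (nat_lit 191112879893) (nat_lit 76) (nat_lit 182235275667) (nat_lit 1) (nat_lit 4)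 (nat_lit 2) (nat_lit 5) (nat_lit 2) (nat_lit 4) (nat_lit 394) (nat_lit 295) (nat_lit 211)) (XT.lf (nat_lit 0) (nat_lit 1122629210419) (nat_lit 76) (nat_lit 198723831788) (nat_lit 76) (nat_lit 189845201807) (nat_lit 1) (nat_lit 4) (nat_lit 2) (nat_lit 5) (nat_lit 2) (nat_lit 4) (nat_lit 395) (nat_lit 295) (nat_lit 210))) (XT.nd (nat_lit 78) (nat_lit 0) (nat_lit 0) (XT.lf (nat_lit 0) (nat_lit 1226512761325) (nat_lit 76) (nat_lit 206945203100) (nat_lit 76) (nat_lit 198065623347) (nat_lit 1) (nat_lit 4) (nat_lit 2) (nat_lit 5) (nat_lit 2) (nat_lit 4) (nat_lit 396) (nat_lit 295) (nat_lit 209)) (XT.lf (nat_lit 0) (nat_lit 1338704109113) (nat_lit 76) (nat_lit 215825713066) (nat_lit 76) (nat_lit 206945253894) (nat_lit 1) (nat_lit 4) (nat_lit 2) (nat_lit 5) (nat_lit 2) (nat_lit 4) (nat_lit 397) (nat_lit 295) (nat_lit 208)))))) (XT.nd (nat_lit 624) (nat_lit 0) (nat_lit 0) (XT.nd (nat_lit 312) (nat_lit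 0) (nat_lit 0) (XT.nd (nat_lit 156) (nat_lit 0) (nat_lit 0) (XT.nd (nat_lit 78) (nat_lit 0) (nat_lit 0) (XT.lf (nat_lit 0) (nat_lit 1459868091400) (nat_lit 76) (nat_lit 225417986932) (nat_lit 76) (nat_lit 216536713482) (nat_lit 1) (nat_lit 4) (nat_lit 2) (nat_lit 5) (nat_lit 2) (nat_lit 4) (nat_lit 398) (nat_lit 295) (nat_lit 207)) (XT.lf (nat_lit 0) (nat_lit 1590722716970) (nat_lit 76) (nat_lit 235778867800) (nat_lit 76) (nat_lit 226896840391) (nat_lit 1) (nat_lit 4) (nat_lit 2) (nat_lit 5) (nat_lit 2) (nat_lit 4) (nat_lit 399) (nat_lit 295) (nat_lit 206))) (XT.nd (nat_lit 78) (nat_lit 0) (nat_lit 0) (XT.lf (nat_lit 0) (nat_lit 1732043420640) (nat_lit 76) (nat_lit 246969753484) (nat_lit 76) (nat_lit 238087027963) (nat_lit 1) (nat_lit 4) (nat_lit 2) (nat_lit 5) (nat_lit 2) (nat_lit 4) (nat_lit 400) (nat_lit 295) (nat_lit 205)) (XT.lf (nat_lit 0) (nat_lit 1884667658434) (nat_lit 76) (nat_lit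 259056960344) (nat_lit 76) (nat_lit 250173588423) (nat_lit 1) (nat_lit 4) (nat_lit 2) (nat_lit 5) (nat_lit 2) (nat_lit 4) (nat_lit 401) (nat_lit 295) (nat_lit 204)))) (XT.nd (nat_lit 156) (nat_lit 0) (nat_lit 0) (XT.nd (nat_lit 78) (nat_lit 0) (nat_lit 0) (XT.lf (nat_lit 0) (nat_lit 2049499870277) (nat_lit 76) (nat_lit 272112116271) (nat_lit 76) (nat_lit 263228145833) (nat_lit 1) (nat_lit 4) (nat_lit 2) (nat_lit 5) (nat_lit 2) (nat_lit 4) (nat_lit 402) (nat_lit 295) (nat_lit 203)) (XT.lf (nat_lit 0) (nat_lit 2227516839649) (nat_lit 76) (nat_lit 286212585153) (nat_lit 76) (nat_lit 277328060531) (nat_lit 1) (nat_lit 4) (nat_lit 2) (nat_lit 5) (nat_lit 2) (nat_lit 4) (nat_lit 403) (nat_lit 295) (nat_lit 202))) (XT.nd (nat_lit 78) (nat_lit 0) (nat_lit 0) (XT.lf (nat_lit 0) (nat_lit 2419773481922) (nat_lit 76) (nat_lit 301441925323) (nat_lit 76) (nat_lit 292556887569) (nat_lit 1) (nat_lit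 4) (nat_lit 2) (nat_lit 5) (nat_lit 2) (nat_lit 4) (nat_lit 404) (nat_lit 295) (nat_lit 201)) (XT.lf (nat_lit 0) (nat_lit 2627409095718) (nat_lit 76) (nat_lit 317890384725) (nat_lit 76) (nat_lit 309004871848) (nat_lit 1) (nat_lit 4) (nat_lit 2) (nat_lit 5) (nat_lit 2) (nat_lit 4) (nat_lit 405) (nat_lit 295) (nat_lit 200))))) (XT.nd (nat_lit 312) (nat_lit 0) (nat_lit 0) (XT.nd (nat_lit 156) (nat_lit 0) (nat_lit 0) (XT.nd (nat_lit 78) (nat_lit 0) (nat_lit 0) (XT.lf (nat_lit 0) (nat_lit 2851654114304) (nat_lit 76) (nat_lit 335655435709) (nat_lit 76) (nat_lit 326769482904) (nat_lit 1) (nat_lit 4) (nat_lit 2) (nat_lit 5) (nat_lit 2) (nat_lit 4) (nat_lit 406) (nat_lit 295) (nat_lit 199)) (XT.lf (nat_lit 0) (nat_lit 3093837397049) (nat_lit 76) (nat_lit 354842352652) (nat_lit 76) (nat_lit 345955992505) (nat_lit 1) (nat_lit 4) (nat_lit 2) (nat_lit 5) (nat_lit 2) (nat_lit 4) (nat_lit 407) (nat_lit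 295) (nat_lit 198))) (XT.nd (nat_lit 78) (nat_lit 0) (nat_lit 0) (XT.lf (nat_lit 0) (nat_lit 3355394104148) (nat_lit 76) (nat_lit 375564835802) (nat_lit 76) (nat_lit 366678098488) (nat_lit 1) (nat_lit 4) (nat_lit 2) (nat_lit 5) (nat_lit 2) (nat_lit 4) (nat_lit 408) (nat_lit 295) (nat_lit 197)) (XT.lf (nat_lit 0) (nat_lit 3637874201271) (nat_lit 76) (nat_lit 397945685060) (nat_lit 76) (nat_lit 389058598516) (nat_lit 1) (nat_lit 4) (nat_lit 2) (nat_lit 5) (nat_lit 2) (nat_lit 4) (nat_lit 409) (nat_lit 295) (nat_lit 196)))) (XT.nd (nat_lit 39000) (nat_lit 0) (nat_lit 3724) (XT.nd (nat_lit 38922) (nat_lit 0) (nat_lit 4636) (XT.lf (nat_lit 0) (nat_lit 3942951644550) (nat_lit 76) (nat_lit 422117527680) (nat_lit 76) (nat_lit 413230117776) (nat_lit 1) (nat_lit 4) (nat_lit 2) (nat_lit 5) (nat_lit 2) (nat_lit 4) (nat_lit 410) (nat_lit 295) (nat_lit 195)) (XT.lf (nat_lit 0) (nat_lit 1090596251)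 (nat_lit 380) (nat_lit 1278218552) (nat_lit 0) (nat_lit 1090596251) (nat_lit 62) (nat_lit 5) (nat_lit 67) (nat_lit 4) (nat_lit 62) (nat_lit 4) (nat_lit 308) (nat_lit 296) (nat_lit 296))) (XT.nd (nat_lit 78) (nat_lit 532) (nat_lit 0) (XT.lf (nat_lit 0) (nat_lit 2154734952) (nat_lit 380) (nat_lit 3343863071) (nat_lit 380) (nat_lit 1552647991) (nat_lit 57) (nat_lit 4) (nat_lit 62) (nat_lit 5) (nat_lit 62) (nat_lit 4) (nat_lit 309) (nat_lit 296) (nat_lit 295)) (XT.nd (nat_lit 78) (nat_lit 456) (nat_lit 0) (XT.lf (nat_lit 0) (nat_lit 1606263819) (nat_lit 456) (nat_lit 108718817) (nat_lit 76) (nat_lit 5491239791) (nat_lit 56) (nat_lit 5) (nat_lit 62) (nat_lit 5) (nat_lit 57) (nat_lit 4) (nat_lit 310) (nat_lit 296) (nat_lit 294)) (XT.lf (nat_lit 0) (nat_lit 4821155102) (nat_lit 532) (nat_lit 2353845814) (nat_lit 0) (nat_lit 205020116) (nat_lit 50) (nat_lit 5) (nat_lit 57) (nat_lit 4) (nat_lit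 50) (nat_lit 4) (nat_lit 311) (nat_lit 296) (nat_lit 293))))))))
noncomputable def xc82 : XT := (XT.nd (nat_lit 1248) (nat_lit 760) (nat_lit 0) (XT.nd (nat_lit 624) (nat_lit 912) (nat_lit 0) (XT.nd (nat_lit 312) (nat_lit 608) (nat_lit 0) (XT.nd (nat_lit 156) (nat_lit 304) (nat_lit 0) (XT.nd (nat_lit 78) (nat_lit 228) (nat_lit 0) (XT.lf (nat_lit 0) (nat_lit 574820952) (nat_lit 380) (nat_lit 4737103960) (nat_lit 76) (nat_lit 2264088289) (nat_lit 45) (nat_lit 5) (nat_lit 50) (nat_lit 5) (nat_lit 46) (nat_lit 4) (nat_lit 312) (nat_lit 296) (nat_lit 292)) (XT.lf (nat_lit 0) (nat_lit 495162610) (nat_lit 228) (nat_lit 3181262889) (nat_lit 304) (nat_lit 4117998728) (nat_lit 42) (nat_lit 5) (nat_lit 45) (nat_lit 5) (nat_lit 46) (nat_lit 4) (nat_lit 313) (nat_lit 296) (nat_lit 291))) (XT.nd (nat_lit 78) (nat_lit 304) (nat_lit 0) (XT.lf (nat_lit 0) (nat_lit 6162107537) (nat_lit 228) (nat_lit 781488281)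 (nat_lit 304) (nat_lit 1093774766) (nat_lit 42) (nat_lit 5) (nat_lit 45) (nat_lit 5) (nat_lit 46) (nat_lit 4) (nat_lit 314) (nat_lit 296) (nat_lit 290)) (XT.lf (nat_lit 0) (nat_lit 2001392548) (nat_lit 304) (nat_lit 4472037353) (nat_lit 76) (nat_lit 1827521096) (nat_lit 38) (nat_lit 5) (nat_lit 42) (nat_lit 5) (nat_lit 39) (nat_lit 4) (nat_lit 315) (nat_lit 296) (nat_lit 289)))) (XT.nd (nat_lit 156) (nat_lit 456) (nat_lit 0) (XT.nd (nat_lit 78) (nat_lit 0) (nat_lit 0) (XT.lf (nat_lit 0) (nat_lit 1274256211) (nat_lit 152) (nat_lit 3920572422) (nat_lit 228) (nat_lit 3396099754) (nat_lit 36) (nat_lit 5) (nat_lit 38) (nat_lit 5) (nat_lit 39) (nat_lit 4) (nat_lit 316) (nat_lit 296) (nat_lit 288)) (XT.lf (nat_lit 0) (nat_lit 7487008771) (nat_lit 152) (nat_lit 1093604344) (nat_lit 228) (nat_lit 328877209) (nat_lit 36) (nat_lit 5) (nat_lit 38) (nat_lit 5) (nat_lit 39) (nat_lit 4) (nat_lit 317)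 (nat_lit 296) (nat_lit 287))) (XT.nd (nat_lit 78) (nat_lit 152) (nat_lit 0) (XT.lf (nat_lit 0) (nat_lit 2825863047) (nat_lit 304) (nat_lit 4426730745) (nat_lit 76) (nat_lit 1996179175) (nat_lit 32) (nat_lit 5) (nat_lit 36) (nat_lit 5) (nat_lit 33) (nat_lit 4) (nat_lit 318) (nat_lit 296) (nat_lit 286)) (XT.lf (nat_lit 0) (nat_lit 1844221471) (nat_lit 152) (nat_lit 4313169596) (nat_lit 228) (nat_lit 3462016571) (nat_lit 30) (nat_lit 5) (nat_lit 32) (nat_lit 5) (nat_lit 33) (nat_lit 4) (nat_lit 319) (nat_lit 296) (nat_lit 285))))) (XT.nd (nat_lit 312) (nat_lit 532) (nat_lit 0) (XT.nd (nat_lit 156) (nat_lit 152) (nat_lit 0) (XT.nd (nat_lit 78) (nat_lit 228) (nat_lit 0) (XT.lf (nat_lit 0) (nat_lit 8629789791) (nat_lit 152) (nat_lit 1083085542) (nat_lit 228) (nat_lit 310470175) (nat_lit 30) (nat_lit 5) (nat_lit 32) (nat_lit 5) (nat_lit 33) (nat_lit 4) (nat_lit 320) (nat_lit 296) (nat_lit 284))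 (XT.lf (nat_lit 0) (nat_lit 2975763428) (nat_lit 228) (nat_lit 5048982992) (nat_lit 76) (nat_lit 2426128717) (nat_lit 27) (nat_lit 5) (nat_lit 30) (nat_lit 5) (nat_lit 28) (nat_lit 4) (nat_lit 321) (nat_lit 296) (nat_lit 283))) (XT.nd (nat_lit 78) (nat_lit 0) (nat_lit 0) (XT.lf (nat_lit 0) (nat_lit 1725722766) (nat_lit 152) (nat_lit 4739855844) (nat_lit 228) (nat_lit 4449983077) (nat_lit 25) (nat_lit 5) (nat_lit 27) (nat_lit 5) (nat_lit 28) (nat_lit 4) (nat_lit 322) (nat_lit 296) (nat_lit 282)) (XT.lf (nat_lit 0) (nat_lit 9101382833) (nat_lit 152) (nat_lit 1125690923) (nat_lit 228) (nat_lit 1191131484) (nat_lit 25) (nat_lit 5) (nat_lit 27) (nat_lit 5) (nat_lit 28) (nat_lit 4) (nat_lit 323) (nat_lit 296) (nat_lit 281)))) (XT.nd (nat_lit 156) (nat_lit 228) (nat_lit 0) (XT.nd (nat_lit 78) (nat_lit 76) (nat_lit 0) (XT.lf (nat_lit 0) (nat_lit 2265333328) (nat_lit 228) (nat_lit 6941788829)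 (nat_lit 76) (nat_lit 2745343360) (nat_lit 22) (nat_lit 5) (nat_lit 25) (nat_lit 5) (nat_lit 23) (nat_lit 4) (nat_lit 324) (nat_lit 296) (nat_lit 280)) (XT.lf (nat_lit 0) (nat_lit 260908006) (nat_lit 76) (nat_lit 5638334940) (nat_lit 152) (nat_lit 6630670425) (nat_lit 21) (nat_lit 5) (nat_lit 22) (nat_lit 5) (nat_lit 23) (nat_lit 4) (nat_lit 325) (nat_lit 296) (nat_lit 279))) (XT.nd (nat_lit 78) (nat_lit 228) (nat_lit 0) (XT.lf (nat_lit 0) (nat_lit 8218170349) (nat_lit 76) (nat_lit 1665081901) (nat_lit 152) (nat_lit 3265687374) (nat_lit 21) (nat_lit 5) (nat_lit 22) (nat_lit 5) (nat_lit 23) (nat_lit 4) (nat_lit 326) (nat_lit 296) (nat_lit 278)) (XT.lf (nat_lit 0) (nat_lit 359614237) (nat_lit 228) (nat_lit 10959470568) (nat_lit 76) (nat_lit 2497044383) (nat_lit 18) (nat_lit 5) (nat_lit 21) (nat_lit 5) (nat_lit 19) (nat_lit 4) (nat_lit 327) (nat_lit 296) (nat_lit 277)))))) (XT.nd (nat_lit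 624) (nat_lit 380) (nat_lit 0) (XT.nd (nat_lit 312) (nat_lit 152) (nat_lit 0) (XT.nd (nat_lit 156) (nat_lit 152) (nat_lit 0) (XT.nd (nat_lit 78) (nat_lit 76) (nat_lit 0) (XT.lf (nat_lit 0) (nat_lit 4158424128) (nat_lit 228) (nat_lit 3319495469) (nat_lit 76) (nat_lit 7047301186) (nat_lit 18) (nat_lit 5) (nat_lit 21) (nat_lit 5) (nat_lit 19) (nat_lit 4) (nat_lit 328) (nat_lit 296) (nat_lit 276)) (XT.lf (nat_lit 0) (nat_lit 4987163969) (nat_lit 76) (nat_lit 3281276926) (nat_lit 152) (nat_lit 7022112786) (nat_lit 17) (nat_lit 5) (nat_lit 18) (nat_lit 5) (nat_lit 19) (nat_lit 4) (nat_lit 329) (nat_lit 296) (nat_lit 275))) (XT.nd (nat_lit 78) (nat_lit 152) (nat_lit 0) (XT.lf (nat_lit 0) (nat_lit 12719693454) (nat_lit 152) (nat_lit 2191109098) (nat_lit 0) (nat_lit 1205406777) (nat_lit 17) (nat_lit 5) (nat_lit 19) (nat_lit 4) (nat_lit 17) (nat_lit 4) (nat_lit 330) (nat_lit 296) (nat_lit 274))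 (XT.lf (nat_lit 0) (nat_lit 639017187) (nat_lit 152) (nat_lit 10377377597) (nat_lit 76) (nat_lit 5978933165) (nat_lit 15) (nat_lit 5) (nat_lit 17) (nat_lit 5) (nat_lit 16) (nat_lit 4) (nat_lit 331) (nat_lit 296) (nat_lit 273)))) (XT.nd (nat_lit 156) (nat_lit 76) (nat_lit 0) (XT.nd (nat_lit 78) (nat_lit 76) (nat_lit 0) (XT.lf (nat_lit 0) (nat_lit 4773483626) (nat_lit 152) (nat_lit 1955693580) (nat_lit 76) (nat_lit 11211846030) (nat_lit 15) (nat_lit 5) (nat_lit 17) (nat_lit 5) (nat_lit 16) (nat_lit 4) (nat_lit 332) (nat_lit 296) (nat_lit 272)) (XT.lf (nat_lit 0) (nat_lit 7338027221) (nat_lit 76) (nat_lit 1982832047) (nat_lit 152) (nat_lit 9635009523) (nat_lit 14) (nat_lit 5) (nat_lit 15) (nat_lit 5) (nat_lit 16) (nat_lit 4) (nat_lit 333) (nat_lit 296) (nat_lit 271))) (XT.nd (nat_lit 78) (nat_lit 76) (nat_lit 0) (XT.lf (nat_lit 0) (nat_lit 14269423008) (nat_lit 152) (nat_lit 2808247890)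 (nat_lit 0) (nat_lit 2971301097) (nat_lit 14) (nat_lit 5) (nat_lit 16) (nat_lit 4) (nat_lit 14) (nat_lit 4) (nat_lit 334) (nat_lit 296) (nat_lit 270)) (XT.lf (nat_lit 0) (nat_lit 6839229752) (nat_lit 76) (nat_lit 12904463510) (nat_lit 76) (nat_lit 1475501745) (nat_lit 13) (nat_lit 4) (nat_lit 14) (nat_lit 5) (nat_lit 14) (nat_lit 4) (nat_lit 335) (nat_lit 296) (nat_lit 269))))) (XT.nd (nat_lit 312) (nat_lit 228) (nat_lit 0) (XT.nd (nat_lit 156) (nat_lit 0) (nat_lit 0) (XT.nd (nat_lit 78) (nat_lit 76) (nat_lit 0) (XT.lf (nat_lit 0) (nat_lit 3007233836) (nat_lit 152) (nat_lit 5295063398) (nat_lit 76) (nat_lit 14175236369) (nat_lit 12) (nat_lit 5) (nat_lit 14) (nat_lit 5) (nat_lit 13) (nat_lit 4) (nat_lit 336) (nat_lit 296) (nat_lit 268)) (XT.lf (nat_lit 0) (nat_lit 4560046241) (nat_lit 76) (nat_lit 3239150924) (nat_lit 152) (nat_lit 16031895657) (nat_lit 11) (nat_lit 5) (nat_lit 12) (nat_lit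 5) (nat_lit 13) (nat_lit 4) (nat_lit 337) (nat_lit 296) (nat_lit 267))) (XT.nd (nat_lit 78) (nat_lit 0) (nat_lit 0) (XT.lf (nat_lit 0) (nat_lit 13098182712) (nat_lit 152) (nat_lit 9981302419) (nat_lit 0) (nat_lit 2203600529) (nat_lit 11) (nat_lit 5) (nat_lit 13) (nat_lit 4) (nat_lit 11) (nat_lit 4) (nat_lit 338) (nat_lit 296) (nat_lit 266)) (XT.lf (nat_lit 0) (nat_lit 18832553921) (nat_lit 152) (nat_lit 168881301) (nat_lit 0) (nat_lit 7848924332) (nat_lit 11) (nat_lit 5) (nat_lit 13) (nat_lit 4) (nat_lit 11) (nat_lit 4) (nat_lit 339) (nat_lit 296) (nat_lit 265)))) (XT.nd (nat_lit 156) (nat_lit 76) (nat_lit 0) (XT.nd (nat_lit 78) (nat_lit 76) (nat_lit 0) (XT.lf (nat_lit 0) (nat_lit 10844765187) (nat_lit 76) (nat_lit 14374442271) (nat_lit 76) (nat_lit 3308361379) (nat_lit 10) (nat_lit 4) (nat_lit 11) (nat_lit 5) (nat_lit 11) (nat_lit 4) (nat_lit 340) (nat_lit 296) (nat_lit 264)) (XT.lf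 (nat_lit 0) (nat_lit 1626654307) (nat_lit 152) (nat_lit 7758983730) (nat_lit 76) (nat_lit 20954907153) (nat_lit 9) (nat_lit 5) (nat_lit 11) (nat_lit 5) (nat_lit 10) (nat_lit 4) (nat_lit 341) (nat_lit 296) (nat_lit 263))) (XT.nd (nat_lit 78) (nat_lit 0) (nat_lit 0) (XT.lf (nat_lit 0) (nat_lit 2900664117) (nat_lit 76) (nat_lit 3884805838) (nat_lit 152) (nat_lit 25505624935) (nat_lit 8) (nat_lit 5) (nat_lit 9) (nat_lit 5) (nat_lit 10) (nat_lit 4) (nat_lit 342) (nat_lit 296) (nat_lit 262)) (XT.lf (nat_lit 0) (nat_lit 12562614488) (nat_lit 152) (nat_lit 19699152792) (nat_lit 0) (nat_lit 2119497920) (nat_lit 8) (nat_lit 5) (nat_lit 10) (nat_lit 4) (nat_lit 8) (nat_lit 4) (nat_lit 343) (nat_lit 296) (nat_lit 261)))))))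
noncomputable def xc83 : XT := (XT.nd (nat_lit 1248) (nat_lit 152) (nat_lit 0) (XT.nd (nat_lit 624) (nat_lit 152) (nat_lit 0) (XT.nd (nat_lit 312) (nat_lit 152) (nat_lit 0) (XT.nd (nat_lit 156) (nat_lit 0) (nat_lit 0) (XT.nd (nat_lit 78) (nat_lit 76) (nat_lit 0) (XT.lf (nat_lit 0) (nat_lit 18845908648) (nat_lit 152) (nat_lit 9442569694) (nat_lit 0) (nat_lit 8346677109) (nat_lit 8) (nat_lit 5) (nat_lit 10) (nat_lit 4) (nat_lit 8) (nat_lit 4) (nat_lit 344) (nat_lit 296) (nat_lit 260)) (XT.lf (nat_lit 0) (nat_lit 1614280809) (nat_lit 76) (nat_lit 24003699779) (nat_lit 76) (nat_lit 13452509935) (nat_lit 7) (nat_lit 4) (nat_lit 8) (nat_lit 5) (nat_lit 8) (nat_lit 4) (nat_lit 345) (nat_lit 296) (nat_lit 259))) (XT.nd (nat_lit 78) (nat_lit 0) (nat_lit 0) (XT.lf (nat_lit 0) (nat_lit 13994231821) (nat_lit 76) (nat_lit 19144590356) (nat_lit 76) (nat_lit 8545290968) (nat_lit 7) (nat_lit 4) (nat_lit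 8) (nat_lit 5) (nat_lit 8) (nat_lit 4) (nat_lit 346) (nat_lit 296) (nat_lit 258)) (XT.lf (nat_lit 0) (nat_lit 27273417028) (nat_lit 76) (nat_lit 13940531938) (nat_lit 76) (nat_lit 3296686678) (nat_lit 7) (nat_lit 4) (nat_lit 8) (nat_lit 5) (nat_lit 8) (nat_lit 4) (nat_lit 347) (nat_lit 296) (nat_lit 257)))) (XT.nd (nat_lit 156) (nat_lit 0) (nat_lit 0) (XT.nd (nat_lit 78) (nat_lit 76) (nat_lit 0) (XT.lf (nat_lit 0) (nat_lit 2208129584) (nat_lit 152) (nat_lit 6092181902) (nat_lit 76) (nat_lit 39262024137) (nat_lit 6) (nat_lit 5) (nat_lit 8) (nat_lit 5) (nat_lit 7) (nat_lit 4) (nat_lit 348) (nat_lit 296) (nat_lit 256)) (XT.lf (nat_lit 0) (nat_lit 6082745479) (nat_lit 76) (nat_lit 1997075589) (nat_lit 152) (nat_lit 42763148020) (nat_lit 5) (nat_lit 5) (nat_lit 6) (nat_lit 5) (nat_lit 7) (nat_lit 4) (nat_lit 349) (nat_lit 296) (nat_lit 255))) (XT.nd (nat_lit 78) (nat_lit 0) (nat_lit 0) (XT.lf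 (nat_lit 0) (nat_lit 14666436946) (nat_lit 152) (nat_lit 34995286224) (nat_lit 0) (nat_lit 4704729266) (nat_lit 5) (nat_lit 5) (nat_lit 7) (nat_lit 4) (nat_lit 5) (nat_lit 4) (nat_lit 350) (nat_lit 296) (nat_lit 254)) (XT.lf (nat_lit 0) (nat_lit 21793521600) (nat_lit 152) (nat_lit 24575726212) (nat_lit 0) (nat_lit 11801496747) (nat_lit 5) (nat_lit 5) (nat_lit 7) (nat_lit 4) (nat_lit 5) (nat_lit 4) (nat_lit 351) (nat_lit 296) (nat_lit 253))))) (XT.nd (nat_lit 312) (nat_lit 76) (nat_lit 0) (XT.nd (nat_lit 156) (nat_lit 76) (nat_lit 0) (XT.nd (nat_lit 78) (nat_lit 0) (nat_lit 0) (XT.lf (nat_lit 0) (nat_lit 29455279891) (nat_lit 152) (nat_lit 13391768318) (nat_lit 0) (nat_lit 19435183582) (nat_lit 5) (nat_lit 5) (nat_lit 7) (nat_lit 4) (nat_lit 5) (nat_lit 4) (nat_lit 352) (nat_lit 296) (nat_lit 252)) (XT.lf (nat_lit 0) (nat_lit 37697114831) (nat_lit 152) (nat_lit 1377137234) (nat_lit 0)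 (nat_lit 27651026433) (nat_lit 5) (nat_lit 5) (nat_lit 7) (nat_lit 4) (nat_lit 5) (nat_lit 4) (nat_lit 353) (nat_lit 296) (nat_lit 251))) (XT.nd (nat_lit 78) (nat_lit 0) (nat_lit 0) (XT.lf (nat_lit 0) (nat_lit 12147007355) (nat_lit 76) (nat_lit 34712995386) (nat_lit 76) (nat_lit 24642840239) (nat_lit 4) (nat_lit 4) (nat_lit 5) (nat_lit 5) (nat_lit 5) (nat_lit 4) (nat_lit 354) (nat_lit 296) (nat_lit 250)) (XT.lf (nat_lit 0) (nat_lit 26773604296) (nat_lit 76) (nat_lit 29990405118) (nat_lit 76) (nat_lit 19897965943) (nat_lit 4) (nat_lit 4) (nat_lit 5) (nat_lit 5) (nat_lit 5) (nat_lit 4) (nat_lit 355) (nat_lit 296) (nat_lit 249)))) (XT.nd (nat_lit 156) (nat_lit 76) (nat_lit 0) (XT.nd (nat_lit 78) (nat_lit 0) (nat_lit 0) (XT.lf (nat_lit 0) (nat_lit 42516812111) (nat_lit 76) (nat_lit 24916148912) (nat_lit 76) (nat_lit 14803076379) (nat_lit 4) (nat_lit 4) (nat_lit 5) (nat_lit 5) (nat_lit 5)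 (nat_lit 4) (nat_lit 356) (nat_lit 296) (nat_lit 248)) (XT.lf (nat_lit 0) (nat_lit 59469923884) (nat_lit 76) (nat_lit 19460157102) (nat_lit 76) (nat_lit 9327979608) (nat_lit 4) (nat_lit 4) (nat_lit 5) (nat_lit 5) (nat_lit 5) (nat_lit 4) (nat_lit 357) (nat_lit 296) (nat_lit 247))) (XT.nd (nat_lit 78) (nat_lit 76) (nat_lit 0) (XT.lf (nat_lit 0) (nat_lit 77733402499) (nat_lit 76) (nat_lit 13590097886) (nat_lit 76) (nat_lit 3440230613) (nat_lit 4) (nat_lit 4) (nat_lit 5) (nat_lit 5) (nat_lit 5) (nat_lit 4) (nat_lit 358) (nat_lit 296) (nat_lit 246)) (XT.lf (nat_lit 0) (nat_lit 2750238296) (nat_lit 152) (nat_lit 4445751041) (nat_lit 76) (nat_lit 94590041293) (nat_lit 3) (nat_lit 5) (nat_lit 5) (nat_lit 5) (nat_lit 4) (nat_lit 4) (nat_lit 359) (nat_lit 296) (nat_lit 245)))))) (XT.nd (nat_lit 624) (nat_lit 76) (nat_lit 0) (XT.nd (nat_lit 312) (nat_lit 0) (nat_lit 0) (XT.nd (nat_lit 156) (nat_lit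 0) (nat_lit 0) (XT.nd (nat_lit 78) (nat_lit 0) (nat_lit 0) (XT.lf (nat_lit 0) (nat_lit 9458471137) (nat_lit 152) (nat_lit 99856592618) (nat_lit 0) (nat_lit 31237034) (nat_lit 2) (nat_lit 5) (nat_lit 4) (nat_lit 4) (nat_lit 2) (nat_lit 4) (nat_lit 360) (nat_lit 296) (nat_lit 244)) (XT.lf (nat_lit 0) (nat_lit 16994449456) (nat_lit 152) (nat_lit 92939449011) (nat_lit 0) (nat_lit 7554212837) (nat_lit 2) (nat_lit 5) (nat_lit 4) (nat_lit 4) (nat_lit 2) (nat_lit 4) (nat_lit 361) (nat_lit 296) (nat_lit 243))) (XT.nd (nat_lit 78) (nat_lit 0) (nat_lit 0) (XT.lf (nat_lit 0) (nat_lit 25114293132) (nat_lit 152) (nat_lit 85506482685) (nat_lit 0) (nat_lit 15662017146) (nat_lit 2) (nat_lit 5) (nat_lit 4) (nat_lit 4) (nat_lit 2) (nat_lit 4) (nat_lit 362) (nat_lit 296) (nat_lit 242)) (XT.lf (nat_lit 0) (nat_lit 33866119756) (nat_lit 152) (nat_lit 77513646431) (nat_lit 0) (nat_lit 24402696209) (nat_lit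 2) (nat_lit 5) (nat_lit 4) (nat_lit 4) (nat_lit 2) (nat_lit 4) (nat_lit 363) (nat_lit 296) (nat_lit 241)))) (XT.nd (nat_lit 156) (nat_lit 0) (nat_lit 0) (XT.nd (nat_lit 78) (nat_lit 0) (nat_lit 0) (XT.lf (nat_lit 0) (nat_lit 43301792006) (nat_lit 152) (nat_lit 68913575293) (nat_lit 0) (nat_lit 33828046643) (nat_lit 2) (nat_lit 5) (nat_lit 4) (nat_lit 4) (nat_lit 2) (nat_lit 4) (nat_lit 364) (nat_lit 296) (nat_lit 240)) (XT.lf (nat_lit 0) (nat_lit 53477224977) (nat_lit 152) (nat_lit 59655305887) (nat_lit 0) (nat_lit 43993922376) (nat_lit 2) (nat_lit 5) (nat_lit 4) (nat_lit 4) (nat_lit 2) (nat_lit 4) (nat_lit 365) (nat_lit 296) (nat_lit 239))) (XT.nd (nat_lit 78) (nat_lit 0) (nat_lit 0) (XT.lf (nat_lit 0) (nat_lit 64452717530) (nat_lit 152) (nat_lit 49683974395) (nat_lit 0) (nat_lit 54960565635) (nat_lit 2) (nat_lit 5) (nat_lit 4) (nat_lit 4) (nat_lit 2) (nat_lit 4) (nat_lit 366) (nat_lit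 296) (nat_lit 238)) (XT.lf (nat_lit 0) (nat_lit 76293309620) (nat_lit 152) (nat_lit 38940491444) (nat_lit 0) (nat_lit 66792963936) (nat_lit 2) (nat_lit 5) (nat_lit 4) (nat_lit 4) (nat_lit 2) (nat_lit 4) (nat_lit 367) (nat_lit 296) (nat_lit 237))))) (XT.nd (nat_lit 312) (nat_lit 0) (nat_lit 0) (XT.nd (nat_lit 156) (nat_lit 76) (nat_lit 0) (XT.nd (nat_lit 78) (nat_lit 0) (nat_lit 0) (XT.lf (nat_lit 0) (nat_lit 89069167721) (nat_lit 152) (nat_lit 27361191951) (nat_lit 0) (nat_lit 79561235193) (nat_lit 2) (nat_lit 5) (nat_lit 4) (nat_lit 4) (nat_lit 2) (nat_lit 4) (nat_lit 368) (nat_lit 296) (nat_lit 236)) (XT.lf (nat_lit 0) (nat_lit 102856000620) (nat_lit 152) (nat_lit 14877457844) (nat_lit 0) (nat_lit 93341043238) (nat_lit 2) (nat_lit 5) (nat_lit 4) (nat_lit 4) (nat_lit 2) (nat_lit 4) (nat_lit 369) (nat_lit 296) (nat_lit 235))) (XT.nd (nat_lit 78) (nat_lit 76) (nat_lit 0) (XT.lf (nat_lit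 0) (nat_lit 117735508069) (nat_lit 152) (nat_lit 1415311440) (nat_lit 0) (nat_lit 108214046191) (nat_lit 2) (nat_lit 5) (nat_lit 4) (nat_lit 4) (nat_lit 2) (nat_lit 4) (nat_lit 370) (nat_lit 296) (nat_lit 234)) (XT.lf (nat_lit 0) (nat_lit 13795110227) (nat_lit 76) (nat_lit 120332527430) (nat_lit 76) (nat_lit 110805042872) (nat_lit 1) (nat_lit 4) (nat_lit 2) (nat_lit 5) (nat_lit 2) (nat_lit 4) (nat_lit 371) (nat_lit 296) (nat_lit 233)))) (XT.nd (nat_lit 156) (nat_lit 0) (nat_lit 0) (XT.nd (nat_lit 78) (nat_lit 0) (nat_lit 0) (XT.lf (nat_lit 0) (nat_lit 30284547450) (nat_lit 76) (nat_lit 121576040319) (nat_lit 76) (nat_lit 112042979205) (nat_lit 1) (nat_lit 4) (nat_lit 2) (nat_lit 5) (nat_lit 2) (nat_lit 4) (nat_lit 372) (nat_lit 296) (nat_lit 232)) (XT.lf (nat_lit 0) (nat_lit 48076187617) (nat_lit 76) (nat_lit 122927424264) (nat_lit 76) (nat_lit 113389199672) (nat_lit 1) (nat_lit 4) (nat_lit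 2) (nat_lit 5) (nat_lit 2) (nat_lit 4) (nat_lit 373) (nat_lit 296) (nat_lit 231))) (XT.nd (nat_lit 78) (nat_lit 0) (nat_lit 0) (XT.lf (nat_lit 0) (nat_lit 67275462671) (nat_lit 76) (nat_lit 124394687467) (nat_lit 76) (nat_lit 114851681877) (nat_lit 1) (nat_lit 4) (nat_lit 2) (nat_lit 5) (nat_lit 2) (nat_lit 4) (nat_lit 374) (nat_lit 296) (nat_lit 230)) (XT.nd (nat_lit 78) (nat_lit 0) (nat_lit 0) (XT.lf (nat_lit 0) (nat_lit 87996146094) (nat_lit 76) (nat_lit 125986524821) (nat_lit 76) (nat_lit 116439092381) (nat_lit 1) (nat_lit 4) (nat_lit 2) (nat_lit 5) (nat_lit 2) (nat_lit 4) (nat_lit 375) (nat_lit 296) (nat_lit 229)) (XT.lf (nat_lit 0) (nat_lit 110361027121) (nat_lit 76) (nat_lit 127712369435) (nat_lit 76) (nat_lit 118160838060) (nat_lit 1) (nat_lit 4) (nat_lit 2) (nat_lit 5) (nat_lit 2) (nat_lit 4) (nat_lit 376) (nat_lit 296) (nat_lit 228))))))))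
noncomputable def xc84 : XT := (XT.nd (nat_lit 1248) (nat_lit 0) (nat_lit 0) (XT.nd (nat_lit 624) (nat_lit 0) (nat_lit 0) (XT.nd (nat_lit 312) (nat_lit 0) (nat_lit 0) (XT.nd (nat_lit 156) (nat_lit 0) (nat_lit 0) (XT.nd (nat_lit 78) (nat_lit 0) (nat_lit 0) (XT.lf (nat_lit 0) (nat_lit 134502638380) (nat_lit 76) (nat_lit 129582448537) (nat_lit 76) (nat_lit 120027121851) (nat_lit 1) (nat_lit 4) (nat_lit 2) (nat_lit 5) (nat_lit 2) (nat_lit 4) (nat_lit 377) (nat_lit 296) (nat_lit 227)) (XT.lf (nat_lit 0) (nat_lit 160564041271) (nat_lit 76) (nat_lit 131607844078) (nat_lit 76) (nat_lit 122049003216) (nat_lit 1) (nat_lit 4) (nat_lit 2) (nat_lit 5) (nat_lit 2) (nat_lit 4) (nat_lit 378) (nat_lit 296) (nat_lit 226))) (XT.nd (nat_lit 78) (nat_lit 0) (nat_lit 0) (XT.lf (nat_lit 0) (nat_lit 188699673738) (nat_lit 76) (nat_lit 133800558400) (nat_lit 76) (nat_lit 124238463672) (nat_lit 1) (nat_lit 4)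 (nat_lit 2) (nat_lit 5) (nat_lit 2) (nat_lit 4) (nat_lit 379) (nat_lit 296) (nat_lit 225)) (XT.lf (nat_lit 0) (nat_lit 219076265454) (nat_lit 76) (nat_lit 136173585368) (nat_lit 76) (nat_lit 126608477800) (nat_lit 1) (nat_lit 4) (nat_lit 2) (nat_lit 5) (nat_lit 2) (nat_lit 4) (nat_lit 380) (nat_lit 296) (nat_lit 224)))) (XT.nd (nat_lit 156) (nat_lit 0) (nat_lit 0) (XT.nd (nat_lit 78) (nat_lit 0) (nat_lit 0) (XT.lf (nat_lit 0) (nat_lit 251873825851) (nat_lit 76) (nat_lit 138740987363) (nat_lit 76) (nat_lit 129173090128) (nat_lit 1) (nat_lit 4) (nat_lit 2) (nat_lit 5) (nat_lit 2) (nat_lit 4) (nat_lit 381) (nat_lit 296) (nat_lit 223)) (XT.lf (nat_lit 0) (nat_lit 287286710843) (nat_lit 76) (nat_lit 141517978619) (nat_lit 76) (nat_lit 131947498359) (nat_lit 1) (nat_lit 4) (nat_lit 2) (nat_lit 5) (nat_lit 2) (nat_lit 4) (nat_lit 382) (nat_lit 296) (nat_lit 222))) (XT.nd (nat_lit 78) (nat_lit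 0) (nat_lit 0) (XT.lf (nat_lit 0) (nat_lit 325524774564) (nat_lit 76) (nat_lit 144521015380) (nat_lit 76) (nat_lit 134948143431) (nat_lit 1) (nat_lit 4) (nat_lit 2) (nat_lit 5) (nat_lit 2) (nat_lit 4) (nat_lit 383) (nat_lit 296) (nat_lit 221)) (XT.lf (nat_lit 0) (nat_lit 366814612946) (nat_lit 76) (nat_lit 147767893420) (nat_lit 76) (nat_lit 138192806944) (nat_lit 1) (nat_lit 4) (nat_lit 2) (nat_lit 5) (nat_lit 2) (nat_lit 4) (nat_lit 384) (nat_lit 296) (nat_lit 220))))) (XT.nd (nat_lit 312) (nat_lit 0) (nat_lit 0) (XT.nd (nat_lit 156) (nat_lit 0) (nat_lit 0) (XT.nd (nat_lit 78) (nat_lit 0) (nat_lit 0) (XT.lf (nat_lit 0) (nat_lit 411400906514) (nat_lit 76) (nat_lit 151277853498) (nat_lit 76) (nat_lit 141700716534) (nat_lit 1) (nat_lit 4) (nat_lit 2) (nat_lit 5) (nat_lit 2) (nat_lit 4) (nat_lit 385) (nat_lit 296) (nat_lit 219)) (XT.lf (nat_lit 0) (nat_lit 459547870339) (nat_lit 76) (nat_lit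 155071695377) (nat_lit 76) (nat_lit 145492659813) (nat_lit 1) (nat_lit 4) (nat_lit 2) (nat_lit 5) (nat_lit 2) (nat_lit 4) (nat_lit 386) (nat_lit 296) (nat_lit 218))) (XT.nd (nat_lit 78) (nat_lit 0) (nat_lit 0) (XT.lf (nat_lit 0) (nat_lit 511540819764) (nat_lit 76) (nat_lit 159171901083) (nat_lit 76) (nat_lit 149591107556) (nat_lit 1) (nat_lit 4) (nat_lit 2) (nat_lit 5) (nat_lit 2) (nat_lit 4) (nat_lit 387) (nat_lit 296) (nat_lit 217)) (XT.lf (nat_lit 0) (nat_lit 567687861155) (nat_lit 76) (nat_lit 163602768131) (nat_lit 76) (nat_lit 154020346860) (nat_lit 1) (nat_lit 4) (nat_lit 2) (nat_lit 5) (nat_lit 2) (nat_lit 4) (nat_lit 388) (nat_lit 296) (nat_lit 216)))) (XT.nd (nat_lit 156) (nat_lit 0) (nat_lit 0) (XT.nd (nat_lit 78) (nat_lit 0) (nat_lit 0) (XT.lf (nat_lit 0) (nat_lit 628321717721) (nat_lit 76) (nat_lit 168390553512) (nat_lit 76) (nat_lit 158806625071) (nat_lit 1) (nat_lit 4)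 (nat_lit 2) (nat_lit 5) (nat_lit 2) (nat_lit 4) (nat_lit 389) (nat_lit 296) (nat_lit 215)) (XT.lf (nat_lit 0) (nat_lit 693801701204) (nat_lit 76) (nat_lit 173563629286) (nat_lit 76) (nat_lit 163978305317) (nat_lit 1) (nat_lit 4) (nat_lit 2) (nat_lit 5) (nat_lit 2) (nat_lit 4) (nat_lit 390) (nat_lit 296) (nat_lit 214))) (XT.nd (nat_lit 78) (nat_lit 0) (nat_lit 0) (XT.lf (nat_lit 0) (nat_lit 764515841136) (nat_lit 76) (nat_lit 179152650718) (nat_lit 76) (nat_lit 169566034594) (nat_lit 1) (nat_lit 4) (nat_lit 2) (nat_lit 5) (nat_lit 2) (nat_lit 4) (nat_lit 391) (nat_lit 296) (nat_lit 213)) (XT.lf (nat_lit 0) (nat_lit 840883184272) (nat_lit 76) (nat_lit 185190737934) (nat_lit 76) (nat_lit 175602925370) (nat_lit 1) (nat_lit 4) (nat_lit 2) (nat_lit 5) (nat_lit 2) (nat_lit 4) (nat_lit 392) (nat_lit 296) (nat_lit 212)))))) (XT.nd (nat_lit 624) (nat_lit 0) (nat_lit 0) (XT.nd (nat_lit 312) (nat_lit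 0) (nat_lit 0) (XT.nd (nat_lit 156) (nat_lit 0) (nat_lit 0) (XT.nd (nat_lit 78) (nat_lit 0) (nat_lit 0) (XT.lf (nat_lit 0) (nat_lit 923356277831) (nat_lit 76) (nat_lit 191713672193) (nat_lit 76) (nat_lit 182124751814) (nat_lit 1) (nat_lit 4) (nat_lit 2) (nat_lit 5) (nat_lit 2) (nat_lit 4) (nat_lit 393) (nat_lit 296) (nat_lit 211)) (XT.lf (nat_lit 0) (nat_lit 1012423851256) (nat_lit 76) (nat_lit 198760107919) (nat_lit 76) (nat_lit 189170161785) (nat_lit 1) (nat_lit 4) (nat_lit 2) (nat_lit 5) (nat_lit 2) (nat_lit 4) (nat_lit 394) (nat_lit 296) (nat_lit 210))) (XT.nd (nat_lit 78) (nat_lit 0) (nat_lit 0) (XT.lf (nat_lit 0) (nat_lit 1108613712389) (nat_lit 76) (nat_lit 206371801768) (nat_lit 76) (nat_lit 196780905862) (nat_lit 1) (nat_lit 4) (nat_lit 2) (nat_lit 5) (nat_lit 2) (nat_lit 4) (nat_lit 395) (nat_lit 296) (nat_lit 209)) (XT.lf (nat_lit 0) (nat_lit 1212495875223) (nat_lit 76) (nat_lit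 214593860075) (nat_lit 76) (nat_lit 205002084750) (nat_lit 1) (nat_lit 4) (nat_lit 2) (nat_lit 5) (nat_lit 2) (nat_lit 4) (nat_lit 396) (nat_lit 296) (nat_lit 208)))) (XT.nd (nat_lit 156) (nat_lit 0) (nat_lit 0) (XT.nd (nat_lit 78) (nat_lit 0) (nat_lit 0) (XT.lf (nat_lit 0) (nat_lit 1324685937759) (nat_lit 76) (nat_lit 223475006148) (nat_lit 76) (nat_lit 213882416546) (nat_lit 1) (nat_lit 4) (nat_lit 2) (nat_lit 5) (nat_lit 2) (nat_lit 4) (nat_lit 397) (nat_lit 296) (nat_lit 207)) (XT.lf (nat_lit 0) (nat_lit 1445848729998) (nat_lit 76) (nat_lit 233067869001) (nat_lit 76) (nat_lit 223474525438) (nat_lit 1) (nat_lit 4) (nat_lit 2) (nat_lit 5) (nat_lit 2) (nat_lit 4) (nat_lit 398) (nat_lit 296) (nat_lit 206))) (XT.nd (nat_lit 78) (nat_lit 0) (nat_lit 0) (XT.lf (nat_lit 0) (nat_lit 1576702253672) (nat_lit 76) (nat_lit 243429295228) (nat_lit 76) (nat_lit 233835253554) (nat_lit 1) (nat_lit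 4) (nat_lit 2) (nat_lit 5) (nat_lit 2) (nat_lit 4) (nat_lit 399) (nat_lit 296) (nat_lit 205)) (XT.lf (nat_lit 0) (nat_lit 1718021937068) (nat_lit 76) (nat_lit 254620685874) (nat_lit 76) (nat_lit 245025997801) (nat_lit 1) (nat_lit 4) (nat_lit 2) (nat_lit 5) (nat_lit 2) (nat_lit 4) (nat_lit 400) (nat_lit 296) (nat_lit 204))))) (XT.nd (nat_lit 312) (nat_lit 0) (nat_lit 0) (XT.nd (nat_lit 156) (nat_lit 0) (nat_lit 0) (XT.nd (nat_lit 78) (nat_lit 0) (nat_lit 0) (XT.lf (nat_lit 0) (nat_lit 1870645230162) (nat_lit 76) (nat_lit 266708360291) (nat_lit 76) (nat_lit 257113073700) (nat_lit 1) (nat_lit 4) (nat_lit 2) (nat_lit 5) (nat_lit 2) (nat_lit 4) (nat_lit 401) (nat_lit 296) (nat_lit 203)) (XT.lf (nat_lit 0) (nat_lit 2035476567285) (nat_lit 76) (nat_lit 279763949141) (nat_lit 76) (nat_lit 270168108367) (nat_lit 1) (nat_lit 4) (nat_lit 2) (nat_lit 5) (nat_lit 2) (nat_lit 4) (nat_lit 402) (nat_lit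 296) (nat_lit 202))) (XT.nd (nat_lit 78) (nat_lit 0) (nat_lit 0) (XT.lf (nat_lit 0) (nat_lit 2213492726730) (nat_lit 76) (nat_lit 293864818878) (nat_lit 76) (nat_lit 284268464971) (nat_lit 1) (nat_lit 4) (nat_lit 2) (nat_lit 5) (nat_lit 2) (nat_lit 4) (nat_lit 403) (nat_lit 296) (nat_lit 201)) (XT.lf (nat_lit 0) (nat_lit 2405748619071) (nat_lit 76) (nat_lit 309094530211) (nat_lit 76) (nat_lit 299497701181) (nat_lit 1) (nat_lit 4) (nat_lit 2) (nat_lit 5) (nat_lit 2) (nat_lit 4) (nat_lit 404) (nat_lit 296) (nat_lit 200)))) (XT.nd (nat_lit 156) (nat_lit 0) (nat_lit 0) (XT.nd (nat_lit 78) (nat_lit 0) (nat_lit 0) (XT.lf (nat_lit 0) (nat_lit 2613383538485) (nat_lit 76) (nat_lit 325543333281) (nat_lit 76) (nat_lit 315946064322) (nat_lit 1) (nat_lit 4) (nat_lit 2) (nat_lit 5) (nat_lit 2) (nat_lit 4) (nat_lit 405) (nat_lit 296) (nat_lit 199)) (XT.lf (nat_lit 0) (nat_lit 2837627914125) (nat_lit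 76) (nat_lit 343308702476) (nat_lit 76) (nat_lit 333711026177) (nat_lit 1) (nat_lit 4) (nat_lit 2) (nat_lit 5) (nat_lit 2) (nat_lit 4) (nat_lit 406) (nat_lit 296) (nat_lit 198))) (XT.nd (nat_lit 78) (nat_lit 0) (nat_lit 0) (XT.lf (nat_lit 0) (nat_lit 3079810601550) (nat_lit 76) (nat_lit 362495914060) (nat_lit 76) (nat_lit 352897860592) (nat_lit 1) (nat_lit 4) (nat_lit 2) (nat_lit 5) (nat_lit 2) (nat_lit 4) (nat_lit 407) (nat_lit 296) (nat_lit 197)) (XT.lf (nat_lit 0) (nat_lit 3341366757426) (nat_lit 76) (nat_lit 383218670025) (nat_lit 76) (nat_lit 373620267328) (nat_lit 1) (nat_lit 4) (nat_lit 2) (nat_lit 5) (nat_lit 2) (nat_lit 4) (nat_lit 408) (nat_lit 296) (nat_lit 196)))))))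
noncomputable def xc85 : XT := (XT.nd (nat_lit 39936) (nat_lit 0) (nat_lit 836) (XT.nd (nat_lit 39312) (nat_lit 0) (nat_lit 2356) (XT.nd (nat_lit 39000) (nat_lit 0) (nat_lit 3724) (XT.nd (nat_lit 38844) (nat_lit 0) (nat_lit 4940) (XT.nd (nat_lit 78) (nat_lit 0) (nat_lit 0) (XT.lf (nat_lit 0) (nat_lit 3623846344158) (nat_lit 76) (nat_lit 405599771890) (nat_lit 76) (nat_lit 396001045832) (nat_lit 1) (nat_lit 4) (nat_lit 2) (nat_lit 5) (nat_lit 2) (nat_lit 4) (nat_lit 409) (nat_lit 296) (nat_lit 195)) (XT.lf (nat_lit 0) (nat_lit 3928923314852) (nat_lit 76) (nat_lit 429771848405) (nat_lit 76) (nat_lit 420172822939) (nat_lit 1) (nat_lit 4) (nat_lit 2) (nat_lit 5) (nat_lit 2) (nat_lit 4) (nat_lit 410) (nat_lit 296) (nat_lit 194))) (XT.nd (nat_lit 78) (nat_lit 76) (nat_lit 0) (XT.lf (nat_lit 0) (nat_lit 1105049410) (nat_lit 228) (nat_lit 1124223603) (nat_lit 228) (nat_lit 1124223603) (nat_lit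 67) (nat_lit 4) (nat_lit 70) (nat_lit 5) (nat_lit 70) (nat_lit 4) (nat_lit 306) (nat_lit 297) (nat_lit 297)) (XT.lf (nat_lit 0) (nat_lit 881012398) (nat_lit 304) (nat_lit 256767479) (nat_lit 76) (nat_lit 5672195065) (nat_lit 66) (nat_lit 5) (nat_lit 70) (nat_lit 5) (nat_lit 67) (nat_lit 4) (nat_lit 307) (nat_lit 297) (nat_lit 296)))) (XT.nd (nat_lit 156) (nat_lit 456) (nat_lit 0) (XT.nd (nat_lit 78) (nat_lit 456) (nat_lit 0) (XT.lf (nat_lit 0) (nat_lit 3988474385) (nat_lit 380) (nat_lit 2678156053) (nat_lit 0) (nat_lit 262747019) (nat_lit 62) (nat_lit 5) (nat_lit 67) (nat_lit 4) (nat_lit 62) (nat_lit 4) (nat_lit 308) (nat_lit 297) (nat_lit 295)) (XT.lf (nat_lit 0) (nat_lit 104582512) (nat_lit 456) (nat_lit 5166728221) (nat_lit 76) (nat_lit 1800527060) (nat_lit 56) (nat_lit 5) (nat_lit 62) (nat_lit 5) (nat_lit 57) (nat_lit 4) (nat_lit 309) (nat_lit 297) (nat_lit 294))) (XT.nd (nat_lit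 78) (nat_lit 456) (nat_lit 0) (XT.lf (nat_lit 0) (nat_lit 3070894301) (nat_lit 456) (nat_lit 532477924) (nat_lit 76) (nat_lit 3629948312) (nat_lit 56) (nat_lit 5) (nat_lit 62) (nat_lit 5) (nat_lit 57) (nat_lit 4) (nat_lit 310) (nat_lit 297) (nat_lit 293)) (XT.lf (nat_lit 0) (nat_lit 4472448384) (nat_lit 456) (nat_lit 1688277931) (nat_lit 532) (nat_lit 1256674610) (nat_lit 50) (nat_lit 5) (nat_lit 56) (nat_lit 5) (nat_lit 57) (nat_lit 4) (nat_lit 311) (nat_lit 297) (nat_lit 292))))) (XT.nd (nat_lit 312) (nat_lit 456) (nat_lit 0) (XT.nd (nat_lit 156) (nat_lit 532) (nat_lit 0) (XT.nd (nat_lit 78) (nat_lit 0) (nat_lit 0) (XT.lf (nat_lit 0) (nat_lit 1648957776) (nat_lit 380) (nat_lit 5513185332) (nat_lit 76) (nat_lit 462015177) (nat_lit 45) (nat_lit 5) (nat_lit 50) (nat_lit 5) (nat_lit 46) (nat_lit 4) (nat_lit 312) (nat_lit 297) (nat_lit 291)) (XT.lf (nat_lit 0) (nat_lit 4639619331) (nat_lit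 380) (nat_lit 421378638) (nat_lit 76) (nat_lit 2790666706) (nat_lit 45) (nat_lit 5) (nat_lit 50) (nat_lit 5) (nat_lit 46) (nat_lit 4) (nat_lit 313) (nat_lit 297) (nat_lit 290))) (XT.nd (nat_lit 78) (nat_lit 304) (nat_lit 0) (XT.lf (nat_lit 0) (nat_lit 5110616254) (nat_lit 228) (nat_lit 2691095234) (nat_lit 304) (nat_lit 301509433) (nat_lit 42) (nat_lit 5) (nat_lit 45) (nat_lit 5) (nat_lit 46) (nat_lit 4) (nat_lit 314) (nat_lit 297) (nat_lit 289)) (XT.lf (nat_lit 0) (nat_lit 2567573651) (nat_lit 228) (nat_lit 18781893) (nat_lit 304) (nat_lit 5792509655) (nat_lit 38) (nat_lit 5) (nat_lit 41) (nat_lit 5) (nat_lit 42) (nat_lit 5) (nat_lit 315) (nat_lit 297) (nat_lit 288)))) (XT.nd (nat_lit 156) (nat_lit 304) (nat_lit 0) (XT.nd (nat_lit 78) (nat_lit 152) (nat_lit 0) (XT.lf (nat_lit 0) (nat_lit 5662422025) (nat_lit 304) (nat_lit 241361178) (nat_lit 76) (nat_lit 2774610606) (nat_lit 38) (nat_lit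 5) (nat_lit 42) (nat_lit 5) (nat_lit 39) (nat_lit 4) (nat_lit 316) (nat_lit 297) (nat_lit 287)) (XT.lf (nat_lit 0) (nat_lit 5848472855) (nat_lit 152) (nat_lit 3111091226) (nat_lit 228) (nat_lit 44632734) (nat_lit 36) (nat_lit 5) (nat_lit 38) (nat_lit 5) (nat_lit 39) (nat_lit 4) (nat_lit 317) (nat_lit 297) (nat_lit 286))) (XT.nd (nat_lit 78) (nat_lit 0) (nat_lit 0) (XT.lf (nat_lit 0) (nat_lit 2920384243) (nat_lit 304) (nat_lit 6424430948) (nat_lit 76) (nat_lit 12286043) (nat_lit 32) (nat_lit 5) (nat_lit 36) (nat_lit 5) (nat_lit 33) (nat_lit 4) (nat_lit 318) (nat_lit 297) (nat_lit 285)) (XT.lf (nat_lit 0) (nat_lit 6131665798) (nat_lit 304) (nat_lit 354804265) (nat_lit 76) (nat_lit 3251004379) (nat_lit 32) (nat_lit 5) (nat_lit 36) (nat_lit 5) (nat_lit 33) (nat_lit 4) (nat_lit 319) (nat_lit 297) (nat_lit 284)))))) (XT.nd (nat_lit 624) (nat_lit 684) (nat_lit 0) (XT.nd (nat_lit 312) (nat_lit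 304) (nat_lit 0) (XT.nd (nat_lit 156) (nat_lit 152) (nat_lit 0) (XT.nd (nat_lit 78) (nat_lit 228) (nat_lit 0) (XT.lf (nat_lit 0) (nat_lit 6305771851) (nat_lit 152) (nat_lit 3299567895) (nat_lit 228) (nat_lit 542727407) (nat_lit 30) (nat_lit 5) (nat_lit 32) (nat_lit 5) (nat_lit 33) (nat_lit 4) (nat_lit 320) (nat_lit 297) (nat_lit 283)) (XT.lf (nat_lit 0) (nat_lit 2565487941) (nat_lit 228) (nat_lit 7808390107) (nat_lit 76) (nat_lit 217430856) (nat_lit 27) (nat_lit 5) (nat_lit 30) (nat_lit 5) (nat_lit 28) (nat_lit 4) (nat_lit 321) (nat_lit 297) (nat_lit 282))) (XT.nd (nat_lit 78) (nat_lit 152) (nat_lit 0) (XT.lf (nat_lit 0) (nat_lit 5946459986) (nat_lit 228) (nat_lit 1224218090) (nat_lit 76) (nat_lit 3894112166) (nat_lit 27) (nat_lit 5) (nat_lit 30) (nat_lit 5) (nat_lit 28) (nat_lit 4) (nat_lit 322) (nat_lit 297) (nat_lit 281)) (XT.lf (nat_lit 0) (nat_lit 5985408850) (nat_lit 152) (nat_lit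 3626759349) (nat_lit 228) (nat_lit 1963009415) (nat_lit 25) (nat_lit 5) (nat_lit 27) (nat_lit 5) (nat_lit 28) (nat_lit 4) (nat_lit 323) (nat_lit 297) (nat_lit 280)))) (XT.nd (nat_lit 156) (nat_lit 76) (nat_lit 0) (XT.nd (nat_lit 78) (nat_lit 0) (nat_lit 0) (XT.lf (nat_lit 0) (nat_lit 1321893348) (nat_lit 228) (nat_lit 10576575714) (nat_lit 76) (nat_lit 229337214) (nat_lit 22) (nat_lit 5) (nat_lit 25) (nat_lit 5) (nat_lit 23) (nat_lit 4) (nat_lit 324) (nat_lit 297) (nat_lit 279)) (XT.lf (nat_lit 0) (nat_lit 4889331678) (nat_lit 228) (nat_lit 3485780996) (nat_lit 76) (nat_lit 4335523353) (nat_lit 22) (nat_lit 5) (nat_lit 25) (nat_lit 5) (nat_lit 23) (nat_lit 4) (nat_lit 325) (nat_lit 297) (nat_lit 278))) (XT.nd (nat_lit 78) (nat_lit 0) (nat_lit 0) (XT.lf (nat_lit 0) (nat_lit 4191578397) (nat_lit 76) (nat_lit 4535460348) (nat_lit 152) (nat_lit 4614387153) (nat_lit 21) (nat_lit 5) (nat_lit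 22) (nat_lit 5) (nat_lit 23) (nat_lit 4) (nat_lit 326) (nat_lit 297) (nat_lit 277)) (XT.lf (nat_lit 0) (nat_lit 12495807079) (nat_lit 76) (nat_lit 359453836) (nat_lit 152) (nat_lit 1168852636) (nat_lit 21) (nat_lit 5) (nat_lit 22) (nat_lit 5) (nat_lit 23) (nat_lit 4) (nat_lit 327) (nat_lit 297) (nat_lit 276))))) (XT.nd (nat_lit 312) (nat_lit 304) (nat_lit 0) (XT.nd (nat_lit 156) (nat_lit 152) (nat_lit 0) (XT.nd (nat_lit 78) (nat_lit 0) (nat_lit 0) (XT.lf (nat_lit 0) (nat_lit 2585933329) (nat_lit 228) (nat_lit 8051522655) (nat_lit 76) (nat_lit 4106244793) (nat_lit 18) (nat_lit 5) (nat_lit 21) (nat_lit 5) (nat_lit 19) (nat_lit 4) (nat_lit 328) (nat_lit 297) (nat_lit 275)) (XT.lf (nat_lit 0) (nat_lit 6525866532) (nat_lit 228) (nat_lit 80698108) (nat_lit 76) (nat_lit 8916119410) (nat_lit 18) (nat_lit 5) (nat_lit 21) (nat_lit 5) (nat_lit 19) (nat_lit 4) (nat_lit 329) (nat_lit 297) (nat_lit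 274))) (XT.nd (nat_lit 78) (nat_lit 76) (nat_lit 0) (XT.lf (nat_lit 0) (nat_lit 8801776186) (nat_lit 76) (nat_lit 2094331067) (nat_lit 152) (nat_lit 5458753846) (nat_lit 17) (nat_lit 5) (nat_lit 18) (nat_lit 5) (nat_lit 19) (nat_lit 4) (nat_lit 330) (nat_lit 297) (nat_lit 273)) (XT.lf (nat_lit 0) (nat_lit 959095492) (nat_lit 76) (nat_lit 14654064102) (nat_lit 76) (nat_lit 1640755239) (nat_lit 16) (nat_lit 4) (nat_lit 17) (nat_lit 5) (nat_lit 17) (nat_lit 4) (nat_lit 331) (nat_lit 297) (nat_lit 272)))) (XT.nd (nat_lit 156) (nat_lit 152) (nat_lit 0) (XT.nd (nat_lit 78) (nat_lit 76) (nat_lit 0) (XT.lf (nat_lit 0) (nat_lit 2530438497) (nat_lit 152) (nat_lit 7914817322) (nat_lit 76) (nat_lit 7761171225) (nat_lit 15) (nat_lit 5) (nat_lit 17) (nat_lit 5) (nat_lit 16) (nat_lit 4) (nat_lit 332) (nat_lit 297) (nat_lit 271)) (XT.lf (nat_lit 0) (nat_lit 986018616) (nat_lit 76) (nat_lit 5897038892)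 (nat_lit 152) (nat_lit 12353825355) (nat_lit 14) (nat_lit 5) (nat_lit 15) (nat_lit 5) (nat_lit 16) (nat_lit 4) (nat_lit 333) (nat_lit 297) (nat_lit 270))) (XT.nd (nat_lit 78) (nat_lit 152) (nat_lit 0) (XT.lf (nat_lit 0) (nat_lit 10896726539) (nat_lit 76) (nat_lit 819030472) (nat_lit 152) (nat_lit 8623525726) (nat_lit 14) (nat_lit 5) (nat_lit 15) (nat_lit 5) (nat_lit 16) (nat_lit 4) (nat_lit 334) (nat_lit 297) (nat_lit 269)) (XT.nd (nat_lit 78) (nat_lit 152) (nat_lit 0) (XT.lf (nat_lit 0) (nat_lit 16967489283) (nat_lit 152) (nat_lit 187622286) (nat_lit 0) (nat_lit 4372222710) (nat_lit 14) (nat_lit 5) (nat_lit 16) (nat_lit 4) (nat_lit 14) (nat_lit 4) (nat_lit 335) (nat_lit 297) (nat_lit 268)) (XT.lf (nat_lit 0) (nat_lit 34162031) (nat_lit 152) (nat_lit 12636383632) (nat_lit 76) (nat_lit 10124524942) (nat_lit 12) (nat_lit 5) (nat_lit 14) (nat_lit 5) (nat_lit 13) (nat_lit 4) (nat_lit 336)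 (nat_lit 297) (nat_lit 267))))))))
noncomputable def xc86 : XT := (XT.nd (nat_lit 1248) (nat_lit 228) (nat_lit 0) (XT.nd (nat_lit 624) (nat_lit 228) (nat_lit 0) (XT.nd (nat_lit 312) (nat_lit 152) (nat_lit 0) (XT.nd (nat_lit 156) (nat_lit 76) (nat_lit 0) (XT.nd (nat_lit 78) (nat_lit 76) (nat_lit 0) (XT.lf (nat_lit 0) (nat_lit 4681135226) (nat_lit 152) (nat_lit 3074544282) (nat_lit 76) (nat_lit 16404569765) (nat_lit 12) (nat_lit 5) (nat_lit 14) (nat_lit 5) (nat_lit 13) (nat_lit 4) (nat_lit 337) (nat_lit 297) (nat_lit 266)) (XT.lf (nat_lit 0) (nat_lit 7502034275) (nat_lit 76) (nat_lit 2310230641) (nat_lit 152) (nat_lit 15813424401) (nat_lit 11) (nat_lit 5) (nat_lit 12) (nat_lit 5) (nat_lit 13) (nat_lit 4) (nat_lit 338) (nat_lit 297) (nat_lit 265))) (XT.nd (nat_lit 78) (nat_lit 76) (nat_lit 0) (XT.lf (nat_lit 0) (nat_lit 15458726834) (nat_lit 152) (nat_lit 8316378300) (nat_lit 0) (nat_lit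 3424908170) (nat_lit 11) (nat_lit 5) (nat_lit 13) (nat_lit 4) (nat_lit 11) (nat_lit 4) (nat_lit 339) (nat_lit 297) (nat_lit 264)) (XT.lf (nat_lit 0) (nat_lit 2209066804) (nat_lit 76) (nat_lit 19398672786) (nat_lit 76) (nat_lit 7288510323) (nat_lit 10) (nat_lit 4) (nat_lit 11) (nat_lit 5) (nat_lit 11) (nat_lit 4) (nat_lit 340) (nat_lit 297) (nat_lit 263)))) (XT.nd (nat_lit 156) (nat_lit 76) (nat_lit 0) (XT.nd (nat_lit 78) (nat_lit 76) (nat_lit 0) (XT.lf (nat_lit 0) (nat_lit 13935552920) (nat_lit 76) (nat_lit 14480078976) (nat_lit 76) (nat_lit 2299227811) (nat_lit 10) (nat_lit 4) (nat_lit 11) (nat_lit 5) (nat_lit 11) (nat_lit 4) (nat_lit 341) (nat_lit 297) (nat_lit 262)) (XT.lf (nat_lit 0) (nat_lit 2877232688) (nat_lit 152) (nat_lit 6261659674) (nat_lit 76) (nat_lit 23538743263) (nat_lit 9) (nat_lit 5) (nat_lit 11) (nat_lit 5) (nat_lit 10) (nat_lit 4) (nat_lit 342) (nat_lit 297) (nat_lit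 261))) (XT.nd (nat_lit 78) (nat_lit 0) (nat_lit 0) (XT.lf (nat_lit 0) (nat_lit 5197138665) (nat_lit 76) (nat_lit 3218268305) (nat_lit 152) (nat_lit 26371528393) (nat_lit 8) (nat_lit 5) (nat_lit 9) (nat_lit 5) (nat_lit 10) (nat_lit 4) (nat_lit 343) (nat_lit 297) (nat_lit 260)) (XT.lf (nat_lit 0) (nat_lit 14595960718) (nat_lit 152) (nat_lit 19304377683) (nat_lit 0) (nat_lit 3148717379) (nat_lit 8) (nat_lit 5) (nat_lit 10) (nat_lit 4) (nat_lit 8) (nat_lit 4) (nat_lit 344) (nat_lit 297) (nat_lit 259))))) (XT.nd (nat_lit 312) (nat_lit 152) (nat_lit 0) (XT.nd (nat_lit 156) (nat_lit 0) (nat_lit 0) (XT.nd (nat_lit 78) (nat_lit 76) (nat_lit 0) (XT.lf (nat_lit 0) (nat_lit 21305745294) (nat_lit 152) (nat_lit 8373246258) (nat_lit 0) (nat_lit 9810392413) (nat_lit 8) (nat_lit 5) (nat_lit 10) (nat_lit 4) (nat_lit 8) (nat_lit 4) (nat_lit 345) (nat_lit 297) (nat_lit 258)) (XT.lf (nat_lit 0) (nat_lit 3521956614)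 (nat_lit 76) (nat_lit 25069869482) (nat_lit 76) (nat_lit 13529970728) (nat_lit 7) (nat_lit 4) (nat_lit 8) (nat_lit 5) (nat_lit 8) (nat_lit 4) (nat_lit 346) (nat_lit 297) (nat_lit 257))) (XT.nd (nat_lit 78) (nat_lit 0) (nat_lit 0) (XT.lf (nat_lit 0) (nat_lit 16760560497) (nat_lit 76) (nat_lit 19885299918) (nat_lit 76) (nat_lit 8304154985) (nat_lit 7) (nat_lit 4) (nat_lit 8) (nat_lit 5) (nat_lit 8) (nat_lit 4) (nat_lit 347) (nat_lit 297) (nat_lit 256)) (XT.lf (nat_lit 0) (nat_lit 30980096066) (nat_lit 76) (nat_lit 14323498877) (nat_lit 76) (nat_lit 2704163038) (nat_lit 7) (nat_lit 4) (nat_lit 8) (nat_lit 5) (nat_lit 8) (nat_lit 4) (nat_lit 348) (nat_lit 297) (nat_lit 255)))) (XT.nd (nat_lit 156) (nat_lit 0) (nat_lit 0) (XT.nd (nat_lit 78) (nat_lit 76) (nat_lit 0) (XT.lf (nat_lit 0) (nat_lit 3137951296) (nat_lit 152) (nat_lit 5127759091) (nat_lit 76) (nat_lit 43041078791) (nat_lit 6) (nat_lit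 5) (nat_lit 8) (nat_lit 5) (nat_lit 7) (nat_lit 4) (nat_lit 349) (nat_lit 297) (nat_lit 254)) (XT.lf (nat_lit 0) (nat_lit 7984408117) (nat_lit 76) (nat_lit 1473211330) (nat_lit 152) (nat_lit 45394015275) (nat_lit 5) (nat_lit 5) (nat_lit 6) (nat_lit 5) (nat_lit 7) (nat_lit 4) (nat_lit 350) (nat_lit 297) (nat_lit 253))) (XT.nd (nat_lit 78) (nat_lit 0) (nat_lit 0) (XT.lf (nat_lit 0) (nat_lit 16532209327) (nat_lit 152) (nat_lit 36445489152) (nat_lit 0) (nat_lit 5682433856) (nat_lit 5) (nat_lit 5) (nat_lit 7) (nat_lit 4) (nat_lit 5) (nat_lit 4) (nat_lit 351) (nat_lit 297) (nat_lit 252)) (XT.lf (nat_lit 0) (nat_lit 24178167610) (nat_lit 152) (nat_lit 25292321374) (nat_lit 0) (nat_lit 13302400051) (nat_lit 5) (nat_lit 5) (nat_lit 7) (nat_lit 4) (nat_lit 5) (nat_lit 4) (nat_lit 352) (nat_lit 297) (nat_lit 251)))))) (XT.nd (nat_lit 624) (nat_lit 76) (nat_lit 0) (XT.nd (nat_lit 312) (nat_lit 76)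 (nat_lit 0) (XT.nd (nat_lit 156) (nat_lit 76) (nat_lit 0) (XT.nd (nat_lit 78) (nat_lit 0) (nat_lit 0) (XT.lf (nat_lit 0) (nat_lit 32405372914) (nat_lit 152) (nat_lit 13306199658) (nat_lit 0) (nat_lit 21505538606) (nat_lit 5) (nat_lit 5) (nat_lit 7) (nat_lit 4) (nat_lit 5) (nat_lit 4) (nat_lit 353) (nat_lit 297) (nat_lit 250)) (XT.lf (nat_lit 0) (nat_lit 41262579046) (nat_lit 152) (nat_lit 416095134) (nat_lit 0) (nat_lit 30340460712) (nat_lit 5) (nat_lit 5) (nat_lit 7) (nat_lit 4) (nat_lit 5) (nat_lit 4) (nat_lit 354) (nat_lit 297) (nat_lit 249))) (XT.nd (nat_lit 78) (nat_lit 0) (nat_lit 0) (XT.lf (nat_lit 0) (nat_lit 14162861704) (nat_lit 76) (nat_lit 36980028616) (nat_lit 76) (nat_lit 26037276923) (nat_lit 4) (nat_lit 4) (nat_lit 5) (nat_lit 5) (nat_lit 5) (nat_lit 4) (nat_lit 355) (nat_lit 297) (nat_lit 248)) (XT.lf (nat_lit 0) (nat_lit 29882246121) (nat_lit 76) (nat_lit 31917409378)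 (nat_lit 76) (nat_lit 20955552723) (nat_lit 4) (nat_lit 4) (nat_lit 5) (nat_lit 5) (nat_lit 5) (nat_lit 4) (nat_lit 356) (nat_lit 297) (nat_lit 247)))) (XT.nd (nat_lit 156) (nat_lit 76) (nat_lit 0) (XT.nd (nat_lit 78) (nat_lit 0) (nat_lit 0) (XT.lf (nat_lit 0) (nat_lit 46813299192) (nat_lit 76) (nat_lit 26472192538) (nat_lit 76) (nat_lit 15492646105) (nat_lit 4) (nat_lit 4) (nat_lit 5) (nat_lit 5) (nat_lit 5) (nat_lit 4) (nat_lit 357) (nat_lit 297) (nat_lit 246)) (XT.lf (nat_lit 0) (nat_lit 65056353084) (nat_lit 76) (nat_lit 20612110146) (nat_lit 76) (nat_lit 9616184287) (nat_lit 4) (nat_lit 4) (nat_lit 5) (nat_lit 5) (nat_lit 5) (nat_lit 4) (nat_lit 358) (nat_lit 297) (nat_lit 245))) (XT.nd (nat_lit 78) (nat_lit 76) (nat_lit 0) (XT.lf (nat_lit 0) (nat_lit 84719514782) (nat_lit 76) (nat_lit 14302435786) (nat_lit 76) (nat_lit 3291343794) (nat_lit 4) (nat_lit 4) (nat_lit 5) (nat_lit 5)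 (nat_lit 5) (nat_lit 4) (nat_lit 359) (nat_lit 297) (nat_lit 244)) (XT.lf (nat_lit 0) (nat_lit 3343303476) (nat_lit 152) (nat_lit 4071063479) (nat_lit 76) (nat_lit 102484591408) (nat_lit 3) (nat_lit 5) (nat_lit 5) (nat_lit 5) (nat_lit 4) (nat_lit 4) (nat_lit 360) (nat_lit 297) (nat_lit 243))))) (XT.nd (nat_lit 312) (nat_lit 0) (nat_lit 0) (XT.nd (nat_lit 156) (nat_lit 0) (nat_lit 0) (XT.nd (nat_lit 78) (nat_lit 0) (nat_lit 0) (XT.lf (nat_lit 0) (nat_lit 10586083361) (nat_lit 152) (nat_lit 107112557995) (nat_lit 0) (nat_lit 365585930) (nat_lit 2) (nat_lit 5) (nat_lit 4) (nat_lit 4) (nat_lit 2) (nat_lit 4) (nat_lit 361) (nat_lit 297) (nat_lit 242)) (XT.lf (nat_lit 0) (nat_lit 18697463313) (nat_lit 152) (nat_lit 99696306754) (nat_lit 0) (nat_lit 8465818320) (nat_lit 2) (nat_lit 5) (nat_lit 4) (nat_lit 4) (nat_lit 2) (nat_lit 4) (nat_lit 362) (nat_lit 297) (nat_lit 241))) (XT.nd (nat_lit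 78) (nat_lit 0) (nat_lit 0) (XT.lf (nat_lit 0) (nat_lit 27441453157) (nat_lit 152) (nat_lit 91718947431) (nat_lit 0) (nat_lit 17199486348) (nat_lit 2) (nat_lit 5) (nat_lit 4) (nat_lit 4) (nat_lit 2) (nat_lit 4) (nat_lit 363) (nat_lit 297) (nat_lit 240)) (XT.lf (nat_lit 0) (nat_lit 36869869128) (nat_lit 152) (nat_lit 83133206786) (nat_lit 0) (nat_lit 26618345082) (nat_lit 2) (nat_lit 5) (nat_lit 4) (nat_lit 4) (nat_lit 2) (nat_lit 4) (nat_lit 364) (nat_lit 297) (nat_lit 239)))) (XT.nd (nat_lit 156) (nat_lit 0) (nat_lit 0) (XT.nd (nat_lit 78) (nat_lit 0) (nat_lit 0) (XT.lf (nat_lit 0) (nat_lit 47038583322) (nat_lit 152) (nat_lit 73888206354) (nat_lit 0) (nat_lit 36778209982) (nat_lit 2) (nat_lit 5) (nat_lit 4) (nat_lit 4) (nat_lit 2) (nat_lit 4) (nat_lit 365) (nat_lit 297) (nat_lit 238)) (XT.lf (nat_lit 0) (nat_lit 58007854785) (nat_lit 152) (nat_lit 63929160948) (nat_lit 0) (nat_lit 47739287655)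 (nat_lit 2) (nat_lit 5) (nat_lit 4) (nat_lit 4) (nat_lit 2) (nat_lit 4) (nat_lit 366) (nat_lit 297) (nat_lit 237))) (XT.nd (nat_lit 78) (nat_lit 0) (nat_lit 0) (XT.lf (nat_lit 0) (nat_lit 69842686608) (nat_lit 152) (nat_lit 53197054004) (nat_lit 0) (nat_lit 59566532635) (nat_lit 2) (nat_lit 5) (nat_lit 4) (nat_lit 4) (nat_lit 2) (nat_lit 4) (nat_lit 367) (nat_lit 297) (nat_lit 236)) (XT.nd (nat_lit 78) (nat_lit 0) (nat_lit 0) (XT.lf (nat_lit 0) (nat_lit 82613211127) (nat_lit 152) (nat_lit 41628287850) (nat_lit 0) (nat_lit 72330032300) (nat_lit 2) (nat_lit 5) (nat_lit 4) (nat_lit 4) (nat_lit 2) (nat_lit 4) (nat_lit 368) (nat_lit 297) (nat_lit 235)) (XT.lf (nat_lit 0) (nat_lit 96395105525) (nat_lit 152) (nat_lit 29154306835) (nat_lit 0) (nat_lit 86105422202) (nat_lit 2) (nat_lit 5) (nat_lit 4) (nat_lit 4) (nat_lit 2) (nat_lit 4) (nat_lit 369) (nat_lit 297) (nat_lit 234))))))))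
noncomputable def xc87 : XT := (XT.nd (nat_lit 1248) (nat_lit 0) (nat_lit 0) (XT.nd (nat_lit 624) (nat_lit 0) (nat_lit 0) (XT.nd (nat_lit 312) (nat_lit 0) (nat_lit 0) (XT.nd (nat_lit 156) (nat_lit 76) (nat_lit 0) (XT.nd (nat_lit 78) (nat_lit 0) (nat_lit 0) (XT.lf (nat_lit 0) (nat_lit 111270040287) (nat_lit 152) (nat_lit 15701191072) (nat_lit 0) (nat_lit 100974334284) (nat_lit 2) (nat_lit 5) (nat_lit 4) (nat_lit 4) (nat_lit 2) (nat_lit 4) (nat_lit 370) (nat_lit 297) (nat_lit 233)) (XT.lf (nat_lit 0) (nat_lit 127326163174) (nat_lit 152) (nat_lit 1189218392) (nat_lit 0) (nat_lit 117024880615) (nat_lit 2) (nat_lit 5) (nat_lit 4) (nat_lit 4) (nat_lit 2) (nat_lit 4) (nat_lit 371) (nat_lit 297) (nat_lit 232))) (XT.nd (nat_lit 78) (nat_lit 0) (nat_lit 0) (XT.lf (nat_lit 0) (nat_lit 15229446680) (nat_lit 76) (nat_lit 129795443460) (nat_lit 76) (nat_lit 119488997423) (nat_lit 1) (nat_lit 4) (nat_lit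 2) (nat_lit 5) (nat_lit 2) (nat_lit 4) (nat_lit 372) (nat_lit 297) (nat_lit 231)) (XT.lf (nat_lit 0) (nat_lit 33013540537) (nat_lit 76) (nat_lit 131150562281) (nat_lit 76) (nat_lit 120839335246) (nat_lit 1) (nat_lit 4) (nat_lit 2) (nat_lit 5) (nat_lit 2) (nat_lit 4) (nat_lit 373) (nat_lit 297) (nat_lit 230)))) (XT.nd (nat_lit 156) (nat_lit 0) (nat_lit 0) (XT.nd (nat_lit 78) (nat_lit 0) (nat_lit 0) (XT.lf (nat_lit 0) (nat_lit 52205828266) (nat_lit 76) (nat_lit 132621283702) (nat_lit 76) (nat_lit 122305629817) (nat_lit 1) (nat_lit 4) (nat_lit 2) (nat_lit 5) (nat_lit 2) (nat_lit 4) (nat_lit 374) (nat_lit 297) (nat_lit 229)) (XT.lf (nat_lit 0) (nat_lit 72920041944) (nat_lit 76) (nat_lit 134216323110) (nat_lit 76) (nat_lit 123896570290) (nat_lit 1) (nat_lit 4) (nat_lit 2) (nat_lit 5) (nat_lit 2) (nat_lit 4) (nat_lit 375) (nat_lit 297) (nat_lit 228))) (XT.nd (nat_lit 78) (nat_lit 0) (nat_lit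 0) (XT.lf (nat_lit 0) (nat_lit 95278932466) (nat_lit 76) (nat_lit 135945132589) (nat_lit 76) (nat_lit 125621584458) (nat_lit 1) (nat_lit 4) (nat_lit 2) (nat_lit 5) (nat_lit 2) (nat_lit 4) (nat_lit 376) (nat_lit 297) (nat_lit 227)) (XT.lf (nat_lit 0) (nat_lit 119414996962) (nat_lit 76) (nat_lit 137817956937) (nat_lit 76) (nat_lit 127490894629) (nat_lit 1) (nat_lit 4) (nat_lit 2) (nat_lit 5) (nat_lit 2) (nat_lit 4) (nat_lit 377) (nat_lit 297) (nat_lit 226))))) (XT.nd (nat_lit 312) (nat_lit 0) (nat_lit 0) (XT.nd (nat_lit 156) (nat_lit 0) (nat_lit 0) (XT.nd (nat_lit 78) (nat_lit 0) (nat_lit 0) (XT.lf (nat_lit 0) (nat_lit 145471263961) (nat_lit 76) (nat_lit 139845894371) (nat_lit 76) (nat_lit 129515578197) (nat_lit 1) (nat_lit 4) (nat_lit 2) (nat_lit 5) (nat_lit 2) (nat_lit 4) (nat_lit 378) (nat_lit 297) (nat_lit 225)) (XT.lf (nat_lit 0) (nat_lit 173602140972) (nat_lit 76) (nat_lit 142040962299)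 (nat_lit 76) (nat_lit 131707633285) (nat_lit 1) (nat_lit 4) (nat_lit 2) (nat_lit 5) (nat_lit 2) (nat_lit 4) (nat_lit 379) (nat_lit 297) (nat_lit 224))) (XT.nd (nat_lit 78) (nat_lit 0) (nat_lit 0) (XT.lf (nat_lit 0) (nat_lit 203974329487) (nat_lit 76) (nat_lit 144416168531) (nat_lit 76) (nat_lit 134080049851) (nat_lit 1) (nat_lit 4) (nat_lit 2) (nat_lit 5) (nat_lit 2) (nat_lit 4) (nat_lit 380) (nat_lit 297) (nat_lit 223)) (XT.lf (nat_lit 0) (nat_lit 236767812848) (nat_lit 76) (nat_lit 146985588363) (nat_lit 76) (nat_lit 136646886659) (nat_lit 1) (nat_lit 4) (nat_lit 2) (nat_lit 5) (nat_lit 2) (nat_lit 4) (nat_lit 381) (nat_lit 297) (nat_lit 222)))) (XT.nd (nat_lit 156) (nat_lit 0) (nat_lit 0) (XT.nd (nat_lit 78) (nat_lit 0) (nat_lit 0) (XT.lf (nat_lit 0) (nat_lit 272176922806) (nat_lit 76) (nat_lit 149764447987) (nat_lit 76) (nat_lit 139423354593) (nat_lit 1) (nat_lit 4) (nat_lit 2) (nat_lit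 5) (nat_lit 2) (nat_lit 4) (nat_lit 382) (nat_lit 297) (nat_lit 221)) (XT.lf (nat_lit 0) (nat_lit 310411491125) (nat_lit 76) (nat_lit 152769214718) (nat_lit 76) (nat_lit 142425906797) (nat_lit 1) (nat_lit 4) (nat_lit 2) (nat_lit 5) (nat_lit 2) (nat_lit 4) (nat_lit 383) (nat_lit 297) (nat_lit 220))) (XT.nd (nat_lit 78) (nat_lit 0) (nat_lit 0) (XT.lf (nat_lit 0) (nat_lit 351698093023) (nat_lit 76) (nat_lit 156017694583) (nat_lit 76) (nat_lit 145672336173) (nat_lit 1) (nat_lit 4) (nat_lit 2) (nat_lit 5) (nat_lit 2) (nat_lit 4) (nat_lit 384) (nat_lit 297) (nat_lit 219)) (XT.lf (nat_lit 0) (nat_lit 396281389847) (nat_lit 76) (nat_lit 159529137831) (nat_lit 76) (nat_lit 149181880822) (nat_lit 1) (nat_lit 4) (nat_lit 2) (nat_lit 5) (nat_lit 2) (nat_lit 4) (nat_lit 385) (nat_lit 297) (nat_lit 218)))))) (XT.nd (nat_lit 624) (nat_lit 0) (nat_lit 0) (XT.nd (nat_lit 312) (nat_lit 0) (nat_lit 0) (XT.nd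 (nat_lit 156) (nat_lit 0) (nat_lit 0) (XT.nd (nat_lit 78) (nat_lit 0) (nat_lit 0) (XT.lf (nat_lit 0) (nat_lit 444425578910) (nat_lit 76) (nat_lit 163324353016) (nat_lit 76) (nat_lit 152975338044) (nat_lit 1) (nat_lit 4) (nat_lit 2) (nat_lit 5) (nat_lit 2) (nat_lit 4) (nat_lit 386) (nat_lit 297) (nat_lit 217)) (XT.lf (nat_lit 0) (nat_lit 496415959110) (nat_lit 76) (nat_lit 167425830302) (nat_lit 76) (nat_lit 157075187586) (nat_lit 1) (nat_lit 4) (nat_lit 2) (nat_lit 5) (nat_lit 2) (nat_lit 4) (nat_lit 387) (nat_lit 297) (nat_lit 216))) (XT.nd (nat_lit 78) (nat_lit 0) (nat_lit 0) (XT.lf (nat_lit 0) (nat_lit 552560621589) (nat_lit 76) (nat_lit 171857874739) (nat_lit 76) (nat_lit 161505724853) (nat_lit 1) (nat_lit 4) (nat_lit 2) (nat_lit 5) (nat_lit 2) (nat_lit 4) (nat_lit 388) (nat_lit 297) (nat_lit 215)) (XT.lf (nat_lit 0) (nat_lit 613192275459) (nat_lit 76) (nat_lit 176646750294) (nat_lit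 76) (nat_lit 166293204880) (nat_lit 1) (nat_lit 4) (nat_lit 2) (nat_lit 5) (nat_lit 2) (nat_lit 4) (nat_lit 389) (nat_lit 297) (nat_lit 214)))) (XT.nd (nat_lit 156) (nat_lit 0) (nat_lit 0) (XT.nd (nat_lit 78) (nat_lit 0) (nat_lit 0) (XT.lf (nat_lit 0) (nat_lit 678670219408) (nat_lit 76) (nat_lit 181820835489) (nat_lit 76) (nat_lit 171465997920) (nat_lit 1) (nat_lit 4) (nat_lit 2) (nat_lit 5) (nat_lit 2) (nat_lit 4) (nat_lit 390) (nat_lit 297) (nat_lit 213)) (XT.lf (nat_lit 0) (nat_lit 749382470883) (nat_lit 76) (nat_lit 187410791570) (nat_lit 76) (nat_lit 177054757561) (nat_lit 1) (nat_lit 4) (nat_lit 2) (nat_lit 5) (nat_lit 2) (nat_lit 4) (nat_lit 391) (nat_lit 297) (nat_lit 212))) (XT.nd (nat_lit 78) (nat_lit 0) (nat_lit 0) (XT.lf (nat_lit 0) (nat_lit 825748065448) (nat_lit 76) (nat_lit 193449744202) (nat_lit 76) (nat_lit 183092602378) (nat_lit 1) (nat_lit 4) (nat_lit 2) (nat_lit 5)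 (nat_lit 2) (nat_lit 4) (nat_lit 392) (nat_lit 297) (nat_lit 211)) (XT.lf (nat_lit 0) (nat_lit 908219539960) (nat_lit 76) (nat_lit 199973479771) (nat_lit 76) (nat_lit 189615312193) (nat_lit 1) (nat_lit 4) (nat_lit 2) (nat_lit 5) (nat_lit 2) (nat_lit 4) (nat_lit 393) (nat_lit 297) (nat_lit 210))))) (XT.nd (nat_lit 312) (nat_lit 0) (nat_lit 0) (XT.nd (nat_lit 156) (nat_lit 0) (nat_lit 0) (XT.nd (nat_lit 78) (nat_lit 0) (nat_lit 0) (XT.lf (nat_lit 0) (nat_lit 997285614267) (nat_lit 76) (nat_lit 207020657452) (nat_lit 76) (nat_lit 196661540101) (nat_lit 1) (nat_lit 4) (nat_lit 2) (nat_lit 5) (nat_lit 2) (nat_lit 4) (nat_lit 394) (nat_lit 297) (nat_lit 209)) (XT.lf (nat_lit 0) (nat_lit 1093474087328) (nat_lit 76) (nat_lit 214633038297) (nat_lit 76) (nat_lit 204273041526) (nat_lit 1) (nat_lit 4) (nat_lit 2) (nat_lit 5) (nat_lit 2) (nat_lit 4) (nat_lit 395) (nat_lit 297) (nat_lit 208))) (XT.nd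 (nat_lit 78) (nat_lit 0) (nat_lit 0) (XT.lf (nat_lit 0) (nat_lit 1197354964909) (nat_lit 76) (nat_lit 222855732710) (nat_lit 76) (nat_lit 212494921663) (nat_lit 1) (nat_lit 4) (nat_lit 2) (nat_lit 5) (nat_lit 2) (nat_lit 4) (nat_lit 396) (nat_lit 297) (nat_lit 207)) (XT.lf (nat_lit 0) (nat_lit 1309543837397) (nat_lit 76) (nat_lit 231737467770) (nat_lit 76) (nat_lit 221375902763) (nat_lit 1) (nat_lit 4) (nat_lit 2) (nat_lit 5) (nat_lit 2) (nat_lit 4) (nat_lit 397) (nat_lit 297) (nat_lit 206)))) (XT.nd (nat_lit 156) (nat_lit 0) (nat_lit 0) (XT.nd (nat_lit 78) (nat_lit 0) (nat_lit 0) (XT.lf (nat_lit 0) (nat_lit 1430705527740) (nat_lit 76) (nat_lit 241330875982) (nat_lit 76) (nat_lit 230968612863) (nat_lit 1) (nat_lit 4) (nat_lit 2) (nat_lit 5) (nat_lit 2) (nat_lit 4) (nat_lit 398) (nat_lit 297) (nat_lit 205)) (XT.lf (nat_lit 0) (nat_lit 1561558031139) (nat_lit 76) (nat_lit 251692807171)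 (nat_lit 76) (nat_lit 241329897653) (nat_lit 1) (nat_lit 4) (nat_lit 2) (nat_lit 5) (nat_lit 2) (nat_lit 4) (nat_lit 399) (nat_lit 297) (nat_lit 204))) (XT.nd (nat_lit 78) (nat_lit 0) (nat_lit 0) (XT.lf (nat_lit 0) (nat_lit 1702876769836) (nat_lit 76) (nat_lit 262884665374) (nat_lit 76) (nat_lit 252521157338) (nat_lit 1) (nat_lit 4) (nat_lit 2) (nat_lit 5) (nat_lit 2) (nat_lit 4) (nat_lit 400) (nat_lit 297) (nat_lit 203)) (XT.nd (nat_lit 78) (nat_lit 0) (nat_lit 0) (XT.lf (nat_lit 0) (nat_lit 1855499188210) (nat_lit 76) (nat_lit 274972772714) (nat_lit 76) (nat_lit 264608710494) (nat_lit 1) (nat_lit 4) (nat_lit 2) (nat_lit 5) (nat_lit 2) (nat_lit 4) (nat_lit 401) (nat_lit 297) (nat_lit 202)) (XT.lf (nat_lit 0) (nat_lit 2020329715405) (nat_lit 76) (nat_lit 288028762420) (nat_lit 76) (nat_lit 277664187067) (nat_lit 1) (nat_lit 4) (nat_lit 2) (nat_lit 5) (nat_lit 2) (nat_lit 4) (nat_lit 402)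 (nat_lit 297) (nat_lit 201))))))))
noncomputable def xc88 : XT := (XT.nd (nat_lit 39780) (nat_lit 0) (nat_lit 1520) (XT.nd (nat_lit 39156) (nat_lit 0) (nat_lit 3724) (XT.nd (nat_lit 312) (nat_lit 0) (nat_lit 0) (XT.nd (nat_lit 156) (nat_lit 0) (nat_lit 0) (XT.nd (nat_lit 78) (nat_lit 0) (nat_lit 0) (XT.lf (nat_lit 0) (nat_lit 2198345124918) (nat_lit 76) (nat_lit 302130003318) (nat_lit 76) (nat_lit 291764952843) (nat_lit 1) (nat_lit 4) (nat_lit 2) (nat_lit 5) (nat_lit 2) (nat_lit 4) (nat_lit 403) (nat_lit 297) (nat_lit 200)) (XT.lf (nat_lit 0) (nat_lit 2390600322877) (nat_lit 76) (nat_lit 317360058320) (nat_lit 76) (nat_lit 306994567916) (nat_lit 1) (nat_lit 4) (nat_lit 2) (nat_lit 5) (nat_lit 2) (nat_lit 4) (nat_lit 404) (nat_lit 297) (nat_lit 199))) (XT.nd (nat_lit 78) (nat_lit 0) (nat_lit 0) (XT.lf (nat_lit 0) (nat_lit 2598234599346) (nat_lit 76) (nat_lit 333809179601) (nat_lit 76)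 (nat_lit 323443281856) (nat_lit 1) (nat_lit 4) (nat_lit 2) (nat_lit 5) (nat_lit 2) (nat_lit 4) (nat_lit 405) (nat_lit 297) (nat_lit 198)) (XT.lf (nat_lit 0) (nat_lit 2822478379665) (nat_lit 76) (nat_lit 351574843437) (nat_lit 76) (nat_lit 341208568525) (nat_lit 1) (nat_lit 4) (nat_lit 2) (nat_lit 5) (nat_lit 2) (nat_lit 4) (nat_lit 406) (nat_lit 297) (nat_lit 197)))) (XT.nd (nat_lit 156) (nat_lit 0) (nat_lit 0) (XT.nd (nat_lit 78) (nat_lit 0) (nat_lit 0) (XT.lf (nat_lit 0) (nat_lit 3064660515868) (nat_lit 76) (nat_lit 370762327836) (nat_lit 76) (nat_lit 360395703694) (nat_lit 1) (nat_lit 4) (nat_lit 2) (nat_lit 5) (nat_lit 2) (nat_lit 4) (nat_lit 407) (nat_lit 297) (nat_lit 196)) (XT.lf (nat_lit 0) (nat_lit 3326216161352) (nat_lit 76) (nat_lit 391485336408) (nat_lit 76) (nat_lit 381118388905) (nat_lit 1) (nat_lit 4) (nat_lit 2) (nat_lit 5) (nat_lit 2) (nat_lit 4) (nat_lit 408) (nat_lit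 297) (nat_lit 195))) (XT.nd (nat_lit 78) (nat_lit 0) (nat_lit 0) (XT.lf (nat_lit 0) (nat_lit 3608695275499) (nat_lit 76) (nat_lit 413866672167) (nat_lit 76) (nat_lit 403499425257) (nat_lit 1) (nat_lit 4) (nat_lit 2) (nat_lit 5) (nat_lit 2) (nat_lit 4) (nat_lit 409) (nat_lit 297) (nat_lit 194)) (XT.lf (nat_lit 0) (nat_lit 3913771808616) (nat_lit 76) (nat_lit 438038965252) (nat_lit 76) (nat_lit 427671441112) (nat_lit 1) (nat_lit 4) (nat_lit 2) (nat_lit 5) (nat_lit 2) (nat_lit 4) (nat_lit 410) (nat_lit 297) (nat_lit 193))))) (XT.nd (nat_lit 312) (nat_lit 1216) (nat_lit 0) (XT.nd (nat_lit 156) (nat_lit 304) (nat_lit 0) (XT.nd (nat_lit 78) (nat_lit 0) (nat_lit 0) (XT.lf (nat_lit 0) (nat_lit 196654688) (nat_lit 228) (nat_lit 2886667243) (nat_lit 0) (nat_lit 196654688) (nat_lit 70) (nat_lit 5) (nat_lit 73) (nat_lit 4) (nat_lit 70) (nat_lit 4) (nat_lit 304) (nat_lit 298) (nat_lit 298)) (XT.lf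 (nat_lit 0) (nat_lit 3473782125) (nat_lit 228) (nat_lit 1935970789) (nat_lit 0) (nat_lit 1217366994) (nat_lit 70) (nat_lit 5) (nat_lit 73) (nat_lit 4) (nat_lit 70) (nat_lit 4) (nat_lit 305) (nat_lit 298) (nat_lit 297))) (XT.nd (nat_lit 78) (nat_lit 76) (nat_lit 0) (XT.lf (nat_lit 0) (nat_lit 2104013018) (nat_lit 228) (nat_lit 4479800047) (nat_lit 228) (nat_lit 134111647) (nat_lit 67) (nat_lit 4) (nat_lit 70) (nat_lit 5) (nat_lit 70) (nat_lit 4) (nat_lit 306) (nat_lit 298) (nat_lit 296)) (XT.lf (nat_lit 0) (nat_lit 2764606094) (nat_lit 304) (nat_lit 529820011) (nat_lit 76) (nat_lit 3532787184) (nat_lit 66) (nat_lit 5) (nat_lit 70) (nat_lit 5) (nat_lit 67) (nat_lit 4) (nat_lit 307) (nat_lit 298) (nat_lit 295)))) (XT.nd (nat_lit 156) (nat_lit 456) (nat_lit 0) (XT.nd (nat_lit 78) (nat_lit 456) (nat_lit 0) (XT.lf (nat_lit 0) (nat_lit 3868451872) (nat_lit 304) (nat_lit 1871869107) (nat_lit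 380) (nat_lit 1217183585) (nat_lit 62) (nat_lit 5) (nat_lit 66) (nat_lit 5) (nat_lit 67) (nat_lit 4) (nat_lit 308) (nat_lit 298) (nat_lit 294)) (XT.lf (nat_lit 0) (nat_lit 1364500746) (nat_lit 380) (nat_lit 212052268) (nat_lit 456) (nat_lit 5533636378) (nat_lit 56) (nat_lit 5) (nat_lit 61) (nat_lit 5) (nat_lit 62) (nat_lit 5) (nat_lit 309) (nat_lit 298) (nat_lit 293))) (XT.nd (nat_lit 78) (nat_lit 456) (nat_lit 0) (XT.lf (nat_lit 0) (nat_lit 4431348013) (nat_lit 456) (nat_lit 1213931753) (nat_lit 76) (nat_lit 1635590754) (nat_lit 56) (nat_lit 5) (nat_lit 62) (nat_lit 5) (nat_lit 57) (nat_lit 4) (nat_lit 310) (nat_lit 298) (nat_lit 292)) (XT.lf (nat_lit 0) (nat_lit 3650241019) (nat_lit 456) (nat_lit 3752630710) (nat_lit 532) (nat_lit 71800365) (nat_lit 50) (nat_lit 5) (nat_lit 56) (nat_lit 5) (nat_lit 57) (nat_lit 4) (nat_lit 311) (nat_lit 298) (nat_lit 291)))))) (XT.nd (nat_lit 624) (nat_lit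 836) (nat_lit 0) (XT.nd (nat_lit 312) (nat_lit 456) (nat_lit 0) (XT.nd (nat_lit 156) (nat_lit 532) (nat_lit 0) (XT.nd (nat_lit 78) (nat_lit 0) (nat_lit 0) (XT.lf (nat_lit 0) (nat_lit 1060038212) (nat_lit 304) (nat_lit 1581019505) (nat_lit 380) (nat_lit 5048992128) (nat_lit 45) (nat_lit 5) (nat_lit 49) (nat_lit 5) (nat_lit 50) (nat_lit 5) (nat_lit 312) (nat_lit 298) (nat_lit 290)) (XT.lf (nat_lit 0) (nat_lit 5501997271) (nat_lit 380) (nat_lit 1607301604) (nat_lit 76) (nat_lit 818838755) (nat_lit 45) (nat_lit 5) (nat_lit 50) (nat_lit 5) (nat_lit 46) (nat_lit 4) (nat_lit 313) (nat_lit 298) (nat_lit 289))) (XT.nd (nat_lit 78) (nat_lit 228) (nat_lit 0) (XT.lf (nat_lit 0) (nat_lit 339494251) (nat_lit 304) (nat_lit 4440036076) (nat_lit 76) (nat_lit 3409059745) (nat_lit 41) (nat_lit 5) (nat_lit 45) (nat_lit 5) (nat_lit 42) (nat_lit 5) (nat_lit 314) (nat_lit 298) (nat_lit 288)) (XT.lf (nat_lit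 0) (nat_lit 929742269) (nat_lit 228) (nat_lit 2159934464) (nat_lit 304) (nat_lit 5383947145) (nat_lit 38) (nat_lit 5) (nat_lit 41) (nat_lit 5) (nat_lit 42) (nat_lit 5) (nat_lit 315) (nat_lit 298) (nat_lit 287)))) (XT.nd (nat_lit 156) (nat_lit 228) (nat_lit 0) (XT.nd (nat_lit 78) (nat_lit 228) (nat_lit 0) (XT.lf (nat_lit 0) (nat_lit 6034366954) (nat_lit 304) (nat_lit 2027152249) (nat_lit 76) (nat_lit 722293063) (nat_lit 38) (nat_lit 5) (nat_lit 42) (nat_lit 5) (nat_lit 39) (nat_lit 4) (nat_lit 316) (nat_lit 298) (nat_lit 286)) (XT.lf (nat_lit 0) (nat_lit 85874443) (nat_lit 228) (nat_lit 5255058239) (nat_lit 76) (nat_lit 3778377533) (nat_lit 35) (nat_lit 5) (nat_lit 38) (nat_lit 5) (nat_lit 36) (nat_lit 5) (nat_lit 317) (nat_lit 298) (nat_lit 285))) (XT.nd (nat_lit 78) (nat_lit 0) (nat_lit 0) (XT.lf (nat_lit 0) (nat_lit 618377037) (nat_lit 228) (nat_lit 2301586075) (nat_lit 304) (nat_lit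 6562580116) (nat_lit 32) (nat_lit 5) (nat_lit 35) (nat_lit 5) (nat_lit 36) (nat_lit 5) (nat_lit 318) (nat_lit 298) (nat_lit 284)) (XT.lf (nat_lit 0) (nat_lit 6005620267) (nat_lit 304) (nat_lit 2840177147) (nat_lit 76) (nat_lit 1027278991) (nat_lit 32) (nat_lit 5) (nat_lit 36) (nat_lit 5) (nat_lit 33) (nat_lit 4) (nat_lit 319) (nat_lit 298) (nat_lit 283))))) (XT.nd (nat_lit 312) (nat_lit 304) (nat_lit 0) (XT.nd (nat_lit 156) (nat_lit 304) (nat_lit 0) (XT.nd (nat_lit 78) (nat_lit 76) (nat_lit 0) (XT.lf (nat_lit 0) (nat_lit 3591089528) (nat_lit 152) (nat_lit 5757850586) (nat_lit 228) (nat_lit 945259198) (nat_lit 30) (nat_lit 5) (nat_lit 32) (nat_lit 5) (nat_lit 33) (nat_lit 4) (nat_lit 320) (nat_lit 298) (nat_lit 282)) (XT.lf (nat_lit 0) (nat_lit 2046366016) (nat_lit 228) (nat_lit 296388131) (nat_lit 76) (nat_lit 8406486836) (nat_lit 29) (nat_lit 5) (nat_lit 32) (nat_lit 5) (nat_lit 30)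 (nat_lit 5) (nat_lit 321) (nat_lit 298) (nat_lit 281))) (XT.nd (nat_lit 78) (nat_lit 152) (nat_lit 0) (XT.lf (nat_lit 0) (nat_lit 5300945017) (nat_lit 228) (nat_lit 4517613592) (nat_lit 76) (nat_lit 1414356020) (nat_lit 27) (nat_lit 5) (nat_lit 30) (nat_lit 5) (nat_lit 28) (nat_lit 4) (nat_lit 322) (nat_lit 298) (nat_lit 280)) (XT.lf (nat_lit 0) (nat_lit 2424544560) (nat_lit 152) (nat_lit 6398737061) (nat_lit 228) (nat_lit 2931564986) (nat_lit 25) (nat_lit 5) (nat_lit 27) (nat_lit 5) (nat_lit 28) (nat_lit 4) (nat_lit 323) (nat_lit 298) (nat_lit 279)))) (XT.nd (nat_lit 156) (nat_lit 76) (nat_lit 0) (XT.nd (nat_lit 78) (nat_lit 152) (nat_lit 0) (XT.lf (nat_lit 0) (nat_lit 301465705) (nat_lit 228) (nat_lit 2327797954) (nat_lit 76) (nat_lit 9688165157) (nat_lit 24) (nat_lit 5) (nat_lit 27) (nat_lit 5) (nat_lit 25) (nat_lit 5) (nat_lit 324) (nat_lit 298) (nat_lit 278)) (XT.lf (nat_lit 0) (nat_lit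 3689470449) (nat_lit 228) (nat_lit 7708487939) (nat_lit 76) (nat_lit 1516714305) (nat_lit 22) (nat_lit 5) (nat_lit 25) (nat_lit 5) (nat_lit 23) (nat_lit 4) (nat_lit 325) (nat_lit 298) (nat_lit 277))) (XT.nd (nat_lit 78) (nat_lit 76) (nat_lit 0) (XT.lf (nat_lit 0) (nat_lit 7374761207) (nat_lit 228) (nat_lit 325556594) (nat_lit 76) (nat_lit 5857393104) (nat_lit 22) (nat_lit 5) (nat_lit 25) (nat_lit 5) (nat_lit 23) (nat_lit 4) (nat_lit 326) (nat_lit 298) (nat_lit 276)) (XT.lf (nat_lit 0) (nat_lit 7878926059) (nat_lit 76) (nat_lit 3566042901) (nat_lit 152) (nat_lit 2800121710) (nat_lit 21) (nat_lit 5) (nat_lit 22) (nat_lit 5) (nat_lit 23) (nat_lit 4) (nat_lit 327) (nat_lit 298) (nat_lit 275)))))))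
noncomputable def xc89 : XT := (XT.nd (nat_lit 1248) (nat_lit 380) (nat_lit 0) (XT.nd (nat_lit 624) (nat_lit 380) (nat_lit 0) (XT.nd (nat_lit 312) (nat_lit 228) (nat_lit 0) (XT.nd (nat_lit 156) (nat_lit 76) (nat_lit 0) (XT.nd (nat_lit 78) (nat_lit 0) (nat_lit 0) (XT.lf (nat_lit 0) (nat_lit 783347592) (nat_lit 228) (nat_lit 13341734061) (nat_lit 76) (nat_lit 863012047) (nat_lit 18) (nat_lit 5) (nat_lit 21) (nat_lit 5) (nat_lit 19) (nat_lit 4) (nat_lit 328) (nat_lit 298) (nat_lit 274)) (XT.lf (nat_lit 0) (nat_lit 4676852878) (nat_lit 228) (nat_lit 5450869470) (nat_lit 76) (nat_lit 5643109311) (nat_lit 18) (nat_lit 5) (nat_lit 21) (nat_lit 5) (nat_lit 19) (nat_lit 4) (nat_lit 329) (nat_lit 298) (nat_lit 273))) (XT.nd (nat_lit 78) (nat_lit 0) (nat_lit 0) (XT.lf (nat_lit 0) (nat_lit 3070885465) (nat_lit 76) (nat_lit 5795391262) (nat_lit 152) (nat_lit 7751234788) (nat_lit 17) (nat_lit 5) (nat_lit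 18) (nat_lit 5) (nat_lit 19) (nat_lit 4) (nat_lit 330) (nat_lit 298) (nat_lit 272)) (XT.lf (nat_lit 0) (nat_lit 12434278277) (nat_lit 76) (nat_lit 1019209502) (nat_lit 152) (nat_lit 4073499454) (nat_lit 17) (nat_lit 5) (nat_lit 18) (nat_lit 5) (nat_lit 19) (nat_lit 4) (nat_lit 331) (nat_lit 298) (nat_lit 271)))) (XT.nd (nat_lit 156) (nat_lit 76) (nat_lit 0) (XT.nd (nat_lit 78) (nat_lit 0) (nat_lit 0) (XT.lf (nat_lit 0) (nat_lit 20609162) (nat_lit 152) (nat_lit 14506944831) (nat_lit 76) (nat_lit 3972558258) (nat_lit 15) (nat_lit 5) (nat_lit 17) (nat_lit 5) (nat_lit 16) (nat_lit 4) (nat_lit 332) (nat_lit 298) (nat_lit 270)) (XT.lf (nat_lit 0) (nat_lit 4310634152) (nat_lit 152) (nat_lit 5724999894) (nat_lit 76) (nat_lit 9499969078) (nat_lit 15) (nat_lit 5) (nat_lit 17) (nat_lit 5) (nat_lit 16) (nat_lit 4) (nat_lit 333) (nat_lit 298) (nat_lit 269))) (XT.nd (nat_lit 78) (nat_lit 0) (nat_lit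 0) (XT.lf (nat_lit 0) (nat_lit 3816434494) (nat_lit 76) (nat_lit 5144331505) (nat_lit 152) (nat_lit 11691867903) (nat_lit 14) (nat_lit 5) (nat_lit 15) (nat_lit 5) (nat_lit 16) (nat_lit 4) (nat_lit 334) (nat_lit 298) (nat_lit 268)) (XT.lf (nat_lit 0) (nat_lit 14072959270) (nat_lit 152) (nat_lit 7542163626) (nat_lit 0) (nat_lit 236749273) (nat_lit 14) (nat_lit 5) (nat_lit 16) (nat_lit 4) (nat_lit 14) (nat_lit 4) (nat_lit 335) (nat_lit 298) (nat_lit 267))))) (XT.nd (nat_lit 312) (nat_lit 152) (nat_lit 0) (XT.nd (nat_lit 156) (nat_lit 76) (nat_lit 0) (XT.nd (nat_lit 78) (nat_lit 76) (nat_lit 0) (XT.lf (nat_lit 0) (nat_lit 2354524436) (nat_lit 76) (nat_lit 17361448893) (nat_lit 76) (nat_lit 3421374001) (nat_lit 13) (nat_lit 4) (nat_lit 14) (nat_lit 5) (nat_lit 14) (nat_lit 4) (nat_lit 336) (nat_lit 298) (nat_lit 266)) (XT.lf (nat_lit 0) (nat_lit 1364045626) (nat_lit 152) (nat_lit 11199031186)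 (nat_lit 76) (nat_lit 11948667017) (nat_lit 12) (nat_lit 5) (nat_lit 14) (nat_lit 5) (nat_lit 13) (nat_lit 4) (nat_lit 337) (nat_lit 298) (nat_lit 265))) (XT.nd (nat_lit 78) (nat_lit 76) (nat_lit 0) (XT.lf (nat_lit 0) (nat_lit 6284469222) (nat_lit 152) (nat_lit 1053597513) (nat_lit 76) (nat_lit 18655990976) (nat_lit 12) (nat_lit 5) (nat_lit 14) (nat_lit 5) (nat_lit 13) (nat_lit 4) (nat_lit 338) (nat_lit 298) (nat_lit 264)) (XT.lf (nat_lit 0) (nat_lit 10311717195) (nat_lit 76) (nat_lit 1476485686) (nat_lit 152) (nat_lit 15791613142) (nat_lit 11) (nat_lit 5) (nat_lit 12) (nat_lit 5) (nat_lit 13) (nat_lit 4) (nat_lit 339) (nat_lit 298) (nat_lit 263)))) (XT.nd (nat_lit 156) (nat_lit 76) (nat_lit 0) (XT.nd (nat_lit 78) (nat_lit 76) (nat_lit 0) (XT.lf (nat_lit 0) (nat_lit 17820844653) (nat_lit 152) (nat_lit 6869695839) (nat_lit 0) (nat_lit 4594836693) (nat_lit 11) (nat_lit 5) (nat_lit 13) (nat_lit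 4) (nat_lit 11) (nat_lit 4) (nat_lit 340) (nat_lit 298) (nat_lit 262)) (XT.lf (nat_lit 0) (nat_lit 4444316703) (nat_lit 76) (nat_lit 19983604871) (nat_lit 76) (nat_lit 6692144410) (nat_lit 10) (nat_lit 4) (nat_lit 11) (nat_lit 5) (nat_lit 11) (nat_lit 4) (nat_lit 341) (nat_lit 298) (nat_lit 261))) (XT.nd (nat_lit 78) (nat_lit 76) (nat_lit 0) (XT.lf (nat_lit 0) (nat_lit 16956438407) (nat_lit 76) (nat_lit 14743150352) (nat_lit 76) (nat_lit 1391085722) (nat_lit 10) (nat_lit 4) (nat_lit 11) (nat_lit 5) (nat_lit 11) (nat_lit 4) (nat_lit 342) (nat_lit 298) (nat_lit 260)) (XT.lf (nat_lit 0) (nat_lit 4068013186) (nat_lit 152) (nat_lit 4946712172) (nat_lit 76) (nat_lit 26199829296) (nat_lit 9) (nat_lit 5) (nat_lit 11) (nat_lit 5) (nat_lit 10) (nat_lit 4) (nat_lit 343) (nat_lit 298) (nat_lit 259)))))) (XT.nd (nat_lit 624) (nat_lit 76) (nat_lit 0) (XT.nd (nat_lit 312) (nat_lit 152) (nat_lit 0) (XT.nd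 (nat_lit 156) (nat_lit 76) (nat_lit 0) (XT.nd (nat_lit 78) (nat_lit 0) (nat_lit 0) (XT.lf (nat_lit 0) (nat_lit 7382818382) (nat_lit 76) (nat_lit 2637833679) (nat_lit 152) (nat_lit 27474266323) (nat_lit 8) (nat_lit 5) (nat_lit 9) (nat_lit 5) (nat_lit 10) (nat_lit 4) (nat_lit 344) (nat_lit 298) (nat_lit 258)) (XT.lf (nat_lit 0) (nat_lit 16645270866) (nat_lit 152) (nat_lit 19159163998) (nat_lit 0) (nat_lit 4137634339) (nat_lit 8) (nat_lit 5) (nat_lit 10) (nat_lit 4) (nat_lit 8) (nat_lit 4) (nat_lit 345) (nat_lit 298) (nat_lit 257))) (XT.nd (nat_lit 78) (nat_lit 76) (nat_lit 0) (XT.lf (nat_lit 0) (nat_lit 23826532038) (nat_lit 152) (nat_lit 7478694941) (nat_lit 0) (nat_lit 11277649333) (nat_lit 8) (nat_lit 5) (nat_lit 10) (nat_lit 4) (nat_lit 8) (nat_lit 4) (nat_lit 346) (nat_lit 298) (nat_lit 256)) (XT.lf (nat_lit 0) (nat_lit 5328518819) (nat_lit 76) (nat_lit 26343183424) (nat_lit 76) (nat_lit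 13756109812) (nat_lit 7) (nat_lit 4) (nat_lit 8) (nat_lit 5) (nat_lit 8) (nat_lit 4) (nat_lit 347) (nat_lit 298) (nat_lit 255)))) (XT.nd (nat_lit 156) (nat_lit 152) (nat_lit 0) (XT.nd (nat_lit 78) (nat_lit 0) (nat_lit 0) (XT.lf (nat_lit 0) (nat_lit 19513262444) (nat_lit 76) (nat_lit 20798090933) (nat_lit 76) (nat_lit 8175655371) (nat_lit 7) (nat_lit 4) (nat_lit 8) (nat_lit 5) (nat_lit 8) (nat_lit 4) (nat_lit 348) (nat_lit 298) (nat_lit 254)) (XT.lf (nat_lit 0) (nat_lit 34765778851) (nat_lit 76) (nat_lit 14841570473) (nat_lit 76) (nat_lit 2186392365) (nat_lit 7) (nat_lit 4) (nat_lit 8) (nat_lit 5) (nat_lit 8) (nat_lit 4) (nat_lit 349) (nat_lit 298) (nat_lit 253))) (XT.nd (nat_lit 78) (nat_lit 76) (nat_lit 0) (XT.lf (nat_lit 0) (nat_lit 4034710433) (nat_lit 152) (nat_lit 4293297579) (nat_lit 76) (nat_lit 47031426756) (nat_lit 6) (nat_lit 5) (nat_lit 8) (nat_lit 5) (nat_lit 7) (nat_lit 4)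 (nat_lit 350) (nat_lit 298) (nat_lit 252)) (XT.lf (nat_lit 0) (nat_lit 9836332062) (nat_lit 76) (nat_lit 1004965437) (nat_lit 152) (nat_lit 48348080576) (nat_lit 5) (nat_lit 5) (nat_lit 6) (nat_lit 5) (nat_lit 7) (nat_lit 4) (nat_lit 351) (nat_lit 298) (nat_lit 251))))) (XT.nd (nat_lit 312) (nat_lit 0) (nat_lit 0) (XT.nd (nat_lit 156) (nat_lit 76) (nat_lit 0) (XT.nd (nat_lit 78) (nat_lit 0) (nat_lit 0) (XT.lf (nat_lit 0) (nat_lit 18448456704) (nat_lit 152) (nat_lit 38204218160) (nat_lit 0) (nat_lit 6652568902) (nat_lit 5) (nat_lit 5) (nat_lit 7) (nat_lit 4) (nat_lit 5) (nat_lit 4) (nat_lit 352) (nat_lit 298) (nat_lit 250)) (XT.lf (nat_lit 0) (nat_lit 26662116049) (nat_lit 152) (nat_lit 26244494006) (nat_lit 0) (nat_lit 14843944220) (nat_lit 5) (nat_lit 5) (nat_lit 7) (nat_lit 4) (nat_lit 5) (nat_lit 4) (nat_lit 353) (nat_lit 298) (nat_lit 249))) (XT.nd (nat_lit 78) (nat_lit 76) (nat_lit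 0) (XT.lf (nat_lit 0) (nat_lit 35506779626) (nat_lit 152) (nat_lit 13378831669) (nat_lit 0) (nat_lit 23667974439) (nat_lit 5) (nat_lit 5) (nat_lit 7) (nat_lit 4) (nat_lit 5) (nat_lit 4) (nat_lit 354) (nat_lit 298) (nat_lit 248)) (XT.lf (nat_lit 0) (nat_lit 493707037) (nat_lit 76) (nat_lit 44553026887) (nat_lit 76) (nat_lit 32695116739) (nat_lit 4) (nat_lit 4) (nat_lit 5) (nat_lit 5) (nat_lit 5) (nat_lit 4) (nat_lit 355) (nat_lit 298) (nat_lit 247)))) (XT.nd (nat_lit 156) (nat_lit 0) (nat_lit 0) (XT.nd (nat_lit 78) (nat_lit 0) (nat_lit 0) (XT.lf (nat_lit 0) (nat_lit 16191032752) (nat_lit 76) (nat_lit 39501182619) (nat_lit 76) (nat_lit 27625582692) (nat_lit 4) (nat_lit 4) (nat_lit 5) (nat_lit 5) (nat_lit 5) (nat_lit 4) (nat_lit 356) (nat_lit 298) (nat_lit 246)) (XT.lf (nat_lit 0) (nat_lit 33101661100) (nat_lit 76) (nat_lit 34065942604) (nat_lit 76) (nat_lit 22173963251) (nat_lit 4) (nat_lit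 4) (nat_lit 5) (nat_lit 5) (nat_lit 5) (nat_lit 4) (nat_lit 357) (nat_lit 298) (nat_lit 245))) (XT.nd (nat_lit 78) (nat_lit 0) (nat_lit 0) (XT.lf (nat_lit 0) (nat_lit 51325803210) (nat_lit 76) (nat_lit 28215098011) (nat_lit 76) (nat_lit 16307952525) (nat_lit 4) (nat_lit 4) (nat_lit 5) (nat_lit 5) (nat_lit 5) (nat_lit 4) (nat_lit 358) (nat_lit 298) (nat_lit 244)) (XT.nd (nat_lit 78) (nat_lit 0) (nat_lit 0) (XT.lf (nat_lit 0) (nat_lit 70971454000) (nat_lit 76) (nat_lit 21913977171) (nat_lit 76) (nat_lit 9992788967) (nat_lit 4) (nat_lit 4) (nat_lit 5) (nat_lit 5) (nat_lit 5) (nat_lit 4) (nat_lit 359) (nat_lit 298) (nat_lit 243)) (XT.lf (nat_lit 0) (nat_lit 92155032140) (nat_lit 76) (nat_lit 15125240106) (nat_lit 76) (nat_lit 3191049387) (nat_lit 4) (nat_lit 4) (nat_lit 5) (nat_lit 5) (nat_lit 5) (nat_lit 4) (nat_lit 360) (nat_lit 298) (nat_lit 242))))))))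
noncomputable def xc90 : XT := (XT.nd (nat_lit 1248) (nat_lit 0) (nat_lit 0) (XT.nd (nat_lit 624) (nat_lit 76) (nat_lit 0) (XT.nd (nat_lit 312) (nat_lit 0) (nat_lit 0) (XT.nd (nat_lit 156) (nat_lit 0) (nat_lit 0) (XT.nd (nat_lit 78) (nat_lit 76) (nat_lit 0) (XT.lf (nat_lit 0) (nat_lit 3930594671) (nat_lit 152) (nat_lit 3770593169) (nat_lit 76) (nat_lit 110964005850) (nat_lit 3) (nat_lit 5) (nat_lit 5) (nat_lit 5) (nat_lit 4) (nat_lit 4) (nat_lit 361) (nat_lit 298) (nat_lit 241)) (XT.lf (nat_lit 0) (nat_lit 11750986604) (nat_lit 152) (nat_lit 115053508766) (nat_lit 0) (nat_lit 679340635) (nat_lit 2) (nat_lit 5) (nat_lit 4) (nat_lit 4) (nat_lit 2) (nat_lit 4) (nat_lit 362) (nat_lit 298) (nat_lit 240))) (XT.nd (nat_lit 78) (nat_lit 0) (nat_lit 0) (XT.lf (nat_lit 0) (nat_lit 20487720169) (nat_lit 152) (nat_lit 107090479935) (nat_lit 0) (nat_lit 9406516962) (nat_lit 2) (nat_lit 5) (nat_lit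 4) (nat_lit 4) (nat_lit 2) (nat_lit 4) (nat_lit 363) (nat_lit 298) (nat_lit 239)) (XT.lf (nat_lit 0) (nat_lit 29909417364) (nat_lit 152) (nat_lit 98518008263) (nat_lit 0) (nat_lit 18819364864) (nat_lit 2) (nat_lit 5) (nat_lit 4) (nat_lit 4) (nat_lit 2) (nat_lit 4) (nat_lit 364) (nat_lit 298) (nat_lit 238)))) (XT.nd (nat_lit 156) (nat_lit 0) (nat_lit 0) (XT.nd (nat_lit 78) (nat_lit 0) (nat_lit 0) (XT.lf (nat_lit 0) (nat_lit 40071910468) (nat_lit 152) (nat_lit 89285293918) (nat_lit 0) (nat_lit 28973664177) (nat_lit 2) (nat_lit 5) (nat_lit 4) (nat_lit 4) (nat_lit 2) (nat_lit 4) (nat_lit 365) (nat_lit 298) (nat_lit 237)) (XT.lf (nat_lit 0) (nat_lit 51035421663) (nat_lit 152) (nat_lit 79337624520) (nat_lit 0) (nat_lit 39929588530) (nat_lit 2) (nat_lit 5) (nat_lit 4) (nat_lit 4) (nat_lit 2) (nat_lit 4) (nat_lit 366) (nat_lit 298) (nat_lit 236))) (XT.nd (nat_lit 78) (nat_lit 0) (nat_lit 0) (XT.lf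 (nat_lit 0) (nat_lit 62864919905) (nat_lit 152) (nat_lit 68616050915) (nat_lit 0) (nat_lit 51752061916) (nat_lit 2) (nat_lit 5) (nat_lit 4) (nat_lit 4) (nat_lit 2) (nat_lit 4) (nat_lit 367) (nat_lit 298) (nat_lit 235)) (XT.lf (nat_lit 0) (nat_lit 75630505923) (nat_lit 152) (nat_lit 57057037853) (nat_lit 0) (nat_lit 64511143439) (nat_lit 2) (nat_lit 5) (nat_lit 4) (nat_lit 4) (nat_lit 2) (nat_lit 4) (nat_lit 368) (nat_lit 298) (nat_lit 234))))) (XT.nd (nat_lit 312) (nat_lit 76) (nat_lit 0) (XT.nd (nat_lit 156) (nat_lit 0) (nat_lit 0) (XT.nd (nat_lit 78) (nat_lit 0) (nat_lit 0) (XT.lf (nat_lit 0) (nat_lit 89407827634) (nat_lit 152) (nat_lit 44592087478) (nat_lit 0) (nat_lit 78282442470) (nat_lit 2) (nat_lit 5) (nat_lit 4) (nat_lit 4) (nat_lit 2) (nat_lit 4) (nat_lit 369) (nat_lit 298) (nat_lit 233)) (XT.lf (nat_lit 0) (nat_lit 104278528427) (nat_lit 152) (nat_lit 31147333419) (nat_lit 0)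 (nat_lit 93147566707) (nat_lit 2) (nat_lit 5) (nat_lit 4) (nat_lit 4) (nat_lit 2) (nat_lit 4) (nat_lit 370) (nat_lit 298) (nat_lit 232))) (XT.nd (nat_lit 78) (nat_lit 0) (nat_lit 0) (XT.lf (nat_lit 0) (nat_lit 120330730973) (nat_lit 152) (nat_lit 16643103058) (nat_lit 0) (nat_lit 109194605775) (nat_lit 2) (nat_lit 5) (nat_lit 4) (nat_lit 4) (nat_lit 2) (nat_lit 4) (nat_lit 371) (nat_lit 298) (nat_lit 231)) (XT.lf (nat_lit 0) (nat_lit 137659559434) (nat_lit 152) (nat_lit 993445401) (nat_lit 0) (nat_lit 126518653238) (nat_lit 2) (nat_lit 5) (nat_lit 4) (nat_lit 4) (nat_lit 2) (nat_lit 4) (nat_lit 372) (nat_lit 298) (nat_lit 230)))) (XT.nd (nat_lit 156) (nat_lit 0) (nat_lit 0) (XT.nd (nat_lit 78) (nat_lit 0) (nat_lit 0) (XT.lf (nat_lit 0) (nat_lit 16731348055) (nat_lit 76) (nat_lit 140038744434) (nat_lit 76) (nat_lit 128893411388) (nat_lit 1) (nat_lit 4) (nat_lit 2) (nat_lit 5) (nat_lit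 2) (nat_lit 4) (nat_lit 373) (nat_lit 298) (nat_lit 229)) (XT.lf (nat_lit 0) (nat_lit 35917166039) (nat_lit 76) (nat_lit 141512667909) (nat_lit 76) (nat_lit 130363235928) (nat_lit 1) (nat_lit 4) (nat_lit 2) (nat_lit 5) (nat_lit 2) (nat_lit 4) (nat_lit 374) (nat_lit 298) (nat_lit 228))) (XT.nd (nat_lit 78) (nat_lit 0) (nat_lit 0) (XT.lf (nat_lit 0) (nat_lit 56625389212) (nat_lit 76) (nat_lit 143110672181) (nat_lit 76) (nat_lit 131957444890) (nat_lit 1) (nat_lit 4) (nat_lit 2) (nat_lit 5) (nat_lit 2) (nat_lit 4) (nat_lit 375) (nat_lit 298) (nat_lit 227)) (XT.lf (nat_lit 0) (nat_lit 78978732971) (nat_lit 76) (nat_lit 144842226906) (nat_lit 76) (nat_lit 133685485438) (nat_lit 1) (nat_lit 4) (nat_lit 2) (nat_lit 5) (nat_lit 2) (nat_lit 4) (nat_lit 376) (nat_lit 298) (nat_lit 226)))))) (XT.nd (nat_lit 624) (nat_lit 0) (nat_lit 0) (XT.nd (nat_lit 312) (nat_lit 0) (nat_lit 0) (XT.nd (nat_lit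 156) (nat_lit 0) (nat_lit 0) (XT.nd (nat_lit 78) (nat_lit 0) (nat_lit 0) (XT.lf (nat_lit 0) (nat_lit 103109661574) (nat_lit 76) (nat_lit 146717593147) (nat_lit 76) (nat_lit 135557597812) (nat_lit 1) (nat_lit 4) (nat_lit 2) (nat_lit 5) (nat_lit 2) (nat_lit 4) (nat_lit 377) (nat_lit 298) (nat_lit 225)) (XT.lf (nat_lit 0) (nat_lit 129161173117) (nat_lit 76) (nat_lit 148747884187) (nat_lit 76) (nat_lit 137584876012) (nat_lit 1) (nat_lit 4) (nat_lit 2) (nat_lit 5) (nat_lit 2) (nat_lit 4) (nat_lit 378) (nat_lit 298) (nat_lit 224))) (XT.nd (nat_lit 78) (nat_lit 0) (nat_lit 0) (XT.lf (nat_lit 0) (nat_lit 157287646928) (nat_lit 76) (nat_lit 150945131379) (nat_lit 76) (nat_lit 139779333538) (nat_lit 1) (nat_lit 4) (nat_lit 2) (nat_lit 5) (nat_lit 2) (nat_lit 4) (nat_lit 379) (nat_lit 298) (nat_lit 223)) (XT.lf (nat_lit 0) (nat_lit 187655758407) (nat_lit 76) (nat_lit 153322355448) (nat_lit 76) (nat_lit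 142153974583) (nat_lit 1) (nat_lit 4) (nat_lit 2) (nat_lit 5) (nat_lit 2) (nat_lit 4) (nat_lit 380) (nat_lit 298) (nat_lit 222)))) (XT.nd (nat_lit 156) (nat_lit 0) (nat_lit 0) (XT.nd (nat_lit 78) (nat_lit 0) (nat_lit 0) (XT.lf (nat_lit 0) (nat_lit 220445466733) (nat_lit 76) (nat_lit 155893643648) (nat_lit 76) (nat_lit 144722871093) (nat_lit 1) (nat_lit 4) (nat_lit 2) (nat_lit 5) (nat_lit 2) (nat_lit 4) (nat_lit 381) (nat_lit 298) (nat_lit 221)) (XT.lf (nat_lit 0) (nat_lit 255851081289) (nat_lit 76) (nat_lit 158674233242) (nat_lit 76) (nat_lit 147501246160) (nat_lit 1) (nat_lit 4) (nat_lit 2) (nat_lit 5) (nat_lit 2) (nat_lit 4) (nat_lit 382) (nat_lit 298) (nat_lit 220))) (XT.nd (nat_lit 78) (nat_lit 0) (nat_lit 0) (XT.lf (nat_lit 0) (nat_lit 294082413125) (nat_lit 76) (nat_lit 161680601798) (nat_lit 76) (nat_lit 150505564228) (nat_lit 1) (nat_lit 4) (nat_lit 2) (nat_lit 5) (nat_lit 2)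 (nat_lit 4) (nat_lit 383) (nat_lit 298) (nat_lit 219)) (XT.lf (nat_lit 0) (nat_lit 335366018280) (nat_lit 76) (nat_lit 164930564833) (nat_lit 76) (nat_lit 153753628663) (nat_lit 1) (nat_lit 4) (nat_lit 2) (nat_lit 5) (nat_lit 2) (nat_lit 4) (nat_lit 384) (nat_lit 298) (nat_lit 218))))) (XT.nd (nat_lit 312) (nat_lit 0) (nat_lit 0) (XT.nd (nat_lit 156) (nat_lit 0) (nat_lit 0) (XT.nd (nat_lit 78) (nat_lit 0) (nat_lit 0) (XT.lf (nat_lit 0) (nat_lit 379946540340) (nat_lit 76) (nat_lit 168443381387) (nat_lit 76) (nat_lit 157264687254) (nat_lit 1) (nat_lit 4) (nat_lit 2) (nat_lit 5) (nat_lit 2) (nat_lit 4) (nat_lit 385) (nat_lit 298) (nat_lit 217)) (XT.lf (nat_lit 0) (nat_lit 428088160178) (nat_lit 76) (nat_lit 172239868152) (nat_lit 76) (nat_lit 161059546275) (nat_lit 1) (nat_lit 4) (nat_lit 2) (nat_lit 5) (nat_lit 2) (nat_lit 4) (nat_lit 386) (nat_lit 298) (nat_lit 216))) (XT.nd (nat_lit 78)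 (nat_lit 0) (nat_lit 0) (XT.lf (nat_lit 0) (nat_lit 480076161466) (nat_lit 76) (nat_lit 176342522826) (nat_lit 76) (nat_lit 165160693780) (nat_lit 1) (nat_lit 4) (nat_lit 2) (nat_lit 5) (nat_lit 2) (nat_lit 4) (nat_lit 387) (nat_lit 298) (nat_lit 215)) (XT.lf (nat_lit 0) (nat_lit 536218621250) (nat_lit 76) (nat_lit 180775657438) (nat_lit 76) (nat_lit 169592432863) (nat_lit 1) (nat_lit 4) (nat_lit 2) (nat_lit 5) (nat_lit 2) (nat_lit 4) (nat_lit 388) (nat_lit 298) (nat_lit 214)))) (XT.nd (nat_lit 156) (nat_lit 0) (nat_lit 0) (XT.nd (nat_lit 78) (nat_lit 0) (nat_lit 0) (XT.lf (nat_lit 0) (nat_lit 596848235586) (nat_lit 76) (nat_lit 185565542414) (nat_lit 76) (nat_lit 174381025684) (nat_lit 1) (nat_lit 4) (nat_lit 2) (nat_lit 5) (nat_lit 2) (nat_lit 4) (nat_lit 389) (nat_lit 298) (nat_lit 213)) (XT.lf (nat_lit 0) (nat_lit 662324291078) (nat_lit 76) (nat_lit 190740562258) (nat_lit 76) (nat_lit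 179554849088) (nat_lit 1) (nat_lit 4) (nat_lit 2) (nat_lit 5) (nat_lit 2) (nat_lit 4) (nat_lit 390) (nat_lit 298) (nat_lit 212))) (XT.nd (nat_lit 78) (nat_lit 0) (nat_lit 0) (XT.lf (nat_lit 0) (nat_lit 733034793982) (nat_lit 76) (nat_lit 196331383755) (nat_lit 76) (nat_lit 185144562770) (nat_lit 1) (nat_lit 4) (nat_lit 2) (nat_lit 5) (nat_lit 2) (nat_lit 4) (nat_lit 391) (nat_lit 298) (nat_lit 211)) (XT.nd (nat_lit 78) (nat_lit 0) (nat_lit 0) (XT.lf (nat_lit 0) (nat_lit 809398769500) (nat_lit 76) (nat_lit 202371137698) (nat_lit 76) (nat_lit 191183290959) (nat_lit 1) (nat_lit 4) (nat_lit 2) (nat_lit 5) (nat_lit 2) (nat_lit 4) (nat_lit 392) (nat_lit 298) (nat_lit 210)) (XT.lf (nat_lit 0) (nat_lit 891868744893) (nat_lit 76) (nat_lit 208895615222) (nat_lit 76) (nat_lit 197706818710) (nat_lit 1) (nat_lit 4) (nat_lit 2) (nat_lit 5) (nat_lit 2) (nat_lit 4) (nat_lit 393) (nat_lit 298) (nat_lit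 209))))))))
noncomputable def xc91 : XT := (XT.nd (nat_lit 1248) (nat_lit 0) (nat_lit 0) (XT.nd (nat_lit 624) (nat_lit 0) (nat_lit 0) (XT.nd (nat_lit 312) (nat_lit 0) (nat_lit 0) (XT.nd (nat_lit 156) (nat_lit 0) (nat_lit 0) (XT.nd (nat_lit 78) (nat_lit 0) (nat_lit 0) (XT.lf (nat_lit 0) (nat_lit 980933431128) (nat_lit 76) (nat_lit 215943479898) (nat_lit 76) (nat_lit 204753803966) (nat_lit 1) (nat_lit 4) (nat_lit 2) (nat_lit 5) (nat_lit 2) (nat_lit 4) (nat_lit 394) (nat_lit 298) (nat_lit 208)) (XT.lf (nat_lit 0) (nat_lit 1077120618937) (nat_lit 76) (nat_lit 223556496849) (nat_lit 76) (nat_lit 212366006640) (nat_lit 1) (nat_lit 4) (nat_lit 2) (nat_lit 5) (nat_lit 2) (nat_lit 4) (nat_lit 395) (nat_lit 298) (nat_lit 207))) (XT.nd (nat_lit 78) (nat_lit 0) (nat_lit 0) (XT.lf (nat_lit 0) (nat_lit 1181000306470) (nat_lit 76) (nat_lit 231779780249) (nat_lit 76) (nat_lit 220588536081) (nat_lit 1)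 (nat_lit 4) (nat_lit 2) (nat_lit 5) (nat_lit 2) (nat_lit 4) (nat_lit 396) (nat_lit 298) (nat_lit 206)) (XT.lf (nat_lit 0) (nat_lit 1293188077062) (nat_lit 76) (nat_lit 240662060669) (nat_lit 76) (nat_lit 229470118389) (nat_lit 1) (nat_lit 4) (nat_lit 2) (nat_lit 5) (nat_lit 2) (nat_lit 4) (nat_lit 397) (nat_lit 298) (nat_lit 205)))) (XT.nd (nat_lit 156) (nat_lit 0) (nat_lit 0) (XT.nd (nat_lit 78) (nat_lit 0) (nat_lit 0) (XT.lf (nat_lit 0) (nat_lit 1414348747130) (nat_lit 76) (nat_lit 250255973842) (nat_lit 76) (nat_lit 239063385163) (nat_lit 1) (nat_lit 4) (nat_lit 2) (nat_lit 5) (nat_lit 2) (nat_lit 4) (nat_lit 398) (nat_lit 298) (nat_lit 204)) (XT.lf (nat_lit 0) (nat_lit 1545200305830) (nat_lit 76) (nat_lit 260618372588) (nat_lit 76) (nat_lit 249425185391) (nat_lit 1) (nat_lit 4) (nat_lit 2) (nat_lit 5) (nat_lit 2) (nat_lit 4) (nat_lit 399) (nat_lit 298) (nat_lit 203))) (XT.nd (nat_lit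 78) (nat_lit 0) (nat_lit 0) (XT.lf (nat_lit 0) (nat_lit 1686518169806) (nat_lit 76) (nat_lit 271810663715) (nat_lit 76) (nat_lit 260616922334) (nat_lit 1) (nat_lit 4) (nat_lit 2) (nat_lit 5) (nat_lit 2) (nat_lit 4) (nat_lit 400) (nat_lit 298) (nat_lit 202)) (XT.lf (nat_lit 0) (nat_lit 1839139778253) (nat_lit 76) (nat_lit 283899171910) (nat_lit 76) (nat_lit 272704917397) (nat_lit 1) (nat_lit 4) (nat_lit 2) (nat_lit 5) (nat_lit 2) (nat_lit 4) (nat_lit 401) (nat_lit 298) (nat_lit 201))))) (XT.nd (nat_lit 312) (nat_lit 0) (nat_lit 0) (XT.nd (nat_lit 156) (nat_lit 0) (nat_lit 0) (XT.nd (nat_lit 78) (nat_lit 0) (nat_lit 0) (XT.lf (nat_lit 0) (nat_lit 2003969555517) (nat_lit 76) (nat_lit 296955532777) (nat_lit 76) (nat_lit 285760803141) (nat_lit 1) (nat_lit 4) (nat_lit 2) (nat_lit 5) (nat_lit 2) (nat_lit 4) (nat_lit 402) (nat_lit 298) (nat_lit 200)) (XT.lf (nat_lit 0) (nat_lit 2181984270647)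 (nat_lit 76) (nat_lit 311057117345) (nat_lit 76) (nat_lit 299861947780) (nat_lit 1) (nat_lit 4) (nat_lit 2) (nat_lit 5) (nat_lit 2) (nat_lit 4) (nat_lit 403) (nat_lit 298) (nat_lit 199))) (XT.nd (nat_lit 78) (nat_lit 0) (nat_lit 0) (XT.lf (nat_lit 0) (nat_lit 2374238825661) (nat_lit 76) (nat_lit 326287490557) (nat_lit 76) (nat_lit 315091913652) (nat_lit 1) (nat_lit 4) (nat_lit 2) (nat_lit 5) (nat_lit 2) (nat_lit 4) (nat_lit 404) (nat_lit 298) (nat_lit 198)) (XT.lf (nat_lit 0) (nat_lit 2581872506809) (nat_lit 76) (nat_lit 342736906479) (nat_lit 76) (nat_lit 331540952406) (nat_lit 1) (nat_lit 4) (nat_lit 2) (nat_lit 5) (nat_lit 2) (nat_lit 4) (nat_lit 405) (nat_lit 298) (nat_lit 197)))) (XT.nd (nat_lit 156) (nat_lit 0) (nat_lit 0) (XT.nd (nat_lit 78) (nat_lit 0) (nat_lit 0) (XT.lf (nat_lit 0) (nat_lit 2806115735906) (nat_lit 76) (nat_lit 360502843131) (nat_lit 76) (nat_lit 349306539828)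 (nat_lit 1) (nat_lit 4) (nat_lit 2) (nat_lit 5) (nat_lit 2) (nat_lit 4) (nat_lit 406) (nat_lit 298) (nat_lit 196)) (XT.lf (nat_lit 0) (nat_lit 3048297361717) (nat_lit 76) (nat_lit 379690580136) (nat_lit 76) (nat_lit 368493953472) (nat_lit 1) (nat_lit 4) (nat_lit 2) (nat_lit 5) (nat_lit 2) (nat_lit 4) (nat_lit 407) (nat_lit 298) (nat_lit 195))) (XT.nd (nat_lit 78) (nat_lit 0) (nat_lit 0) (XT.lf (nat_lit 0) (nat_lit 3309852534617) (nat_lit 76) (nat_lit 400413822603) (nat_lit 76) (nat_lit 389216896531) (nat_lit 1) (nat_lit 4) (nat_lit 2) (nat_lit 5) (nat_lit 2) (nat_lit 4) (nat_lit 408) (nat_lit 298) (nat_lit 194)) (XT.lf (nat_lit 0) (nat_lit 3592331211186) (nat_lit 76) (nat_lit 422795374932) (nat_lit 76) (nat_lit 411598171631) (nat_lit 1) (nat_lit 4) (nat_lit 2) (nat_lit 5) (nat_lit 2) (nat_lit 4) (nat_lit 409) (nat_lit 298) (nat_lit 193)))))) (XT.nd (nat_lit 39000) (nat_lit 0) (nat_lit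 2584) (XT.nd (nat_lit 38688) (nat_lit 0) (nat_lit 4560) (XT.nd (nat_lit 38532) (nat_lit 0) (nat_lit 5244) (XT.nd (nat_lit 38454) (nat_lit 0) (nat_lit 5472) (XT.lf (nat_lit 0) (nat_lit 3897407339137) (nat_lit 76) (nat_lit 446967868544) (nat_lit 76) (nat_lit 435770408548) (nat_lit 1) (nat_lit 4) (nat_lit 2) (nat_lit 5) (nat_lit 2) (nat_lit 4) (nat_lit 410) (nat_lit 298) (nat_lit 192)) (XT.lf (nat_lit 0) (nat_lit 1312170) (nat_lit 76) (nat_lit 1616558545) (nat_lit 76) (nat_lit 1616558545) (nat_lit 73) (nat_lit 4) (nat_lit 74) (nat_lit 5) (nat_lit 74) (nat_lit 4) (nat_lit 302) (nat_lit 299) (nat_lit 299))) (XT.nd (nat_lit 78) (nat_lit 228) (nat_lit 0) (XT.lf (nat_lit 0) (nat_lit 3568670438) (nat_lit 76) (nat_lit 2785761382) (nat_lit 76) (nat_lit 153878774) (nat_lit 73) (nat_lit 4) (nat_lit 74) (nat_lit 5) (nat_lit 74) (nat_lit 4) (nat_lit 303) (nat_lit 299) (nat_lit 298)) (XT.lf (nat_lit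 0) (nat_lit 634625076) (nat_lit 152) (nat_lit 2107411474) (nat_lit 228) (nat_lit 3825447585) (nat_lit 70) (nat_lit 5) (nat_lit 72) (nat_lit 5) (nat_lit 73) (nat_lit 4) (nat_lit 304) (nat_lit 299) (nat_lit 297)))) (XT.nd (nat_lit 156) (nat_lit 380) (nat_lit 0) (XT.nd (nat_lit 78) (nat_lit 304) (nat_lit 0) (XT.lf (nat_lit 0) (nat_lit 4472688938) (nat_lit 152) (nat_lit 1199385590) (nat_lit 228) (nat_lit 975050689) (nat_lit 70) (nat_lit 5) (nat_lit 72) (nat_lit 5) (nat_lit 73) (nat_lit 4) (nat_lit 305) (nat_lit 299) (nat_lit 296)) (XT.lf (nat_lit 0) (nat_lit 1735162554) (nat_lit 228) (nat_lit 47893396) (nat_lit 304) (nat_lit 4964026911) (nat_lit 66) (nat_lit 5) (nat_lit 69) (nat_lit 5) (nat_lit 70) (nat_lit 5) (nat_lit 306) (nat_lit 299) (nat_lit 295))) (XT.nd (nat_lit 78) (nat_lit 380) (nat_lit 0) (XT.lf (nat_lit 0) (nat_lit 4558196162) (nat_lit 304) (nat_lit 1027296091) (nat_lit 76) (nat_lit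 1280319646) (nat_lit 66) (nat_lit 5) (nat_lit 70) (nat_lit 5) (nat_lit 67) (nat_lit 4) (nat_lit 307) (nat_lit 299) (nat_lit 294)) (XT.lf (nat_lit 0) (nat_lit 385405526) (nat_lit 380) (nat_lit 3766093893) (nat_lit 76) (nat_lit 2853908139) (nat_lit 61) (nat_lit 5) (nat_lit 66) (nat_lit 5) (nat_lit 62) (nat_lit 5) (nat_lit 308) (nat_lit 299) (nat_lit 293))))) (XT.nd (nat_lit 312) (nat_lit 1064) (nat_lit 0) (XT.nd (nat_lit 156) (nat_lit 532) (nat_lit 0) (XT.nd (nat_lit 78) (nat_lit 0) (nat_lit 0) (XT.lf (nat_lit 0) (nat_lit 522398294) (nat_lit 380) (nat_lit 2471364311) (nat_lit 456) (nat_lit 4172224245) (nat_lit 56) (nat_lit 5) (nat_lit 61) (nat_lit 5) (nat_lit 62) (nat_lit 5) (nat_lit 309) (nat_lit 299) (nat_lit 292)) (XT.lf (nat_lit 0) (nat_lit 5178264889) (nat_lit 380) (nat_lit 530172680) (nat_lit 456) (nat_lit 1639696533) (nat_lit 56) (nat_lit 5) (nat_lit 61) (nat_lit 5) (nat_lit 62)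 (nat_lit 5) (nat_lit 310) (nat_lit 299) (nat_lit 291))) (XT.nd (nat_lit 78) (nat_lit 0) (nat_lit 0) (XT.lf (nat_lit 0) (nat_lit 947290053) (nat_lit 532) (nat_lit 5016284784) (nat_lit 76) (nat_lit 1587095753) (nat_lit 49) (nat_lit 5) (nat_lit 56) (nat_lit 5) (nat_lit 50) (nat_lit 5) (nat_lit 311) (nat_lit 299) (nat_lit 290)) (XT.lf (nat_lit 0) (nat_lit 3541963656) (nat_lit 532) (nat_lit 281373714) (nat_lit 76) (nat_lit 3951943881) (nat_lit 49) (nat_lit 5) (nat_lit 56) (nat_lit 5) (nat_lit 50) (nat_lit 5) (nat_lit 312) (nat_lit 299) (nat_lit 289)))) (XT.nd (nat_lit 156) (nat_lit 456) (nat_lit 0) (XT.nd (nat_lit 78) (nat_lit 304) (nat_lit 0) (XT.lf (nat_lit 0) (nat_lit 4894592048) (nat_lit 304) (nat_lit 1395736483) (nat_lit 380) (nat_lit 1732235030) (nat_lit 45) (nat_lit 5) (nat_lit 49) (nat_lit 5) (nat_lit 50) (nat_lit 5) (nat_lit 313) (nat_lit 299) (nat_lit 288)) (XT.lf (nat_lit 0) (nat_lit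 842412322) (nat_lit 304) (nat_lit 6221626237) (nat_lit 76) (nat_lit 1230306044) (nat_lit 41) (nat_lit 5) (nat_lit 45) (nat_lit 5) (nat_lit 42) (nat_lit 5) (nat_lit 314) (nat_lit 299) (nat_lit 287))) (XT.nd (nat_lit 78) (nat_lit 456) (nat_lit 0) (XT.lf (nat_lit 0) (nat_lit 3493188288) (nat_lit 304) (nat_lit 992077460) (nat_lit 76) (nat_lit 4102214860) (nat_lit 41) (nat_lit 5) (nat_lit 45) (nat_lit 5) (nat_lit 42) (nat_lit 5) (nat_lit 315) (nat_lit 299) (nat_lit 286)) (XT.nd (nat_lit 78) (nat_lit 228) (nat_lit 0) (XT.lf (nat_lit 0) (nat_lit 4711000584) (nat_lit 228) (nat_lit 1609940164) (nat_lit 304) (nat_lit 2586221859) (nat_lit 38) (nat_lit 5) (nat_lit 41) (nat_lit 5) (nat_lit 42) (nat_lit 5) (nat_lit 316) (nat_lit 299) (nat_lit 285)) (XT.lf (nat_lit 0) (nat_lit 73158109) (nat_lit 228) (nat_lit 7728241999) (nat_lit 76) (nat_lit 1454487200) (nat_lit 35) (nat_lit 5) (nat_lit 38) (nat_lit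 5) (nat_lit 36) (nat_lit 5) (nat_lit 317) (nat_lit 299) (nat_lit 284))))))))
noncomputable def xc92 : XT := (XT.nd (nat_lit 1248) (nat_lit 608) (nat_lit 0) (XT.nd (nat_lit 624) (nat_lit 532) (nat_lit 0) (XT.nd (nat_lit 312) (nat_lit 532) (nat_lit 0) (XT.nd (nat_lit 156) (nat_lit 228) (nat_lit 0) (XT.nd (nat_lit 78) (nat_lit 228) (nat_lit 0) (XT.lf (nat_lit 0) (nat_lit 2825043617) (nat_lit 228) (nat_lit 1976883362) (nat_lit 76) (nat_lit 4823879611) (nat_lit 35) (nat_lit 5) (nat_lit 38) (nat_lit 5) (nat_lit 36) (nat_lit 5) (nat_lit 318) (nat_lit 299) (nat_lit 283)) (XT.lf (nat_lit 0) (nat_lit 4272791811) (nat_lit 228) (nat_lit 1497374037) (nat_lit 304) (nat_lit 4257518580) (nat_lit 32) (nat_lit 5) (nat_lit 35) (nat_lit 5) (nat_lit 36) (nat_lit 5) (nat_lit 319) (nat_lit 299) (nat_lit 282))) (XT.nd (nat_lit 78) (nat_lit 76) (nat_lit 0) (XT.lf (nat_lit 0) (nat_lit 469655816) (nat_lit 152)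 (nat_lit 8472501216) (nat_lit 228) (nat_lit 1520450920) (nat_lit 30) (nat_lit 5) (nat_lit 32) (nat_lit 5) (nat_lit 33) (nat_lit 4) (nat_lit 320) (nat_lit 299) (nat_lit 281)) (XT.lf (nat_lit 0) (nat_lit 1440549947) (nat_lit 228) (nat_lit 3659997139) (nat_lit 76) (nat_lit 5823041894) (nat_lit 29) (nat_lit 5) (nat_lit 32) (nat_lit 5) (nat_lit 30) (nat_lit 5) (nat_lit 321) (nat_lit 299) (nat_lit 280)))) (XT.nd (nat_lit 156) (nat_lit 380) (nat_lit 0) (XT.nd (nat_lit 78) (nat_lit 0) (nat_lit 0) (XT.lf (nat_lit 0) (nat_lit 3127859032) (nat_lit 152) (nat_lit 1389257399) (nat_lit 228) (nat_lit 6904462073) (nat_lit 27) (nat_lit 5) (nat_lit 29) (nat_lit 5) (nat_lit 30) (nat_lit 5) (nat_lit 322) (nat_lit 299) (nat_lit 279)) (XT.lf (nat_lit 0) (nat_lit 7894274768) (nat_lit 228) (nat_lit 1522157346) (nat_lit 76) (nat_lit 2538761957) (nat_lit 27) (nat_lit 5) (nat_lit 30) (nat_lit 5) (nat_lit 28) (nat_lit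 4) (nat_lit 323) (nat_lit 299) (nat_lit 278))) (XT.nd (nat_lit 78) (nat_lit 228) (nat_lit 0) (XT.lf (nat_lit 0) (nat_lit 5890389525) (nat_lit 152) (nat_lit 5726012109) (nat_lit 228) (nat_lit 909247106) (nat_lit 25) (nat_lit 5) (nat_lit 27) (nat_lit 5) (nat_lit 28) (nat_lit 4) (nat_lit 324) (nat_lit 299) (nat_lit 277)) (XT.lf (nat_lit 0) (nat_lit 655032499) (nat_lit 152) (nat_lit 1671439794) (nat_lit 228) (nat_lit 10814046319) (nat_lit 22) (nat_lit 5) (nat_lit 24) (nat_lit 5) (nat_lit 25) (nat_lit 5) (nat_lit 325) (nat_lit 299) (nat_lit 276))))) (XT.nd (nat_lit 312) (nat_lit 228) (nat_lit 0) (XT.nd (nat_lit 156) (nat_lit 228) (nat_lit 0) (XT.nd (nat_lit 78) (nat_lit 76) (nat_lit 0) (XT.lf (nat_lit 0) (nat_lit 5923779006) (nat_lit 228) (nat_lit 5140827269) (nat_lit 76) (nat_lit 2726040231) (nat_lit 22) (nat_lit 5) (nat_lit 25) (nat_lit 5) (nat_lit 23) (nat_lit 4) (nat_lit 326) (nat_lit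 299) (nat_lit 275)) (XT.lf (nat_lit 0) (nat_lit 2733607695) (nat_lit 76) (nat_lit 7092387851) (nat_lit 152) (nat_lit 4665517207) (nat_lit 21) (nat_lit 5) (nat_lit 22) (nat_lit 5) (nat_lit 23) (nat_lit 4) (nat_lit 327) (nat_lit 299) (nat_lit 274))) (XT.nd (nat_lit 78) (nat_lit 228) (nat_lit 0) (XT.lf (nat_lit 0) (nat_lit 11383058209) (nat_lit 76) (nat_lit 2709133025) (nat_lit 152) (nat_lit 1152203794) (nat_lit 21) (nat_lit 5) (nat_lit 22) (nat_lit 5) (nat_lit 23) (nat_lit 4) (nat_lit 328) (nat_lit 299) (nat_lit 273)) (XT.lf (nat_lit 0) (nat_lit 2590501403) (nat_lit 228) (nat_lit 11404651491) (nat_lit 76) (nat_lit 2050909431) (nat_lit 18) (nat_lit 5) (nat_lit 21) (nat_lit 5) (nat_lit 19) (nat_lit 4) (nat_lit 329) (nat_lit 299) (nat_lit 272)))) (XT.nd (nat_lit 156) (nat_lit 152) (nat_lit 0) (XT.nd (nat_lit 78) (nat_lit 76) (nat_lit 0) (XT.lf (nat_lit 0) (nat_lit 6666265927) (nat_lit 228)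 (nat_lit 3105067458) (nat_lit 76) (nat_lit 7130536224) (nat_lit 18) (nat_lit 5) (nat_lit 21) (nat_lit 5) (nat_lit 19) (nat_lit 4) (nat_lit 330) (nat_lit 299) (nat_lit 271)) (XT.lf (nat_lit 0) (nat_lit 6028000743) (nat_lit 76) (nat_lit 5108403999) (nat_lit 152) (nat_lit 6684338478) (nat_lit 17) (nat_lit 5) (nat_lit 18) (nat_lit 5) (nat_lit 19) (nat_lit 4) (nat_lit 331) (nat_lit 299) (nat_lit 270))) (XT.nd (nat_lit 78) (nat_lit 152) (nat_lit 0) (XT.lf (nat_lit 0) (nat_lit 15939617244) (nat_lit 76) (nat_lit 35358703) (nat_lit 152) (nat_lit 2837346917) (nat_lit 17) (nat_lit 5) (nat_lit 18) (nat_lit 5) (nat_lit 19) (nat_lit 4) (nat_lit 332) (nat_lit 299) (nat_lit 269)) (XT.lf (nat_lit 0) (nat_lit 1483147316) (nat_lit 152) (nat_lit 13053608923) (nat_lit 76) (nat_lit 5325459358) (nat_lit 15) (nat_lit 5) (nat_lit 17) (nat_lit 5) (nat_lit 16) (nat_lit 4) (nat_lit 333) (nat_lit 299) (nat_lit 268))))))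 (XT.nd (nat_lit 624) (nat_lit 304) (nat_lit 0) (XT.nd (nat_lit 312) (nat_lit 152) (nat_lit 0) (XT.nd (nat_lit 156) (nat_lit 76) (nat_lit 0) (XT.nd (nat_lit 78) (nat_lit 76) (nat_lit 0) (XT.lf (nat_lit 0) (nat_lit 6008160274) (nat_lit 152) (nat_lit 3762729983) (nat_lit 76) (nat_lit 11218389234) (nat_lit 15) (nat_lit 5) (nat_lit 17) (nat_lit 5) (nat_lit 16) (nat_lit 4) (nat_lit 334) (nat_lit 299) (nat_lit 267)) (XT.lf (nat_lit 0) (nat_lit 6480746500) (nat_lit 76) (nat_lit 4506091932) (nat_lit 152) (nat_lit 11212382390) (nat_lit 14) (nat_lit 5) (nat_lit 15) (nat_lit 5) (nat_lit 16) (nat_lit 4) (nat_lit 335) (nat_lit 299) (nat_lit 266))) (XT.nd (nat_lit 78) (nat_lit 76) (nat_lit 0) (XT.lf (nat_lit 0) (nat_lit 16434405766) (nat_lit 152) (nat_lit 5886857403) (nat_lit 0) (nat_lit 1179088790) (nat_lit 14) (nat_lit 5) (nat_lit 16) (nat_lit 4) (nat_lit 14) (nat_lit 4) (nat_lit 336) (nat_lit 299)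 (nat_lit 265)) (XT.lf (nat_lit 0) (nat_lit 4744383948) (nat_lit 76) (nat_lit 17745896422) (nat_lit 76) (nat_lit 2401532039) (nat_lit 13) (nat_lit 4) (nat_lit 14) (nat_lit 5) (nat_lit 14) (nat_lit 4) (nat_lit 337) (nat_lit 299) (nat_lit 264)))) (XT.nd (nat_lit 156) (nat_lit 0) (nat_lit 0) (XT.nd (nat_lit 78) (nat_lit 76) (nat_lit 0) (XT.lf (nat_lit 0) (nat_lit 2610987034) (nat_lit 152) (nat_lit 9995962652) (nat_lit 76) (nat_lit 13774056332) (nat_lit 12) (nat_lit 5) (nat_lit 14) (nat_lit 5) (nat_lit 13) (nat_lit 4) (nat_lit 338) (nat_lit 299) (nat_lit 263)) (XT.lf (nat_lit 0) (nat_lit 848047676) (nat_lit 76) (nat_lit 7013109611) (nat_lit 152) (nat_lit 20125906990) (nat_lit 11) (nat_lit 5) (nat_lit 12) (nat_lit 5) (nat_lit 13) (nat_lit 4) (nat_lit 339) (nat_lit 299) (nat_lit 262))) (XT.nd (nat_lit 78) (nat_lit 0) (nat_lit 0) (XT.lf (nat_lit 0) (nat_lit 13030961992) (nat_lit 76) (nat_lit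 721350592) (nat_lit 152) (nat_lit 15951645546) (nat_lit 11) (nat_lit 5) (nat_lit 12) (nat_lit 5) (nat_lit 13) (nat_lit 4) (nat_lit 340) (nat_lit 299) (nat_lit 261)) (XT.lf (nat_lit 0) (nat_lit 20211378199) (nat_lit 152) (nat_lit 5608578156) (nat_lit 0) (nat_lit 5730544230) (nat_lit 11) (nat_lit 5) (nat_lit 13) (nat_lit 4) (nat_lit 11) (nat_lit 4) (nat_lit 341) (nat_lit 299) (nat_lit 260))))) (XT.nd (nat_lit 312) (nat_lit 76) (nat_lit 0) (XT.nd (nat_lit 156) (nat_lit 152) (nat_lit 0) (XT.nd (nat_lit 78) (nat_lit 0) (nat_lit 0) (XT.lf (nat_lit 0) (nat_lit 6564715052) (nat_lit 76) (nat_lit 20753279425) (nat_lit 76) (nat_lit 6216330486) (nat_lit 10) (nat_lit 4) (nat_lit 11) (nat_lit 5) (nat_lit 11) (nat_lit 4) (nat_lit 342) (nat_lit 299) (nat_lit 259)) (XT.lf (nat_lit 0) (nat_lit 19947076640) (nat_lit 76) (nat_lit 15154996977) (nat_lit 76) (nat_lit 566089732) (nat_lit 10) (nat_lit 4) (nat_lit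 11) (nat_lit 5) (nat_lit 11) (nat_lit 4) (nat_lit 343) (nat_lit 299) (nat_lit 258))) (XT.nd (nat_lit 78) (nat_lit 76) (nat_lit 0) (XT.lf (nat_lit 0) (nat_lit 5217015526) (nat_lit 152) (nat_lit 3785624492) (nat_lit 76) (nat_lit 28962813729) (nat_lit 9) (nat_lit 5) (nat_lit 11) (nat_lit 5) (nat_lit 10) (nat_lit 4) (nat_lit 344) (nat_lit 299) (nat_lit 257)) (XT.lf (nat_lit 0) (nat_lit 9490855224) (nat_lit 76) (nat_lit 2130499528) (nat_lit 152) (nat_lit 28808880861) (nat_lit 8) (nat_lit 5) (nat_lit 9) (nat_lit 5) (nat_lit 10) (nat_lit 4) (nat_lit 345) (nat_lit 299) (nat_lit 256)))) (XT.nd (nat_lit 156) (nat_lit 76) (nat_lit 0) (XT.nd (nat_lit 78) (nat_lit 0) (nat_lit 0) (XT.lf (nat_lit 0) (nat_lit 18732750981) (nat_lit 152) (nat_lit 19243368398) (nat_lit 0) (nat_lit 5100520574) (nat_lit 8) (nat_lit 5) (nat_lit 10) (nat_lit 4) (nat_lit 8) (nat_lit 4) (nat_lit 346) (nat_lit 299) (nat_lit 255))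 (XT.lf (nat_lit 0) (nat_lit 26432523533) (nat_lit 152) (nat_lit 6735760240) (nat_lit 0) (nat_lit 12764931176) (nat_lit 8) (nat_lit 5) (nat_lit 10) (nat_lit 4) (nat_lit 8) (nat_lit 4) (nat_lit 347) (nat_lit 299) (nat_lit 254))) (XT.nd (nat_lit 78) (nat_lit 0) (nat_lit 0) (XT.lf (nat_lit 0) (nat_lit 7062075423) (nat_lit 76) (nat_lit 27822829784) (nat_lit 76) (nat_lit 14122494881) (nat_lit 7) (nat_lit 4) (nat_lit 8) (nat_lit 5) (nat_lit 8) (nat_lit 4) (nat_lit 348) (nat_lit 299) (nat_lit 253)) (XT.lf (nat_lit 0) (nat_lit 22284763346) (nat_lit 76) (nat_lit 21880634213) (nat_lit 76) (nat_lit 8149982137) (nat_lit 7) (nat_lit 4) (nat_lit 8) (nat_lit 5) (nat_lit 8) (nat_lit 4) (nat_lit 349) (nat_lit 299) (nat_lit 252)))))))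
noncomputable def xc93 : XT := (XT.nd (nat_lit 1248) (nat_lit 76) (nat_lit 0) (XT.nd (nat_lit 624) (nat_lit 152) (nat_lit 0) (XT.nd (nat_lit 312) (nat_lit 76) (nat_lit 0) (XT.nd (nat_lit 156) (nat_lit 76) (nat_lit 0) (XT.nd (nat_lit 78) (nat_lit 76) (nat_lit 0) (XT.lf (nat_lit 0) (nat_lit 38667818850) (nat_lit 76) (nat_lit 15490651672) (nat_lit 76) (nat_lit 1731928140) (nat_lit 7) (nat_lit 4) (nat_lit 8) (nat_lit 5) (nat_lit 8) (nat_lit 4) (nat_lit 350) (nat_lit 299) (nat_lit 251)) (XT.lf (nat_lit 0) (nat_lit 4911090690) (nat_lit 152) (nat_lit 3569646984) (nat_lit 76) (nat_lit 51262958096) (nat_lit 6) (nat_lit 5) (nat_lit 8) (nat_lit 5) (nat_lit 7) (nat_lit 4) (nat_lit 351) (nat_lit 299) (nat_lit 250))) (XT.nd (nat_lit 78) (nat_lit 0) (nat_lit 0) (XT.lf (nat_lit 0) (nat_lit 11663337475) (nat_lit 76) (nat_lit 582873988) (nat_lit 152) (nat_lit 51635117762) (nat_lit 5) (nat_lit 5) (nat_lit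 6) (nat_lit 5) (nat_lit 7) (nat_lit 4) (nat_lit 352) (nat_lit 299) (nat_lit 249)) (XT.lf (nat_lit 0) (nat_lit 20433310120) (nat_lit 152) (nat_lit 40268691651) (nat_lit 0) (nat_lit 7626767159) (nat_lit 5) (nat_lit 5) (nat_lit 7) (nat_lit 4) (nat_lit 5) (nat_lit 4) (nat_lit 353) (nat_lit 299) (nat_lit 248)))) (XT.nd (nat_lit 156) (nat_lit 76) (nat_lit 0) (XT.nd (nat_lit 78) (nat_lit 0) (nat_lit 0) (XT.lf (nat_lit 0) (nat_lit 29266360220) (nat_lit 152) (nat_lit 27425660969) (nat_lit 0) (nat_lit 16440712299) (nat_lit 5) (nat_lit 5) (nat_lit 7) (nat_lit 4) (nat_lit 5) (nat_lit 4) (nat_lit 354) (nat_lit 299) (nat_lit 247)) (XT.lf (nat_lit 0) (nat_lit 38783687633) (nat_lit 152) (nat_lit 13598774724) (nat_lit 0) (nat_lit 25940349933) (nat_lit 5) (nat_lit 5) (nat_lit 7) (nat_lit 4) (nat_lit 5) (nat_lit 4) (nat_lit 355) (nat_lit 299) (nat_lit 246))) (XT.nd (nat_lit 78) (nat_lit 0) (nat_lit 0) (XT.lf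 (nat_lit 0) (nat_lit 1362038889) (nat_lit 76) (nat_lit 47712409514) (nat_lit 76) (nat_lit 34852692388) (nat_lit 4) (nat_lit 4) (nat_lit 5) (nat_lit 5) (nat_lit 5) (nat_lit 4) (nat_lit 356) (nat_lit 299) (nat_lit 245)) (XT.lf (nat_lit 0) (nat_lit 18253755456) (nat_lit 76) (nat_lit 42286407298) (nat_lit 76) (nat_lit 29411524039) (nat_lit 4) (nat_lit 4) (nat_lit 5) (nat_lit 5) (nat_lit 5) (nat_lit 4) (nat_lit 357) (nat_lit 299) (nat_lit 244))))) (XT.nd (nat_lit 312) (nat_lit 152) (nat_lit 0) (XT.nd (nat_lit 156) (nat_lit 0) (nat_lit 0) (XT.nd (nat_lit 78) (nat_lit 0) (nat_lit 0) (XT.lf (nat_lit 0) (nat_lit 36460386657) (nat_lit 76) (nat_lit 36444116225) (nat_lit 76) (nat_lit 23555190248) (nat_lit 4) (nat_lit 4) (nat_lit 5) (nat_lit 5) (nat_lit 5) (nat_lit 4) (nat_lit 358) (nat_lit 299) (nat_lit 243)) (XT.lf (nat_lit 0) (nat_lit 56089823643) (nat_lit 76) (nat_lit 30150915309) (nat_lit 76)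 (nat_lit 17248986816) (nat_lit 4) (nat_lit 4) (nat_lit 5) (nat_lit 5) (nat_lit 5) (nat_lit 4) (nat_lit 359) (nat_lit 299) (nat_lit 242))) (XT.nd (nat_lit 78) (nat_lit 0) (nat_lit 0) (XT.lf (nat_lit 0) (nat_lit 77258389001) (nat_lit 76) (nat_lit 23369511508) (nat_lit 76) (nat_lit 10455543649) (nat_lit 4) (nat_lit 4) (nat_lit 5) (nat_lit 5) (nat_lit 5) (nat_lit 4) (nat_lit 360) (nat_lit 299) (nat_lit 241)) (XT.lf (nat_lit 0) (nat_lit 100091526082) (nat_lit 76) (nat_lit 16059718725) (nat_lit 76) (nat_lit 3134603305) (nat_lit 4) (nat_lit 4) (nat_lit 5) (nat_lit 5) (nat_lit 5) (nat_lit 4) (nat_lit 361) (nat_lit 299) (nat_lit 240)))) (XT.nd (nat_lit 156) (nat_lit 0) (nat_lit 0) (XT.nd (nat_lit 78) (nat_lit 76) (nat_lit 0) (XT.lf (nat_lit 0) (nat_lit 4519242276) (nat_lit 152) (nat_lit 3535413301) (nat_lit 76) (nat_lit 120081735996) (nat_lit 3) (nat_lit 5) (nat_lit 5) (nat_lit 5) (nat_lit 4)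 (nat_lit 4) (nat_lit 362) (nat_lit 299) (nat_lit 239)) (XT.lf (nat_lit 0) (nat_lit 12963713487) (nat_lit 152) (nat_lit 123719334505) (nat_lit 0) (nat_lit 977607493) (nat_lit 2) (nat_lit 5) (nat_lit 4) (nat_lit 4) (nat_lit 2) (nat_lit 4) (nat_lit 363) (nat_lit 299) (nat_lit 238))) (XT.nd (nat_lit 78) (nat_lit 0) (nat_lit 0) (XT.lf (nat_lit 0) (nat_lit 22379189592) (nat_lit 152) (nat_lit 115159148920) (nat_lit 0) (nat_lit 10384889808) (nat_lit 2) (nat_lit 5) (nat_lit 4) (nat_lit 4) (nat_lit 2) (nat_lit 4) (nat_lit 364) (nat_lit 299) (nat_lit 237)) (XT.lf (nat_lit 0) (nat_lit 32535922429) (nat_lit 152) (nat_lit 105937810582) (nat_lit 0) (nat_lit 20534035801) (nat_lit 2) (nat_lit 5) (nat_lit 4) (nat_lit 4) (nat_lit 2) (nat_lit 4) (nat_lit 365) (nat_lit 299) (nat_lit 236)))))) (XT.nd (nat_lit 624) (nat_lit 76) (nat_lit 0) (XT.nd (nat_lit 312) (nat_lit 0) (nat_lit 0) (XT.nd (nat_lit 156) (nat_lit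 0) (nat_lit 0) (XT.nd (nat_lit 78) (nat_lit 0) (nat_lit 0) (XT.lf (nat_lit 0) (nat_lit 43494100043) (nat_lit 152) (nat_lit 96000674522) (nat_lit 0) (nat_lit 31485188560) (nat_lit 2) (nat_lit 5) (nat_lit 4) (nat_lit 4) (nat_lit 2) (nat_lit 4) (nat_lit 366) (nat_lit 299) (nat_lit 235)) (XT.lf (nat_lit 0) (nat_lit 55318659783) (nat_lit 152) (nat_lit 85288854009) (nat_lit 0) (nat_lit 43303243805) (nat_lit 2) (nat_lit 5) (nat_lit 4) (nat_lit 4) (nat_lit 2) (nat_lit 4) (nat_lit 367) (nat_lit 299) (nat_lit 234))) (XT.nd (nat_lit 78) (nat_lit 0) (nat_lit 0) (XT.lf (nat_lit 0) (nat_lit 68079673114) (nat_lit 152) (nat_lit 73738871588) (nat_lit 0) (nat_lit 56058234456) (nat_lit 2) (nat_lit 5) (nat_lit 4) (nat_lit 4) (nat_lit 2) (nat_lit 4) (nat_lit 368) (nat_lit 299) (nat_lit 233)) (XT.lf (nat_lit 0) (nat_lit 81852760856) (nat_lit 152) (nat_lit 61282282918) (nat_lit 0) (nat_lit 69825745643) (nat_lit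 2) (nat_lit 5) (nat_lit 4) (nat_lit 4) (nat_lit 2) (nat_lit 4) (nat_lit 369) (nat_lit 299) (nat_lit 232)))) (XT.nd (nat_lit 156) (nat_lit 0) (nat_lit 0) (XT.nd (nat_lit 78) (nat_lit 0) (nat_lit 0) (XT.lf (nat_lit 0) (nat_lit 96719541308) (nat_lit 152) (nat_lit 47845271178) (nat_lit 0) (nat_lit 84687362616) (nat_lit 2) (nat_lit 5) (nat_lit 4) (nat_lit 4) (nat_lit 2) (nat_lit 4) (nat_lit 370) (nat_lit 299) (nat_lit 231)) (XT.lf (nat_lit 0) (nat_lit 112768113907) (nat_lit 152) (nat_lit 33348209631) (nat_lit 0) (nat_lit 100731154218) (nat_lit 2) (nat_lit 5) (nat_lit 4) (nat_lit 4) (nat_lit 2) (nat_lit 4) (nat_lit 371) (nat_lit 299) (nat_lit 230))) (XT.nd (nat_lit 78) (nat_lit 0) (nat_lit 0) (XT.lf (nat_lit 0) (nat_lit 130093581308) (nat_lit 152) (nat_lit 17705189764) (nat_lit 0) (nat_lit 118052194768) (nat_lit 2) (nat_lit 5) (nat_lit 4) (nat_lit 4) (nat_lit 2) (nat_lit 4) (nat_lit 372) (nat_lit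 299) (nat_lit 229)) (XT.lf (nat_lit 0) (nat_lit 148798612946) (nat_lit 152) (nat_lit 823512201) (nat_lit 0) (nat_lit 136753127471) (nat_lit 2) (nat_lit 5) (nat_lit 4) (nat_lit 4) (nat_lit 2) (nat_lit 4) (nat_lit 373) (nat_lit 299) (nat_lit 228))))) (XT.nd (nat_lit 312) (nat_lit 0) (nat_lit 0) (XT.nd (nat_lit 156) (nat_lit 0) (nat_lit 0) (XT.nd (nat_lit 78) (nat_lit 0) (nat_lit 0) (XT.lf (nat_lit 0) (nat_lit 18312950584) (nat_lit 76) (nat_lit 151121529771) (nat_lit 76) (nat_lit 139072248986) (nat_lit 1) (nat_lit 4) (nat_lit 2) (nat_lit 5) (nat_lit 2) (nat_lit 4) (nat_lit 374) (nat_lit 299) (nat_lit 227)) (XT.lf (nat_lit 0) (nat_lit 39015626994) (nat_lit 76) (nat_lit 152722279289) (nat_lit 76) (nat_lit 140669484327) (nat_lit 1) (nat_lit 4) (nat_lit 2) (nat_lit 5) (nat_lit 2) (nat_lit 4) (nat_lit 375) (nat_lit 299) (nat_lit 226))) (XT.nd (nat_lit 78) (nat_lit 0) (nat_lit 0) (XT.lf (nat_lit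 0) (nat_lit 61363834860) (nat_lit 76) (nat_lit 154456375907) (nat_lit 76) (nat_lit 142400327078) (nat_lit 1) (nat_lit 4) (nat_lit 2) (nat_lit 5) (nat_lit 2) (nat_lit 4) (nat_lit 376) (nat_lit 299) (nat_lit 225)) (XT.lf (nat_lit 0) (nat_lit 85490008007) (nat_lit 76) (nat_lit 156334095754) (nat_lit 76) (nat_lit 144275034085) (nat_lit 1) (nat_lit 4) (nat_lit 2) (nat_lit 5) (nat_lit 2) (nat_lit 4) (nat_lit 377) (nat_lit 299) (nat_lit 224)))) (XT.nd (nat_lit 156) (nat_lit 0) (nat_lit 0) (XT.nd (nat_lit 78) (nat_lit 0) (nat_lit 0) (XT.lf (nat_lit 0) (nat_lit 111537116350) (nat_lit 76) (nat_lit 158366566057) (nat_lit 76) (nat_lit 146304714723) (nat_lit 1) (nat_lit 4) (nat_lit 2) (nat_lit 5) (nat_lit 2) (nat_lit 4) (nat_lit 378) (nat_lit 299) (nat_lit 223)) (XT.lf (nat_lit 0) (nat_lit 139659513124) (nat_lit 76) (nat_lit 160565831087) (nat_lit 76) (nat_lit 148501396728) (nat_lit 1) (nat_lit 4)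 (nat_lit 2) (nat_lit 5) (nat_lit 2) (nat_lit 4) (nat_lit 379) (nat_lit 299) (nat_lit 222))) (XT.nd (nat_lit 78) (nat_lit 0) (nat_lit 0) (XT.lf (nat_lit 0) (nat_lit 170023849569) (nat_lit 76) (nat_lit 162944923524) (nat_lit 76) (nat_lit 150878097476) (nat_lit 1) (nat_lit 4) (nat_lit 2) (nat_lit 5) (nat_lit 2) (nat_lit 4) (nat_lit 380) (nat_lit 299) (nat_lit 221)) (XT.nd (nat_lit 78) (nat_lit 0) (nat_lit 0) (XT.lf (nat_lit 0) (nat_lit 202810062493) (nat_lit 76) (nat_lit 165517941694) (nat_lit 76) (nat_lit 153448901119) (nat_lit 1) (nat_lit 4) (nat_lit 2) (nat_lit 5) (nat_lit 2) (nat_lit 4) (nat_lit 381) (nat_lit 299) (nat_lit 220)) (XT.lf (nat_lit 0) (nat_lit 238212440566) (nat_lit 76) (nat_lit 168300133112) (nat_lit 76) (nat_lit 156229042048) (nat_lit 1) (nat_lit 4) (nat_lit 2) (nat_lit 5) (nat_lit 2) (nat_lit 4) (nat_lit 382) (nat_lit 299) (nat_lit 219))))))))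
noncomputable def xc94 : XT := (XT.nd (nat_lit 1248) (nat_lit 0) (nat_lit 0) (XT.nd (nat_lit 624) (nat_lit 0) (nat_lit 0) (XT.nd (nat_lit 312) (nat_lit 0) (nat_lit 0) (XT.nd (nat_lit 156) (nat_lit 0) (nat_lit 0) (XT.nd (nat_lit 78) (nat_lit 0) (nat_lit 0) (XT.lf (nat_lit 0) (nat_lit 276440775657) (nat_lit 76) (nat_lit 171307984838) (nat_lit 76) (nat_lit 159234995175) (nat_lit 1) (nat_lit 4) (nat_lit 2) (nat_lit 5) (nat_lit 2) (nat_lit 4) (nat_lit 383) (nat_lit 299) (nat_lit 218)) (XT.lf (nat_lit 0) (nat_lit 317721606050) (nat_lit 76) (nat_lit 174559321180) (nat_lit 76) (nat_lit 162484573553) (nat_lit 1) (nat_lit 4) (nat_lit 2) (nat_lit 5) (nat_lit 2) (nat_lit 4) (nat_lit 384) (nat_lit 299) (nat_lit 217))) (XT.nd (nat_lit 78) (nat_lit 0) (nat_lit 0) (XT.lf (nat_lit 0) (nat_lit 362299558885) (nat_lit 76) (nat_lit 178073409314) (nat_lit 76) (nat_lit 165997033943) (nat_lit 1) (nat_lit 4)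 (nat_lit 2) (nat_lit 5) (nat_lit 2) (nat_lit 4) (nat_lit 385) (nat_lit 299) (nat_lit 216)) (XT.lf (nat_lit 0) (nat_lit 410438799811) (nat_lit 76) (nat_lit 181871073467) (nat_lit 76) (nat_lit 169793190927) (nat_lit 1) (nat_lit 4) (nat_lit 2) (nat_lit 5) (nat_lit 2) (nat_lit 4) (nat_lit 386) (nat_lit 299) (nat_lit 215)))) (XT.nd (nat_lit 156) (nat_lit 0) (nat_lit 0) (XT.nd (nat_lit 78) (nat_lit 0) (nat_lit 0) (XT.lf (nat_lit 0) (nat_lit 462424598403) (nat_lit 76) (nat_lit 185974818316) (nat_lit 76) (nat_lit 173895540248) (nat_lit 1) (nat_lit 4) (nat_lit 2) (nat_lit 5) (nat_lit 2) (nat_lit 4) (nat_lit 387) (nat_lit 299) (nat_lit 214)) (XT.lf (nat_lit 0) (nat_lit 518565018653) (nat_lit 76) (nat_lit 190408962349) (nat_lit 76) (nat_lit 178328392125) (nat_lit 1) (nat_lit 4) (nat_lit 2) (nat_lit 5) (nat_lit 2) (nat_lit 4) (nat_lit 388) (nat_lit 299) (nat_lit 213))) (XT.nd (nat_lit 78) (nat_lit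 0) (nat_lit 0) (XT.lf (nat_lit 0) (nat_lit 579192744532) (nat_lit 76) (nat_lit 195199781974) (nat_lit 76) (nat_lit 183118015310) (nat_lit 1) (nat_lit 4) (nat_lit 2) (nat_lit 5) (nat_lit 2) (nat_lit 4) (nat_lit 389) (nat_lit 299) (nat_lit 212)) (XT.lf (nat_lit 0) (nat_lit 644667051454) (nat_lit 76) (nat_lit 200375667234) (nat_lit 76) (nat_lit 188292792756) (nat_lit 1) (nat_lit 4) (nat_lit 2) (nat_lit 5) (nat_lit 2) (nat_lit 4) (nat_lit 390) (nat_lit 299) (nat_lit 211))))) (XT.nd (nat_lit 312) (nat_lit 0) (nat_lit 0) (XT.nd (nat_lit 156) (nat_lit 0) (nat_lit 0) (XT.nd (nat_lit 78) (nat_lit 0) (nat_lit 0) (XT.lf (nat_lit 0) (nat_lit 715375935310) (nat_lit 76) (nat_lit 205967290042) (nat_lit 76) (nat_lit 193883389809) (nat_lit 1) (nat_lit 4) (nat_lit 2) (nat_lit 5) (nat_lit 2) (nat_lit 4) (nat_lit 391) (nat_lit 299) (nat_lit 210)) (XT.lf (nat_lit 0) (nat_lit 791738411710) (nat_lit 76) (nat_lit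 212007785939) (nat_lit 76) (nat_lit 199922935933) (nat_lit 1) (nat_lit 4) (nat_lit 2) (nat_lit 5) (nat_lit 2) (nat_lit 4) (nat_lit 392) (nat_lit 299) (nat_lit 209))) (XT.nd (nat_lit 78) (nat_lit 0) (nat_lit 0) (XT.lf (nat_lit 0) (nat_lit 874206999031) (nat_lit 76) (nat_lit 218532950458) (nat_lit 76) (nat_lit 206447221033) (nat_lit 1) (nat_lit 4) (nat_lit 2) (nat_lit 5) (nat_lit 2) (nat_lit 4) (nat_lit 393) (nat_lit 299) (nat_lit 208)) (XT.lf (nat_lit 0) (nat_lit 963270400013) (nat_lit 76) (nat_lit 225581451240) (nat_lit 76) (nat_lit 213494907538) (nat_lit 1) (nat_lit 4) (nat_lit 2) (nat_lit 5) (nat_lit 2) (nat_lit 4) (nat_lit 394) (nat_lit 299) (nat_lit 207)))) (XT.nd (nat_lit 156) (nat_lit 0) (nat_lit 0) (XT.nd (nat_lit 78) (nat_lit 0) (nat_lit 0) (XT.lf (nat_lit 0) (nat_lit 1059456397774) (nat_lit 76) (nat_lit 233195057179) (nat_lit 76) (nat_lit 221107759516) (nat_lit 1) (nat_lit 4)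 (nat_lit 2) (nat_lit 5) (nat_lit 2) (nat_lit 4) (nat_lit 395) (nat_lit 299) (nat_lit 206)) (XT.lf (nat_lit 0) (nat_lit 1163334983411) (nat_lit 76) (nat_lit 241418885938) (nat_lit 76) (nat_lit 229330890165) (nat_lit 1) (nat_lit 4) (nat_lit 2) (nat_lit 5) (nat_lit 2) (nat_lit 4) (nat_lit 396) (nat_lit 299) (nat_lit 205))) (XT.nd (nat_lit 78) (nat_lit 0) (nat_lit 0) (XT.lf (nat_lit 0) (nat_lit 1275521733728) (nat_lit 76) (nat_lit 250301671319) (nat_lit 76) (nat_lit 238213029146) (nat_lit 1) (nat_lit 4) (nat_lit 2) (nat_lit 5) (nat_lit 2) (nat_lit 4) (nat_lit 397) (nat_lit 299) (nat_lit 204)) (XT.lf (nat_lit 0) (nat_lit 1396681459097) (nat_lit 76) (nat_lit 259896052050) (nat_lit 76) (nat_lit 247806811359) (nat_lit 1) (nat_lit 4) (nat_lit 2) (nat_lit 5) (nat_lit 2) (nat_lit 4) (nat_lit 398) (nat_lit 299) (nat_lit 203)))))) (XT.nd (nat_lit 624) (nat_lit 0) (nat_lit 0) (XT.nd (nat_lit 312) (nat_lit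 0) (nat_lit 0) (XT.nd (nat_lit 156) (nat_lit 0) (nat_lit 0) (XT.nd (nat_lit 78) (nat_lit 0) (nat_lit 0) (XT.lf (nat_lit 0) (nat_lit 1527532143077) (nat_lit 76) (nat_lit 270258883719) (nat_lit 76) (nat_lit 258169088845) (nat_lit 1) (nat_lit 4) (nat_lit 2) (nat_lit 5) (nat_lit 2) (nat_lit 4) (nat_lit 399) (nat_lit 299) (nat_lit 202)) (XT.lf (nat_lit 0) (nat_lit 1668849197126) (nat_lit 76) (nat_lit 281451575701) (nat_lit 76) (nat_lit 269361267694) (nat_lit 1) (nat_lit 4) (nat_lit 2) (nat_lit 5) (nat_lit 2) (nat_lit 4) (nat_lit 400) (nat_lit 299) (nat_lit 201))) (XT.nd (nat_lit 78) (nat_lit 0) (nat_lit 0) (XT.lf (nat_lit 0) (nat_lit 1821470055641) (nat_lit 76) (nat_lit 293540455058) (nat_lit 76) (nat_lit 281449671928) (nat_lit 1) (nat_lit 4) (nat_lit 2) (nat_lit 5) (nat_lit 2) (nat_lit 4) (nat_lit 401) (nat_lit 299) (nat_lit 200)) (XT.lf (nat_lit 0) (nat_lit 1986299138523) (nat_lit 76) (nat_lit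 306597159594) (nat_lit 76) (nat_lit 294505936536) (nat_lit 1) (nat_lit 4) (nat_lit 2) (nat_lit 5) (nat_lit 2) (nat_lit 4) (nat_lit 402) (nat_lit 299) (nat_lit 199)))) (XT.nd (nat_lit 156) (nat_lit 0) (nat_lit 0) (XT.nd (nat_lit 78) (nat_lit 0) (nat_lit 0) (XT.lf (nat_lit 0) (nat_lit 2164313210707) (nat_lit 76) (nat_lit 320699062373) (nat_lit 76) (nat_lit 308607431974) (nat_lit 1) (nat_lit 4) (nat_lit 2) (nat_lit 5) (nat_lit 2) (nat_lit 4) (nat_lit 403) (nat_lit 299) (nat_lit 198)) (XT.lf (nat_lit 0) (nat_lit 2356567170400) (nat_lit 76) (nat_lit 335929730226) (nat_lit 76) (nat_lit 323837722659) (nat_lit 1) (nat_lit 4) (nat_lit 2) (nat_lit 5) (nat_lit 2) (nat_lit 4) (nat_lit 404) (nat_lit 299) (nat_lit 197))) (XT.nd (nat_lit 78) (nat_lit 0) (nat_lit 0) (XT.lf (nat_lit 0) (nat_lit 2564200300326) (nat_lit 76) (nat_lit 352379418963) (nat_lit 76) (nat_lit 340287062167) (nat_lit 1) (nat_lit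 4) (nat_lit 2) (nat_lit 5) (nat_lit 2) (nat_lit 4) (nat_lit 405) (nat_lit 299) (nat_lit 196)) (XT.lf (nat_lit 0) (nat_lit 2788443019032) (nat_lit 76) (nat_lit 370145608221) (nat_lit 76) (nat_lit 358052928064) (nat_lit 1) (nat_lit 4) (nat_lit 2) (nat_lit 5) (nat_lit 2) (nat_lit 4) (nat_lit 406) (nat_lit 299) (nat_lit 195))))) (XT.nd (nat_lit 38532) (nat_lit 0) (nat_lit 5244) (XT.nd (nat_lit 156) (nat_lit 0) (nat_lit 0) (XT.nd (nat_lit 78) (nat_lit 0) (nat_lit 0) (XT.lf (nat_lit 0) (nat_lit 3030624172258) (nat_lit 76) (nat_lit 389333579121) (nat_lit 76) (nat_lit 377240599556) (nat_lit 1) (nat_lit 4) (nat_lit 2) (nat_lit 5) (nat_lit 2) (nat_lit 4) (nat_lit 407) (nat_lit 299) (nat_lit 194)) (XT.lf (nat_lit 0) (nat_lit 3292178907580) (nat_lit 76) (nat_lit 410057038158) (nat_lit 76) (nat_lit 397963781363) (nat_lit 1) (nat_lit 4) (nat_lit 2) (nat_lit 5) (nat_lit 2) (nat_lit 4) (nat_lit 408)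 (nat_lit 299) (nat_lit 193))) (XT.nd (nat_lit 78) (nat_lit 0) (nat_lit 0) (XT.lf (nat_lit 0) (nat_lit 3574657178984) (nat_lit 76) (nat_lit 432438791014) (nat_lit 76) (nat_lit 420345277525) (nat_lit 1) (nat_lit 4) (nat_lit 2) (nat_lit 5) (nat_lit 2) (nat_lit 4) (nat_lit 409) (nat_lit 299) (nat_lit 192)) (XT.lf (nat_lit 0) (nat_lit 3879732931782) (nat_lit 76) (nat_lit 456611470299) (nat_lit 76) (nat_lit 444517719131) (nat_lit 1) (nat_lit 4) (nat_lit 2) (nat_lit 5) (nat_lit 2) (nat_lit 4) (nat_lit 410) (nat_lit 299) (nat_lit 191)))) (XT.nd (nat_lit 156) (nat_lit 304) (nat_lit 0) (XT.nd (nat_lit 78) (nat_lit 76) (nat_lit 0) (XT.lf (nat_lit 0) (nat_lit 1073741823) (nat_lit 0) (nat_lit 0) (nat_lit 0) (nat_lit 0) (nat_lit 75) (nat_lit 0) (nat_lit 1) (nat_lit 0) (nat_lit 1) (nat_lit 0) (nat_lit 300) (nat_lit 300) (nat_lit 300)) (XT.lf (nat_lit 0) (nat_lit 2995998440) (nat_lit 76) (nat_lit 3299391748)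 (nat_lit 0) (nat_lit 153565223) (nat_lit 74) (nat_lit 5) (nat_lit 75) (nat_lit 0) (nat_lit 74) (nat_lit 4) (nat_lit 301) (nat_lit 300) (nat_lit 299))) (XT.nd (nat_lit 78) (nat_lit 304) (nat_lit 0) (XT.lf (nat_lit 0) (nat_lit 5935921511) (nat_lit 76) (nat_lit 83265384) (nat_lit 0) (nat_lit 461605685) (nat_lit 74) (nat_lit 5) (nat_lit 75) (nat_lit 0) (nat_lit 74) (nat_lit 4) (nat_lit 302) (nat_lit 300) (nat_lit 298)) (XT.nd (nat_lit 78) (nat_lit 152) (nat_lit 0) (XT.lf (nat_lit 0) (nat_lit 2267798466) (nat_lit 152) (nat_lit 3194223356) (nat_lit 76) (nat_lit 1065004664) (nat_lit 72) (nat_lit 5) (nat_lit 74) (nat_lit 5) (nat_lit 73) (nat_lit 4) (nat_lit 303) (nat_lit 300) (nat_lit 297)) (XT.lf (nat_lit 0) (nat_lit 273742613) (nat_lit 152) (nat_lit 4746162151) (nat_lit 228) (nat_lit 1577327743) (nat_lit 70) (nat_lit 5) (nat_lit 72) (nat_lit 5) (nat_lit 73) (nat_lit 4) (nat_lit 304) (nat_lit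 300) (nat_lit 296))))))))
noncomputable def xc95 : XT := (XT.nd (nat_lit 1248) (nat_lit 1368) (nat_lit 0) (XT.nd (nat_lit 624) (nat_lit 1292) (nat_lit 0) (XT.nd (nat_lit 312) (nat_lit 912) (nat_lit 0) (XT.nd (nat_lit 156) (nat_lit 380) (nat_lit 0) (XT.nd (nat_lit 78) (nat_lit 228) (nat_lit 0) (XT.lf (nat_lit 0) (nat_lit 1085907566) (nat_lit 228) (nat_lit 2684968754) (nat_lit 76) (nat_lit 2913802994) (nat_lit 69) (nat_lit 5) (nat_lit 72) (nat_lit 5) (nat_lit 70) (nat_lit 5) (nat_lit 305) (nat_lit 300) (nat_lit 295)) (XT.lf (nat_lit 0) (nat_lit 1086037582) (nat_lit 228) (nat_lit 2579258139) (nat_lit 304) (nat_lit 3128209633) (nat_lit 66) (nat_lit 5) (nat_lit 69) (nat_lit 5) (nat_lit 70) (nat_lit 5) (nat_lit 306) (nat_lit 300) (nat_lit 294))) (XT.nd (nat_lit 78) (nat_lit 380) (nat_lit 0) (XT.lf (nat_lit 0) (nat_lit 5143819326) (nat_lit 228) (nat_lit 1156403490) (nat_lit 304) (nat_lit 623551766)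 (nat_lit 66) (nat_lit 5) (nat_lit 69) (nat_lit 5) (nat_lit 70) (nat_lit 5) (nat_lit 307) (nat_lit 300) (nat_lit 293)) (XT.lf (nat_lit 0) (nat_lit 1833626192) (nat_lit 380) (nat_lit 4723731717) (nat_lit 76) (nat_lit 515177202) (nat_lit 61) (nat_lit 5) (nat_lit 66) (nat_lit 5) (nat_lit 62) (nat_lit 5) (nat_lit 308) (nat_lit 300) (nat_lit 292)))) (XT.nd (nat_lit 156) (nat_lit 532) (nat_lit 0) (XT.nd (nat_lit 78) (nat_lit 380) (nat_lit 0) (XT.lf (nat_lit 0) (nat_lit 4332902465) (nat_lit 380) (nat_lit 548096620) (nat_lit 76) (nat_lit 2361098302) (nat_lit 61) (nat_lit 5) (nat_lit 66) (nat_lit 5) (nat_lit 62) (nat_lit 5) (nat_lit 309) (nat_lit 300) (nat_lit 291)) (XT.lf (nat_lit 0) (nat_lit 3994379124) (nat_lit 380) (nat_lit 2947921817) (nat_lit 456) (nat_lit 490603338) (nat_lit 56) (nat_lit 5) (nat_lit 61) (nat_lit 5) (nat_lit 62) (nat_lit 5) (nat_lit 310) (nat_lit 300) (nat_lit 290))) (XT.nd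 (nat_lit 78) (nat_lit 0) (nat_lit 0) (XT.lf (nat_lit 0) (nat_lit 1125799725) (nat_lit 456) (nat_lit 750964114) (nat_lit 532) (nat_lit 5769640674) (nat_lit 49) (nat_lit 5) (nat_lit 55) (nat_lit 5) (nat_lit 56) (nat_lit 5) (nat_lit 311) (nat_lit 300) (nat_lit 289)) (XT.lf (nat_lit 0) (nat_lit 4370877856) (nat_lit 532) (nat_lit 1855414508) (nat_lit 76) (nat_lit 1652956127) (nat_lit 49) (nat_lit 5) (nat_lit 56) (nat_lit 5) (nat_lit 50) (nat_lit 5) (nat_lit 312) (nat_lit 300) (nat_lit 288))))) (XT.nd (nat_lit 312) (nat_lit 456) (nat_lit 0) (XT.nd (nat_lit 156) (nat_lit 228) (nat_lit 0) (XT.nd (nat_lit 78) (nat_lit 304) (nat_lit 0) (XT.lf (nat_lit 0) (nat_lit 3152105876) (nat_lit 304) (nat_lit 3848842167) (nat_lit 380) (nat_lit 1135220916) (nat_lit 45) (nat_lit 5) (nat_lit 49) (nat_lit 5) (nat_lit 50) (nat_lit 5) (nat_lit 313) (nat_lit 300) (nat_lit 287)) (XT.lf (nat_lit 0) (nat_lit 49722771)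 (nat_lit 228) (nat_lit 1204554552) (nat_lit 304) (nat_lit 7165096423) (nat_lit 41) (nat_lit 5) (nat_lit 44) (nat_lit 5) (nat_lit 45) (nat_lit 5) (nat_lit 314) (nat_lit 300) (nat_lit 286))) (XT.nd (nat_lit 78) (nat_lit 228) (nat_lit 0) (XT.lf (nat_lit 0) (nat_lit 3804744657) (nat_lit 304) (nat_lit 3197910500) (nat_lit 76) (nat_lit 1718017875) (nat_lit 41) (nat_lit 5) (nat_lit 45) (nat_lit 5) (nat_lit 42) (nat_lit 5) (nat_lit 315) (nat_lit 300) (nat_lit 285)) (XT.lf (nat_lit 0) (nat_lit 2304431326) (nat_lit 228) (nat_lit 4204133050) (nat_lit 304) (nat_lit 2541833598) (nat_lit 38) (nat_lit 5) (nat_lit 41) (nat_lit 5) (nat_lit 42) (nat_lit 5) (nat_lit 316) (nat_lit 300) (nat_lit 284)))) (XT.nd (nat_lit 156) (nat_lit 228) (nat_lit 0) (XT.nd (nat_lit 78) (nat_lit 228) (nat_lit 0) (XT.lf (nat_lit 0) (nat_lit 8265931842) (nat_lit 228) (nat_lit 1119060260) (nat_lit 304) (nat_lit 25251760) (nat_lit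 38) (nat_lit 5) (nat_lit 41) (nat_lit 5) (nat_lit 42) (nat_lit 5) (nat_lit 317) (nat_lit 300) (nat_lit 283)) (XT.lf (nat_lit 0) (nat_lit 2608917442) (nat_lit 228) (nat_lit 4921890676) (nat_lit 76) (nat_lit 2259023838) (nat_lit 35) (nat_lit 5) (nat_lit 38) (nat_lit 5) (nat_lit 36) (nat_lit 5) (nat_lit 318) (nat_lit 300) (nat_lit 282))) (XT.nd (nat_lit 78) (nat_lit 0) (nat_lit 0) (XT.lf (nat_lit 0) (nat_lit 1090450537) (nat_lit 228) (nat_lit 4329328119) (nat_lit 304) (nat_lit 4782766342) (nat_lit 32) (nat_lit 5) (nat_lit 35) (nat_lit 5) (nat_lit 36) (nat_lit 5) (nat_lit 319) (nat_lit 300) (nat_lit 281)) (XT.lf (nat_lit 0) (nat_lit 7705274117) (nat_lit 228) (nat_lit 769822634) (nat_lit 304) (nat_lit 2171792953) (nat_lit 32) (nat_lit 5) (nat_lit 35) (nat_lit 5) (nat_lit 36) (nat_lit 5) (nat_lit 320) (nat_lit 300) (nat_lit 280)))))) (XT.nd (nat_lit 624) (nat_lit 532) (nat_lit 0) (XT.nd (nat_lit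 312) (nat_lit 304) (nat_lit 0) (XT.nd (nat_lit 156) (nat_lit 304) (nat_lit 0) (XT.nd (nat_lit 78) (nat_lit 0) (nat_lit 0) (XT.lf (nat_lit 0) (nat_lit 671872897) (nat_lit 228) (nat_lit 7461406038) (nat_lit 76) (nat_lit 2987913280) (nat_lit 29) (nat_lit 5) (nat_lit 32) (nat_lit 5) (nat_lit 30) (nat_lit 5) (nat_lit 321) (nat_lit 300) (nat_lit 279)) (XT.lf (nat_lit 0) (nat_lit 3622290285) (nat_lit 228) (nat_lit 905120950) (nat_lit 76) (nat_lit 7101931761) (nat_lit 29) (nat_lit 5) (nat_lit 32) (nat_lit 5) (nat_lit 30) (nat_lit 5) (nat_lit 322) (nat_lit 300) (nat_lit 278))) (XT.nd (nat_lit 78) (nat_lit 152) (nat_lit 0) (XT.lf (nat_lit 0) (nat_lit 6348607362) (nat_lit 152) (nat_lit 514741990) (nat_lit 228) (nat_lit 5310561348) (nat_lit 27) (nat_lit 5) (nat_lit 29) (nat_lit 5) (nat_lit 30) (nat_lit 5) (nat_lit 323) (nat_lit 300) (nat_lit 277)) (XT.lf (nat_lit 0) (nat_lit 1299023443) (nat_lit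 152) (nat_lit 9117820645) (nat_lit 228) (nat_lit 2341071290) (nat_lit 25) (nat_lit 5) (nat_lit 27) (nat_lit 5) (nat_lit 28) (nat_lit 4) (nat_lit 324) (nat_lit 300) (nat_lit 276)))) (XT.nd (nat_lit 156) (nat_lit 76) (nat_lit 0) (XT.nd (nat_lit 78) (nat_lit 152) (nat_lit 0) (XT.lf (nat_lit 0) (nat_lit 905224774) (nat_lit 228) (nat_lit 4238493783) (nat_lit 76) (nat_lit 8236756402) (nat_lit 24) (nat_lit 5) (nat_lit 27) (nat_lit 5) (nat_lit 25) (nat_lit 5) (nat_lit 325) (nat_lit 300) (nat_lit 275)) (XT.lf (nat_lit 0) (nat_lit 3537886250) (nat_lit 152) (nat_lit 744710217) (nat_lit 228) (nat_lit 9765648373) (nat_lit 22) (nat_lit 5) (nat_lit 24) (nat_lit 5) (nat_lit 25) (nat_lit 5) (nat_lit 326) (nat_lit 300) (nat_lit 274))) (XT.nd (nat_lit 78) (nat_lit 76) (nat_lit 0) (XT.lf (nat_lit 0) (nat_lit 8060190689) (nat_lit 228) (nat_lit 2822035404) (nat_lit 76) (nat_lit 3876898467) (nat_lit 22) (nat_lit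 5) (nat_lit 25) (nat_lit 5) (nat_lit 23) (nat_lit 4) (nat_lit 327) (nat_lit 300) (nat_lit 273)) (XT.lf (nat_lit 0) (nat_lit 5613238964) (nat_lit 76) (nat_lit 6602192482) (nat_lit 152) (nat_lit 3305492238) (nat_lit 21) (nat_lit 5) (nat_lit 22) (nat_lit 5) (nat_lit 23) (nat_lit 4) (nat_lit 328) (nat_lit 300) (nat_lit 272))))) (XT.nd (nat_lit 312) (nat_lit 228) (nat_lit 0) (XT.nd (nat_lit 156) (nat_lit 76) (nat_lit 0) (XT.nd (nat_lit 78) (nat_lit 152) (nat_lit 0) (XT.lf (nat_lit 0) (nat_lit 342462670) (nat_lit 152) (nat_lit 1594790796) (nat_lit 76) (nat_lit 14405712448) (nat_lit 20) (nat_lit 5) (nat_lit 22) (nat_lit 5) (nat_lit 21) (nat_lit 5) (nat_lit 329) (nat_lit 300) (nat_lit 271)) (XT.lf (nat_lit 0) (nat_lit 4293357087) (nat_lit 228) (nat_lit 9741216602) (nat_lit 76) (nat_lit 3174221230) (nat_lit 18) (nat_lit 5) (nat_lit 21) (nat_lit 5) (nat_lit 19) (nat_lit 4) (nat_lit 330) (nat_lit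 300) (nat_lit 270))) (XT.nd (nat_lit 78) (nat_lit 76) (nat_lit 0) (XT.lf (nat_lit 0) (nat_lit 8584396434) (nat_lit 228) (nat_lit 968466366) (nat_lit 76) (nat_lit 8589163422) (nat_lit 18) (nat_lit 5) (nat_lit 21) (nat_lit 5) (nat_lit 19) (nat_lit 4) (nat_lit 331) (nat_lit 300) (nat_lit 269)) (XT.lf (nat_lit 0) (nat_lit 8834867381) (nat_lit 76) (nat_lit 4530606356) (nat_lit 152) (nat_lit 5772759173) (nat_lit 17) (nat_lit 5) (nat_lit 18) (nat_lit 5) (nat_lit 19) (nat_lit 4) (nat_lit 332) (nat_lit 300) (nat_lit 268)))) (XT.nd (nat_lit 156) (nat_lit 76) (nat_lit 0) (XT.nd (nat_lit 78) (nat_lit 152) (nat_lit 0) (XT.lf (nat_lit 0) (nat_lit 18513056765) (nat_lit 152) (nat_lit 870981699) (nat_lit 0) (nat_lit 831429129) (nat_lit 17) (nat_lit 5) (nat_lit 19) (nat_lit 4) (nat_lit 17) (nat_lit 4) (nat_lit 333) (nat_lit 300) (nat_lit 267)) (XT.lf (nat_lit 0) (nat_lit 2854276314) (nat_lit 152) (nat_lit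 11856906986) (nat_lit 76) (nat_lit 6638924468) (nat_lit 15) (nat_lit 5) (nat_lit 17) (nat_lit 5) (nat_lit 16) (nat_lit 4) (nat_lit 334) (nat_lit 300) (nat_lit 266))) (XT.nd (nat_lit 78) (nat_lit 76) (nat_lit 0) (XT.lf (nat_lit 0) (nat_lit 7648514219) (nat_lit 152) (nat_lit 1988757039) (nat_lit 76) (nat_lit 12937553299) (nat_lit 15) (nat_lit 5) (nat_lit 17) (nat_lit 5) (nat_lit 16) (nat_lit 4) (nat_lit 335) (nat_lit 300) (nat_lit 265)) (XT.nd (nat_lit 78) (nat_lit 0) (nat_lit 0) (XT.lf (nat_lit 0) (nat_lit 9021666137) (nat_lit 76) (nat_lit 3966556916) (nat_lit 152) (nat_lit 10896380058) (nat_lit 14) (nat_lit 5) (nat_lit 15) (nat_lit 5) (nat_lit 16) (nat_lit 4) (nat_lit 336) (nat_lit 300) (nat_lit 264)) (XT.lf (nat_lit 0) (nat_lit 18808494436) (nat_lit 152) (nat_lit 4421352538) (nat_lit 0) (nat_lit 2065082195) (nat_lit 14) (nat_lit 5) (nat_lit 16) (nat_lit 4) (nat_lit 14) (nat_lit 4) (nat_lit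 337) (nat_lit 300) (nat_lit 263))))))))
noncomputable def xc96 : XT := (XT.nd (nat_lit 1248) (nat_lit 228) (nat_lit 0) (XT.nd (nat_lit 624) (nat_lit 304) (nat_lit 0) (XT.nd (nat_lit 312) (nat_lit 152) (nat_lit 0) (XT.nd (nat_lit 156) (nat_lit 76) (nat_lit 0) (XT.nd (nat_lit 78) (nat_lit 76) (nat_lit 0) (XT.lf (nat_lit 0) (nat_lit 7011363984) (nat_lit 76) (nat_lit 18304398397) (nat_lit 76) (nat_lit 1484642358) (nat_lit 13) (nat_lit 4) (nat_lit 14) (nat_lit 5) (nat_lit 14) (nat_lit 4) (nat_lit 338) (nat_lit 300) (nat_lit 262)) (XT.lf (nat_lit 0) (nat_lit 3795361331) (nat_lit 152) (nat_lit 8996093171) (nat_lit 76) (nat_lit 15621433473) (nat_lit 12) (nat_lit 5) (nat_lit 14) (nat_lit 5) (nat_lit 13) (nat_lit 4) (nat_lit 339) (nat_lit 300) (nat_lit 261))) (XT.nd (nat_lit 78) (nat_lit 0) (nat_lit 0) (XT.lf (nat_lit 0) (nat_lit 2669879844) (nat_lit 76) (nat_lit 6765589908) (nat_lit 152) (nat_lit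 20714408578) (nat_lit 11) (nat_lit 5) (nat_lit 12) (nat_lit 5) (nat_lit 13) (nat_lit 4) (nat_lit 340) (nat_lit 300) (nat_lit 260)) (XT.lf (nat_lit 0) (nat_lit 15697502242) (nat_lit 76) (nat_lit 30384129) (nat_lit 152) (nat_lit 16281878143) (nat_lit 11) (nat_lit 5) (nat_lit 12) (nat_lit 5) (nat_lit 13) (nat_lit 4) (nat_lit 341) (nat_lit 300) (nat_lit 259)))) (XT.nd (nat_lit 156) (nat_lit 76) (nat_lit 0) (XT.nd (nat_lit 78) (nat_lit 76) (nat_lit 0) (XT.lf (nat_lit 0) (nat_lit 22655505510) (nat_lit 152) (nat_lit 4504886707) (nat_lit 0) (nat_lit 6847527379) (nat_lit 11) (nat_lit 5) (nat_lit 13) (nat_lit 4) (nat_lit 11) (nat_lit 4) (nat_lit 342) (nat_lit 300) (nat_lit 258)) (XT.lf (nat_lit 0) (nat_lit 8602969256) (nat_lit 76) (nat_lit 21702796036) (nat_lit 76) (nat_lit 5846708362) (nat_lit 10) (nat_lit 4) (nat_lit 11) (nat_lit 5) (nat_lit 11) (nat_lit 4) (nat_lit 343) (nat_lit 300) (nat_lit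 257))) (XT.nd (nat_lit 78) (nat_lit 0) (nat_lit 0) (XT.lf (nat_lit 0) (nat_lit 181763383) (nat_lit 152) (nat_lit 15522565708) (nat_lit 76) (nat_lit 22757106877) (nat_lit 9) (nat_lit 5) (nat_lit 11) (nat_lit 5) (nat_lit 10) (nat_lit 4) (nat_lit 344) (nat_lit 300) (nat_lit 256)) (XT.lf (nat_lit 0) (nat_lit 6340447829) (nat_lit 152) (nat_lit 2753748239) (nat_lit 76) (nat_lit 31851682183) (nat_lit 9) (nat_lit 5) (nat_lit 11) (nat_lit 5) (nat_lit 10) (nat_lit 4) (nat_lit 345) (nat_lit 300) (nat_lit 255))))) (XT.nd (nat_lit 312) (nat_lit 152) (nat_lit 0) (XT.nd (nat_lit 156) (nat_lit 76) (nat_lit 0) (XT.nd (nat_lit 78) (nat_lit 0) (nat_lit 0) (XT.lf (nat_lit 0) (nat_lit 11551059317) (nat_lit 76) (nat_lit 1685060850) (nat_lit 152) (nat_lit 30373427777) (nat_lit 8) (nat_lit 5) (nat_lit 9) (nat_lit 5) (nat_lit 10) (nat_lit 4) (nat_lit 346) (nat_lit 300) (nat_lit 254)) (XT.lf (nat_lit 0) (nat_lit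 20879397847) (nat_lit 152) (nat_lit 19540957966) (nat_lit 0) (nat_lit 6050293605) (nat_lit 8) (nat_lit 5) (nat_lit 10) (nat_lit 4) (nat_lit 8) (nat_lit 4) (nat_lit 347) (nat_lit 300) (nat_lit 253))) (XT.nd (nat_lit 78) (nat_lit 76) (nat_lit 0) (XT.lf (nat_lit 0) (nat_lit 29147150219) (nat_lit 152) (nat_lit 6124732259) (nat_lit 0) (nat_lit 14287728804) (nat_lit 8) (nat_lit 5) (nat_lit 10) (nat_lit 4) (nat_lit 8) (nat_lit 4) (nat_lit 348) (nat_lit 300) (nat_lit 252)) (XT.lf (nat_lit 0) (nat_lit 8747819149) (nat_lit 76) (nat_lit 29510411728) (nat_lit 76) (nat_lit 14622918857) (nat_lit 7) (nat_lit 4) (nat_lit 8) (nat_lit 5) (nat_lit 8) (nat_lit 4) (nat_lit 349) (nat_lit 300) (nat_lit 251)))) (XT.nd (nat_lit 156) (nat_lit 152) (nat_lit 0) (XT.nd (nat_lit 78) (nat_lit 0) (nat_lit 0) (XT.lf (nat_lit 0) (nat_lit 25105301535) (nat_lit 76) (nat_lit 23132710470) (nat_lit 76) (nat_lit 8219225510)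 (nat_lit 7) (nat_lit 4) (nat_lit 8) (nat_lit 5) (nat_lit 8) (nat_lit 4) (nat_lit 350) (nat_lit 300) (nat_lit 250)) (XT.lf (nat_lit 0) (nat_lit 42722130582) (nat_lit 76) (nat_lit 16268445954) (nat_lit 76) (nat_lit 1330894245) (nat_lit 7) (nat_lit 4) (nat_lit 8) (nat_lit 5) (nat_lit 8) (nat_lit 4) (nat_lit 351) (nat_lit 300) (nat_lit 249))) (XT.nd (nat_lit 78) (nat_lit 76) (nat_lit 0) (XT.lf (nat_lit 0) (nat_lit 5778603651) (nat_lit 152) (nat_lit 2940340140) (nat_lit 76) (nat_lit 55766101397) (nat_lit 6) (nat_lit 5) (nat_lit 8) (nat_lit 5) (nat_lit 7) (nat_lit 4) (nat_lit 352) (nat_lit 300) (nat_lit 248)) (XT.lf (nat_lit 0) (nat_lit 13488121592) (nat_lit 76) (nat_lit 198700852) (nat_lit 152) (nat_lit 55267976857) (nat_lit 5) (nat_lit 5) (nat_lit 6) (nat_lit 5) (nat_lit 7) (nat_lit 4) (nat_lit 353) (nat_lit 300) (nat_lit 247)))))) (XT.nd (nat_lit 624) (nat_lit 152) (nat_lit 0) (XT.nd (nat_lit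 312) (nat_lit 0) (nat_lit 0) (XT.nd (nat_lit 156) (nat_lit 76) (nat_lit 0) (XT.nd (nat_lit 78) (nat_lit 0) (nat_lit 0) (XT.lf (nat_lit 0) (nat_lit 22504340566) (nat_lit 152) (nat_lit 42639823504) (nat_lit 0) (nat_lit 8615846071) (nat_lit 5) (nat_lit 5) (nat_lit 7) (nat_lit 4) (nat_lit 5) (nat_lit 4) (nat_lit 354) (nat_lit 300) (nat_lit 246)) (XT.lf (nat_lit 0) (nat_lit 32011711294) (nat_lit 152) (nat_lit 28832340255) (nat_lit 0) (nat_lit 18106837374) (nat_lit 5) (nat_lit 5) (nat_lit 7) (nat_lit 4) (nat_lit 5) (nat_lit 4) (nat_lit 355) (nat_lit 300) (nat_lit 245))) (XT.nd (nat_lit 78) (nat_lit 76) (nat_lit 0) (XT.lf (nat_lit 0) (nat_lit 42260495844) (nat_lit 152) (nat_lit 13957627080) (nat_lit 0) (nat_lit 28340455789) (nat_lit 5) (nat_lit 5) (nat_lit 7) (nat_lit 4) (nat_lit 5) (nat_lit 4) (nat_lit 356) (nat_lit 300) (nat_lit 244)) (XT.lf (nat_lit 0) (nat_lit 2181594670) (nat_lit 76) (nat_lit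 51182300488) (nat_lit 76) (nat_lit 37248217716) (nat_lit 4) (nat_lit 4) (nat_lit 5) (nat_lit 5) (nat_lit 5) (nat_lit 4) (nat_lit 357) (nat_lit 300) (nat_lit 243)))) (XT.nd (nat_lit 156) (nat_lit 0) (nat_lit 0) (XT.nd (nat_lit 78) (nat_lit 0) (nat_lit 0) (XT.lf (nat_lit 0) (nat_lit 20372012067) (nat_lit 76) (nat_lit 45347929339) (nat_lit 76) (nat_lit 31400844051) (nat_lit 4) (nat_lit 4) (nat_lit 5) (nat_lit 5) (nat_lit 5) (nat_lit 4) (nat_lit 358) (nat_lit 300) (nat_lit 242)) (XT.lf (nat_lit 0) (nat_lit 39986436271) (nat_lit 76) (nat_lit 39062061686) (nat_lit 76) (nat_lit 25102937032) (nat_lit 4) (nat_lit 4) (nat_lit 5) (nat_lit 5) (nat_lit 5) (nat_lit 4) (nat_lit 359) (nat_lit 300) (nat_lit 241))) (XT.nd (nat_lit 78) (nat_lit 0) (nat_lit 0) (XT.lf (nat_lit 0) (nat_lit 61141100905) (nat_lit 76) (nat_lit 32287447944) (nat_lit 76) (nat_lit 18317175729) (nat_lit 4) (nat_lit 4) (nat_lit 5)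 (nat_lit 5) (nat_lit 5) (nat_lit 4) (nat_lit 360) (nat_lit 300) (nat_lit 240)) (XT.lf (nat_lit 0) (nat_lit 83961366946) (nat_lit 76) (nat_lit 24983942253) (nat_lit 76) (nat_lit 11003348221) (nat_lit 4) (nat_lit 4) (nat_lit 5) (nat_lit 5) (nat_lit 5) (nat_lit 4) (nat_lit 361) (nat_lit 300) (nat_lit 239))))) (XT.nd (nat_lit 312) (nat_lit 0) (nat_lit 0) (XT.nd (nat_lit 156) (nat_lit 76) (nat_lit 0) (XT.nd (nat_lit 78) (nat_lit 76) (nat_lit 0) (XT.lf (nat_lit 0) (nat_lit 108582465599) (nat_lit 76) (nat_lit 17108264579) (nat_lit 76) (nat_lit 3118113310) (nat_lit 4) (nat_lit 4) (nat_lit 5) (nat_lit 5) (nat_lit 5) (nat_lit 4) (nat_lit 362) (nat_lit 300) (nat_lit 238)) (XT.lf (nat_lit 0) (nat_lit 5115863990) (nat_lit 152) (nat_lit 3358003462) (nat_lit 76) (nat_lit 129894558894) (nat_lit 3) (nat_lit 5) (nat_lit 5) (nat_lit 5) (nat_lit 4) (nat_lit 4) (nat_lit 363) (nat_lit 300) (nat_lit 237)))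 (XT.nd (nat_lit 78) (nat_lit 0) (nat_lit 0) (XT.lf (nat_lit 0) (nat_lit 14234562242) (nat_lit 152) (nat_lit 133155242923) (nat_lit 0) (nat_lit 1264937841) (nat_lit 2) (nat_lit 5) (nat_lit 4) (nat_lit 4) (nat_lit 2) (nat_lit 4) (nat_lit 364) (nat_lit 300) (nat_lit 236)) (XT.lf (nat_lit 0) (nat_lit 24385961497) (nat_lit 152) (nat_lit 123944437924) (nat_lit 0) (nat_lit 11409312241) (nat_lit 2) (nat_lit 5) (nat_lit 4) (nat_lit 4) (nat_lit 2) (nat_lit 4) (nat_lit 365) (nat_lit 300) (nat_lit 235)))) (XT.nd (nat_lit 156) (nat_lit 0) (nat_lit 0) (XT.nd (nat_lit 78) (nat_lit 0) (nat_lit 0) (XT.lf (nat_lit 0) (nat_lit 35339200609) (nat_lit 152) (nat_lit 114017054956) (nat_lit 0) (nat_lit 22356046859) (nat_lit 2) (nat_lit 5) (nat_lit 4) (nat_lit 4) (nat_lit 2) (nat_lit 4) (nat_lit 366) (nat_lit 300) (nat_lit 234)) (XT.lf (nat_lit 0) (nat_lit 47159187663) (nat_lit 152) (nat_lit 103314265084) (nat_lit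 0) (nat_lit 34170011232) (nat_lit 2) (nat_lit 5) (nat_lit 4) (nat_lit 4) (nat_lit 2) (nat_lit 4) (nat_lit 367) (nat_lit 300) (nat_lit 233))) (XT.nd (nat_lit 78) (nat_lit 0) (nat_lit 0) (XT.lf (nat_lit 0) (nat_lit 59915967025) (nat_lit 152) (nat_lit 91772644367) (nat_lit 0) (nat_lit 46921214038) (nat_lit 2) (nat_lit 5) (nat_lit 4) (nat_lit 4) (nat_lit 2) (nat_lit 4) (nat_lit 368) (nat_lit 300) (nat_lit 232)) (XT.lf (nat_lit 0) (nat_lit 73685134426) (nat_lit 152) (nat_lit 79323798016) (nat_lit 0) (nat_lit 60685217961) (nat_lit 2) (nat_lit 5) (nat_lit 4) (nat_lit 4) (nat_lit 2) (nat_lit 4) (nat_lit 369) (nat_lit 300) (nat_lit 231)))))))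
noncomputable def xc97 : XT := (XT.nd (nat_lit 1248) (nat_lit 0) (nat_lit 0) (XT.nd (nat_lit 624) (nat_lit 0) (nat_lit 0) (XT.nd (nat_lit 312) (nat_lit 76) (nat_lit 0) (XT.nd (nat_lit 156) (nat_lit 0) (nat_lit 0) (XT.nd (nat_lit 78) (nat_lit 0) (nat_lit 0) (XT.lf (nat_lit 0) (nat_lit 88548284931) (nat_lit 152) (nat_lit 65893955089) (nat_lit 0) (nat_lit 75543587468) (nat_lit 2) (nat_lit 5) (nat_lit 4) (nat_lit 4) (nat_lit 2) (nat_lit 4) (nat_lit 370) (nat_lit 300) (nat_lit 230)) (XT.lf (nat_lit 0) (nat_lit 104593496470) (nat_lit 152) (nat_lit 51403531333) (nat_lit 0) (nat_lit 91584372157) (nat_lit 2) (nat_lit 5) (nat_lit 4) (nat_lit 4) (nat_lit 2) (nat_lit 4) (nat_lit 371) (nat_lit 300) (nat_lit 229))) (XT.nd (nat_lit 78) (nat_lit 0) (nat_lit 0) (XT.lf (nat_lit 0) (nat_lit 121915851777) (nat_lit 152) (nat_lit 35766657569) (nat_lit 0) (nat_lit 108902628529) (nat_lit 2) (nat_lit 5) (nat_lit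 4) (nat_lit 4) (nat_lit 2) (nat_lit 4) (nat_lit 372) (nat_lit 300) (nat_lit 228)) (XT.lf (nat_lit 0) (nat_lit 140618001847) (nat_lit 152) (nat_lit 18890670841) (nat_lit 0) (nat_lit 127600983289) (nat_lit 2) (nat_lit 5) (nat_lit 4) (nat_lit 4) (nat_lit 2) (nat_lit 4) (nat_lit 373) (nat_lit 300) (nat_lit 227)))) (XT.nd (nat_lit 156) (nat_lit 0) (nat_lit 0) (XT.nd (nat_lit 78) (nat_lit 76) (nat_lit 0) (XT.lf (nat_lit 0) (nat_lit 160810774236) (nat_lit 152) (nat_lit 675565303) (nat_lit 0) (nat_lit 147790241501) (nat_lit 2) (nat_lit 5) (nat_lit 4) (nat_lit 4) (nat_lit 2) (nat_lit 4) (nat_lit 374) (nat_lit 300) (nat_lit 226)) (XT.lf (nat_lit 0) (nat_lit 19986401141) (nat_lit 76) (nat_lit 163108102104) (nat_lit 76) (nat_lit 150084315502) (nat_lit 1) (nat_lit 4) (nat_lit 2) (nat_lit 5) (nat_lit 2) (nat_lit 4) (nat_lit 375) (nat_lit 300) (nat_lit 225))) (XT.nd (nat_lit 78) (nat_lit 0) (nat_lit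 0) (XT.lf (nat_lit 0) (nat_lit 42329853551) (nat_lit 76) (nat_lit 164844552327) (nat_lit 76) (nat_lit 151817752886) (nat_lit 1) (nat_lit 4) (nat_lit 2) (nat_lit 5) (nat_lit 2) (nat_lit 4) (nat_lit 376) (nat_lit 300) (nat_lit 224)) (XT.lf (nat_lit 0) (nat_lit 66451623499) (nat_lit 76) (nat_lit 166724451438) (nat_lit 76) (nat_lit 153694862330) (nat_lit 1) (nat_lit 4) (nat_lit 2) (nat_lit 5) (nat_lit 2) (nat_lit 4) (nat_lit 377) (nat_lit 300) (nat_lit 223))))) (XT.nd (nat_lit 312) (nat_lit 0) (nat_lit 0) (XT.nd (nat_lit 156) (nat_lit 0) (nat_lit 0) (XT.nd (nat_lit 78) (nat_lit 0) (nat_lit 0) (XT.lf (nat_lit 0) (nat_lit 92494654805) (nat_lit 76) (nat_lit 168758939579) (nat_lit 76) (nat_lit 155726767447) (nat_lit 1) (nat_lit 4) (nat_lit 2) (nat_lit 5) (nat_lit 2) (nat_lit 4) (nat_lit 378) (nat_lit 300) (nat_lit 222)) (XT.lf (nat_lit 0) (nat_lit 120613276545) (nat_lit 76) (nat_lit 170960072977)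 (nat_lit 76) (nat_lit 157925509155) (nat_lit 1) (nat_lit 4) (nat_lit 2) (nat_lit 5) (nat_lit 2) (nat_lit 4) (nat_lit 379) (nat_lit 300) (nat_lit 221))) (XT.nd (nat_lit 78) (nat_lit 0) (nat_lit 0) (XT.lf (nat_lit 0) (nat_lit 150974117588) (nat_lit 76) (nat_lit 173340895384) (nat_lit 76) (nat_lit 160304117035) (nat_lit 1) (nat_lit 4) (nat_lit 2) (nat_lit 5) (nat_lit 2) (nat_lit 4) (nat_lit 380) (nat_lit 300) (nat_lit 220)) (XT.lf (nat_lit 0) (nat_lit 183757094029) (nat_lit 76) (nat_lit 175915515378) (nat_lit 76) (nat_lit 162876686541) (nat_lit 1) (nat_lit 4) (nat_lit 2) (nat_lit 5) (nat_lit 2) (nat_lit 4) (nat_lit 381) (nat_lit 300) (nat_lit 219)))) (XT.nd (nat_lit 156) (nat_lit 0) (nat_lit 0) (XT.nd (nat_lit 78) (nat_lit 0) (nat_lit 0) (XT.lf (nat_lit 0) (nat_lit 219156475358) (nat_lit 76) (nat_lit 178699189967) (nat_lit 76) (nat_lit 165658462530) (nat_lit 1) (nat_lit 4) (nat_lit 2) (nat_lit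 5) (nat_lit 2) (nat_lit 4) (nat_lit 382) (nat_lit 300) (nat_lit 218)) (XT.lf (nat_lit 0) (nat_lit 257382035686) (nat_lit 76) (nat_lit 181708414999) (nat_lit 76) (nat_lit 168665929599) (nat_lit 1) (nat_lit 4) (nat_lit 2) (nat_lit 5) (nat_lit 2) (nat_lit 4) (nat_lit 383) (nat_lit 300) (nat_lit 217))) (XT.nd (nat_lit 78) (nat_lit 0) (nat_lit 0) (XT.lf (nat_lit 0) (nat_lit 298660296854) (nat_lit 76) (nat_lit 184961022920) (nat_lit 76) (nat_lit 171916909776) (nat_lit 1) (nat_lit 4) (nat_lit 2) (nat_lit 5) (nat_lit 2) (nat_lit 4) (nat_lit 384) (nat_lit 300) (nat_lit 216)) (XT.lf (nat_lit 0) (nat_lit 343235870778) (nat_lit 76) (nat_lit 188476288443) (nat_lit 76) (nat_lit 175430668129) (nat_lit 1) (nat_lit 4) (nat_lit 2) (nat_lit 5) (nat_lit 2) (nat_lit 4) (nat_lit 385) (nat_lit 300) (nat_lit 215)))))) (XT.nd (nat_lit 624) (nat_lit 0) (nat_lit 0) (XT.nd (nat_lit 312) (nat_lit 0) (nat_lit 0) (XT.nd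 (nat_lit 156) (nat_lit 0) (nat_lit 0) (XT.nd (nat_lit 78) (nat_lit 0) (nat_lit 0) (XT.lf (nat_lit 0) (nat_lit 391372909007) (nat_lit 76) (nat_lit 192275042771) (nat_lit 76) (nat_lit 179228026930) (nat_lit 1) (nat_lit 4) (nat_lit 2) (nat_lit 5) (nat_lit 2) (nat_lit 4) (nat_lit 386) (nat_lit 300) (nat_lit 214)) (XT.lf (nat_lit 0) (nat_lit 443356668066) (nat_lit 76) (nat_lit 196379797041) (nat_lit 76) (nat_lit 183331489044) (nat_lit 1) (nat_lit 4) (nat_lit 2) (nat_lit 5) (nat_lit 2) (nat_lit 4) (nat_lit 387) (nat_lit 300) (nat_lit 213))) (XT.nd (nat_lit 78) (nat_lit 0) (nat_lit 0) (XT.lf (nat_lit 0) (nat_lit 499495199859) (nat_lit 76) (nat_lit 200814875723) (nat_lit 76) (nat_lit 187765371286) (nat_lit 1) (nat_lit 4) (nat_lit 2) (nat_lit 5) (nat_lit 2) (nat_lit 4) (nat_lit 388) (nat_lit 300) (nat_lit 212)) (XT.lf (nat_lit 0) (nat_lit 560121177167) (nat_lit 76) (nat_lit 205606560764) (nat_lit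 76) (nat_lit 192555948512) (nat_lit 1) (nat_lit 4) (nat_lit 2) (nat_lit 5) (nat_lit 2) (nat_lit 4) (nat_lit 389) (nat_lit 300) (nat_lit 211)))) (XT.nd (nat_lit 156) (nat_lit 0) (nat_lit 0) (XT.nd (nat_lit 78) (nat_lit 0) (nat_lit 0) (XT.lf (nat_lit 0) (nat_lit 625593865041) (nat_lit 76) (nat_lit 210783247335) (nat_lit 76) (nat_lit 197731609328) (nat_lit 1) (nat_lit 4) (nat_lit 2) (nat_lit 5) (nat_lit 2) (nat_lit 4) (nat_lit 390) (nat_lit 300) (nat_lit 210)) (XT.lf (nat_lit 0) (nat_lit 696301249779) (nat_lit 76) (nat_lit 216375612097) (nat_lit 76) (nat_lit 203323024318) (nat_lit 1) (nat_lit 4) (nat_lit 2) (nat_lit 5) (nat_lit 2) (nat_lit 4) (nat_lit 391) (nat_lit 300) (nat_lit 209))) (XT.nd (nat_lit 78) (nat_lit 0) (nat_lit 0) (XT.lf (nat_lit 0) (nat_lit 772662338106) (nat_lit 76) (nat_lit 222416794989) (nat_lit 76) (nat_lit 209363327791) (nat_lit 1) (nat_lit 4) (nat_lit 2) (nat_lit 5)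 (nat_lit 2) (nat_lit 4) (nat_lit 392) (nat_lit 300) (nat_lit 208)) (XT.lf (nat_lit 0) (nat_lit 855129640175) (nat_lit 76) (nat_lit 228942595615) (nat_lit 76) (nat_lit 215888314140) (nat_lit 1) (nat_lit 4) (nat_lit 2) (nat_lit 5) (nat_lit 2) (nat_lit 4) (nat_lit 393) (nat_lit 300) (nat_lit 207))))) (XT.nd (nat_lit 312) (nat_lit 0) (nat_lit 0) (XT.nd (nat_lit 156) (nat_lit 0) (nat_lit 0) (XT.nd (nat_lit 78) (nat_lit 0) (nat_lit 0) (XT.lf (nat_lit 0) (nat_lit 944191851110) (nat_lit 76) (nat_lit 235991685384) (nat_lit 76) (nat_lit 222936649949) (nat_lit 1) (nat_lit 4) (nat_lit 2) (nat_lit 5) (nat_lit 2) (nat_lit 4) (nat_lit 394) (nat_lit 300) (nat_lit 206)) (XT.lf (nat_lit 0) (nat_lit 1040376746974) (nat_lit 76) (nat_lit 243605836681) (nat_lit 76) (nat_lit 230550103135) (nat_lit 1) (nat_lit 4) (nat_lit 2) (nat_lit 5) (nat_lit 2) (nat_lit 4) (nat_lit 395) (nat_lit 300) (nat_lit 205))) (XT.nd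 (nat_lit 78) (nat_lit 0) (nat_lit 0) (XT.lf (nat_lit 0) (nat_lit 1144254312336) (nat_lit 76) (nat_lit 251830170403) (nat_lit 76) (nat_lit 238773790457) (nat_lit 1) (nat_lit 4) (nat_lit 2) (nat_lit 5) (nat_lit 2) (nat_lit 4) (nat_lit 396) (nat_lit 300) (nat_lit 204)) (XT.lf (nat_lit 0) (nat_lit 1256440117955) (nat_lit 76) (nat_lit 260713423341) (nat_lit 76) (nat_lit 247656444877) (nat_lit 1) (nat_lit 4) (nat_lit 2) (nat_lit 5) (nat_lit 2) (nat_lit 4) (nat_lit 397) (nat_lit 300) (nat_lit 203)))) (XT.nd (nat_lit 156) (nat_lit 0) (nat_lit 0) (XT.nd (nat_lit 78) (nat_lit 0) (nat_lit 0) (XT.lf (nat_lit 0) (nat_lit 1377598968603) (nat_lit 76) (nat_lit 270308236995) (nat_lit 76) (nat_lit 257250704348) (nat_lit 1) (nat_lit 4) (nat_lit 2) (nat_lit 5) (nat_lit 2) (nat_lit 4) (nat_lit 398) (nat_lit 300) (nat_lit 202)) (XT.lf (nat_lit 0) (nat_lit 1508448842655) (nat_lit 76) (nat_lit 280671469520)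 (nat_lit 76) (nat_lit 267613423740) (nat_lit 1) (nat_lit 4) (nat_lit 2) (nat_lit 5) (nat_lit 2) (nat_lit 4) (nat_lit 399) (nat_lit 300) (nat_lit 201))) (XT.nd (nat_lit 78) (nat_lit 0) (nat_lit 0) (XT.lf (nat_lit 0) (nat_lit 1649765146773) (nat_lit 76) (nat_lit 291864532663) (nat_lit 76) (nat_lit 278806011760) (nat_lit 1) (nat_lit 4) (nat_lit 2) (nat_lit 5) (nat_lit 2) (nat_lit 4) (nat_lit 400) (nat_lit 300) (nat_lit 200)) (XT.nd (nat_lit 78) (nat_lit 0) (nat_lit 0) (XT.lf (nat_lit 0) (nat_lit 1802385310906) (nat_lit 76) (nat_lit 303953755688) (nat_lit 76) (nat_lit 290894794857) (nat_lit 1) (nat_lit 4) (nat_lit 2) (nat_lit 5) (nat_lit 2) (nat_lit 4) (nat_lit 401) (nat_lit 300) (nat_lit 199)) (XT.lf (nat_lit 0) (nat_lit 1967213750842) (nat_lit 76) (nat_lit 317010778436) (nat_lit 76) (nat_lit 303951410263) (nat_lit 1) (nat_lit 4) (nat_lit 2) (nat_lit 5) (nat_lit 2) (nat_lit 4) (nat_lit 402)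 (nat_lit 300) (nat_lit 198))))))))
noncomputable def xc98 : XT := (XT.nd (nat_lit 39546) (nat_lit 0) (nat_lit 1976) (XT.nd (nat_lit 38922) (nat_lit 0) (nat_lit 4560) (XT.nd (nat_lit 312) (nat_lit 0) (nat_lit 0) (XT.nd (nat_lit 156) (nat_lit 0) (nat_lit 0) (XT.nd (nat_lit 78) (nat_lit 0) (nat_lit 0) (XT.lf (nat_lit 0) (nat_lit 2145227227706) (nat_lit 76) (nat_lit 331112975855) (nat_lit 76) (nat_lit 318053230515) (nat_lit 1) (nat_lit 4) (nat_lit 2) (nat_lit 5) (nat_lit 2) (nat_lit 4) (nat_lit 403) (nat_lit 300) (nat_lit 197)) (XT.lf (nat_lit 0) (nat_lit 2337480636176) (nat_lit 76) (nat_lit 346343916524) (nat_lit 76) (nat_lit 333283821954) (nat_lit 1) (nat_lit 4) (nat_lit 2) (nat_lit 5) (nat_lit 2) (nat_lit 4) (nat_lit 404) (nat_lit 300) (nat_lit 196))) (XT.nd (nat_lit 78) (nat_lit 0) (nat_lit 0) (XT.lf (nat_lit 0) (nat_lit 2545113255711) (nat_lit 76) (nat_lit 362793857868) (nat_lit 76)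 (nat_lit 349733439937) (nat_lit 1) (nat_lit 4) (nat_lit 2) (nat_lit 5) (nat_lit 2) (nat_lit 4) (nat_lit 405) (nat_lit 300) (nat_lit 195)) (XT.lf (nat_lit 0) (nat_lit 2769355501832) (nat_lit 76) (nat_lit 380560281020) (nat_lit 76) (nat_lit 367499563682) (nat_lit 1) (nat_lit 4) (nat_lit 2) (nat_lit 5) (nat_lit 2) (nat_lit 4) (nat_lit 406) (nat_lit 300) (nat_lit 194)))) (XT.nd (nat_lit 156) (nat_lit 0) (nat_lit 0) (XT.nd (nat_lit 78) (nat_lit 0) (nat_lit 0) (XT.lf (nat_lit 0) (nat_lit 3011536217480) (nat_lit 76) (nat_lit 399748468490) (nat_lit 76) (nat_lit 386687473922) (nat_lit 1) (nat_lit 4) (nat_lit 2) (nat_lit 5) (nat_lit 2) (nat_lit 4) (nat_lit 407) (nat_lit 300) (nat_lit 193)) (XT.lf (nat_lit 0) (nat_lit 3273090547637) (nat_lit 76) (nat_lit 420472128054) (nat_lit 76) (nat_lit 407410876792) (nat_lit 1) (nat_lit 4) (nat_lit 2) (nat_lit 5) (nat_lit 2) (nat_lit 4) (nat_lit 408) (nat_lit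 300) (nat_lit 192))) (XT.nd (nat_lit 78) (nat_lit 0) (nat_lit 0) (XT.lf (nat_lit 0) (nat_lit 3555568443888) (nat_lit 76) (nat_lit 442854066583) (nat_lit 76) (nat_lit 429792577642) (nat_lit 1) (nat_lit 4) (nat_lit 2) (nat_lit 5) (nat_lit 2) (nat_lit 4) (nat_lit 409) (nat_lit 300) (nat_lit 191)) (XT.lf (nat_lit 0) (nat_lit 3860643849323) (nat_lit 76) (nat_lit 467026917789) (nat_lit 76) (nat_lit 453965208773) (nat_lit 1) (nat_lit 4) (nat_lit 2) (nat_lit 5) (nat_lit 2) (nat_lit 4) (nat_lit 410) (nat_lit 300) (nat_lit 190))))) (XT.nd (nat_lit 312) (nat_lit 532) (nat_lit 0) (XT.nd (nat_lit 156) (nat_lit 228) (nat_lit 0) (XT.nd (nat_lit 78) (nat_lit 228) (nat_lit 0) (XT.lf (nat_lit 0) (nat_lit 1460075189) (nat_lit 0) (nat_lit 1460075189) (nat_lit 76) (nat_lit 313924311) (nat_lit 74) (nat_lit 5) (nat_lit 74) (nat_lit 3) (nat_lit 75) (nat_lit 0) (nat_lit 301) (nat_lit 301) (nat_lit 298)) (XT.lf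 (nat_lit 0) (nat_lit 2020961215) (nat_lit 228) (nat_lit 453041235) (nat_lit 228) (nat_lit 4033688468) (nat_lit 71) (nat_lit 3) (nat_lit 74) (nat_lit 3) (nat_lit 74) (nat_lit 5) (nat_lit 302) (nat_lit 301) (nat_lit 297))) (XT.nd (nat_lit 78) (nat_lit 228) (nat_lit 0) (XT.lf (nat_lit 76) (nat_lit 2873811213) (nat_lit 0) (nat_lit 1778806683) (nat_lit 228) (nat_lit 1912998723) (nat_lit 72) (nat_lit 5) (nat_lit 71) (nat_lit 3) (nat_lit 74) (nat_lit 5) (nat_lit 303) (nat_lit 301) (nat_lit 296)) (XT.lf (nat_lit 0) (nat_lit 580705816) (nat_lit 228) (nat_lit 309529281) (nat_lit 304) (nat_lit 5756463661) (nat_lit 68) (nat_lit 5) (nat_lit 71) (nat_lit 3) (nat_lit 72) (nat_lit 5) (nat_lit 304) (nat_lit 301) (nat_lit 295)))) (XT.nd (nat_lit 156) (nat_lit 380) (nat_lit 0) (XT.nd (nat_lit 78) (nat_lit 228) (nat_lit 0) (XT.lf (nat_lit 0) (nat_lit 3021255878) (nat_lit 228) (nat_lit 3433624761) (nat_lit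 76) (nat_lit 288081613) (nat_lit 69) (nat_lit 5) (nat_lit 72) (nat_lit 5) (nat_lit 70) (nat_lit 5) (nat_lit 305) (nat_lit 301) (nat_lit 294)) (XT.lf (nat_lit 0) (nat_lit 217380959) (nat_lit 228) (nat_lit 5256509797) (nat_lit 304) (nat_lit 1388360940) (nat_lit 66) (nat_lit 5) (nat_lit 69) (nat_lit 5) (nat_lit 70) (nat_lit 5) (nat_lit 306) (nat_lit 301) (nat_lit 293))) (XT.nd (nat_lit 78) (nat_lit 304) (nat_lit 0) (XT.lf (nat_lit 0) (nat_lit 957763624) (nat_lit 304) (nat_lit 2824498787) (nat_lit 76) (nat_lit 3216603126) (nat_lit 65) (nat_lit 5) (nat_lit 69) (nat_lit 5) (nat_lit 66) (nat_lit 5) (nat_lit 307) (nat_lit 301) (nat_lit 292)) (XT.lf (nat_lit 0) (nat_lit 1169294941) (nat_lit 304) (nat_lit 2077620802) (nat_lit 380) (nat_lit 3910713789) (nat_lit 61) (nat_lit 5) (nat_lit 65) (nat_lit 5) (nat_lit 66) (nat_lit 5) (nat_lit 308) (nat_lit 301) (nat_lit 291)))))) (XT.nd (nat_lit 624) (nat_lit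 1064) (nat_lit 0) (XT.nd (nat_lit 312) (nat_lit 608) (nat_lit 0) (XT.nd (nat_lit 156) (nat_lit 456) (nat_lit 0) (XT.nd (nat_lit 78) (nat_lit 456) (nat_lit 0) (XT.lf (nat_lit 0) (nat_lit 5492499320) (nat_lit 304) (nat_lit 117176260) (nat_lit 380) (nat_lit 1728675064) (nat_lit 61) (nat_lit 5) (nat_lit 65) (nat_lit 5) (nat_lit 66) (nat_lit 5) (nat_lit 309) (nat_lit 301) (nat_lit 290)) (XT.lf (nat_lit 0) (nat_lit 531840777) (nat_lit 456) (nat_lit 4999474501) (nat_lit 76) (nat_lit 2006603556) (nat_lit 55) (nat_lit 5) (nat_lit 61) (nat_lit 5) (nat_lit 56) (nat_lit 5) (nat_lit 310) (nat_lit 301) (nat_lit 289))) (XT.nd (nat_lit 78) (nat_lit 456) (nat_lit 0) (XT.lf (nat_lit 0) (nat_lit 2767000369) (nat_lit 456) (nat_lit 580168025) (nat_lit 76) (nat_lit 4412108553) (nat_lit 55) (nat_lit 5) (nat_lit 61) (nat_lit 5) (nat_lit 56) (nat_lit 5) (nat_lit 311) (nat_lit 301) (nat_lit 288)) (XT.lf (nat_lit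 0) (nat_lit 4257554935) (nat_lit 456) (nat_lit 870601510) (nat_lit 532) (nat_lit 2874775700) (nat_lit 49) (nat_lit 5) (nat_lit 55) (nat_lit 5) (nat_lit 56) (nat_lit 5) (nat_lit 312) (nat_lit 301) (nat_lit 287)))) (XT.nd (nat_lit 156) (nat_lit 228) (nat_lit 0) (XT.nd (nat_lit 78) (nat_lit 76) (nat_lit 0) (XT.lf (nat_lit 0) (nat_lit 1105440171) (nat_lit 304) (nat_lit 6511896621) (nat_lit 380) (nat_lit 653948659) (nat_lit 45) (nat_lit 5) (nat_lit 49) (nat_lit 5) (nat_lit 50) (nat_lit 5) (nat_lit 313) (nat_lit 301) (nat_lit 286)) (XT.lf (nat_lit 0) (nat_lit 1641135084) (nat_lit 380) (nat_lit 2223254137) (nat_lit 76) (nat_lit 4694940784) (nat_lit 44) (nat_lit 5) (nat_lit 49) (nat_lit 5) (nat_lit 45) (nat_lit 5) (nat_lit 314) (nat_lit 301) (nat_lit 285))) (XT.nd (nat_lit 78) (nat_lit 0) (nat_lit 0) (XT.lf (nat_lit 0) (nat_lit 3104506614) (nat_lit 228) (nat_lit 921486945) (nat_lit 304) (nat_lit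 4848012764) (nat_lit 41) (nat_lit 5) (nat_lit 44) (nat_lit 5) (nat_lit 45) (nat_lit 5) (nat_lit 315) (nat_lit 301) (nat_lit 284)) (XT.lf (nat_lit 0) (nat_lit 6591068116) (nat_lit 304) (nat_lit 434671121) (nat_lit 76) (nat_lit 2189210461) (nat_lit 41) (nat_lit 5) (nat_lit 45) (nat_lit 5) (nat_lit 42) (nat_lit 5) (nat_lit 316) (nat_lit 301) (nat_lit 283))))) (XT.nd (nat_lit 312) (nat_lit 380) (nat_lit 0) (XT.nd (nat_lit 156) (nat_lit 228) (nat_lit 0) (XT.nd (nat_lit 78) (nat_lit 228) (nat_lit 0) (XT.lf (nat_lit 0) (nat_lit 5431425843) (nat_lit 228) (nat_lit 3966690438) (nat_lit 304) (nat_lit 182339686) (nat_lit 38) (nat_lit 5) (nat_lit 41) (nat_lit 5) (nat_lit 42) (nat_lit 5) (nat_lit 317) (nat_lit 301) (nat_lit 282)) (XT.lf (nat_lit 0) (nat_lit 1696885353) (nat_lit 152) (nat_lit 572310586) (nat_lit 228) (nat_lit 7706484022) (nat_lit 35) (nat_lit 5) (nat_lit 37) (nat_lit 5) (nat_lit 38)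 (nat_lit 5) (nat_lit 318) (nat_lit 301) (nat_lit 281))) (XT.nd (nat_lit 78) (nat_lit 228) (nat_lit 0) (XT.lf (nat_lit 0) (nat_lit 4986618049) (nat_lit 228) (nat_lit 2379590248) (nat_lit 76) (nat_lit 3029747170) (nat_lit 35) (nat_lit 5) (nat_lit 38) (nat_lit 5) (nat_lit 36) (nat_lit 5) (nat_lit 319) (nat_lit 301) (nat_lit 280)) (XT.lf (nat_lit 0) (nat_lit 4039407841) (nat_lit 228) (nat_lit 3891099066) (nat_lit 304) (nat_lit 2918788471) (nat_lit 32) (nat_lit 5) (nat_lit 35) (nat_lit 5) (nat_lit 36) (nat_lit 5) (nat_lit 320) (nat_lit 301) (nat_lit 279)))) (XT.nd (nat_lit 156) (nat_lit 152) (nat_lit 0) (XT.nd (nat_lit 78) (nat_lit 228) (nat_lit 0) (XT.lf (nat_lit 0) (nat_lit 10971437954) (nat_lit 228) (nat_lit 104949831) (nat_lit 304) (nat_lit 265351964) (nat_lit 32) (nat_lit 5) (nat_lit 35) (nat_lit 5) (nat_lit 36) (nat_lit 5) (nat_lit 321) (nat_lit 301) (nat_lit 278)) (XT.lf (nat_lit 0)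 (nat_lit 2639045267) (nat_lit 228) (nat_lit 5236396335) (nat_lit 76) (nat_lit 3979767191) (nat_lit 29) (nat_lit 5) (nat_lit 32) (nat_lit 5) (nat_lit 30) (nat_lit 5) (nat_lit 322) (nat_lit 301) (nat_lit 277))) (XT.nd (nat_lit 78) (nat_lit 0) (nat_lit 0) (XT.lf (nat_lit 0) (nat_lit 1721475461) (nat_lit 152) (nat_lit 4003687108) (nat_lit 228) (nat_lit 6687068708) (nat_lit 27) (nat_lit 5) (nat_lit 29) (nat_lit 5) (nat_lit 30) (nat_lit 5) (nat_lit 323) (nat_lit 301) (nat_lit 276)) (XT.lf (nat_lit 0) (nat_lit 9121071261) (nat_lit 228) (nat_lit 3613169754) (nat_lit 76) (nat_lit 274656859) (nat_lit 27) (nat_lit 5) (nat_lit 30) (nat_lit 5) (nat_lit 28) (nat_lit 4) (nat_lit 324) (nat_lit 301) (nat_lit 275)))))))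
noncomputable def xc99 : XT := (XT.nd (nat_lit 1248) (nat_lit 532) (nat_lit 0) (XT.nd (nat_lit 624) (nat_lit 380) (nat_lit 0) (XT.nd (nat_lit 312) (nat_lit 380) (nat_lit 0) (XT.nd (nat_lit 156) (nat_lit 152) (nat_lit 0) (XT.nd (nat_lit 78) (nat_lit 76) (nat_lit 0) (XT.lf (nat_lit 0) (nat_lit 4000270262) (nat_lit 152) (nat_lit 8906853638) (nat_lit 228) (nat_lit 736802194) (nat_lit 25) (nat_lit 5) (nat_lit 27) (nat_lit 5) (nat_lit 28) (nat_lit 4) (nat_lit 325) (nat_lit 301) (nat_lit 274)) (XT.lf (nat_lit 0) (nat_lit 2553507544) (nat_lit 228) (nat_lit 2087887618) (nat_lit 76) (nat_lit 9681675694) (nat_lit 24) (nat_lit 5) (nat_lit 27) (nat_lit 5) (nat_lit 25) (nat_lit 5) (nat_lit 326) (nat_lit 301) (nat_lit 273))) (XT.nd (nat_lit 78) (nat_lit 0) (nat_lit 0) (XT.lf (nat_lit 0) (nat_lit 6145221583) (nat_lit 228) (nat_lit 8804012631) (nat_lit 76) (nat_lit 99627232) (nat_lit 22) (nat_lit 5) (nat_lit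 25) (nat_lit 5) (nat_lit 23) (nat_lit 4) (nat_lit 327) (nat_lit 301) (nat_lit 272)) (XT.lf (nat_lit 0) (nat_lit 10130339760) (nat_lit 228) (nat_lit 707213492) (nat_lit 76) (nat_lit 4986754578) (nat_lit 22) (nat_lit 5) (nat_lit 25) (nat_lit 5) (nat_lit 23) (nat_lit 4) (nat_lit 328) (nat_lit 301) (nat_lit 271)))) (XT.nd (nat_lit 156) (nat_lit 76) (nat_lit 0) (XT.nd (nat_lit 78) (nat_lit 228) (nat_lit 0) (XT.lf (nat_lit 0) (nat_lit 8343627516) (nat_lit 76) (nat_lit 6223658007) (nat_lit 152) (nat_lit 2083935093) (nat_lit 21) (nat_lit 5) (nat_lit 22) (nat_lit 5) (nat_lit 23) (nat_lit 4) (nat_lit 329) (nat_lit 301) (nat_lit 270)) (XT.lf (nat_lit 0) (nat_lit 484226840) (nat_lit 152) (nat_lit 1204371992) (nat_lit 228) (nat_lit 15855098606) (nat_lit 18) (nat_lit 5) (nat_lit 20) (nat_lit 5) (nat_lit 21) (nat_lit 5) (nat_lit 330) (nat_lit 301) (nat_lit 269))) (XT.nd (nat_lit 78) (nat_lit 76) (nat_lit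 0) (XT.lf (nat_lit 0) (nat_lit 5919074944) (nat_lit 228) (nat_lit 8312174589) (nat_lit 76) (nat_lit 4250551799) (nat_lit 18) (nat_lit 5) (nat_lit 21) (nat_lit 5) (nat_lit 19) (nat_lit 4) (nat_lit 331) (nat_lit 301) (nat_lit 268)) (XT.lf (nat_lit 0) (nat_lit 1051410801) (nat_lit 76) (nat_lit 9432291664) (nat_lit 152) (nat_lit 9011647029) (nat_lit 17) (nat_lit 5) (nat_lit 18) (nat_lit 5) (nat_lit 19) (nat_lit 4) (nat_lit 332) (nat_lit 301) (nat_lit 267))))) (XT.nd (nat_lit 312) (nat_lit 228) (nat_lit 0) (XT.nd (nat_lit 156) (nat_lit 76) (nat_lit 0) (XT.nd (nat_lit 78) (nat_lit 76) (nat_lit 0) (XT.lf (nat_lit 0) (nat_lit 11534649379) (nat_lit 76) (nat_lit 4047315870) (nat_lit 152) (nat_lit 4994588153) (nat_lit 17) (nat_lit 5) (nat_lit 18) (nat_lit 5) (nat_lit 19) (nat_lit 4) (nat_lit 333) (nat_lit 301) (nat_lit 266)) (XT.lf (nat_lit 0) (nat_lit 1022908596) (nat_lit 76) (nat_lit 20076898924)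 (nat_lit 76) (nat_lit 643554084) (nat_lit 16) (nat_lit 4) (nat_lit 17) (nat_lit 5) (nat_lit 17) (nat_lit 4) (nat_lit 334) (nat_lit 301) (nat_lit 265))) (XT.nd (nat_lit 78) (nat_lit 0) (nat_lit 0) (XT.lf (nat_lit 0) (nat_lit 4156415756) (nat_lit 152) (nat_lit 10884171265) (nat_lit 76) (nat_lit 7930865209) (nat_lit 15) (nat_lit 5) (nat_lit 17) (nat_lit 5) (nat_lit 16) (nat_lit 4) (nat_lit 335) (nat_lit 301) (nat_lit 264)) (XT.lf (nat_lit 0) (nat_lit 9254652149) (nat_lit 152) (nat_lit 368886972) (nat_lit 76) (nat_lit 14677026807) (nat_lit 15) (nat_lit 5) (nat_lit 17) (nat_lit 5) (nat_lit 16) (nat_lit 4) (nat_lit 336) (nat_lit 301) (nat_lit 263)))) (XT.nd (nat_lit 156) (nat_lit 152) (nat_lit 0) (XT.nd (nat_lit 78) (nat_lit 0) (nat_lit 0) (XT.lf (nat_lit 0) (nat_lit 11477332827) (nat_lit 76) (nat_lit 3512257352) (nat_lit 152) (nat_lit 10728144541) (nat_lit 14) (nat_lit 5) (nat_lit 15) (nat_lit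 5) (nat_lit 16) (nat_lit 4) (nat_lit 337) (nat_lit 301) (nat_lit 262)) (XT.lf (nat_lit 0) (nat_lit 21221384046) (nat_lit 152) (nat_lit 3114864018) (nat_lit 0) (nat_lit 2909015025) (nat_lit 14) (nat_lit 5) (nat_lit 16) (nat_lit 4) (nat_lit 14) (nat_lit 4) (nat_lit 338) (nat_lit 301) (nat_lit 261))) (XT.nd (nat_lit 78) (nat_lit 76) (nat_lit 0) (XT.lf (nat_lit 0) (nat_lit 9190439528) (nat_lit 76) (nat_lit 19030436020) (nat_lit 76) (nat_lit 652614497) (nat_lit 13) (nat_lit 4) (nat_lit 14) (nat_lit 5) (nat_lit 14) (nat_lit 4) (nat_lit 339) (nat_lit 301) (nat_lit 260)) (XT.lf (nat_lit 0) (nat_lit 4935320256) (nat_lit 152) (nat_lit 8172959558) (nat_lit 76) (nat_lit 17510253634) (nat_lit 12) (nat_lit 5) (nat_lit 14) (nat_lit 5) (nat_lit 13) (nat_lit 4) (nat_lit 340) (nat_lit 301) (nat_lit 259)))))) (XT.nd (nat_lit 624) (nat_lit 228) (nat_lit 0) (XT.nd (nat_lit 312) (nat_lit 152) (nat_lit 0) (XT.nd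 (nat_lit 156) (nat_lit 76) (nat_lit 0) (XT.nd (nat_lit 78) (nat_lit 0) (nat_lit 0) (XT.lf (nat_lit 0) (nat_lit 4387232538) (nat_lit 76) (nat_lit 6613619962) (nat_lit 152) (nat_lit 21495728814) (nat_lit 11) (nat_lit 5) (nat_lit 12) (nat_lit 5) (nat_lit 13) (nat_lit 4) (nat_lit 341) (nat_lit 301) (nat_lit 258)) (XT.lf (nat_lit 0) (nat_lit 17751269801) (nat_lit 152) (nat_lit 16179067295) (nat_lit 0) (nat_lit 578585571) (nat_lit 11) (nat_lit 5) (nat_lit 13) (nat_lit 4) (nat_lit 11) (nat_lit 4) (nat_lit 342) (nat_lit 301) (nat_lit 257))) (XT.nd (nat_lit 78) (nat_lit 76) (nat_lit 0) (XT.lf (nat_lit 0) (nat_lit 25177151246) (nat_lit 152) (nat_lit 3534363977) (nat_lit 0) (nat_lit 7959921142) (nat_lit 11) (nat_lit 5) (nat_lit 13) (nat_lit 4) (nat_lit 11) (nat_lit 4) (nat_lit 343) (nat_lit 301) (nat_lit 256)) (XT.lf (nat_lit 0) (nat_lit 10588426446) (nat_lit 76) (nat_lit 22829669802) (nat_lit 76)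 (nat_lit 5571193520) (nat_lit 10) (nat_lit 4) (nat_lit 11) (nat_lit 5) (nat_lit 11) (nat_lit 4) (nat_lit 344) (nat_lit 301) (nat_lit 255)))) (XT.nd (nat_lit 156) (nat_lit 76) (nat_lit 0) (XT.nd (nat_lit 78) (nat_lit 0) (nat_lit 0) (XT.lf (nat_lit 0) (nat_lit 850073955) (nat_lit 152) (nat_lit 15528513361) (nat_lit 76) (nat_lit 25107160015) (nat_lit 9) (nat_lit 5) (nat_lit 11) (nat_lit 5) (nat_lit 10) (nat_lit 4) (nat_lit 345) (nat_lit 301) (nat_lit 254)) (XT.lf (nat_lit 0) (nat_lit 7453025785) (nat_lit 152) (nat_lit 1829735503) (nat_lit 76) (nat_lit 34890080265) (nat_lit 9) (nat_lit 5) (nat_lit 11) (nat_lit 5) (nat_lit 10) (nat_lit 4) (nat_lit 346) (nat_lit 301) (nat_lit 253))) (XT.nd (nat_lit 78) (nat_lit 0) (nat_lit 0) (XT.lf (nat_lit 0) (nat_lit 13590486719) (nat_lit 76) (nat_lit 1291849051) (nat_lit 152) (nat_lit 32168731053) (nat_lit 8) (nat_lit 5) (nat_lit 9) (nat_lit 5) (nat_lit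 10) (nat_lit 4) (nat_lit 347) (nat_lit 301) (nat_lit 252)) (XT.lf (nat_lit 0) (nat_lit 23105328197) (nat_lit 152) (nat_lit 20039522751) (nat_lit 0) (nat_lit 6998764441) (nat_lit 8) (nat_lit 5) (nat_lit 10) (nat_lit 4) (nat_lit 8) (nat_lit 4) (nat_lit 348) (nat_lit 301) (nat_lit 251))))) (XT.nd (nat_lit 312) (nat_lit 152) (nat_lit 0) (XT.nd (nat_lit 156) (nat_lit 0) (nat_lit 0) (XT.nd (nat_lit 78) (nat_lit 76) (nat_lit 0) (XT.lf (nat_lit 0) (nat_lit 31993346794) (nat_lit 152) (nat_lit 5628866532) (nat_lit 0) (nat_lit 15860790948) (nat_lit 8) (nat_lit 5) (nat_lit 10) (nat_lit 4) (nat_lit 8) (nat_lit 4) (nat_lit 349) (nat_lit 301) (nat_lit 250)) (XT.lf (nat_lit 0) (nat_lit 10408530904) (nat_lit 76) (nat_lit 31409786814) (nat_lit 76) (nat_lit 15253164219) (nat_lit 7) (nat_lit 4) (nat_lit 8) (nat_lit 5) (nat_lit 8) (nat_lit 4) (nat_lit 350) (nat_lit 301) (nat_lit 249))) (XT.nd (nat_lit 78)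 (nat_lit 0) (nat_lit 0) (XT.lf (nat_lit 0) (nat_lit 28003435124) (nat_lit 76) (nat_lit 24556051518) (nat_lit 76) (nat_lit 8377144897) (nat_lit 7) (nat_lit 4) (nat_lit 8) (nat_lit 5) (nat_lit 8) (nat_lit 4) (nat_lit 351) (nat_lit 301) (nat_lit 248)) (XT.lf (nat_lit 0) (nat_lit 46963706090) (nat_lit 76) (nat_lit 17174295899) (nat_lit 76) (nat_lit 974755920) (nat_lit 7) (nat_lit 4) (nat_lit 8) (nat_lit 5) (nat_lit 8) (nat_lit 4) (nat_lit 352) (nat_lit 301) (nat_lit 247)))) (XT.nd (nat_lit 156) (nat_lit 0) (nat_lit 0) (XT.nd (nat_lit 78) (nat_lit 76) (nat_lit 0) (XT.lf (nat_lit 0) (nat_lit 6647806986) (nat_lit 152) (nat_lit 2391206409) (nat_lit 76) (nat_lit 60572131152) (nat_lit 6) (nat_lit 5) (nat_lit 8) (nat_lit 5) (nat_lit 7) (nat_lit 4) (nat_lit 353) (nat_lit 301) (nat_lit 246)) (XT.lf (nat_lit 0) (nat_lit 15180649436) (nat_lit 152) (nat_lit 59111477274) (nat_lit 0) (nat_lit 147006177)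 (nat_lit 5) (nat_lit 5) (nat_lit 7) (nat_lit 4) (nat_lit 5) (nat_lit 4) (nat_lit 354) (nat_lit 301) (nat_lit 245))) (XT.nd (nat_lit 78) (nat_lit 0) (nat_lit 0) (XT.lf (nat_lit 0) (nat_lit 24678801012) (nat_lit 152) (nat_lit 45321959763) (nat_lit 0) (nat_lit 9629991618) (nat_lit 5) (nat_lit 5) (nat_lit 7) (nat_lit 4) (nat_lit 5) (nat_lit 4) (nat_lit 355) (nat_lit 301) (nat_lit 244)) (XT.nd (nat_lit 78) (nat_lit 0) (nat_lit 0) (XT.lf (nat_lit 0) (nat_lit 34919049310) (nat_lit 152) (nat_lit 30463881530) (nat_lit 0) (nat_lit 19856197199) (nat_lit 5) (nat_lit 5) (nat_lit 7) (nat_lit 4) (nat_lit 5) (nat_lit 4) (nat_lit 356) (nat_lit 301) (nat_lit 243)) (XT.lf (nat_lit 0) (nat_lit 45962077282) (nat_lit 152) (nat_lit 14449194704) (nat_lit 0) (nat_lit 30886222656) (nat_lit 5) (nat_lit 5) (nat_lit 7) (nat_lit 4) (nat_lit 5) (nat_lit 4) (nat_lit 357) (nat_lit 301) (nat_lit 242))))))))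
noncomputable def xc100 : XT := (XT.nd (nat_lit 1248) (nat_lit 76) (nat_lit 0) (XT.nd (nat_lit 624) (nat_lit 0) (nat_lit 0) (XT.nd (nat_lit 312) (nat_lit 152) (nat_lit 0) (XT.nd (nat_lit 156) (nat_lit 0) (nat_lit 0) (XT.nd (nat_lit 78) (nat_lit 0) (nat_lit 0) (XT.lf (nat_lit 0) (nat_lit 2965340924) (nat_lit 76) (nat_lit 54979300690) (nat_lit 76) (nat_lit 39891406698) (nat_lit 4) (nat_lit 4) (nat_lit 5) (nat_lit 5) (nat_lit 5) (nat_lit 4) (nat_lit 358) (nat_lit 301) (nat_lit 241)) (XT.lf (nat_lit 0) (nat_lit 22565864404) (nat_lit 76) (nat_lit 48700223096) (nat_lit 76) (nat_lit 33601181543) (nat_lit 4) (nat_lit 4) (nat_lit 5) (nat_lit 5) (nat_lit 5) (nat_lit 4) (nat_lit 359) (nat_lit 301) (nat_lit 240))) (XT.nd (nat_lit 78) (nat_lit 0) (nat_lit 0) (XT.lf (nat_lit 0) (nat_lit 43707657998) (nat_lit 76) (nat_lit 41931896446) (nat_lit 76) (nat_lit 26822533076) (nat_lit 4) (nat_lit 4) (nat_lit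 5) (nat_lit 5) (nat_lit 5) (nat_lit 4) (nat_lit 360) (nat_lit 301) (nat_lit 239)) (XT.lf (nat_lit 0) (nat_lit 66516006408) (nat_lit 76) (nat_lit 34634212136) (nat_lit 76) (nat_lit 19515291528) (nat_lit 4) (nat_lit 4) (nat_lit 5) (nat_lit 5) (nat_lit 5) (nat_lit 4) (nat_lit 361) (nat_lit 301) (nat_lit 238)))) (XT.nd (nat_lit 156) (nat_lit 152) (nat_lit 0) (XT.nd (nat_lit 78) (nat_lit 0) (nat_lit 0) (XT.lf (nat_lit 0) (nat_lit 91126070219) (nat_lit 76) (nat_lit 26763924629) (nat_lit 76) (nat_lit 11636154729) (nat_lit 4) (nat_lit 4) (nat_lit 5) (nat_lit 5) (nat_lit 5) (nat_lit 4) (nat_lit 362) (nat_lit 301) (nat_lit 237)) (XT.lf (nat_lit 0) (nat_lit 117683686845) (nat_lit 76) (nat_lit 18274395186) (nat_lit 76) (nat_lit 3138431495) (nat_lit 4) (nat_lit 4) (nat_lit 5) (nat_lit 5) (nat_lit 5) (nat_lit 4) (nat_lit 363) (nat_lit 301) (nat_lit 236))) (XT.nd (nat_lit 78) (nat_lit 76) (nat_lit 0)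 (XT.lf (nat_lit 0) (nat_lit 5726678318) (nat_lit 152) (nat_lit 3232059632) (nat_lit 76) (nat_lit 140462978902) (nat_lit 3) (nat_lit 5) (nat_lit 5) (nat_lit 5) (nat_lit 4) (nat_lit 4) (nat_lit 364) (nat_lit 301) (nat_lit 235)) (XT.lf (nat_lit 0) (nat_lit 15573731607) (nat_lit 152) (nat_lit 143411881885) (nat_lit 0) (nat_lit 1545421062) (nat_lit 2) (nat_lit 5) (nat_lit 4) (nat_lit 4) (nat_lit 2) (nat_lit 4) (nat_lit 365) (nat_lit 301) (nat_lit 234))))) (XT.nd (nat_lit 312) (nat_lit 0) (nat_lit 0) (XT.nd (nat_lit 156) (nat_lit 0) (nat_lit 0) (XT.nd (nat_lit 78) (nat_lit 0) (nat_lit 0) (XT.lf (nat_lit 0) (nat_lit 26522398033) (nat_lit 152) (nat_lit 133493529558) (nat_lit 0) (nat_lit 12488064807) (nat_lit 2) (nat_lit 5) (nat_lit 4) (nat_lit 4) (nat_lit 2) (nat_lit 4) (nat_lit 366) (nat_lit 301) (nat_lit 233)) (XT.lf (nat_lit 0) (nat_lit 38338151118) (nat_lit 152) (nat_lit 122799101390) (nat_lit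 0) (nat_lit 24298241336) (nat_lit 2) (nat_lit 5) (nat_lit 4) (nat_lit 4) (nat_lit 2) (nat_lit 4) (nat_lit 367) (nat_lit 301) (nat_lit 232))) (XT.nd (nat_lit 78) (nat_lit 0) (nat_lit 0) (XT.lf (nat_lit 0) (nat_lit 51091010139) (nat_lit 152) (nat_lit 111265222992) (nat_lit 0) (nat_lit 37045936879) (nat_lit 2) (nat_lit 5) (nat_lit 4) (nat_lit 4) (nat_lit 2) (nat_lit 4) (nat_lit 368) (nat_lit 301) (nat_lit 231)) (XT.lf (nat_lit 0) (nat_lit 64856547593) (nat_lit 152) (nat_lit 98823545455) (nat_lit 0) (nat_lit 50806693336) (nat_lit 2) (nat_lit 5) (nat_lit 4) (nat_lit 4) (nat_lit 2) (nat_lit 4) (nat_lit 369) (nat_lit 301) (nat_lit 230)))) (XT.nd (nat_lit 156) (nat_lit 0) (nat_lit 0) (XT.nd (nat_lit 78) (nat_lit 0) (nat_lit 0) (XT.lf (nat_lit 0) (nat_lit 79716337038) (nat_lit 152) (nat_lit 85400340318) (nat_lit 0) (nat_lit 65662055930) (nat_lit 2) (nat_lit 5) (nat_lit 4) (nat_lit 4) (nat_lit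 2) (nat_lit 4) (nat_lit 370) (nat_lit 301) (nat_lit 229)) (XT.lf (nat_lit 0) (nat_lit 95758436483) (nat_lit 152) (nat_lit 70916062664) (nat_lit 0) (nat_lit 81700056440) (nat_lit 2) (nat_lit 5) (nat_lit 4) (nat_lit 4) (nat_lit 2) (nat_lit 4) (nat_lit 371) (nat_lit 301) (nat_lit 228))) (XT.nd (nat_lit 78) (nat_lit 0) (nat_lit 0) (XT.lf (nat_lit 0) (nat_lit 113077910222) (nat_lit 152) (nat_lit 55284879736) (nat_lit 0) (nat_lit 99015734868) (nat_lit 2) (nat_lit 5) (nat_lit 4) (nat_lit 4) (nat_lit 2) (nat_lit 4) (nat_lit 372) (nat_lit 301) (nat_lit 227)) (XT.lf (nat_lit 0) (nat_lit 131777392173) (nat_lit 152) (nat_lit 38414162300) (nat_lit 0) (nat_lit 117711702644) (nat_lit 2) (nat_lit 5) (nat_lit 4) (nat_lit 4) (nat_lit 2) (nat_lit 4) (nat_lit 373) (nat_lit 301) (nat_lit 226)))))) (XT.nd (nat_lit 624) (nat_lit 0) (nat_lit 0) (XT.nd (nat_lit 312) (nat_lit 0) (nat_lit 0) (XT.nd (nat_lit 156)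 (nat_lit 76) (nat_lit 0) (XT.nd (nat_lit 78) (nat_lit 0) (nat_lit 0) (XT.lf (nat_lit 0) (nat_lit 151967694082) (nat_lit 152) (nat_lit 20203935736) (nat_lit 0) (nat_lit 137898750685) (nat_lit 2) (nat_lit 5) (nat_lit 4) (nat_lit 4) (nat_lit 2) (nat_lit 4) (nat_lit 374) (nat_lit 301) (nat_lit 225)) (XT.lf (nat_lit 0) (nat_lit 173768462182) (nat_lit 152) (nat_lit 546287590) (nat_lit 0) (nat_lit 159696505945) (nat_lit 2) (nat_lit 5) (nat_lit 4) (nat_lit 4) (nat_lit 2) (nat_lit 4) (nat_lit 375) (nat_lit 301) (nat_lit 224))) (XT.nd (nat_lit 78) (nat_lit 0) (nat_lit 0) (XT.lf (nat_lit 0) (nat_lit 21763995083) (nat_lit 76) (nat_lit 176068315731) (nat_lit 76) (nat_lit 161993569828) (nat_lit 1) (nat_lit 4) (nat_lit 2) (nat_lit 5) (nat_lit 2) (nat_lit 4) (nat_lit 376) (nat_lit 301) (nat_lit 223)) (XT.lf (nat_lit 0) (nat_lit 45881687993) (nat_lit 76) (nat_lit 177950232679) (nat_lit 76) (nat_lit 163872903751)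 (nat_lit 1) (nat_lit 4) (nat_lit 2) (nat_lit 5) (nat_lit 2) (nat_lit 4) (nat_lit 377) (nat_lit 301) (nat_lit 222)))) (XT.nd (nat_lit 156) (nat_lit 0) (nat_lit 0) (XT.nd (nat_lit 78) (nat_lit 0) (nat_lit 0) (XT.lf (nat_lit 0) (nat_lit 71920944266) (nat_lit 76) (nat_lit 179986589188) (nat_lit 76) (nat_lit 165906868571) (nat_lit 1) (nat_lit 4) (nat_lit 2) (nat_lit 5) (nat_lit 2) (nat_lit 4) (nat_lit 378) (nat_lit 301) (nat_lit 221)) (XT.lf (nat_lit 0) (nat_lit 100036070603) (nat_lit 76) (nat_lit 182189452555) (nat_lit 76) (nat_lit 168107517412) (nat_lit 1) (nat_lit 4) (nat_lit 2) (nat_lit 5) (nat_lit 2) (nat_lit 4) (nat_lit 379) (nat_lit 301) (nat_lit 220))) (XT.nd (nat_lit 78) (nat_lit 0) (nat_lit 0) (XT.lf (nat_lit 0) (nat_lit 130393675163) (nat_lit 76) (nat_lit 184571876787) (nat_lit 76) (nat_lit 170487891155) (nat_lit 1) (nat_lit 4) (nat_lit 2) (nat_lit 5) (nat_lit 2) (nat_lit 4) (nat_lit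 380) (nat_lit 301) (nat_lit 219)) (XT.lf (nat_lit 0) (nat_lit 163173654860) (nat_lit 76) (nat_lit 187147979952) (nat_lit 76) (nat_lit 173062095720) (nat_lit 1) (nat_lit 4) (nat_lit 2) (nat_lit 5) (nat_lit 2) (nat_lit 4) (nat_lit 381) (nat_lit 301) (nat_lit 218))))) (XT.nd (nat_lit 312) (nat_lit 0) (nat_lit 0) (XT.nd (nat_lit 156) (nat_lit 0) (nat_lit 0) (XT.nd (nat_lit 78) (nat_lit 0) (nat_lit 0) (XT.lf (nat_lit 0) (nat_lit 198570261426) (nat_lit 76) (nat_lit 189933027846) (nat_lit 76) (nat_lit 175845385651) (nat_lit 1) (nat_lit 4) (nat_lit 2) (nat_lit 5) (nat_lit 2) (nat_lit 4) (nat_lit 382) (nat_lit 301) (nat_lit 217)) (XT.lf (nat_lit 0) (nat_lit 236793252530) (nat_lit 76) (nat_lit 192943524459) (nat_lit 76) (nat_lit 178854254520) (nat_lit 1) (nat_lit 4) (nat_lit 2) (nat_lit 5) (nat_lit 2) (nat_lit 4) (nat_lit 383) (nat_lit 301) (nat_lit 216))) (XT.nd (nat_lit 78) (nat_lit 0) (nat_lit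 0) (XT.lf (nat_lit 0) (nat_lit 278069134785) (nat_lit 76) (nat_lit 196197309768) (nat_lit 76) (nat_lit 182106532660) (nat_lit 1) (nat_lit 4) (nat_lit 2) (nat_lit 5) (nat_lit 2) (nat_lit 4) (nat_lit 384) (nat_lit 301) (nat_lit 215)) (XT.lf (nat_lit 0) (nat_lit 322642506013) (nat_lit 76) (nat_lit 199713665466) (nat_lit 76) (nat_lit 185621492829) (nat_lit 1) (nat_lit 4) (nat_lit 2) (nat_lit 5) (nat_lit 2) (nat_lit 4) (nat_lit 385) (nat_lit 301) (nat_lit 214)))) (XT.nd (nat_lit 156) (nat_lit 0) (nat_lit 0) (XT.nd (nat_lit 78) (nat_lit 0) (nat_lit 0) (XT.lf (nat_lit 0) (nat_lit 370777504709) (nat_lit 76) (nat_lit 203513429215) (nat_lit 76) (nat_lit 189419964423) (nat_lit 1) (nat_lit 4) (nat_lit 2) (nat_lit 5) (nat_lit 2) (nat_lit 4) (nat_lit 386) (nat_lit 301) (nat_lit 213)) (XT.lf (nat_lit 0) (nat_lit 422759375311) (nat_lit 76) (nat_lit 207619118134) (nat_lit 76) (nat_lit 193524456902) (nat_lit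 1) (nat_lit 4) (nat_lit 2) (nat_lit 5) (nat_lit 2) (nat_lit 4) (nat_lit 387) (nat_lit 301) (nat_lit 212))) (XT.nd (nat_lit 78) (nat_lit 0) (nat_lit 0) (XT.lf (nat_lit 0) (nat_lit 478896158532) (nat_lit 76) (nat_lit 212055062231) (nat_lit 76) (nat_lit 197959293184) (nat_lit 1) (nat_lit 4) (nat_lit 2) (nat_lit 5) (nat_lit 2) (nat_lit 4) (nat_lit 388) (nat_lit 301) (nat_lit 211)) (XT.lf (nat_lit 0) (nat_lit 539520516793) (nat_lit 76) (nat_lit 216847548583) (nat_lit 76) (nat_lit 202750753782) (nat_lit 1) (nat_lit 4) (nat_lit 2) (nat_lit 5) (nat_lit 2) (nat_lit 4) (nat_lit 389) (nat_lit 301) (nat_lit 210)))))))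
noncomputable def xc101 : XT := (XT.nd (nat_lit 1248) (nat_lit 0) (nat_lit 0) (XT.nd (nat_lit 624) (nat_lit 0) (nat_lit 0) (XT.nd (nat_lit 312) (nat_lit 0) (nat_lit 0) (XT.nd (nat_lit 156) (nat_lit 0) (nat_lit 0) (XT.nd (nat_lit 78) (nat_lit 0) (nat_lit 0) (XT.lf (nat_lit 0) (nat_lit 604991705549) (nat_lit 76) (nat_lit 222024977109) (nat_lit 76) (nat_lit 207927232535) (nat_lit 1) (nat_lit 4) (nat_lit 2) (nat_lit 5) (nat_lit 2) (nat_lit 4) (nat_lit 390) (nat_lit 301) (nat_lit 209)) (XT.lf (nat_lit 0) (nat_lit 675697702215) (nat_lit 76) (nat_lit 227618028866) (nat_lit 76) (nat_lit 213519404873) (nat_lit 1) (nat_lit 4) (nat_lit 2) (nat_lit 5) (nat_lit 2) (nat_lit 4) (nat_lit 391) (nat_lit 301) (nat_lit 208))) (XT.nd (nat_lit 78) (nat_lit 0) (nat_lit 0) (XT.lf (nat_lit 0) (nat_lit 752057505290) (nat_lit 76) (nat_lit 233659847865) (nat_lit 76) (nat_lit 219560409595) (nat_lit 1) (nat_lit 4)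 (nat_lit 2) (nat_lit 5) (nat_lit 2) (nat_lit 4) (nat_lit 392) (nat_lit 301) (nat_lit 207)) (XT.lf (nat_lit 0) (nat_lit 834523617311) (nat_lit 76) (nat_lit 240186237478) (nat_lit 76) (nat_lit 226086045247) (nat_lit 1) (nat_lit 4) (nat_lit 2) (nat_lit 5) (nat_lit 2) (nat_lit 4) (nat_lit 393) (nat_lit 301) (nat_lit 206)))) (XT.nd (nat_lit 156) (nat_lit 0) (nat_lit 0) (XT.nd (nat_lit 78) (nat_lit 0) (nat_lit 0) (XT.lf (nat_lit 0) (nat_lit 923584726349) (nat_lit 76) (nat_lit 247235872606) (nat_lit 76) (nat_lit 233134982264) (nat_lit 1) (nat_lit 4) (nat_lit 2) (nat_lit 5) (nat_lit 2) (nat_lit 4) (nat_lit 394) (nat_lit 301) (nat_lit 205)) (XT.lf (nat_lit 0) (nat_lit 1019768601939) (nat_lit 76) (nat_lit 254850528865) (nat_lit 76) (nat_lit 240748992124) (nat_lit 1) (nat_lit 4) (nat_lit 2) (nat_lit 5) (nat_lit 2) (nat_lit 4) (nat_lit 395) (nat_lit 301) (nat_lit 204))) (XT.nd (nat_lit 78) (nat_lit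 0) (nat_lit 0) (XT.lf (nat_lit 0) (nat_lit 1123645222603) (nat_lit 76) (nat_lit 263075330144) (nat_lit 76) (nat_lit 248973194885) (nat_lit 1) (nat_lit 4) (nat_lit 2) (nat_lit 5) (nat_lit 2) (nat_lit 4) (nat_lit 396) (nat_lit 301) (nat_lit 203)) (XT.lf (nat_lit 0) (nat_lit 1235830153500) (nat_lit 76) (nat_lit 271959016005) (nat_lit 76) (nat_lit 257856326563) (nat_lit 1) (nat_lit 4) (nat_lit 2) (nat_lit 5) (nat_lit 2) (nat_lit 4) (nat_lit 397) (nat_lit 301) (nat_lit 202))))) (XT.nd (nat_lit 312) (nat_lit 0) (nat_lit 0) (XT.nd (nat_lit 156) (nat_lit 0) (nat_lit 0) (XT.nd (nat_lit 78) (nat_lit 0) (nat_lit 0) (XT.lf (nat_lit 0) (nat_lit 1356988194221) (nat_lit 76) (nat_lit 281554230514) (nat_lit 76) (nat_lit 267451027939) (nat_lit 1) (nat_lit 4) (nat_lit 2) (nat_lit 5) (nat_lit 2) (nat_lit 4) (nat_lit 398) (nat_lit 301) (nat_lit 201)) (XT.lf (nat_lit 0) (nat_lit 1487837318342) (nat_lit 76)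 (nat_lit 291917834201) (nat_lit 76) (nat_lit 277814156503) (nat_lit 1) (nat_lit 4) (nat_lit 2) (nat_lit 5) (nat_lit 2) (nat_lit 4) (nat_lit 399) (nat_lit 301) (nat_lit 200))) (XT.nd (nat_lit 78) (nat_lit 0) (nat_lit 0) (XT.lf (nat_lit 0) (nat_lit 1629152928077) (nat_lit 76) (nat_lit 303111241013) (nat_lit 76) (nat_lit 289007123386) (nat_lit 1) (nat_lit 4) (nat_lit 2) (nat_lit 5) (nat_lit 2) (nat_lit 4) (nat_lit 400) (nat_lit 301) (nat_lit 199)) (XT.lf (nat_lit 0) (nat_lit 1781772449264) (nat_lit 76) (nat_lit 315200782250) (nat_lit 76) (nat_lit 301096257282) (nat_lit 1) (nat_lit 4) (nat_lit 2) (nat_lit 5) (nat_lit 2) (nat_lit 4) (nat_lit 401) (nat_lit 301) (nat_lit 198)))) (XT.nd (nat_lit 156) (nat_lit 0) (nat_lit 0) (XT.nd (nat_lit 78) (nat_lit 0) (nat_lit 0) (XT.lf (nat_lit 0) (nat_lit 1946600293880) (nat_lit 76) (nat_lit 328258099638) (nat_lit 76) (nat_lit 314153197502) (nat_lit 1)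 (nat_lit 4) (nat_lit 2) (nat_lit 5) (nat_lit 2) (nat_lit 4) (nat_lit 402) (nat_lit 301) (nat_lit 197)) (XT.lf (nat_lit 0) (nat_lit 2124613219521) (nat_lit 76) (nat_lit 342360569872) (nat_lit 76) (nat_lit 328255318507) (nat_lit 1) (nat_lit 4) (nat_lit 2) (nat_lit 5) (nat_lit 2) (nat_lit 4) (nat_lit 403) (nat_lit 301) (nat_lit 196))) (XT.nd (nat_lit 78) (nat_lit 0) (nat_lit 0) (XT.lf (nat_lit 0) (nat_lit 2316866117601) (nat_lit 76) (nat_lit 357591763147) (nat_lit 76) (nat_lit 343486188422) (nat_lit 1) (nat_lit 4) (nat_lit 2) (nat_lit 5) (nat_lit 2) (nat_lit 4) (nat_lit 404) (nat_lit 301) (nat_lit 195)) (XT.lf (nat_lit 0) (nat_lit 2524498264550) (nat_lit 76) (nat_lit 374041938386) (nat_lit 76) (nat_lit 359936064252) (nat_lit 1) (nat_lit 4) (nat_lit 2) (nat_lit 5) (nat_lit 2) (nat_lit 4) (nat_lit 405) (nat_lit 301) (nat_lit 194)))))) (XT.nd (nat_lit 39000) (nat_lit 0) (nat_lit 3648) (XT.nd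 (nat_lit 312) (nat_lit 0) (nat_lit 0) (XT.nd (nat_lit 156) (nat_lit 0) (nat_lit 0) (XT.nd (nat_lit 78) (nat_lit 0) (nat_lit 0) (XT.lf (nat_lit 0) (nat_lit 2748740073093) (nat_lit 76) (nat_lit 391808578108) (nat_lit 76) (nat_lit 377702426745) (nat_lit 1) (nat_lit 4) (nat_lit 2) (nat_lit 5) (nat_lit 2) (nat_lit 4) (nat_lit 406) (nat_lit 301) (nat_lit 193)) (XT.lf (nat_lit 0) (nat_lit 2990920383576) (nat_lit 76) (nat_lit 410996966105) (nat_lit 76) (nat_lit 396890558048) (nat_lit 1) (nat_lit 4) (nat_lit 2) (nat_lit 5) (nat_lit 2) (nat_lit 4) (nat_lit 407) (nat_lit 301) (nat_lit 192))) (XT.nd (nat_lit 78) (nat_lit 0) (nat_lit 0) (XT.lf (nat_lit 0) (nat_lit 3252474338580) (nat_lit 76) (nat_lit 431720811342) (nat_lit 76) (nat_lit 417614165605) (nat_lit 1) (nat_lit 4) (nat_lit 2) (nat_lit 5) (nat_lit 2) (nat_lit 4) (nat_lit 408) (nat_lit 301) (nat_lit 191)) (XT.lf (nat_lit 0) (nat_lit 3534951887468)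 (nat_lit 76) (nat_lit 454102921792) (nat_lit 76) (nat_lit 439996055981) (nat_lit 1) (nat_lit 4) (nat_lit 2) (nat_lit 5) (nat_lit 2) (nat_lit 4) (nat_lit 409) (nat_lit 301) (nat_lit 190)))) (XT.nd (nat_lit 38532) (nat_lit 0) (nat_lit 5092) (XT.nd (nat_lit 38454) (nat_lit 0) (nat_lit 5320) (XT.lf (nat_lit 0) (nat_lit 3840026971269) (nat_lit 76) (nat_lit 478275932182) (nat_lit 76) (nat_lit 464168862599) (nat_lit 1) (nat_lit 4) (nat_lit 2) (nat_lit 5) (nat_lit 2) (nat_lit 4) (nat_lit 410) (nat_lit 301) (nat_lit 189)) (XT.lf (nat_lit 0) (nat_lit 2255659396) (nat_lit 228) (nat_lit 511327223) (nat_lit 228) (nat_lit 511327223) (nat_lit 71) (nat_lit 3) (nat_lit 74) (nat_lit 3) (nat_lit 74) (nat_lit 5) (nat_lit 302) (nat_lit 302) (nat_lit 296))) (XT.nd (nat_lit 78) (nat_lit 0) (nat_lit 0) (XT.lf (nat_lit 0) (nat_lit 364461765) (nat_lit 228) (nat_lit 4427759178) (nat_lit 304) (nat_lit 1832694792)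 (nat_lit 68) (nat_lit 5) (nat_lit 71) (nat_lit 3) (nat_lit 72) (nat_lit 5) (nat_lit 303) (nat_lit 302) (nat_lit 295)) (XT.lf (nat_lit 0) (nat_lit 2648830213) (nat_lit 228) (nat_lit 1159936385) (nat_lit 304) (nat_lit 2902990868) (nat_lit 68) (nat_lit 5) (nat_lit 71) (nat_lit 3) (nat_lit 72) (nat_lit 5) (nat_lit 304) (nat_lit 302) (nat_lit 294))))) (XT.nd (nat_lit 312) (nat_lit 1140) (nat_lit 0) (XT.nd (nat_lit 156) (nat_lit 0) (nat_lit 76) (XT.nd (nat_lit 78) (nat_lit 304) (nat_lit 0) (XT.lf (nat_lit 76) (nat_lit 2355313252) (nat_lit 0) (nat_lit 2598417716) (nat_lit 304) (nat_lit 1865465078) (nat_lit 69) (nat_lit 5) (nat_lit 68) (nat_lit 5) (nat_lit 72) (nat_lit 5) (nat_lit 305) (nat_lit 302) (nat_lit 293)) (XT.lf (nat_lit 0) (nat_lit 303254991) (nat_lit 304) (nat_lit 868186032) (nat_lit 380) (nat_lit 5777718915) (nat_lit 64) (nat_lit 5) (nat_lit 68) (nat_lit 5) (nat_lit 69) (nat_lit 5)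 (nat_lit 306) (nat_lit 302) (nat_lit 292))) (XT.nd (nat_lit 78) (nat_lit 0) (nat_lit 0) (XT.lf (nat_lit 0) (nat_lit 2434119826) (nat_lit 304) (nat_lit 4123441471) (nat_lit 76) (nat_lit 537462458) (nat_lit 65) (nat_lit 5) (nat_lit 69) (nat_lit 5) (nat_lit 66) (nat_lit 5) (nat_lit 307) (nat_lit 302) (nat_lit 291)) (XT.lf (nat_lit 0) (nat_lit 4607108871) (nat_lit 304) (nat_lit 256979429) (nat_lit 76) (nat_lit 2399230015) (nat_lit 65) (nat_lit 5) (nat_lit 69) (nat_lit 5) (nat_lit 66) (nat_lit 5) (nat_lit 308) (nat_lit 302) (nat_lit 290)))) (XT.nd (nat_lit 156) (nat_lit 456) (nat_lit 0) (XT.nd (nat_lit 78) (nat_lit 456) (nat_lit 0) (XT.lf (nat_lit 0) (nat_lit 3985596803) (nat_lit 304) (nat_lit 2894632524) (nat_lit 380) (nat_lit 571201175) (nat_lit 61) (nat_lit 5) (nat_lit 65) (nat_lit 5) (nat_lit 66) (nat_lit 5) (nat_lit 309) (nat_lit 302) (nat_lit 289)) (XT.lf (nat_lit 0) (nat_lit 788733221)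 (nat_lit 380) (nat_lit 669311405) (nat_lit 456) (nat_lit 6204785116) (nat_lit 55) (nat_lit 5) (nat_lit 60) (nat_lit 5) (nat_lit 61) (nat_lit 5) (nat_lit 310) (nat_lit 302) (nat_lit 288))) (XT.nd (nat_lit 78) (nat_lit 456) (nat_lit 0) (XT.lf (nat_lit 0) (nat_lit 3602486791) (nat_lit 456) (nat_lit 2509898944) (nat_lit 76) (nat_lit 1779234098) (nat_lit 55) (nat_lit 5) (nat_lit 61) (nat_lit 5) (nat_lit 56) (nat_lit 5) (nat_lit 311) (nat_lit 302) (nat_lit 287)) (XT.nd (nat_lit 78) (nat_lit 0) (nat_lit 0) (XT.lf (nat_lit 0) (nat_lit 2156804633) (nat_lit 456) (nat_lit 3687222109) (nat_lit 532) (nat_lit 2300979230) (nat_lit 49) (nat_lit 5) (nat_lit 55) (nat_lit 5) (nat_lit 56) (nat_lit 5) (nat_lit 312) (nat_lit 302) (nat_lit 286)) (XT.lf (nat_lit 0) (nat_lit 7205919303) (nat_lit 456) (nat_lit 991312960) (nat_lit 532) (nat_lit 227154680) (nat_lit 49) (nat_lit 5) (nat_lit 55) (nat_lit 5) (nat_lit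 56) (nat_lit 5) (nat_lit 313) (nat_lit 302) (nat_lit 285))))))))
noncomputable def xc102 : XT := (XT.nd (nat_lit 1248) (nat_lit 912) (nat_lit 0) (XT.nd (nat_lit 624) (nat_lit 836) (nat_lit 0) (XT.nd (nat_lit 312) (nat_lit 456) (nat_lit 0) (XT.nd (nat_lit 156) (nat_lit 228) (nat_lit 0) (XT.nd (nat_lit 78) (nat_lit 228) (nat_lit 0) (XT.lf (nat_lit 0) (nat_lit 1927067752) (nat_lit 380) (nat_lit 4823934875) (nat_lit 76) (nat_lit 1970296948) (nat_lit 44) (nat_lit 5) (nat_lit 49) (nat_lit 5) (nat_lit 45) (nat_lit 5) (nat_lit 314) (nat_lit 302) (nat_lit 284)) (XT.lf (nat_lit 0) (nat_lit 297267488) (nat_lit 228) (nat_lit 3887865184) (nat_lit 304) (nat_lit 4861105525) (nat_lit 41) (nat_lit 5) (nat_lit 44) (nat_lit 5) (nat_lit 45) (nat_lit 5) (nat_lit 315) (nat_lit 302) (nat_lit 283))) (XT.nd (nat_lit 78) (nat_lit 228) (nat_lit 0) (XT.lf (nat_lit 0) (nat_lit 5968441578) (nat_lit 228) (nat_lit 669904141)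 (nat_lit 304) (nat_lit 2757894790) (nat_lit 41) (nat_lit 5) (nat_lit 44) (nat_lit 5) (nat_lit 45) (nat_lit 5) (nat_lit 316) (nat_lit 302) (nat_lit 282)) (XT.lf (nat_lit 0) (nat_lit 2230501733) (nat_lit 228) (nat_lit 7069362296) (nat_lit 304) (nat_lit 473627007) (nat_lit 38) (nat_lit 5) (nat_lit 41) (nat_lit 5) (nat_lit 42) (nat_lit 5) (nat_lit 317) (nat_lit 302) (nat_lit 281)))) (XT.nd (nat_lit 156) (nat_lit 228) (nat_lit 0) (XT.nd (nat_lit 78) (nat_lit 152) (nat_lit 0) (XT.lf (nat_lit 0) (nat_lit 1900232973) (nat_lit 304) (nat_lit 1839918875) (nat_lit 76) (nat_lit 6436590715) (nat_lit 37) (nat_lit 5) (nat_lit 41) (nat_lit 5) (nat_lit 38) (nat_lit 5) (nat_lit 318) (nat_lit 302) (nat_lit 280)) (XT.lf (nat_lit 0) (nat_lit 4402192034) (nat_lit 152) (nat_lit 43030753) (nat_lit 228) (nat_lit 6165670732) (nat_lit 35) (nat_lit 5) (nat_lit 37) (nat_lit 5) (nat_lit 38) (nat_lit 5) (nat_lit 319)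 (nat_lit 302) (nat_lit 279))) (XT.nd (nat_lit 78) (nat_lit 228) (nat_lit 0) (XT.lf (nat_lit 0) (nat_lit 7245104431) (nat_lit 228) (nat_lit 52766382) (nat_lit 76) (nat_lit 3777958069) (nat_lit 35) (nat_lit 5) (nat_lit 38) (nat_lit 5) (nat_lit 36) (nat_lit 5) (nat_lit 320) (nat_lit 302) (nat_lit 278)) (XT.lf (nat_lit 0) (nat_lit 6816025197) (nat_lit 228) (nat_lit 3529740127) (nat_lit 304) (nat_lit 1226194859) (nat_lit 32) (nat_lit 5) (nat_lit 35) (nat_lit 5) (nat_lit 36) (nat_lit 5) (nat_lit 321) (nat_lit 302) (nat_lit 277))))) (XT.nd (nat_lit 312) (nat_lit 456) (nat_lit 0) (XT.nd (nat_lit 156) (nat_lit 152) (nat_lit 0) (XT.nd (nat_lit 78) (nat_lit 0) (nat_lit 0) (XT.lf (nat_lit 0) (nat_lit 1486329655) (nat_lit 228) (nat_lit 10048102118) (nat_lit 76) (nat_lit 572100593) (nat_lit 29) (nat_lit 5) (nat_lit 32) (nat_lit 5) (nat_lit 30) (nat_lit 5) (nat_lit 322) (nat_lit 302) (nat_lit 276))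 (XT.lf (nat_lit 0) (nat_lit 4490620310) (nat_lit 228) (nat_lit 3235964604) (nat_lit 76) (nat_lit 4943571104) (nat_lit 29) (nat_lit 5) (nat_lit 32) (nat_lit 5) (nat_lit 30) (nat_lit 5) (nat_lit 323) (nat_lit 302) (nat_lit 275))) (XT.nd (nat_lit 78) (nat_lit 0) (nat_lit 0) (XT.lf (nat_lit 0) (nat_lit 4217287734) (nat_lit 152) (nat_lit 3541536565) (nat_lit 228) (nat_lit 5518265652) (nat_lit 27) (nat_lit 5) (nat_lit 29) (nat_lit 5) (nat_lit 30) (nat_lit 5) (nat_lit 324) (nat_lit 302) (nat_lit 274)) (XT.lf (nat_lit 0) (nat_lit 11327114886) (nat_lit 228) (nat_lit 1617597194) (nat_lit 76) (nat_lit 984874240) (nat_lit 27) (nat_lit 5) (nat_lit 30) (nat_lit 5) (nat_lit 28) (nat_lit 4) (nat_lit 325) (nat_lit 302) (nat_lit 273)))) (XT.nd (nat_lit 156) (nat_lit 228) (nat_lit 0) (XT.nd (nat_lit 78) (nat_lit 0) (nat_lit 0) (XT.lf (nat_lit 0) (nat_lit 703194149) (nat_lit 228) (nat_lit 8090746073) (nat_lit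 76) (nat_lit 5824658664) (nat_lit 24) (nat_lit 5) (nat_lit 27) (nat_lit 5) (nat_lit 25) (nat_lit 5) (nat_lit 326) (nat_lit 302) (nat_lit 272)) (XT.lf (nat_lit 0) (nat_lit 4108838207) (nat_lit 228) (nat_lit 120414454) (nat_lit 76) (nat_lit 11130059869) (nat_lit 24) (nat_lit 5) (nat_lit 27) (nat_lit 5) (nat_lit 25) (nat_lit 5) (nat_lit 327) (nat_lit 302) (nat_lit 271))) (XT.nd (nat_lit 78) (nat_lit 76) (nat_lit 0) (XT.lf (nat_lit 0) (nat_lit 7956592843) (nat_lit 228) (nat_lit 7341125545) (nat_lit 76) (nat_lit 848064293) (nat_lit 22) (nat_lit 5) (nat_lit 25) (nat_lit 5) (nat_lit 23) (nat_lit 4) (nat_lit 328) (nat_lit 302) (nat_lit 270)) (XT.lf (nat_lit 0) (nat_lit 1308331639) (nat_lit 76) (nat_lit 10885894722) (nat_lit 152) (nat_lit 4794446197) (nat_lit 21) (nat_lit 5) (nat_lit 22) (nat_lit 5) (nat_lit 23) (nat_lit 4) (nat_lit 329) (nat_lit 302) (nat_lit 269)))))) (XT.nd (nat_lit 624) (nat_lit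 380) (nat_lit 0) (XT.nd (nat_lit 312) (nat_lit 228) (nat_lit 0) (XT.nd (nat_lit 156) (nat_lit 76) (nat_lit 0) (XT.nd (nat_lit 78) (nat_lit 228) (nat_lit 0) (XT.lf (nat_lit 0) (nat_lit 10966990003) (nat_lit 76) (nat_lit 5944193074) (nat_lit 152) (nat_lit 976647393) (nat_lit 21) (nat_lit 5) (nat_lit 22) (nat_lit 5) (nat_lit 23) (nat_lit 4) (nat_lit 330) (nat_lit 302) (nat_lit 268)) (XT.lf (nat_lit 0) (nat_lit 2492527801) (nat_lit 152) (nat_lit 499148953) (nat_lit 228) (nat_lit 15861042798) (nat_lit 18) (nat_lit 5) (nat_lit 20) (nat_lit 5) (nat_lit 21) (nat_lit 5) (nat_lit 331) (nat_lit 302) (nat_lit 267))) (XT.nd (nat_lit 78) (nat_lit 76) (nat_lit 0) (XT.lf (nat_lit 0) (nat_lit 7491923033) (nat_lit 228) (nat_lit 7083853510) (nat_lit 76) (nat_lit 5295665276) (nat_lit 18) (nat_lit 5) (nat_lit 21) (nat_lit 5) (nat_lit 19) (nat_lit 4) (nat_lit 332) (nat_lit 302) (nat_lit 266)) (XT.lf (nat_lit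 0) (nat_lit 2980887191) (nat_lit 76) (nat_lit 9403783336) (nat_lit 152) (nat_lit 8584438278) (nat_lit 17) (nat_lit 5) (nat_lit 18) (nat_lit 5) (nat_lit 19) (nat_lit 4) (nat_lit 333) (nat_lit 302) (nat_lit 265)))) (XT.nd (nat_lit 156) (nat_lit 76) (nat_lit 0) (XT.nd (nat_lit 78) (nat_lit 152) (nat_lit 0) (XT.lf (nat_lit 0) (nat_lit 14166091261) (nat_lit 76) (nat_lit 3646016268) (nat_lit 152) (nat_lit 4331062137) (nat_lit 17) (nat_lit 5) (nat_lit 18) (nat_lit 5) (nat_lit 19) (nat_lit 4) (nat_lit 334) (nat_lit 302) (nat_lit 264)) (XT.lf (nat_lit 0) (nat_lit 333987017) (nat_lit 152) (nat_lit 20582402929) (nat_lit 76) (nat_lit 2487533249) (nat_lit 15) (nat_lit 5) (nat_lit 17) (nat_lit 5) (nat_lit 16) (nat_lit 4) (nat_lit 335) (nat_lit 302) (nat_lit 263))) (XT.nd (nat_lit 78) (nat_lit 76) (nat_lit 0) (XT.lf (nat_lit 0) (nat_lit 5409537158) (nat_lit 152) (nat_lit 10107709938) (nat_lit 76) (nat_lit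 9217620763) (nat_lit 15) (nat_lit 5) (nat_lit 17) (nat_lit 5) (nat_lit 16) (nat_lit 4) (nat_lit 336) (nat_lit 302) (nat_lit 262)) (XT.lf (nat_lit 0) (nat_lit 1186117028) (nat_lit 76) (nat_lit 9689848381) (nat_lit 152) (nat_lit 15297566897) (nat_lit 14) (nat_lit 5) (nat_lit 15) (nat_lit 5) (nat_lit 16) (nat_lit 4) (nat_lit 337) (nat_lit 302) (nat_lit 261))))) (XT.nd (nat_lit 312) (nat_lit 228) (nat_lit 0) (XT.nd (nat_lit 156) (nat_lit 152) (nat_lit 0) (XT.nd (nat_lit 78) (nat_lit 0) (nat_lit 0) (XT.lf (nat_lit 0) (nat_lit 13882087868) (nat_lit 76) (nat_lit 3131694629) (nat_lit 152) (nat_lit 10694810095) (nat_lit 14) (nat_lit 5) (nat_lit 15) (nat_lit 5) (nat_lit 16) (nat_lit 4) (nat_lit 338) (nat_lit 302) (nat_lit 260)) (XT.lf (nat_lit 0) (nat_lit 23697738508) (nat_lit 152) (nat_lit 1940702040) (nat_lit 0) (nat_lit 3723634592) (nat_lit 14) (nat_lit 5) (nat_lit 16) (nat_lit 4) (nat_lit 14)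 (nat_lit 4) (nat_lit 339) (nat_lit 302) (nat_lit 259))) (XT.nd (nat_lit 78) (nat_lit 0) (nat_lit 0) (XT.lf (nat_lit 0) (nat_lit 104814123) (nat_lit 152) (nat_lit 19812205508) (nat_lit 76) (nat_lit 11205311658) (nat_lit 12) (nat_lit 5) (nat_lit 14) (nat_lit 5) (nat_lit 13) (nat_lit 4) (nat_lit 340) (nat_lit 302) (nat_lit 258)) (XT.lf (nat_lit 0) (nat_lit 6047164068) (nat_lit 152) (nat_lit 7504075928) (nat_lit 76) (nat_lit 19459003865) (nat_lit 12) (nat_lit 5) (nat_lit 14) (nat_lit 5) (nat_lit 13) (nat_lit 4) (nat_lit 341) (nat_lit 302) (nat_lit 257)))) (XT.nd (nat_lit 156) (nat_lit 152) (nat_lit 0) (XT.nd (nat_lit 78) (nat_lit 0) (nat_lit 0) (XT.lf (nat_lit 0) (nat_lit 6027444943) (nat_lit 76) (nat_lit 6548387594) (nat_lit 152) (nat_lit 22464501959) (nat_lit 11) (nat_lit 5) (nat_lit 12) (nat_lit 5) (nat_lit 13) (nat_lit 4) (nat_lit 342) (nat_lit 302) (nat_lit 256)) (XT.lf (nat_lit 0) (nat_lit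 19828042954) (nat_lit 152) (nat_lit 16241065209) (nat_lit 0) (nat_lit 1147642391) (nat_lit 11) (nat_lit 5) (nat_lit 13) (nat_lit 4) (nat_lit 11) (nat_lit 4) (nat_lit 343) (nat_lit 302) (nat_lit 255))) (XT.nd (nat_lit 78) (nat_lit 152) (nat_lit 0) (XT.lf (nat_lit 0) (nat_lit 27799352576) (nat_lit 152) (nat_lit 2676069142) (nat_lit 0) (nat_lit 9080761107) (nat_lit 11) (nat_lit 5) (nat_lit 13) (nat_lit 4) (nat_lit 11) (nat_lit 4) (nat_lit 344) (nat_lit 302) (nat_lit 254)) (XT.nd (nat_lit 78) (nat_lit 76) (nat_lit 0) (XT.lf (nat_lit 0) (nat_lit 12547657326) (nat_lit 76) (nat_lit 24133624047) (nat_lit 76) (nat_lit 5379670627) (nat_lit 10) (nat_lit 4) (nat_lit 11) (nat_lit 5) (nat_lit 11) (nat_lit 4) (nat_lit 345) (nat_lit 302) (nat_lit 253)) (XT.lf (nat_lit 0) (nat_lit 1478581844) (nat_lit 152) (nat_lit 15711245729) (nat_lit 76) (nat_lit 27569680508) (nat_lit 9) (nat_lit 5) (nat_lit 11) (nat_lit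 5) (nat_lit 10) (nat_lit 4) (nat_lit 346) (nat_lit 302) (nat_lit 252))))))))
noncomputable def xc103 : XT := (XT.nd (nat_lit 1248) (nat_lit 228) (nat_lit 0) (XT.nd (nat_lit 624) (nat_lit 152) (nat_lit 0) (XT.nd (nat_lit 312) (nat_lit 152) (nat_lit 0) (XT.nd (nat_lit 156) (nat_lit 0) (nat_lit 0) (XT.nd (nat_lit 78) (nat_lit 76) (nat_lit 0) (XT.lf (nat_lit 0) (nat_lit 8568251156) (nat_lit 152) (nat_lit 995050732) (nat_lit 76) (nat_lit 38101608624) (nat_lit 9) (nat_lit 5) (nat_lit 11) (nat_lit 5) (nat_lit 10) (nat_lit 4) (nat_lit 347) (nat_lit 302) (nat_lit 251)) (XT.lf (nat_lit 0) (nat_lit 15633952215) (nat_lit 76) (nat_lit 942507789) (nat_lit 152) (nat_lit 34198187230) (nat_lit 8) (nat_lit 5) (nat_lit 9) (nat_lit 5) (nat_lit 10) (nat_lit 4) (nat_lit 348) (nat_lit 302) (nat_lit 250))) (XT.nd (nat_lit 78) (nat_lit 0) (nat_lit 0) (XT.lf (nat_lit 0) (nat_lit 25430073488) (nat_lit 152) (nat_lit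 20729865768) (nat_lit 0) (nat_lit 7956854336) (nat_lit 8) (nat_lit 5) (nat_lit 10) (nat_lit 4) (nat_lit 8) (nat_lit 4) (nat_lit 349) (nat_lit 302) (nat_lit 249)) (XT.lf (nat_lit 0) (nat_lit 34993850680) (nat_lit 152) (nat_lit 5233973259) (nat_lit 0) (nat_lit 17498347502) (nat_lit 8) (nat_lit 5) (nat_lit 10) (nat_lit 4) (nat_lit 8) (nat_lit 4) (nat_lit 350) (nat_lit 302) (nat_lit 248)))) (XT.nd (nat_lit 156) (nat_lit 76) (nat_lit 0) (XT.nd (nat_lit 78) (nat_lit 0) (nat_lit 0) (XT.lf (nat_lit 0) (nat_lit 12065018438) (nat_lit 76) (nat_lit 33526944028) (nat_lit 76) (nat_lit 16010807492) (nat_lit 7) (nat_lit 4) (nat_lit 8) (nat_lit 5) (nat_lit 8) (nat_lit 4) (nat_lit 351) (nat_lit 302) (nat_lit 247)) (XT.lf (nat_lit 0) (nat_lit 31006492399) (nat_lit 76) (nat_lit 26154215519) (nat_lit 76) (nat_lit 8618974021) (nat_lit 7) (nat_lit 4) (nat_lit 8) (nat_lit 5) (nat_lit 8) (nat_lit 4) (nat_lit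 352) (nat_lit 302) (nat_lit 246))) (XT.nd (nat_lit 78) (nat_lit 76) (nat_lit 0) (XT.lf (nat_lit 0) (nat_lit 51427082637) (nat_lit 76) (nat_lit 18209054274) (nat_lit 76) (nat_lit 656122997) (nat_lit 7) (nat_lit 4) (nat_lit 8) (nat_lit 5) (nat_lit 8) (nat_lit 4) (nat_lit 353) (nat_lit 302) (nat_lit 245)) (XT.lf (nat_lit 0) (nat_lit 7528495607) (nat_lit 152) (nat_lit 1910039837) (nat_lit 76) (nat_lit 65713462039) (nat_lit 6) (nat_lit 5) (nat_lit 8) (nat_lit 5) (nat_lit 7) (nat_lit 4) (nat_lit 354) (nat_lit 302) (nat_lit 244))))) (XT.nd (nat_lit 312) (nat_lit 76) (nat_lit 0) (XT.nd (nat_lit 156) (nat_lit 0) (nat_lit 0) (XT.nd (nat_lit 78) (nat_lit 0) (nat_lit 0) (XT.lf (nat_lit 0) (nat_lit 16741502502) (nat_lit 152) (nat_lit 63165349510) (nat_lit 0) (nat_lit 459579506) (nat_lit 5) (nat_lit 5) (nat_lit 7) (nat_lit 4) (nat_lit 5) (nat_lit 4) (nat_lit 355) (nat_lit 302) (nat_lit 243)) (XT.lf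 (nat_lit 0) (nat_lit 26973846863) (nat_lit 152) (nat_lit 48322674001) (nat_lit 0) (nat_lit 10678921351) (nat_lit 5) (nat_lit 5) (nat_lit 7) (nat_lit 4) (nat_lit 5) (nat_lit 4) (nat_lit 356) (nat_lit 302) (nat_lit 242))) (XT.nd (nat_lit 78) (nat_lit 0) (nat_lit 0) (XT.lf (nat_lit 0) (nat_lit 38009556375) (nat_lit 152) (nat_lit 32322248957) (nat_lit 0) (nat_lit 21702591496) (nat_lit 5) (nat_lit 5) (nat_lit 7) (nat_lit 4) (nat_lit 5) (nat_lit 4) (nat_lit 357) (nat_lit 302) (nat_lit 241)) (XT.lf (nat_lit 0) (nat_lit 49914027835) (nat_lit 152) (nat_lit 15069257044) (nat_lit 0) (nat_lit 33595915395) (nat_lit 5) (nat_lit 5) (nat_lit 7) (nat_lit 4) (nat_lit 5) (nat_lit 4) (nat_lit 358) (nat_lit 302) (nat_lit 240)))) (XT.nd (nat_lit 156) (nat_lit 0) (nat_lit 0) (XT.nd (nat_lit 78) (nat_lit 0) (nat_lit 0) (XT.lf (nat_lit 0) (nat_lit 3724875023) (nat_lit 76) (nat_lit 59122514570) (nat_lit 76) (nat_lit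 42794080314) (nat_lit 4) (nat_lit 4) (nat_lit 5) (nat_lit 5) (nat_lit 5) (nat_lit 4) (nat_lit 359) (nat_lit 302) (nat_lit 239)) (XT.lf (nat_lit 0) (nat_lit 24854750987) (nat_lit 76) (nat_lit 52360009300) (nat_lit 76) (nat_lit 36022017807) (nat_lit 4) (nat_lit 4) (nat_lit 5) (nat_lit 5) (nat_lit 5) (nat_lit 4) (nat_lit 360) (nat_lit 302) (nat_lit 238))) (XT.nd (nat_lit 78) (nat_lit 0) (nat_lit 0) (XT.lf (nat_lit 0) (nat_lit 47652064555) (nat_lit 76) (nat_lit 45067715158) (nat_lit 76) (nat_lit 28720874371) (nat_lit 4) (nat_lit 4) (nat_lit 5) (nat_lit 5) (nat_lit 5) (nat_lit 4) (nat_lit 361) (nat_lit 302) (nat_lit 237)) (XT.lf (nat_lit 0) (nat_lit 72251910918) (nat_lit 76) (nat_lit 37202418548) (nat_lit 76) (nat_lit 20847383971) (nat_lit 4) (nat_lit 4) (nat_lit 5) (nat_lit 5) (nat_lit 5) (nat_lit 4) (nat_lit 362) (nat_lit 302) (nat_lit 236)))))) (XT.nd (nat_lit 624) (nat_lit 76) (nat_lit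 0) (XT.nd (nat_lit 312) (nat_lit 0) (nat_lit 0) (XT.nd (nat_lit 156) (nat_lit 152) (nat_lit 0) (XT.nd (nat_lit 78) (nat_lit 0) (nat_lit 0) (XT.lf (nat_lit 0) (nat_lit 98800066945) (nat_lit 76) (nat_lit 28717510305) (nat_lit 76) (nat_lit 12354888884) (nat_lit 4) (nat_lit 4) (nat_lit 5) (nat_lit 5) (nat_lit 5) (nat_lit 4) (nat_lit 363) (nat_lit 302) (nat_lit 235)) (XT.lf (nat_lit 0) (nat_lit 127453855041) (nat_lit 76) (nat_lit 19562709491) (nat_lit 76) (nat_lit 3193063216) (nat_lit 4) (nat_lit 4) (nat_lit 5) (nat_lit 5) (nat_lit 5) (nat_lit 4) (nat_lit 364) (nat_lit 302) (nat_lit 234))) (XT.nd (nat_lit 78) (nat_lit 76) (nat_lit 0) (XT.lf (nat_lit 0) (nat_lit 6357605115) (nat_lit 152) (nat_lit 3152332129) (nat_lit 76) (nat_lit 151851642126) (nat_lit 3) (nat_lit 5) (nat_lit 5) (nat_lit 5) (nat_lit 4) (nat_lit 4) (nat_lit 365) (nat_lit 302) (nat_lit 233)) (XT.lf (nat_lit 0) (nat_lit 16991444596)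 (nat_lit 152) (nat_lit 154545514473) (nat_lit 0) (nat_lit 1822765475) (nat_lit 2) (nat_lit 5) (nat_lit 4) (nat_lit 4) (nat_lit 2) (nat_lit 4) (nat_lit 366) (nat_lit 302) (nat_lit 232)))) (XT.nd (nat_lit 156) (nat_lit 0) (nat_lit 0) (XT.nd (nat_lit 78) (nat_lit 0) (nat_lit 0) (XT.lf (nat_lit 0) (nat_lit 28803277339) (nat_lit 152) (nat_lit 143858828624) (nat_lit 0) (nat_lit 13629434740) (nat_lit 2) (nat_lit 5) (nat_lit 4) (nat_lit 4) (nat_lit 2) (nat_lit 4) (nat_lit 367) (nat_lit 302) (nat_lit 231)) (XT.lf (nat_lit 0) (nat_lit 41552506414) (nat_lit 152) (nat_lit 132332119039) (nat_lit 0) (nat_lit 26373882817) (nat_lit 2) (nat_lit 5) (nat_lit 4) (nat_lit 4) (nat_lit 2) (nat_lit 4) (nat_lit 368) (nat_lit 302) (nat_lit 230))) (XT.nd (nat_lit 78) (nat_lit 0) (nat_lit 0) (XT.lf (nat_lit 0) (nat_lit 55314682807) (nat_lit 152) (nat_lit 119897079292) (nat_lit 0) (nat_lit 40131632361) (nat_lit 2)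 (nat_lit 5) (nat_lit 4) (nat_lit 4) (nat_lit 2) (nat_lit 4) (nat_lit 369) (nat_lit 302) (nat_lit 229)) (XT.lf (nat_lit 0) (nat_lit 70171360158) (nat_lit 152) (nat_lit 106480020259) (nat_lit 0) (nat_lit 54984210776) (nat_lit 2) (nat_lit 5) (nat_lit 4) (nat_lit 4) (nat_lit 2) (nat_lit 4) (nat_lit 370) (nat_lit 302) (nat_lit 228))))) (XT.nd (nat_lit 312) (nat_lit 76) (nat_lit 0) (XT.nd (nat_lit 156) (nat_lit 0) (nat_lit 0) (XT.nd (nat_lit 78) (nat_lit 0) (nat_lit 0) (XT.lf (nat_lit 0) (nat_lit 86210578035) (nat_lit 152) (nat_lit 92001433440) (nat_lit 0) (nat_lit 71019633343) (nat_lit 2) (nat_lit 5) (nat_lit 4) (nat_lit 4) (nat_lit 2) (nat_lit 4) (nat_lit 371) (nat_lit 302) (nat_lit 227)) (XT.lf (nat_lit 0) (nat_lit 103527383656) (nat_lit 152) (nat_lit 76375519803) (nat_lit 0) (nat_lit 88332924787) (nat_lit 2) (nat_lit 5) (nat_lit 4) (nat_lit 4) (nat_lit 2) (nat_lit 4) (nat_lit 372) (nat_lit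 302) (nat_lit 226))) (XT.nd (nat_lit 78) (nat_lit 0) (nat_lit 0) (XT.lf (nat_lit 0) (nat_lit 122224395127) (nat_lit 152) (nat_lit 59509681342) (nat_lit 0) (nat_lit 107026682392) (nat_lit 2) (nat_lit 5) (nat_lit 4) (nat_lit 4) (nat_lit 2) (nat_lit 4) (nat_lit 373) (nat_lit 302) (nat_lit 225)) (XT.lf (nat_lit 0) (nat_lit 142412409554) (nat_lit 152) (nat_lit 41303972347) (nat_lit 0) (nat_lit 127211683979) (nat_lit 2) (nat_lit 5) (nat_lit 4) (nat_lit 4) (nat_lit 2) (nat_lit 4) (nat_lit 374) (nat_lit 302) (nat_lit 224)))) (XT.nd (nat_lit 156) (nat_lit 76) (nat_lit 0) (XT.nd (nat_lit 78) (nat_lit 0) (nat_lit 0) (XT.lf (nat_lit 0) (nat_lit 164211059615) (nat_lit 152) (nat_lit 21650507135) (nat_lit 0) (nat_lit 149007544373) (nat_lit 2) (nat_lit 5) (nat_lit 4) (nat_lit 4) (nat_lit 2) (nat_lit 4) (nat_lit 375) (nat_lit 302) (nat_lit 223)) (XT.lf (nat_lit 0) (nat_lit 187749522495) (nat_lit 152)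 (nat_lit 432820727) (nat_lit 0) (nat_lit 172543424229) (nat_lit 2) (nat_lit 5) (nat_lit 4) (nat_lit 4) (nat_lit 2) (nat_lit 4) (nat_lit 376) (nat_lit 302) (nat_lit 222))) (XT.nd (nat_lit 78) (nat_lit 0) (nat_lit 0) (XT.lf (nat_lit 0) (nat_lit 23658305576) (nat_lit 76) (nat_lit 190077962624) (nat_lit 76) (nat_lit 174869472669) (nat_lit 1) (nat_lit 4) (nat_lit 2) (nat_lit 5) (nat_lit 2) (nat_lit 4) (nat_lit 377) (nat_lit 302) (nat_lit 221)) (XT.nd (nat_lit 78) (nat_lit 0) (nat_lit 0) (XT.lf (nat_lit 0) (nat_lit 49694066446) (nat_lit 76) (nat_lit 192116049103) (nat_lit 76) (nat_lit 176905344621) (nat_lit 1) (nat_lit 4) (nat_lit 2) (nat_lit 5) (nat_lit 2) (nat_lit 4) (nat_lit 378) (nat_lit 302) (nat_lit 220)) (XT.lf (nat_lit 0) (nat_lit 77805956301) (nat_lit 76) (nat_lit 194320514295) (nat_lit 76) (nat_lit 179107759324) (nat_lit 1) (nat_lit 4) (nat_lit 2) (nat_lit 5) (nat_lit 2) (nat_lit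 4) (nat_lit 379) (nat_lit 302) (nat_lit 219))))))))
noncomputable def xc104 : XT := (XT.nd (nat_lit 1248) (nat_lit 0) (nat_lit 0) (XT.nd (nat_lit 624) (nat_lit 0) (nat_lit 0) (XT.nd (nat_lit 312) (nat_lit 0) (nat_lit 0) (XT.nd (nat_lit 156) (nat_lit 0) (nat_lit 0) (XT.nd (nat_lit 78) (nat_lit 0) (nat_lit 0) (XT.lf (nat_lit 0) (nat_lit 108160564117) (nat_lit 76) (nat_lit 196704421697) (nat_lit 76) (nat_lit 181489768126) (nat_lit 1) (nat_lit 4) (nat_lit 2) (nat_lit 5) (nat_lit 2) (nat_lit 4) (nat_lit 380) (nat_lit 302) (nat_lit 218)) (XT.lf (nat_lit 0) (nat_lit 140937769051) (nat_lit 76) (nat_lit 199281898168) (nat_lit 76) (nat_lit 184065486634) (nat_lit 1) (nat_lit 4) (nat_lit 2) (nat_lit 5) (nat_lit 2) (nat_lit 4) (nat_lit 381) (nat_lit 302) (nat_lit 217))) (XT.nd (nat_lit 78) (nat_lit 0) (nat_lit 0) (XT.lf (nat_lit 0) (nat_lit 176331806392) (nat_lit 76) (nat_lit 202068217642) (nat_lit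 76) (nat_lit 186850178365) (nat_lit 1) (nat_lit 4) (nat_lit 2) (nat_lit 5) (nat_lit 2) (nat_lit 4) (nat_lit 382) (nat_lit 302) (nat_lit 216)) (XT.lf (nat_lit 0) (nat_lit 214552418584) (nat_lit 76) (nat_lit 205079891643) (nat_lit 76) (nat_lit 189860345196) (nat_lit 1) (nat_lit 4) (nat_lit 2) (nat_lit 5) (nat_lit 2) (nat_lit 4) (nat_lit 383) (nat_lit 302) (nat_lit 215)))) (XT.nd (nat_lit 156) (nat_lit 0) (nat_lit 0) (XT.nd (nat_lit 78) (nat_lit 0) (nat_lit 0) (XT.lf (nat_lit 0) (nat_lit 255826098143) (nat_lit 76) (nat_lit 208334767127) (nat_lit 76) (nat_lit 193113825152) (nat_lit 1) (nat_lit 4) (nat_lit 2) (nat_lit 5) (nat_lit 2) (nat_lit 4) (nat_lit 384) (nat_lit 302) (nat_lit 214)) (XT.lf (nat_lit 0) (nat_lit 300397429838) (nat_lit 76) (nat_lit 211852132246) (nat_lit 76) (nat_lit 196629898116) (nat_lit 1) (nat_lit 4) (nat_lit 2) (nat_lit 5) (nat_lit 2) (nat_lit 4) (nat_lit 385) (nat_lit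 302) (nat_lit 213))) (XT.nd (nat_lit 78) (nat_lit 0) (nat_lit 0) (XT.lf (nat_lit 0) (nat_lit 348530540077) (nat_lit 76) (nat_lit 215652830644) (nat_lit 76) (nat_lit 200429400074) (nat_lit 1) (nat_lit 4) (nat_lit 2) (nat_lit 5) (nat_lit 2) (nat_lit 4) (nat_lit 386) (nat_lit 302) (nat_lit 212)) (XT.lf (nat_lit 0) (nat_lit 400510662107) (nat_lit 76) (nat_lit 219759384979) (nat_lit 76) (nat_lit 204534846593) (nat_lit 1) (nat_lit 4) (nat_lit 2) (nat_lit 5) (nat_lit 2) (nat_lit 4) (nat_lit 387) (nat_lit 302) (nat_lit 211))))) (XT.nd (nat_lit 312) (nat_lit 0) (nat_lit 0) (XT.nd (nat_lit 156) (nat_lit 0) (nat_lit 0) (XT.nd (nat_lit 78) (nat_lit 0) (nat_lit 0) (XT.lf (nat_lit 0) (nat_lit 456645826281) (nat_lit 76) (nat_lit 224196130387) (nat_lit 76) (nat_lit 208970566247) (nat_lit 1) (nat_lit 4) (nat_lit 2) (nat_lit 5) (nat_lit 2) (nat_lit 4) (nat_lit 388) (nat_lit 302) (nat_lit 210)) (XT.lf (nat_lit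 0) (nat_lit 517268685424) (nat_lit 76) (nat_lit 228989358694) (nat_lit 76) (nat_lit 213762844781) (nat_lit 1) (nat_lit 4) (nat_lit 2) (nat_lit 5) (nat_lit 2) (nat_lit 4) (nat_lit 389) (nat_lit 302) (nat_lit 209))) (XT.nd (nat_lit 78) (nat_lit 0) (nat_lit 0) (XT.lf (nat_lit 0) (nat_lit 582738486108) (nat_lit 76) (nat_lit 234167474214) (nat_lit 76) (nat_lit 218940080882) (nat_lit 1) (nat_lit 4) (nat_lit 2) (nat_lit 5) (nat_lit 2) (nat_lit 4) (nat_lit 390) (nat_lit 302) (nat_lit 208)) (XT.lf (nat_lit 0) (nat_lit 653443197522) (nat_lit 76) (nat_lit 239761162078) (nat_lit 76) (nat_lit 224532954469) (nat_lit 1) (nat_lit 4) (nat_lit 2) (nat_lit 5) (nat_lit 2) (nat_lit 4) (nat_lit 391) (nat_lit 302) (nat_lit 207)))) (XT.nd (nat_lit 156) (nat_lit 0) (nat_lit 0) (XT.nd (nat_lit 78) (nat_lit 0) (nat_lit 0) (XT.lf (nat_lit 0) (nat_lit 729801810549) (nat_lit 76) (nat_lit 245803570064) (nat_lit 76)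 (nat_lit 230574608495) (nat_lit 1) (nat_lit 4) (nat_lit 2) (nat_lit 5) (nat_lit 2) (nat_lit 4) (nat_lit 392) (nat_lit 302) (nat_lit 206)) (XT.lf (nat_lit 0) (nat_lit 812266820673) (nat_lit 76) (nat_lit 252330505036) (nat_lit 76) (nat_lit 237100845355) (nat_lit 1) (nat_lit 4) (nat_lit 2) (nat_lit 5) (nat_lit 2) (nat_lit 4) (nat_lit 393) (nat_lit 302) (nat_lit 205))) (XT.nd (nat_lit 78) (nat_lit 0) (nat_lit 0) (XT.lf (nat_lit 0) (nat_lit 901326909436) (nat_lit 76) (nat_lit 259380645126) (nat_lit 76) (nat_lit 244150339046) (nat_lit 1) (nat_lit 4) (nat_lit 2) (nat_lit 5) (nat_lit 2) (nat_lit 4) (nat_lit 394) (nat_lit 302) (nat_lit 204)) (XT.lf (nat_lit 0) (nat_lit 997509840327) (nat_lit 76) (nat_lit 266995768942) (nat_lit 76) (nat_lit 251764864344) (nat_lit 1) (nat_lit 4) (nat_lit 2) (nat_lit 5) (nat_lit 2) (nat_lit 4) (nat_lit 395) (nat_lit 302) (nat_lit 203)))))) (XT.nd (nat_lit 624) (nat_lit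 0) (nat_lit 0) (XT.nd (nat_lit 312) (nat_lit 0) (nat_lit 0) (XT.nd (nat_lit 156) (nat_lit 0) (nat_lit 0) (XT.nd (nat_lit 78) (nat_lit 0) (nat_lit 0) (XT.lf (nat_lit 0) (nat_lit 1101385586270) (nat_lit 76) (nat_lit 275221003144) (nat_lit 76) (nat_lit 259989544363) (nat_lit 1) (nat_lit 4) (nat_lit 2) (nat_lit 5) (nat_lit 2) (nat_lit 4) (nat_lit 396) (nat_lit 302) (nat_lit 202)) (XT.lf (nat_lit 0) (nat_lit 1213569707241) (nat_lit 76) (nat_lit 284105089861) (nat_lit 76) (nat_lit 268873117947) (nat_lit 1) (nat_lit 4) (nat_lit 2) (nat_lit 5) (nat_lit 2) (nat_lit 4) (nat_lit 397) (nat_lit 302) (nat_lit 201))) (XT.nd (nat_lit 78) (nat_lit 0) (nat_lit 0) (XT.lf (nat_lit 0) (nat_lit 1334726998030) (nat_lit 76) (nat_lit 293700675532) (nat_lit 76) (nat_lit 278468228495) (nat_lit 1) (nat_lit 4) (nat_lit 2) (nat_lit 5) (nat_lit 2) (nat_lit 4) (nat_lit 398) (nat_lit 302) (nat_lit 200)) (XT.lf (nat_lit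 0) (nat_lit 1465575427769) (nat_lit 76) (nat_lit 304064622887) (nat_lit 76) (nat_lit 288831735922) (nat_lit 1) (nat_lit 4) (nat_lit 2) (nat_lit 5) (nat_lit 2) (nat_lit 4) (nat_lit 399) (nat_lit 302) (nat_lit 199)))) (XT.nd (nat_lit 156) (nat_lit 0) (nat_lit 0) (XT.nd (nat_lit 78) (nat_lit 0) (nat_lit 0) (XT.lf (nat_lit 0) (nat_lit 1606890394558) (nat_lit 76) (nat_lit 315258347910) (nat_lit 76) (nat_lit 300025053604) (nat_lit 1) (nat_lit 4) (nat_lit 2) (nat_lit 5) (nat_lit 2) (nat_lit 4) (nat_lit 400) (nat_lit 302) (nat_lit 198)) (XT.lf (nat_lit 0) (nat_lit 1759509320425) (nat_lit 76) (nat_lit 327348183788) (nat_lit 76) (nat_lit 312114512314) (nat_lit 1) (nat_lit 4) (nat_lit 2) (nat_lit 5) (nat_lit 2) (nat_lit 4) (nat_lit 401) (nat_lit 302) (nat_lit 197))) (XT.nd (nat_lit 78) (nat_lit 0) (nat_lit 0) (XT.lf (nat_lit 0) (nat_lit 1924336613818) (nat_lit 76) (nat_lit 340405773991) (nat_lit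 76) (nat_lit 325171753287) (nat_lit 1) (nat_lit 4) (nat_lit 2) (nat_lit 5) (nat_lit 2) (nat_lit 4) (nat_lit 402) (nat_lit 302) (nat_lit 196)) (XT.lf (nat_lit 0) (nat_lit 2102349029068) (nat_lit 76) (nat_lit 354508496832) (nat_lit 76) (nat_lit 339274152768) (nat_lit 1) (nat_lit 4) (nat_lit 2) (nat_lit 5) (nat_lit 2) (nat_lit 4) (nat_lit 403) (nat_lit 302) (nat_lit 195))))) (XT.nd (nat_lit 312) (nat_lit 0) (nat_lit 0) (XT.nd (nat_lit 156) (nat_lit 0) (nat_lit 0) (XT.nd (nat_lit 78) (nat_lit 0) (nat_lit 0) (XT.lf (nat_lit 0) (nat_lit 2294601454563) (nat_lit 76) (nat_lit 369739924002) (nat_lit 76) (nat_lit 354505280530) (nat_lit 1) (nat_lit 4) (nat_lit 2) (nat_lit 5) (nat_lit 2) (nat_lit 4) (nat_lit 404) (nat_lit 302) (nat_lit 194)) (XT.lf (nat_lit 0) (nat_lit 2502233163934) (nat_lit 76) (nat_lit 386190315810) (nat_lit 76) (nat_lit 370955395108) (nat_lit 1) (nat_lit 4) (nat_lit 2) (nat_lit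 5) (nat_lit 2) (nat_lit 4) (nat_lit 405) (nat_lit 302) (nat_lit 193))) (XT.nd (nat_lit 78) (nat_lit 0) (nat_lit 0) (XT.lf (nat_lit 0) (nat_lit 2726474567312) (nat_lit 76) (nat_lit 403957156060) (nat_lit 76) (nat_lit 388721978664) (nat_lit 1) (nat_lit 4) (nat_lit 2) (nat_lit 5) (nat_lit 2) (nat_lit 4) (nat_lit 406) (nat_lit 302) (nat_lit 192)) (XT.lf (nat_lit 0) (nat_lit 2968654502642) (nat_lit 76) (nat_lit 423145729730) (nat_lit 76) (nat_lit 407910314654) (nat_lit 1) (nat_lit 4) (nat_lit 2) (nat_lit 5) (nat_lit 2) (nat_lit 4) (nat_lit 407) (nat_lit 302) (nat_lit 191)))) (XT.nd (nat_lit 156) (nat_lit 0) (nat_lit 0) (XT.nd (nat_lit 78) (nat_lit 0) (nat_lit 0) (XT.lf (nat_lit 0) (nat_lit 3230208110282) (nat_lit 76) (nat_lit 443869746887) (nat_lit 76) (nat_lit 428634111738) (nat_lit 1) (nat_lit 4) (nat_lit 2) (nat_lit 5) (nat_lit 2) (nat_lit 4) (nat_lit 408) (nat_lit 302) (nat_lit 190)) (XT.lf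 (nat_lit 0) (nat_lit 3512685337537) (nat_lit 76) (nat_lit 466252016522) (nat_lit 76) (nat_lit 451016177600) (nat_lit 1) (nat_lit 4) (nat_lit 2) (nat_lit 5) (nat_lit 2) (nat_lit 4) (nat_lit 409) (nat_lit 302) (nat_lit 189))) (XT.nd (nat_lit 38532) (nat_lit 0) (nat_lit 5092) (XT.lf (nat_lit 0) (nat_lit 3817760123530) (nat_lit 76) (nat_lit 490425174305) (nat_lit 76) (nat_lit 475189146706) (nat_lit 1) (nat_lit 4) (nat_lit 2) (nat_lit 5) (nat_lit 2) (nat_lit 4) (nat_lit 410) (nat_lit 302) (nat_lit 188)) (XT.lf (nat_lit 0) (nat_lit 628658618) (nat_lit 0) (nat_lit 628658618) (nat_lit 228) (nat_lit 2093782895) (nat_lit 68) (nat_lit 5) (nat_lit 68) (nat_lit 3) (nat_lit 71) (nat_lit 3) (nat_lit 303) (nat_lit 303) (nat_lit 294)))))))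
noncomputable def xc105 : XT := (XT.nd (nat_lit 1248) (nat_lit 1520) (nat_lit 0) (XT.nd (nat_lit 624) (nat_lit 1520) (nat_lit 0) (XT.nd (nat_lit 312) (nat_lit 684) (nat_lit 0) (XT.nd (nat_lit 156) (nat_lit 304) (nat_lit 0) (XT.nd (nat_lit 78) (nat_lit 0) (nat_lit 0) (XT.lf (nat_lit 0) (nat_lit 4587994023) (nat_lit 0) (nat_lit 77409736) (nat_lit 228) (nat_lit 2134649313) (nat_lit 68) (nat_lit 5) (nat_lit 68) (nat_lit 3) (nat_lit 71) (nat_lit 3) (nat_lit 304) (nat_lit 303) (nat_lit 293)) (XT.lf (nat_lit 76) (nat_lit 1187976242) (nat_lit 0) (nat_lit 5654963973) (nat_lit 304) (nat_lit 75039787) (nat_lit 69) (nat_lit 5) (nat_lit 68) (nat_lit 5) (nat_lit 72) (nat_lit 5) (nat_lit 305) (nat_lit 303) (nat_lit 292))) (XT.nd (nat_lit 78) (nat_lit 0) (nat_lit 0) (XT.lf (nat_lit 0) (nat_lit 1909887130) (nat_lit 304) (nat_lit 2239780742) (nat_lit 380) (nat_lit 2902626066) (nat_lit 64) (nat_lit 5) (nat_lit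 68) (nat_lit 5) (nat_lit 69) (nat_lit 5) (nat_lit 306) (nat_lit 303) (nat_lit 291)) (XT.lf (nat_lit 76) (nat_lit 1481623131) (nat_lit 0) (nat_lit 2422086301) (nat_lit 380) (nat_lit 3305649246) (nat_lit 65) (nat_lit 5) (nat_lit 64) (nat_lit 5) (nat_lit 69) (nat_lit 5) (nat_lit 307) (nat_lit 303) (nat_lit 290)))) (XT.nd (nat_lit 156) (nat_lit 380) (nat_lit 0) (XT.nd (nat_lit 78) (nat_lit 304) (nat_lit 0) (XT.lf (nat_lit 76) (nat_lit 5510956098) (nat_lit 0) (nat_lit 436468310) (nat_lit 380) (nat_lit 1440790681) (nat_lit 65) (nat_lit 5) (nat_lit 64) (nat_lit 5) (nat_lit 69) (nat_lit 5) (nat_lit 308) (nat_lit 303) (nat_lit 289)) (XT.lf (nat_lit 0) (nat_lit 480240617) (nat_lit 380) (nat_lit 5370026992) (nat_lit 76) (nat_lit 1735548789) (nat_lit 60) (nat_lit 5) (nat_lit 65) (nat_lit 5) (nat_lit 61) (nat_lit 5) (nat_lit 309) (nat_lit 303) (nat_lit 288))) (XT.nd (nat_lit 78) (nat_lit 380) (nat_lit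 0) (XT.lf (nat_lit 0) (nat_lit 2388639550) (nat_lit 380) (nat_lit 1230211806) (nat_lit 76) (nat_lit 4184821719) (nat_lit 60) (nat_lit 5) (nat_lit 65) (nat_lit 5) (nat_lit 61) (nat_lit 5) (nat_lit 310) (nat_lit 303) (nat_lit 287)) (XT.lf (nat_lit 0) (nat_lit 3286642246) (nat_lit 380) (nat_lit 1100933865) (nat_lit 456) (nat_lit 3656689155) (nat_lit 55) (nat_lit 5) (nat_lit 60) (nat_lit 5) (nat_lit 61) (nat_lit 5) (nat_lit 311) (nat_lit 303) (nat_lit 286))))) (XT.nd (nat_lit 312) (nat_lit 684) (nat_lit 0) (XT.nd (nat_lit 156) (nat_lit 304) (nat_lit 0) (XT.nd (nat_lit 78) (nat_lit 532) (nat_lit 0) (XT.lf (nat_lit 0) (nat_lit 6486792346) (nat_lit 456) (nat_lit 233381602) (nat_lit 76) (nat_lit 1589013032) (nat_lit 55) (nat_lit 5) (nat_lit 61) (nat_lit 5) (nat_lit 56) (nat_lit 5) (nat_lit 312) (nat_lit 303) (nat_lit 285)) (XT.lf (nat_lit 0) (nat_lit 170415923) (nat_lit 532) (nat_lit 3854405341)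 (nat_lit 76) (nat_lit 4568866174) (nat_lit 48) (nat_lit 5) (nat_lit 55) (nat_lit 5) (nat_lit 49) (nat_lit 5) (nat_lit 313) (nat_lit 303) (nat_lit 284))) (XT.nd (nat_lit 78) (nat_lit 0) (nat_lit 0) (XT.lf (nat_lit 0) (nat_lit 1109421737) (nat_lit 304) (nat_lit 1027872531) (nat_lit 380) (nat_lit 6767066047) (nat_lit 44) (nat_lit 5) (nat_lit 48) (nat_lit 5) (nat_lit 49) (nat_lit 5) (nat_lit 314) (nat_lit 303) (nat_lit 283)) (XT.lf (nat_lit 0) (nat_lit 4308601220) (nat_lit 380) (nat_lit 2725116857) (nat_lit 76) (nat_lit 2202631515) (nat_lit 44) (nat_lit 5) (nat_lit 49) (nat_lit 5) (nat_lit 45) (nat_lit 5) (nat_lit 315) (nat_lit 303) (nat_lit 282)))) (XT.nd (nat_lit 156) (nat_lit 456) (nat_lit 0) (XT.nd (nat_lit 78) (nat_lit 0) (nat_lit 0) (XT.lf (nat_lit 0) (nat_lit 2742877068) (nat_lit 228) (nat_lit 3897689066) (nat_lit 304) (nat_lit 2955587489) (nat_lit 41) (nat_lit 5) (nat_lit 44) (nat_lit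 5) (nat_lit 45) (nat_lit 5) (nat_lit 316) (nat_lit 303) (nat_lit 281)) (XT.lf (nat_lit 0) (nat_lit 8688350405) (nat_lit 228) (nat_lit 444602646) (nat_lit 304) (nat_lit 854075931) (nat_lit 41) (nat_lit 5) (nat_lit 44) (nat_lit 5) (nat_lit 45) (nat_lit 5) (nat_lit 317) (nat_lit 303) (nat_lit 280))) (XT.nd (nat_lit 78) (nat_lit 152) (nat_lit 0) (XT.lf (nat_lit 0) (nat_lit 1446764285) (nat_lit 304) (nat_lit 5693110185) (nat_lit 76) (nat_lit 3258583000) (nat_lit 37) (nat_lit 5) (nat_lit 41) (nat_lit 5) (nat_lit 38) (nat_lit 5) (nat_lit 318) (nat_lit 303) (nat_lit 279)) (XT.lf (nat_lit 0) (nat_lit 287468179) (nat_lit 152) (nat_lit 3561227875) (nat_lit 228) (nat_lit 6995431892) (nat_lit 35) (nat_lit 5) (nat_lit 37) (nat_lit 5) (nat_lit 38) (nat_lit 5) (nat_lit 319) (nat_lit 303) (nat_lit 278)))))) (XT.nd (nat_lit 624) (nat_lit 684) (nat_lit 0) (XT.nd (nat_lit 312) (nat_lit 380) (nat_lit 0) (XT.nd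 (nat_lit 156) (nat_lit 228) (nat_lit 0) (XT.nd (nat_lit 78) (nat_lit 228) (nat_lit 0) (XT.lf (nat_lit 0) (nat_lit 6521534908) (nat_lit 228) (nat_lit 4373547436) (nat_lit 76) (nat_lit 424213717) (nat_lit 35) (nat_lit 5) (nat_lit 38) (nat_lit 5) (nat_lit 36) (nat_lit 5) (nat_lit 320) (nat_lit 303) (nat_lit 277)) (XT.lf (nat_lit 0) (nat_lit 2211738036) (nat_lit 228) (nat_lit 7260437453) (nat_lit 304) (nat_lit 2355317692) (nat_lit 32) (nat_lit 5) (nat_lit 35) (nat_lit 5) (nat_lit 36) (nat_lit 5) (nat_lit 321) (nat_lit 303) (nat_lit 276))) (XT.nd (nat_lit 78) (nat_lit 152) (nat_lit 0) (XT.lf (nat_lit 0) (nat_lit 310667800) (nat_lit 304) (nat_lit 2916271060) (nat_lit 76) (nat_lit 9145595761) (nat_lit 31) (nat_lit 5) (nat_lit 35) (nat_lit 5) (nat_lit 32) (nat_lit 5) (nat_lit 322) (nat_lit 303) (nat_lit 275)) (XT.lf (nat_lit 0) (nat_lit 3124172529) (nat_lit 228) (nat_lit 8611817475) (nat_lit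 76) (nat_lit 1215482102) (nat_lit 29) (nat_lit 5) (nat_lit 32) (nat_lit 5) (nat_lit 30) (nat_lit 5) (nat_lit 323) (nat_lit 303) (nat_lit 274)))) (XT.nd (nat_lit 156) (nat_lit 228) (nat_lit 0) (XT.nd (nat_lit 78) (nat_lit 152) (nat_lit 0) (XT.lf (nat_lit 0) (nat_lit 6256292622) (nat_lit 228) (nat_lit 1420644724) (nat_lit 76) (nat_lit 5892402589) (nat_lit 29) (nat_lit 5) (nat_lit 32) (nat_lit 5) (nat_lit 30) (nat_lit 5) (nat_lit 324) (nat_lit 303) (nat_lit 273)) (XT.lf (nat_lit 0) (nat_lit 6576356484) (nat_lit 152) (nat_lit 3154038578) (nat_lit 228) (nat_lit 4499019983) (nat_lit 27) (nat_lit 5) (nat_lit 29) (nat_lit 5) (nat_lit 30) (nat_lit 5) (nat_lit 325) (nat_lit 303) (nat_lit 272))) (XT.nd (nat_lit 78) (nat_lit 76) (nat_lit 0) (XT.lf (nat_lit 0) (nat_lit 222841125) (nat_lit 152) (nat_lit 13281541248) (nat_lit 228) (nat_lit 1436241401) (nat_lit 25) (nat_lit 5) (nat_lit 27) (nat_lit 5)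 (nat_lit 28) (nat_lit 4) (nat_lit 326) (nat_lit 303) (nat_lit 271)) (XT.lf (nat_lit 0) (nat_lit 2010421957) (nat_lit 228) (nat_lit 6761613006) (nat_lit 76) (nat_lit 6914566653) (nat_lit 24) (nat_lit 5) (nat_lit 27) (nat_lit 5) (nat_lit 25) (nat_lit 5) (nat_lit 327) (nat_lit 303) (nat_lit 270))))) (XT.nd (nat_lit 312) (nat_lit 380) (nat_lit 0) (XT.nd (nat_lit 156) (nat_lit 152) (nat_lit 0) (XT.nd (nat_lit 78) (nat_lit 0) (nat_lit 0) (XT.lf (nat_lit 0) (nat_lit 1789461805) (nat_lit 152) (nat_lit 3849427721) (nat_lit 228) (nat_lit 10851757319) (nat_lit 22) (nat_lit 5) (nat_lit 24) (nat_lit 5) (nat_lit 25) (nat_lit 5) (nat_lit 328) (nat_lit 303) (nat_lit 269)) (XT.lf (nat_lit 0) (nat_lit 9724596207) (nat_lit 228) (nat_lit 6070383955) (nat_lit 76) (nat_lit 1550740441) (nat_lit 22) (nat_lit 5) (nat_lit 25) (nat_lit 5) (nat_lit 23) (nat_lit 4) (nat_lit 329) (nat_lit 303) (nat_lit 268))) (XT.nd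 (nat_lit 78) (nat_lit 76) (nat_lit 0) (XT.lf (nat_lit 0) (nat_lit 3223991028) (nat_lit 76) (nat_lit 11036990768) (nat_lit 152) (nat_lit 3998369942) (nat_lit 21) (nat_lit 5) (nat_lit 22) (nat_lit 5) (nat_lit 23) (nat_lit 4) (nat_lit 330) (nat_lit 303) (nat_lit 267)) (XT.lf (nat_lit 0) (nat_lit 35598088) (nat_lit 152) (nat_lit 5716698291) (nat_lit 76) (nat_lit 13484623038) (nat_lit 20) (nat_lit 5) (nat_lit 22) (nat_lit 5) (nat_lit 21) (nat_lit 5) (nat_lit 331) (nat_lit 303) (nat_lit 266)))) (XT.nd (nat_lit 156) (nat_lit 228) (nat_lit 0) (XT.nd (nat_lit 78) (nat_lit 0) (nat_lit 0) (XT.lf (nat_lit 0) (nat_lit 4235936815) (nat_lit 228) (nat_lit 15902991215) (nat_lit 76) (nat_lit 140728113) (nat_lit 18) (nat_lit 5) (nat_lit 21) (nat_lit 5) (nat_lit 19) (nat_lit 4) (nat_lit 332) (nat_lit 303) (nat_lit 265)) (XT.lf (nat_lit 0) (nat_lit 9033768383) (nat_lit 228) (nat_lit 6027366449) (nat_lit 76)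 (nat_lit 6323801809) (nat_lit 18) (nat_lit 5) (nat_lit 21) (nat_lit 5) (nat_lit 19) (nat_lit 4) (nat_lit 333) (nat_lit 303) (nat_lit 264))) (XT.nd (nat_lit 78) (nat_lit 152) (nat_lit 0) (XT.lf (nat_lit 0) (nat_lit 4801459955) (nat_lit 76) (nat_lit 9484711122) (nat_lit 152) (nat_lit 8286847907) (nat_lit 17) (nat_lit 5) (nat_lit 18) (nat_lit 5) (nat_lit 19) (nat_lit 4) (nat_lit 334) (nat_lit 303) (nat_lit 263)) (XT.nd (nat_lit 78) (nat_lit 152) (nat_lit 0) (XT.lf (nat_lit 0) (nat_lit 16764287626) (nat_lit 76) (nat_lit 3316054161) (nat_lit 152) (nat_lit 3766116151) (nat_lit 17) (nat_lit 5) (nat_lit 18) (nat_lit 5) (nat_lit 19) (nat_lit 4) (nat_lit 335) (nat_lit 303) (nat_lit 262)) (XT.lf (nat_lit 0) (nat_lit 1213120924) (nat_lit 152) (nat_lit 20703814582) (nat_lit 76) (nat_lit 3290504740) (nat_lit 15) (nat_lit 5) (nat_lit 17) (nat_lit 5) (nat_lit 16) (nat_lit 4) (nat_lit 336) (nat_lit 303)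 (nat_lit 261))))))))
noncomputable def xc106 : XT := (XT.nd (nat_lit 1248) (nat_lit 380) (nat_lit 0) (XT.nd (nat_lit 624) (nat_lit 304) (nat_lit 0) (XT.nd (nat_lit 312) (nat_lit 228) (nat_lit 0) (XT.nd (nat_lit 156) (nat_lit 0) (nat_lit 0) (XT.nd (nat_lit 78) (nat_lit 76) (nat_lit 0) (XT.lf (nat_lit 0) (nat_lit 6631573228) (nat_lit 152) (nat_lit 9504122491) (nat_lit 76) (nat_lit 10514260823) (nat_lit 15) (nat_lit 5) (nat_lit 17) (nat_lit 5) (nat_lit 16) (nat_lit 4) (nat_lit 337) (nat_lit 303) (nat_lit 260)) (XT.lf (nat_lit 0) (nat_lit 2657458626) (nat_lit 76) (nat_lit 9852496149) (nat_lit 152) (nat_lit 15695829647) (nat_lit 14) (nat_lit 5) (nat_lit 15) (nat_lit 5) (nat_lit 16) (nat_lit 4) (nat_lit 338) (nat_lit 303) (nat_lit 259))) (XT.nd (nat_lit 78) (nat_lit 0) (nat_lit 0) (XT.lf (nat_lit 0) (nat_lit 16267147708) (nat_lit 76) (nat_lit 2815063438) (nat_lit 152) (nat_lit 10786003605)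 (nat_lit 14) (nat_lit 5) (nat_lit 15) (nat_lit 5) (nat_lit 16) (nat_lit 4) (nat_lit 339) (nat_lit 303) (nat_lit 258)) (XT.lf (nat_lit 0) (nat_lit 26261119092) (nat_lit 152) (nat_lit 875664050) (nat_lit 0) (nat_lit 4520409418) (nat_lit 14) (nat_lit 5) (nat_lit 16) (nat_lit 4) (nat_lit 14) (nat_lit 4) (nat_lit 340) (nat_lit 303) (nat_lit 257)))) (XT.nd (nat_lit 156) (nat_lit 76) (nat_lit 0) (XT.nd (nat_lit 78) (nat_lit 0) (nat_lit 0) (XT.lf (nat_lit 0) (nat_lit 777104986) (nat_lit 152) (nat_lit 20172440843) (nat_lit 76) (nat_lit 12609079128) (nat_lit 12) (nat_lit 5) (nat_lit 14) (nat_lit 5) (nat_lit 13) (nat_lit 4) (nat_lit 341) (nat_lit 303) (nat_lit 256)) (XT.lf (nat_lit 0) (nat_lit 7145664725) (nat_lit 152) (nat_lit 6970382461) (nat_lit 76) (nat_lit 21485485783) (nat_lit 12) (nat_lit 5) (nat_lit 14) (nat_lit 5) (nat_lit 13) (nat_lit 4) (nat_lit 342) (nat_lit 303) (nat_lit 255))) (XT.nd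 (nat_lit 78) (nat_lit 0) (nat_lit 0) (XT.lf (nat_lit 0) (nat_lit 7614950724) (nat_lit 76) (nat_lit 6562723310) (nat_lit 152) (nat_lit 23617899119) (nat_lit 11) (nat_lit 5) (nat_lit 12) (nat_lit 5) (nat_lit 13) (nat_lit 4) (nat_lit 343) (nat_lit 303) (nat_lit 254)) (XT.lf (nat_lit 0) (nat_lit 21977276419) (nat_lit 152) (nat_lit 16483828247) (nat_lit 0) (nat_lit 1687644776) (nat_lit 11) (nat_lit 5) (nat_lit 13) (nat_lit 4) (nat_lit 11) (nat_lit 4) (nat_lit 344) (nat_lit 303) (nat_lit 253))))) (XT.nd (nat_lit 312) (nat_lit 152) (nat_lit 0) (XT.nd (nat_lit 156) (nat_lit 76) (nat_lit 0) (XT.nd (nat_lit 78) (nat_lit 76) (nat_lit 0) (XT.lf (nat_lit 0) (nat_lit 30544587845) (nat_lit 152) (nat_lit 1911893396) (nat_lit 0) (nat_lit 10222213656) (nat_lit 11) (nat_lit 5) (nat_lit 13) (nat_lit 4) (nat_lit 11) (nat_lit 4) (nat_lit 345) (nat_lit 303) (nat_lit 252)) (XT.lf (nat_lit 0) (nat_lit 14504965081)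 (nat_lit 76) (nat_lit 25616423590) (nat_lit 76) (nat_lit 5263732229) (nat_lit 10) (nat_lit 4) (nat_lit 11) (nat_lit 5) (nat_lit 11) (nat_lit 4) (nat_lit 346) (nat_lit 303) (nat_lit 251))) (XT.nd (nat_lit 78) (nat_lit 0) (nat_lit 0) (XT.lf (nat_lit 0) (nat_lit 2077408491) (nat_lit 152) (nat_lit 16059753155) (nat_lit 76) (nat_lit 30164441928) (nat_lit 9) (nat_lit 5) (nat_lit 11) (nat_lit 5) (nat_lit 10) (nat_lit 4) (nat_lit 347) (nat_lit 303) (nat_lit 250)) (XT.lf (nat_lit 0) (nat_lit 9698655786) (nat_lit 152) (nat_lit 233550871) (nat_lit 76) (nat_lit 41510095628) (nat_lit 9) (nat_lit 5) (nat_lit 11) (nat_lit 5) (nat_lit 10) (nat_lit 4) (nat_lit 348) (nat_lit 303) (nat_lit 249)))) (XT.nd (nat_lit 156) (nat_lit 76) (nat_lit 0) (XT.nd (nat_lit 78) (nat_lit 0) (nat_lit 0) (XT.lf (nat_lit 0) (nat_lit 17704478541) (nat_lit 76) (nat_lit 629800399) (nat_lit 152) (nat_lit 36467613618) (nat_lit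 8) (nat_lit 5) (nat_lit 9) (nat_lit 5) (nat_lit 10) (nat_lit 4) (nat_lit 349) (nat_lit 303) (nat_lit 248)) (XT.lf (nat_lit 0) (nat_lit 27872846166) (nat_lit 152) (nat_lit 21605660034) (nat_lit 0) (nat_lit 8934785348) (nat_lit 8) (nat_lit 5) (nat_lit 10) (nat_lit 4) (nat_lit 8) (nat_lit 4) (nat_lit 350) (nat_lit 303) (nat_lit 247))) (XT.nd (nat_lit 78) (nat_lit 76) (nat_lit 0) (XT.lf (nat_lit 0) (nat_lit 38171476142) (nat_lit 152) (nat_lit 4928066124) (nat_lit 0) (nat_lit 19214310363) (nat_lit 8) (nat_lit 5) (nat_lit 10) (nat_lit 4) (nat_lit 8) (nat_lit 4) (nat_lit 351) (nat_lit 303) (nat_lit 246)) (XT.lf (nat_lit 0) (nat_lit 13736499973) (nat_lit 76) (nat_lit 35869914253) (nat_lit 76) (nat_lit 16895058695) (nat_lit 7) (nat_lit 4) (nat_lit 8) (nat_lit 5) (nat_lit 8) (nat_lit 4) (nat_lit 352) (nat_lit 303) (nat_lit 245)))))) (XT.nd (nat_lit 624) (nat_lit 152) (nat_lit 0) (XT.nd (nat_lit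 312) (nat_lit 76) (nat_lit 0) (XT.nd (nat_lit 156) (nat_lit 152) (nat_lit 0) (XT.nd (nat_lit 78) (nat_lit 0) (nat_lit 0) (XT.lf (nat_lit 0) (nat_lit 34140974809) (nat_lit 76) (nat_lit 27932492300) (nat_lit 76) (nat_lit 8941257317) (nat_lit 7) (nat_lit 4) (nat_lit 8) (nat_lit 5) (nat_lit 8) (nat_lit 4) (nat_lit 353) (nat_lit 303) (nat_lit 244)) (XT.lf (nat_lit 0) (nat_lit 56146770561) (nat_lit 76) (nat_lit 19374981893) (nat_lit 76) (nat_lit 368580776) (nat_lit 7) (nat_lit 4) (nat_lit 8) (nat_lit 5) (nat_lit 8) (nat_lit 4) (nat_lit 354) (nat_lit 303) (nat_lit 243))) (XT.nd (nat_lit 78) (nat_lit 76) (nat_lit 0) (XT.lf (nat_lit 0) (nat_lit 8429869960) (nat_lit 152) (nat_lit 1486314317) (nat_lit 76) (nat_lit 71223934401) (nat_lit 6) (nat_lit 5) (nat_lit 8) (nat_lit 5) (nat_lit 7) (nat_lit 4) (nat_lit 355) (nat_lit 303) (nat_lit 242)) (XT.lf (nat_lit 0) (nat_lit 18377805823) (nat_lit 152) (nat_lit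 67639834376) (nat_lit 0) (nat_lit 754244388) (nat_lit 5) (nat_lit 5) (nat_lit 7) (nat_lit 4) (nat_lit 5) (nat_lit 4) (nat_lit 356) (nat_lit 303) (nat_lit 241)))) (XT.nd (nat_lit 156) (nat_lit 76) (nat_lit 0) (XT.nd (nat_lit 78) (nat_lit 0) (nat_lit 0) (XT.lf (nat_lit 0) (nat_lit 29406738982) (nat_lit 152) (nat_lit 51652614685) (nat_lit 0) (nat_lit 11772029986) (nat_lit 5) (nat_lit 5) (nat_lit 7) (nat_lit 4) (nat_lit 5) (nat_lit 4) (nat_lit 357) (nat_lit 303) (nat_lit 240)) (XT.lf (nat_lit 0) (nat_lit 41304936043) (nat_lit 152) (nat_lit 34411849951) (nat_lit 0) (nat_lit 23659905230) (nat_lit 5) (nat_lit 5) (nat_lit 7) (nat_lit 4) (nat_lit 5) (nat_lit 4) (nat_lit 358) (nat_lit 303) (nat_lit 239))) (XT.nd (nat_lit 78) (nat_lit 76) (nat_lit 0) (XT.lf (nat_lit 0) (nat_lit 54142904838) (nat_lit 152) (nat_lit 15815372679) (nat_lit 0) (nat_lit 36488316788) (nat_lit 5) (nat_lit 5) (nat_lit 7)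 (nat_lit 4) (nat_lit 5) (nat_lit 4) (nat_lit 359) (nat_lit 303) (nat_lit 238)) (XT.lf (nat_lit 0) (nat_lit 4470658942) (nat_lit 76) (nat_lit 63633582732) (nat_lit 76) (nat_lit 45970145389) (nat_lit 4) (nat_lit 4) (nat_lit 5) (nat_lit 5) (nat_lit 5) (nat_lit 4) (nat_lit 360) (nat_lit 303) (nat_lit 237))))) (XT.nd (nat_lit 312) (nat_lit 152) (nat_lit 0) (XT.nd (nat_lit 156) (nat_lit 0) (nat_lit 0) (XT.nd (nat_lit 78) (nat_lit 0) (nat_lit 0) (XT.lf (nat_lit 0) (nat_lit 27257755063) (nat_lit 76) (nat_lit 56346279485) (nat_lit 76) (nat_lit 38674648352) (nat_lit 4) (nat_lit 4) (nat_lit 5) (nat_lit 5) (nat_lit 5) (nat_lit 4) (nat_lit 361) (nat_lit 303) (nat_lit 236)) (XT.lf (nat_lit 0) (nat_lit 51848140828) (nat_lit 76) (nat_lit 48485604075) (nat_lit 76) (nat_lit 30806386098) (nat_lit 4) (nat_lit 4) (nat_lit 5) (nat_lit 5) (nat_lit 5) (nat_lit 4) (nat_lit 362) (nat_lit 303) (nat_lit 235))) (XT.nd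 (nat_lit 78) (nat_lit 0) (nat_lit 0) (XT.lf (nat_lit 0) (nat_lit 78387537041) (nat_lit 76) (nat_lit 40004974721) (nat_lit 76) (nat_lit 22318731890) (nat_lit 4) (nat_lit 4) (nat_lit 5) (nat_lit 5) (nat_lit 5) (nat_lit 4) (nat_lit 363) (nat_lit 303) (nat_lit 234)) (XT.lf (nat_lit 0) (nat_lit 107033214198) (nat_lit 76) (nat_lit 30854135841) (nat_lit 76) (nat_lit 13161388515) (nat_lit 4) (nat_lit 4) (nat_lit 5) (nat_lit 5) (nat_lit 5) (nat_lit 4) (nat_lit 364) (nat_lit 303) (nat_lit 233)))) (XT.nd (nat_lit 156) (nat_lit 76) (nat_lit 0) (XT.nd (nat_lit 78) (nat_lit 76) (nat_lit 0) (XT.lf (nat_lit 0) (nat_lit 137954924460) (nat_lit 76) (nat_lit 20978860243) (nat_lit 76) (nat_lit 3280090236) (nat_lit 4) (nat_lit 4) (nat_lit 5) (nat_lit 5) (nat_lit 5) (nat_lit 4) (nat_lit 365) (nat_lit 303) (nat_lit 232)) (XT.lf (nat_lit 0) (nat_lit 7014355269) (nat_lit 152) (nat_lit 3114487601) (nat_lit 76)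 (nat_lit 164129767419) (nat_lit 3) (nat_lit 5) (nat_lit 5) (nat_lit 5) (nat_lit 4) (nat_lit 4) (nat_lit 366) (nat_lit 303) (nat_lit 231))) (XT.nd (nat_lit 78) (nat_lit 0) (nat_lit 0) (XT.lf (nat_lit 0) (nat_lit 18498063370) (nat_lit 152) (nat_lit 166618245169) (nat_lit 0) (nat_lit 2100368888) (nat_lit 2) (nat_lit 5) (nat_lit 4) (nat_lit 4) (nat_lit 2) (nat_lit 4) (nat_lit 367) (nat_lit 303) (nat_lit 230)) (XT.nd (nat_lit 78) (nat_lit 0) (nat_lit 0) (XT.lf (nat_lit 0) (nat_lit 31243931384) (nat_lit 152) (nat_lit 155098173375) (nat_lit 0) (nat_lit 14841810051) (nat_lit 2) (nat_lit 5) (nat_lit 4) (nat_lit 4) (nat_lit 2) (nat_lit 4) (nat_lit 368) (nat_lit 303) (nat_lit 229)) (XT.lf (nat_lit 0) (nat_lit 45002995684) (nat_lit 152) (nat_lit 142669279730) (nat_lit 0) (nat_lit 28596775416) (nat_lit 2) (nat_lit 5) (nat_lit 4) (nat_lit 4) (nat_lit 2) (nat_lit 4) (nat_lit 369) (nat_lit 303) (nat_lit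 228))))))))
noncomputable def xc107 : XT := (XT.nd (nat_lit 1248) (nat_lit 0) (nat_lit 0) (XT.nd (nat_lit 624) (nat_lit 76) (nat_lit 0) (XT.nd (nat_lit 312) (nat_lit 0) (nat_lit 0) (XT.nd (nat_lit 156) (nat_lit 0) (nat_lit 0) (XT.nd (nat_lit 78) (nat_lit 0) (nat_lit 0) (XT.lf (nat_lit 0) (nat_lit 59856791466) (nat_lit 152) (nat_lit 129257911532) (nat_lit 0) (nat_lit 43446775889) (nat_lit 2) (nat_lit 5) (nat_lit 4) (nat_lit 4) (nat_lit 2) (nat_lit 4) (nat_lit 370) (nat_lit 303) (nat_lit 227)) (XT.lf (nat_lit 0) (nat_lit 75893341225) (nat_lit 152) (nat_lit 114784594005) (nat_lit 0) (nat_lit 59479811471) (nat_lit 2) (nat_lit 5) (nat_lit 4) (nat_lit 4) (nat_lit 2) (nat_lit 4) (nat_lit 371) (nat_lit 303) (nat_lit 226))) (XT.nd (nat_lit 78) (nat_lit 0) (nat_lit 0) (XT.lf (nat_lit 0) (nat_lit 93207676365) (nat_lit 152) (nat_lit 99163559343) (nat_lit 0) (nat_lit 76790892744) (nat_lit 2) (nat_lit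 5) (nat_lit 4) (nat_lit 4) (nat_lit 2) (nat_lit 4) (nat_lit 372) (nat_lit 303) (nat_lit 225)) (XT.lf (nat_lit 0) (nat_lit 111902400355) (nat_lit 152) (nat_lit 82302238450) (nat_lit 0) (nat_lit 95482603894) (nat_lit 2) (nat_lit 5) (nat_lit 4) (nat_lit 4) (nat_lit 2) (nat_lit 4) (nat_lit 373) (nat_lit 303) (nat_lit 224)))) (XT.nd (nat_lit 156) (nat_lit 0) (nat_lit 0) (XT.nd (nat_lit 78) (nat_lit 0) (nat_lit 0) (XT.lf (nat_lit 0) (nat_lit 132088296743) (nat_lit 152) (nat_lit 64100712389) (nat_lit 0) (nat_lit 115665710616) (nat_lit 2) (nat_lit 5) (nat_lit 4) (nat_lit 4) (nat_lit 2) (nat_lit 4) (nat_lit 374) (nat_lit 303) (nat_lit 223)) (XT.lf (nat_lit 0) (nat_lit 153884985657) (nat_lit 152) (nat_lit 44451120264) (nat_lit 0) (nat_lit 137459816506) (nat_lit 2) (nat_lit 5) (nat_lit 4) (nat_lit 4) (nat_lit 2) (nat_lit 4) (nat_lit 375) (nat_lit 303) (nat_lit 222))) (XT.nd (nat_lit 78) (nat_lit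 0) (nat_lit 0) (XT.lf (nat_lit 0) (nat_lit 177421632661) (nat_lit 152) (nat_lit 23237020047) (nat_lit 0) (nat_lit 160994071820) (nat_lit 2) (nat_lit 5) (nat_lit 4) (nat_lit 4) (nat_lit 2) (nat_lit 4) (nat_lit 376) (nat_lit 303) (nat_lit 221)) (XT.lf (nat_lit 0) (nat_lit 202837714181) (nat_lit 152) (nat_lit 332698553) (nat_lit 0) (nat_lit 186407938813) (nat_lit 2) (nat_lit 5) (nat_lit 4) (nat_lit 4) (nat_lit 2) (nat_lit 4) (nat_lit 377) (nat_lit 303) (nat_lit 220))))) (XT.nd (nat_lit 312) (nat_lit 0) (nat_lit 0) (XT.nd (nat_lit 156) (nat_lit 0) (nat_lit 0) (XT.nd (nat_lit 78) (nat_lit 0) (nat_lit 0) (XT.lf (nat_lit 0) (nat_lit 25682306517) (nat_lit 76) (nat_lit 205219197606) (nat_lit 76) (nat_lit 188787371750) (nat_lit 1) (nat_lit 4) (nat_lit 2) (nat_lit 5) (nat_lit 2) (nat_lit 4) (nat_lit 378) (nat_lit 303) (nat_lit 219)) (XT.lf (nat_lit 0) (nat_lit 53791199627) (nat_lit 76) (nat_lit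 207425145968) (nat_lit 76) (nat_lit 190991421512) (nat_lit 1) (nat_lit 4) (nat_lit 2) (nat_lit 5) (nat_lit 2) (nat_lit 4) (nat_lit 379) (nat_lit 303) (nat_lit 218))) (XT.nd (nat_lit 78) (nat_lit 0) (nat_lit 0) (XT.lf (nat_lit 0) (nat_lit 84143032680) (nat_lit 76) (nat_lit 209810426677) (nat_lit 76) (nat_lit 193374944257) (nat_lit 1) (nat_lit 4) (nat_lit 2) (nat_lit 5) (nat_lit 2) (nat_lit 4) (nat_lit 380) (nat_lit 303) (nat_lit 217)) (XT.lf (nat_lit 0) (nat_lit 116917668389) (nat_lit 76) (nat_lit 212389174727) (nat_lit 76) (nat_lit 195952064564) (nat_lit 1) (nat_lit 4) (nat_lit 2) (nat_lit 5) (nat_lit 2) (nat_lit 4) (nat_lit 381) (nat_lit 303) (nat_lit 216)))) (XT.nd (nat_lit 156) (nat_lit 0) (nat_lit 0) (XT.nd (nat_lit 78) (nat_lit 0) (nat_lit 0) (XT.lf (nat_lit 0) (nat_lit 152309326819) (nat_lit 76) (nat_lit 215176671590) (nat_lit 76) (nat_lit 198738054257) (nat_lit 1) (nat_lit 4) (nat_lit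 2) (nat_lit 5) (nat_lit 2) (nat_lit 4) (nat_lit 382) (nat_lit 303) (nat_lit 215)) (XT.lf (nat_lit 0) (nat_lit 190527736315) (nat_lit 76) (nat_lit 218189435766) (nat_lit 76) (nat_lit 201749422905) (nat_lit 1) (nat_lit 4) (nat_lit 2) (nat_lit 5) (nat_lit 2) (nat_lit 4) (nat_lit 383) (nat_lit 303) (nat_lit 214))) (XT.nd (nat_lit 78) (nat_lit 0) (nat_lit 0) (XT.lf (nat_lit 0) (nat_lit 231799376340) (nat_lit 76) (nat_lit 221445320671) (nat_lit 76) (nat_lit 205004015655) (nat_lit 1) (nat_lit 4) (nat_lit 2) (nat_lit 5) (nat_lit 2) (nat_lit 4) (nat_lit 384) (nat_lit 303) (nat_lit 213)) (XT.lf (nat_lit 0) (nat_lit 276368819578) (nat_lit 76) (nat_lit 224963620439) (nat_lit 76) (nat_lit 208521118982) (nat_lit 1) (nat_lit 4) (nat_lit 2) (nat_lit 5) (nat_lit 2) (nat_lit 4) (nat_lit 385) (nat_lit 303) (nat_lit 212)))))) (XT.nd (nat_lit 624) (nat_lit 0) (nat_lit 0) (XT.nd (nat_lit 312) (nat_lit 0) (nat_lit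 0) (XT.nd (nat_lit 156) (nat_lit 0) (nat_lit 0) (XT.nd (nat_lit 78) (nat_lit 0) (nat_lit 0) (XT.lf (nat_lit 0) (nat_lit 324500181246) (nat_lit 76) (nat_lit 228765184253) (nat_lit 76) (nat_lit 212321574981) (nat_lit 1) (nat_lit 4) (nat_lit 2) (nat_lit 5) (nat_lit 2) (nat_lit 4) (nat_lit 386) (nat_lit 303) (nat_lit 211)) (XT.lf (nat_lit 0) (nat_lit 376478684229) (nat_lit 76) (nat_lit 232872539898) (nat_lit 76) (nat_lit 216427904873) (nat_lit 1) (nat_lit 4) (nat_lit 2) (nat_lit 5) (nat_lit 2) (nat_lit 4) (nat_lit 387) (nat_lit 303) (nat_lit 210))) (XT.nd (nat_lit 78) (nat_lit 0) (nat_lit 0) (XT.lf (nat_lit 0) (nat_lit 432612349285) (nat_lit 76) (nat_lit 237310027261) (nat_lit 76) (nat_lit 220864442463) (nat_lit 1) (nat_lit 4) (nat_lit 2) (nat_lit 5) (nat_lit 2) (nat_lit 4) (nat_lit 388) (nat_lit 303) (nat_lit 209)) (XT.lf (nat_lit 0) (nat_lit 493233820355) (nat_lit 76) (nat_lit 242103942563)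 (nat_lit 76) (nat_lit 225657478345) (nat_lit 1) (nat_lit 4) (nat_lit 2) (nat_lit 5) (nat_lit 2) (nat_lit 4) (nat_lit 389) (nat_lit 303) (nat_lit 208)))) (XT.nd (nat_lit 156) (nat_lit 0) (nat_lit 0) (XT.nd (nat_lit 78) (nat_lit 0) (nat_lit 0) (XT.lf (nat_lit 0) (nat_lit 558702335787) (nat_lit 76) (nat_lit 247282694190) (nat_lit 76) (nat_lit 230835415695) (nat_lit 1) (nat_lit 4) (nat_lit 2) (nat_lit 5) (nat_lit 2) (nat_lit 4) (nat_lit 390) (nat_lit 303) (nat_lit 207)) (XT.lf (nat_lit 0) (nat_lit 629405857152) (nat_lit 76) (nat_lit 252876971041) (nat_lit 76) (nat_lit 236428938586) (nat_lit 1) (nat_lit 4) (nat_lit 2) (nat_lit 5) (nat_lit 2) (nat_lit 4) (nat_lit 391) (nat_lit 303) (nat_lit 206))) (XT.nd (nat_lit 78) (nat_lit 0) (nat_lit 0) (XT.lf (nat_lit 0) (nat_lit 705763368283) (nat_lit 76) (nat_lit 258919924386) (nat_lit 76) (nat_lit 242471193820) (nat_lit 1) (nat_lit 4) (nat_lit 2) (nat_lit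 5) (nat_lit 2) (nat_lit 4) (nat_lit 392) (nat_lit 303) (nat_lit 205)) (XT.lf (nat_lit 0) (nat_lit 788227358133) (nat_lit 76) (nat_lit 265447364319) (nat_lit 76) (nat_lit 248997987354) (nat_lit 1) (nat_lit 4) (nat_lit 2) (nat_lit 5) (nat_lit 2) (nat_lit 4) (nat_lit 393) (nat_lit 303) (nat_lit 204))))) (XT.nd (nat_lit 312) (nat_lit 0) (nat_lit 0) (XT.nd (nat_lit 156) (nat_lit 0) (nat_lit 0) (XT.nd (nat_lit 78) (nat_lit 0) (nat_lit 0) (XT.lf (nat_lit 0) (nat_lit 877286502197) (nat_lit 76) (nat_lit 272497971967) (nat_lit 76) (nat_lit 256047996483) (nat_lit 1) (nat_lit 4) (nat_lit 2) (nat_lit 5) (nat_lit 2) (nat_lit 4) (nat_lit 394) (nat_lit 303) (nat_lit 203)) (XT.lf (nat_lit 0) (nat_lit 973468558368) (nat_lit 76) (nat_lit 280113528706) (nat_lit 76) (nat_lit 263662999039) (nat_lit 1) (nat_lit 4) (nat_lit 2) (nat_lit 5) (nat_lit 2) (nat_lit 4) (nat_lit 395) (nat_lit 303) (nat_lit 202))) (XT.nd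 (nat_lit 78) (nat_lit 0) (nat_lit 0) (XT.lf (nat_lit 0) (nat_lit 1077343494384) (nat_lit 76) (nat_lit 288339163763) (nat_lit 76) (nat_lit 271888120964) (nat_lit 1) (nat_lit 4) (nat_lit 2) (nat_lit 5) (nat_lit 2) (nat_lit 4) (nat_lit 396) (nat_lit 303) (nat_lit 201)) (XT.lf (nat_lit 0) (nat_lit 1189526865422) (nat_lit 76) (nat_lit 297223621642) (nat_lit 76) (nat_lit 280772103719) (nat_lit 1) (nat_lit 4) (nat_lit 2) (nat_lit 5) (nat_lit 2) (nat_lit 4) (nat_lit 397) (nat_lit 303) (nat_lit 200)))) (XT.nd (nat_lit 156) (nat_lit 0) (nat_lit 0) (XT.nd (nat_lit 78) (nat_lit 0) (nat_lit 0) (XT.lf (nat_lit 0) (nat_lit 1310683461830) (nat_lit 76) (nat_lit 306819550981) (nat_lit 76) (nat_lit 290367593130) (nat_lit 1) (nat_lit 4) (nat_lit 2) (nat_lit 5) (nat_lit 2) (nat_lit 4) (nat_lit 398) (nat_lit 303) (nat_lit 199)) (XT.lf (nat_lit 0) (nat_lit 1441531248622) (nat_lit 76) (nat_lit 317183816548)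 (nat_lit 76) (nat_lit 300731451356) (nat_lit 1) (nat_lit 4) (nat_lit 2) (nat_lit 5) (nat_lit 2) (nat_lit 4) (nat_lit 399) (nat_lit 303) (nat_lit 198))) (XT.nd (nat_lit 78) (nat_lit 0) (nat_lit 0) (XT.lf (nat_lit 0) (nat_lit 1582845620091) (nat_lit 76) (nat_lit 328377836212) (nat_lit 76) (nat_lit 311925093852) (nat_lit 1) (nat_lit 4) (nat_lit 2) (nat_lit 5) (nat_lit 2) (nat_lit 4) (nat_lit 400) (nat_lit 303) (nat_lit 197)) (XT.nd (nat_lit 78) (nat_lit 0) (nat_lit 0) (XT.lf (nat_lit 0) (nat_lit 1735463994735) (nat_lit 76) (nat_lit 340467944904) (nat_lit 76) (nat_lit 324014853315) (nat_lit 1) (nat_lit 4) (nat_lit 2) (nat_lit 5) (nat_lit 2) (nat_lit 4) (nat_lit 401) (nat_lit 303) (nat_lit 196)) (XT.lf (nat_lit 0) (nat_lit 1900290777737) (nat_lit 76) (nat_lit 353525787714) (nat_lit 76) (nat_lit 337072372764) (nat_lit 1) (nat_lit 4) (nat_lit 2) (nat_lit 5) (nat_lit 2) (nat_lit 4) (nat_lit 402)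 (nat_lit 303) (nat_lit 195))))))))
noncomputable def xc108 : XT := (XT.nd (nat_lit 39858) (nat_lit 0) (nat_lit 1748) (XT.nd (nat_lit 39234) (nat_lit 0) (nat_lit 4104) (XT.nd (nat_lit 312) (nat_lit 0) (nat_lit 0) (XT.nd (nat_lit 156) (nat_lit 0) (nat_lit 0) (XT.nd (nat_lit 78) (nat_lit 0) (nat_lit 0) (XT.lf (nat_lit 0) (nat_lit 2078302720403) (nat_lit 76) (nat_lit 367628744450) (nat_lit 76) (nat_lit 351175030092) (nat_lit 1) (nat_lit 4) (nat_lit 2) (nat_lit 5) (nat_lit 2) (nat_lit 4) (nat_lit 403) (nat_lit 303) (nat_lit 194)) (XT.lf (nat_lit 0) (nat_lit 2270554708319) (nat_lit 76) (nat_lit 382860388190) (nat_lit 76) (nat_lit 366406396602) (nat_lit 1) (nat_lit 4) (nat_lit 2) (nat_lit 5) (nat_lit 2) (nat_lit 4) (nat_lit 404) (nat_lit 303) (nat_lit 193))) (XT.nd (nat_lit 78) (nat_lit 0) (nat_lit 0) (XT.lf (nat_lit 0) (nat_lit 2478186012526) (nat_lit 76) (nat_lit 399310980525) (nat_lit 76)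 (nat_lit 382856732244) (nat_lit 1) (nat_lit 4) (nat_lit 2) (nat_lit 5) (nat_lit 2) (nat_lit 4) (nat_lit 405) (nat_lit 303) (nat_lit 192)) (XT.lf (nat_lit 0) (nat_lit 2702427040751) (nat_lit 76) (nat_lit 417078006448) (nat_lit 76) (nat_lit 400623520487) (nat_lit 1) (nat_lit 4) (nat_lit 2) (nat_lit 5) (nat_lit 2) (nat_lit 4) (nat_lit 406) (nat_lit 303) (nat_lit 191)))) (XT.nd (nat_lit 156) (nat_lit 0) (nat_lit 0) (XT.nd (nat_lit 78) (nat_lit 0) (nat_lit 0) (XT.lf (nat_lit 0) (nat_lit 2944606628717) (nat_lit 76) (nat_lit 436266752038) (nat_lit 76) (nat_lit 419812046003) (nat_lit 1) (nat_lit 4) (nat_lit 2) (nat_lit 5) (nat_lit 2) (nat_lit 4) (nat_lit 407) (nat_lit 303) (nat_lit 190)) (XT.lf (nat_lit 0) (nat_lit 3206159914724) (nat_lit 76) (nat_lit 456990928380) (nat_lit 76) (nat_lit 440536018573) (nat_lit 1) (nat_lit 4) (nat_lit 2) (nat_lit 5) (nat_lit 2) (nat_lit 4) (nat_lit 408) (nat_lit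 303) (nat_lit 189))) (XT.nd (nat_lit 38688) (nat_lit 0) (nat_lit 5092) (XT.lf (nat_lit 0) (nat_lit 3488636844170) (nat_lit 76) (nat_lit 479373345408) (nat_lit 76) (nat_lit 462918246923) (nat_lit 1) (nat_lit 4) (nat_lit 2) (nat_lit 5) (nat_lit 2) (nat_lit 4) (nat_lit 409) (nat_lit 303) (nat_lit 188)) (XT.lf (nat_lit 0) (nat_lit 1679389774) (nat_lit 0) (nat_lit 1679389774) (nat_lit 228) (nat_lit 94267551) (nat_lit 68) (nat_lit 5) (nat_lit 68) (nat_lit 3) (nat_lit 71) (nat_lit 3) (nat_lit 304) (nat_lit 304) (nat_lit 292))))) (XT.nd (nat_lit 312) (nat_lit 608) (nat_lit 0) (XT.nd (nat_lit 156) (nat_lit 0) (nat_lit 76) (XT.nd (nat_lit 78) (nat_lit 0) (nat_lit 0) (XT.lf (nat_lit 0) (nat_lit 1622155175) (nat_lit 380) (nat_lit 269758569) (nat_lit 380) (nat_lit 5141189599) (nat_lit 63) (nat_lit 3) (nat_lit 68) (nat_lit 3) (nat_lit 68) (nat_lit 5) (nat_lit 305) (nat_lit 304) (nat_lit 291)) (XT.lf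 (nat_lit 76) (nat_lit 3333932973) (nat_lit 0) (nat_lit 132833779) (nat_lit 380) (nat_lit 3711668594) (nat_lit 64) (nat_lit 5) (nat_lit 63) (nat_lit 3) (nat_lit 68) (nat_lit 5) (nat_lit 306) (nat_lit 304) (nat_lit 290))) (XT.nd (nat_lit 78) (nat_lit 0) (nat_lit 0) (XT.lf (nat_lit 0) (nat_lit 5340975295) (nat_lit 304) (nat_lit 247530556) (nat_lit 380) (nat_lit 1756783260) (nat_lit 64) (nat_lit 5) (nat_lit 68) (nat_lit 5) (nat_lit 69) (nat_lit 5) (nat_lit 307) (nat_lit 304) (nat_lit 289)) (XT.lf (nat_lit 76) (nat_lit 3716612648) (nat_lit 0) (nat_lit 3585754809) (nat_lit 380) (nat_lit 228567525) (nat_lit 65) (nat_lit 5) (nat_lit 64) (nat_lit 5) (nat_lit 69) (nat_lit 5) (nat_lit 308) (nat_lit 304) (nat_lit 288)))) (XT.nd (nat_lit 156) (nat_lit 304) (nat_lit 0) (XT.nd (nat_lit 78) (nat_lit 0) (nat_lit 76) (XT.lf (nat_lit 76) (nat_lit 138453981) (nat_lit 0) (nat_lit 1325899629) (nat_lit 456)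 (nat_lit 6275422534) (nat_lit 60) (nat_lit 5) (nat_lit 59) (nat_lit 5) (nat_lit 65) (nat_lit 5) (nat_lit 309) (nat_lit 304) (nat_lit 287)) (XT.lf (nat_lit 0) (nat_lit 3272990533) (nat_lit 380) (nat_lit 3486617859) (nat_lit 76) (nat_lit 1206167041) (nat_lit 60) (nat_lit 5) (nat_lit 65) (nat_lit 5) (nat_lit 61) (nat_lit 5) (nat_lit 310) (nat_lit 304) (nat_lit 286))) (XT.nd (nat_lit 78) (nat_lit 0) (nat_lit 0) (XT.lf (nat_lit 0) (nat_lit 855862056) (nat_lit 380) (nat_lit 4294758333) (nat_lit 456) (nat_lit 3065601448) (nat_lit 55) (nat_lit 5) (nat_lit 60) (nat_lit 5) (nat_lit 61) (nat_lit 5) (nat_lit 311) (nat_lit 304) (nat_lit 285)) (XT.lf (nat_lit 0) (nat_lit 5637031073) (nat_lit 380) (nat_lit 1513149132) (nat_lit 456) (nat_lit 1339074449) (nat_lit 55) (nat_lit 5) (nat_lit 60) (nat_lit 5) (nat_lit 61) (nat_lit 5) (nat_lit 312) (nat_lit 304) (nat_lit 284)))))) (XT.nd (nat_lit 624) (nat_lit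 836) (nat_lit 0) (XT.nd (nat_lit 312) (nat_lit 684) (nat_lit 0) (XT.nd (nat_lit 156) (nat_lit 304) (nat_lit 0) (XT.nd (nat_lit 78) (nat_lit 0) (nat_lit 0) (XT.lf (nat_lit 0) (nat_lit 467391082) (nat_lit 532) (nat_lit 6828287607) (nat_lit 76) (nat_lit 1490238726) (nat_lit 48) (nat_lit 5) (nat_lit 55) (nat_lit 5) (nat_lit 49) (nat_lit 5) (nat_lit 313) (nat_lit 304) (nat_lit 283)) (XT.lf (nat_lit 0) (nat_lit 2354111652) (nat_lit 532) (nat_lit 1973897677) (nat_lit 76) (nat_lit 4775103603) (nat_lit 48) (nat_lit 5) (nat_lit 55) (nat_lit 5) (nat_lit 49) (nat_lit 5) (nat_lit 314) (nat_lit 304) (nat_lit 282))) (XT.nd (nat_lit 78) (nat_lit 0) (nat_lit 0) (XT.lf (nat_lit 0) (nat_lit 3331621389) (nat_lit 304) (nat_lit 1037282935) (nat_lit 380) (nat_lit 5078820894) (nat_lit 44) (nat_lit 5) (nat_lit 48) (nat_lit 5) (nat_lit 49) (nat_lit 5) (nat_lit 315) (nat_lit 304) (nat_lit 281)) (XT.lf (nat_lit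 0) (nat_lit 6562898412) (nat_lit 380) (nat_lit 812868310) (nat_lit 76) (nat_lit 2442894515) (nat_lit 44) (nat_lit 5) (nat_lit 49) (nat_lit 5) (nat_lit 45) (nat_lit 5) (nat_lit 316) (nat_lit 304) (nat_lit 280)))) (XT.nd (nat_lit 156) (nat_lit 152) (nat_lit 0) (XT.nd (nat_lit 78) (nat_lit 304) (nat_lit 0) (XT.lf (nat_lit 0) (nat_lit 5038634549) (nat_lit 228) (nat_lit 3951269167) (nat_lit 304) (nat_lit 1224950746) (nat_lit 41) (nat_lit 5) (nat_lit 44) (nat_lit 5) (nat_lit 45) (nat_lit 5) (nat_lit 317) (nat_lit 304) (nat_lit 279)) (XT.lf (nat_lit 0) (nat_lit 669792936) (nat_lit 228) (nat_lit 200317217) (nat_lit 304) (nat_lit 9774907794) (nat_lit 37) (nat_lit 5) (nat_lit 40) (nat_lit 5) (nat_lit 41) (nat_lit 5) (nat_lit 318) (nat_lit 304) (nat_lit 278))) (XT.nd (nat_lit 78) (nat_lit 152) (nat_lit 0) (XT.lf (nat_lit 0) (nat_lit 3219478416) (nat_lit 304) (nat_lit 4055780996) (nat_lit 76) (nat_lit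 3819703421) (nat_lit 37) (nat_lit 5) (nat_lit 41) (nat_lit 5) (nat_lit 38) (nat_lit 5) (nat_lit 319) (nat_lit 304) (nat_lit 277)) (XT.lf (nat_lit 0) (nat_lit 2350261915) (nat_lit 152) (nat_lit 3389621221) (nat_lit 228) (nat_lit 5842506737) (nat_lit 35) (nat_lit 5) (nat_lit 37) (nat_lit 5) (nat_lit 38) (nat_lit 5) (nat_lit 320) (nat_lit 304) (nat_lit 276))))) (XT.nd (nat_lit 312) (nat_lit 380) (nat_lit 0) (XT.nd (nat_lit 156) (nat_lit 228) (nat_lit 0) (XT.nd (nat_lit 78) (nat_lit 228) (nat_lit 0) (XT.lf (nat_lit 0) (nat_lit 8519433952) (nat_lit 228) (nat_lit 2725203790) (nat_lit 76) (nat_lit 859695871) (nat_lit 35) (nat_lit 5) (nat_lit 38) (nat_lit 5) (nat_lit 36) (nat_lit 5) (nat_lit 321) (nat_lit 304) (nat_lit 275)) (XT.lf (nat_lit 0) (nat_lit 4336316483) (nat_lit 228) (nat_lit 7307303682) (nat_lit 304) (nat_lit 1014745456) (nat_lit 32) (nat_lit 5) (nat_lit 35) (nat_lit 5) (nat_lit 36)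 (nat_lit 5) (nat_lit 322) (nat_lit 304) (nat_lit 274))) (XT.nd (nat_lit 78) (nat_lit 152) (nat_lit 0) (XT.lf (nat_lit 0) (nat_lit 1680438813) (nat_lit 304) (nat_lit 1273467200) (nat_lit 76) (nat_lit 10298923220) (nat_lit 31) (nat_lit 5) (nat_lit 35) (nat_lit 5) (nat_lit 32) (nat_lit 5) (nat_lit 323) (nat_lit 304) (nat_lit 273)) (XT.lf (nat_lit 0) (nat_lit 4676349560) (nat_lit 228) (nat_lit 7380210050) (nat_lit 76) (nat_lit 1825077889) (nat_lit 29) (nat_lit 5) (nat_lit 32) (nat_lit 5) (nat_lit 30) (nat_lit 5) (nat_lit 324) (nat_lit 304) (nat_lit 272)))) (XT.nd (nat_lit 156) (nat_lit 228) (nat_lit 0) (XT.nd (nat_lit 78) (nat_lit 0) (nat_lit 0) (XT.lf (nat_lit 0) (nat_lit 256841605) (nat_lit 152) (nat_lit 7711912240) (nat_lit 228) (nat_lit 6587535070) (nat_lit 27) (nat_lit 5) (nat_lit 29) (nat_lit 5) (nat_lit 30) (nat_lit 5) (nat_lit 325) (nat_lit 304) (nat_lit 271)) (XT.lf (nat_lit 0) (nat_lit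 8835734663) (nat_lit 152) (nat_lit 2831240855) (nat_lit 228) (nat_lit 3606620833) (nat_lit 27) (nat_lit 5) (nat_lit 29) (nat_lit 5) (nat_lit 30) (nat_lit 5) (nat_lit 326) (nat_lit 304) (nat_lit 270))) (XT.nd (nat_lit 78) (nat_lit 76) (nat_lit 0) (XT.lf (nat_lit 0) (nat_lit 2008364129) (nat_lit 152) (nat_lit 13704049105) (nat_lit 228) (nat_lit 331838620) (nat_lit 25) (nat_lit 5) (nat_lit 27) (nat_lit 5) (nat_lit 28) (nat_lit 4) (nat_lit 327) (nat_lit 304) (nat_lit 269)) (XT.lf (nat_lit 0) (nat_lit 3243762810) (nat_lit 228) (nat_lit 5608103815) (nat_lit 76) (nat_lit 8002655935) (nat_lit 24) (nat_lit 5) (nat_lit 27) (nat_lit 5) (nat_lit 25) (nat_lit 5) (nat_lit 328) (nat_lit 304) (nat_lit 268)))))))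
noncomputable def xc109 : XT := (XT.nd (nat_lit 1248) (nat_lit 532) (nat_lit 0) (XT.nd (nat_lit 624) (nat_lit 456) (nat_lit 0) (XT.nd (nat_lit 312) (nat_lit 228) (nat_lit 0) (XT.nd (nat_lit 156) (nat_lit 152) (nat_lit 0) (XT.nd (nat_lit 78) (nat_lit 0) (nat_lit 0) (XT.lf (nat_lit 0) (nat_lit 3584159810) (nat_lit 152) (nat_lit 3538622605) (nat_lit 228) (nat_lit 10603376400) (nat_lit 22) (nat_lit 5) (nat_lit 24) (nat_lit 5) (nat_lit 25) (nat_lit 5) (nat_lit 329) (nat_lit 304) (nat_lit 267)) (XT.lf (nat_lit 0) (nat_lit 11472622149) (nat_lit 228) (nat_lit 4963052023) (nat_lit 76) (nat_lit 2219064940) (nat_lit 22) (nat_lit 5) (nat_lit 25) (nat_lit 5) (nat_lit 23) (nat_lit 4) (nat_lit 330) (nat_lit 304) (nat_lit 266))) (XT.nd (nat_lit 78) (nat_lit 76) (nat_lit 0) (XT.lf (nat_lit 0) (nat_lit 5034544790) (nat_lit 76) (nat_lit 11302858525) (nat_lit 152) (nat_lit 3306895272) (nat_lit 21) (nat_lit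 5) (nat_lit 22) (nat_lit 5) (nat_lit 23) (nat_lit 4) (nat_lit 331) (nat_lit 304) (nat_lit 265)) (XT.lf (nat_lit 0) (nat_lit 928031796) (nat_lit 152) (nat_lit 4688744417) (nat_lit 76) (nat_lit 15087108686) (nat_lit 20) (nat_lit 5) (nat_lit 22) (nat_lit 5) (nat_lit 21) (nat_lit 5) (nat_lit 332) (nat_lit 304) (nat_lit 264)))) (XT.nd (nat_lit 156) (nat_lit 76) (nat_lit 0) (XT.nd (nat_lit 78) (nat_lit 0) (nat_lit 0) (XT.lf (nat_lit 0) (nat_lit 5447489082) (nat_lit 228) (nat_lit 15672271863) (nat_lit 76) (nat_lit 711693131) (nat_lit 18) (nat_lit 5) (nat_lit 21) (nat_lit 5) (nat_lit 19) (nat_lit 4) (nat_lit 333) (nat_lit 304) (nat_lit 263)) (XT.lf (nat_lit 0) (nat_lit 10564504411) (nat_lit 228) (nat_lit 5117927386) (nat_lit 76) (nat_lit 7347952962) (nat_lit 18) (nat_lit 5) (nat_lit 21) (nat_lit 5) (nat_lit 19) (nat_lit 4) (nat_lit 334) (nat_lit 304) (nat_lit 262))) (XT.nd (nat_lit 78) (nat_lit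 0) (nat_lit 0) (XT.lf (nat_lit 0) (nat_lit 6541974032) (nat_lit 76) (nat_lit 9667892263) (nat_lit 152) (nat_lit 8105878187) (nat_lit 17) (nat_lit 5) (nat_lit 18) (nat_lit 5) (nat_lit 19) (nat_lit 4) (nat_lit 335) (nat_lit 304) (nat_lit 261)) (XT.lf (nat_lit 0) (nat_lit 19361354044) (nat_lit 76) (nat_lit 3048379467) (nat_lit 152) (nat_lit 3286000301) (nat_lit 17) (nat_lit 5) (nat_lit 18) (nat_lit 5) (nat_lit 19) (nat_lit 4) (nat_lit 336) (nat_lit 304) (nat_lit 260))))) (XT.nd (nat_lit 312) (nat_lit 228) (nat_lit 0) (XT.nd (nat_lit 156) (nat_lit 76) (nat_lit 0) (XT.nd (nat_lit 78) (nat_lit 0) (nat_lit 0) (XT.lf (nat_lit 0) (nat_lit 2040979022) (nat_lit 152) (nat_lit 21052523228) (nat_lit 76) (nat_lit 4071551044) (nat_lit 15) (nat_lit 5) (nat_lit 17) (nat_lit 5) (nat_lit 16) (nat_lit 4) (nat_lit 337) (nat_lit 304) (nat_lit 259)) (XT.lf (nat_lit 0) (nat_lit 7838773553) (nat_lit 152) (nat_lit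 9053714771) (nat_lit 76) (nat_lit 11834851620) (nat_lit 15) (nat_lit 5) (nat_lit 17) (nat_lit 5) (nat_lit 16) (nat_lit 4) (nat_lit 338) (nat_lit 304) (nat_lit 258))) (XT.nd (nat_lit 78) (nat_lit 0) (nat_lit 0) (XT.lf (nat_lit 0) (nat_lit 4050141252) (nat_lit 76) (nat_lit 10115541433) (nat_lit 152) (nat_lit 16243726299) (nat_lit 14) (nat_lit 5) (nat_lit 15) (nat_lit 5) (nat_lit 16) (nat_lit 4) (nat_lit 339) (nat_lit 304) (nat_lit 257)) (XT.lf (nat_lit 0) (nat_lit 18661191688) (nat_lit 76) (nat_lit 2554014431) (nat_lit 152) (nat_lit 10993541560) (nat_lit 14) (nat_lit 5) (nat_lit 15) (nat_lit 5) (nat_lit 16) (nat_lit 4) (nat_lit 340) (nat_lit 304) (nat_lit 256)))) (XT.nd (nat_lit 156) (nat_lit 76) (nat_lit 0) (XT.nd (nat_lit 78) (nat_lit 76) (nat_lit 0) (XT.lf (nat_lit 0) (nat_lit 105779914) (nat_lit 76) (nat_lit 28831099106) (nat_lit 76) (nat_lit 5206518937) (nat_lit 13) (nat_lit 4) (nat_lit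 14) (nat_lit 5) (nat_lit 14) (nat_lit 4) (nat_lit 341) (nat_lit 304) (nat_lit 255)) (XT.lf (nat_lit 0) (nat_lit 1408465543) (nat_lit 152) (nat_lit 20736218016) (nat_lit 76) (nat_lit 14052769911) (nat_lit 12) (nat_lit 5) (nat_lit 14) (nat_lit 5) (nat_lit 13) (nat_lit 4) (nat_lit 342) (nat_lit 304) (nat_lit 254))) (XT.nd (nat_lit 78) (nat_lit 76) (nat_lit 0) (XT.lf (nat_lit 0) (nat_lit 8244347679) (nat_lit 152) (nat_lit 6555774081) (nat_lit 76) (nat_lit 23607069510) (nat_lit 12) (nat_lit 5) (nat_lit 14) (nat_lit 5) (nat_lit 13) (nat_lit 4) (nat_lit 343) (nat_lit 304) (nat_lit 253)) (XT.lf (nat_lit 0) (nat_lit 9171772114) (nat_lit 76) (nat_lit 6650896788) (nat_lit 152) (nat_lit 24955408040) (nat_lit 11) (nat_lit 5) (nat_lit 12) (nat_lit 5) (nat_lit 13) (nat_lit 4) (nat_lit 344) (nat_lit 304) (nat_lit 252)))))) (XT.nd (nat_lit 624) (nat_lit 304) (nat_lit 0) (XT.nd (nat_lit 312) (nat_lit 76)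 (nat_lit 0) (XT.nd (nat_lit 156) (nat_lit 152) (nat_lit 0) (XT.nd (nat_lit 78) (nat_lit 0) (nat_lit 0) (XT.lf (nat_lit 0) (nat_lit 24218131739) (nat_lit 152) (nat_lit 16896737028) (nat_lit 0) (nat_lit 2206907896) (nat_lit 11) (nat_lit 5) (nat_lit 13) (nat_lit 4) (nat_lit 11) (nat_lit 4) (nat_lit 345) (nat_lit 304) (nat_lit 251)) (XT.lf (nat_lit 0) (nat_lit 33435074509) (nat_lit 152) (nat_lit 1226143499) (nat_lit 0) (nat_lit 11395779209) (nat_lit 11) (nat_lit 5) (nat_lit 13) (nat_lit 4) (nat_lit 11) (nat_lit 4) (nat_lit 346) (nat_lit 304) (nat_lit 250))) (XT.nd (nat_lit 78) (nat_lit 76) (nat_lit 0) (XT.lf (nat_lit 0) (nat_lit 16482830711) (nat_lit 76) (nat_lit 27281743668) (nat_lit 76) (nat_lit 5216456279) (nat_lit 10) (nat_lit 4) (nat_lit 11) (nat_lit 5) (nat_lit 11) (nat_lit 4) (nat_lit 347) (nat_lit 304) (nat_lit 249)) (XT.lf (nat_lit 0) (nat_lit 2655586853) (nat_lit 152) (nat_lit 16565733483)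 (nat_lit 76) (nat_lit 32911262388) (nat_lit 9) (nat_lit 5) (nat_lit 11) (nat_lit 5) (nat_lit 10) (nat_lit 4) (nat_lit 348) (nat_lit 304) (nat_lit 248)))) (XT.nd (nat_lit 156) (nat_lit 0) (nat_lit 0) (XT.nd (nat_lit 78) (nat_lit 0) (nat_lit 0) (XT.lf (nat_lit 0) (nat_lit 493566284) (nat_lit 76) (nat_lit 10374320469) (nat_lit 152) (nat_lit 44658156446) (nat_lit 8) (nat_lit 5) (nat_lit 9) (nat_lit 5) (nat_lit 10) (nat_lit 4) (nat_lit 349) (nat_lit 304) (nat_lit 247)) (XT.lf (nat_lit 0) (nat_lit 19823691890) (nat_lit 76) (nat_lit 347444365) (nat_lit 152) (nat_lit 38985135371) (nat_lit 8) (nat_lit 5) (nat_lit 9) (nat_lit 5) (nat_lit 10) (nat_lit 4) (nat_lit 350) (nat_lit 304) (nat_lit 246))) (XT.nd (nat_lit 78) (nat_lit 0) (nat_lit 0) (XT.lf (nat_lit 0) (nat_lit 30452782569) (nat_lit 152) (nat_lit 22663163766) (nat_lit 0) (nat_lit 9942248788) (nat_lit 8) (nat_lit 5) (nat_lit 10) (nat_lit 4)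 (nat_lit 8) (nat_lit 4) (nat_lit 351) (nat_lit 304) (nat_lit 245)) (XT.lf (nat_lit 0) (nat_lit 41549368964) (nat_lit 152) (nat_lit 4701062274) (nat_lit 0) (nat_lit 21022455758) (nat_lit 8) (nat_lit 5) (nat_lit 10) (nat_lit 4) (nat_lit 8) (nat_lit 4) (nat_lit 352) (nat_lit 304) (nat_lit 244))))) (XT.nd (nat_lit 312) (nat_lit 152) (nat_lit 0) (XT.nd (nat_lit 156) (nat_lit 76) (nat_lit 0) (XT.nd (nat_lit 78) (nat_lit 0) (nat_lit 0) (XT.lf (nat_lit 0) (nat_lit 15440941284) (nat_lit 76) (nat_lit 38448710671) (nat_lit 76) (nat_lit 17906631330) (nat_lit 7) (nat_lit 4) (nat_lit 8) (nat_lit 5) (nat_lit 8) (nat_lit 4) (nat_lit 353) (nat_lit 304) (nat_lit 243)) (XT.lf (nat_lit 0) (nat_lit 37432920676) (nat_lit 76) (nat_lit 29897835459) (nat_lit 76) (nat_lit 9341713402) (nat_lit 7) (nat_lit 4) (nat_lit 8) (nat_lit 5) (nat_lit 8) (nat_lit 4) (nat_lit 354) (nat_lit 304) (nat_lit 242))) (XT.nd (nat_lit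 78) (nat_lit 76) (nat_lit 0) (XT.lf (nat_lit 0) (nat_lit 61157649134) (nat_lit 76) (nat_lit 20675669126) (nat_lit 76) (nat_lit 106544552) (nat_lit 7) (nat_lit 4) (nat_lit 8) (nat_lit 5) (nat_lit 8) (nat_lit 4) (nat_lit 355) (nat_lit 304) (nat_lit 241)) (XT.lf (nat_lit 0) (nat_lit 9360685057) (nat_lit 152) (nat_lit 1110939020) (nat_lit 76) (nat_lit 77139094866) (nat_lit 6) (nat_lit 5) (nat_lit 8) (nat_lit 5) (nat_lit 7) (nat_lit 4) (nat_lit 356) (nat_lit 304) (nat_lit 240)))) (XT.nd (nat_lit 156) (nat_lit 76) (nat_lit 0) (XT.nd (nat_lit 78) (nat_lit 0) (nat_lit 0) (XT.lf (nat_lit 0) (nat_lit 20102645447) (nat_lit 152) (nat_lit 72554842204) (nat_lit 0) (nat_lit 1035690353) (nat_lit 5) (nat_lit 5) (nat_lit 7) (nat_lit 4) (nat_lit 5) (nat_lit 4) (nat_lit 357) (nat_lit 304) (nat_lit 239)) (XT.lf (nat_lit 0) (nat_lit 31995032877) (nat_lit 152) (nat_lit 55325398932) (nat_lit 0) (nat_lit 12918520546)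 (nat_lit 5) (nat_lit 5) (nat_lit 7) (nat_lit 4) (nat_lit 5) (nat_lit 4) (nat_lit 358) (nat_lit 304) (nat_lit 238))) (XT.nd (nat_lit 78) (nat_lit 76) (nat_lit 0) (XT.lf (nat_lit 0) (nat_lit 44827622385) (nat_lit 152) (nat_lit 36739404495) (nat_lit 0) (nat_lit 25742260761) (nat_lit 5) (nat_lit 5) (nat_lit 7) (nat_lit 4) (nat_lit 5) (nat_lit 4) (nat_lit 359) (nat_lit 304) (nat_lit 237)) (XT.nd (nat_lit 78) (nat_lit 76) (nat_lit 0) (XT.lf (nat_lit 0) (nat_lit 58676458946) (nat_lit 152) (nat_lit 16686719668) (nat_lit 0) (nat_lit 39582903531) (nat_lit 5) (nat_lit 5) (nat_lit 7) (nat_lit 4) (nat_lit 5) (nat_lit 4) (nat_lit 360) (nat_lit 304) (nat_lit 236)) (XT.lf (nat_lit 0) (nat_lit 5212222767) (nat_lit 76) (nat_lit 68536741055) (nat_lit 76) (nat_lit 49435598797) (nat_lit 4) (nat_lit 4) (nat_lit 5) (nat_lit 5) (nat_lit 5) (nat_lit 4) (nat_lit 361) (nat_lit 304) (nat_lit 235))))))))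
noncomputable def xc110 : XT := (XT.nd (nat_lit 1248) (nat_lit 76) (nat_lit 0) (XT.nd (nat_lit 624) (nat_lit 0) (nat_lit 0) (XT.nd (nat_lit 312) (nat_lit 152) (nat_lit 0) (XT.nd (nat_lit 156) (nat_lit 0) (nat_lit 0) (XT.nd (nat_lit 78) (nat_lit 0) (nat_lit 0) (XT.lf (nat_lit 0) (nat_lit 29793848717) (nat_lit 76) (nat_lit 60680344534) (nat_lit 76) (nat_lit 41572177421) (nat_lit 4) (nat_lit 4) (nat_lit 5) (nat_lit 5) (nat_lit 5) (nat_lit 4) (nat_lit 362) (nat_lit 304) (nat_lit 234)) (XT.lf (nat_lit 0) (nat_lit 56325133991) (nat_lit 76) (nat_lit 52203677114) (nat_lit 76) (nat_lit 33089005506) (nat_lit 4) (nat_lit 4) (nat_lit 5) (nat_lit 5) (nat_lit 5) (nat_lit 4) (nat_lit 363) (nat_lit 304) (nat_lit 233))) (XT.nd (nat_lit 78) (nat_lit 0) (nat_lit 0) (XT.lf (nat_lit 0) (nat_lit 84963301020) (nat_lit 76) (nat_lit 43056506692) (nat_lit 76) (nat_lit 23935812404) (nat_lit 4) (nat_lit 4) (nat_lit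 5) (nat_lit 5) (nat_lit 5) (nat_lit 4) (nat_lit 364) (nat_lit 304) (nat_lit 232)) (XT.lf (nat_lit 0) (nat_lit 115878057460) (nat_lit 76) (nat_lit 33184627814) (nat_lit 76) (nat_lit 14058356969) (nat_lit 4) (nat_lit 4) (nat_lit 5) (nat_lit 5) (nat_lit 5) (nat_lit 4) (nat_lit 365) (nat_lit 304) (nat_lit 231)))) (XT.nd (nat_lit 156) (nat_lit 76) (nat_lit 0) (XT.nd (nat_lit 78) (nat_lit 76) (nat_lit 0) (XT.lf (nat_lit 0) (nat_lit 149252601867) (nat_lit 76) (nat_lit 22529540456) (nat_lit 76) (nat_lit 3398106134) (nat_lit 4) (nat_lit 4) (nat_lit 5) (nat_lit 5) (nat_lit 5) (nat_lit 4) (nat_lit 366) (nat_lit 304) (nat_lit 230)) (XT.lf (nat_lit 0) (nat_lit 7702511360) (nat_lit 152) (nat_lit 3114991690) (nat_lit 76) (nat_lit 177371597649) (nat_lit 3) (nat_lit 5) (nat_lit 5) (nat_lit 5) (nat_lit 4) (nat_lit 4) (nat_lit 367) (nat_lit 304) (nat_lit 229))) (XT.nd (nat_lit 78) (nat_lit 0) (nat_lit 0)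 (XT.lf (nat_lit 0) (nat_lit 20104197197) (nat_lit 152) (nat_lit 179698295950) (nat_lit 0) (nat_lit 2381380372) (nat_lit 2) (nat_lit 5) (nat_lit 4) (nat_lit 4) (nat_lit 2) (nat_lit 4) (nat_lit 368) (nat_lit 304) (nat_lit 228)) (XT.lf (nat_lit 0) (nat_lit 33860379929) (nat_lit 152) (nat_lit 167275093141) (nat_lit 0) (nat_lit 16133767794) (nat_lit 2) (nat_lit 5) (nat_lit 4) (nat_lit 4) (nat_lit 2) (nat_lit 4) (nat_lit 369) (nat_lit 304) (nat_lit 227))))) (XT.nd (nat_lit 312) (nat_lit 0) (nat_lit 0) (XT.nd (nat_lit 156) (nat_lit 0) (nat_lit 0) (XT.nd (nat_lit 78) (nat_lit 0) (nat_lit 0) (XT.lf (nat_lit 0) (nat_lit 48711507593) (nat_lit 152) (nat_lit 153868994234) (nat_lit 0) (nat_lit 30981381282) (nat_lit 2) (nat_lit 5) (nat_lit 4) (nat_lit 4) (nat_lit 2) (nat_lit 4) (nat_lit 370) (nat_lit 304) (nat_lit 226)) (XT.lf (nat_lit 0) (nat_lit 64745586871) (nat_lit 152) (nat_lit 139400555682) (nat_lit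 0) (nat_lit 47012206693) (nat_lit 2) (nat_lit 5) (nat_lit 4) (nat_lit 4) (nat_lit 2) (nat_lit 4) (nat_lit 371) (nat_lit 304) (nat_lit 225))) (XT.nd (nat_lit 78) (nat_lit 0) (nat_lit 0) (XT.lf (nat_lit 0) (nat_lit 82057634529) (nat_lit 152) (nat_lit 123784038588) (nat_lit 0) (nat_lit 64321241512) (nat_lit 2) (nat_lit 5) (nat_lit 4) (nat_lit 4) (nat_lit 2) (nat_lit 4) (nat_lit 372) (nat_lit 304) (nat_lit 224)) (XT.lf (nat_lit 0) (nat_lit 100750240480) (nat_lit 152) (nat_lit 106926900630) (nat_lit 0) (nat_lit 83011057797) (nat_lit 2) (nat_lit 5) (nat_lit 4) (nat_lit 4) (nat_lit 2) (nat_lit 4) (nat_lit 373) (nat_lit 304) (nat_lit 223)))) (XT.nd (nat_lit 156) (nat_lit 0) (nat_lit 0) (XT.nd (nat_lit 78) (nat_lit 0) (nat_lit 0) (XT.lf (nat_lit 0) (nat_lit 120934175722) (nat_lit 152) (nat_lit 88729247656) (nat_lit 0) (nat_lit 103192410014) (nat_lit 2) (nat_lit 5) (nat_lit 4) (nat_lit 4) (nat_lit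 2) (nat_lit 4) (nat_lit 374) (nat_lit 304) (nat_lit 222)) (XT.lf (nat_lit 0) (nat_lit 142729048760) (nat_lit 152) (nat_lit 69083241722) (nat_lit 0) (nat_lit 124984891362) (nat_lit 2) (nat_lit 5) (nat_lit 4) (nat_lit 4) (nat_lit 2) (nat_lit 4) (nat_lit 375) (nat_lit 304) (nat_lit 221))) (XT.nd (nat_lit 78) (nat_lit 0) (nat_lit 0) (XT.lf (nat_lit 0) (nat_lit 166264014396) (nat_lit 152) (nat_lit 47872462053) (nat_lit 0) (nat_lit 148517642471) (nat_lit 2) (nat_lit 5) (nat_lit 4) (nat_lit 4) (nat_lit 2) (nat_lit 4) (nat_lit 376) (nat_lit 304) (nat_lit 220)) (XT.lf (nat_lit 0) (nat_lit 191678539094) (nat_lit 152) (nat_lit 24971215140) (nat_lit 0) (nat_lit 173930116681) (nat_lit 2) (nat_lit 5) (nat_lit 4) (nat_lit 4) (nat_lit 2) (nat_lit 4) (nat_lit 377) (nat_lit 304) (nat_lit 219)))))) (XT.nd (nat_lit 624) (nat_lit 0) (nat_lit 0) (XT.nd (nat_lit 312) (nat_lit 0) (nat_lit 0) (XT.nd (nat_lit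 156) (nat_lit 0) (nat_lit 0) (XT.nd (nat_lit 78) (nat_lit 76) (nat_lit 0) (XT.lf (nat_lit 0) (nat_lit 219123227445) (nat_lit 152) (nat_lit 243789890) (nat_lit 0) (nat_lit 201372906432) (nat_lit 2) (nat_lit 5) (nat_lit 4) (nat_lit 4) (nat_lit 2) (nat_lit 4) (nat_lit 378) (nat_lit 304) (nat_lit 218)) (XT.lf (nat_lit 0) (nat_lit 27849490913) (nat_lit 76) (nat_lit 221581004652) (nat_lit 76) (nat_lit 203828925676) (nat_lit 1) (nat_lit 4) (nat_lit 2) (nat_lit 5) (nat_lit 2) (nat_lit 4) (nat_lit 379) (nat_lit 304) (nat_lit 217))) (XT.nd (nat_lit 78) (nat_lit 0) (nat_lit 0) (XT.lf (nat_lit 0) (nat_lit 58198754741) (nat_lit 76) (nat_lit 223967556940) (nat_lit 76) (nat_lit 206213850221) (nat_lit 1) (nat_lit 4) (nat_lit 2) (nat_lit 5) (nat_lit 2) (nat_lit 4) (nat_lit 380) (nat_lit 304) (nat_lit 216)) (XT.lf (nat_lit 0) (nat_lit 90971011538) (nat_lit 76) (nat_lit 226547482380) (nat_lit 76) (nat_lit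 208792268490) (nat_lit 1) (nat_lit 4) (nat_lit 2) (nat_lit 5) (nat_lit 2) (nat_lit 4) (nat_lit 381) (nat_lit 304) (nat_lit 215)))) (XT.nd (nat_lit 156) (nat_lit 0) (nat_lit 0) (XT.nd (nat_lit 78) (nat_lit 0) (nat_lit 0) (XT.lf (nat_lit 0) (nat_lit 126360467272) (nat_lit 76) (nat_lit 229336069417) (nat_lit 76) (nat_lit 211579460000) (nat_lit 1) (nat_lit 4) (nat_lit 2) (nat_lit 5) (nat_lit 2) (nat_lit 4) (nat_lit 382) (nat_lit 304) (nat_lit 214)) (XT.lf (nat_lit 0) (nat_lit 164576837234) (nat_lit 76) (nat_lit 232349843014) (nat_lit 76) (nat_lit 214591941441) (nat_lit 1) (nat_lit 4) (nat_lit 2) (nat_lit 5) (nat_lit 2) (nat_lit 4) (nat_lit 383) (nat_lit 304) (nat_lit 213))) (XT.nd (nat_lit 78) (nat_lit 0) (nat_lit 0) (XT.lf (nat_lit 0) (nat_lit 205846588803) (nat_lit 76) (nat_lit 235606662568) (nat_lit 76) (nat_lit 217847564555) (nat_lit 1) (nat_lit 4) (nat_lit 2) (nat_lit 5) (nat_lit 2)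 (nat_lit 4) (nat_lit 384) (nat_lit 304) (nat_lit 212)) (XT.lf (nat_lit 0) (nat_lit 250414283469) (nat_lit 76) (nat_lit 239125827752) (nat_lit 76) (nat_lit 221365621924) (nat_lit 1) (nat_lit 4) (nat_lit 2) (nat_lit 5) (nat_lit 2) (nat_lit 4) (nat_lit 385) (nat_lit 304) (nat_lit 211))))) (XT.nd (nat_lit 312) (nat_lit 0) (nat_lit 0) (XT.nd (nat_lit 156) (nat_lit 0) (nat_lit 0) (XT.nd (nat_lit 78) (nat_lit 0) (nat_lit 0) (XT.lf (nat_lit 0) (nat_lit 298544026089) (nat_lit 76) (nat_lit 242928192876) (nat_lit 76) (nat_lit 225166961294) (nat_lit 1) (nat_lit 4) (nat_lit 2) (nat_lit 5) (nat_lit 2) (nat_lit 4) (nat_lit 386) (nat_lit 304) (nat_lit 210)) (XT.lf (nat_lit 0) (nat_lit 350521029954) (nat_lit 76) (nat_lit 247036290477) (nat_lit 76) (nat_lit 229274109122) (nat_lit 1) (nat_lit 4) (nat_lit 2) (nat_lit 5) (nat_lit 2) (nat_lit 4) (nat_lit 387) (nat_lit 304) (nat_lit 209))) (XT.nd (nat_lit 78)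 (nat_lit 0) (nat_lit 0) (XT.lf (nat_lit 0) (nat_lit 406653306938) (nat_lit 76) (nat_lit 251474464835) (nat_lit 76) (nat_lit 233711404060) (nat_lit 1) (nat_lit 4) (nat_lit 2) (nat_lit 5) (nat_lit 2) (nat_lit 4) (nat_lit 388) (nat_lit 304) (nat_lit 208)) (XT.lf (nat_lit 0) (nat_lit 467273492756) (nat_lit 76) (nat_lit 256269016242) (nat_lit 76) (nat_lit 238505141191) (nat_lit 1) (nat_lit 4) (nat_lit 2) (nat_lit 5) (nat_lit 2) (nat_lit 4) (nat_lit 389) (nat_lit 304) (nat_lit 207)))) (XT.nd (nat_lit 156) (nat_lit 0) (nat_lit 0) (XT.nd (nat_lit 78) (nat_lit 0) (nat_lit 0) (XT.lf (nat_lit 0) (nat_lit 532740818140) (nat_lit 76) (nat_lit 261448356857) (nat_lit 76) (nat_lit 243683727845) (nat_lit 1) (nat_lit 4) (nat_lit 2) (nat_lit 5) (nat_lit 2) (nat_lit 4) (nat_lit 390) (nat_lit 304) (nat_lit 206)) (XT.lf (nat_lit 0) (nat_lit 603443237609) (nat_lit 76) (nat_lit 267043179067) (nat_lit 76) (nat_lit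 249277851944) (nat_lit 1) (nat_lit 4) (nat_lit 2) (nat_lit 5) (nat_lit 2) (nat_lit 4) (nat_lit 391) (nat_lit 304) (nat_lit 205))) (XT.nd (nat_lit 78) (nat_lit 0) (nat_lit 0) (XT.lf (nat_lit 0) (nat_lit 679799728465) (nat_lit 76) (nat_lit 273086637374) (nat_lit 76) (nat_lit 255320663852) (nat_lit 1) (nat_lit 4) (nat_lit 2) (nat_lit 5) (nat_lit 2) (nat_lit 4) (nat_lit 392) (nat_lit 304) (nat_lit 204)) (XT.nd (nat_lit 78) (nat_lit 0) (nat_lit 0) (XT.lf (nat_lit 0) (nat_lit 762262773616) (nat_lit 76) (nat_lit 279614544864) (nat_lit 76) (nat_lit 261847972824) (nat_lit 1) (nat_lit 4) (nat_lit 2) (nat_lit 5) (nat_lit 2) (nat_lit 4) (nat_lit 393) (nat_lit 304) (nat_lit 203)) (XT.lf (nat_lit 0) (nat_lit 851321042960) (nat_lit 76) (nat_lit 286665585435) (nat_lit 76) (nat_lit 268898459212) (nat_lit 1) (nat_lit 4) (nat_lit 2) (nat_lit 5) (nat_lit 2) (nat_lit 4) (nat_lit 394) (nat_lit 304) (nat_lit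 202))))))))
noncomputable def xc111 : XT := (XT.nd (nat_lit 39936) (nat_lit 0) (nat_lit 2584) (XT.nd (nat_lit 624) (nat_lit 0) (nat_lit 0) (XT.nd (nat_lit 312) (nat_lit 0) (nat_lit 0) (XT.nd (nat_lit 156) (nat_lit 0) (nat_lit 0) (XT.nd (nat_lit 78) (nat_lit 0) (nat_lit 0) (XT.lf (nat_lit 0) (nat_lit 947502289203) (nat_lit 76) (nat_lit 294281543029) (nat_lit 76) (nat_lit 276513903673) (nat_lit 1) (nat_lit 4) (nat_lit 2) (nat_lit 5) (nat_lit 2) (nat_lit 4) (nat_lit 395) (nat_lit 304) (nat_lit 201)) (XT.lf (nat_lit 0) (nat_lit 1051376475287) (nat_lit 76) (nat_lit 302507549249) (nat_lit 76) (nat_lit 284739434770) (nat_lit 1) (nat_lit 4) (nat_lit 2) (nat_lit 5) (nat_lit 2) (nat_lit 4) (nat_lit 396) (nat_lit 304) (nat_lit 200))) (XT.nd (nat_lit 78) (nat_lit 0) (nat_lit 0) (XT.lf (nat_lit 0) (nat_lit 1163559151944) (nat_lit 76) (nat_lit 311392350796) (nat_lit 76) (nat_lit 293623796388) (nat_lit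 1) (nat_lit 4) (nat_lit 2) (nat_lit 5) (nat_lit 2) (nat_lit 4) (nat_lit 397) (nat_lit 304) (nat_lit 199)) (XT.lf (nat_lit 0) (nat_lit 1284715105405) (nat_lit 76) (nat_lit 320988598347) (nat_lit 76) (nat_lit 303219636598) (nat_lit 1) (nat_lit 4) (nat_lit 2) (nat_lit 5) (nat_lit 2) (nat_lit 4) (nat_lit 398) (nat_lit 304) (nat_lit 198)))) (XT.nd (nat_lit 156) (nat_lit 0) (nat_lit 0) (XT.nd (nat_lit 78) (nat_lit 0) (nat_lit 0) (XT.lf (nat_lit 0) (nat_lit 1415562296877) (nat_lit 76) (nat_lit 331353158554) (nat_lit 76) (nat_lit 313583819637) (nat_lit 1) (nat_lit 4) (nat_lit 2) (nat_lit 5) (nat_lit 2) (nat_lit 4) (nat_lit 399) (nat_lit 304) (nat_lit 197)) (XT.lf (nat_lit 0) (nat_lit 1556876117124) (nat_lit 76) (nat_lit 342547451033) (nat_lit 76) (nat_lit 324777762887) (nat_lit 1) (nat_lit 4) (nat_lit 2) (nat_lit 5) (nat_lit 2) (nat_lit 4) (nat_lit 400) (nat_lit 304) (nat_lit 196))) (XT.nd (nat_lit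 78) (nat_lit 0) (nat_lit 0) (XT.lf (nat_lit 0) (nat_lit 1709493981377) (nat_lit 76) (nat_lit 354637812332) (nat_lit 76) (nat_lit 336867800825) (nat_lit 1) (nat_lit 4) (nat_lit 2) (nat_lit 5) (nat_lit 2) (nat_lit 4) (nat_lit 401) (nat_lit 304) (nat_lit 195)) (XT.lf (nat_lit 0) (nat_lit 1874320291794) (nat_lit 76) (nat_lit 367695889037) (nat_lit 76) (nat_lit 349925578122) (nat_lit 1) (nat_lit 4) (nat_lit 2) (nat_lit 5) (nat_lit 2) (nat_lit 4) (nat_lit 402) (nat_lit 304) (nat_lit 194))))) (XT.nd (nat_lit 312) (nat_lit 0) (nat_lit 0) (XT.nd (nat_lit 156) (nat_lit 0) (nat_lit 0) (XT.nd (nat_lit 78) (nat_lit 0) (nat_lit 0) (XT.lf (nat_lit 0) (nat_lit 2052331796882) (nat_lit 76) (nat_lit 381799062342) (nat_lit 76) (nat_lit 364028474198) (nat_lit 1) (nat_lit 4) (nat_lit 2) (nat_lit 5) (nat_lit 2) (nat_lit 4) (nat_lit 403) (nat_lit 304) (nat_lit 193)) (XT.lf (nat_lit 0) (nat_lit 2244583379633)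 (nat_lit 76) (nat_lit 397030906609) (nat_lit 76) (nat_lit 379260061771) (nat_lit 1) (nat_lit 4) (nat_lit 2) (nat_lit 5) (nat_lit 2) (nat_lit 4) (nat_lit 404) (nat_lit 304) (nat_lit 192))) (XT.nd (nat_lit 78) (nat_lit 0) (nat_lit 0) (XT.lf (nat_lit 0) (nat_lit 2452214308687) (nat_lit 76) (nat_lit 413481684618) (nat_lit 76) (nat_lit 395710602100) (nat_lit 1) (nat_lit 4) (nat_lit 2) (nat_lit 5) (nat_lit 2) (nat_lit 4) (nat_lit 405) (nat_lit 304) (nat_lit 191)) (XT.lf (nat_lit 0) (nat_lit 2676454989548) (nat_lit 76) (nat_lit 431248882461) (nat_lit 76) (nat_lit 413477579869) (nat_lit 1) (nat_lit 4) (nat_lit 2) (nat_lit 5) (nat_lit 2) (nat_lit 4) (nat_lit 406) (nat_lit 304) (nat_lit 190)))) (XT.nd (nat_lit 156) (nat_lit 0) (nat_lit 0) (XT.nd (nat_lit 78) (nat_lit 0) (nat_lit 0) (XT.lf (nat_lit 0) (nat_lit 2918634255881) (nat_lit 76) (nat_lit 450437787236) (nat_lit 76) (nat_lit 432666280872)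 (nat_lit 1) (nat_lit 4) (nat_lit 2) (nat_lit 5) (nat_lit 2) (nat_lit 4) (nat_lit 407) (nat_lit 304) (nat_lit 189)) (XT.lf (nat_lit 0) (nat_lit 3180187244080) (nat_lit 76) (nat_lit 471162110972) (nat_lit 76) (nat_lit 453390415930) (nat_lit 1) (nat_lit 4) (nat_lit 2) (nat_lit 5) (nat_lit 2) (nat_lit 4) (nat_lit 408) (nat_lit 304) (nat_lit 188))) (XT.nd (nat_lit 38766) (nat_lit 0) (nat_lit 4712) (XT.lf (nat_lit 0) (nat_lit 3462663897777) (nat_lit 76) (nat_lit 493544664475) (nat_lit 76) (nat_lit 475772794732) (nat_lit 1) (nat_lit 4) (nat_lit 2) (nat_lit 5) (nat_lit 2) (nat_lit 4) (nat_lit 409) (nat_lit 304) (nat_lit 187)) (XT.lf (nat_lit 0) (nat_lit 1668214462) (nat_lit 380) (nat_lit 957629289) (nat_lit 380) (nat_lit 957629289) (nat_lit 63) (nat_lit 3) (nat_lit 68) (nat_lit 3) (nat_lit 68) (nat_lit 5) (nat_lit 305) (nat_lit 305) (nat_lit 290)))))) (XT.nd (nat_lit 624) (nat_lit 1444) (nat_lit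 0) (XT.nd (nat_lit 312) (nat_lit 380) (nat_lit 0) (XT.nd (nat_lit 156) (nat_lit 304) (nat_lit 0) (XT.nd (nat_lit 78) (nat_lit 0) (nat_lit 0) (XT.lf (nat_lit 76) (nat_lit 1555885231) (nat_lit 0) (nat_lit 3501851290) (nat_lit 380) (nat_lit 2264625808) (nat_lit 64) (nat_lit 5) (nat_lit 63) (nat_lit 3) (nat_lit 68) (nat_lit 5) (nat_lit 306) (nat_lit 305) (nat_lit 289)) (XT.lf (nat_lit 76) (nat_lit 5325245661) (nat_lit 0) (nat_lit 1486625958) (nat_lit 380) (nat_lit 687153985) (nat_lit 64) (nat_lit 5) (nat_lit 63) (nat_lit 3) (nat_lit 68) (nat_lit 5) (nat_lit 307) (nat_lit 305) (nat_lit 288))) (XT.nd (nat_lit 78) (nat_lit 0) (nat_lit 0) (XT.lf (nat_lit 0) (nat_lit 875919974) (nat_lit 380) (nat_lit 6041083540) (nat_lit 456) (nat_lit 778405414) (nat_lit 59) (nat_lit 5) (nat_lit 64) (nat_lit 5) (nat_lit 65) (nat_lit 5) (nat_lit 308) (nat_lit 305) (nat_lit 287)) (XT.lf (nat_lit 0) (nat_lit 2487011956)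 (nat_lit 380) (nat_lit 2149138219) (nat_lit 456) (nat_lit 3273453423) (nat_lit 59) (nat_lit 5) (nat_lit 64) (nat_lit 5) (nat_lit 65) (nat_lit 5) (nat_lit 309) (nat_lit 305) (nat_lit 286)))) (XT.nd (nat_lit 156) (nat_lit 380) (nat_lit 0) (XT.nd (nat_lit 78) (nat_lit 0) (nat_lit 76) (XT.lf (nat_lit 76) (nat_lit 2064191912) (nat_lit 0) (nat_lit 2083280145) (nat_lit 456) (nat_lit 4000134654) (nat_lit 60) (nat_lit 5) (nat_lit 59) (nat_lit 5) (nat_lit 65) (nat_lit 5) (nat_lit 310) (nat_lit 305) (nat_lit 285)) (XT.lf (nat_lit 0) (nat_lit 5896224380) (nat_lit 380) (nat_lit 1782512916) (nat_lit 76) (nat_lit 729764613) (nat_lit 60) (nat_lit 5) (nat_lit 65) (nat_lit 5) (nat_lit 61) (nat_lit 5) (nat_lit 311) (nat_lit 305) (nat_lit 284))) (XT.nd (nat_lit 78) (nat_lit 76) (nat_lit 0) (XT.lf (nat_lit 0) (nat_lit 2857161991) (nat_lit 380) (nat_lit 4938469146) (nat_lit 456) (nat_lit 894044158) (nat_lit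 55) (nat_lit 5) (nat_lit 60) (nat_lit 5) (nat_lit 61) (nat_lit 5) (nat_lit 312) (nat_lit 305) (nat_lit 283)) (XT.lf (nat_lit 0) (nat_lit 751984220) (nat_lit 456) (nat_lit 1139554545) (nat_lit 76) (nat_lit 7105107063) (nat_lit 54) (nat_lit 5) (nat_lit 60) (nat_lit 5) (nat_lit 55) (nat_lit 5) (nat_lit 313) (nat_lit 305) (nat_lit 282))))) (XT.nd (nat_lit 312) (nat_lit 456) (nat_lit 0) (XT.nd (nat_lit 156) (nat_lit 532) (nat_lit 0) (XT.nd (nat_lit 78) (nat_lit 0) (nat_lit 0) (XT.lf (nat_lit 0) (nat_lit 2514099457) (nat_lit 532) (nat_lit 5347828308) (nat_lit 76) (nat_lit 1461983874) (nat_lit 48) (nat_lit 5) (nat_lit 55) (nat_lit 5) (nat_lit 49) (nat_lit 5) (nat_lit 314) (nat_lit 305) (nat_lit 281)) (XT.lf (nat_lit 0) (nat_lit 4402919370) (nat_lit 532) (nat_lit 255214762) (nat_lit 76) (nat_lit 5020561937) (nat_lit 48) (nat_lit 5) (nat_lit 55) (nat_lit 5) (nat_lit 49) (nat_lit 5) (nat_lit 315)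 (nat_lit 305) (nat_lit 280))) (XT.nd (nat_lit 78) (nat_lit 228) (nat_lit 0) (XT.lf (nat_lit 0) (nat_lit 5427237101) (nat_lit 304) (nat_lit 1057834673) (nat_lit 380) (nat_lit 3573594985) (nat_lit 44) (nat_lit 5) (nat_lit 48) (nat_lit 5) (nat_lit 49) (nat_lit 5) (nat_lit 316) (nat_lit 305) (nat_lit 279)) (XT.lf (nat_lit 0) (nat_lit 998398974) (nat_lit 228) (nat_lit 7750724838) (nat_lit 304) (nat_lit 1718853298) (nat_lit 41) (nat_lit 5) (nat_lit 44) (nat_lit 5) (nat_lit 45) (nat_lit 5) (nat_lit 317) (nat_lit 305) (nat_lit 278)))) (XT.nd (nat_lit 156) (nat_lit 152) (nat_lit 0) (XT.nd (nat_lit 78) (nat_lit 228) (nat_lit 0) (XT.lf (nat_lit 0) (nat_lit 345326184) (nat_lit 304) (nat_lit 3691207775) (nat_lit 76) (nat_lit 6867073310) (nat_lit 40) (nat_lit 5) (nat_lit 44) (nat_lit 5) (nat_lit 41) (nat_lit 5) (nat_lit 318) (nat_lit 305) (nat_lit 277)) (XT.lf (nat_lit 0) (nat_lit 2468750169) (nat_lit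 304) (nat_lit 8830282558) (nat_lit 76) (nat_lit 72659163) (nat_lit 37) (nat_lit 5) (nat_lit 41) (nat_lit 5) (nat_lit 38) (nat_lit 5) (nat_lit 319) (nat_lit 305) (nat_lit 276))) (XT.nd (nat_lit 78) (nat_lit 152) (nat_lit 0) (XT.lf (nat_lit 0) (nat_lit 4897623956) (nat_lit 304) (nat_lit 2586023652) (nat_lit 76) (nat_lit 4382853237) (nat_lit 37) (nat_lit 5) (nat_lit 41) (nat_lit 5) (nat_lit 38) (nat_lit 5) (nat_lit 320) (nat_lit 305) (nat_lit 275)) (XT.nd (nat_lit 78) (nat_lit 0) (nat_lit 0) (XT.lf (nat_lit 0) (nat_lit 4287079406) (nat_lit 152) (nat_lit 3269411560) (nat_lit 228) (nat_lit 4841663359) (nat_lit 35) (nat_lit 5) (nat_lit 37) (nat_lit 5) (nat_lit 38) (nat_lit 5) (nat_lit 321) (nat_lit 305) (nat_lit 274)) (XT.lf (nat_lit 0) (nat_lit 10466571874) (nat_lit 228) (nat_lit 1230062137) (nat_lit 76) (nat_lit 1272731705) (nat_lit 35) (nat_lit 5) (nat_lit 38) (nat_lit 5) (nat_lit 36) (nat_lit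 5) (nat_lit 322) (nat_lit 305) (nat_lit 273))))))))
noncomputable def xc112 : XT := (XT.nd (nat_lit 1248) (nat_lit 608) (nat_lit 0) (XT.nd (nat_lit 624) (nat_lit 532) (nat_lit 0) (XT.nd (nat_lit 312) (nat_lit 380) (nat_lit 0) (XT.nd (nat_lit 156) (nat_lit 152) (nat_lit 0) (XT.nd (nat_lit 78) (nat_lit 152) (nat_lit 0) (XT.lf (nat_lit 0) (nat_lit 204191583) (nat_lit 304) (nat_lit 7224321280) (nat_lit 76) (nat_lit 6143234128) (nat_lit 31) (nat_lit 5) (nat_lit 35) (nat_lit 5) (nat_lit 32) (nat_lit 5) (nat_lit 323) (nat_lit 305) (nat_lit 272)) (XT.lf (nat_lit 0) (nat_lit 245388884) (nat_lit 152) (nat_lit 2728436702) (nat_lit 228) (nat_lit 11244872263) (nat_lit 29) (nat_lit 5) (nat_lit 31) (nat_lit 5) (nat_lit 32) (nat_lit 5) (nat_lit 324) (nat_lit 305) (nat_lit 271))) (XT.nd (nat_lit 78) (nat_lit 152) (nat_lit 0) (XT.lf (nat_lit 0) (nat_lit 6166921199) (nat_lit 228) (nat_lit 6324062362) (nat_lit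 76) (nat_lit 2410347855) (nat_lit 29) (nat_lit 5) (nat_lit 32) (nat_lit 5) (nat_lit 30) (nat_lit 5) (nat_lit 325) (nat_lit 305) (nat_lit 270)) (XT.lf (nat_lit 0) (nat_lit 1882268248) (nat_lit 152) (nat_lit 7796345951) (nat_lit 228) (nat_lit 5954981627) (nat_lit 27) (nat_lit 5) (nat_lit 29) (nat_lit 5) (nat_lit 30) (nat_lit 5) (nat_lit 326) (nat_lit 305) (nat_lit 269)))) (XT.nd (nat_lit 156) (nat_lit 152) (nat_lit 0) (XT.nd (nat_lit 78) (nat_lit 228) (nat_lit 0) (XT.lf (nat_lit 0) (nat_lit 11028592801) (nat_lit 152) (nat_lit 2564666727) (nat_lit 228) (nat_lit 2821487306) (nat_lit 27) (nat_lit 5) (nat_lit 29) (nat_lit 5) (nat_lit 30) (nat_lit 5) (nat_lit 327) (nat_lit 305) (nat_lit 268)) (XT.lf (nat_lit 0) (nat_lit 652604319) (nat_lit 228) (nat_lit 13581215271) (nat_lit 76) (nat_lit 3014099739) (nat_lit 24) (nat_lit 5) (nat_lit 27) (nat_lit 5) (nat_lit 25) (nat_lit 5) (nat_lit 328) (nat_lit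 305) (nat_lit 267))) (XT.nd (nat_lit 78) (nat_lit 152) (nat_lit 0) (XT.lf (nat_lit 0) (nat_lit 4422765803) (nat_lit 228) (nat_lit 4604044446) (nat_lit 76) (nat_lit 9101479479) (nat_lit 24) (nat_lit 5) (nat_lit 27) (nat_lit 5) (nat_lit 25) (nat_lit 5) (nat_lit 329) (nat_lit 305) (nat_lit 266)) (XT.lf (nat_lit 0) (nat_lit 5286822860) (nat_lit 152) (nat_lit 3291226017) (nat_lit 228) (nat_lit 10494409283) (nat_lit 22) (nat_lit 5) (nat_lit 24) (nat_lit 5) (nat_lit 25) (nat_lit 5) (nat_lit 330) (nat_lit 305) (nat_lit 265))))) (XT.nd (nat_lit 312) (nat_lit 228) (nat_lit 0) (XT.nd (nat_lit 156) (nat_lit 228) (nat_lit 0) (XT.nd (nat_lit 78) (nat_lit 76) (nat_lit 0) (XT.lf (nat_lit 0) (nat_lit 13222100513) (nat_lit 228) (nat_lit 3994387467) (nat_lit 76) (nat_lit 2863209874) (nat_lit 22) (nat_lit 5) (nat_lit 25) (nat_lit 5) (nat_lit 23) (nat_lit 4) (nat_lit 331) (nat_lit 305) (nat_lit 264)) (XT.lf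 (nat_lit 0) (nat_lit 6768442187) (nat_lit 76) (nat_lit 11678030705) (nat_lit 152) (nat_lit 2704382194) (nat_lit 21) (nat_lit 5) (nat_lit 22) (nat_lit 5) (nat_lit 23) (nat_lit 4) (nat_lit 332) (nat_lit 305) (nat_lit 263))) (XT.nd (nat_lit 78) (nat_lit 152) (nat_lit 0) (XT.lf (nat_lit 0) (nat_lit 1764950831) (nat_lit 152) (nat_lit 3790447419) (nat_lit 76) (nat_lit 16743079271) (nat_lit 20) (nat_lit 5) (nat_lit 22) (nat_lit 5) (nat_lit 21) (nat_lit 5) (nat_lit 333) (nat_lit 305) (nat_lit 262)) (XT.lf (nat_lit 0) (nat_lit 6631468354) (nat_lit 228) (nat_lit 15637508816) (nat_lit 76) (nat_lit 1248486922) (nat_lit 18) (nat_lit 5) (nat_lit 21) (nat_lit 5) (nat_lit 19) (nat_lit 4) (nat_lit 334) (nat_lit 305) (nat_lit 261)))) (XT.nd (nat_lit 156) (nat_lit 152) (nat_lit 0) (XT.nd (nat_lit 78) (nat_lit 76) (nat_lit 0) (XT.lf (nat_lit 0) (nat_lit 12102424157) (nat_lit 228) (nat_lit 4334264544) (nat_lit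 76) (nat_lit 8380102477) (nat_lit 18) (nat_lit 5) (nat_lit 21) (nat_lit 5) (nat_lit 19) (nat_lit 4) (nat_lit 335) (nat_lit 305) (nat_lit 260)) (XT.lf (nat_lit 0) (nat_lit 8228223999) (nat_lit 76) (nat_lit 9947843064) (nat_lit 152) (nat_lit 8030825163) (nat_lit 17) (nat_lit 5) (nat_lit 18) (nat_lit 5) (nat_lit 19) (nat_lit 4) (nat_lit 336) (nat_lit 305) (nat_lit 259))) (XT.nd (nat_lit 78) (nat_lit 152) (nat_lit 0) (XT.lf (nat_lit 0) (nat_lit 21987014261) (nat_lit 76) (nat_lit 2835323362) (nat_lit 152) (nat_lit 2878951363) (nat_lit 17) (nat_lit 5) (nat_lit 18) (nat_lit 5) (nat_lit 19) (nat_lit 4) (nat_lit 337) (nat_lit 305) (nat_lit 258)) (XT.lf (nat_lit 0) (nat_lit 2830807776) (nat_lit 152) (nat_lit 21615671828) (nat_lit 76) (nat_lit 4841210249) (nat_lit 15) (nat_lit 5) (nat_lit 17) (nat_lit 5) (nat_lit 16) (nat_lit 4) (nat_lit 338) (nat_lit 305) (nat_lit 257)))))) (XT.nd (nat_lit 624)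 (nat_lit 304) (nat_lit 0) (XT.nd (nat_lit 312) (nat_lit 152) (nat_lit 0) (XT.nd (nat_lit 156) (nat_lit 76) (nat_lit 0) (XT.nd (nat_lit 78) (nat_lit 76) (nat_lit 0) (XT.lf (nat_lit 0) (nat_lit 9046014726) (nat_lit 152) (nat_lit 8739999677) (nat_lit 76) (nat_lit 13192690787) (nat_lit 15) (nat_lit 5) (nat_lit 17) (nat_lit 5) (nat_lit 16) (nat_lit 4) (nat_lit 339) (nat_lit 305) (nat_lit 256)) (XT.lf (nat_lit 0) (nat_lit 5385886037) (nat_lit 76) (nat_lit 10474549486) (nat_lit 152) (nat_lit 16936425946) (nat_lit 14) (nat_lit 5) (nat_lit 15) (nat_lit 5) (nat_lit 16) (nat_lit 4) (nat_lit 340) (nat_lit 305) (nat_lit 255))) (XT.nd (nat_lit 78) (nat_lit 76) (nat_lit 0) (XT.lf (nat_lit 0) (nat_lit 21090877286) (nat_lit 76) (nat_lit 2341451084) (nat_lit 152) (nat_lit 11311174461) (nat_lit 14) (nat_lit 5) (nat_lit 15) (nat_lit 5) (nat_lit 16) (nat_lit 4) (nat_lit 341) (nat_lit 305) (nat_lit 254)) (XT.lf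 (nat_lit 0) (nat_lit 1058426874) (nat_lit 76) (nat_lit 30706787763) (nat_lit 76) (nat_lit 5068258222) (nat_lit 13) (nat_lit 4) (nat_lit 14) (nat_lit 5) (nat_lit 14) (nat_lit 4) (nat_lit 342) (nat_lit 305) (nat_lit 253)))) (XT.nd (nat_lit 156) (nat_lit 76) (nat_lit 0) (XT.nd (nat_lit 78) (nat_lit 0) (nat_lit 0) (XT.lf (nat_lit 0) (nat_lit 2009133320) (nat_lit 152) (nat_lit 21494894183) (nat_lit 76) (nat_lit 15549903414) (nat_lit 12) (nat_lit 5) (nat_lit 14) (nat_lit 5) (nat_lit 13) (nat_lit 4) (nat_lit 343) (nat_lit 305) (nat_lit 252)) (XT.lf (nat_lit 0) (nat_lit 9355738579) (nat_lit 152) (nat_lit 6246697791) (nat_lit 76) (nat_lit 25840923877) (nat_lit 12) (nat_lit 5) (nat_lit 14) (nat_lit 5) (nat_lit 13) (nat_lit 4) (nat_lit 344) (nat_lit 305) (nat_lit 251))) (XT.nd (nat_lit 78) (nat_lit 0) (nat_lit 0) (XT.lf (nat_lit 0) (nat_lit 10717949867) (nat_lit 76) (nat_lit 6808444881) (nat_lit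 152) (nat_lit 26478655662) (nat_lit 11) (nat_lit 5) (nat_lit 12) (nat_lit 5) (nat_lit 13) (nat_lit 4) (nat_lit 345) (nat_lit 305) (nat_lit 250)) (XT.lf (nat_lit 0) (nat_lit 26569396756) (nat_lit 152) (nat_lit 17471900649) (nat_lit 0) (nat_lit 2712894288) (nat_lit 11) (nat_lit 5) (nat_lit 13) (nat_lit 4) (nat_lit 11) (nat_lit 4) (nat_lit 346) (nat_lit 305) (nat_lit 249))))) (XT.nd (nat_lit 312) (nat_lit 76) (nat_lit 0) (XT.nd (nat_lit 156) (nat_lit 152) (nat_lit 0) (XT.nd (nat_lit 78) (nat_lit 76) (nat_lit 0) (XT.lf (nat_lit 0) (nat_lit 36493042023) (nat_lit 152) (nat_lit 605183737) (nat_lit 0) (nat_lit 12612472806) (nat_lit 11) (nat_lit 5) (nat_lit 13) (nat_lit 4) (nat_lit 11) (nat_lit 4) (nat_lit 347) (nat_lit 305) (nat_lit 248)) (XT.lf (nat_lit 0) (nat_lit 18502304581) (nat_lit 76) (nat_lit 29135070361) (nat_lit 76) (nat_lit 5232217117) (nat_lit 10) (nat_lit 4) (nat_lit 11) (nat_lit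 5) (nat_lit 11) (nat_lit 4) (nat_lit 348) (nat_lit 305) (nat_lit 247))) (XT.nd (nat_lit 78) (nat_lit 76) (nat_lit 0) (XT.lf (nat_lit 0) (nat_lit 3221245120) (nat_lit 152) (nat_lit 17223296752) (nat_lit 76) (nat_lit 35830227427) (nat_lit 9) (nat_lit 5) (nat_lit 11) (nat_lit 5) (nat_lit 10) (nat_lit 4) (nat_lit 349) (nat_lit 305) (nat_lit 246)) (XT.lf (nat_lit 0) (nat_lit 1183843315) (nat_lit 76) (nat_lit 10896173453) (nat_lit 152) (nat_lit 47860542909) (nat_lit 8) (nat_lit 5) (nat_lit 9) (nat_lit 5) (nat_lit 10) (nat_lit 4) (nat_lit 350) (nat_lit 305) (nat_lit 245)))) (XT.nd (nat_lit 156) (nat_lit 76) (nat_lit 0) (XT.nd (nat_lit 78) (nat_lit 0) (nat_lit 0) (XT.lf (nat_lit 0) (nat_lit 22012172175) (nat_lit 76) (nat_lit 89968939) (nat_lit 152) (nat_lit 41761107263) (nat_lit 8) (nat_lit 5) (nat_lit 9) (nat_lit 5) (nat_lit 10) (nat_lit 4) (nat_lit 351) (nat_lit 305) (nat_lit 244)) (XT.lf (nat_lit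 0) (nat_lit 33189166963) (nat_lit 152) (nat_lit 23900986182) (nat_lit 0) (nat_lit 10988555141) (nat_lit 8) (nat_lit 5) (nat_lit 10) (nat_lit 4) (nat_lit 8) (nat_lit 4) (nat_lit 352) (nat_lit 305) (nat_lit 243))) (XT.nd (nat_lit 78) (nat_lit 76) (nat_lit 0) (XT.lf (nat_lit 0) (nat_lit 45151246063) (nat_lit 152) (nat_lit 4544526252) (nat_lit 0) (nat_lit 22936591524) (nat_lit 8) (nat_lit 5) (nat_lit 10) (nat_lit 4) (nat_lit 8) (nat_lit 4) (nat_lit 353) (nat_lit 305) (nat_lit 242)) (XT.lf (nat_lit 0) (nat_lit 17195353515) (nat_lit 76) (nat_lit 41275296205) (nat_lit 76) (nat_lit 19047639151) (nat_lit 7) (nat_lit 4) (nat_lit 8) (nat_lit 5) (nat_lit 8) (nat_lit 4) (nat_lit 354) (nat_lit 305) (nat_lit 241)))))))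
noncomputable def xc113 : XT := (XT.nd (nat_lit 1248) (nat_lit 76) (nat_lit 0) (XT.nd (nat_lit 624) (nat_lit 152) (nat_lit 0) (XT.nd (nat_lit 312) (nat_lit 76) (nat_lit 0) (XT.nd (nat_lit 156) (nat_lit 76) (nat_lit 0) (XT.nd (nat_lit 78) (nat_lit 76) (nat_lit 0) (XT.lf (nat_lit 0) (nat_lit 40908236671) (nat_lit 76) (nat_lit 32058818482) (nat_lit 76) (nat_lit 9819122061) (nat_lit 7) (nat_lit 4) (nat_lit 8) (nat_lit 5) (nat_lit 8) (nat_lit 4) (nat_lit 355) (nat_lit 305) (nat_lit 240)) (XT.lf (nat_lit 0) (nat_lit 128119075) (nat_lit 152) (nat_lit 21984356306) (nat_lit 76) (nat_lit 66363715229) (nat_lit 6) (nat_lit 5) (nat_lit 8) (nat_lit 5) (nat_lit 7) (nat_lit 4) (nat_lit 356) (nat_lit 305) (nat_lit 239))) (XT.nd (nat_lit 78) (nat_lit 76) (nat_lit 0) (XT.lf (nat_lit 0) (nat_lit 10329383398) (nat_lit 152) (nat_lit 776048330) (nat_lit 76) (nat_lit 83496475639) (nat_lit 6) (nat_lit 5) (nat_lit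 8) (nat_lit 5) (nat_lit 7) (nat_lit 4) (nat_lit 357) (nat_lit 305) (nat_lit 238)) (XT.lf (nat_lit 0) (nat_lit 21929148541) (nat_lit 152) (nat_lit 77933836128) (nat_lit 0) (nat_lit 1308108693) (nat_lit 5) (nat_lit 5) (nat_lit 7) (nat_lit 4) (nat_lit 5) (nat_lit 4) (nat_lit 358) (nat_lit 305) (nat_lit 237)))) (XT.nd (nat_lit 156) (nat_lit 76) (nat_lit 0) (XT.nd (nat_lit 78) (nat_lit 0) (nat_lit 0) (XT.lf (nat_lit 0) (nat_lit 34756757229) (nat_lit 152) (nat_lit 59357548020) (nat_lit 0) (nat_lit 14127523590) (nat_lit 5) (nat_lit 5) (nat_lit 7) (nat_lit 4) (nat_lit 5) (nat_lit 4) (nat_lit 359) (nat_lit 305) (nat_lit 236)) (XT.lf (nat_lit 0) (nat_lit 48600981918) (nat_lit 152) (nat_lit 39313850535) (nat_lit 0) (nat_lit 27964161437) (nat_lit 5) (nat_lit 5) (nat_lit 7) (nat_lit 4) (nat_lit 5) (nat_lit 4) (nat_lit 360) (nat_lit 305) (nat_lit 235))) (XT.nd (nat_lit 78) (nat_lit 76) (nat_lit 0)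 (XT.lf (nat_lit 0) (nat_lit 63543862460) (nat_lit 152) (nat_lit 17683966204) (nat_lit 0) (nat_lit 42900017124) (nat_lit 5) (nat_lit 5) (nat_lit 7) (nat_lit 4) (nat_lit 5) (nat_lit 4) (nat_lit 361) (nat_lit 305) (nat_lit 234)) (XT.lf (nat_lit 0) (nat_lit 5958342485) (nat_lit 76) (nat_lit 73858905052) (nat_lit 76) (nat_lit 53208555221) (nat_lit 4) (nat_lit 4) (nat_lit 5) (nat_lit 5) (nat_lit 5) (nat_lit 4) (nat_lit 362) (nat_lit 305) (nat_lit 233))))) (XT.nd (nat_lit 312) (nat_lit 152) (nat_lit 0) (XT.nd (nat_lit 156) (nat_lit 0) (nat_lit 0) (XT.nd (nat_lit 78) (nat_lit 0) (nat_lit 0) (XT.lf (nat_lit 0) (nat_lit 32482117631) (nat_lit 76) (nat_lit 65385906090) (nat_lit 76) (nat_lit 44729533578) (nat_lit 4) (nat_lit 4) (nat_lit 5) (nat_lit 5) (nat_lit 5) (nat_lit 4) (nat_lit 363) (nat_lit 305) (nat_lit 232)) (XT.lf (nat_lit 0) (nat_lit 61113330836) (nat_lit 76) (nat_lit 56242132388) (nat_lit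 76) (nat_lit 35580183320) (nat_lit 4) (nat_lit 4) (nat_lit 5) (nat_lit 5) (nat_lit 5) (nat_lit 4) (nat_lit 364) (nat_lit 305) (nat_lit 231))) (XT.nd (nat_lit 78) (nat_lit 0) (nat_lit 0) (XT.lf (nat_lit 0) (nat_lit 92021648551) (nat_lit 76) (nat_lit 46373398620) (nat_lit 76) (nat_lit 25706286075) (nat_lit 4) (nat_lit 4) (nat_lit 5) (nat_lit 5) (nat_lit 5) (nat_lit 4) (nat_lit 365) (nat_lit 305) (nat_lit 230)) (XT.lf (nat_lit 0) (nat_lit 125390231177) (nat_lit 76) (nat_lit 35721223403) (nat_lit 76) (nat_lit 15049329859) (nat_lit 4) (nat_lit 4) (nat_lit 5) (nat_lit 5) (nat_lit 5) (nat_lit 4) (nat_lit 366) (nat_lit 305) (nat_lit 229)))) (XT.nd (nat_lit 156) (nat_lit 76) (nat_lit 0) (XT.nd (nat_lit 78) (nat_lit 76) (nat_lit 0) (XT.lf (nat_lit 0) (nat_lit 161416818461) (nat_lit 76) (nat_lit 24222482733) (nat_lit 76) (nat_lit 3546162340) (nat_lit 4) (nat_lit 4) (nat_lit 5) (nat_lit 5) (nat_lit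 5) (nat_lit 4) (nat_lit 367) (nat_lit 305) (nat_lit 228)) (XT.lf (nat_lit 0) (nat_lit 8427600874) (nat_lit 152) (nat_lit 3151009509) (nat_lit 76) (nat_lit 191656874875) (nat_lit 3) (nat_lit 5) (nat_lit 5) (nat_lit 5) (nat_lit 4) (nat_lit 4) (nat_lit 368) (nat_lit 305) (nat_lit 227))) (XT.nd (nat_lit 78) (nat_lit 0) (nat_lit 0) (XT.lf (nat_lit 0) (nat_lit 21820805227) (nat_lit 152) (nat_lit 193860331752) (nat_lit 0) (nat_lit 2668754635) (nat_lit 2) (nat_lit 5) (nat_lit 4) (nat_lit 4) (nat_lit 2) (nat_lit 4) (nat_lit 369) (nat_lit 305) (nat_lit 226)) (XT.lf (nat_lit 0) (nat_lit 36669462410) (nat_lit 152) (nat_lit 180459111820) (nat_lit 0) (nat_lit 17514157951) (nat_lit 2) (nat_lit 5) (nat_lit 4) (nat_lit 4) (nat_lit 2) (nat_lit 4) (nat_lit 370) (nat_lit 305) (nat_lit 225)))))) (XT.nd (nat_lit 624) (nat_lit 76) (nat_lit 0) (XT.nd (nat_lit 312) (nat_lit 0) (nat_lit 0) (XT.nd (nat_lit 156)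 (nat_lit 0) (nat_lit 0) (XT.nd (nat_lit 78) (nat_lit 0) (nat_lit 0) (XT.lf (nat_lit 0) (nat_lit 52701254207) (nat_lit 152) (nat_lit 165995190836) (nat_lit 0) (nat_lit 33542936908) (nat_lit 2) (nat_lit 5) (nat_lit 4) (nat_lit 4) (nat_lit 2) (nat_lit 4) (nat_lit 371) (nat_lit 305) (nat_lit 224)) (XT.lf (nat_lit 0) (nat_lit 70011183827) (nat_lit 152) (nat_lit 150382856676) (nat_lit 0) (nat_lit 50850076862) (nat_lit 2) (nat_lit 5) (nat_lit 4) (nat_lit 4) (nat_lit 2) (nat_lit 4) (nat_lit 372) (nat_lit 305) (nat_lit 223))) (XT.nd (nat_lit 78) (nat_lit 0) (nat_lit 0) (XT.lf (nat_lit 0) (nat_lit 88701828631) (nat_lit 152) (nat_lit 133529591805) (nat_lit 0) (nat_lit 69538138641) (nat_lit 2) (nat_lit 5) (nat_lit 4) (nat_lit 4) (nat_lit 2) (nat_lit 4) (nat_lit 373) (nat_lit 305) (nat_lit 222)) (XT.lf (nat_lit 0) (nat_lit 108883947996) (nat_lit 152) (nat_lit 115335525022) (nat_lit 0) (nat_lit 89717866317)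 (nat_lit 2) (nat_lit 5) (nat_lit 4) (nat_lit 4) (nat_lit 2) (nat_lit 4) (nat_lit 374) (nat_lit 305) (nat_lit 221)))) (XT.nd (nat_lit 156) (nat_lit 0) (nat_lit 0) (XT.nd (nat_lit 78) (nat_lit 0) (nat_lit 0) (XT.lf (nat_lit 0) (nat_lit 130677139666) (nat_lit 152) (nat_lit 95692839636) (nat_lit 0) (nat_lit 111508843460) (nat_lit 2) (nat_lit 5) (nat_lit 4) (nat_lit 4) (nat_lit 2) (nat_lit 4) (nat_lit 375) (nat_lit 305) (nat_lit 220)) (XT.lf (nat_lit 0) (nat_lit 154210548481) (nat_lit 152) (nat_lit 74485134549) (nat_lit 0) (nat_lit 135040201787) (nat_lit 2) (nat_lit 5) (nat_lit 4) (nat_lit 4) (nat_lit 2) (nat_lit 4) (nat_lit 376) (nat_lit 305) (nat_lit 219))) (XT.nd (nat_lit 78) (nat_lit 0) (nat_lit 0) (XT.lf (nat_lit 0) (nat_lit 179623631678) (nat_lit 152) (nat_lit 51586734471) (nat_lit 0) (nat_lit 160451386383) (nat_lit 2) (nat_lit 5) (nat_lit 4) (nat_lit 4) (nat_lit 2) (nat_lit 4) (nat_lit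 377) (nat_lit 305) (nat_lit 218)) (XT.lf (nat_lit 0) (nat_lit 207066985305) (nat_lit 152) (nat_lit 26861945179) (nat_lit 0) (nat_lit 187892982048) (nat_lit 2) (nat_lit 5) (nat_lit 4) (nat_lit 4) (nat_lit 2) (nat_lit 4) (nat_lit 378) (nat_lit 305) (nat_lit 217))))) (XT.nd (nat_lit 312) (nat_lit 0) (nat_lit 0) (XT.nd (nat_lit 156) (nat_lit 0) (nat_lit 0) (XT.nd (nat_lit 78) (nat_lit 76) (nat_lit 0) (XT.lf (nat_lit 0) (nat_lit 236703236644) (nat_lit 152) (nat_lit 164249403) (nat_lit 0) (nat_lit 217527605643) (nat_lit 2) (nat_lit 5) (nat_lit 4) (nat_lit 4) (nat_lit 2) (nat_lit 4) (nat_lit 379) (nat_lit 305) (nat_lit 216)) (XT.lf (nat_lit 0) (nat_lit 30173986430) (nat_lit 76) (nat_lit 239259706594) (nat_lit 76) (nat_lit 220082568423) (nat_lit 1) (nat_lit 4) (nat_lit 2) (nat_lit 5) (nat_lit 2) (nat_lit 4) (nat_lit 380) (nat_lit 305) (nat_lit 215))) (XT.nd (nat_lit 78) (nat_lit 0) (nat_lit 0)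 (XT.lf (nat_lit 0) (nat_lit 62944040531) (nat_lit 76) (nat_lit 241840722208) (nat_lit 76) (nat_lit 222662188509) (nat_lit 1) (nat_lit 4) (nat_lit 2) (nat_lit 5) (nat_lit 2) (nat_lit 4) (nat_lit 381) (nat_lit 305) (nat_lit 214)) (XT.lf (nat_lit 0) (nat_lit 98331456731) (nat_lit 76) (nat_lit 244630318666) (nat_lit 76) (nat_lit 225450492813) (nat_lit 1) (nat_lit 4) (nat_lit 2) (nat_lit 5) (nat_lit 2) (nat_lit 4) (nat_lit 382) (nat_lit 305) (nat_lit 213)))) (XT.nd (nat_lit 156) (nat_lit 0) (nat_lit 0) (XT.nd (nat_lit 78) (nat_lit 0) (nat_lit 0) (XT.lf (nat_lit 0) (nat_lit 136545938236) (nat_lit 76) (nat_lit 247645026912) (nat_lit 76) (nat_lit 228464004618) (nat_lit 1) (nat_lit 4) (nat_lit 2) (nat_lit 5) (nat_lit 2) (nat_lit 4) (nat_lit 383) (nat_lit 305) (nat_lit 212)) (XT.lf (nat_lit 0) (nat_lit 177813941234) (nat_lit 76) (nat_lit 250902711882) (nat_lit 76) (nat_lit 231720581773) (nat_lit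 1) (nat_lit 4) (nat_lit 2) (nat_lit 5) (nat_lit 2) (nat_lit 4) (nat_lit 384) (nat_lit 305) (nat_lit 211))) (XT.nd (nat_lit 78) (nat_lit 0) (nat_lit 0) (XT.lf (nat_lit 0) (nat_lit 222380016852) (nat_lit 76) (nat_lit 254422678376) (nat_lit 76) (nat_lit 235239522513) (nat_lit 1) (nat_lit 4) (nat_lit 2) (nat_lit 5) (nat_lit 2) (nat_lit 4) (nat_lit 385) (nat_lit 305) (nat_lit 210)) (XT.nd (nat_lit 78) (nat_lit 0) (nat_lit 0) (XT.lf (nat_lit 0) (nat_lit 270508260355) (nat_lit 76) (nat_lit 258225785456) (nat_lit 76) (nat_lit 239041679819) (nat_lit 1) (nat_lit 4) (nat_lit 2) (nat_lit 5) (nat_lit 2) (nat_lit 4) (nat_lit 386) (nat_lit 305) (nat_lit 209)) (XT.lf (nat_lit 0) (nat_lit 322483876148) (nat_lit 76) (nat_lit 262334570051) (nat_lit 76) (nat_lit 243149584996) (nat_lit 1) (nat_lit 4) (nat_lit 2) (nat_lit 5) (nat_lit 2) (nat_lit 4) (nat_lit 387) (nat_lit 305) (nat_lit 208))))))))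
noncomputable def xc114 : XT := (XT.nd (nat_lit 1248) (nat_lit 0) (nat_lit 0) (XT.nd (nat_lit 624) (nat_lit 0) (nat_lit 0) (XT.nd (nat_lit 312) (nat_lit 0) (nat_lit 0) (XT.nd (nat_lit 156) (nat_lit 0) (nat_lit 0) (XT.nd (nat_lit 78) (nat_lit 0) (nat_lit 0) (XT.lf (nat_lit 0) (nat_lit 378614867879) (nat_lit 76) (nat_lit 266773380515) (nat_lit 76) (nat_lit 247587581183) (nat_lit 1) (nat_lit 4) (nat_lit 2) (nat_lit 5) (nat_lit 2) (nat_lit 4) (nat_lit 388) (nat_lit 305) (nat_lit 207)) (XT.lf (nat_lit 0) (nat_lit 439233863650) (nat_lit 76) (nat_lit 271568520911) (nat_lit 76) (nat_lit 252381967618) (nat_lit 1) (nat_lit 4) (nat_lit 2) (nat_lit 5) (nat_lit 2) (nat_lit 4) (nat_lit 389) (nat_lit 305) (nat_lit 206))) (XT.nd (nat_lit 78) (nat_lit 0) (nat_lit 0) (XT.lf (nat_lit 0) (nat_lit 504700087136) (nat_lit 76) (nat_lit 276748406884) (nat_lit 76) (nat_lit 257561155480) (nat_lit 1) (nat_lit 4)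 (nat_lit 2) (nat_lit 5) (nat_lit 2) (nat_lit 4) (nat_lit 390) (nat_lit 305) (nat_lit 205)) (XT.lf (nat_lit 0) (nat_lit 575401486331) (nat_lit 76) (nat_lit 282343734055) (nat_lit 76) (nat_lit 263155836252) (nat_lit 1) (nat_lit 4) (nat_lit 2) (nat_lit 5) (nat_lit 2) (nat_lit 4) (nat_lit 391) (nat_lit 305) (nat_lit 204)))) (XT.nd (nat_lit 156) (nat_lit 0) (nat_lit 0) (XT.nd (nat_lit 78) (nat_lit 0) (nat_lit 0) (XT.lf (nat_lit 0) (nat_lit 651757032489) (nat_lit 76) (nat_lit 288387659920) (nat_lit 76) (nat_lit 269199163598) (nat_lit 1) (nat_lit 4) (nat_lit 2) (nat_lit 5) (nat_lit 2) (nat_lit 4) (nat_lit 392) (nat_lit 305) (nat_lit 203)) (XT.lf (nat_lit 0) (nat_lit 734219202919) (nat_lit 76) (nat_lit 294916000334) (nat_lit 76) (nat_lit 275726949829) (nat_lit 1) (nat_lit 4) (nat_lit 2) (nat_lit 5) (nat_lit 2) (nat_lit 4) (nat_lit 393) (nat_lit 305) (nat_lit 202))) (XT.nd (nat_lit 78) (nat_lit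 0) (nat_lit 0) (XT.lf (nat_lit 0) (nat_lit 823276662336) (nat_lit 76) (nat_lit 301967441759) (nat_lit 76) (nat_lit 282777878122) (nat_lit 1) (nat_lit 4) (nat_lit 2) (nat_lit 5) (nat_lit 2) (nat_lit 4) (nat_lit 394) (nat_lit 305) (nat_lit 201)) (XT.lf (nat_lit 0) (nat_lit 919457158647) (nat_lit 76) (nat_lit 309583770516) (nat_lit 76) (nat_lit 290393731756) (nat_lit 1) (nat_lit 4) (nat_lit 2) (nat_lit 5) (nat_lit 2) (nat_lit 4) (nat_lit 395) (nat_lit 305) (nat_lit 200))))) (XT.nd (nat_lit 312) (nat_lit 0) (nat_lit 0) (XT.nd (nat_lit 156) (nat_lit 0) (nat_lit 0) (XT.nd (nat_lit 78) (nat_lit 0) (nat_lit 0) (XT.lf (nat_lit 0) (nat_lit 1023330650349) (nat_lit 76) (nat_lit 317810120403) (nat_lit 76) (nat_lit 298619641715) (nat_lit 1) (nat_lit 4) (nat_lit 2) (nat_lit 5) (nat_lit 2) (nat_lit 4) (nat_lit 396) (nat_lit 305) (nat_lit 199)) (XT.lf (nat_lit 0) (nat_lit 1135512684060) (nat_lit 76) (nat_lit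 326695240162) (nat_lit 76) (nat_lit 307504354132) (nat_lit 1) (nat_lit 4) (nat_lit 2) (nat_lit 5) (nat_lit 2) (nat_lit 4) (nat_lit 397) (nat_lit 305) (nat_lit 198))) (XT.nd (nat_lit 78) (nat_lit 0) (nat_lit 0) (XT.lf (nat_lit 0) (nat_lit 1256668042201) (nat_lit 76) (nat_lit 336291782353) (nat_lit 76) (nat_lit 317100519156) (nat_lit 1) (nat_lit 4) (nat_lit 2) (nat_lit 5) (nat_lit 2) (nat_lit 4) (nat_lit 398) (nat_lit 305) (nat_lit 197)) (XT.lf (nat_lit 0) (nat_lit 1387514682450) (nat_lit 76) (nat_lit 346656615376) (nat_lit 76) (nat_lit 327465002948) (nat_lit 1) (nat_lit 4) (nat_lit 2) (nat_lit 5) (nat_lit 2) (nat_lit 4) (nat_lit 399) (nat_lit 305) (nat_lit 196)))) (XT.nd (nat_lit 156) (nat_lit 0) (nat_lit 0) (XT.nd (nat_lit 78) (nat_lit 0) (nat_lit 0) (XT.lf (nat_lit 0) (nat_lit 1528827992306) (nat_lit 76) (nat_lit 357851160461) (nat_lit 76) (nat_lit 338659224673) (nat_lit 1) (nat_lit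 4) (nat_lit 2) (nat_lit 5) (nat_lit 2) (nat_lit 4) (nat_lit 400) (nat_lit 305) (nat_lit 195)) (XT.lf (nat_lit 0) (nat_lit 1681445383974) (nat_lit 76) (nat_lit 369941755655) (nat_lit 76) (nat_lit 350749520460) (nat_lit 1) (nat_lit 4) (nat_lit 2) (nat_lit 5) (nat_lit 2) (nat_lit 4) (nat_lit 401) (nat_lit 305) (nat_lit 194))) (XT.nd (nat_lit 78) (nat_lit 0) (nat_lit 0) (XT.lf (nat_lit 0) (nat_lit 1846271256813) (nat_lit 76) (nat_lit 383000048930) (nat_lit 76) (nat_lit 363807536504) (nat_lit 1) (nat_lit 4) (nat_lit 2) (nat_lit 5) (nat_lit 2) (nat_lit 4) (nat_lit 402) (nat_lit 305) (nat_lit 193)) (XT.lf (nat_lit 0) (nat_lit 2024282356735) (nat_lit 76) (nat_lit 397103422763) (nat_lit 76) (nat_lit 377910653643) (nat_lit 1) (nat_lit 4) (nat_lit 2) (nat_lit 5) (nat_lit 2) (nat_lit 4) (nat_lit 403) (nat_lit 305) (nat_lit 192)))))) (XT.nd (nat_lit 39390) (nat_lit 0) (nat_lit 3572) (XT.nd (nat_lit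 312) (nat_lit 0) (nat_lit 0) (XT.nd (nat_lit 156) (nat_lit 0) (nat_lit 0) (XT.nd (nat_lit 78) (nat_lit 0) (nat_lit 0) (XT.lf (nat_lit 0) (nat_lit 2216533564334) (nat_lit 76) (nat_lit 412335452703) (nat_lit 76) (nat_lit 393142445904) (nat_lit 1) (nat_lit 4) (nat_lit 2) (nat_lit 5) (nat_lit 2) (nat_lit 4) (nat_lit 404) (nat_lit 305) (nat_lit 191)) (XT.lf (nat_lit 0) (nat_lit 2424164146024) (nat_lit 76) (nat_lit 428786402632) (nat_lit 76) (nat_lit 409593175759) (nat_lit 1) (nat_lit 4) (nat_lit 2) (nat_lit 5) (nat_lit 2) (nat_lit 4) (nat_lit 405) (nat_lit 305) (nat_lit 190))) (XT.nd (nat_lit 78) (nat_lit 0) (nat_lit 0) (XT.lf (nat_lit 0) (nat_lit 2648404505252) (nat_lit 76) (nat_lit 446553759659) (nat_lit 76) (nat_lit 427360329014) (nat_lit 1) (nat_lit 4) (nat_lit 2) (nat_lit 5) (nat_lit 2) (nat_lit 4) (nat_lit 406) (nat_lit 305) (nat_lit 189)) (XT.lf (nat_lit 0) (nat_lit 2890583473777) (nat_lit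 76) (nat_lit 465742811828) (nat_lit 76) (nat_lit 446549192505) (nat_lit 1) (nat_lit 4) (nat_lit 2) (nat_lit 5) (nat_lit 2) (nat_lit 4) (nat_lit 407) (nat_lit 305) (nat_lit 188)))) (XT.nd (nat_lit 38922) (nat_lit 0) (nat_lit 4332) (XT.nd (nat_lit 78) (nat_lit 0) (nat_lit 0) (XT.lf (nat_lit 0) (nat_lit 3152136186227) (nat_lit 76) (nat_lit 486467272039) (nat_lit 76) (nat_lit 467273478015) (nat_lit 1) (nat_lit 4) (nat_lit 2) (nat_lit 5) (nat_lit 2) (nat_lit 4) (nat_lit 408) (nat_lit 305) (nat_lit 187)) (XT.lf (nat_lit 0) (nat_lit 3434612584602) (nat_lit 76) (nat_lit 508849951909) (nat_lit 76) (nat_lit 489655996124) (nat_lit 1) (nat_lit 4) (nat_lit 2) (nat_lit 5) (nat_lit 2) (nat_lit 4) (nat_lit 409) (nat_lit 305) (nat_lit 186))) (XT.nd (nat_lit 78) (nat_lit 380) (nat_lit 0) (XT.lf (nat_lit 0) (nat_lit 3314815070) (nat_lit 380) (nat_lit 215076297) (nat_lit 380) (nat_lit 215076297) (nat_lit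 63) (nat_lit 3) (nat_lit 68) (nat_lit 3) (nat_lit 68) (nat_lit 5) (nat_lit 306) (nat_lit 306) (nat_lit 288)) (XT.lf (nat_lit 0) (nat_lit 598122937) (nat_lit 380) (nat_lit 4411194452) (nat_lit 456) (nat_lit 2662729417) (nat_lit 58) (nat_lit 5) (nat_lit 63) (nat_lit 3) (nat_lit 64) (nat_lit 5) (nat_lit 307) (nat_lit 306) (nat_lit 287))))) (XT.nd (nat_lit 312) (nat_lit 760) (nat_lit 0) (XT.nd (nat_lit 156) (nat_lit 0) (nat_lit 76) (XT.nd (nat_lit 78) (nat_lit 0) (nat_lit 0) (XT.lf (nat_lit 0) (nat_lit 2000155448) (nat_lit 380) (nat_lit 702260697) (nat_lit 456) (nat_lit 5174986929) (nat_lit 58) (nat_lit 5) (nat_lit 63) (nat_lit 3) (nat_lit 64) (nat_lit 5) (nat_lit 308) (nat_lit 306) (nat_lit 286)) (XT.lf (nat_lit 76) (nat_lit 3396026136) (nat_lit 0) (nat_lit 71612212) (nat_lit 456) (nat_lit 4635597802) (nat_lit 59) (nat_lit 5) (nat_lit 58) (nat_lit 5) (nat_lit 64) (nat_lit 5) (nat_lit 309)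 (nat_lit 306) (nat_lit 285))) (XT.nd (nat_lit 78) (nat_lit 0) (nat_lit 0) (XT.lf (nat_lit 0) (nat_lit 5019234488) (nat_lit 380) (nat_lit 636918828) (nat_lit 456) (nat_lit 2693933653) (nat_lit 59) (nat_lit 5) (nat_lit 64) (nat_lit 5) (nat_lit 65) (nat_lit 5) (nat_lit 310) (nat_lit 306) (nat_lit 284)) (XT.lf (nat_lit 76) (nat_lit 3870840993) (nat_lit 0) (nat_lit 2808334658) (nat_lit 456) (nat_lit 1939039732) (nat_lit 60) (nat_lit 5) (nat_lit 59) (nat_lit 5) (nat_lit 65) (nat_lit 5) (nat_lit 311) (nat_lit 306) (nat_lit 283)))) (XT.nd (nat_lit 156) (nat_lit 456) (nat_lit 0) (XT.nd (nat_lit 78) (nat_lit 456) (nat_lit 0) (XT.lf (nat_lit 0) (nat_lit 8392437595) (nat_lit 380) (nat_lit 224981600) (nat_lit 76) (nat_lit 296979979) (nat_lit 60) (nat_lit 5) (nat_lit 65) (nat_lit 5) (nat_lit 61) (nat_lit 5) (nat_lit 312) (nat_lit 306) (nat_lit 282)) (XT.lf (nat_lit 0) (nat_lit 1051104123) (nat_lit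 456) (nat_lit 4511016731) (nat_lit 76) (nat_lit 3662982802) (nat_lit 54) (nat_lit 5) (nat_lit 60) (nat_lit 5) (nat_lit 55) (nat_lit 5) (nat_lit 313) (nat_lit 306) (nat_lit 281))) (XT.nd (nat_lit 78) (nat_lit 0) (nat_lit 0) (XT.lf (nat_lit 0) (nat_lit 424668928) (nat_lit 456) (nat_lit 2220252335) (nat_lit 532) (nat_lit 6921006374) (nat_lit 48) (nat_lit 5) (nat_lit 54) (nat_lit 5) (nat_lit 55) (nat_lit 5) (nat_lit 314) (nat_lit 306) (nat_lit 280)) (XT.lf (nat_lit 0) (nat_lit 4437892956) (nat_lit 532) (nat_lit 4038066861) (nat_lit 76) (nat_lit 1452507442) (nat_lit 48) (nat_lit 5) (nat_lit 55) (nat_lit 5) (nat_lit 49) (nat_lit 5) (nat_lit 315) (nat_lit 306) (nat_lit 279)))))))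
noncomputable def xc115 : XT := (XT.nd (nat_lit 1248) (nat_lit 836) (nat_lit 0) (XT.nd (nat_lit 624) (nat_lit 760) (nat_lit 0) (XT.nd (nat_lit 312) (nat_lit 608) (nat_lit 0) (XT.nd (nat_lit 156) (nat_lit 304) (nat_lit 0) (XT.nd (nat_lit 78) (nat_lit 0) (nat_lit 0) (XT.lf (nat_lit 0) (nat_lit 1403451916) (nat_lit 304) (nat_lit 4980514743) (nat_lit 380) (nat_lit 3935438453) (nat_lit 44) (nat_lit 5) (nat_lit 48) (nat_lit 5) (nat_lit 49) (nat_lit 5) (nat_lit 316) (nat_lit 306) (nat_lit 278)) (XT.lf (nat_lit 0) (nat_lit 7429562504) (nat_lit 304) (nat_lit 1088937015) (nat_lit 380) (nat_lit 2220652353) (nat_lit 44) (nat_lit 5) (nat_lit 48) (nat_lit 5) (nat_lit 49) (nat_lit 5) (nat_lit 317) (nat_lit 306) (nat_lit 277))) (XT.nd (nat_lit 78) (nat_lit 76) (nat_lit 0) (XT.lf (nat_lit 0) (nat_lit 2726526458) (nat_lit 228) (nat_lit 8165787537) (nat_lit 304) (nat_lit 294827066) (nat_lit 41) (nat_lit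 5) (nat_lit 44) (nat_lit 5) (nat_lit 45) (nat_lit 5) (nat_lit 318) (nat_lit 306) (nat_lit 276)) (XT.lf (nat_lit 0) (nat_lit 1746489516) (nat_lit 304) (nat_lit 2385601766) (nat_lit 76) (nat_lit 7531509556) (nat_lit 40) (nat_lit 5) (nat_lit 44) (nat_lit 5) (nat_lit 41) (nat_lit 5) (nat_lit 319) (nat_lit 306) (nat_lit 275)))) (XT.nd (nat_lit 156) (nat_lit 380) (nat_lit 0) (XT.nd (nat_lit 78) (nat_lit 0) (nat_lit 0) (XT.lf (nat_lit 0) (nat_lit 3981608763) (nat_lit 304) (nat_lit 7875390511) (nat_lit 76) (nat_lit 316965918) (nat_lit 37) (nat_lit 5) (nat_lit 41) (nat_lit 5) (nat_lit 38) (nat_lit 5) (nat_lit 320) (nat_lit 306) (nat_lit 274)) (XT.lf (nat_lit 0) (nat_lit 6507358483) (nat_lit 304) (nat_lit 1254651237) (nat_lit 76) (nat_lit 4954309294) (nat_lit 37) (nat_lit 5) (nat_lit 41) (nat_lit 5) (nat_lit 38) (nat_lit 5) (nat_lit 321) (nat_lit 306) (nat_lit 273))) (XT.nd (nat_lit 78) (nat_lit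 228) (nat_lit 0) (XT.lf (nat_lit 0) (nat_lit 6129356919) (nat_lit 152) (nat_lit 3195419768) (nat_lit 228) (nat_lit 3970213919) (nat_lit 35) (nat_lit 5) (nat_lit 37) (nat_lit 5) (nat_lit 38) (nat_lit 5) (nat_lit 322) (nat_lit 306) (nat_lit 272)) (XT.lf (nat_lit 0) (nat_lit 147677121) (nat_lit 228) (nat_lit 12244805754) (nat_lit 304) (nat_lit 1525572362) (nat_lit 32) (nat_lit 5) (nat_lit 35) (nat_lit 5) (nat_lit 36) (nat_lit 5) (nat_lit 323) (nat_lit 306) (nat_lit 271))))) (XT.nd (nat_lit 312) (nat_lit 380) (nat_lit 0) (XT.nd (nat_lit 156) (nat_lit 152) (nat_lit 0) (XT.nd (nat_lit 78) (nat_lit 152) (nat_lit 0) (XT.lf (nat_lit 0) (nat_lit 1288165854) (nat_lit 304) (nat_lit 6312953913) (nat_lit 76) (nat_lit 6969435878) (nat_lit 31) (nat_lit 5) (nat_lit 35) (nat_lit 5) (nat_lit 32) (nat_lit 5) (nat_lit 324) (nat_lit 306) (nat_lit 270)) (XT.lf (nat_lit 0) (nat_lit 1716628936) (nat_lit 152)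 (nat_lit 2518568505) (nat_lit 228) (nat_lit 11037711574) (nat_lit 29) (nat_lit 5) (nat_lit 31) (nat_lit 5) (nat_lit 32) (nat_lit 5) (nat_lit 325) (nat_lit 306) (nat_lit 269))) (XT.nd (nat_lit 78) (nat_lit 152) (nat_lit 0) (XT.lf (nat_lit 0) (nat_lit 7617462543) (nat_lit 228) (nat_lit 5418323693) (nat_lit 76) (nat_lit 2979773535) (nat_lit 29) (nat_lit 5) (nat_lit 32) (nat_lit 5) (nat_lit 30) (nat_lit 5) (nat_lit 326) (nat_lit 306) (nat_lit 268)) (XT.lf (nat_lit 0) (nat_lit 3408775046) (nat_lit 152) (nat_lit 7963504186) (nat_lit 228) (nat_lit 5437247571) (nat_lit 27) (nat_lit 5) (nat_lit 29) (nat_lit 5) (nat_lit 30) (nat_lit 5) (nat_lit 327) (nat_lit 306) (nat_lit 267)))) (XT.nd (nat_lit 156) (nat_lit 152) (nat_lit 0) (XT.nd (nat_lit 78) (nat_lit 228) (nat_lit 0) (XT.lf (nat_lit 0) (nat_lit 13184885168) (nat_lit 152) (nat_lit 2347109102) (nat_lit 228) (nat_lit 2126713155) (nat_lit 27) (nat_lit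 5) (nat_lit 29) (nat_lit 5) (nat_lit 30) (nat_lit 5) (nat_lit 328) (nat_lit 306) (nat_lit 266)) (XT.lf (nat_lit 0) (nat_lit 1556203376) (nat_lit 228) (nat_lit 13322612795) (nat_lit 76) (nat_lit 3679867597) (nat_lit 24) (nat_lit 5) (nat_lit 27) (nat_lit 5) (nat_lit 25) (nat_lit 5) (nat_lit 329) (nat_lit 306) (nat_lit 265))) (XT.nd (nat_lit 78) (nat_lit 152) (nat_lit 0) (XT.lf (nat_lit 0) (nat_lit 5564911800) (nat_lit 228) (nat_lit 3726905318) (nat_lit 76) (nat_lit 10222782910) (nat_lit 24) (nat_lit 5) (nat_lit 27) (nat_lit 5) (nat_lit 25) (nat_lit 5) (nat_lit 330) (nat_lit 306) (nat_lit 264)) (XT.lf (nat_lit 0) (nat_lit 6923700672) (nat_lit 152) (nat_lit 3099717517) (nat_lit 228) (nat_lit 10513285388) (nat_lit 22) (nat_lit 5) (nat_lit 24) (nat_lit 5) (nat_lit 25) (nat_lit 5) (nat_lit 331) (nat_lit 306) (nat_lit 263)))))) (XT.nd (nat_lit 624) (nat_lit 304) (nat_lit 0) (XT.nd (nat_lit 312)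 (nat_lit 228) (nat_lit 0) (XT.nd (nat_lit 156) (nat_lit 228) (nat_lit 0) (XT.nd (nat_lit 78) (nat_lit 76) (nat_lit 0) (XT.lf (nat_lit 0) (nat_lit 14992890323) (nat_lit 228) (nat_lit 3143063363) (nat_lit 76) (nat_lit 3492317881) (nat_lit 22) (nat_lit 5) (nat_lit 25) (nat_lit 5) (nat_lit 23) (nat_lit 4) (nat_lit 332) (nat_lit 306) (nat_lit 262)) (XT.lf (nat_lit 0) (nat_lit 8451150255) (nat_lit 76) (nat_lit 12158692483) (nat_lit 152) (nat_lit 2177364544) (nat_lit 21) (nat_lit 5) (nat_lit 22) (nat_lit 5) (nat_lit 23) (nat_lit 4) (nat_lit 333) (nat_lit 306) (nat_lit 261))) (XT.nd (nat_lit 78) (nat_lit 152) (nat_lit 0) (XT.lf (nat_lit 0) (nat_lit 2560019062) (nat_lit 152) (nat_lit 3001950916) (nat_lit 76) (nat_lit 18467472363) (nat_lit 20) (nat_lit 5) (nat_lit 22) (nat_lit 5) (nat_lit 21) (nat_lit 5) (nat_lit 334) (nat_lit 306) (nat_lit 260)) (XT.lf (nat_lit 0) (nat_lit 7803429705) (nat_lit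 228) (nat_lit 15783790047) (nat_lit 76) (nat_lit 1759767060) (nat_lit 18) (nat_lit 5) (nat_lit 21) (nat_lit 5) (nat_lit 19) (nat_lit 4) (nat_lit 335) (nat_lit 306) (nat_lit 259)))) (XT.nd (nat_lit 156) (nat_lit 152) (nat_lit 0) (XT.nd (nat_lit 78) (nat_lit 76) (nat_lit 0) (XT.lf (nat_lit 0) (nat_lit 13664547611) (nat_lit 228) (nat_lit 3658117304) (nat_lit 76) (nat_lit 9431437698) (nat_lit 18) (nat_lit 5) (nat_lit 21) (nat_lit 5) (nat_lit 19) (nat_lit 4) (nat_lit 336) (nat_lit 306) (nat_lit 258)) (XT.lf (nat_lit 0) (nat_lit 9883474413) (nat_lit 76) (nat_lit 10320590451) (nat_lit 152) (nat_lit 8052986581) (nat_lit 17) (nat_lit 5) (nat_lit 18) (nat_lit 5) (nat_lit 19) (nat_lit 4) (nat_lit 337) (nat_lit 306) (nat_lit 257))) (XT.nd (nat_lit 78) (nat_lit 152) (nat_lit 0) (XT.lf (nat_lit 0) (nat_lit 24669116600) (nat_lit 76) (nat_lit 2670408436) (nat_lit 152) (nat_lit 2534911366) (nat_lit 17)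 (nat_lit 5) (nat_lit 18) (nat_lit 5) (nat_lit 19) (nat_lit 4) (nat_lit 338) (nat_lit 306) (nat_lit 256)) (XT.lf (nat_lit 0) (nat_lit 3594438406) (nat_lit 152) (nat_lit 22383803096) (nat_lit 76) (nat_lit 5609109882) (nat_lit 15) (nat_lit 5) (nat_lit 17) (nat_lit 5) (nat_lit 16) (nat_lit 4) (nat_lit 339) (nat_lit 306) (nat_lit 255))))) (XT.nd (nat_lit 312) (nat_lit 152) (nat_lit 0) (XT.nd (nat_lit 156) (nat_lit 76) (nat_lit 0) (XT.nd (nat_lit 78) (nat_lit 76) (nat_lit 0) (XT.lf (nat_lit 0) (nat_lit 10267071838) (nat_lit 152) (nat_lit 8549271431) (nat_lit 76) (nat_lit 14600516062) (nat_lit 15) (nat_lit 5) (nat_lit 17) (nat_lit 5) (nat_lit 16) (nat_lit 4) (nat_lit 340) (nat_lit 306) (nat_lit 254)) (XT.lf (nat_lit 0) (nat_lit 6684155312) (nat_lit 76) (nat_lit 10926509277) (nat_lit 152) (nat_lit 17771108149) (nat_lit 14) (nat_lit 5) (nat_lit 15) (nat_lit 5) (nat_lit 16) (nat_lit 4) (nat_lit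 341) (nat_lit 306) (nat_lit 253))) (XT.nd (nat_lit 78) (nat_lit 76) (nat_lit 0) (XT.lf (nat_lit 0) (nat_lit 23581294128) (nat_lit 76) (nat_lit 2171355904) (nat_lit 152) (nat_lit 11734372239) (nat_lit 14) (nat_lit 5) (nat_lit 15) (nat_lit 5) (nat_lit 16) (nat_lit 4) (nat_lit 342) (nat_lit 306) (nat_lit 252)) (XT.lf (nat_lit 0) (nat_lit 1952587108) (nat_lit 76) (nat_lit 32793989844) (nat_lit 76) (nat_lit 4998082537) (nat_lit 13) (nat_lit 4) (nat_lit 14) (nat_lit 5) (nat_lit 14) (nat_lit 4) (nat_lit 343) (nat_lit 306) (nat_lit 251)))) (XT.nd (nat_lit 156) (nat_lit 76) (nat_lit 0) (XT.nd (nat_lit 78) (nat_lit 0) (nat_lit 0) (XT.lf (nat_lit 0) (nat_lit 2588237214) (nat_lit 152) (nat_lit 22442691073) (nat_lit 76) (nat_lit 17113607545) (nat_lit 12) (nat_lit 5) (nat_lit 14) (nat_lit 5) (nat_lit 13) (nat_lit 4) (nat_lit 344) (nat_lit 306) (nat_lit 250)) (XT.lf (nat_lit 0) (nat_lit 10491580284)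 (nat_lit 152) (nat_lit 6031808943) (nat_lit 76) (nat_lit 28204227285) (nat_lit 12) (nat_lit 5) (nat_lit 14) (nat_lit 5) (nat_lit 13) (nat_lit 4) (nat_lit 345) (nat_lit 306) (nat_lit 249))) (XT.nd (nat_lit 78) (nat_lit 0) (nat_lit 0) (XT.lf (nat_lit 0) (nat_lit 12271918764) (nat_lit 76) (nat_lit 7032026807) (nat_lit 152) (nat_lit 28191268227) (nat_lit 11) (nat_lit 5) (nat_lit 12) (nat_lit 5) (nat_lit 13) (nat_lit 4) (nat_lit 346) (nat_lit 306) (nat_lit 248)) (XT.nd (nat_lit 78) (nat_lit 0) (nat_lit 0) (XT.lf (nat_lit 0) (nat_lit 29049727713) (nat_lit 152) (nat_lit 18203864514) (nat_lit 0) (nat_lit 3212362182) (nat_lit 11) (nat_lit 5) (nat_lit 13) (nat_lit 4) (nat_lit 11) (nat_lit 4) (nat_lit 347) (nat_lit 306) (nat_lit 247)) (XT.lf (nat_lit 0) (nat_lit 39740984659) (nat_lit 152) (nat_lit 37127892) (nat_lit 0) (nat_lit 13882985770) (nat_lit 11) (nat_lit 5) (nat_lit 13) (nat_lit 4) (nat_lit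 11) (nat_lit 4) (nat_lit 348) (nat_lit 306) (nat_lit 246))))))))
noncomputable def xc116 : XT := (XT.nd (nat_lit 1248) (nat_lit 152) (nat_lit 0) (XT.nd (nat_lit 624) (nat_lit 228) (nat_lit 0) (XT.nd (nat_lit 312) (nat_lit 76) (nat_lit 0) (XT.nd (nat_lit 156) (nat_lit 76) (nat_lit 0) (XT.nd (nat_lit 78) (nat_lit 76) (nat_lit 0) (XT.lf (nat_lit 0) (nat_lit 20583352642) (nat_lit 76) (nat_lit 31183629076) (nat_lit 76) (nat_lit 5306525226) (nat_lit 10) (nat_lit 4) (nat_lit 11) (nat_lit 5) (nat_lit 11) (nat_lit 4) (nat_lit 349) (nat_lit 306) (nat_lit 245)) (XT.lf (nat_lit 0) (nat_lit 3781766505) (nat_lit 152) (nat_lit 18028719298) (nat_lit 76) (nat_lit 38941899434) (nat_lit 9) (nat_lit 5) (nat_lit 11) (nat_lit 5) (nat_lit 10) (nat_lit 4) (nat_lit 350) (nat_lit 306) (nat_lit 244))) (XT.nd (nat_lit 78) (nat_lit 0) (nat_lit 0) (XT.lf (nat_lit 0) (nat_lit 1836499792) (nat_lit 76) (nat_lit 11503727537)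 (nat_lit 152) (nat_lit 51371942881) (nat_lit 8) (nat_lit 5) (nat_lit 9) (nat_lit 5) (nat_lit 10) (nat_lit 4) (nat_lit 351) (nat_lit 306) (nat_lit 243)) (XT.lf (nat_lit 0) (nat_lit 24145903129) (nat_lit 152) (nat_lit 44664204439) (nat_lit 0) (nat_lit 140033510) (nat_lit 8) (nat_lit 5) (nat_lit 10) (nat_lit 4) (nat_lit 8) (nat_lit 4) (nat_lit 352) (nat_lit 306) (nat_lit 242)))) (XT.nd (nat_lit 156) (nat_lit 76) (nat_lit 0) (XT.nd (nat_lit 78) (nat_lit 0) (nat_lit 0) (XT.lf (nat_lit 0) (nat_lit 36101640673) (nat_lit 152) (nat_lit 25319897481) (nat_lit 0) (nat_lit 12082768539) (nat_lit 8) (nat_lit 5) (nat_lit 10) (nat_lit 4) (nat_lit 8) (nat_lit 4) (nat_lit 353) (nat_lit 306) (nat_lit 241)) (XT.lf (nat_lit 0) (nat_lit 49001623854) (nat_lit 152) (nat_lit 4451451689) (nat_lit 0) (nat_lit 24970712352) (nat_lit 8) (nat_lit 5) (nat_lit 10) (nat_lit 4) (nat_lit 8) (nat_lit 4) (nat_lit 354) (nat_lit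 306) (nat_lit 240))) (XT.nd (nat_lit 78) (nat_lit 0) (nat_lit 0) (XT.lf (nat_lit 0) (nat_lit 19016058037) (nat_lit 76) (nat_lit 44363575630) (nat_lit 76) (nat_lit 20321516567) (nat_lit 7) (nat_lit 4) (nat_lit 8) (nat_lit 5) (nat_lit 8) (nat_lit 4) (nat_lit 355) (nat_lit 306) (nat_lit 239)) (XT.lf (nat_lit 0) (nat_lit 44593003236) (nat_lit 76) (nat_lit 34425612598) (nat_lit 76) (nat_lit 10373231719) (nat_lit 7) (nat_lit 4) (nat_lit 8) (nat_lit 5) (nat_lit 8) (nat_lit 4) (nat_lit 356) (nat_lit 306) (nat_lit 238))))) (XT.nd (nat_lit 312) (nat_lit 76) (nat_lit 0) (XT.nd (nat_lit 156) (nat_lit 76) (nat_lit 0) (XT.nd (nat_lit 78) (nat_lit 0) (nat_lit 0) (XT.lf (nat_lit 0) (nat_lit 341927430) (nat_lit 152) (nat_lit 23350729059) (nat_lit 76) (nat_lit 71845269098) (nat_lit 6) (nat_lit 5) (nat_lit 8) (nat_lit 5) (nat_lit 7) (nat_lit 4) (nat_lit 357) (nat_lit 306) (nat_lit 237)) (XT.lf (nat_lit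 0) (nat_lit 11344214467) (nat_lit 152) (nat_lit 474821316) (nat_lit 76) (nat_lit 90335875774) (nat_lit 6) (nat_lit 5) (nat_lit 8) (nat_lit 5) (nat_lit 7) (nat_lit 4) (nat_lit 358) (nat_lit 306) (nat_lit 236))) (XT.nd (nat_lit 78) (nat_lit 0) (nat_lit 0) (XT.lf (nat_lit 0) (nat_lit 23870630167) (nat_lit 152) (nat_lit 83803836698) (nat_lit 0) (nat_lit 1575277204) (nat_lit 5) (nat_lit 5) (nat_lit 7) (nat_lit 4) (nat_lit 5) (nat_lit 4) (nat_lit 359) (nat_lit 306) (nat_lit 235)) (XT.lf (nat_lit 0) (nat_lit 37710584605) (nat_lit 152) (nat_lit 63768460825) (nat_lit 0) (nat_lit 15408206788) (nat_lit 5) (nat_lit 5) (nat_lit 7) (nat_lit 4) (nat_lit 5) (nat_lit 4) (nat_lit 360) (nat_lit 306) (nat_lit 234)))) (XT.nd (nat_lit 156) (nat_lit 76) (nat_lit 0) (XT.nd (nat_lit 78) (nat_lit 0) (nat_lit 0) (XT.lf (nat_lit 0) (nat_lit 52649511211) (nat_lit 152) (nat_lit 42146281691) (nat_lit 0) (nat_lit 30340628898)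 (nat_lit 5) (nat_lit 5) (nat_lit 7) (nat_lit 4) (nat_lit 5) (nat_lit 4) (nat_lit 361) (nat_lit 306) (nat_lit 233)) (XT.lf (nat_lit 0) (nat_lit 68775936956) (nat_lit 152) (nat_lit 18809167865) (nat_lit 0) (nat_lit 46461031963) (nat_lit 5) (nat_lit 5) (nat_lit 7) (nat_lit 4) (nat_lit 5) (nat_lit 4) (nat_lit 362) (nat_lit 306) (nat_lit 232))) (XT.nd (nat_lit 78) (nat_lit 0) (nat_lit 0) (XT.lf (nat_lit 0) (nat_lit 6717196010) (nat_lit 76) (nat_lit 79629778561) (nat_lit 76) (nat_lit 57309297012) (nat_lit 4) (nat_lit 4) (nat_lit 5) (nat_lit 5) (nat_lit 5) (nat_lit 4) (nat_lit 363) (nat_lit 306) (nat_lit 231)) (XT.lf (nat_lit 0) (nat_lit 35341970491) (nat_lit 76) (nat_lit 70489149970) (nat_lit 76) (nat_lit 48163504943) (nat_lit 4) (nat_lit 4) (nat_lit 5) (nat_lit 5) (nat_lit 5) (nat_lit 4) (nat_lit 364) (nat_lit 306) (nat_lit 230)))))) (XT.nd (nat_lit 624) (nat_lit 0) (nat_lit 0) (XT.nd (nat_lit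 312) (nat_lit 152) (nat_lit 0) (XT.nd (nat_lit 156) (nat_lit 0) (nat_lit 0) (XT.nd (nat_lit 78) (nat_lit 0) (nat_lit 0) (XT.lf (nat_lit 0) (nat_lit 66244326424) (nat_lit 76) (nat_lit 60623328343) (nat_lit 76) (nat_lit 38292902318) (nat_lit 4) (nat_lit 4) (nat_lit 5) (nat_lit 5) (nat_lit 5) (nat_lit 4) (nat_lit 365) (nat_lit 306) (nat_lit 229)) (XT.lf (nat_lit 0) (nat_lit 99607388880) (nat_lit 76) (nat_lit 49973849551) (nat_lit 76) (nat_lit 27638996676) (nat_lit 4) (nat_lit 4) (nat_lit 5) (nat_lit 5) (nat_lit 5) (nat_lit 4) (nat_lit 366) (nat_lit 306) (nat_lit 228))) (XT.nd (nat_lit 78) (nat_lit 0) (nat_lit 0) (XT.lf (nat_lit 0) (nat_lit 135628864897) (nat_lit 76) (nat_lit 38477605572) (nat_lit 76) (nat_lit 16138653762) (nat_lit 4) (nat_lit 4) (nat_lit 5) (nat_lit 5) (nat_lit 5) (nat_lit 4) (nat_lit 367) (nat_lit 306) (nat_lit 227)) (XT.lf (nat_lit 0) (nat_lit 174522215073) (nat_lit 76)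 (nat_lit 26066470516) (nat_lit 76) (nat_lit 3723723395) (nat_lit 4) (nat_lit 4) (nat_lit 5) (nat_lit 5) (nat_lit 5) (nat_lit 4) (nat_lit 368) (nat_lit 306) (nat_lit 226)))) (XT.nd (nat_lit 156) (nat_lit 0) (nat_lit 0) (XT.nd (nat_lit 78) (nat_lit 76) (nat_lit 0) (XT.lf (nat_lit 0) (nat_lit 9195163372) (nat_lit 152) (nat_lit 3220321481) (nat_lit 76) (nat_lit 207071343086) (nat_lit 3) (nat_lit 5) (nat_lit 5) (nat_lit 5) (nat_lit 4) (nat_lit 4) (nat_lit 369) (nat_lit 306) (nat_lit 225)) (XT.lf (nat_lit 0) (nat_lit 23659295651) (nat_lit 152) (nat_lit 209185835354) (nat_lit 0) (nat_lit 2965300129) (nat_lit 2) (nat_lit 5) (nat_lit 4) (nat_lit 4) (nat_lit 2) (nat_lit 4) (nat_lit 370) (nat_lit 306) (nat_lit 224))) (XT.nd (nat_lit 78) (nat_lit 0) (nat_lit 0) (XT.lf (nat_lit 0) (nat_lit 39688969409) (nat_lit 152) (nat_lit 194726097305) (nat_lit 0) (nat_lit 18992184220) (nat_lit 2) (nat_lit 5) (nat_lit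 4) (nat_lit 4) (nat_lit 2) (nat_lit 4) (nat_lit 371) (nat_lit 306) (nat_lit 223)) (XT.lf (nat_lit 0) (nat_lit 56996937882) (nat_lit 152) (nat_lit 179117636232) (nat_lit 0) (nat_lit 36297569669) (nat_lit 2) (nat_lit 5) (nat_lit 4) (nat_lit 4) (nat_lit 2) (nat_lit 4) (nat_lit 372) (nat_lit 306) (nat_lit 222))))) (XT.nd (nat_lit 312) (nat_lit 0) (nat_lit 0) (XT.nd (nat_lit 156) (nat_lit 0) (nat_lit 0) (XT.nd (nat_lit 78) (nat_lit 0) (nat_lit 0) (XT.lf (nat_lit 0) (nat_lit 75685766810) (nat_lit 152) (nat_lit 162267957552) (nat_lit 0) (nat_lit 54984006907) (nat_lit 2) (nat_lit 5) (nat_lit 4) (nat_lit 4) (nat_lit 2) (nat_lit 4) (nat_lit 373) (nat_lit 306) (nat_lit 221)) (XT.lf (nat_lit 0) (nat_lit 95866204807) (nat_lit 152) (nat_lit 144077211317) (nat_lit 0) (nat_lit 75162230378) (nat_lit 2) (nat_lit 5) (nat_lit 4) (nat_lit 4) (nat_lit 2) (nat_lit 4) (nat_lit 374) (nat_lit 306) (nat_lit 220)))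 (XT.nd (nat_lit 78) (nat_lit 0) (nat_lit 0) (XT.lf (nat_lit 0) (nat_lit 117657839656) (nat_lit 152) (nat_lit 124437600513) (nat_lit 0) (nat_lit 96951814738) (nat_lit 2) (nat_lit 5) (nat_lit 4) (nat_lit 4) (nat_lit 2) (nat_lit 4) (nat_lit 375) (nat_lit 306) (nat_lit 219)) (XT.lf (nat_lit 0) (nat_lit 141189806969) (nat_lit 152) (nat_lit 103232742260) (nat_lit 0) (nat_lit 120481883451) (nat_lit 2) (nat_lit 5) (nat_lit 4) (nat_lit 4) (nat_lit 2) (nat_lit 4) (nat_lit 376) (nat_lit 306) (nat_lit 218)))) (XT.nd (nat_lit 156) (nat_lit 0) (nat_lit 0) (XT.nd (nat_lit 78) (nat_lit 0) (nat_lit 0) (XT.lf (nat_lit 0) (nat_lit 166601555442) (nat_lit 152) (nat_lit 80336978140) (nat_lit 0) (nat_lit 145891873962) (nat_lit 2) (nat_lit 5) (nat_lit 4) (nat_lit 4) (nat_lit 2) (nat_lit 4) (nat_lit 377) (nat_lit 306) (nat_lit 217)) (XT.lf (nat_lit 0) (nat_lit 194043673215) (nat_lit 152) (nat_lit 55614629550)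 (nat_lit 0) (nat_lit 173332363990) (nat_lit 2) (nat_lit 5) (nat_lit 4) (nat_lit 4) (nat_lit 2) (nat_lit 4) (nat_lit 378) (nat_lit 306) (nat_lit 216))) (XT.nd (nat_lit 78) (nat_lit 0) (nat_lit 0) (XT.lf (nat_lit 0) (nat_lit 223678780243) (nat_lit 152) (nat_lit 28919193683) (nat_lit 0) (nat_lit 202965963849) (nat_lit 2) (nat_lit 5) (nat_lit 4) (nat_lit 4) (nat_lit 2) (nat_lit 4) (nat_lit 379) (nat_lit 306) (nat_lit 215)) (XT.lf (nat_lit 0) (nat_lit 255682491977) (nat_lit 152) (nat_lit 92475364) (nat_lit 0) (nat_lit 234968280055) (nat_lit 2) (nat_lit 5) (nat_lit 4) (nat_lit 4) (nat_lit 2) (nat_lit 4) (nat_lit 380) (nat_lit 306) (nat_lit 214)))))))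
noncomputable def xc117 : XT := (XT.nd (nat_lit 1248) (nat_lit 0) (nat_lit 0) (XT.nd (nat_lit 624) (nat_lit 0) (nat_lit 0) (XT.nd (nat_lit 312) (nat_lit 0) (nat_lit 0) (XT.nd (nat_lit 156) (nat_lit 0) (nat_lit 0) (XT.nd (nat_lit 78) (nat_lit 0) (nat_lit 0) (XT.lf (nat_lit 0) (nat_lit 32670669614) (nat_lit 76) (nat_lit 258359520817) (nat_lit 76) (nat_lit 237644016740) (nat_lit 1) (nat_lit 4) (nat_lit 2) (nat_lit 5) (nat_lit 2) (nat_lit 4) (nat_lit 381) (nat_lit 306) (nat_lit 213)) (XT.lf (nat_lit 0) (nat_lit 68056197357) (nat_lit 76) (nat_lit 261150051925) (nat_lit 76) (nat_lit 240433351408) (nat_lit 1) (nat_lit 4) (nat_lit 2) (nat_lit 5) (nat_lit 2) (nat_lit 4) (nat_lit 382) (nat_lit 306) (nat_lit 212))) (XT.nd (nat_lit 78) (nat_lit 0) (nat_lit 0) (XT.lf (nat_lit 0) (nat_lit 106268930291) (nat_lit 76) (nat_lit 264165625587) (nat_lit 76) (nat_lit 243447817254) (nat_lit 1) (nat_lit 4) (nat_lit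 2) (nat_lit 5) (nat_lit 2) (nat_lit 4) (nat_lit 383) (nat_lit 306) (nat_lit 211)) (XT.lf (nat_lit 0) (nat_lit 147535314241) (nat_lit 76) (nat_lit 267424111868) (nat_lit 76) (nat_lit 246705277780) (nat_lit 1) (nat_lit 4) (nat_lit 2) (nat_lit 5) (nat_lit 2) (nat_lit 4) (nat_lit 384) (nat_lit 306) (nat_lit 210)))) (XT.nd (nat_lit 156) (nat_lit 0) (nat_lit 0) (XT.nd (nat_lit 78) (nat_lit 0) (nat_lit 0) (XT.lf (nat_lit 0) (nat_lit 192099890741) (nat_lit 76) (nat_lit 270944820316) (nat_lit 76) (nat_lit 250225036457) (nat_lit 1) (nat_lit 4) (nat_lit 2) (nat_lit 5) (nat_lit 2) (nat_lit 4) (nat_lit 385) (nat_lit 306) (nat_lit 209)) (XT.lf (nat_lit 0) (nat_lit 240226746172) (nat_lit 76) (nat_lit 274748614391) (nat_lit 76) (nat_lit 254027951112) (nat_lit 1) (nat_lit 4) (nat_lit 2) (nat_lit 5) (nat_lit 2) (nat_lit 4) (nat_lit 386) (nat_lit 306) (nat_lit 208))) (XT.nd (nat_lit 78) (nat_lit 0) (nat_lit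 0) (XT.lf (nat_lit 0) (nat_lit 292201076712) (nat_lit 76) (nat_lit 278858035093) (nat_lit 76) (nat_lit 258136557536) (nat_lit 1) (nat_lit 4) (nat_lit 2) (nat_lit 5) (nat_lit 2) (nat_lit 4) (nat_lit 387) (nat_lit 306) (nat_lit 207)) (XT.lf (nat_lit 0) (nat_lit 348330878396) (nat_lit 76) (nat_lit 283297434544) (nat_lit 76) (nat_lit 262575203028) (nat_lit 1) (nat_lit 4) (nat_lit 2) (nat_lit 5) (nat_lit 2) (nat_lit 4) (nat_lit 388) (nat_lit 306) (nat_lit 206))))) (XT.nd (nat_lit 312) (nat_lit 0) (nat_lit 0) (XT.nd (nat_lit 156) (nat_lit 0) (nat_lit 0) (XT.nd (nat_lit 78) (nat_lit 0) (nat_lit 0) (XT.lf (nat_lit 0) (nat_lit 408948772269) (nat_lit 76) (nat_lit 288093120298) (nat_lit 76) (nat_lit 267370190671) (nat_lit 1) (nat_lit 4) (nat_lit 2) (nat_lit 5) (nat_lit 2) (nat_lit 4) (nat_lit 389) (nat_lit 306) (nat_lit 205)) (XT.lf (nat_lit 0) (nat_lit 474413975482) (nat_lit 76) (nat_lit 293273511233)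 (nat_lit 76) (nat_lit 272549935206) (nat_lit 1) (nat_lit 4) (nat_lit 2) (nat_lit 5) (nat_lit 2) (nat_lit 4) (nat_lit 390) (nat_lit 306) (nat_lit 204))) (XT.nd (nat_lit 78) (nat_lit 0) (nat_lit 0) (XT.lf (nat_lit 0) (nat_lit 545114429978) (nat_lit 76) (nat_lit 298869305962) (nat_lit 76) (nat_lit 278145131417) (nat_lit 1) (nat_lit 4) (nat_lit 2) (nat_lit 5) (nat_lit 2) (nat_lit 4) (nat_lit 391) (nat_lit 306) (nat_lit 203)) (XT.lf (nat_lit 0) (nat_lit 621469101414) (nat_lit 76) (nat_lit 304913664750) (nat_lit 76) (nat_lit 284188936022) (nat_lit 1) (nat_lit 4) (nat_lit 2) (nat_lit 5) (nat_lit 2) (nat_lit 4) (nat_lit 392) (nat_lit 306) (nat_lit 202)))) (XT.nd (nat_lit 156) (nat_lit 0) (nat_lit 0) (XT.nd (nat_lit 78) (nat_lit 0) (nat_lit 0) (XT.lf (nat_lit 0) (nat_lit 703930461918) (nat_lit 76) (nat_lit 311442406019) (nat_lit 76) (nat_lit 290717164158) (nat_lit 1) (nat_lit 4) (nat_lit 2) (nat_lit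 5) (nat_lit 2) (nat_lit 4) (nat_lit 393) (nat_lit 306) (nat_lit 201)) (XT.lf (nat_lit 0) (nat_lit 792987171403) (nat_lit 76) (nat_lit 318494218606) (nat_lit 76) (nat_lit 297768501623) (nat_lit 1) (nat_lit 4) (nat_lit 2) (nat_lit 5) (nat_lit 2) (nat_lit 4) (nat_lit 394) (nat_lit 306) (nat_lit 200))) (XT.nd (nat_lit 78) (nat_lit 0) (nat_lit 0) (XT.lf (nat_lit 0) (nat_lit 889166973332) (nat_lit 76) (nat_lit 326110891031) (nat_lit 76) (nat_lit 305384734119) (nat_lit 1) (nat_lit 4) (nat_lit 2) (nat_lit 5) (nat_lit 2) (nat_lit 4) (nat_lit 395) (nat_lit 306) (nat_lit 199)) (XT.lf (nat_lit 0) (nat_lit 993039822088) (nat_lit 76) (nat_lit 334337559131) (nat_lit 76) (nat_lit 313610994877) (nat_lit 1) (nat_lit 4) (nat_lit 2) (nat_lit 5) (nat_lit 2) (nat_lit 4) (nat_lit 396) (nat_lit 306) (nat_lit 198)))))) (XT.nd (nat_lit 624) (nat_lit 0) (nat_lit 0) (XT.nd (nat_lit 312) (nat_lit 0) (nat_lit 0) (XT.nd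 (nat_lit 156) (nat_lit 0) (nat_lit 0) (XT.nd (nat_lit 78) (nat_lit 0) (nat_lit 0) (XT.lf (nat_lit 0) (nat_lit 1105221260478) (nat_lit 76) (nat_lit 343222973530) (nat_lit 76) (nat_lit 322496032108) (nat_lit 1) (nat_lit 4) (nat_lit 2) (nat_lit 5) (nat_lit 2) (nat_lit 4) (nat_lit 397) (nat_lit 306) (nat_lit 197)) (XT.lf (nat_lit 0) (nat_lit 1226376067397) (nat_lit 76) (nat_lit 352819788536) (nat_lit 76) (nat_lit 332092497885) (nat_lit 1) (nat_lit 4) (nat_lit 2) (nat_lit 5) (nat_lit 2) (nat_lit 4) (nat_lit 398) (nat_lit 306) (nat_lit 196))) (XT.nd (nat_lit 78) (nat_lit 0) (nat_lit 0) (XT.lf (nat_lit 0) (nat_lit 1357222197255) (nat_lit 76) (nat_lit 363184874165) (nat_lit 76) (nat_lit 342457260154) (nat_lit 1) (nat_lit 4) (nat_lit 2) (nat_lit 5) (nat_lit 2) (nat_lit 4) (nat_lit 399) (nat_lit 306) (nat_lit 195)) (XT.lf (nat_lit 0) (nat_lit 1498535034526) (nat_lit 76) (nat_lit 374379653146) (nat_lit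 76) (nat_lit 353651739726) (nat_lit 1) (nat_lit 4) (nat_lit 2) (nat_lit 5) (nat_lit 2) (nat_lit 4) (nat_lit 400) (nat_lit 306) (nat_lit 194)))) (XT.nd (nat_lit 156) (nat_lit 0) (nat_lit 0) (XT.nd (nat_lit 78) (nat_lit 0) (nat_lit 0) (XT.lf (nat_lit 0) (nat_lit 1651151988616) (nat_lit 76) (nat_lit 386470464909) (nat_lit 76) (nat_lit 365742274260) (nat_lit 1) (nat_lit 4) (nat_lit 2) (nat_lit 5) (nat_lit 2) (nat_lit 4) (nat_lit 401) (nat_lit 306) (nat_lit 193)) (XT.lf (nat_lit 0) (nat_lit 1815977456290) (nat_lit 76) (nat_lit 399528958711) (nat_lit 76) (nat_lit 378800511368) (nat_lit 1) (nat_lit 4) (nat_lit 2) (nat_lit 5) (nat_lit 2) (nat_lit 4) (nat_lit 402) (nat_lit 306) (nat_lit 192))) (XT.nd (nat_lit 78) (nat_lit 0) (nat_lit 0) (XT.lf (nat_lit 0) (nat_lit 1993988181059) (nat_lit 76) (nat_lit 413632518217) (nat_lit 76) (nat_lit 392903833194) (nat_lit 1) (nat_lit 4) (nat_lit 2) (nat_lit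 5) (nat_lit 2) (nat_lit 4) (nat_lit 403) (nat_lit 306) (nat_lit 191)) (XT.lf (nat_lit 0) (nat_lit 2186239041294) (nat_lit 76) (nat_lit 428864720077) (nat_lit 76) (nat_lit 408135814981) (nat_lit 1) (nat_lit 4) (nat_lit 2) (nat_lit 5) (nat_lit 2) (nat_lit 4) (nat_lit 404) (nat_lit 306) (nat_lit 190))))) (XT.nd (nat_lit 312) (nat_lit 0) (nat_lit 0) (XT.nd (nat_lit 156) (nat_lit 0) (nat_lit 0) (XT.nd (nat_lit 78) (nat_lit 0) (nat_lit 0) (XT.lf (nat_lit 0) (nat_lit 2393869301351) (nat_lit 76) (nat_lit 445315829191) (nat_lit 76) (nat_lit 424586720322) (nat_lit 1) (nat_lit 4) (nat_lit 2) (nat_lit 5) (nat_lit 2) (nat_lit 4) (nat_lit 405) (nat_lit 306) (nat_lit 189)) (XT.lf (nat_lit 0) (nat_lit 2618109362771) (nat_lit 76) (nat_lit 463083333612) (nat_lit 76) (nat_lit 442354036066) (nat_lit 1) (nat_lit 4) (nat_lit 2) (nat_lit 5) (nat_lit 2) (nat_lit 4) (nat_lit 406) (nat_lit 306) (nat_lit 188)))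 (XT.nd (nat_lit 78) (nat_lit 0) (nat_lit 0) (XT.lf (nat_lit 0) (nat_lit 2860288055547) (nat_lit 76) (nat_lit 482272522256) (nat_lit 76) (nat_lit 461543050008) (nat_lit 1) (nat_lit 4) (nat_lit 2) (nat_lit 5) (nat_lit 2) (nat_lit 4) (nat_lit 407) (nat_lit 306) (nat_lit 187)) (XT.lf (nat_lit 0) (nat_lit 3121840512675) (nat_lit 76) (nat_lit 502997108834) (nat_lit 76) (nat_lit 482267474825) (nat_lit 1) (nat_lit 4) (nat_lit 2) (nat_lit 5) (nat_lit 2) (nat_lit 4) (nat_lit 408) (nat_lit 306) (nat_lit 186)))) (XT.nd (nat_lit 39000) (nat_lit 0) (nat_lit 4332) (XT.nd (nat_lit 38922) (nat_lit 0) (nat_lit 4332) (XT.lf (nat_lit 0) (nat_lit 3404316674640) (nat_lit 76) (nat_lit 525379905709) (nat_lit 76) (nat_lit 504650121922) (nat_lit 1) (nat_lit 4) (nat_lit 2) (nat_lit 5) (nat_lit 2) (nat_lit 4) (nat_lit 409) (nat_lit 306) (nat_lit 185)) (XT.lf (nat_lit 0) (nat_lit 458118933) (nat_lit 0) (nat_lit 458118933)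 (nat_lit 380) (nat_lit 3017336061) (nat_lit 58) (nat_lit 5) (nat_lit 58) (nat_lit 3) (nat_lit 63) (nat_lit 3) (nat_lit 307) (nat_lit 307) (nat_lit 286))) (XT.nd (nat_lit 78) (nat_lit 0) (nat_lit 0) (XT.lf (nat_lit 0) (nat_lit 3150748317) (nat_lit 380) (nat_lit 3257077521) (nat_lit 456) (nat_lit 1671528758) (nat_lit 58) (nat_lit 5) (nat_lit 63) (nat_lit 3) (nat_lit 64) (nat_lit 5) (nat_lit 308) (nat_lit 307) (nat_lit 285)) (XT.nd (nat_lit 78) (nat_lit 0) (nat_lit 0) (XT.lf (nat_lit 76) (nat_lit 670480530) (nat_lit 0) (nat_lit 3825049042) (nat_lit 456) (nat_lit 3819612822) (nat_lit 59) (nat_lit 5) (nat_lit 58) (nat_lit 5) (nat_lit 64) (nat_lit 5) (nat_lit 309) (nat_lit 307) (nat_lit 284)) (XT.lf (nat_lit 76) (nat_lit 5027764034) (nat_lit 0) (nat_lit 897436067) (nat_lit 456) (nat_lit 2646675486) (nat_lit 59) (nat_lit 5) (nat_lit 58) (nat_lit 5) (nat_lit 64) (nat_lit 5) (nat_lit 310) (nat_lit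 307) (nat_lit 283))))))))
noncomputable def xc118 : XT := (XT.nd (nat_lit 1248) (nat_lit 1140) (nat_lit 0) (XT.nd (nat_lit 624) (nat_lit 1140) (nat_lit 0) (XT.nd (nat_lit 312) (nat_lit 684) (nat_lit 0) (XT.nd (nat_lit 156) (nat_lit 456) (nat_lit 0) (XT.nd (nat_lit 78) (nat_lit 0) (nat_lit 0) (XT.lf (nat_lit 76) (nat_lit 795825645) (nat_lit 0) (nat_lit 6644482954) (nat_lit 456) (nat_lit 1411400834) (nat_lit 60) (nat_lit 5) (nat_lit 59) (nat_lit 5) (nat_lit 65) (nat_lit 5) (nat_lit 311) (nat_lit 307) (nat_lit 282)) (XT.lf (nat_lit 76) (nat_lit 5587841716) (nat_lit 0) (nat_lit 3511732655) (nat_lit 456) (nat_lit 52748564) (nat_lit 60) (nat_lit 5) (nat_lit 59) (nat_lit 5) (nat_lit 65) (nat_lit 5) (nat_lit 312) (nat_lit 307) (nat_lit 281))) (XT.nd (nat_lit 78) (nat_lit 0) (nat_lit 76) (XT.lf (nat_lit 76) (nat_lit 1242534277) (nat_lit 0) (nat_lit 39141897) (nat_lit 532) (nat_lit 8197756320)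 (nat_lit 54) (nat_lit 5) (nat_lit 53) (nat_lit 5) (nat_lit 60) (nat_lit 5) (nat_lit 313) (nat_lit 307) (nat_lit 280)) (XT.lf (nat_lit 0) (nat_lit 2822752645) (nat_lit 456) (nat_lit 3358801608) (nat_lit 76) (nat_lit 3643008811) (nat_lit 54) (nat_lit 5) (nat_lit 60) (nat_lit 5) (nat_lit 55) (nat_lit 5) (nat_lit 314) (nat_lit 307) (nat_lit 279)))) (XT.nd (nat_lit 156) (nat_lit 304) (nat_lit 0) (XT.nd (nat_lit 78) (nat_lit 0) (nat_lit 0) (XT.lf (nat_lit 0) (nat_lit 1933432664) (nat_lit 456) (nat_lit 2521106774) (nat_lit 532) (nat_lit 5745538907) (nat_lit 48) (nat_lit 5) (nat_lit 54) (nat_lit 5) (nat_lit 55) (nat_lit 5) (nat_lit 315) (nat_lit 307) (nat_lit 278)) (XT.lf (nat_lit 0) (nat_lit 6269832436) (nat_lit 532) (nat_lit 2871410811) (nat_lit 76) (nat_lit 1460310282) (nat_lit 48) (nat_lit 5) (nat_lit 55) (nat_lit 5) (nat_lit 49) (nat_lit 5) (nat_lit 316) (nat_lit 307) (nat_lit 277))) (XT.nd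 (nat_lit 78) (nat_lit 0) (nat_lit 0) (XT.lf (nat_lit 0) (nat_lit 2967715509) (nat_lit 304) (nat_lit 5329396263) (nat_lit 380) (nat_lit 2732838130) (nat_lit 44) (nat_lit 5) (nat_lit 48) (nat_lit 5) (nat_lit 49) (nat_lit 5) (nat_lit 317) (nat_lit 307) (nat_lit 276)) (XT.lf (nat_lit 0) (nat_lit 9368360319) (nat_lit 304) (nat_lit 1130163403) (nat_lit 380) (nat_lit 993271764) (nat_lit 44) (nat_lit 5) (nat_lit 48) (nat_lit 5) (nat_lit 49) (nat_lit 5) (nat_lit 318) (nat_lit 307) (nat_lit 275))))) (XT.nd (nat_lit 312) (nat_lit 608) (nat_lit 0) (XT.nd (nat_lit 156) (nat_lit 228) (nat_lit 0) (XT.nd (nat_lit 78) (nat_lit 0) (nat_lit 0) (XT.lf (nat_lit 0) (nat_lit 969308825) (nat_lit 304) (nat_lit 7647488675) (nat_lit 76) (nat_lit 3361950611) (nat_lit 40) (nat_lit 5) (nat_lit 44) (nat_lit 5) (nat_lit 41) (nat_lit 5) (nat_lit 319) (nat_lit 307) (nat_lit 274)) (XT.lf (nat_lit 0) (nat_lit 3063795471)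 (nat_lit 304) (nat_lit 1203933934) (nat_lit 76) (nat_lit 8232684626) (nat_lit 40) (nat_lit 5) (nat_lit 44) (nat_lit 5) (nat_lit 41) (nat_lit 5) (nat_lit 320) (nat_lit 307) (nat_lit 273))) (XT.nd (nat_lit 78) (nat_lit 0) (nat_lit 0) (XT.lf (nat_lit 0) (nat_lit 5427845438) (nat_lit 304) (nat_lit 7081112208) (nat_lit 76) (nat_lit 546793374) (nat_lit 37) (nat_lit 5) (nat_lit 41) (nat_lit 5) (nat_lit 38) (nat_lit 5) (nat_lit 321) (nat_lit 307) (nat_lit 272)) (XT.lf (nat_lit 0) (nat_lit 8072121212) (nat_lit 304) (nat_lit 36218202) (nat_lit 76) (nat_lit 5539978280) (nat_lit 37) (nat_lit 5) (nat_lit 41) (nat_lit 5) (nat_lit 38) (nat_lit 5) (nat_lit 322) (nat_lit 307) (nat_lit 271)))) (XT.nd (nat_lit 156) (nat_lit 228) (nat_lit 0) (XT.nd (nat_lit 78) (nat_lit 228) (nat_lit 0) (XT.lf (nat_lit 0) (nat_lit 7905123134) (nat_lit 152) (nat_lit 3163377837) (nat_lit 228) (nat_lit 3208627922) (nat_lit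 35) (nat_lit 5) (nat_lit 37) (nat_lit 5) (nat_lit 38) (nat_lit 5) (nat_lit 323) (nat_lit 307) (nat_lit 270)) (XT.lf (nat_lit 0) (nat_lit 1485021943) (nat_lit 228) (nat_lit 12860980043) (nat_lit 304) (nat_lit 607008041) (nat_lit 32) (nat_lit 5) (nat_lit 35) (nat_lit 5) (nat_lit 36) (nat_lit 5) (nat_lit 324) (nat_lit 307) (nat_lit 269))) (XT.nd (nat_lit 78) (nat_lit 152) (nat_lit 0) (XT.lf (nat_lit 0) (nat_lit 2306547435) (nat_lit 304) (nat_lit 5541144316) (nat_lit 76) (nat_lit 7813978934) (nat_lit 31) (nat_lit 5) (nat_lit 35) (nat_lit 5) (nat_lit 32) (nat_lit 5) (nat_lit 325) (nat_lit 307) (nat_lit 268)) (XT.lf (nat_lit 0) (nat_lit 3098479948) (nat_lit 152) (nat_lit 2352990256) (nat_lit 228) (nat_lit 10971868356) (nat_lit 29) (nat_lit 5) (nat_lit 31) (nat_lit 5) (nat_lit 32) (nat_lit 5) (nat_lit 326) (nat_lit 307) (nat_lit 267)))))) (XT.nd (nat_lit 624) (nat_lit 532) (nat_lit 0) (XT.nd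 (nat_lit 312) (nat_lit 228) (nat_lit 0) (XT.nd (nat_lit 156) (nat_lit 228) (nat_lit 0) (XT.nd (nat_lit 78) (nat_lit 152) (nat_lit 0) (XT.lf (nat_lit 0) (nat_lit 9047493676) (nat_lit 228) (nat_lit 4641515532) (nat_lit 76) (nat_lit 3541027376) (nat_lit 29) (nat_lit 5) (nat_lit 32) (nat_lit 5) (nat_lit 30) (nat_lit 5) (nat_lit 327) (nat_lit 307) (nat_lit 266)) (XT.lf (nat_lit 0) (nat_lit 4861111257) (nat_lit 152) (nat_lit 8209166962) (nat_lit 228) (nat_lit 5019918918) (nat_lit 27) (nat_lit 5) (nat_lit 29) (nat_lit 5) (nat_lit 30) (nat_lit 5) (nat_lit 328) (nat_lit 307) (nat_lit 265))) (XT.nd (nat_lit 78) (nat_lit 228) (nat_lit 0) (XT.lf (nat_lit 0) (nat_lit 15331929876) (nat_lit 152) (nat_lit 2172454164) (nat_lit 228) (nat_lit 1507675709) (nat_lit 27) (nat_lit 5) (nat_lit 29) (nat_lit 5) (nat_lit 30) (nat_lit 5) (nat_lit 329) (nat_lit 307) (nat_lit 264)) (XT.lf (nat_lit 0) (nat_lit 2410629955)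 (nat_lit 228) (nat_lit 13235215630) (nat_lit 76) (nat_lit 4338317257) (nat_lit 24) (nat_lit 5) (nat_lit 27) (nat_lit 5) (nat_lit 25) (nat_lit 5) (nat_lit 330) (nat_lit 307) (nat_lit 263)))) (XT.nd (nat_lit 156) (nat_lit 76) (nat_lit 0) (XT.nd (nat_lit 78) (nat_lit 152) (nat_lit 0) (XT.lf (nat_lit 0) (nat_lit 6685966140) (nat_lit 228) (nat_lit 2957274236) (nat_lit 76) (nat_lit 11377698369) (nat_lit 24) (nat_lit 5) (nat_lit 27) (nat_lit 5) (nat_lit 25) (nat_lit 5) (nat_lit 331) (nat_lit 307) (nat_lit 262)) (XT.lf (nat_lit 0) (nat_lit 8518347740) (nat_lit 152) (nat_lit 2957771581) (nat_lit 228) (nat_lit 10650750280) (nat_lit 22) (nat_lit 5) (nat_lit 24) (nat_lit 5) (nat_lit 25) (nat_lit 5) (nat_lit 332) (nat_lit 307) (nat_lit 261))) (XT.nd (nat_lit 78) (nat_lit 76) (nat_lit 0) (XT.lf (nat_lit 0) (nat_lit 16803622791) (nat_lit 228) (nat_lit 2390671754) (nat_lit 76) (nat_lit 4114682750) (nat_lit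 22) (nat_lit 5) (nat_lit 25) (nat_lit 5) (nat_lit 23) (nat_lit 4) (nat_lit 333) (nat_lit 307) (nat_lit 260)) (XT.lf (nat_lit 0) (nat_lit 10105665367) (nat_lit 76) (nat_lit 12742515558) (nat_lit 152) (nat_lit 1714235269) (nat_lit 21) (nat_lit 5) (nat_lit 22) (nat_lit 5) (nat_lit 23) (nat_lit 4) (nat_lit 334) (nat_lit 307) (nat_lit 259))))) (XT.nd (nat_lit 312) (nat_lit 228) (nat_lit 0) (XT.nd (nat_lit 156) (nat_lit 76) (nat_lit 0) (XT.nd (nat_lit 78) (nat_lit 152) (nat_lit 0) (XT.lf (nat_lit 0) (nat_lit 3325410576) (nat_lit 152) (nat_lit 2306122510) (nat_lit 76) (nat_lit 20274899946) (nat_lit 20) (nat_lit 5) (nat_lit 22) (nat_lit 5) (nat_lit 21) (nat_lit 5) (nat_lit 335) (nat_lit 307) (nat_lit 258)) (XT.lf (nat_lit 0) (nat_lit 8977638824) (nat_lit 228) (nat_lit 16099374359) (nat_lit 76) (nat_lit 2253258631) (nat_lit 18) (nat_lit 5) (nat_lit 21) (nat_lit 5) (nat_lit 19) (nat_lit 4) (nat_lit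 336) (nat_lit 307) (nat_lit 257))) (XT.nd (nat_lit 78) (nat_lit 76) (nat_lit 0) (XT.lf (nat_lit 0) (nat_lit 15266910255) (nat_lit 228) (nat_lit 3073804752) (nat_lit 76) (nat_lit 10512536237) (nat_lit 18) (nat_lit 5) (nat_lit 21) (nat_lit 5) (nat_lit 19) (nat_lit 4) (nat_lit 337) (nat_lit 307) (nat_lit 256)) (XT.lf (nat_lit 0) (nat_lit 11528912735) (nat_lit 76) (nat_lit 10783514729) (nat_lit 152) (nat_lit 8165414299) (nat_lit 17) (nat_lit 5) (nat_lit 18) (nat_lit 5) (nat_lit 19) (nat_lit 4) (nat_lit 338) (nat_lit 307) (nat_lit 255)))) (XT.nd (nat_lit 156) (nat_lit 76) (nat_lit 0) (XT.nd (nat_lit 78) (nat_lit 152) (nat_lit 0) (XT.lf (nat_lit 0) (nat_lit 27434090713) (nat_lit 76) (nat_lit 2548186520) (nat_lit 152) (nat_lit 2245286489) (nat_lit 17) (nat_lit 5) (nat_lit 18) (nat_lit 5) (nat_lit 19) (nat_lit 4) (nat_lit 339) (nat_lit 307) (nat_lit 254)) (XT.lf (nat_lit 0) (nat_lit 4342526751)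 (nat_lit 152) (nat_lit 23350499733) (nat_lit 76) (nat_lit 6384144239) (nat_lit 15) (nat_lit 5) (nat_lit 17) (nat_lit 5) (nat_lit 16) (nat_lit 4) (nat_lit 340) (nat_lit 307) (nat_lit 253))) (XT.nd (nat_lit 78) (nat_lit 76) (nat_lit 0) (XT.lf (nat_lit 0) (nat_lit 11514857282) (nat_lit 152) (nat_lit 8470243135) (nat_lit 76) (nat_lit 16070692131) (nat_lit 15) (nat_lit 5) (nat_lit 17) (nat_lit 5) (nat_lit 16) (nat_lit 4) (nat_lit 341) (nat_lit 307) (nat_lit 252)) (XT.nd (nat_lit 78) (nat_lit 0) (nat_lit 0) (XT.lf (nat_lit 0) (nat_lit 7962542051) (nat_lit 76) (nat_lit 11469693661) (nat_lit 152) (nat_lit 18746781820) (nat_lit 14) (nat_lit 5) (nat_lit 15) (nat_lit 5) (nat_lit 16) (nat_lit 4) (nat_lit 342) (nat_lit 307) (nat_lit 251)) (XT.lf (nat_lit 0) (nat_lit 26156366468) (nat_lit 76) (nat_lit 2038641823) (nat_lit 152) (nat_lit 12260145185) (nat_lit 14) (nat_lit 5) (nat_lit 15) (nat_lit 5)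 (nat_lit 16) (nat_lit 4) (nat_lit 343) (nat_lit 307) (nat_lit 250))))))))
noncomputable def xc119 : XT := (XT.nd (nat_lit 1248) (nat_lit 304) (nat_lit 0) (XT.nd (nat_lit 624) (nat_lit 228) (nat_lit 0) (XT.nd (nat_lit 312) (nat_lit 152) (nat_lit 0) (XT.nd (nat_lit 156) (nat_lit 76) (nat_lit 0) (XT.nd (nat_lit 78) (nat_lit 76) (nat_lit 0) (XT.lf (nat_lit 0) (nat_lit 2802797920) (nat_lit 76) (nat_lit 35100858705) (nat_lit 76) (nat_lit 4990147639) (nat_lit 13) (nat_lit 4) (nat_lit 14) (nat_lit 5) (nat_lit 14) (nat_lit 4) (nat_lit 344) (nat_lit 307) (nat_lit 249)) (XT.lf (nat_lit 0) (nat_lit 3153983801) (nat_lit 152) (nat_lit 23576416848) (nat_lit 76) (nat_lit 18756797536) (nat_lit 12) (nat_lit 5) (nat_lit 14) (nat_lit 5) (nat_lit 13) (nat_lit 4) (nat_lit 345) (nat_lit 307) (nat_lit 248))) (XT.nd (nat_lit 78) (nat_lit 76) (nat_lit 0) (XT.lf (nat_lit 0) (nat_lit 11663024864) (nat_lit 152) (nat_lit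 5901678185) (nat_lit 76) (nat_lit 30714363048) (nat_lit 12) (nat_lit 5) (nat_lit 14) (nat_lit 5) (nat_lit 13) (nat_lit 4) (nat_lit 346) (nat_lit 307) (nat_lit 247)) (XT.lf (nat_lit 0) (nat_lit 13850836966) (nat_lit 76) (nat_lit 7319302887) (nat_lit 152) (nat_lit 30098764569) (nat_lit 11) (nat_lit 5) (nat_lit 12) (nat_lit 5) (nat_lit 13) (nat_lit 4) (nat_lit 347) (nat_lit 307) (nat_lit 246)))) (XT.nd (nat_lit 156) (nat_lit 76) (nat_lit 0) (XT.nd (nat_lit 78) (nat_lit 76) (nat_lit 0) (XT.lf (nat_lit 0) (nat_lit 31677871924) (nat_lit 152) (nat_lit 19089367616) (nat_lit 0) (nat_lit 3711494805) (nat_lit 11) (nat_lit 5) (nat_lit 13) (nat_lit 4) (nat_lit 11) (nat_lit 4) (nat_lit 348) (nat_lit 307) (nat_lit 245)) (XT.lf (nat_lit 0) (nat_lit 514145652) (nat_lit 76) (nat_lit 42700118175) (nat_lit 76) (nat_lit 14716051276) (nat_lit 10) (nat_lit 4) (nat_lit 11) (nat_lit 5) (nat_lit 11) (nat_lit 4)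 (nat_lit 349) (nat_lit 307) (nat_lit 244))) (XT.nd (nat_lit 78) (nat_lit 76) (nat_lit 0) (XT.lf (nat_lit 0) (nat_lit 22745164624) (nat_lit 76) (nat_lit 33436338166) (nat_lit 76) (nat_lit 5435891843) (nat_lit 10) (nat_lit 4) (nat_lit 11) (nat_lit 5) (nat_lit 11) (nat_lit 4) (nat_lit 350) (nat_lit 307) (nat_lit 243)) (XT.lf (nat_lit 0) (nat_lit 4343928689) (nat_lit 152) (nat_lit 18980240784) (nat_lit 76) (nat_lit 42267517004) (nat_lit 9) (nat_lit 5) (nat_lit 11) (nat_lit 5) (nat_lit 10) (nat_lit 4) (nat_lit 351) (nat_lit 307) (nat_lit 242))))) (XT.nd (nat_lit 312) (nat_lit 152) (nat_lit 0) (XT.nd (nat_lit 156) (nat_lit 0) (nat_lit 0) (XT.nd (nat_lit 78) (nat_lit 0) (nat_lit 0) (XT.lf (nat_lit 0) (nat_lit 2461771124) (nat_lit 76) (nat_lit 12197568442) (nat_lit 152) (nat_lit 55209541709) (nat_lit 8) (nat_lit 5) (nat_lit 9) (nat_lit 5) (nat_lit 10) (nat_lit 4) (nat_lit 352) (nat_lit 307) (nat_lit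 241)) (XT.lf (nat_lit 0) (nat_lit 26315853485) (nat_lit 152) (nat_lit 47780704131) (nat_lit 0) (nat_lit 350429697) (nat_lit 8) (nat_lit 5) (nat_lit 10) (nat_lit 4) (nat_lit 8) (nat_lit 4) (nat_lit 353) (nat_lit 307) (nat_lit 240))) (XT.nd (nat_lit 78) (nat_lit 0) (nat_lit 0) (XT.lf (nat_lit 0) (nat_lit 39210399802) (nat_lit 152) (nat_lit 26922677554) (nat_lit 0) (nat_lit 13233828453) (nat_lit 8) (nat_lit 5) (nat_lit 10) (nat_lit 4) (nat_lit 8) (nat_lit 4) (nat_lit 354) (nat_lit 307) (nat_lit 239)) (XT.lf (nat_lit 0) (nat_lit 53126038831) (nat_lit 152) (nat_lit 4416075486) (nat_lit 0) (nat_lit 27139145666) (nat_lit 8) (nat_lit 5) (nat_lit 10) (nat_lit 4) (nat_lit 8) (nat_lit 4) (nat_lit 355) (nat_lit 307) (nat_lit 238)))) (XT.nd (nat_lit 156) (nat_lit 76) (nat_lit 0) (XT.nd (nat_lit 78) (nat_lit 0) (nat_lit 0) (XT.lf (nat_lit 0) (nat_lit 20918923820) (nat_lit 76) (nat_lit 47729410418)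 (nat_lit 76) (nat_lit 21732960015) (nat_lit 7) (nat_lit 4) (nat_lit 8) (nat_lit 5) (nat_lit 8) (nat_lit 4) (nat_lit 356) (nat_lit 307) (nat_lit 237)) (XT.lf (nat_lit 0) (nat_lit 48513759365) (nat_lit 76) (nat_lit 37009984511) (nat_lit 76) (nat_lit 11004684815) (nat_lit 7) (nat_lit 4) (nat_lit 8) (nat_lit 5) (nat_lit 8) (nat_lit 4) (nat_lit 357) (nat_lit 307) (nat_lit 236))) (XT.nd (nat_lit 78) (nat_lit 0) (nat_lit 0) (XT.lf (nat_lit 0) (nat_lit 543800512) (nat_lit 152) (nat_lit 24882388421) (nat_lit 76) (nat_lit 77740744408) (nat_lit 6) (nat_lit 5) (nat_lit 8) (nat_lit 5) (nat_lit 7) (nat_lit 4) (nat_lit 358) (nat_lit 307) (nat_lit 235)) (XT.lf (nat_lit 0) (nat_lit 12413343187) (nat_lit 152) (nat_lit 201326500) (nat_lit 76) (nat_lit 97699647486) (nat_lit 6) (nat_lit 5) (nat_lit 8) (nat_lit 5) (nat_lit 7) (nat_lit 4) (nat_lit 359) (nat_lit 307) (nat_lit 234)))))) (XT.nd (nat_lit 624) (nat_lit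 152) (nat_lit 0) (XT.nd (nat_lit 312) (nat_lit 76) (nat_lit 0) (XT.nd (nat_lit 156) (nat_lit 0) (nat_lit 0) (XT.nd (nat_lit 78) (nat_lit 0) (nat_lit 0) (XT.lf (nat_lit 0) (nat_lit 25940731319) (nat_lit 152) (nat_lit 90195466748) (nat_lit 0) (nat_lit 1840633927) (nat_lit 5) (nat_lit 5) (nat_lit 7) (nat_lit 4) (nat_lit 5) (nat_lit 4) (nat_lit 360) (nat_lit 307) (nat_lit 233)) (XT.lf (nat_lit 0) (nat_lit 40875996873) (nat_lit 152) (nat_lit 68580422055) (nat_lit 0) (nat_lit 16769876799) (nat_lit 5) (nat_lit 5) (nat_lit 7) (nat_lit 4) (nat_lit 5) (nat_lit 4) (nat_lit 361) (nat_lit 307) (nat_lit 232))) (XT.nd (nat_lit 78) (nat_lit 0) (nat_lit 0) (XT.lf (nat_lit 0) (nat_lit 56999032755) (nat_lit 152) (nat_lit 45249914194) (nat_lit 0) (nat_lit 32887336126) (nat_lit 5) (nat_lit 5) (nat_lit 7) (nat_lit 4) (nat_lit 5) (nat_lit 4) (nat_lit 362) (nat_lit 307) (nat_lit 231)) (XT.lf (nat_lit 0) (nat_lit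 74405382882) (nat_lit 152) (nat_lit 20065688301) (nat_lit 0) (nat_lit 50288522775) (nat_lit 5) (nat_lit 5) (nat_lit 7) (nat_lit 4) (nat_lit 5) (nat_lit 4) (nat_lit 363) (nat_lit 307) (nat_lit 230)))) (XT.nd (nat_lit 156) (nat_lit 0) (nat_lit 0) (XT.nd (nat_lit 78) (nat_lit 0) (nat_lit 0) (XT.lf (nat_lit 0) (nat_lit 7496500811) (nat_lit 76) (nat_lit 85881986210) (nat_lit 76) (nat_lit 61760345105) (nat_lit 4) (nat_lit 4) (nat_lit 5) (nat_lit 5) (nat_lit 5) (nat_lit 4) (nat_lit 364) (nat_lit 307) (nat_lit 229)) (XT.lf (nat_lit 0) (nat_lit 38393336575) (nat_lit 76) (nat_lit 76018861009) (nat_lit 76) (nat_lit 51892793053) (nat_lit 4) (nat_lit 4) (nat_lit 5) (nat_lit 5) (nat_lit 5) (nat_lit 4) (nat_lit 365) (nat_lit 307) (nat_lit 228))) (XT.nd (nat_lit 78) (nat_lit 0) (nat_lit 0) (XT.lf (nat_lit 0) (nat_lit 71751287764) (nat_lit 76) (nat_lit 65371878907) (nat_lit 76) (nat_lit 41241712017) (nat_lit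 4) (nat_lit 4) (nat_lit 5) (nat_lit 5) (nat_lit 5) (nat_lit 4) (nat_lit 366) (nat_lit 307) (nat_lit 227)) (XT.lf (nat_lit 0) (nat_lit 107768031126) (nat_lit 76) (nat_lit 53877946679) (nat_lit 76) (nat_lit 29743984478) (nat_lit 4) (nat_lit 4) (nat_lit 5) (nat_lit 5) (nat_lit 5) (nat_lit 4) (nat_lit 367) (nat_lit 307) (nat_lit 226))))) (XT.nd (nat_lit 312) (nat_lit 0) (nat_lit 0) (XT.nd (nat_lit 156) (nat_lit 152) (nat_lit 0) (XT.nd (nat_lit 78) (nat_lit 0) (nat_lit 0) (XT.lf (nat_lit 0) (nat_lit 146656999215) (nat_lit 76) (nat_lit 41468952133) (nat_lit 76) (nat_lit 17331475756) (nat_lit 4) (nat_lit 4) (nat_lit 5) (nat_lit 5) (nat_lit 5) (nat_lit 4) (nat_lit 368) (nat_lit 307) (nat_lit 225)) (XT.lf (nat_lit 0) (nat_lit 188648645173) (nat_lit 76) (nat_lit 28071360486) (nat_lit 76) (nat_lit 3930630242) (nat_lit 4) (nat_lit 4) (nat_lit 5) (nat_lit 5) (nat_lit 5) (nat_lit 4) (nat_lit 369) (nat_lit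 307) (nat_lit 224))) (XT.nd (nat_lit 78) (nat_lit 76) (nat_lit 0) (XT.lf (nat_lit 0) (nat_lit 10010812818) (nat_lit 152) (nat_lit 3321252422) (nat_lit 76) (nat_lit 223707282205) (nat_lit 3) (nat_lit 5) (nat_lit 5) (nat_lit 5) (nat_lit 4) (nat_lit 4) (nat_lit 370) (nat_lit 307) (nat_lit 223)) (XT.lf (nat_lit 0) (nat_lit 25631622642) (nat_lit 152) (nat_lit 225763532312) (nat_lit 0) (nat_lit 3273721948) (nat_lit 2) (nat_lit 5) (nat_lit 4) (nat_lit 4) (nat_lit 2) (nat_lit 4) (nat_lit 371) (nat_lit 307) (nat_lit 222)))) (XT.nd (nat_lit 156) (nat_lit 0) (nat_lit 0) (XT.nd (nat_lit 78) (nat_lit 0) (nat_lit 0) (XT.lf (nat_lit 0) (nat_lit 42937775239) (nat_lit 152) (nat_lit 210158657431) (nat_lit 0) (nat_lit 20577482855) (nat_lit 2) (nat_lit 5) (nat_lit 4) (nat_lit 4) (nat_lit 2) (nat_lit 4) (nat_lit 372) (nat_lit 307) (nat_lit 221)) (XT.lf (nat_lit 0) (nat_lit 61624922799) (nat_lit 152) (nat_lit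 193312299299) (nat_lit 0) (nat_lit 39262415888) (nat_lit 2) (nat_lit 5) (nat_lit 4) (nat_lit 4) (nat_lit 2) (nat_lit 4) (nat_lit 373) (nat_lit 307) (nat_lit 220))) (XT.nd (nat_lit 78) (nat_lit 0) (nat_lit 0) (XT.lf (nat_lit 0) (nat_lit 81803803975) (nat_lit 152) (nat_lit 175124627646) (nat_lit 0) (nat_lit 59439246576) (nat_lit 2) (nat_lit 5) (nat_lit 4) (nat_lit 4) (nat_lit 2) (nat_lit 4) (nat_lit 374) (nat_lit 307) (nat_lit 219)) (XT.nd (nat_lit 78) (nat_lit 0) (nat_lit 0) (XT.lf (nat_lit 0) (nat_lit 103593997322) (nat_lit 152) (nat_lit 155487863676) (nat_lit 0) (nat_lit 81227541323) (nat_lit 2) (nat_lit 5) (nat_lit 4) (nat_lit 4) (nat_lit 2) (nat_lit 4) (nat_lit 375) (nat_lit 307) (nat_lit 218)) (XT.lf (nat_lit 0) (nat_lit 127124629912) (nat_lit 152) (nat_lit 134285641381) (nat_lit 0) (nat_lit 104756415949) (nat_lit 2) (nat_lit 5) (nat_lit 4) (nat_lit 4) (nat_lit 2) (nat_lit 4) (nat_lit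 376) (nat_lit 307) (nat_lit 217))))))))
noncomputable def xc120 : XT := (XT.nd (nat_lit 1248) (nat_lit 0) (nat_lit 0) (XT.nd (nat_lit 624) (nat_lit 0) (nat_lit 0) (XT.nd (nat_lit 312) (nat_lit 76) (nat_lit 0) (XT.nd (nat_lit 156) (nat_lit 0) (nat_lit 0) (XT.nd (nat_lit 78) (nat_lit 0) (nat_lit 0) (XT.lf (nat_lit 0) (nat_lit 152535142530) (nat_lit 152) (nat_lit 111392317962) (nat_lit 0) (nat_lit 130165300824) (nat_lit 2) (nat_lit 5) (nat_lit 4) (nat_lit 4) (nat_lit 2) (nat_lit 4) (nat_lit 377) (nat_lit 307) (nat_lit 216)) (XT.lf (nat_lit 0) (nat_lit 179976115992) (nat_lit 152) (nat_lit 86672229281) (nat_lit 0) (nat_lit 157604767116) (nat_lit 2) (nat_lit 5) (nat_lit 4) (nat_lit 4) (nat_lit 2) (nat_lit 4) (nat_lit 378) (nat_lit 307) (nat_lit 215))) (XT.nd (nat_lit 78) (nat_lit 0) (nat_lit 0) (XT.lf (nat_lit 0) (nat_lit 209610163474) (nat_lit 152) (nat_lit 59978885923) (nat_lit 0) (nat_lit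 187237419070) (nat_lit 2) (nat_lit 5) (nat_lit 4) (nat_lit 4) (nat_lit 2) (nat_lit 4) (nat_lit 379) (nat_lit 307) (nat_lit 214)) (XT.lf (nat_lit 0) (nat_lit 241612894146) (nat_lit 152) (nat_lit 31154105112) (nat_lit 0) (nat_lit 219238857587) (nat_lit 2) (nat_lit 5) (nat_lit 4) (nat_lit 4) (nat_lit 2) (nat_lit 4) (nat_lit 380) (nat_lit 307) (nat_lit 213)))) (XT.nd (nat_lit 156) (nat_lit 0) (nat_lit 0) (XT.nd (nat_lit 78) (nat_lit 76) (nat_lit 0) (XT.lf (nat_lit 0) (nat_lit 276173953820) (nat_lit 152) (nat_lit 27073333) (nat_lit 0) (nat_lit 253798720821) (nat_lit 2) (nat_lit 5) (nat_lit 4) (nat_lit 4) (nat_lit 2) (nat_lit 4) (nat_lit 381) (nat_lit 307) (nat_lit 212)) (XT.lf (nat_lit 0) (nat_lit 35355280204) (nat_lit 76) (nat_lit 278993163910) (nat_lit 76) (nat_lit 256616823096) (nat_lit 1) (nat_lit 4) (nat_lit 2) (nat_lit 5) (nat_lit 2) (nat_lit 4) (nat_lit 382) (nat_lit 307) (nat_lit 211)))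 (XT.nd (nat_lit 78) (nat_lit 0) (nat_lit 0) (XT.lf (nat_lit 0) (nat_lit 73566394091) (nat_lit 76) (nat_lit 282009538882) (nat_lit 76) (nat_lit 259632172313) (nat_lit 1) (nat_lit 4) (nat_lit 2) (nat_lit 5) (nat_lit 2) (nat_lit 4) (nat_lit 383) (nat_lit 307) (nat_lit 210)) (XT.lf (nat_lit 0) (nat_lit 114831278923) (nat_lit 76) (nat_lit 285268767118) (nat_lit 76) (nat_lit 262890450776) (nat_lit 1) (nat_lit 4) (nat_lit 2) (nat_lit 5) (nat_lit 2) (nat_lit 4) (nat_lit 384) (nat_lit 307) (nat_lit 209))))) (XT.nd (nat_lit 312) (nat_lit 0) (nat_lit 0) (XT.nd (nat_lit 156) (nat_lit 0) (nat_lit 0) (XT.nd (nat_lit 78) (nat_lit 0) (nat_lit 0) (XT.lf (nat_lit 0) (nat_lit 159394467351) (nat_lit 76) (nat_lit 288790162561) (nat_lit 76) (nat_lit 266410966801) (nat_lit 1) (nat_lit 4) (nat_lit 2) (nat_lit 5) (nat_lit 2) (nat_lit 4) (nat_lit 385) (nat_lit 307) (nat_lit 208)) (XT.lf (nat_lit 0) (nat_lit 207520037530)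 (nat_lit 76) (nat_lit 292594592742) (nat_lit 76) (nat_lit 270214582705) (nat_lit 1) (nat_lit 4) (nat_lit 2) (nat_lit 5) (nat_lit 2) (nat_lit 4) (nat_lit 386) (nat_lit 307) (nat_lit 207))) (XT.nd (nat_lit 78) (nat_lit 0) (nat_lit 0) (XT.lf (nat_lit 0) (nat_lit 259493178022) (nat_lit 76) (nat_lit 296704602431) (nat_lit 76) (nat_lit 274323838434) (nat_lit 1) (nat_lit 4) (nat_lit 2) (nat_lit 5) (nat_lit 2) (nat_lit 4) (nat_lit 387) (nat_lit 307) (nat_lit 206)) (XT.lf (nat_lit 0) (nat_lit 315621877809) (nat_lit 76) (nat_lit 301144547242) (nat_lit 76) (nat_lit 278763085133) (nat_lit 1) (nat_lit 4) (nat_lit 2) (nat_lit 5) (nat_lit 2) (nat_lit 4) (nat_lit 388) (nat_lit 307) (nat_lit 205)))) (XT.nd (nat_lit 156) (nat_lit 0) (nat_lit 0) (XT.nd (nat_lit 78) (nat_lit 0) (nat_lit 0) (XT.lf (nat_lit 0) (nat_lit 376238751408) (nat_lit 76) (nat_lit 305940737958) (nat_lit 76) (nat_lit 283558629449) (nat_lit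 1) (nat_lit 4) (nat_lit 2) (nat_lit 5) (nat_lit 2) (nat_lit 4) (nat_lit 389) (nat_lit 307) (nat_lit 204)) (XT.lf (nat_lit 0) (nat_lit 441703009922) (nat_lit 76) (nat_lit 311121596450) (nat_lit 76) (nat_lit 288738889424) (nat_lit 1) (nat_lit 4) (nat_lit 2) (nat_lit 5) (nat_lit 2) (nat_lit 4) (nat_lit 390) (nat_lit 307) (nat_lit 203))) (XT.nd (nat_lit 78) (nat_lit 0) (nat_lit 0) (XT.lf (nat_lit 0) (nat_lit 512402589697) (nat_lit 76) (nat_lit 316717824102) (nat_lit 76) (nat_lit 294334562892) (nat_lit 1) (nat_lit 4) (nat_lit 2) (nat_lit 5) (nat_lit 2) (nat_lit 4) (nat_lit 391) (nat_lit 307) (nat_lit 202)) (XT.lf (nat_lit 0) (nat_lit 588756451206) (nat_lit 76) (nat_lit 322762583745) (nat_lit 76) (nat_lit 300378809402) (nat_lit 1) (nat_lit 4) (nat_lit 2) (nat_lit 5) (nat_lit 2) (nat_lit 4) (nat_lit 392) (nat_lit 307) (nat_lit 201)))))) (XT.nd (nat_lit 624) (nat_lit 0) (nat_lit 0) (XT.nd (nat_lit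 312) (nat_lit 0) (nat_lit 0) (XT.nd (nat_lit 156) (nat_lit 0) (nat_lit 0) (XT.nd (nat_lit 78) (nat_lit 0) (nat_lit 0) (XT.lf (nat_lit 0) (nat_lit 671217061778) (nat_lit 76) (nat_lit 329291696176) (nat_lit 76) (nat_lit 306907446711) (nat_lit 1) (nat_lit 4) (nat_lit 2) (nat_lit 5) (nat_lit 2) (nat_lit 4) (nat_lit 393) (nat_lit 307) (nat_lit 200)) (XT.lf (nat_lit 0) (nat_lit 760273076881) (nat_lit 76) (nat_lit 336343852432) (nat_lit 76) (nat_lit 313959163038) (nat_lit 1) (nat_lit 4) (nat_lit 2) (nat_lit 5) (nat_lit 2) (nat_lit 4) (nat_lit 394) (nat_lit 307) (nat_lit 199))) (XT.nd (nat_lit 78) (nat_lit 0) (nat_lit 0) (XT.lf (nat_lit 0) (nat_lit 856452235864) (nat_lit 76) (nat_lit 343960843068) (nat_lit 76) (nat_lit 321575746334) (nat_lit 1) (nat_lit 4) (nat_lit 2) (nat_lit 5) (nat_lit 2) (nat_lit 4) (nat_lit 395) (nat_lit 307) (nat_lit 198)) (XT.lf (nat_lit 0) (nat_lit 960324489300) (nat_lit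 76) (nat_lit 352187805808) (nat_lit 76) (nat_lit 329802331905) (nat_lit 1) (nat_lit 4) (nat_lit 2) (nat_lit 5) (nat_lit 2) (nat_lit 4) (nat_lit 396) (nat_lit 307) (nat_lit 197)))) (XT.nd (nat_lit 156) (nat_lit 0) (nat_lit 0) (XT.nd (nat_lit 78) (nat_lit 0) (nat_lit 0) (XT.lf (nat_lit 0) (nat_lit 1072505376468) (nat_lit 76) (nat_lit 361073493022) (nat_lit 76) (nat_lit 338687669890) (nat_lit 1) (nat_lit 4) (nat_lit 2) (nat_lit 5) (nat_lit 2) (nat_lit 4) (nat_lit 397) (nat_lit 307) (nat_lit 196)) (XT.lf (nat_lit 0) (nat_lit 1193659672995) (nat_lit 76) (nat_lit 370670560635) (nat_lit 76) (nat_lit 348284414142) (nat_lit 1) (nat_lit 4) (nat_lit 2) (nat_lit 5) (nat_lit 2) (nat_lit 4) (nat_lit 398) (nat_lit 307) (nat_lit 195))) (XT.nd (nat_lit 78) (nat_lit 0) (nat_lit 0) (XT.lf (nat_lit 0) (nat_lit 1324505330268) (nat_lit 76) (nat_lit 381035880159) (nat_lit 76) (nat_lit 358649434258) (nat_lit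 1) (nat_lit 4) (nat_lit 2) (nat_lit 5) (nat_lit 2) (nat_lit 4) (nat_lit 399) (nat_lit 307) (nat_lit 194)) (XT.lf (nat_lit 0) (nat_lit 1465817729961) (nat_lit 76) (nat_lit 392230875709) (nat_lit 76) (nat_lit 369844152579) (nat_lit 1) (nat_lit 4) (nat_lit 2) (nat_lit 5) (nat_lit 2) (nat_lit 4) (nat_lit 400) (nat_lit 307) (nat_lit 193))))) (XT.nd (nat_lit 312) (nat_lit 0) (nat_lit 0) (XT.nd (nat_lit 156) (nat_lit 0) (nat_lit 0) (XT.nd (nat_lit 78) (nat_lit 0) (nat_lit 0) (XT.lf (nat_lit 0) (nat_lit 1618434278886) (nat_lit 76) (nat_lit 404321888000) (nat_lit 76) (nat_lit 381934908176) (nat_lit 1) (nat_lit 4) (nat_lit 2) (nat_lit 5) (nat_lit 2) (nat_lit 4) (nat_lit 401) (nat_lit 307) (nat_lit 192)) (XT.lf (nat_lit 0) (nat_lit 1783259371407) (nat_lit 76) (nat_lit 417380567475) (nat_lit 76) (nat_lit 394993349971) (nat_lit 1) (nat_lit 4) (nat_lit 2) (nat_lit 5) (nat_lit 2) (nat_lit 4) (nat_lit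 402) (nat_lit 307) (nat_lit 191))) (XT.nd (nat_lit 78) (nat_lit 0) (nat_lit 0) (XT.lf (nat_lit 0) (nat_lit 1961269748813) (nat_lit 76) (nat_lit 431484298901) (nat_lit 76) (nat_lit 409096861323) (nat_lit 1) (nat_lit 4) (nat_lit 2) (nat_lit 5) (nat_lit 2) (nat_lit 4) (nat_lit 403) (nat_lit 307) (nat_lit 190)) (XT.lf (nat_lit 0) (nat_lit 2153520287415) (nat_lit 76) (nat_lit 446716659946) (nat_lit 76) (nat_lit 424329018596) (nat_lit 1) (nat_lit 4) (nat_lit 2) (nat_lit 5) (nat_lit 2) (nat_lit 4) (nat_lit 404) (nat_lit 307) (nat_lit 189)))) (XT.nd (nat_lit 156) (nat_lit 0) (nat_lit 0) (XT.nd (nat_lit 78) (nat_lit 0) (nat_lit 0) (XT.lf (nat_lit 0) (nat_lit 2361150249663) (nat_lit 76) (nat_lit 463167916454) (nat_lit 76) (nat_lit 440780086426) (nat_lit 1) (nat_lit 4) (nat_lit 2) (nat_lit 5) (nat_lit 2) (nat_lit 4) (nat_lit 405) (nat_lit 307) (nat_lit 188)) (XT.lf (nat_lit 0) (nat_lit 2585390035334)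 (nat_lit 76) (nat_lit 480935557351) (nat_lit 76) (nat_lit 458547552621) (nat_lit 1) (nat_lit 4) (nat_lit 2) (nat_lit 5) (nat_lit 2) (nat_lit 4) (nat_lit 406) (nat_lit 307) (nat_lit 187))) (XT.nd (nat_lit 78) (nat_lit 0) (nat_lit 0) (XT.lf (nat_lit 0) (nat_lit 2827568472788) (nat_lit 76) (nat_lit 500124872361) (nat_lit 76) (nat_lit 477736705870) (nat_lit 1) (nat_lit 4) (nat_lit 2) (nat_lit 5) (nat_lit 2) (nat_lit 4) (nat_lit 407) (nat_lit 307) (nat_lit 186)) (XT.lf (nat_lit 0) (nat_lit 3089120693506) (nat_lit 76) (nat_lit 520849575944) (nat_lit 76) (nat_lit 498461259675) (nat_lit 1) (nat_lit 4) (nat_lit 2) (nat_lit 5) (nat_lit 2) (nat_lit 4) (nat_lit 408) (nat_lit 307) (nat_lit 185)))))))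
noncomputable def xc121 : XT := (XT.nd (nat_lit 40170) (nat_lit 0) (nat_lit 1216) (XT.nd (nat_lit 39546) (nat_lit 0) (nat_lit 2736) (XT.nd (nat_lit 39234) (nat_lit 0) (nat_lit 3952) (XT.nd (nat_lit 39078) (nat_lit 0) (nat_lit 4332) (XT.nd (nat_lit 39000) (nat_lit 0) (nat_lit 4332) (XT.lf (nat_lit 0) (nat_lit 3371596636572) (nat_lit 76) (nat_lit 543232481158) (nat_lit 76) (nat_lit 520844026205) (nat_lit 1) (nat_lit 4) (nat_lit 2) (nat_lit 5) (nat_lit 2) (nat_lit 4) (nat_lit 409) (nat_lit 307) (nat_lit 184)) (XT.lf (nat_lit 0) (nat_lit 1081634675) (nat_lit 0) (nat_lit 1081634675) (nat_lit 380) (nat_lit 1988279900) (nat_lit 58) (nat_lit 5) (nat_lit 58) (nat_lit 3) (nat_lit 63) (nat_lit 3) (nat_lit 308) (nat_lit 308) (nat_lit 284))) (XT.nd (nat_lit 78) (nat_lit 0) (nat_lit 0) (XT.lf (nat_lit 0) (nat_lit 5550249494) (nat_lit 380) (nat_lit 2225623415) (nat_lit 456) (nat_lit 772827352) (nat_lit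 58) (nat_lit 5) (nat_lit 63) (nat_lit 3) (nat_lit 64) (nat_lit 5) (nat_lit 309) (nat_lit 308) (nat_lit 283)) (XT.lf (nat_lit 76) (nat_lit 1983429905) (nat_lit 0) (nat_lit 4890400074) (nat_lit 456) (nat_lit 1940209496) (nat_lit 59) (nat_lit 5) (nat_lit 58) (nat_lit 5) (nat_lit 64) (nat_lit 5) (nat_lit 310) (nat_lit 308) (nat_lit 282)))) (XT.nd (nat_lit 156) (nat_lit 0) (nat_lit 0) (XT.nd (nat_lit 78) (nat_lit 380) (nat_lit 0) (XT.lf (nat_lit 76) (nat_lit 6596013799) (nat_lit 0) (nat_lit 1672330128) (nat_lit 456) (nat_lit 835286977) (nat_lit 59) (nat_lit 5) (nat_lit 58) (nat_lit 5) (nat_lit 64) (nat_lit 5) (nat_lit 311) (nat_lit 308) (nat_lit 281)) (XT.lf (nat_lit 0) (nat_lit 347582489) (nat_lit 456) (nat_lit 7262225232) (nat_lit 532) (nat_lit 1805492207) (nat_lit 53) (nat_lit 5) (nat_lit 59) (nat_lit 5) (nat_lit 60) (nat_lit 5) (nat_lit 312) (nat_lit 308) (nat_lit 280))) (XT.nd (nat_lit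 78) (nat_lit 0) (nat_lit 0) (XT.lf (nat_lit 0) (nat_lit 1608513830) (nat_lit 456) (nat_lit 2550612682) (nat_lit 532) (nat_lit 5588937198) (nat_lit 53) (nat_lit 5) (nat_lit 59) (nat_lit 5) (nat_lit 60) (nat_lit 5) (nat_lit 313) (nat_lit 308) (nat_lit 279)) (XT.lf (nat_lit 76) (nat_lit 2606741887) (nat_lit 0) (nat_lit 347361494) (nat_lit 532) (nat_lit 7154810719) (nat_lit 54) (nat_lit 5) (nat_lit 53) (nat_lit 5) (nat_lit 60) (nat_lit 5) (nat_lit 314) (nat_lit 308) (nat_lit 278))))) (XT.nd (nat_lit 312) (nat_lit 532) (nat_lit 0) (XT.nd (nat_lit 156) (nat_lit 304) (nat_lit 0) (XT.nd (nat_lit 78) (nat_lit 456) (nat_lit 0) (XT.lf (nat_lit 0) (nat_lit 4495383721) (nat_lit 456) (nat_lit 2330269402) (nat_lit 76) (nat_lit 3666091650) (nat_lit 54) (nat_lit 5) (nat_lit 60) (nat_lit 5) (nat_lit 55) (nat_lit 5) (nat_lit 315) (nat_lit 308) (nat_lit 277)) (XT.lf (nat_lit 0) (nat_lit 3352502186) (nat_lit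 456) (nat_lit 2828448824) (nat_lit 532) (nat_lit 4722716333) (nat_lit 48) (nat_lit 5) (nat_lit 54) (nat_lit 5) (nat_lit 55) (nat_lit 5) (nat_lit 316) (nat_lit 308) (nat_lit 276))) (XT.nd (nat_lit 78) (nat_lit 304) (nat_lit 0) (XT.lf (nat_lit 0) (nat_lit 8037629631) (nat_lit 532) (nat_lit 1823944835) (nat_lit 76) (nat_lit 1484201501) (nat_lit 48) (nat_lit 5) (nat_lit 55) (nat_lit 5) (nat_lit 49) (nat_lit 5) (nat_lit 317) (nat_lit 308) (nat_lit 275)) (XT.lf (nat_lit 0) (nat_lit 4449977948) (nat_lit 304) (nat_lit 5713258545) (nat_lit 380) (nat_lit 1650508906) (nat_lit 44) (nat_lit 5) (nat_lit 48) (nat_lit 5) (nat_lit 49) (nat_lit 5) (nat_lit 318) (nat_lit 308) (nat_lit 274)))) (XT.nd (nat_lit 156) (nat_lit 228) (nat_lit 0) (XT.nd (nat_lit 78) (nat_lit 228) (nat_lit 0) (XT.lf (nat_lit 0) (nat_lit 125259684) (nat_lit 380) (nat_lit 1052549914) (nat_lit 76) (nat_lit 11141779082) (nat_lit 43)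 (nat_lit 5) (nat_lit 48) (nat_lit 5) (nat_lit 44) (nat_lit 5) (nat_lit 319) (nat_lit 308) (nat_lit 273)) (XT.lf (nat_lit 0) (nat_lit 2137211674) (nat_lit 304) (nat_lit 6988439645) (nat_lit 76) (nat_lit 3722253239) (nat_lit 40) (nat_lit 5) (nat_lit 44) (nat_lit 5) (nat_lit 41) (nat_lit 5) (nat_lit 320) (nat_lit 308) (nat_lit 272))) (XT.nd (nat_lit 78) (nat_lit 228) (nat_lit 0) (XT.lf (nat_lit 0) (nat_lit 4318489982) (nat_lit 304) (nat_lit 123537423) (nat_lit 76) (nat_lit 8975879562) (nat_lit 40) (nat_lit 5) (nat_lit 44) (nat_lit 5) (nat_lit 41) (nat_lit 5) (nat_lit 321) (nat_lit 308) (nat_lit 271)) (XT.lf (nat_lit 0) (nat_lit 6828900896) (nat_lit 304) (nat_lit 6426485320) (nat_lit 76) (nat_lit 765837069) (nat_lit 37) (nat_lit 5) (nat_lit 41) (nat_lit 5) (nat_lit 38) (nat_lit 5) (nat_lit 322) (nat_lit 308) (nat_lit 270)))))) (XT.nd (nat_lit 624) (nat_lit 760) (nat_lit 0) (XT.nd (nat_lit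 312) (nat_lit 304) (nat_lit 0) (XT.nd (nat_lit 156) (nat_lit 304) (nat_lit 0) (XT.nd (nat_lit 78) (nat_lit 0) (nat_lit 0) (XT.lf (nat_lit 0) (nat_lit 1149026118) (nat_lit 152) (nat_lit 8491709844) (nat_lit 228) (nat_lit 5024099554) (nat_lit 35) (nat_lit 5) (nat_lit 37) (nat_lit 5) (nat_lit 38) (nat_lit 5) (nat_lit 323) (nat_lit 308) (nat_lit 269)) (XT.lf (nat_lit 0) (nat_lit 9639571446) (nat_lit 152) (nat_lit 3169812679) (nat_lit 228) (nat_lit 2540075434) (nat_lit 35) (nat_lit 5) (nat_lit 37) (nat_lit 5) (nat_lit 38) (nat_lit 5) (nat_lit 324) (nat_lit 308) (nat_lit 268))) (XT.nd (nat_lit 78) (nat_lit 0) (nat_lit 0) (XT.lf (nat_lit 0) (nat_lit 224751730) (nat_lit 304) (nat_lit 13347395958) (nat_lit 76) (nat_lit 2509355742) (nat_lit 31) (nat_lit 5) (nat_lit 35) (nat_lit 5) (nat_lit 32) (nat_lit 5) (nat_lit 325) (nat_lit 308) (nat_lit 267)) (XT.lf (nat_lit 0) (nat_lit 3275817726) (nat_lit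 304) (nat_lit 4889746295) (nat_lit 76) (nat_lit 8685143361) (nat_lit 31) (nat_lit 5) (nat_lit 35) (nat_lit 5) (nat_lit 32) (nat_lit 5) (nat_lit 326) (nat_lit 308) (nat_lit 266)))) (XT.nd (nat_lit 156) (nat_lit 152) (nat_lit 0) (XT.nd (nat_lit 78) (nat_lit 0) (nat_lit 0) (XT.lf (nat_lit 0) (nat_lit 4413334250) (nat_lit 152) (nat_lit 2226531493) (nat_lit 228) (nat_lit 11036123189) (nat_lit 29) (nat_lit 5) (nat_lit 31) (nat_lit 5) (nat_lit 32) (nat_lit 5) (nat_lit 327) (nat_lit 308) (nat_lit 265)) (XT.lf (nat_lit 0) (nat_lit 10474854667) (nat_lit 228) (nat_lit 3975221843) (nat_lit 76) (nat_lit 4101120229) (nat_lit 29) (nat_lit 5) (nat_lit 32) (nat_lit 5) (nat_lit 30) (nat_lit 5) (nat_lit 328) (nat_lit 308) (nat_lit 264))) (XT.nd (nat_lit 78) (nat_lit 0) (nat_lit 0) (XT.lf (nat_lit 0) (nat_lit 6261346356) (nat_lit 152) (nat_lit 8530322851) (nat_lit 228) (nat_lit 4690795303) (nat_lit 27) (nat_lit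 5) (nat_lit 29) (nat_lit 5) (nat_lit 30) (nat_lit 5) (nat_lit 329) (nat_lit 308) (nat_lit 263)) (XT.lf (nat_lit 0) (nat_lit 17494915932) (nat_lit 152) (nat_lit 2035530619) (nat_lit 228) (nat_lit 951699832) (nat_lit 27) (nat_lit 5) (nat_lit 29) (nat_lit 5) (nat_lit 30) (nat_lit 5) (nat_lit 330) (nat_lit 308) (nat_lit 262))))) (XT.nd (nat_lit 312) (nat_lit 380) (nat_lit 0) (XT.nd (nat_lit 156) (nat_lit 152) (nat_lit 0) (XT.nd (nat_lit 78) (nat_lit 0) (nat_lit 0) (XT.lf (nat_lit 0) (nat_lit 3229277940) (nat_lit 228) (nat_lit 13305344447) (nat_lit 76) (nat_lit 4997505625) (nat_lit 24) (nat_lit 5) (nat_lit 27) (nat_lit 5) (nat_lit 25) (nat_lit 5) (nat_lit 331) (nat_lit 308) (nat_lit 261)) (XT.lf (nat_lit 0) (nat_lit 7800285644) (nat_lit 228) (nat_lit 2278403922) (nat_lit 76) (nat_lit 12576917005) (nat_lit 24) (nat_lit 5) (nat_lit 27) (nat_lit 5) (nat_lit 25) (nat_lit 5) (nat_lit 332) (nat_lit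 308) (nat_lit 260))) (XT.nd (nat_lit 78) (nat_lit 0) (nat_lit 0) (XT.lf (nat_lit 0) (nat_lit 10092091806) (nat_lit 152) (nat_lit 2860096893) (nat_lit 228) (nat_lit 10899588474) (nat_lit 22) (nat_lit 5) (nat_lit 24) (nat_lit 5) (nat_lit 25) (nat_lit 5) (nat_lit 333) (nat_lit 308) (nat_lit 259)) (XT.lf (nat_lit 0) (nat_lit 18672004900) (nat_lit 228) (nat_lit 1721297342) (nat_lit 76) (nat_lit 4737906957) (nat_lit 22) (nat_lit 5) (nat_lit 25) (nat_lit 5) (nat_lit 23) (nat_lit 4) (nat_lit 334) (nat_lit 308) (nat_lit 258)))) (XT.nd (nat_lit 156) (nat_lit 228) (nat_lit 0) (XT.nd (nat_lit 78) (nat_lit 76) (nat_lit 0) (XT.lf (nat_lit 0) (nat_lit 11752958695) (nat_lit 76) (nat_lit 13428521464) (nat_lit 152) (nat_lit 1304976252) (nat_lit 21) (nat_lit 5) (nat_lit 22) (nat_lit 5) (nat_lit 23) (nat_lit 4) (nat_lit 335) (nat_lit 308) (nat_lit 257)) (XT.lf (nat_lit 0) (nat_lit 4072058983) (nat_lit 152)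 (nat_lit 1688156482) (nat_lit 76) (nat_lit 22179839295) (nat_lit 20) (nat_lit 5) (nat_lit 22) (nat_lit 5) (nat_lit 21) (nat_lit 5) (nat_lit 336) (nat_lit 308) (nat_lit 256))) (XT.nd (nat_lit 78) (nat_lit 76) (nat_lit 0) (XT.lf (nat_lit 0) (nat_lit 10167330332) (nat_lit 228) (nat_lit 16575322515) (nat_lit 76) (nat_lit 2735911473) (nat_lit 18) (nat_lit 5) (nat_lit 21) (nat_lit 5) (nat_lit 19) (nat_lit 4) (nat_lit 337) (nat_lit 308) (nat_lit 255)) (XT.nd (nat_lit 78) (nat_lit 76) (nat_lit 0) (XT.lf (nat_lit 0) (nat_lit 16924819004) (nat_lit 228) (nat_lit 2567855621) (nat_lit 76) (nat_lit 11633531869) (nat_lit 18) (nat_lit 5) (nat_lit 21) (nat_lit 5) (nat_lit 19) (nat_lit 4) (nat_lit 338) (nat_lit 308) (nat_lit 254)) (XT.lf (nat_lit 0) (nat_lit 13184044999) (nat_lit 76) (nat_lit 11335219434) (nat_lit 152) (nat_lit 8362705048) (nat_lit 17) (nat_lit 5) (nat_lit 18) (nat_lit 5) (nat_lit 19)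 (nat_lit 4) (nat_lit 339) (nat_lit 308) (nat_lit 253))))))))
noncomputable def xc122 : XT := (XT.nd (nat_lit 1248) (nat_lit 456) (nat_lit 0) (XT.nd (nat_lit 624) (nat_lit 304) (nat_lit 0) (XT.nd (nat_lit 312) (nat_lit 152) (nat_lit 0) (XT.nd (nat_lit 156) (nat_lit 76) (nat_lit 0) (XT.nd (nat_lit 78) (nat_lit 152) (nat_lit 0) (XT.lf (nat_lit 0) (nat_lit 30307354309) (nat_lit 76) (nat_lit 2464100263) (nat_lit 152) (nat_lit 2002740525) (nat_lit 17) (nat_lit 5) (nat_lit 18) (nat_lit 5) (nat_lit 19) (nat_lit 4) (nat_lit 340) (nat_lit 308) (nat_lit 252)) (XT.lf (nat_lit 0) (nat_lit 5084761943) (nat_lit 152) (nat_lit 24512085998) (nat_lit 76) (nat_lit 7174630207) (nat_lit 15) (nat_lit 5) (nat_lit 17) (nat_lit 5) (nat_lit 16) (nat_lit 4) (nat_lit 341) (nat_lit 308) (nat_lit 251))) (XT.nd (nat_lit 78) (nat_lit 76) (nat_lit 0) (XT.lf (nat_lit 0) (nat_lit 12801632023) (nat_lit 152) (nat_lit 8493738777)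 (nat_lit 76) (nat_lit 17615379380) (nat_lit 15) (nat_lit 5) (nat_lit 17) (nat_lit 5) (nat_lit 16) (nat_lit 4) (nat_lit 342) (nat_lit 308) (nat_lit 250)) (XT.lf (nat_lit 0) (nat_lit 9237109127) (nat_lit 76) (nat_lit 12103544568) (nat_lit 152) (nat_lit 19864138408) (nat_lit 14) (nat_lit 5) (nat_lit 15) (nat_lit 5) (nat_lit 16) (nat_lit 4) (nat_lit 343) (nat_lit 308) (nat_lit 249)))) (XT.nd (nat_lit 156) (nat_lit 76) (nat_lit 0) (XT.nd (nat_lit 78) (nat_lit 76) (nat_lit 0) (XT.lf (nat_lit 0) (nat_lit 28839212556) (nat_lit 76) (nat_lit 1939025218) (nat_lit 152) (nat_lit 12886895728) (nat_lit 14) (nat_lit 5) (nat_lit 15) (nat_lit 5) (nat_lit 16) (nat_lit 4) (nat_lit 344) (nat_lit 308) (nat_lit 248)) (XT.lf (nat_lit 0) (nat_lit 3622018190) (nat_lit 76) (nat_lit 37637450785) (nat_lit 76) (nat_lit 5039752540) (nat_lit 13) (nat_lit 4) (nat_lit 14) (nat_lit 5) (nat_lit 14) (nat_lit 4) (nat_lit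 345) (nat_lit 308) (nat_lit 247))) (XT.nd (nat_lit 78) (nat_lit 0) (nat_lit 0) (XT.lf (nat_lit 0) (nat_lit 3713819317) (nat_lit 152) (nat_lit 24895238091) (nat_lit 76) (nat_lit 20492339098) (nat_lit 12) (nat_lit 5) (nat_lit 14) (nat_lit 5) (nat_lit 13) (nat_lit 4) (nat_lit 346) (nat_lit 308) (nat_lit 246)) (XT.lf (nat_lit 0) (nat_lit 12880804643) (nat_lit 152) (nat_lit 5848541973) (nat_lit 76) (nat_lit 33389102610) (nat_lit 12) (nat_lit 5) (nat_lit 14) (nat_lit 5) (nat_lit 13) (nat_lit 4) (nat_lit 347) (nat_lit 308) (nat_lit 245))))) (XT.nd (nat_lit 312) (nat_lit 152) (nat_lit 0) (XT.nd (nat_lit 156) (nat_lit 76) (nat_lit 0) (XT.nd (nat_lit 78) (nat_lit 0) (nat_lit 0) (XT.lf (nat_lit 0) (nat_lit 15470876404) (nat_lit 76) (nat_lit 7668833689) (nat_lit 152) (nat_lit 32208478906) (nat_lit 11) (nat_lit 5) (nat_lit 12) (nat_lit 5) (nat_lit 13) (nat_lit 4) (nat_lit 348) (nat_lit 308) (nat_lit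 244)) (XT.lf (nat_lit 0) (nat_lit 34472874993) (nat_lit 152) (nat_lit 20127142832) (nat_lit 0) (nat_lit 4216013539) (nat_lit 11) (nat_lit 5) (nat_lit 13) (nat_lit 4) (nat_lit 11) (nat_lit 4) (nat_lit 349) (nat_lit 308) (nat_lit 243))) (XT.nd (nat_lit 78) (nat_lit 0) (nat_lit 0) (XT.lf (nat_lit 0) (nat_lit 1032262277) (nat_lit 76) (nat_lit 45892070929) (nat_lit 76) (nat_lit 15620043340) (nat_lit 10) (nat_lit 4) (nat_lit 11) (nat_lit 5) (nat_lit 11) (nat_lit 4) (nat_lit 350) (nat_lit 308) (nat_lit 242)) (XT.lf (nat_lit 0) (nat_lit 25006430547) (nat_lit 76) (nat_lit 35903785312) (nat_lit 76) (nat_lit 5617715006) (nat_lit 10) (nat_lit 4) (nat_lit 11) (nat_lit 5) (nat_lit 11) (nat_lit 4) (nat_lit 351) (nat_lit 308) (nat_lit 241)))) (XT.nd (nat_lit 156) (nat_lit 0) (nat_lit 0) (XT.nd (nat_lit 78) (nat_lit 76) (nat_lit 0) (XT.lf (nat_lit 0) (nat_lit 4914026029) (nat_lit 152) (nat_lit 20077898680)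 (nat_lit 76) (nat_lit 45829187239) (nat_lit 9) (nat_lit 5) (nat_lit 11) (nat_lit 5) (nat_lit 10) (nat_lit 4) (nat_lit 352) (nat_lit 308) (nat_lit 240)) (XT.lf (nat_lit 0) (nat_lit 3068821994) (nat_lit 76) (nat_lit 12979223285) (nat_lit 152) (nat_lit 59392974626) (nat_lit 8) (nat_lit 5) (nat_lit 9) (nat_lit 5) (nat_lit 10) (nat_lit 4) (nat_lit 353) (nat_lit 308) (nat_lit 239))) (XT.nd (nat_lit 78) (nat_lit 0) (nat_lit 0) (XT.lf (nat_lit 0) (nat_lit 28625406833) (nat_lit 152) (nat_lit 51211668123) (nat_lit 0) (nat_lit 549240399) (nat_lit 8) (nat_lit 5) (nat_lit 10) (nat_lit 4) (nat_lit 8) (nat_lit 4) (nat_lit 354) (nat_lit 308) (nat_lit 238)) (XT.lf (nat_lit 0) (nat_lit 42536384629) (nat_lit 152) (nat_lit 28713998852) (nat_lit 0) (nat_lit 14450660957) (nat_lit 8) (nat_lit 5) (nat_lit 10) (nat_lit 4) (nat_lit 8) (nat_lit 4) (nat_lit 355) (nat_lit 308) (nat_lit 237)))))) (XT.nd (nat_lit 624)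 (nat_lit 228) (nat_lit 0) (XT.nd (nat_lit 312) (nat_lit 76) (nat_lit 0) (XT.nd (nat_lit 156) (nat_lit 76) (nat_lit 0) (XT.nd (nat_lit 78) (nat_lit 76) (nat_lit 0) (XT.lf (nat_lit 0) (nat_lit 57551263458) (nat_lit 152) (nat_lit 4433719945) (nat_lit 0) (nat_lit 29456690493) (nat_lit 8) (nat_lit 5) (nat_lit 10) (nat_lit 4) (nat_lit 8) (nat_lit 4) (nat_lit 356) (nat_lit 308) (nat_lit 236)) (XT.lf (nat_lit 0) (nat_lit 22919582050) (nat_lit 76) (nat_lit 51390654830) (nat_lit 76) (nat_lit 23287888074) (nat_lit 7) (nat_lit 4) (nat_lit 8) (nat_lit 5) (nat_lit 8) (nat_lit 4) (nat_lit 357) (nat_lit 308) (nat_lit 235))) (XT.nd (nat_lit 78) (nat_lit 76) (nat_lit 0) (XT.lf (nat_lit 0) (nat_lit 52697771526) (nat_lit 76) (nat_lit 39825312512) (nat_lit 76) (nat_lit 11714958913) (nat_lit 7) (nat_lit 4) (nat_lit 8) (nat_lit 5) (nat_lit 8) (nat_lit 4) (nat_lit 358) (nat_lit 308) (nat_lit 234)) (XT.lf (nat_lit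 0) (nat_lit 736926369) (nat_lit 152) (nat_lit 26584571604) (nat_lit 76) (nat_lit 84086764747) (nat_lit 6) (nat_lit 5) (nat_lit 8) (nat_lit 5) (nat_lit 7) (nat_lit 4) (nat_lit 359) (nat_lit 308) (nat_lit 233)))) (XT.nd (nat_lit 156) (nat_lit 0) (nat_lit 0) (XT.nd (nat_lit 78) (nat_lit 0) (nat_lit 0) (XT.lf (nat_lit 0) (nat_lit 52224188) (nat_lit 76) (nat_lit 13493981165) (nat_lit 152) (nat_lit 105582022188) (nat_lit 5) (nat_lit 5) (nat_lit 6) (nat_lit 5) (nat_lit 7) (nat_lit 4) (nat_lit 360) (nat_lit 308) (nat_lit 232)) (XT.lf (nat_lit 0) (nat_lit 28153550472) (nat_lit 152) (nat_lit 97143034055) (nat_lit 0) (nat_lit 2107341557) (nat_lit 5) (nat_lit 5) (nat_lit 7) (nat_lit 4) (nat_lit 5) (nat_lit 4) (nat_lit 361) (nat_lit 308) (nat_lit 231))) (XT.nd (nat_lit 78) (nat_lit 0) (nat_lit 0) (XT.lf (nat_lit 0) (nat_lit 44273447592) (nat_lit 152) (nat_lit 73818642826) (nat_lit 0) (nat_lit 18222075199)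 (nat_lit 5) (nat_lit 5) (nat_lit 7) (nat_lit 4) (nat_lit 5) (nat_lit 4) (nat_lit 362) (nat_lit 308) (nat_lit 230)) (XT.lf (nat_lit 0) (nat_lit 61676891459) (nat_lit 152) (nat_lit 48640080483) (nat_lit 0) (nat_lit 35620738067) (nat_lit 5) (nat_lit 5) (nat_lit 7) (nat_lit 4) (nat_lit 5) (nat_lit 4) (nat_lit 363) (nat_lit 308) (nat_lit 229))))) (XT.nd (nat_lit 312) (nat_lit 152) (nat_lit 0) (XT.nd (nat_lit 156) (nat_lit 0) (nat_lit 0) (XT.nd (nat_lit 78) (nat_lit 76) (nat_lit 0) (XT.lf (nat_lit 0) (nat_lit 80467013590) (nat_lit 152) (nat_lit 21458140730) (nat_lit 0) (nat_lit 54406433348) (nat_lit 5) (nat_lit 5) (nat_lit 7) (nat_lit 4) (nat_lit 5) (nat_lit 4) (nat_lit 364) (nat_lit 308) (nat_lit 228)) (XT.lf (nat_lit 0) (nat_lit 8303636102) (nat_lit 76) (nat_lit 92651229404) (nat_lit 76) (nat_lit 66586550227) (nat_lit 4) (nat_lit 4) (nat_lit 5) (nat_lit 5) (nat_lit 5) (nat_lit 4) (nat_lit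 365) (nat_lit 308) (nat_lit 227))) (XT.nd (nat_lit 78) (nat_lit 0) (nat_lit 0) (XT.lf (nat_lit 0) (nat_lit 41656854636) (nat_lit 76) (nat_lit 82006559053) (nat_lit 76) (nat_lit 55938084566) (nat_lit 4) (nat_lit 4) (nat_lit 5) (nat_lit 5) (nat_lit 5) (nat_lit 4) (nat_lit 366) (nat_lit 308) (nat_lit 226)) (XT.lf (nat_lit 0) (nat_lit 77669215911) (nat_lit 76) (nat_lit 70514767335) (nat_lit 76) (nat_lit 44442778671) (nat_lit 4) (nat_lit 4) (nat_lit 5) (nat_lit 5) (nat_lit 5) (nat_lit 4) (nat_lit 367) (nat_lit 308) (nat_lit 225)))) (XT.nd (nat_lit 156) (nat_lit 152) (nat_lit 0) (XT.nd (nat_lit 78) (nat_lit 0) (nat_lit 0) (XT.lf (nat_lit 0) (nat_lit 116554126510) (nat_lit 76) (nat_lit 58107754742) (nat_lit 76) (nat_lit 32032512211) (nat_lit 4) (nat_lit 4) (nat_lit 5) (nat_lit 5) (nat_lit 5) (nat_lit 4) (nat_lit 368) (nat_lit 308) (nat_lit 224)) (XT.lf (nat_lit 0) (nat_lit 158542015535) (nat_lit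 76) (nat_lit 44711998237) (nat_lit 76) (nat_lit 18633742867) (nat_lit 4) (nat_lit 4) (nat_lit 5) (nat_lit 5) (nat_lit 5) (nat_lit 4) (nat_lit 369) (nat_lit 308) (nat_lit 223))) (XT.nd (nat_lit 78) (nat_lit 152) (nat_lit 0) (XT.lf (nat_lit 0) (nat_lit 203881700105) (nat_lit 76) (nat_lit 30248115560) (nat_lit 76) (nat_lit 4167070523) (nat_lit 4) (nat_lit 4) (nat_lit 5) (nat_lit 5) (nat_lit 5) (nat_lit 4) (nat_lit 370) (nat_lit 308) (nat_lit 222)) (XT.nd (nat_lit 78) (nat_lit 76) (nat_lit 0) (XT.lf (nat_lit 0) (nat_lit 10880296135) (nat_lit 152) (nat_lit 3452612099) (nat_lit 76) (nat_lit 241664077120) (nat_lit 3) (nat_lit 5) (nat_lit 5) (nat_lit 5) (nat_lit 4) (nat_lit 4) (nat_lit 371) (nat_lit 308) (nat_lit 221)) (XT.lf (nat_lit 0) (nat_lit 27750382340) (nat_lit 152) (nat_lit 243689867065) (nat_lit 0) (nat_lit 3596660349) (nat_lit 2) (nat_lit 5) (nat_lit 4) (nat_lit 4) (nat_lit 2) (nat_lit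 4) (nat_lit 372) (nat_lit 308) (nat_lit 220))))))))
noncomputable def xc123 : XT := (XT.nd (nat_lit 1248) (nat_lit 0) (nat_lit 0) (XT.nd (nat_lit 624) (nat_lit 76) (nat_lit 0) (XT.nd (nat_lit 312) (nat_lit 0) (nat_lit 0) (XT.nd (nat_lit 156) (nat_lit 0) (nat_lit 0) (XT.nd (nat_lit 78) (nat_lit 0) (nat_lit 0) (XT.lf (nat_lit 0) (nat_lit 46435973078) (nat_lit 152) (nat_lit 226846583515) (nat_lit 0) (nat_lit 22280200599) (nat_lit 2) (nat_lit 5) (nat_lit 4) (nat_lit 4) (nat_lit 2) (nat_lit 4) (nat_lit 373) (nat_lit 308) (nat_lit 219)) (XT.lf (nat_lit 0) (nat_lit 66613412753) (nat_lit 152) (nat_lit 208661758696) (nat_lit 0) (nat_lit 42455741673) (nat_lit 2) (nat_lit 5) (nat_lit 4) (nat_lit 4) (nat_lit 2) (nat_lit 4) (nat_lit 374) (nat_lit 308) (nat_lit 218))) (XT.nd (nat_lit 78) (nat_lit 0) (nat_lit 0) (XT.lf (nat_lit 0) (nat_lit 88402271376) (nat_lit 152) (nat_lit 189027630684) (nat_lit 0)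 (nat_lit 64242842334) (nat_lit 2) (nat_lit 5) (nat_lit 4) (nat_lit 4) (nat_lit 2) (nat_lit 4) (nat_lit 375) (nat_lit 308) (nat_lit 217)) (XT.lf (nat_lit 0) (nat_lit 111931668111) (nat_lit 152) (nat_lit 167827849091) (nat_lit 0) (nat_lit 87770611325) (nat_lit 2) (nat_lit 5) (nat_lit 4) (nat_lit 4) (nat_lit 2) (nat_lit 4) (nat_lit 376) (nat_lit 308) (nat_lit 216)))) (XT.nd (nat_lit 156) (nat_lit 0) (nat_lit 0) (XT.nd (nat_lit 78) (nat_lit 0) (nat_lit 0) (XT.lf (nat_lit 0) (nat_lit 137341036418) (nat_lit 152) (nat_lit 144936785582) (nat_lit 0) (nat_lit 113178472462) (nat_lit 2) (nat_lit 5) (nat_lit 4) (nat_lit 4) (nat_lit 2) (nat_lit 4) (nat_lit 377) (nat_lit 308) (nat_lit 215)) (XT.lf (nat_lit 0) (nat_lit 164780950334) (nat_lit 152) (nat_lit 120218789409) (nat_lit 0) (nat_lit 140616990850) (nat_lit 2) (nat_lit 5) (nat_lit 4) (nat_lit 4) (nat_lit 2) (nat_lit 4) (nat_lit 378) (nat_lit 308)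 (nat_lit 214))) (XT.nd (nat_lit 78) (nat_lit 0) (nat_lit 0) (XT.lf (nat_lit 0) (nat_lit 194414016754) (nat_lit 152) (nat_lit 93527383558) (nat_lit 0) (nat_lit 170248765115) (nat_lit 2) (nat_lit 5) (nat_lit 4) (nat_lit 4) (nat_lit 2) (nat_lit 4) (nat_lit 379) (nat_lit 308) (nat_lit 213)) (XT.lf (nat_lit 0) (nat_lit 226415839036) (nat_lit 152) (nat_lit 64704396736) (nat_lit 0) (nat_lit 202249390957) (nat_lit 2) (nat_lit 5) (nat_lit 4) (nat_lit 4) (nat_lit 2) (nat_lit 4) (nat_lit 380) (nat_lit 308) (nat_lit 212))))) (XT.nd (nat_lit 312) (nat_lit 0) (nat_lit 0) (XT.nd (nat_lit 156) (nat_lit 0) (nat_lit 0) (XT.nd (nat_lit 78) (nat_lit 76) (nat_lit 0) (XT.lf (nat_lit 0) (nat_lit 260976057608) (nat_lit 152) (nat_lit 33579026057) (nat_lit 0) (nat_lit 236808501714) (nat_lit 2) (nat_lit 5) (nat_lit 4) (nat_lit 4) (nat_lit 2) (nat_lit 4) (nat_lit 381) (nat_lit 308) (nat_lit 211)) (XT.lf (nat_lit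 0) (nat_lit 34922061) (nat_lit 76) (nat_lit 298265391580) (nat_lit 76) (nat_lit 274096809931) (nat_lit 1) (nat_lit 4) (nat_lit 2) (nat_lit 5) (nat_lit 2) (nat_lit 4) (nat_lit 382) (nat_lit 308) (nat_lit 210))) (XT.nd (nat_lit 78) (nat_lit 0) (nat_lit 0) (XT.lf (nat_lit 0) (nat_lit 38244536829) (nat_lit 76) (nat_lit 301282508507) (nat_lit 76) (nat_lit 277112977085) (nat_lit 1) (nat_lit 4) (nat_lit 2) (nat_lit 5) (nat_lit 2) (nat_lit 4) (nat_lit 383) (nat_lit 308) (nat_lit 209)) (XT.lf (nat_lit 0) (nat_lit 79508033589) (nat_lit 76) (nat_lit 304542423737) (nat_lit 76) (nat_lit 280372012896) (nat_lit 1) (nat_lit 4) (nat_lit 2) (nat_lit 5) (nat_lit 2) (nat_lit 4) (nat_lit 384) (nat_lit 308) (nat_lit 208)))) (XT.nd (nat_lit 156) (nat_lit 0) (nat_lit 0) (XT.nd (nat_lit 78) (nat_lit 0) (nat_lit 0) (XT.lf (nat_lit 0) (nat_lit 124069936765) (nat_lit 76) (nat_lit 308064455287) (nat_lit 76) (nat_lit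 283893230170) (nat_lit 1) (nat_lit 4) (nat_lit 2) (nat_lit 5) (nat_lit 2) (nat_lit 4) (nat_lit 385) (nat_lit 308) (nat_lit 207)) (XT.lf (nat_lit 0) (nat_lit 172194316896) (nat_lit 76) (nat_lit 311869474456) (nat_lit 76) (nat_lit 287697495378) (nat_lit 1) (nat_lit 4) (nat_lit 2) (nat_lit 5) (nat_lit 2) (nat_lit 4) (nat_lit 386) (nat_lit 308) (nat_lit 206))) (XT.nd (nat_lit 78) (nat_lit 0) (nat_lit 0) (XT.lf (nat_lit 0) (nat_lit 224166355491) (nat_lit 76) (nat_lit 315980029504) (nat_lit 76) (nat_lit 291807352314) (nat_lit 1) (nat_lit 4) (nat_lit 2) (nat_lit 5) (nat_lit 2) (nat_lit 4) (nat_lit 387) (nat_lit 308) (nat_lit 205)) (XT.lf (nat_lit 0) (nat_lit 280294035004) (nat_lit 76) (nat_lit 320420479276) (nat_lit 76) (nat_lit 296247155687) (nat_lit 1) (nat_lit 4) (nat_lit 2) (nat_lit 5) (nat_lit 2) (nat_lit 4) (nat_lit 388) (nat_lit 308) (nat_lit 204)))))) (XT.nd (nat_lit 624) (nat_lit 0)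 (nat_lit 0) (XT.nd (nat_lit 312) (nat_lit 0) (nat_lit 0) (XT.nd (nat_lit 156) (nat_lit 0) (nat_lit 0) (XT.nd (nat_lit 78) (nat_lit 0) (nat_lit 0) (XT.lf (nat_lit 0) (nat_lit 340909963904) (nat_lit 76) (nat_lit 325217137549) (nat_lit 76) (nat_lit 301043215442) (nat_lit 1) (nat_lit 4) (nat_lit 2) (nat_lit 5) (nat_lit 2) (nat_lit 4) (nat_lit 389) (nat_lit 308) (nat_lit 203)) (XT.lf (nat_lit 0) (nat_lit 406373347697) (nat_lit 76) (nat_lit 330398428964) (nat_lit 76) (nat_lit 306223952675) (nat_lit 1) (nat_lit 4) (nat_lit 2) (nat_lit 5) (nat_lit 2) (nat_lit 4) (nat_lit 390) (nat_lit 308) (nat_lit 202))) (XT.nd (nat_lit 78) (nat_lit 0) (nat_lit 0) (XT.lf (nat_lit 0) (nat_lit 477072117546) (nat_lit 76) (nat_lit 335995057472) (nat_lit 76) (nat_lit 311820068049) (nat_lit 1) (nat_lit 4) (nat_lit 2) (nat_lit 5) (nat_lit 2) (nat_lit 4) (nat_lit 391) (nat_lit 308) (nat_lit 201)) (XT.lf (nat_lit 0)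 (nat_lit 553425229123) (nat_lit 76) (nat_lit 342040188276) (nat_lit 76) (nat_lit 317864723731) (nat_lit 1) (nat_lit 4) (nat_lit 2) (nat_lit 5) (nat_lit 2) (nat_lit 4) (nat_lit 392) (nat_lit 308) (nat_lit 200)))) (XT.nd (nat_lit 156) (nat_lit 0) (nat_lit 0) (XT.nd (nat_lit 78) (nat_lit 0) (nat_lit 0) (XT.lf (nat_lit 0) (nat_lit 635885145312) (nat_lit 76) (nat_lit 348569644376) (nat_lit 76) (nat_lit 324393739902) (nat_lit 1) (nat_lit 4) (nat_lit 2) (nat_lit 5) (nat_lit 2) (nat_lit 4) (nat_lit 393) (nat_lit 308) (nat_lit 199)) (XT.lf (nat_lit 0) (nat_lit 724940517469) (nat_lit 76) (nat_lit 355622118843) (nat_lit 76) (nat_lit 331445807028) (nat_lit 1) (nat_lit 4) (nat_lit 2) (nat_lit 5) (nat_lit 2) (nat_lit 4) (nat_lit 394) (nat_lit 308) (nat_lit 198))) (XT.nd (nat_lit 78) (nat_lit 0) (nat_lit 0) (XT.lf (nat_lit 0) (nat_lit 821119081133) (nat_lit 76) (nat_lit 363239404120) (nat_lit 76) (nat_lit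 339062715138) (nat_lit 1) (nat_lit 4) (nat_lit 2) (nat_lit 5) (nat_lit 2) (nat_lit 4) (nat_lit 395) (nat_lit 308) (nat_lit 197)) (XT.lf (nat_lit 0) (nat_lit 924990783346) (nat_lit 76) (nat_lit 371466639675) (nat_lit 76) (nat_lit 347289601463) (nat_lit 1) (nat_lit 4) (nat_lit 2) (nat_lit 5) (nat_lit 2) (nat_lit 4) (nat_lit 396) (nat_lit 308) (nat_lit 196))))) (XT.nd (nat_lit 312) (nat_lit 0) (nat_lit 0) (XT.nd (nat_lit 156) (nat_lit 0) (nat_lit 0) (XT.nd (nat_lit 78) (nat_lit 0) (nat_lit 0) (XT.lf (nat_lit 0) (nat_lit 1037171160122) (nat_lit 76) (nat_lit 380352579496) (nat_lit 76) (nat_lit 356175217923) (nat_lit 1) (nat_lit 4) (nat_lit 2) (nat_lit 5) (nat_lit 2) (nat_lit 4) (nat_lit 397) (nat_lit 308) (nat_lit 195)) (XT.lf (nat_lit 0) (nat_lit 1158324984065) (nat_lit 76) (nat_lit 389949881004) (nat_lit 76) (nat_lit 365772220023) (nat_lit 1) (nat_lit 4) (nat_lit 2) (nat_lit 5) (nat_lit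 2) (nat_lit 4) (nat_lit 398) (nat_lit 308) (nat_lit 194))) (XT.nd (nat_lit 78) (nat_lit 0) (nat_lit 0) (XT.lf (nat_lit 0) (nat_lit 1289170203760) (nat_lit 76) (nat_lit 400315417097) (nat_lit 76) (nat_lit 376137478887) (nat_lit 1) (nat_lit 4) (nat_lit 2) (nat_lit 5) (nat_lit 2) (nat_lit 4) (nat_lit 399) (nat_lit 308) (nat_lit 193)) (XT.lf (nat_lit 0) (nat_lit 1430482198288) (nat_lit 76) (nat_lit 411510613175) (nat_lit 76) (nat_lit 387332418270) (nat_lit 1) (nat_lit 4) (nat_lit 2) (nat_lit 5) (nat_lit 2) (nat_lit 4) (nat_lit 400) (nat_lit 308) (nat_lit 192)))) (XT.nd (nat_lit 156) (nat_lit 0) (nat_lit 0) (XT.nd (nat_lit 78) (nat_lit 0) (nat_lit 0) (XT.lf (nat_lit 0) (nat_lit 1583098372060) (nat_lit 76) (nat_lit 423601811139) (nat_lit 76) (nat_lit 399423378555) (nat_lit 1) (nat_lit 4) (nat_lit 2) (nat_lit 5) (nat_lit 2) (nat_lit 4) (nat_lit 401) (nat_lit 308) (nat_lit 191)) (XT.lf (nat_lit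 0) (nat_lit 1747923117217) (nat_lit 76) (nat_lit 436660662534) (nat_lit 76) (nat_lit 412482009876) (nat_lit 1) (nat_lit 4) (nat_lit 2) (nat_lit 5) (nat_lit 2) (nat_lit 4) (nat_lit 402) (nat_lit 308) (nat_lit 190))) (XT.nd (nat_lit 78) (nat_lit 0) (nat_lit 0) (XT.lf (nat_lit 0) (nat_lit 1925933172990) (nat_lit 76) (nat_lit 450764553145) (nat_lit 76) (nat_lit 426585696715) (nat_lit 1) (nat_lit 4) (nat_lit 2) (nat_lit 5) (nat_lit 2) (nat_lit 4) (nat_lit 403) (nat_lit 308) (nat_lit 189)) (XT.nd (nat_lit 78) (nat_lit 0) (nat_lit 0) (XT.lf (nat_lit 0) (nat_lit 2118183413783) (nat_lit 76) (nat_lit 465997061584) (nat_lit 76) (nat_lit 441818016476) (nat_lit 1) (nat_lit 4) (nat_lit 2) (nat_lit 5) (nat_lit 2) (nat_lit 4) (nat_lit 404) (nat_lit 308) (nat_lit 188)) (XT.lf (nat_lit 0) (nat_lit 2325813100283) (nat_lit 76) (nat_lit 482448454566) (nat_lit 76) (nat_lit 458269234757) (nat_lit 1) (nat_lit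 4) (nat_lit 2) (nat_lit 5) (nat_lit 2) (nat_lit 4) (nat_lit 405) (nat_lit 308) (nat_lit 187))))))))
noncomputable def xc124 : XT := (XT.nd (nat_lit 40248) (nat_lit 0) (nat_lit 1520) (XT.nd (nat_lit 39624) (nat_lit 0) (nat_lit 3192) (XT.nd (nat_lit 39312) (nat_lit 0) (nat_lit 3876) (XT.nd (nat_lit 156) (nat_lit 0) (nat_lit 0) (XT.nd (nat_lit 78) (nat_lit 0) (nat_lit 0) (XT.lf (nat_lit 0) (nat_lit 2550052630632) (nat_lit 76) (nat_lit 500216221830) (nat_lit 76) (nat_lit 476036840259) (nat_lit 1) (nat_lit 4) (nat_lit 2) (nat_lit 5) (nat_lit 2) (nat_lit 4) (nat_lit 406) (nat_lit 308) (nat_lit 186)) (XT.lf (nat_lit 0) (nat_lit 2792230831676) (nat_lit 76) (nat_lit 519405653846) (nat_lit 76) (nat_lit 495226122497) (nat_lit 1) (nat_lit 4) (nat_lit 2) (nat_lit 5) (nat_lit 2) (nat_lit 4) (nat_lit 407) (nat_lit 308) (nat_lit 185))) (XT.nd (nat_lit 78) (nat_lit 0) (nat_lit 0) (XT.lf (nat_lit 0) (nat_lit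 3053782833495) (nat_lit 76) (nat_lit 540130465767) (nat_lit 76) (nat_lit 515950795735) (nat_lit 1) (nat_lit 4) (nat_lit 2) (nat_lit 5) (nat_lit 2) (nat_lit 4) (nat_lit 408) (nat_lit 308) (nat_lit 184)) (XT.lf (nat_lit 0) (nat_lit 3336258573878) (nat_lit 76) (nat_lit 562513471295) (nat_lit 76) (nat_lit 538333672851) (nat_lit 1) (nat_lit 4) (nat_lit 2) (nat_lit 5) (nat_lit 2) (nat_lit 4) (nat_lit 409) (nat_lit 308) (nat_lit 183)))) (XT.nd (nat_lit 156) (nat_lit 456) (nat_lit 0) (XT.nd (nat_lit 78) (nat_lit 0) (nat_lit 0) (XT.lf (nat_lit 0) (nat_lit 1671308649) (nat_lit 0) (nat_lit 1671308649) (nat_lit 380) (nat_lit 1058142149) (nat_lit 58) (nat_lit 5) (nat_lit 58) (nat_lit 3) (nat_lit 63) (nat_lit 3) (nat_lit 309) (nat_lit 309) (nat_lit 282)) (XT.lf (nat_lit 0) (nat_lit 7783490566) (nat_lit 0) (nat_lit 53141748) (nat_lit 380) (nat_lit 1244110434) (nat_lit 58) (nat_lit 5) (nat_lit 58) (nat_lit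 3) (nat_lit 63) (nat_lit 3) (nat_lit 310) (nat_lit 309) (nat_lit 281))) (XT.nd (nat_lit 78) (nat_lit 456) (nat_lit 0) (XT.lf (nat_lit 76) (nat_lit 3221760448) (nat_lit 0) (nat_lit 5932649835) (nat_lit 456) (nat_lit 222164638) (nat_lit 59) (nat_lit 5) (nat_lit 58) (nat_lit 5) (nat_lit 64) (nat_lit 5) (nat_lit 311) (nat_lit 309) (nat_lit 280)) (XT.lf (nat_lit 0) (nat_lit 790751965) (nat_lit 456) (nat_lit 1596538230) (nat_lit 532) (nat_lit 7311003997) (nat_lit 52) (nat_lit 5) (nat_lit 58) (nat_lit 5) (nat_lit 59) (nat_lit 5) (nat_lit 312) (nat_lit 309) (nat_lit 279))))) (XT.nd (nat_lit 312) (nat_lit 760) (nat_lit 0) (XT.nd (nat_lit 156) (nat_lit 0) (nat_lit 0) (XT.nd (nat_lit 78) (nat_lit 0) (nat_lit 0) (XT.lf (nat_lit 0) (nat_lit 1914863614) (nat_lit 456) (nat_lit 6641669044) (nat_lit 532) (nat_lit 1485551757) (nat_lit 53) (nat_lit 5) (nat_lit 59) (nat_lit 5) (nat_lit 60) (nat_lit 5) (nat_lit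 313) (nat_lit 309) (nat_lit 278)) (XT.lf (nat_lit 0) (nat_lit 3162634312) (nat_lit 456) (nat_lit 1642130024) (nat_lit 532) (nat_lit 5606070853) (nat_lit 53) (nat_lit 5) (nat_lit 59) (nat_lit 5) (nat_lit 60) (nat_lit 5) (nat_lit 314) (nat_lit 309) (nat_lit 277))) (XT.nd (nat_lit 78) (nat_lit 0) (nat_lit 76) (XT.lf (nat_lit 76) (nat_lit 3899647552) (nat_lit 0) (nat_lit 636714410) (nat_lit 532) (nat_lit 6270777446) (nat_lit 54) (nat_lit 5) (nat_lit 53) (nat_lit 5) (nat_lit 60) (nat_lit 5) (nat_lit 315) (nat_lit 309) (nat_lit 276)) (XT.lf (nat_lit 0) (nat_lit 6095421539) (nat_lit 456) (nat_lit 1404519885) (nat_lit 76) (nat_lit 3729305365) (nat_lit 54) (nat_lit 5) (nat_lit 60) (nat_lit 5) (nat_lit 55) (nat_lit 5) (nat_lit 316) (nat_lit 309) (nat_lit 275)))) (XT.nd (nat_lit 156) (nat_lit 380) (nat_lit 0) (XT.nd (nat_lit 78) (nat_lit 0) (nat_lit 0) (XT.lf (nat_lit 0) (nat_lit 4704717200) (nat_lit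 456) (nat_lit 3145305585) (nat_lit 532) (nat_lit 3829558257) (nat_lit 48) (nat_lit 5) (nat_lit 54) (nat_lit 5) (nat_lit 55) (nat_lit 5) (nat_lit 317) (nat_lit 309) (nat_lit 274)) (XT.lf (nat_lit 0) (nat_lit 9766211503) (nat_lit 532) (nat_lit 874885422) (nat_lit 76) (nat_lit 1523262035) (nat_lit 48) (nat_lit 5) (nat_lit 55) (nat_lit 5) (nat_lit 49) (nat_lit 5) (nat_lit 318) (nat_lit 309) (nat_lit 273))) (XT.nd (nat_lit 78) (nat_lit 76) (nat_lit 0) (XT.lf (nat_lit 0) (nat_lit 5873230298) (nat_lit 304) (nat_lit 6133891399) (nat_lit 380) (nat_lit 667189300) (nat_lit 44) (nat_lit 5) (nat_lit 48) (nat_lit 5) (nat_lit 49) (nat_lit 5) (nat_lit 319) (nat_lit 309) (nat_lit 272)) (XT.lf (nat_lit 0) (nat_lit 1116359605) (nat_lit 380) (nat_lit 95120848) (nat_lit 76) (nat_lit 12013416074) (nat_lit 43) (nat_lit 5) (nat_lit 48) (nat_lit 5) (nat_lit 44) (nat_lit 5) (nat_lit 320) (nat_lit 309) (nat_lit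 271)))))) (XT.nd (nat_lit 624) (nat_lit 608) (nat_lit 0) (XT.nd (nat_lit 312) (nat_lit 456) (nat_lit 0) (XT.nd (nat_lit 156) (nat_lit 152) (nat_lit 0) (XT.nd (nat_lit 78) (nat_lit 228) (nat_lit 0) (XT.lf (nat_lit 0) (nat_lit 3242994972) (nat_lit 304) (nat_lit 6457967386) (nat_lit 76) (nat_lit 4098348466) (nat_lit 40) (nat_lit 5) (nat_lit 44) (nat_lit 5) (nat_lit 41) (nat_lit 5) (nat_lit 321) (nat_lit 309) (nat_lit 270)) (XT.lf (nat_lit 0) (nat_lit 921517850) (nat_lit 228) (nat_lit 4630175304) (nat_lit 304) (nat_lit 8867108462) (nat_lit 37) (nat_lit 5) (nat_lit 40) (nat_lit 5) (nat_lit 41) (nat_lit 5) (nat_lit 322) (nat_lit 309) (nat_lit 269))) (XT.nd (nat_lit 78) (nat_lit 152) (nat_lit 0) (XT.lf (nat_lit 0) (nat_lit 8204111994) (nat_lit 304) (nat_lit 5893694111) (nat_lit 76) (nat_lit 977395723) (nat_lit 37) (nat_lit 5) (nat_lit 41) (nat_lit 5) (nat_lit 38) (nat_lit 5) (nat_lit 323) (nat_lit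 309) (nat_lit 268)) (XT.lf (nat_lit 0) (nat_lit 2261354190) (nat_lit 152) (nat_lit 8942680535) (nat_lit 228) (nat_lit 4569321295) (nat_lit 35) (nat_lit 5) (nat_lit 37) (nat_lit 5) (nat_lit 38) (nat_lit 5) (nat_lit 324) (nat_lit 309) (nat_lit 267)))) (XT.nd (nat_lit 156) (nat_lit 152) (nat_lit 0) (XT.nd (nat_lit 78) (nat_lit 304) (nat_lit 0) (XT.lf (nat_lit 0) (nat_lit 11355557517) (nat_lit 152) (nat_lit 3211947604) (nat_lit 228) (nat_lit 1950034965) (nat_lit 35) (nat_lit 5) (nat_lit 37) (nat_lit 5) (nat_lit 38) (nat_lit 5) (nat_lit 325) (nat_lit 309) (nat_lit 266)) (XT.lf (nat_lit 0) (nat_lit 969348995) (nat_lit 304) (nat_lit 13401586184) (nat_lit 76) (nat_lit 2937924676) (nat_lit 31) (nat_lit 5) (nat_lit 35) (nat_lit 5) (nat_lit 32) (nat_lit 5) (nat_lit 326) (nat_lit 309) (nat_lit 265))) (XT.nd (nat_lit 78) (nat_lit 152) (nat_lit 0) (XT.lf (nat_lit 0) (nat_lit 4210676779) (nat_lit 304)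 (nat_lit 4342406137) (nat_lit 76) (nat_lit 9590899713) (nat_lit 31) (nat_lit 5) (nat_lit 35) (nat_lit 5) (nat_lit 32) (nat_lit 5) (nat_lit 327) (nat_lit 309) (nat_lit 264)) (XT.lf (nat_lit 0) (nat_lit 5681160855) (nat_lit 152) (nat_lit 2134851213) (nat_lit 228) (nat_lit 11221572513) (nat_lit 29) (nat_lit 5) (nat_lit 31) (nat_lit 5) (nat_lit 32) (nat_lit 5) (nat_lit 328) (nat_lit 309) (nat_lit 263))))) (XT.nd (nat_lit 312) (nat_lit 228) (nat_lit 0) (XT.nd (nat_lit 156) (nat_lit 228) (nat_lit 0) (XT.nd (nat_lit 78) (nat_lit 152) (nat_lit 0) (XT.lf (nat_lit 0) (nat_lit 11916033623) (nat_lit 228) (nat_lit 3403652030) (nat_lit 76) (nat_lit 4666530375) (nat_lit 29) (nat_lit 5) (nat_lit 32) (nat_lit 5) (nat_lit 30) (nat_lit 5) (nat_lit 329) (nat_lit 309) (nat_lit 262)) (XT.lf (nat_lit 0) (nat_lit 7629320422) (nat_lit 152) (nat_lit 8925045088) (nat_lit 228) (nat_lit 4439586766) (nat_lit 27) (nat_lit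 5) (nat_lit 29) (nat_lit 5) (nat_lit 30) (nat_lit 5) (nat_lit 330) (nat_lit 309) (nat_lit 261))) (XT.nd (nat_lit 78) (nat_lit 228) (nat_lit 0) (XT.lf (nat_lit 0) (nat_lit 19697348426) (nat_lit 152) (nat_lit 1931980855) (nat_lit 228) (nat_lit 447769003) (nat_lit 27) (nat_lit 5) (nat_lit 29) (nat_lit 5) (nat_lit 30) (nat_lit 5) (nat_lit 331) (nat_lit 309) (nat_lit 260)) (XT.lf (nat_lit 0) (nat_lit 4024140743) (nat_lit 228) (nat_lit 13522131027) (nat_lit 76) (nat_lit 5664901229) (nat_lit 24) (nat_lit 5) (nat_lit 27) (nat_lit 5) (nat_lit 25) (nat_lit 5) (nat_lit 332) (nat_lit 309) (nat_lit 259)))) (XT.nd (nat_lit 156) (nat_lit 76) (nat_lit 0) (XT.nd (nat_lit 78) (nat_lit 152) (nat_lit 0) (XT.lf (nat_lit 0) (nat_lit 8921086798) (nat_lit 228) (nat_lit 1675823481) (nat_lit 76) (nat_lit 13830843656) (nat_lit 24) (nat_lit 5) (nat_lit 27) (nat_lit 5) (nat_lit 25) (nat_lit 5) (nat_lit 333) (nat_lit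 309) (nat_lit 258)) (XT.lf (nat_lit 0) (nat_lit 11664442215) (nat_lit 152) (nat_lit 2802299351) (nat_lit 228) (nat_lit 11254390062) (nat_lit 22) (nat_lit 5) (nat_lit 24) (nat_lit 5) (nat_lit 25) (nat_lit 5) (nat_lit 334) (nat_lit 309) (nat_lit 257))) (XT.nd (nat_lit 78) (nat_lit 76) (nat_lit 0) (XT.lf (nat_lit 0) (nat_lit 20615089955) (nat_lit 228) (nat_lit 1121151203) (nat_lit 76) (nat_lit 5369039640) (nat_lit 22) (nat_lit 5) (nat_lit 25) (nat_lit 5) (nat_lit 23) (nat_lit 4) (nat_lit 335) (nat_lit 309) (nat_lit 256)) (XT.lf (nat_lit 0) (nat_lit 13412365571) (nat_lit 76) (nat_lit 14216970415) (nat_lit 152) (nat_lit 940926275) (nat_lit 21) (nat_lit 5) (nat_lit 22) (nat_lit 5) (nat_lit 23) (nat_lit 4) (nat_lit 336) (nat_lit 309) (nat_lit 255)))))))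
noncomputable def xc125 : XT := (XT.nd (nat_lit 1248) (nat_lit 456) (nat_lit 0) (XT.nd (nat_lit 624) (nat_lit 304) (nat_lit 0) (XT.nd (nat_lit 312) (nat_lit 228) (nat_lit 0) (XT.nd (nat_lit 156) (nat_lit 76) (nat_lit 0) (XT.nd (nat_lit 78) (nat_lit 152) (nat_lit 0) (XT.lf (nat_lit 0) (nat_lit 4809874079) (nat_lit 152) (nat_lit 1135232466) (nat_lit 76) (nat_lit 24196808189) (nat_lit 20) (nat_lit 5) (nat_lit 22) (nat_lit 5) (nat_lit 21) (nat_lit 5) (nat_lit 337) (nat_lit 309) (nat_lit 254)) (XT.lf (nat_lit 0) (nat_lit 11384935212) (nat_lit 228) (nat_lit 17205187657) (nat_lit 76) (nat_lit 3214036922) (nat_lit 18) (nat_lit 5) (nat_lit 21) (nat_lit 5) (nat_lit 19) (nat_lit 4) (nat_lit 338) (nat_lit 309) (nat_lit 253))) (XT.nd (nat_lit 78) (nat_lit 76) (nat_lit 0) (XT.lf (nat_lit 0) (nat_lit 18653080869) (nat_lit 228) (nat_lit 2128690867) (nat_lit 76) (nat_lit 12804263058) (nat_lit 18) (nat_lit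 5) (nat_lit 21) (nat_lit 5) (nat_lit 19) (nat_lit 4) (nat_lit 339) (nat_lit 309) (nat_lit 252)) (XT.lf (nat_lit 0) (nat_lit 14867042987) (nat_lit 76) (nat_lit 11975424786) (nat_lit 152) (nat_lit 8640824337) (nat_lit 17) (nat_lit 5) (nat_lit 18) (nat_lit 5) (nat_lit 19) (nat_lit 4) (nat_lit 340) (nat_lit 309) (nat_lit 251)))) (XT.nd (nat_lit 156) (nat_lit 76) (nat_lit 0) (XT.nd (nat_lit 78) (nat_lit 152) (nat_lit 0) (XT.lf (nat_lit 0) (nat_lit 33313678198) (nat_lit 76) (nat_lit 2414365134) (nat_lit 152) (nat_lit 1801017993) (nat_lit 17) (nat_lit 5) (nat_lit 18) (nat_lit 5) (nat_lit 19) (nat_lit 4) (nat_lit 341) (nat_lit 309) (nat_lit 250)) (XT.lf (nat_lit 0) (nat_lit 5830048602) (nat_lit 152) (nat_lit 25867382685) (nat_lit 76) (nat_lit 7988444956) (nat_lit 15) (nat_lit 5) (nat_lit 17) (nat_lit 5) (nat_lit 16) (nat_lit 4) (nat_lit 342) (nat_lit 309) (nat_lit 249))) (XT.nd (nat_lit 78) (nat_lit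 76) (nat_lit 0) (XT.lf (nat_lit 0) (nat_lit 14139193792) (nat_lit 152) (nat_lit 8612432145) (nat_lit 76) (nat_lit 19246687816) (nat_lit 15) (nat_lit 5) (nat_lit 17) (nat_lit 5) (nat_lit 16) (nat_lit 4) (nat_lit 343) (nat_lit 309) (nat_lit 248)) (XT.lf (nat_lit 0) (nat_lit 10522685979) (nat_lit 76) (nat_lit 12828580031) (nat_lit 152) (nat_lit 21125435156) (nat_lit 14) (nat_lit 5) (nat_lit 15) (nat_lit 5) (nat_lit 16) (nat_lit 4) (nat_lit 344) (nat_lit 309) (nat_lit 247))))) (XT.nd (nat_lit 312) (nat_lit 152) (nat_lit 0) (XT.nd (nat_lit 156) (nat_lit 76) (nat_lit 0) (XT.nd (nat_lit 78) (nat_lit 76) (nat_lit 0) (XT.lf (nat_lit 0) (nat_lit 31652468191) (nat_lit 76) (nat_lit 1868917512) (nat_lit 152) (nat_lit 13614297085) (nat_lit 14) (nat_lit 5) (nat_lit 15) (nat_lit 5) (nat_lit 16) (nat_lit 4) (nat_lit 345) (nat_lit 309) (nat_lit 246)) (XT.lf (nat_lit 0) (nat_lit 4421893189) (nat_lit 76)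 (nat_lit 40415699406) (nat_lit 76) (nat_lit 5143201166) (nat_lit 13) (nat_lit 4) (nat_lit 14) (nat_lit 5) (nat_lit 14) (nat_lit 4) (nat_lit 346) (nat_lit 309) (nat_lit 245))) (XT.nd (nat_lit 78) (nat_lit 0) (nat_lit 0) (XT.lf (nat_lit 0) (nat_lit 4274570964) (nat_lit 152) (nat_lit 26400495595) (nat_lit 76) (nat_lit 22333198928) (nat_lit 12) (nat_lit 5) (nat_lit 14) (nat_lit 5) (nat_lit 13) (nat_lit 4) (nat_lit 347) (nat_lit 309) (nat_lit 244)) (XT.lf (nat_lit 0) (nat_lit 14155385774) (nat_lit 152) (nat_lit 5866090568) (nat_lit 76) (nat_lit 36246779617) (nat_lit 12) (nat_lit 5) (nat_lit 14) (nat_lit 5) (nat_lit 13) (nat_lit 4) (nat_lit 348) (nat_lit 309) (nat_lit 243)))) (XT.nd (nat_lit 156) (nat_lit 76) (nat_lit 0) (XT.nd (nat_lit 78) (nat_lit 0) (nat_lit 0) (XT.lf (nat_lit 0) (nat_lit 17147480399) (nat_lit 76) (nat_lit 8079996910) (nat_lit 152) (nat_lit 34529510075) (nat_lit 11) (nat_lit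 5) (nat_lit 12) (nat_lit 5) (nat_lit 13) (nat_lit 4) (nat_lit 349) (nat_lit 309) (nat_lit 242)) (XT.lf (nat_lit 0) (nat_lit 37454276079) (nat_lit 152) (nat_lit 21317754765) (nat_lit 0) (nat_lit 4731277432) (nat_lit 11) (nat_lit 5) (nat_lit 13) (nat_lit 4) (nat_lit 11) (nat_lit 4) (nat_lit 350) (nat_lit 309) (nat_lit 241))) (XT.nd (nat_lit 78) (nat_lit 0) (nat_lit 0) (XT.lf (nat_lit 0) (nat_lit 1523780994) (nat_lit 76) (nat_lit 49371344096) (nat_lit 76) (nat_lit 16635342933) (nat_lit 10) (nat_lit 4) (nat_lit 11) (nat_lit 5) (nat_lit 11) (nat_lit 4) (nat_lit 351) (nat_lit 309) (nat_lit 240)) (XT.lf (nat_lit 0) (nat_lit 27385591041) (nat_lit 76) (nat_lit 38598224705) (nat_lit 76) (nat_lit 5850184176) (nat_lit 10) (nat_lit 4) (nat_lit 11) (nat_lit 5) (nat_lit 11) (nat_lit 4) (nat_lit 352) (nat_lit 309) (nat_lit 239)))))) (XT.nd (nat_lit 624) (nat_lit 152) (nat_lit 0) (XT.nd (nat_lit 312)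 (nat_lit 152) (nat_lit 0) (XT.nd (nat_lit 156) (nat_lit 0) (nat_lit 0) (XT.nd (nat_lit 78) (nat_lit 76) (nat_lit 0) (XT.lf (nat_lit 0) (nat_lit 5497977196) (nat_lit 152) (nat_lit 21323395520) (nat_lit 76) (nat_lit 49650073722) (nat_lit 9) (nat_lit 5) (nat_lit 11) (nat_lit 5) (nat_lit 10) (nat_lit 4) (nat_lit 353) (nat_lit 309) (nat_lit 238)) (XT.lf (nat_lit 0) (nat_lit 3665930274) (nat_lit 76) (nat_lit 13851108274) (nat_lit 152) (nat_lit 63944369368) (nat_lit 8) (nat_lit 5) (nat_lit 9) (nat_lit 5) (nat_lit 10) (nat_lit 4) (nat_lit 354) (nat_lit 309) (nat_lit 237))) (XT.nd (nat_lit 78) (nat_lit 0) (nat_lit 0) (XT.lf (nat_lit 0) (nat_lit 31090580900) (nat_lit 152) (nat_lit 54972959993) (nat_lit 0) (nat_lit 739592804) (nat_lit 8) (nat_lit 5) (nat_lit 10) (nat_lit 4) (nat_lit 8) (nat_lit 4) (nat_lit 355) (nat_lit 309) (nat_lit 236)) (XT.lf (nat_lit 0) (nat_lit 46101463474) (nat_lit 152) (nat_lit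 30700339520) (nat_lit 0) (nat_lit 15742281587) (nat_lit 8) (nat_lit 5) (nat_lit 10) (nat_lit 4) (nat_lit 8) (nat_lit 4) (nat_lit 356) (nat_lit 309) (nat_lit 235)))) (XT.nd (nat_lit 156) (nat_lit 76) (nat_lit 0) (XT.nd (nat_lit 78) (nat_lit 76) (nat_lit 0) (XT.lf (nat_lit 0) (nat_lit 62305520160) (nat_lit 152) (nat_lit 4500658985) (nat_lit 0) (nat_lit 31938751430) (nat_lit 8) (nat_lit 5) (nat_lit 10) (nat_lit 4) (nat_lit 8) (nat_lit 4) (nat_lit 357) (nat_lit 309) (nat_lit 234)) (XT.lf (nat_lit 0) (nat_lit 25033622144) (nat_lit 76) (nat_lit 55367212068) (nat_lit 76) (nat_lit 24993418484) (nat_lit 7) (nat_lit 4) (nat_lit 8) (nat_lit 5) (nat_lit 8) (nat_lit 4) (nat_lit 358) (nat_lit 309) (nat_lit 233))) (XT.nd (nat_lit 78) (nat_lit 76) (nat_lit 0) (XT.lf (nat_lit 0) (nat_lit 57173290960) (nat_lit 76) (nat_lit 42886619783) (nat_lit 76) (nat_lit 12506321703) (nat_lit 7) (nat_lit 4) (nat_lit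 8) (nat_lit 5) (nat_lit 8) (nat_lit 4) (nat_lit 359) (nat_lit 309) (nat_lit 232)) (XT.lf (nat_lit 0) (nat_lit 924157071) (nat_lit 152) (nat_lit 28464074052) (nat_lit 76) (nat_lit 90922382871) (nat_lit 6) (nat_lit 5) (nat_lit 8) (nat_lit 5) (nat_lit 7) (nat_lit 4) (nat_lit 360) (nat_lit 309) (nat_lit 231))))) (XT.nd (nat_lit 312) (nat_lit 76) (nat_lit 0) (XT.nd (nat_lit 156) (nat_lit 0) (nat_lit 0) (XT.nd (nat_lit 78) (nat_lit 0) (nat_lit 0) (XT.lf (nat_lit 0) (nat_lit 297405574) (nat_lit 76) (nat_lit 14457066969) (nat_lit 152) (nat_lit 113894003451) (nat_lit 5) (nat_lit 5) (nat_lit 6) (nat_lit 5) (nat_lit 7) (nat_lit 4) (nat_lit 361) (nat_lit 309) (nat_lit 230)) (XT.lf (nat_lit 0) (nat_lit 30523770593) (nat_lit 152) (nat_lit 104684649933) (nat_lit 0) (nat_lit 2378343932) (nat_lit 5) (nat_lit 5) (nat_lit 7) (nat_lit 4) (nat_lit 5) (nat_lit 4) (nat_lit 362) (nat_lit 309) (nat_lit 229)))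 (XT.nd (nat_lit 78) (nat_lit 0) (nat_lit 0) (XT.lf (nat_lit 0) (nat_lit 47924523477) (nat_lit 152) (nat_lit 79511331618) (nat_lit 0) (nat_lit 19774669966) (nat_lit 5) (nat_lit 5) (nat_lit 7) (nat_lit 4) (nat_lit 5) (nat_lit 4) (nat_lit 363) (nat_lit 309) (nat_lit 228)) (XT.lf (nat_lit 0) (nat_lit 66712153958) (nat_lit 152) (nat_lit 52334247445) (nat_lit 0) (nat_lit 38558201511) (nat_lit 5) (nat_lit 5) (nat_lit 7) (nat_lit 4) (nat_lit 5) (nat_lit 4) (nat_lit 364) (nat_lit 309) (nat_lit 227)))) (XT.nd (nat_lit 156) (nat_lit 0) (nat_lit 0) (XT.nd (nat_lit 78) (nat_lit 76) (nat_lit 0) (XT.lf (nat_lit 0) (nat_lit 86997996143) (nat_lit 152) (nat_lit 22992348028) (nat_lit 0) (nat_lit 58840248386) (nat_lit 5) (nat_lit 5) (nat_lit 7) (nat_lit 4) (nat_lit 5) (nat_lit 4) (nat_lit 365) (nat_lit 309) (nat_lit 226)) (XT.lf (nat_lit 0) (nat_lit 9145752116) (nat_lit 76) (nat_lit 99976465871) (nat_lit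 76) (nat_lit 71815203938) (nat_lit 4) (nat_lit 4) (nat_lit 5) (nat_lit 5) (nat_lit 5) (nat_lit 4) (nat_lit 366) (nat_lit 309) (nat_lit 225))) (XT.nd (nat_lit 78) (nat_lit 0) (nat_lit 0) (XT.lf (nat_lit 0) (nat_lit 45154055901) (nat_lit 76) (nat_lit 88486656106) (nat_lit 76) (nat_lit 60322140306) (nat_lit 4) (nat_lit 4) (nat_lit 5) (nat_lit 5) (nat_lit 5) (nat_lit 4) (nat_lit 367) (nat_lit 309) (nat_lit 224)) (XT.nd (nat_lit 78) (nat_lit 0) (nat_lit 0) (XT.lf (nat_lit 0) (nat_lit 84035209567) (nat_lit 76) (nat_lit 76081478655) (nat_lit 76) (nat_lit 47913950016) (nat_lit 4) (nat_lit 4) (nat_lit 5) (nat_lit 5) (nat_lit 5) (nat_lit 4) (nat_lit 368) (nat_lit 309) (nat_lit 223)) (XT.lf (nat_lit 0) (nat_lit 126019619949) (nat_lit 76) (nat_lit 62687421356) (nat_lit 76) (nat_lit 34517103050) (nat_lit 4) (nat_lit 4) (nat_lit 5) (nat_lit 5) (nat_lit 5) (nat_lit 4) (nat_lit 369) (nat_lit 309) (nat_lit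 222))))))))
noncomputable def xc126 : XT := (XT.nd (nat_lit 1248) (nat_lit 0) (nat_lit 0) (XT.nd (nat_lit 624) (nat_lit 76) (nat_lit 0) (XT.nd (nat_lit 312) (nat_lit 0) (nat_lit 0) (XT.nd (nat_lit 156) (nat_lit 152) (nat_lit 0) (XT.nd (nat_lit 78) (nat_lit 0) (nat_lit 0) (XT.lf (nat_lit 0) (nat_lit 171356083554) (nat_lit 76) (nat_lit 48225112018) (nat_lit 76) (nat_lit 20052210687) (nat_lit 4) (nat_lit 4) (nat_lit 5) (nat_lit 5) (nat_lit 5) (nat_lit 4) (nat_lit 370) (nat_lit 309) (nat_lit 221)) (XT.lf (nat_lit 0) (nat_lit 220313260906) (nat_lit 76) (nat_lit 32608848065) (nat_lit 76) (nat_lit 4433555045) (nat_lit 4) (nat_lit 4) (nat_lit 5) (nat_lit 5) (nat_lit 5) (nat_lit 4) (nat_lit 371) (nat_lit 309) (nat_lit 220))) (XT.nd (nat_lit 78) (nat_lit 76) (nat_lit 0) (XT.lf (nat_lit 0) (nat_lit 11809548951) (nat_lit 152) (nat_lit 3613645728) (nat_lit 76) (nat_lit 261048825665) (nat_lit 3) (nat_lit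 5) (nat_lit 5) (nat_lit 5) (nat_lit 4) (nat_lit 4) (nat_lit 372) (nat_lit 309) (nat_lit 219)) (XT.lf (nat_lit 0) (nat_lit 30028909057) (nat_lit 152) (nat_lit 263069531884) (nat_lit 0) (nat_lit 3936725691) (nat_lit 2) (nat_lit 5) (nat_lit 4) (nat_lit 4) (nat_lit 2) (nat_lit 4) (nat_lit 373) (nat_lit 309) (nat_lit 218)))) (XT.nd (nat_lit 156) (nat_lit 0) (nat_lit 0) (XT.nd (nat_lit 78) (nat_lit 0) (nat_lit 0) (XT.lf (nat_lit 0) (nat_lit 50205014008) (nat_lit 152) (nat_lit 244887343023) (nat_lit 0) (nat_lit 24111072679) (nat_lit 2) (nat_lit 5) (nat_lit 4) (nat_lit 4) (nat_lit 2) (nat_lit 4) (nat_lit 374) (nat_lit 309) (nat_lit 217)) (XT.lf (nat_lit 0) (nat_lit 71992636776) (nat_lit 152) (nat_lit 225255655713) (nat_lit 0) (nat_lit 45897067704) (nat_lit 2) (nat_lit 5) (nat_lit 4) (nat_lit 4) (nat_lit 2) (nat_lit 4) (nat_lit 375) (nat_lit 309) (nat_lit 216))) (XT.nd (nat_lit 78) (nat_lit 0)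 (nat_lit 0) (XT.lf (nat_lit 0) (nat_lit 95520889200) (nat_lit 152) (nat_lit 204058134029) (nat_lit 0) (nat_lit 69423812958) (nat_lit 2) (nat_lit 5) (nat_lit 4) (nat_lit 4) (nat_lit 2) (nat_lit 4) (nat_lit 376) (nat_lit 309) (nat_lit 215)) (XT.lf (nat_lit 0) (nat_lit 120929197961) (nat_lit 152) (nat_lit 181169163028) (nat_lit 0) (nat_lit 94830726191) (nat_lit 2) (nat_lit 5) (nat_lit 4) (nat_lit 4) (nat_lit 2) (nat_lit 4) (nat_lit 377) (nat_lit 309) (nat_lit 214))))) (XT.nd (nat_lit 312) (nat_lit 76) (nat_lit 0) (XT.nd (nat_lit 156) (nat_lit 0) (nat_lit 0) (XT.nd (nat_lit 78) (nat_lit 0) (nat_lit 0) (XT.lf (nat_lit 0) (nat_lit 148368130815) (nat_lit 152) (nat_lit 156453104363) (nat_lit 0) (nat_lit 122268366890) (nat_lit 2) (nat_lit 5) (nat_lit 4) (nat_lit 4) (nat_lit 2) (nat_lit 4) (nat_lit 378) (nat_lit 309) (nat_lit 213)) (XT.lf (nat_lit 0) (nat_lit 178000288845) (nat_lit 152) (nat_lit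 129763492501) (nat_lit 0) (nat_lit 151899328479) (nat_lit 2) (nat_lit 5) (nat_lit 4) (nat_lit 4) (nat_lit 2) (nat_lit 4) (nat_lit 379) (nat_lit 309) (nat_lit 212))) (XT.nd (nat_lit 78) (nat_lit 0) (nat_lit 0) (XT.lf (nat_lit 0) (nat_lit 210001270025) (nat_lit 152) (nat_lit 100942166779) (nat_lit 0) (nat_lit 183899201844) (nat_lit 2) (nat_lit 5) (nat_lit 4) (nat_lit 4) (nat_lit 2) (nat_lit 4) (nat_lit 380) (nat_lit 309) (nat_lit 211)) (XT.lf (nat_lit 0) (nat_lit 244560709798) (nat_lit 152) (nat_lit 69818334157) (nat_lit 0) (nat_lit 218457615863) (nat_lit 2) (nat_lit 5) (nat_lit 4) (nat_lit 4) (nat_lit 2) (nat_lit 4) (nat_lit 381) (nat_lit 309) (nat_lit 210)))) (XT.nd (nat_lit 156) (nat_lit 0) (nat_lit 0) (XT.nd (nat_lit 78) (nat_lit 76) (nat_lit 0) (XT.lf (nat_lit 0) (nat_lit 281883404845) (nat_lit 152) (nat_lit 36207557107) (nat_lit 0) (nat_lit 255779361137) (nat_lit 2) (nat_lit 5) (nat_lit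 4) (nat_lit 4) (nat_lit 2) (nat_lit 4) (nat_lit 382) (nat_lit 309) (nat_lit 209)) (XT.lf (nat_lit 0) (nat_lit 94043797) (nat_lit 76) (nat_lit 322098744651) (nat_lit 76) (nat_lit 295993821524) (nat_lit 1) (nat_lit 4) (nat_lit 2) (nat_lit 5) (nat_lit 2) (nat_lit 4) (nat_lit 383) (nat_lit 309) (nat_lit 208))) (XT.nd (nat_lit 78) (nat_lit 0) (nat_lit 0) (XT.lf (nat_lit 0) (nat_lit 41356255305) (nat_lit 76) (nat_lit 325359295987) (nat_lit 76) (nat_lit 299253558583) (nat_lit 1) (nat_lit 4) (nat_lit 2) (nat_lit 5) (nat_lit 2) (nat_lit 4) (nat_lit 384) (nat_lit 309) (nat_lit 207)) (XT.lf (nat_lit 0) (nat_lit 85916968433) (nat_lit 76) (nat_lit 328881916525) (nat_lit 76) (nat_lit 302775425161) (nat_lit 1) (nat_lit 4) (nat_lit 2) (nat_lit 5) (nat_lit 2) (nat_lit 4) (nat_lit 385) (nat_lit 309) (nat_lit 206)))))) (XT.nd (nat_lit 624) (nat_lit 0) (nat_lit 0) (XT.nd (nat_lit 312) (nat_lit 0) (nat_lit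 0) (XT.nd (nat_lit 156) (nat_lit 0) (nat_lit 0) (XT.nd (nat_lit 78) (nat_lit 0) (nat_lit 0) (XT.lf (nat_lit 0) (nat_lit 134040246666) (nat_lit 76) (nat_lit 332687481052) (nat_lit 76) (nat_lit 306580291577) (nat_lit 1) (nat_lit 4) (nat_lit 2) (nat_lit 5) (nat_lit 2) (nat_lit 4) (nat_lit 386) (nat_lit 309) (nat_lit 205)) (XT.lf (nat_lit 0) (nat_lit 186011264988) (nat_lit 76) (nat_lit 336798541062) (nat_lit 76) (nat_lit 310690705187) (nat_lit 1) (nat_lit 4) (nat_lit 2) (nat_lit 5) (nat_lit 2) (nat_lit 4) (nat_lit 387) (nat_lit 309) (nat_lit 204))) (XT.nd (nat_lit 78) (nat_lit 0) (nat_lit 0) (XT.lf (nat_lit 0) (nat_lit 242137999802) (nat_lit 76) (nat_lit 341239458391) (nat_lit 76) (nat_lit 315131023999) (nat_lit 1) (nat_lit 4) (nat_lit 2) (nat_lit 5) (nat_lit 2) (nat_lit 4) (nat_lit 388) (nat_lit 309) (nat_lit 203)) (XT.lf (nat_lit 0) (nat_lit 302753053981) (nat_lit 76) (nat_lit 346036549588)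 (nat_lit 76) (nat_lit 319927561012) (nat_lit 1) (nat_lit 4) (nat_lit 2) (nat_lit 5) (nat_lit 2) (nat_lit 4) (nat_lit 389) (nat_lit 309) (nat_lit 202)))) (XT.nd (nat_lit 156) (nat_lit 0) (nat_lit 0) (XT.nd (nat_lit 78) (nat_lit 0) (nat_lit 0) (XT.lf (nat_lit 0) (nat_lit 368215627847) (nat_lit 76) (nat_lit 351218241858) (nat_lit 76) (nat_lit 325108740150) (nat_lit 1) (nat_lit 4) (nat_lit 2) (nat_lit 5) (nat_lit 2) (nat_lit 4) (nat_lit 390) (nat_lit 309) (nat_lit 201)) (XT.lf (nat_lit 0) (nat_lit 438913647763) (nat_lit 76) (nat_lit 356815241528) (nat_lit 76) (nat_lit 330705264696) (nat_lit 1) (nat_lit 4) (nat_lit 2) (nat_lit 5) (nat_lit 2) (nat_lit 4) (nat_lit 391) (nat_lit 309) (nat_lit 200))) (XT.nd (nat_lit 78) (nat_lit 0) (nat_lit 0) (XT.lf (nat_lit 0) (nat_lit 515266064959) (nat_lit 76) (nat_lit 362860716001) (nat_lit 76) (nat_lit 336750299241) (nat_lit 1) (nat_lit 4) (nat_lit 2) (nat_lit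 5) (nat_lit 2) (nat_lit 4) (nat_lit 392) (nat_lit 309) (nat_lit 199)) (XT.lf (nat_lit 0) (nat_lit 597725338202) (nat_lit 76) (nat_lit 369390490312) (nat_lit 76) (nat_lit 343279666210) (nat_lit 1) (nat_lit 4) (nat_lit 2) (nat_lit 5) (nat_lit 2) (nat_lit 4) (nat_lit 393) (nat_lit 309) (nat_lit 198))))) (XT.nd (nat_lit 312) (nat_lit 0) (nat_lit 0) (XT.nd (nat_lit 156) (nat_lit 0) (nat_lit 0) (XT.nd (nat_lit 78) (nat_lit 0) (nat_lit 0) (XT.lf (nat_lit 0) (nat_lit 686780115039) (nat_lit 76) (nat_lit 376443259420) (nat_lit 76) (nat_lit 350332058151) (nat_lit 1) (nat_lit 4) (nat_lit 2) (nat_lit 5) (nat_lit 2) (nat_lit 4) (nat_lit 394) (nat_lit 309) (nat_lit 197)) (XT.lf (nat_lit 0) (nat_lit 782958127479) (nat_lit 76) (nat_lit 384060817512) (nat_lit 76) (nat_lit 357949267013) (nat_lit 1) (nat_lit 4) (nat_lit 2) (nat_lit 5) (nat_lit 2) (nat_lit 4) (nat_lit 395) (nat_lit 309) (nat_lit 196))) (XT.nd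 (nat_lit 78) (nat_lit 0) (nat_lit 0) (XT.lf (nat_lit 0) (nat_lit 886829319301) (nat_lit 76) (nat_lit 392288305673) (nat_lit 76) (nat_lit 366176431814) (nat_lit 1) (nat_lit 4) (nat_lit 2) (nat_lit 5) (nat_lit 2) (nat_lit 4) (nat_lit 396) (nat_lit 309) (nat_lit 195)) (XT.lf (nat_lit 0) (nat_lit 999009223493) (nat_lit 76) (nat_lit 401174479389) (nat_lit 76) (nat_lit 375062306122) (nat_lit 1) (nat_lit 4) (nat_lit 2) (nat_lit 5) (nat_lit 2) (nat_lit 4) (nat_lit 397) (nat_lit 309) (nat_lit 194)))) (XT.nd (nat_lit 156) (nat_lit 0) (nat_lit 0) (XT.nd (nat_lit 78) (nat_lit 0) (nat_lit 0) (XT.lf (nat_lit 0) (nat_lit 1120162609858) (nat_lit 76) (nat_lit 410771997467) (nat_lit 76) (nat_lit 384659546970) (nat_lit 1) (nat_lit 4) (nat_lit 2) (nat_lit 5) (nat_lit 2) (nat_lit 4) (nat_lit 398) (nat_lit 309) (nat_lit 193)) (XT.lf (nat_lit 0) (nat_lit 1251007424388) (nat_lit 76) (nat_lit 421137734087) (nat_lit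 76) (nat_lit 395025026896) (nat_lit 1) (nat_lit 4) (nat_lit 2) (nat_lit 5) (nat_lit 2) (nat_lit 4) (nat_lit 399) (nat_lit 309) (nat_lit 192))) (XT.nd (nat_lit 78) (nat_lit 0) (nat_lit 0) (XT.lf (nat_lit 0) (nat_lit 1392319043763) (nat_lit 76) (nat_lit 432333115838) (nat_lit 76) (nat_lit 406220170968) (nat_lit 1) (nat_lit 4) (nat_lit 2) (nat_lit 5) (nat_lit 2) (nat_lit 4) (nat_lit 400) (nat_lit 309) (nat_lit 191)) (XT.nd (nat_lit 78) (nat_lit 0) (nat_lit 0) (XT.lf (nat_lit 0) (nat_lit 1544934870171) (nat_lit 76) (nat_lit 444424485722) (nat_lit 76) (nat_lit 418311320778) (nat_lit 1) (nat_lit 4) (nat_lit 2) (nat_lit 5) (nat_lit 2) (nat_lit 4) (nat_lit 401) (nat_lit 309) (nat_lit 190)) (XT.lf (nat_lit 0) (nat_lit 1709759293695) (nat_lit 76) (nat_lit 457483496302) (nat_lit 76) (nat_lit 431370127586) (nat_lit 1) (nat_lit 4) (nat_lit 2) (nat_lit 5) (nat_lit 2) (nat_lit 4) (nat_lit 402) (nat_lit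 309) (nat_lit 189))))))))
noncomputable def xc127 : XT := (XT.nd (nat_lit 40326) (nat_lit 0) (nat_lit 1596) (XT.nd (nat_lit 39702) (nat_lit 0) (nat_lit 3572) (XT.nd (nat_lit 312) (nat_lit 0) (nat_lit 0) (XT.nd (nat_lit 156) (nat_lit 0) (nat_lit 0) (XT.nd (nat_lit 78) (nat_lit 0) (nat_lit 0) (XT.lf (nat_lit 0) (nat_lit 1887769051660) (nat_lit 76) (nat_lit 471587534307) (nat_lit 76) (nat_lit 445473976913) (nat_lit 1) (nat_lit 4) (nat_lit 2) (nat_lit 5) (nat_lit 2) (nat_lit 4) (nat_lit 403) (nat_lit 309) (nat_lit 188)) (XT.lf (nat_lit 0) (nat_lit 2080019016704) (nat_lit 76) (nat_lit 486820179221) (nat_lit 76) (nat_lit 460706447125) (nat_lit 1) (nat_lit 4) (nat_lit 2) (nat_lit 5) (nat_lit 2) (nat_lit 4) (nat_lit 404) (nat_lit 309) (nat_lit 187))) (XT.nd (nat_lit 78) (nat_lit 0) (nat_lit 0) (XT.lf (nat_lit 0) (nat_lit 2287648447882) (nat_lit 76) (nat_lit 503271698570) (nat_lit 76) (nat_lit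 477157804713) (nat_lit 1) (nat_lit 4) (nat_lit 2) (nat_lit 5) (nat_lit 2) (nat_lit 4) (nat_lit 405) (nat_lit 309) (nat_lit 186)) (XT.lf (nat_lit 0) (nat_lit 2511887741820) (nat_lit 76) (nat_lit 521039582839) (nat_lit 76) (nat_lit 494925539203) (nat_lit 1) (nat_lit 4) (nat_lit 2) (nat_lit 5) (nat_lit 2) (nat_lit 4) (nat_lit 406) (nat_lit 309) (nat_lit 185)))) (XT.nd (nat_lit 156) (nat_lit 0) (nat_lit 0) (XT.nd (nat_lit 78) (nat_lit 0) (nat_lit 0) (XT.lf (nat_lit 0) (nat_lit 2754065723966) (nat_lit 76) (nat_lit 540229123193) (nat_lit 76) (nat_lit 514114940874) (nat_lit 1) (nat_lit 4) (nat_lit 2) (nat_lit 5) (nat_lit 2) (nat_lit 4) (nat_lit 407) (nat_lit 309) (nat_lit 184)) (XT.lf (nat_lit 0) (nat_lit 3015617523102) (nat_lit 76) (nat_lit 560954035429) (nat_lit 76) (nat_lit 534839724699) (nat_lit 1) (nat_lit 4) (nat_lit 2) (nat_lit 5) (nat_lit 2) (nat_lit 4) (nat_lit 408) (nat_lit 309) (nat_lit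 183))) (XT.nd (nat_lit 39156) (nat_lit 0) (nat_lit 4332) (XT.lf (nat_lit 0) (nat_lit 3298093075816) (nat_lit 76) (nat_lit 583337133839) (nat_lit 76) (nat_lit 557222704210) (nat_lit 1) (nat_lit 4) (nat_lit 2) (nat_lit 5) (nat_lit 2) (nat_lit 4) (nat_lit 409) (nat_lit 309) (nat_lit 182)) (XT.lf (nat_lit 0) (nat_lit 2236377537) (nat_lit 0) (nat_lit 2236377537) (nat_lit 380) (nat_lit 208979955) (nat_lit 58) (nat_lit 5) (nat_lit 58) (nat_lit 3) (nat_lit 63) (nat_lit 3) (nat_lit 310) (nat_lit 310) (nat_lit 280))))) (XT.nd (nat_lit 312) (nat_lit 228) (nat_lit 0) (XT.nd (nat_lit 156) (nat_lit 0) (nat_lit 76) (XT.nd (nat_lit 78) (nat_lit 0) (nat_lit 76) (XT.lf (nat_lit 0) (nat_lit 366353580) (nat_lit 532) (nat_lit 479845337) (nat_lit 532) (nat_lit 8828622060) (nat_lit 51) (nat_lit 3) (nat_lit 58) (nat_lit 3) (nat_lit 58) (nat_lit 5) (nat_lit 311) (nat_lit 310) (nat_lit 279)) (XT.lf (nat_lit 0)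 (nat_lit 1297745137) (nat_lit 456) (nat_lit 5632176827) (nat_lit 532) (nat_lit 3071904624) (nat_lit 52) (nat_lit 5) (nat_lit 58) (nat_lit 5) (nat_lit 59) (nat_lit 5) (nat_lit 312) (nat_lit 310) (nat_lit 278))) (XT.nd (nat_lit 78) (nat_lit 0) (nat_lit 76) (XT.lf (nat_lit 0) (nat_lit 2266679054) (nat_lit 456) (nat_lit 789768423) (nat_lit 532) (nat_lit 7301658429) (nat_lit 52) (nat_lit 5) (nat_lit 58) (nat_lit 5) (nat_lit 59) (nat_lit 5) (nat_lit 313) (nat_lit 310) (nat_lit 277)) (XT.lf (nat_lit 0) (nat_lit 3387903977) (nat_lit 456) (nat_lit 6142880649) (nat_lit 532) (nat_lit 1206265045) (nat_lit 53) (nat_lit 5) (nat_lit 59) (nat_lit 5) (nat_lit 60) (nat_lit 5) (nat_lit 314) (nat_lit 310) (nat_lit 276)))) (XT.nd (nat_lit 156) (nat_lit 380) (nat_lit 0) (XT.nd (nat_lit 78) (nat_lit 0) (nat_lit 0) (XT.lf (nat_lit 0) (nat_lit 4637729570) (nat_lit 456) (nat_lit 819683834) (nat_lit 532) (nat_lit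 5685916843) (nat_lit 53) (nat_lit 5) (nat_lit 59) (nat_lit 5) (nat_lit 60) (nat_lit 5) (nat_lit 315) (nat_lit 310) (nat_lit 275)) (XT.lf (nat_lit 76) (nat_lit 5141288692) (nat_lit 0) (nat_lit 911900530) (nat_lit 532) (nat_lit 5523795840) (nat_lit 54) (nat_lit 5) (nat_lit 53) (nat_lit 5) (nat_lit 60) (nat_lit 5) (nat_lit 316) (nat_lit 310) (nat_lit 274))) (XT.nd (nat_lit 78) (nat_lit 456) (nat_lit 0) (XT.lf (nat_lit 0) (nat_lit 7646504439) (nat_lit 456) (nat_lit 563374043) (nat_lit 76) (nat_lit 3830398752) (nat_lit 54) (nat_lit 5) (nat_lit 60) (nat_lit 5) (nat_lit 55) (nat_lit 5) (nat_lit 317) (nat_lit 310) (nat_lit 273)) (XT.lf (nat_lit 0) (nat_lit 6010462580) (nat_lit 456) (nat_lit 3474588514) (nat_lit 532) (nat_lit 3046266383) (nat_lit 48) (nat_lit 5) (nat_lit 54) (nat_lit 5) (nat_lit 55) (nat_lit 5) (nat_lit 318) (nat_lit 310) (nat_lit 272)))))) (XT.nd (nat_lit 624) (nat_lit 988) (nat_lit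 0) (XT.nd (nat_lit 312) (nat_lit 380) (nat_lit 0) (XT.nd (nat_lit 156) (nat_lit 228) (nat_lit 0) (XT.nd (nat_lit 78) (nat_lit 380) (nat_lit 0) (XT.lf (nat_lit 0) (nat_lit 11478211014) (nat_lit 532) (nat_lit 6111681) (nat_lit 76) (nat_lit 1576814025) (nat_lit 48) (nat_lit 5) (nat_lit 55) (nat_lit 5) (nat_lit 49) (nat_lit 5) (nat_lit 319) (nat_lit 310) (nat_lit 271)) (XT.lf (nat_lit 0) (nat_lit 223887723) (nat_lit 380) (nat_lit 6363362509) (nat_lit 76) (nat_lit 7028077894) (nat_lit 43) (nat_lit 5) (nat_lit 48) (nat_lit 5) (nat_lit 44) (nat_lit 5) (nat_lit 320) (nat_lit 310) (nat_lit 270))) (XT.nd (nat_lit 78) (nat_lit 0) (nat_lit 0) (XT.lf (nat_lit 0) (nat_lit 831917841) (nat_lit 228) (nat_lit 1234875413) (nat_lit 304) (nat_lit 12145685014) (nat_lit 40) (nat_lit 5) (nat_lit 43) (nat_lit 5) (nat_lit 44) (nat_lit 5) (nat_lit 321) (nat_lit 310) (nat_lit 269)) (XT.lf (nat_lit 0) (nat_lit 4303880355)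 (nat_lit 304) (nat_lit 6040493468) (nat_lit 76) (nat_lit 4493358806) (nat_lit 40) (nat_lit 5) (nat_lit 44) (nat_lit 5) (nat_lit 41) (nat_lit 5) (nat_lit 322) (nat_lit 310) (nat_lit 268)))) (XT.nd (nat_lit 156) (nat_lit 152) (nat_lit 0) (XT.nd (nat_lit 78) (nat_lit 0) (nat_lit 0) (XT.lf (nat_lit 0) (nat_lit 1905702200) (nat_lit 228) (nat_lit 4854102493) (nat_lit 304) (nat_lit 8750079820) (nat_lit 37) (nat_lit 5) (nat_lit 40) (nat_lit 5) (nat_lit 41) (nat_lit 5) (nat_lit 323) (nat_lit 310) (nat_lit 267)) (XT.lf (nat_lit 0) (nat_lit 9571088266) (nat_lit 304) (nat_lit 5467633026) (nat_lit 76) (nat_lit 1184438280) (nat_lit 37) (nat_lit 5) (nat_lit 41) (nat_lit 5) (nat_lit 38) (nat_lit 5) (nat_lit 324) (nat_lit 310) (nat_lit 266))) (XT.nd (nat_lit 78) (nat_lit 0) (nat_lit 0) (XT.lf (nat_lit 0) (nat_lit 3317096187) (nat_lit 152) (nat_lit 9462307858) (nat_lit 228) (nat_lit 4200379495) (nat_lit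 35) (nat_lit 5) (nat_lit 37) (nat_lit 5) (nat_lit 38) (nat_lit 5) (nat_lit 325) (nat_lit 310) (nat_lit 265)) (XT.lf (nat_lit 0) (nat_lit 13074033286) (nat_lit 152) (nat_lit 3287619043) (nat_lit 228) (nat_lit 1425956741) (nat_lit 35) (nat_lit 5) (nat_lit 37) (nat_lit 5) (nat_lit 38) (nat_lit 5) (nat_lit 326) (nat_lit 310) (nat_lit 264))))) (XT.nd (nat_lit 312) (nat_lit 532) (nat_lit 0) (XT.nd (nat_lit 156) (nat_lit 152) (nat_lit 0) (XT.nd (nat_lit 78) (nat_lit 0) (nat_lit 0) (XT.lf (nat_lit 0) (nat_lit 1669853984) (nat_lit 304) (nat_lit 13604713207) (nat_lit 76) (nat_lit 3368277987) (nat_lit 31) (nat_lit 5) (nat_lit 35) (nat_lit 5) (nat_lit 32) (nat_lit 5) (nat_lit 327) (nat_lit 310) (nat_lit 263)) (XT.lf (nat_lit 0) (nat_lit 5124343023) (nat_lit 304) (nat_lit 3885169117) (nat_lit 76) (nat_lit 10539022928) (nat_lit 31) (nat_lit 5) (nat_lit 35) (nat_lit 5) (nat_lit 32) (nat_lit 5) (nat_lit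 328) (nat_lit 310) (nat_lit 262))) (XT.nd (nat_lit 78) (nat_lit 0) (nat_lit 0) (XT.lf (nat_lit 0) (nat_lit 6919912867) (nat_lit 152) (nat_lit 2074326897) (nat_lit 228) (nat_lit 11521355472) (nat_lit 29) (nat_lit 5) (nat_lit 31) (nat_lit 5) (nat_lit 32) (nat_lit 5) (nat_lit 329) (nat_lit 310) (nat_lit 261)) (XT.lf (nat_lit 0) (nat_lit 13386455016) (nat_lit 228) (nat_lit 2913266242) (nat_lit 76) (nat_lit 5243316907) (nat_lit 29) (nat_lit 5) (nat_lit 32) (nat_lit 5) (nat_lit 30) (nat_lit 5) (nat_lit 330) (nat_lit 310) (nat_lit 260)))) (XT.nd (nat_lit 156) (nat_lit 304) (nat_lit 0) (XT.nd (nat_lit 78) (nat_lit 76) (nat_lit 0) (XT.lf (nat_lit 0) (nat_lit 8983035703) (nat_lit 152) (nat_lit 9392389238) (nat_lit 228) (nat_lit 4257654804) (nat_lit 27) (nat_lit 5) (nat_lit 29) (nat_lit 5) (nat_lit 30) (nat_lit 5) (nat_lit 331) (nat_lit 310) (nat_lit 259)) (XT.lf (nat_lit 0) (nat_lit 13036781) (nat_lit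 228) (nat_lit 1844757706) (nat_lit 76) (nat_lit 21948048299) (nat_lit 26) (nat_lit 5) (nat_lit 29) (nat_lit 5) (nat_lit 27) (nat_lit 5) (nat_lit 332) (nat_lit 310) (nat_lit 258))) (XT.nd (nat_lit 78) (nat_lit 152) (nat_lit 0) (XT.lf (nat_lit 0) (nat_lit 4806051912) (nat_lit 228) (nat_lit 13877185996) (nat_lit 76) (nat_lit 6347513041) (nat_lit 24) (nat_lit 5) (nat_lit 27) (nat_lit 5) (nat_lit 25) (nat_lit 5) (nat_lit 333) (nat_lit 310) (nat_lit 257)) (XT.nd (nat_lit 78) (nat_lit 152) (nat_lit 0) (XT.lf (nat_lit 0) (nat_lit 10060681066) (nat_lit 228) (nat_lit 1137004624) (nat_lit 76) (nat_lit 15149736809) (nat_lit 24) (nat_lit 5) (nat_lit 27) (nat_lit 5) (nat_lit 25) (nat_lit 5) (nat_lit 334) (nat_lit 310) (nat_lit 256)) (XT.lf (nat_lit 0) (nat_lit 13253447270) (nat_lit 152) (nat_lit 2780765455) (nat_lit 228) (nat_lit 11711355216) (nat_lit 22) (nat_lit 5) (nat_lit 24) (nat_lit 5) (nat_lit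 25) (nat_lit 5) (nat_lit 335) (nat_lit 310) (nat_lit 255))))))))
noncomputable def xc128 : XT := (XT.nd (nat_lit 1248) (nat_lit 532) (nat_lit 0) (XT.nd (nat_lit 624) (nat_lit 304) (nat_lit 0) (XT.nd (nat_lit 312) (nat_lit 228) (nat_lit 0) (XT.nd (nat_lit 156) (nat_lit 228) (nat_lit 0) (XT.nd (nat_lit 78) (nat_lit 76) (nat_lit 0) (XT.lf (nat_lit 0) (nat_lit 22649520627) (nat_lit 228) (nat_lit 578255915) (nat_lit 76) (nat_lit 6014698035) (nat_lit 22) (nat_lit 5) (nat_lit 25) (nat_lit 5) (nat_lit 23) (nat_lit 4) (nat_lit 336) (nat_lit 310) (nat_lit 254)) (XT.lf (nat_lit 0) (nat_lit 15101927331) (nat_lit 76) (nat_lit 15109272521) (nat_lit 152) (nat_lit 614581654) (nat_lit 21) (nat_lit 5) (nat_lit 22) (nat_lit 5) (nat_lit 23) (nat_lit 4) (nat_lit 337) (nat_lit 310) (nat_lit 253))) (XT.nd (nat_lit 78) (nat_lit 152) (nat_lit 0) (XT.lf (nat_lit 0) (nat_lit 5547930790) (nat_lit 152) (nat_lit 636222073)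 (nat_lit 76) (nat_lit 26340527596) (nat_lit 20) (nat_lit 5) (nat_lit 22) (nat_lit 5) (nat_lit 21) (nat_lit 5) (nat_lit 338) (nat_lit 310) (nat_lit 252)) (XT.lf (nat_lit 0) (nat_lit 12642282200) (nat_lit 228) (nat_lit 17984757111) (nat_lit 76) (nat_lit 3693427134) (nat_lit 18) (nat_lit 5) (nat_lit 21) (nat_lit 5) (nat_lit 19) (nat_lit 4) (nat_lit 339) (nat_lit 310) (nat_lit 251)))) (XT.nd (nat_lit 156) (nat_lit 152) (nat_lit 0) (XT.nd (nat_lit 78) (nat_lit 76) (nat_lit 0) (XT.lf (nat_lit 0) (nat_lit 20466208979) (nat_lit 228) (nat_lit 1746351360) (nat_lit 76) (nat_lit 14034407121) (nat_lit 18) (nat_lit 5) (nat_lit 21) (nat_lit 5) (nat_lit 19) (nat_lit 4) (nat_lit 340) (nat_lit 310) (nat_lit 250)) (XT.lf (nat_lit 0) (nat_lit 16595050449) (nat_lit 76) (nat_lit 12704881778) (nat_lit 152) (nat_lit 8996959012) (nat_lit 17) (nat_lit 5) (nat_lit 18) (nat_lit 5) (nat_lit 19) (nat_lit 4) (nat_lit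 341) (nat_lit 310) (nat_lit 249))) (XT.nd (nat_lit 78) (nat_lit 152) (nat_lit 0) (XT.lf (nat_lit 0) (nat_lit 36477516919) (nat_lit 76) (nat_lit 2395868982) (nat_lit 152) (nat_lit 1634792700) (nat_lit 17) (nat_lit 5) (nat_lit 18) (nat_lit 5) (nat_lit 19) (nat_lit 4) (nat_lit 342) (nat_lit 310) (nat_lit 248)) (XT.lf (nat_lit 0) (nat_lit 6586666570) (nat_lit 152) (nat_lit 27417508730) (nat_lit 76) (nat_lit 8833148410) (nat_lit 15) (nat_lit 5) (nat_lit 17) (nat_lit 5) (nat_lit 16) (nat_lit 4) (nat_lit 343) (nat_lit 310) (nat_lit 247))))) (XT.nd (nat_lit 312) (nat_lit 152) (nat_lit 0) (XT.nd (nat_lit 156) (nat_lit 76) (nat_lit 0) (XT.nd (nat_lit 78) (nat_lit 76) (nat_lit 0) (XT.lf (nat_lit 0) (nat_lit 15539046036) (nat_lit 152) (nat_lit 8820626190) (nat_lit 76) (nat_lit 20976819006) (nat_lit 15) (nat_lit 5) (nat_lit 17) (nat_lit 5) (nat_lit 16) (nat_lit 4) (nat_lit 344) (nat_lit 310) (nat_lit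 246)) (XT.lf (nat_lit 0) (nat_lit 11833129218) (nat_lit 76) (nat_lit 13646320392) (nat_lit 152) (nat_lit 22534404874) (nat_lit 14) (nat_lit 5) (nat_lit 15) (nat_lit 5) (nat_lit 16) (nat_lit 4) (nat_lit 345) (nat_lit 310) (nat_lit 245))) (XT.nd (nat_lit 78) (nat_lit 76) (nat_lit 0) (XT.lf (nat_lit 0) (nat_lit 34618580796) (nat_lit 76) (nat_lit 1825332726) (nat_lit 152) (nat_lit 14443195395) (nat_lit 14) (nat_lit 5) (nat_lit 15) (nat_lit 5) (nat_lit 16) (nat_lit 4) (nat_lit 346) (nat_lit 310) (nat_lit 244)) (XT.lf (nat_lit 0) (nat_lit 5212984787) (nat_lit 76) (nat_lit 43449411941) (nat_lit 76) (nat_lit 5297685744) (nat_lit 13) (nat_lit 4) (nat_lit 14) (nat_lit 5) (nat_lit 14) (nat_lit 4) (nat_lit 347) (nat_lit 310) (nat_lit 243)))) (XT.nd (nat_lit 156) (nat_lit 76) (nat_lit 0) (XT.nd (nat_lit 78) (nat_lit 0) (nat_lit 0) (XT.lf (nat_lit 0) (nat_lit 4842570678) (nat_lit 152) (nat_lit 28095558610)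 (nat_lit 76) (nat_lit 24292585211) (nat_lit 12) (nat_lit 5) (nat_lit 14) (nat_lit 5) (nat_lit 13) (nat_lit 4) (nat_lit 348) (nat_lit 310) (nat_lit 242)) (XT.lf (nat_lit 0) (nat_lit 15497107411) (nat_lit 152) (nat_lit 5949288339) (nat_lit 76) (nat_lit 39306457513) (nat_lit 12) (nat_lit 5) (nat_lit 14) (nat_lit 5) (nat_lit 13) (nat_lit 4) (nat_lit 349) (nat_lit 310) (nat_lit 241))) (XT.nd (nat_lit 78) (nat_lit 0) (nat_lit 0) (XT.lf (nat_lit 0) (nat_lit 18895593889) (nat_lit 76) (nat_lit 8552919746) (nat_lit 152) (nat_lit 37072694660) (nat_lit 11) (nat_lit 5) (nat_lit 12) (nat_lit 5) (nat_lit 13) (nat_lit 4) (nat_lit 350) (nat_lit 310) (nat_lit 240)) (XT.lf (nat_lit 0) (nat_lit 40642294337) (nat_lit 152) (nat_lit 22663470505) (nat_lit 0) (nat_lit 5262371199) (nat_lit 11) (nat_lit 5) (nat_lit 13) (nat_lit 4) (nat_lit 11) (nat_lit 4) (nat_lit 351) (nat_lit 310) (nat_lit 239)))))) (XT.nd (nat_lit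 624) (nat_lit 228) (nat_lit 0) (XT.nd (nat_lit 312) (nat_lit 76) (nat_lit 0) (XT.nd (nat_lit 156) (nat_lit 152) (nat_lit 0) (XT.nd (nat_lit 78) (nat_lit 0) (nat_lit 0) (XT.lf (nat_lit 0) (nat_lit 1996281668) (nat_lit 76) (nat_lit 53156363261) (nat_lit 76) (nat_lit 17765292561) (nat_lit 10) (nat_lit 4) (nat_lit 11) (nat_lit 5) (nat_lit 11) (nat_lit 4) (nat_lit 352) (nat_lit 310) (nat_lit 238)) (XT.lf (nat_lit 0) (nat_lit 29901066282) (nat_lit 76) (nat_lit 41533593456) (nat_lit 76) (nat_lit 6132200941) (nat_lit 10) (nat_lit 4) (nat_lit 11) (nat_lit 5) (nat_lit 11) (nat_lit 4) (nat_lit 353) (nat_lit 310) (nat_lit 237))) (XT.nd (nat_lit 78) (nat_lit 76) (nat_lit 0) (XT.lf (nat_lit 0) (nat_lit 6101420555) (nat_lit 152) (nat_lit 22719994997) (nat_lit 76) (nat_lit 53754582624) (nat_lit 9) (nat_lit 5) (nat_lit 11) (nat_lit 5) (nat_lit 10) (nat_lit 4) (nat_lit 354) (nat_lit 310) (nat_lit 236))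 (XT.lf (nat_lit 0) (nat_lit 4260647186) (nat_lit 76) (nat_lit 14816490425) (nat_lit 152) (nat_lit 68888414093) (nat_lit 8) (nat_lit 5) (nat_lit 9) (nat_lit 5) (nat_lit 10) (nat_lit 4) (nat_lit 355) (nat_lit 310) (nat_lit 235)))) (XT.nd (nat_lit 156) (nat_lit 76) (nat_lit 0) (XT.nd (nat_lit 78) (nat_lit 0) (nat_lit 0) (XT.lf (nat_lit 0) (nat_lit 33727982997) (nat_lit 152) (nat_lit 59083038237) (nat_lit 0) (nat_lit 924285926) (nat_lit 8) (nat_lit 5) (nat_lit 10) (nat_lit 4) (nat_lit 8) (nat_lit 4) (nat_lit 356) (nat_lit 310) (nat_lit 234)) (XT.lf (nat_lit 0) (nat_lit 49928613537) (nat_lit 152) (nat_lit 32889923574) (nat_lit 0) (nat_lit 17117891612) (nat_lit 8) (nat_lit 5) (nat_lit 10) (nat_lit 4) (nat_lit 8) (nat_lit 4) (nat_lit 357) (nat_lit 310) (nat_lit 233))) (XT.nd (nat_lit 78) (nat_lit 76) (nat_lit 0) (XT.lf (nat_lit 0) (nat_lit 67418696019) (nat_lit 152) (nat_lit 4614005123) (nat_lit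 0) (nat_lit 34601469598) (nat_lit 8) (nat_lit 5) (nat_lit 10) (nat_lit 4) (nat_lit 8) (nat_lit 4) (nat_lit 358) (nat_lit 310) (nat_lit 232)) (XT.lf (nat_lit 0) (nat_lit 27276772760) (nat_lit 76) (nat_lit 59681109654) (nat_lit 76) (nat_lit 26857860553) (nat_lit 7) (nat_lit 4) (nat_lit 8) (nat_lit 5) (nat_lit 8) (nat_lit 4) (nat_lit 359) (nat_lit 310) (nat_lit 231))))) (XT.nd (nat_lit 312) (nat_lit 76) (nat_lit 0) (XT.nd (nat_lit 156) (nat_lit 76) (nat_lit 0) (XT.nd (nat_lit 78) (nat_lit 76) (nat_lit 0) (XT.lf (nat_lit 0) (nat_lit 61969803167) (nat_lit 76) (nat_lit 46210624014) (nat_lit 76) (nat_lit 13381798356) (nat_lit 7) (nat_lit 4) (nat_lit 8) (nat_lit 5) (nat_lit 8) (nat_lit 4) (nat_lit 360) (nat_lit 310) (nat_lit 230)) (XT.lf (nat_lit 0) (nat_lit 1108066138) (nat_lit 152) (nat_lit 30529211566) (nat_lit 76) (nat_lit 98289346463) (nat_lit 6) (nat_lit 5) (nat_lit 8) (nat_lit 5) (nat_lit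 7) (nat_lit 4) (nat_lit 361) (nat_lit 310) (nat_lit 229))) (XT.nd (nat_lit 78) (nat_lit 0) (nat_lit 0) (XT.lf (nat_lit 0) (nat_lit 527819634) (nat_lit 76) (nat_lit 15513810061) (nat_lit 152) (nat_lit 122890142629) (nat_lit 5) (nat_lit 5) (nat_lit 6) (nat_lit 5) (nat_lit 7) (nat_lit 4) (nat_lit 362) (nat_lit 310) (nat_lit 228)) (XT.lf (nat_lit 0) (nat_lit 33066783423) (nat_lit 152) (nat_lit 112862382451) (nat_lit 0) (nat_lit 2656415846) (nat_lit 5) (nat_lit 5) (nat_lit 7) (nat_lit 4) (nat_lit 5) (nat_lit 4) (nat_lit 363) (nat_lit 310) (nat_lit 227)))) (XT.nd (nat_lit 156) (nat_lit 76) (nat_lit 0) (XT.nd (nat_lit 78) (nat_lit 0) (nat_lit 0) (XT.lf (nat_lit 0) (nat_lit 51852106820) (nat_lit 152) (nat_lit 85689794187) (nat_lit 0) (nat_lit 21437943933) (nat_lit 5) (nat_lit 5) (nat_lit 7) (nat_lit 4) (nat_lit 5) (nat_lit 4) (nat_lit 364) (nat_lit 310) (nat_lit 226)) (XT.lf (nat_lit 0) (nat_lit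 72135812816) (nat_lit 152) (nat_lit 56352057648) (nat_lit 0) (nat_lit 41718135752) (nat_lit 5) (nat_lit 5) (nat_lit 7) (nat_lit 4) (nat_lit 5) (nat_lit 4) (nat_lit 365) (nat_lit 310) (nat_lit 225))) (XT.nd (nat_lit 78) (nat_lit 76) (nat_lit 0) (XT.lf (nat_lit 0) (nat_lit 94038101150) (nat_lit 152) (nat_lit 24675319581) (nat_lit 0) (nat_lit 63617170220) (nat_lit 5) (nat_lit 5) (nat_lit 7) (nat_lit 4) (nat_lit 5) (nat_lit 4) (nat_lit 366) (nat_lit 310) (nat_lit 224)) (XT.lf (nat_lit 0) (nat_lit 10029868669) (nat_lit 76) (nat_lit 107900113075) (nat_lit 76) (nat_lit 77476169304) (nat_lit 4) (nat_lit 4) (nat_lit 5) (nat_lit 5) (nat_lit 5) (nat_lit 4) (nat_lit 367) (nat_lit 310) (nat_lit 223)))))))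
noncomputable def xc129 : XT := (XT.nd (nat_lit 1248) (nat_lit 76) (nat_lit 0) (XT.nd (nat_lit 624) (nat_lit 0) (nat_lit 0) (XT.nd (nat_lit 312) (nat_lit 152) (nat_lit 0) (XT.nd (nat_lit 156) (nat_lit 0) (nat_lit 0) (XT.nd (nat_lit 78) (nat_lit 0) (nat_lit 0) (XT.lf (nat_lit 0) (nat_lit 48907543692) (nat_lit 76) (nat_lit 95496634830) (nat_lit 76) (nat_lit 65069901393) (nat_lit 4) (nat_lit 4) (nat_lit 5) (nat_lit 5) (nat_lit 5) (nat_lit 4) (nat_lit 368) (nat_lit 310) (nat_lit 222)) (XT.lf (nat_lit 0) (nat_lit 90888733108) (nat_lit 76) (nat_lit 82104150869) (nat_lit 76) (nat_lit 51674834408) (nat_lit 4) (nat_lit 4) (nat_lit 5) (nat_lit 5) (nat_lit 5) (nat_lit 4) (nat_lit 369) (nat_lit 310) (nat_lit 221))) (XT.nd (nat_lit 78) (nat_lit 0) (nat_lit 0) (XT.lf (nat_lit 0) (nat_lit 136222214338) (nat_lit 76) (nat_lit 67643298325) (nat_lit 76) (nat_lit 37211590175) (nat_lit 4) (nat_lit 4) (nat_lit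 5) (nat_lit 5) (nat_lit 5) (nat_lit 4) (nat_lit 370) (nat_lit 310) (nat_lit 220)) (XT.lf (nat_lit 0) (nat_lit 185176630231) (nat_lit 76) (nat_lit 52028383257) (nat_lit 76) (nat_lit 21594460579) (nat_lit 4) (nat_lit 4) (nat_lit 5) (nat_lit 5) (nat_lit 5) (nat_lit 4) (nat_lit 371) (nat_lit 310) (nat_lit 219)))) (XT.nd (nat_lit 156) (nat_lit 76) (nat_lit 0) (XT.nd (nat_lit 78) (nat_lit 76) (nat_lit 0) (XT.lf (nat_lit 0) (nat_lit 238042081032) (nat_lit 76) (nat_lit 35166872835) (nat_lit 76) (nat_lit 4730899669) (nat_lit 4) (nat_lit 4) (nat_lit 5) (nat_lit 5) (nat_lit 5) (nat_lit 4) (nat_lit 372) (nat_lit 310) (nat_lit 218)) (XT.lf (nat_lit 0) (nat_lit 12804749360) (nat_lit 152) (nat_lit 3803993096) (nat_lit 76) (nat_lit 281976989584) (nat_lit 3) (nat_lit 5) (nat_lit 5) (nat_lit 5) (nat_lit 4) (nat_lit 4) (nat_lit 373) (nat_lit 310) (nat_lit 217))) (XT.nd (nat_lit 78) (nat_lit 0) (nat_lit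 0) (XT.lf (nat_lit 0) (nat_lit 32481372785) (nat_lit 152) (nat_lit 284016050756) (nat_lit 0) (nat_lit 4296530443) (nat_lit 2) (nat_lit 5) (nat_lit 4) (nat_lit 4) (nat_lit 2) (nat_lit 4) (nat_lit 374) (nat_lit 310) (nat_lit 216)) (XT.lf (nat_lit 0) (nat_lit 54267851242) (nat_lit 152) (nat_lit 264386623355) (nat_lit 0) (nat_lit 26081501731) (nat_lit 2) (nat_lit 5) (nat_lit 4) (nat_lit 4) (nat_lit 2) (nat_lit 4) (nat_lit 375) (nat_lit 310) (nat_lit 215))))) (XT.nd (nat_lit 312) (nat_lit 0) (nat_lit 0) (XT.nd (nat_lit 156) (nat_lit 0) (nat_lit 0) (XT.nd (nat_lit 78) (nat_lit 0) (nat_lit 0) (XT.lf (nat_lit 0) (nat_lit 77795044120) (nat_lit 152) (nat_lit 243191194179) (nat_lit 0) (nat_lit 49607299080) (nat_lit 2) (nat_lit 5) (nat_lit 4) (nat_lit 4) (nat_lit 2) (nat_lit 4) (nat_lit 376) (nat_lit 310) (nat_lit 214)) (XT.lf (nat_lit 0) (nat_lit 103202371819) (nat_lit 152) (nat_lit 220304160686)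 (nat_lit 0) (nat_lit 75013334625) (nat_lit 2) (nat_lit 5) (nat_lit 4) (nat_lit 4) (nat_lit 2) (nat_lit 4) (nat_lit 377) (nat_lit 310) (nat_lit 213))) (XT.nd (nat_lit 78) (nat_lit 0) (nat_lit 0) (XT.lf (nat_lit 0) (nat_lit 130640396283) (nat_lit 152) (nat_lit 195589896009) (nat_lit 0) (nat_lit 102450162648) (nat_lit 2) (nat_lit 5) (nat_lit 4) (nat_lit 4) (nat_lit 2) (nat_lit 4) (nat_lit 378) (nat_lit 310) (nat_lit 212)) (XT.lf (nat_lit 0) (nat_lit 160271713210) (nat_lit 152) (nat_lit 168901945248) (nat_lit 0) (nat_lit 132080371760) (nat_lit 2) (nat_lit 5) (nat_lit 4) (nat_lit 4) (nat_lit 2) (nat_lit 4) (nat_lit 379) (nat_lit 310) (nat_lit 211)))) (XT.nd (nat_lit 156) (nat_lit 0) (nat_lit 0) (XT.nd (nat_lit 78) (nat_lit 0) (nat_lit 0) (XT.lf (nat_lit 0) (nat_lit 192271915592) (nat_lit 152) (nat_lit 140082157583) (nat_lit 0) (nat_lit 164079548387) (nat_lit 2) (nat_lit 5) (nat_lit 4) (nat_lit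 4) (nat_lit 2) (nat_lit 4) (nat_lit 380) (nat_lit 310) (nat_lit 210)) (XT.lf (nat_lit 0) (nat_lit 226830634255) (nat_lit 152) (nat_lit 108959749086) (nat_lit 0) (nat_lit 198637317278) (nat_lit 2) (nat_lit 5) (nat_lit 4) (nat_lit 4) (nat_lit 2) (nat_lit 4) (nat_lit 381) (nat_lit 310) (nat_lit 209))) (XT.nd (nat_lit 78) (nat_lit 0) (nat_lit 0) (XT.lf (nat_lit 0) (nat_lit 264152661608) (nat_lit 152) (nat_lit 75350290671) (nat_lit 0) (nat_lit 235958465212) (nat_lit 2) (nat_lit 5) (nat_lit 4) (nat_lit 4) (nat_lit 2) (nat_lit 4) (nat_lit 382) (nat_lit 310) (nat_lit 208)) (XT.lf (nat_lit 0) (nat_lit 304459165220) (nat_lit 152) (nat_lit 39054615177) (nat_lit 0) (nat_lit 276264154547) (nat_lit 2) (nat_lit 5) (nat_lit 4) (nat_lit 4) (nat_lit 2) (nat_lit 4) (nat_lit 383) (nat_lit 310) (nat_lit 207)))))) (XT.nd (nat_lit 624) (nat_lit 0) (nat_lit 0) (XT.nd (nat_lit 312) (nat_lit 0) (nat_lit 0) (XT.nd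 (nat_lit 156) (nat_lit 0) (nat_lit 0) (XT.nd (nat_lit 78) (nat_lit 0) (nat_lit 0) (XT.lf (nat_lit 0) (nat_lit 149859457) (nat_lit 76) (nat_lit 347842743112) (nat_lit 76) (nat_lit 319646978478) (nat_lit 1) (nat_lit 4) (nat_lit 2) (nat_lit 5) (nat_lit 2) (nat_lit 4) (nat_lit 384) (nat_lit 310) (nat_lit 206)) (XT.lf (nat_lit 0) (nat_lit 44709470688) (nat_lit 76) (nat_lit 351365909008) (nat_lit 76) (nat_lit 323169446263) (nat_lit 1) (nat_lit 4) (nat_lit 2) (nat_lit 5) (nat_lit 2) (nat_lit 4) (nat_lit 385) (nat_lit 310) (nat_lit 205))) (XT.nd (nat_lit 78) (nat_lit 0) (nat_lit 0) (XT.lf (nat_lit 0) (nat_lit 92831728648) (nat_lit 76) (nat_lit 355171978497) (nat_lit 76) (nat_lit 326974869353) (nat_lit 1) (nat_lit 4) (nat_lit 2) (nat_lit 5) (nat_lit 2) (nat_lit 4) (nat_lit 386) (nat_lit 310) (nat_lit 204)) (XT.lf (nat_lit 0) (nat_lit 144801802270) (nat_lit 76) (nat_lit 359283506064) (nat_lit 76)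 (nat_lit 331085798402) (nat_lit 1) (nat_lit 4) (nat_lit 2) (nat_lit 5) (nat_lit 2) (nat_lit 4) (nat_lit 387) (nat_lit 310) (nat_lit 203)))) (XT.nd (nat_lit 156) (nat_lit 0) (nat_lit 0) (XT.nd (nat_lit 78) (nat_lit 0) (nat_lit 0) (XT.lf (nat_lit 0) (nat_lit 200927662363) (nat_lit 76) (nat_lit 363724856317) (nat_lit 76) (nat_lit 335526594471) (nat_lit 1) (nat_lit 4) (nat_lit 2) (nat_lit 5) (nat_lit 2) (nat_lit 4) (nat_lit 388) (nat_lit 310) (nat_lit 202)) (XT.lf (nat_lit 0) (nat_lit 261541906616) (nat_lit 76) (nat_lit 368522348368) (nat_lit 76) (nat_lit 340323573390) (nat_lit 1) (nat_lit 4) (nat_lit 2) (nat_lit 5) (nat_lit 2) (nat_lit 4) (nat_lit 389) (nat_lit 310) (nat_lit 201))) (XT.nd (nat_lit 78) (nat_lit 0) (nat_lit 0) (XT.lf (nat_lit 0) (nat_lit 327003730550) (nat_lit 76) (nat_lit 373704411801) (nat_lit 76) (nat_lit 345505161700) (nat_lit 1) (nat_lit 4) (nat_lit 2) (nat_lit 5) (nat_lit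 2) (nat_lit 4) (nat_lit 390) (nat_lit 310) (nat_lit 200)) (XT.lf (nat_lit 0) (nat_lit 397701056084) (nat_lit 76) (nat_lit 379301755139) (nat_lit 76) (nat_lit 351102065109) (nat_lit 1) (nat_lit 4) (nat_lit 2) (nat_lit 5) (nat_lit 2) (nat_lit 4) (nat_lit 391) (nat_lit 310) (nat_lit 199))))) (XT.nd (nat_lit 312) (nat_lit 0) (nat_lit 0) (XT.nd (nat_lit 156) (nat_lit 0) (nat_lit 0) (XT.nd (nat_lit 78) (nat_lit 0) (nat_lit 0) (XT.lf (nat_lit 0) (nat_lit 474052830334) (nat_lit 76) (nat_lit 385347547823) (nat_lit 76) (nat_lit 357147450453) (nat_lit 1) (nat_lit 4) (nat_lit 2) (nat_lit 5) (nat_lit 2) (nat_lit 4) (nat_lit 392) (nat_lit 310) (nat_lit 198)) (XT.lf (nat_lit 0) (nat_lit 556511508257) (nat_lit 76) (nat_lit 391877616775) (nat_lit 76) (nat_lit 363677142236) (nat_lit 1) (nat_lit 4) (nat_lit 2) (nat_lit 5) (nat_lit 2) (nat_lit 4) (nat_lit 393) (nat_lit 310) (nat_lit 197))) (XT.nd (nat_lit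 78) (nat_lit 0) (nat_lit 0) (XT.lf (nat_lit 0) (nat_lit 645565733871) (nat_lit 76) (nat_lit 398930658698) (nat_lit 76) (nat_lit 370729834930) (nat_lit 1) (nat_lit 4) (nat_lit 2) (nat_lit 5) (nat_lit 2) (nat_lit 4) (nat_lit 394) (nat_lit 310) (nat_lit 196)) (XT.lf (nat_lit 0) (nat_lit 741743235920) (nat_lit 76) (nat_lit 406548469397) (nat_lit 76) (nat_lit 378347322268) (nat_lit 1) (nat_lit 4) (nat_lit 2) (nat_lit 5) (nat_lit 2) (nat_lit 4) (nat_lit 395) (nat_lit 310) (nat_lit 195)))) (XT.nd (nat_lit 156) (nat_lit 0) (nat_lit 0) (XT.nd (nat_lit 78) (nat_lit 0) (nat_lit 0) (XT.lf (nat_lit 0) (nat_lit 845613955157) (nat_lit 76) (nat_lit 414776191453) (nat_lit 76) (nat_lit 386574744916) (nat_lit 1) (nat_lit 4) (nat_lit 2) (nat_lit 5) (nat_lit 2) (nat_lit 4) (nat_lit 396) (nat_lit 310) (nat_lit 194)) (XT.lf (nat_lit 0) (nat_lit 957793421771) (nat_lit 76) (nat_lit 423662581738) (nat_lit 76)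 (nat_lit 395460857972) (nat_lit 1) (nat_lit 4) (nat_lit 2) (nat_lit 5) (nat_lit 2) (nat_lit 4) (nat_lit 397) (nat_lit 310) (nat_lit 193))) (XT.nd (nat_lit 78) (nat_lit 0) (nat_lit 0) (XT.lf (nat_lit 0) (nat_lit 1078946402970) (nat_lit 76) (nat_lit 433260300343) (nat_lit 76) (nat_lit 405058319883) (nat_lit 1) (nat_lit 4) (nat_lit 2) (nat_lit 5) (nat_lit 2) (nat_lit 4) (nat_lit 398) (nat_lit 310) (nat_lit 192)) (XT.nd (nat_lit 78) (nat_lit 0) (nat_lit 0) (XT.lf (nat_lit 0) (nat_lit 1209790842348) (nat_lit 76) (nat_lit 443626222637) (nat_lit 76) (nat_lit 415424004497) (nat_lit 1) (nat_lit 4) (nat_lit 2) (nat_lit 5) (nat_lit 2) (nat_lit 4) (nat_lit 399) (nat_lit 310) (nat_lit 191)) (XT.lf (nat_lit 0) (nat_lit 1351102114359) (nat_lit 76) (nat_lit 454821776308) (nat_lit 76) (nat_lit 426619338094) (nat_lit 1) (nat_lit 4) (nat_lit 2) (nat_lit 5) (nat_lit 2) (nat_lit 4) (nat_lit 400) (nat_lit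 310) (nat_lit 190))))))))
noncomputable def xc130 : XT := (XT.nd (nat_lit 40404) (nat_lit 0) (nat_lit 1900) (XT.nd (nat_lit 624) (nat_lit 0) (nat_lit 0) (XT.nd (nat_lit 312) (nat_lit 0) (nat_lit 0) (XT.nd (nat_lit 156) (nat_lit 0) (nat_lit 0) (XT.nd (nat_lit 78) (nat_lit 0) (nat_lit 0) (XT.lf (nat_lit 0) (nat_lit 1503717619134) (nat_lit 76) (nat_lit 466913305377) (nat_lit 76) (nat_lit 438710663391) (nat_lit 1) (nat_lit 4) (nat_lit 2) (nat_lit 5) (nat_lit 2) (nat_lit 4) (nat_lit 401) (nat_lit 310) (nat_lit 189)) (XT.lf (nat_lit 0) (nat_lit 1668541744850) (nat_lit 76) (nat_lit 479972463351) (nat_lit 76) (nat_lit 451769632687) (nat_lit 1) (nat_lit 4) (nat_lit 2) (nat_lit 5) (nat_lit 2) (nat_lit 4) (nat_lit 402) (nat_lit 310) (nat_lit 188))) (XT.nd (nat_lit 78) (nat_lit 0) (nat_lit 0) (XT.lf (nat_lit 0) (nat_lit 1846551227066) (nat_lit 76) (nat_lit 494076637831) (nat_lit 76) (nat_lit 465873632465)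 (nat_lit 1) (nat_lit 4) (nat_lit 2) (nat_lit 5) (nat_lit 2) (nat_lit 4) (nat_lit 403) (nat_lit 310) (nat_lit 187)) (XT.lf (nat_lit 0) (nat_lit 2038800936788) (nat_lit 76) (nat_lit 509309409111) (nat_lit 76) (nat_lit 481106241985) (nat_lit 1) (nat_lit 4) (nat_lit 2) (nat_lit 5) (nat_lit 2) (nat_lit 4) (nat_lit 404) (nat_lit 310) (nat_lit 186)))) (XT.nd (nat_lit 156) (nat_lit 0) (nat_lit 0) (XT.nd (nat_lit 78) (nat_lit 0) (nat_lit 0) (XT.lf (nat_lit 0) (nat_lit 2246430131555) (nat_lit 76) (nat_lit 525761045466) (nat_lit 76) (nat_lit 497557728561) (nat_lit 1) (nat_lit 4) (nat_lit 2) (nat_lit 5) (nat_lit 2) (nat_lit 4) (nat_lit 405) (nat_lit 310) (nat_lit 185)) (XT.lf (nat_lit 0) (nat_lit 2470669206596) (nat_lit 76) (nat_lit 543529038073) (nat_lit 76) (nat_lit 515325582485) (nat_lit 1) (nat_lit 4) (nat_lit 2) (nat_lit 5) (nat_lit 2) (nat_lit 4) (nat_lit 406) (nat_lit 310) (nat_lit 184)))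 (XT.nd (nat_lit 78) (nat_lit 0) (nat_lit 0) (XT.lf (nat_lit 0) (nat_lit 2712846986058) (nat_lit 76) (nat_lit 562718678741) (nat_lit 76) (nat_lit 534515094742) (nat_lit 1) (nat_lit 4) (nat_lit 2) (nat_lit 5) (nat_lit 2) (nat_lit 4) (nat_lit 407) (nat_lit 310) (nat_lit 183)) (XT.lf (nat_lit 0) (nat_lit 2974398597524) (nat_lit 76) (nat_lit 583443683860) (nat_lit 76) (nat_lit 555239980961) (nat_lit 1) (nat_lit 4) (nat_lit 2) (nat_lit 5) (nat_lit 2) (nat_lit 4) (nat_lit 408) (nat_lit 310) (nat_lit 182))))) (XT.nd (nat_lit 39468) (nat_lit 0) (nat_lit 3876) (XT.nd (nat_lit 39312) (nat_lit 0) (nat_lit 3800) (XT.nd (nat_lit 39234) (nat_lit 0) (nat_lit 3800) (XT.lf (nat_lit 0) (nat_lit 3256873976470) (nat_lit 76) (nat_lit 605826868273) (nat_lit 76) (nat_lit 577623055283) (nat_lit 1) (nat_lit 4) (nat_lit 2) (nat_lit 5) (nat_lit 2) (nat_lit 4) (nat_lit 409) (nat_lit 310) (nat_lit 181)) (XT.lf (nat_lit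 0) (nat_lit 546137629) (nat_lit 532) (nat_lit 2224043012) (nat_lit 532) (nat_lit 2224043012) (nat_lit 51) (nat_lit 3) (nat_lit 58) (nat_lit 3) (nat_lit 58) (nat_lit 5) (nat_lit 311) (nat_lit 311) (nat_lit 278))) (XT.nd (nat_lit 78) (nat_lit 0) (nat_lit 76) (XT.lf (nat_lit 76) (nat_lit 256671660) (nat_lit 0) (nat_lit 1553581009) (nat_lit 532) (nat_lit 8522348255) (nat_lit 52) (nat_lit 5) (nat_lit 51) (nat_lit 3) (nat_lit 58) (nat_lit 5) (nat_lit 312) (nat_lit 311) (nat_lit 277)) (XT.lf (nat_lit 0) (nat_lit 2709589685) (nat_lit 456) (nat_lit 5217479801) (nat_lit 532) (nat_lit 2767447838) (nat_lit 52) (nat_lit 5) (nat_lit 58) (nat_lit 5) (nat_lit 59) (nat_lit 5) (nat_lit 313) (nat_lit 311) (nat_lit 276)))) (XT.nd (nat_lit 156) (nat_lit 0) (nat_lit 76) (XT.nd (nat_lit 78) (nat_lit 0) (nat_lit 76) (XT.lf (nat_lit 0) (nat_lit 3659147579) (nat_lit 456) (nat_lit 51772886) (nat_lit 532) (nat_lit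 7376338181) (nat_lit 52) (nat_lit 5) (nat_lit 58) (nat_lit 5) (nat_lit 59) (nat_lit 5) (nat_lit 314) (nat_lit 311) (nat_lit 275)) (XT.lf (nat_lit 0) (nat_lit 4790496029) (nat_lit 456) (nat_lit 5751147590) (nat_lit 532) (nat_lit 961433213) (nat_lit 53) (nat_lit 5) (nat_lit 59) (nat_lit 5) (nat_lit 60) (nat_lit 5) (nat_lit 315) (nat_lit 311) (nat_lit 274))) (XT.nd (nat_lit 78) (nat_lit 0) (nat_lit 0) (XT.lf (nat_lit 0) (nat_lit 6056488430) (nat_lit 456) (nat_lit 67514550) (nat_lit 532) (nat_lit 5824741084) (nat_lit 53) (nat_lit 5) (nat_lit 59) (nat_lit 5) (nat_lit 60) (nat_lit 5) (nat_lit 316) (nat_lit 311) (nat_lit 273)) (XT.lf (nat_lit 76) (nat_lit 6349633399) (nat_lit 0) (nat_lit 1177109918) (nat_lit 532) (nat_lit 4895188703) (nat_lit 54) (nat_lit 5) (nat_lit 53) (nat_lit 5) (nat_lit 60) (nat_lit 5) (nat_lit 317) (nat_lit 311) (nat_lit 272)))))) (XT.nd (nat_lit 624) (nat_lit 836) (nat_lit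 0) (XT.nd (nat_lit 312) (nat_lit 456) (nat_lit 0) (XT.nd (nat_lit 156) (nat_lit 380) (nat_lit 0) (XT.nd (nat_lit 78) (nat_lit 0) (nat_lit 0) (XT.lf (nat_lit 0) (nat_lit 220042380) (nat_lit 456) (nat_lit 8955210700) (nat_lit 532) (nat_lit 3752969319) (nat_lit 48) (nat_lit 5) (nat_lit 54) (nat_lit 5) (nat_lit 55) (nat_lit 5) (nat_lit 318) (nat_lit 311) (nat_lit 271)) (XT.lf (nat_lit 0) (nat_lit 7288082854) (nat_lit 456) (nat_lit 3819135227) (nat_lit 532) (nat_lit 2355762845) (nat_lit 48) (nat_lit 5) (nat_lit 54) (nat_lit 5) (nat_lit 55) (nat_lit 5) (nat_lit 319) (nat_lit 311) (nat_lit 270))) (XT.nd (nat_lit 78) (nat_lit 76) (nat_lit 0) (XT.lf (nat_lit 0) (nat_lit 840272532) (nat_lit 304) (nat_lit 12374331399) (nat_lit 380) (nat_lit 824331255) (nat_lit 44) (nat_lit 5) (nat_lit 48) (nat_lit 5) (nat_lit 49) (nat_lit 5) (nat_lit 320) (nat_lit 311) (nat_lit 269)) (XT.lf (nat_lit 0) (nat_lit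 1020610998) (nat_lit 380) (nat_lit 6045549604) (nat_lit 76) (nat_lit 7574681396) (nat_lit 43) (nat_lit 5) (nat_lit 48) (nat_lit 5) (nat_lit 44) (nat_lit 5) (nat_lit 321) (nat_lit 311) (nat_lit 268)))) (XT.nd (nat_lit 156) (nat_lit 228) (nat_lit 0) (XT.nd (nat_lit 78) (nat_lit 0) (nat_lit 0) (XT.lf (nat_lit 0) (nat_lit 1704419455) (nat_lit 228) (nat_lit 1268222793) (nat_lit 304) (nat_lit 12316290692) (nat_lit 40) (nat_lit 5) (nat_lit 43) (nat_lit 5) (nat_lit 44) (nat_lit 5) (nat_lit 322) (nat_lit 311) (nat_lit 267)) (XT.lf (nat_lit 0) (nat_lit 5335301368) (nat_lit 304) (nat_lit 5722883058) (nat_lit 76) (nat_lit 4910391350) (nat_lit 40) (nat_lit 5) (nat_lit 44) (nat_lit 5) (nat_lit 41) (nat_lit 5) (nat_lit 323) (nat_lit 311) (nat_lit 266))) (XT.nd (nat_lit 78) (nat_lit 0) (nat_lit 0) (XT.lf (nat_lit 0) (nat_lit 2838733583) (nat_lit 228) (nat_lit 5116841842) (nat_lit 304) (nat_lit 8741583702)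 (nat_lit 37) (nat_lit 5) (nat_lit 40) (nat_lit 5) (nat_lit 41) (nat_lit 5) (nat_lit 324) (nat_lit 311) (nat_lit 265)) (XT.lf (nat_lit 0) (nat_lit 10946040856) (nat_lit 304) (nat_lit 5135533540) (nat_lit 76) (nat_lit 1389662219) (nat_lit 37) (nat_lit 5) (nat_lit 41) (nat_lit 5) (nat_lit 38) (nat_lit 5) (nat_lit 325) (nat_lit 311) (nat_lit 264))))) (XT.nd (nat_lit 312) (nat_lit 380) (nat_lit 0) (XT.nd (nat_lit 156) (nat_lit 304) (nat_lit 0) (XT.nd (nat_lit 78) (nat_lit 0) (nat_lit 0) (XT.lf (nat_lit 0) (nat_lit 4332492741) (nat_lit 152) (nat_lit 10051436588) (nat_lit 228) (nat_lit 3906705205) (nat_lit 35) (nat_lit 5) (nat_lit 37) (nat_lit 5) (nat_lit 38) (nat_lit 5) (nat_lit 326) (nat_lit 311) (nat_lit 263)) (XT.lf (nat_lit 0) (nat_lit 14814427115) (nat_lit 152) (nat_lit 3395206438) (nat_lit 228) (nat_lit 956973420) (nat_lit 35) (nat_lit 5) (nat_lit 37) (nat_lit 5) (nat_lit 38) (nat_lit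 5) (nat_lit 327) (nat_lit 311) (nat_lit 262))) (XT.nd (nat_lit 78) (nat_lit 0) (nat_lit 0) (XT.lf (nat_lit 0) (nat_lit 2337527582) (nat_lit 304) (nat_lit 13948062939) (nat_lit 76) (nat_lit 3805195076) (nat_lit 31) (nat_lit 5) (nat_lit 35) (nat_lit 5) (nat_lit 32) (nat_lit 5) (nat_lit 328) (nat_lit 311) (nat_lit 261)) (XT.lf (nat_lit 0) (nat_lit 6028813871) (nat_lit 304) (nat_lit 3506142531) (nat_lit 76) (nat_lit 11537195550) (nat_lit 31) (nat_lit 5) (nat_lit 35) (nat_lit 5) (nat_lit 32) (nat_lit 5) (nat_lit 329) (nat_lit 311) (nat_lit 260)))) (XT.nd (nat_lit 156) (nat_lit 228) (nat_lit 0) (XT.nd (nat_lit 78) (nat_lit 0) (nat_lit 0) (XT.lf (nat_lit 0) (nat_lit 8145881705) (nat_lit 152) (nat_lit 2041959938) (nat_lit 228) (nat_lit 11930424299) (nat_lit 29) (nat_lit 5) (nat_lit 31) (nat_lit 5) (nat_lit 32) (nat_lit 5) (nat_lit 330) (nat_lit 311) (nat_lit 259)) (XT.lf (nat_lit 0) (nat_lit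 14900734503) (nat_lit 228) (nat_lit 2492454127) (nat_lit 76) (nat_lit 5837219932) (nat_lit 29) (nat_lit 5) (nat_lit 32) (nat_lit 5) (nat_lit 30) (nat_lit 5) (nat_lit 331) (nat_lit 311) (nat_lit 258))) (XT.nd (nat_lit 78) (nat_lit 76) (nat_lit 0) (XT.lf (nat_lit 0) (nat_lit 10338998216) (nat_lit 152) (nat_lit 9932309649) (nat_lit 228) (nat_lit 4137791449) (nat_lit 27) (nat_lit 5) (nat_lit 29) (nat_lit 5) (nat_lit 30) (nat_lit 5) (nat_lit 332) (nat_lit 311) (nat_lit 257)) (XT.lf (nat_lit 0) (nat_lit 419117575) (nat_lit 228) (nat_lit 1380419790) (nat_lit 76) (nat_lit 23877890653) (nat_lit 26) (nat_lit 5) (nat_lit 29) (nat_lit 5) (nat_lit 27) (nat_lit 5) (nat_lit 333) (nat_lit 311) (nat_lit 256)))))))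
noncomputable def xc131 : XT := (XT.nd (nat_lit 1248) (nat_lit 532) (nat_lit 0) (XT.nd (nat_lit 624) (nat_lit 456) (nat_lit 0) (XT.nd (nat_lit 312) (nat_lit 304) (nat_lit 0) (XT.nd (nat_lit 156) (nat_lit 152) (nat_lit 0) (XT.nd (nat_lit 78) (nat_lit 0) (nat_lit 0) (XT.lf (nat_lit 0) (nat_lit 5584894698) (nat_lit 228) (nat_lit 14364319455) (nat_lit 76) (nat_lit 7052004510) (nat_lit 24) (nat_lit 5) (nat_lit 27) (nat_lit 5) (nat_lit 25) (nat_lit 5) (nat_lit 334) (nat_lit 311) (nat_lit 255)) (XT.lf (nat_lit 0) (nat_lit 11230682434) (nat_lit 228) (nat_lit 651074790) (nat_lit 76) (nat_lit 16543836519) (nat_lit 24) (nat_lit 5) (nat_lit 27) (nat_lit 5) (nat_lit 25) (nat_lit 5) (nat_lit 335) (nat_lit 311) (nat_lit 254))) (XT.nd (nat_lit 78) (nat_lit 0) (nat_lit 0) (XT.lf (nat_lit 0) (nat_lit 14876008441) (nat_lit 152) (nat_lit 2792563244) (nat_lit 228) (nat_lit 12268131559) (nat_lit 22) (nat_lit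 5) (nat_lit 24) (nat_lit 5) (nat_lit 25) (nat_lit 5) (nat_lit 336) (nat_lit 311) (nat_lit 253)) (XT.lf (nat_lit 0) (nat_lit 24791749318) (nat_lit 228) (nat_lit 82174666) (nat_lit 76) (nat_lit 6681174997) (nat_lit 22) (nat_lit 5) (nat_lit 25) (nat_lit 5) (nat_lit 23) (nat_lit 4) (nat_lit 337) (nat_lit 311) (nat_lit 252)))) (XT.nd (nat_lit 156) (nat_lit 152) (nat_lit 0) (XT.nd (nat_lit 78) (nat_lit 76) (nat_lit 0) (XT.lf (nat_lit 0) (nat_lit 16838693070) (nat_lit 76) (nat_lit 16107918707) (nat_lit 152) (nat_lit 319424865) (nat_lit 21) (nat_lit 5) (nat_lit 22) (nat_lit 5) (nat_lit 23) (nat_lit 4) (nat_lit 338) (nat_lit 311) (nat_lit 251)) (XT.lf (nat_lit 0) (nat_lit 6294634582) (nat_lit 152) (nat_lit 181436549) (nat_lit 76) (nat_lit 28626074632) (nat_lit 20) (nat_lit 5) (nat_lit 22) (nat_lit 5) (nat_lit 21) (nat_lit 5) (nat_lit 339) (nat_lit 311) (nat_lit 250))) (XT.nd (nat_lit 78) (nat_lit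 0) (nat_lit 0) (XT.lf (nat_lit 0) (nat_lit 13950777405) (nat_lit 228) (nat_lit 18911838813) (nat_lit 76) (nat_lit 4179459654) (nat_lit 18) (nat_lit 5) (nat_lit 21) (nat_lit 5) (nat_lit 19) (nat_lit 4) (nat_lit 340) (nat_lit 311) (nat_lit 249)) (XT.lf (nat_lit 0) (nat_lit 22378609984) (nat_lit 228) (nat_lit 1412264222) (nat_lit 76) (nat_lit 15333602606) (nat_lit 18) (nat_lit 5) (nat_lit 21) (nat_lit 5) (nat_lit 19) (nat_lit 4) (nat_lit 341) (nat_lit 311) (nat_lit 248))))) (XT.nd (nat_lit 312) (nat_lit 228) (nat_lit 0) (XT.nd (nat_lit 156) (nat_lit 152) (nat_lit 0) (XT.nd (nat_lit 78) (nat_lit 0) (nat_lit 0) (XT.lf (nat_lit 0) (nat_lit 18384454915) (nat_lit 76) (nat_lit 13525304392) (nat_lit 152) (nat_lit 9429394685) (nat_lit 17) (nat_lit 5) (nat_lit 18) (nat_lit 5) (nat_lit 19) (nat_lit 4) (nat_lit 342) (nat_lit 311) (nat_lit 247)) (XT.lf (nat_lit 0) (nat_lit 39823311264) (nat_lit 76)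 (nat_lit 2406086716) (nat_lit 152) (nat_lit 1499538108) (nat_lit 17) (nat_lit 5) (nat_lit 18) (nat_lit 5) (nat_lit 19) (nat_lit 4) (nat_lit 343) (nat_lit 311) (nat_lit 246))) (XT.nd (nat_lit 78) (nat_lit 0) (nat_lit 0) (XT.lf (nat_lit 0) (nat_lit 7362411693) (nat_lit 152) (nat_lit 29165723756) (nat_lit 76) (nat_lit 9716093027) (nat_lit 15) (nat_lit 5) (nat_lit 17) (nat_lit 5) (nat_lit 16) (nat_lit 4) (nat_lit 344) (nat_lit 311) (nat_lit 245)) (XT.lf (nat_lit 0) (nat_lit 17012551013) (nat_lit 152) (nat_lit 9114067329) (nat_lit 76) (nat_lit 22818198549) (nat_lit 15) (nat_lit 5) (nat_lit 17) (nat_lit 5) (nat_lit 16) (nat_lit 4) (nat_lit 345) (nat_lit 311) (nat_lit 244)))) (XT.nd (nat_lit 156) (nat_lit 152) (nat_lit 0) (XT.nd (nat_lit 78) (nat_lit 0) (nat_lit 0) (XT.lf (nat_lit 0) (nat_lit 13181552843) (nat_lit 76) (nat_lit 14559231407) (nat_lit 152) (nat_lit 24096189248) (nat_lit 14) (nat_lit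 5) (nat_lit 15) (nat_lit 5) (nat_lit 16) (nat_lit 4) (nat_lit 346) (nat_lit 311) (nat_lit 243)) (XT.lf (nat_lit 0) (nat_lit 37760079562) (nat_lit 76) (nat_lit 1805808773) (nat_lit 152) (nat_lit 15375532493) (nat_lit 14) (nat_lit 5) (nat_lit 15) (nat_lit 5) (nat_lit 16) (nat_lit 4) (nat_lit 347) (nat_lit 311) (nat_lit 242))) (XT.nd (nat_lit 78) (nat_lit 76) (nat_lit 0) (XT.lf (nat_lit 0) (nat_lit 6004972252) (nat_lit 76) (nat_lit 46754288578) (nat_lit 76) (nat_lit 5501188946) (nat_lit 13) (nat_lit 4) (nat_lit 14) (nat_lit 5) (nat_lit 14) (nat_lit 4) (nat_lit 348) (nat_lit 311) (nat_lit 241)) (XT.lf (nat_lit 0) (nat_lit 5423764087) (nat_lit 152) (nat_lit 29985713045) (nat_lit 76) (nat_lit 26384080478) (nat_lit 12) (nat_lit 5) (nat_lit 14) (nat_lit 5) (nat_lit 13) (nat_lit 4) (nat_lit 349) (nat_lit 311) (nat_lit 240)))))) (XT.nd (nat_lit 624) (nat_lit 228) (nat_lit 0) (XT.nd (nat_lit 312)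 (nat_lit 152) (nat_lit 0) (XT.nd (nat_lit 156) (nat_lit 76) (nat_lit 0) (XT.nd (nat_lit 78) (nat_lit 76) (nat_lit 0) (XT.lf (nat_lit 0) (nat_lit 16916309111) (nat_lit 152) (nat_lit 6094221912) (nat_lit 76) (nat_lit 42588093049) (nat_lit 12) (nat_lit 5) (nat_lit 14) (nat_lit 5) (nat_lit 13) (nat_lit 4) (nat_lit 350) (nat_lit 311) (nat_lit 239)) (XT.lf (nat_lit 0) (nat_lit 20729870907) (nat_lit 76) (nat_lit 9088424831) (nat_lit 152) (nat_lit 39850601951) (nat_lit 11) (nat_lit 5) (nat_lit 12) (nat_lit 5) (nat_lit 13) (nat_lit 4) (nat_lit 351) (nat_lit 311) (nat_lit 238))) (XT.nd (nat_lit 78) (nat_lit 76) (nat_lit 0) (XT.lf (nat_lit 0) (nat_lit 44058009306) (nat_lit 152) (nat_lit 24168159393) (nat_lit 0) (nat_lit 5814183573) (nat_lit 11) (nat_lit 5) (nat_lit 13) (nat_lit 4) (nat_lit 11) (nat_lit 4) (nat_lit 352) (nat_lit 311) (nat_lit 237)) (XT.lf (nat_lit 0) (nat_lit 2456565644) (nat_lit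 76) (nat_lit 57267678595) (nat_lit 76) (nat_lit 19014295624) (nat_lit 10) (nat_lit 4) (nat_lit 11) (nat_lit 5) (nat_lit 11) (nat_lit 4) (nat_lit 353) (nat_lit 311) (nat_lit 236)))) (XT.nd (nat_lit 156) (nat_lit 76) (nat_lit 0) (XT.nd (nat_lit 78) (nat_lit 76) (nat_lit 0) (XT.lf (nat_lit 0) (nat_lit 32571467736) (nat_lit 76) (nat_lit 44725546000) (nat_lit 76) (nat_lit 6463313737) (nat_lit 10) (nat_lit 4) (nat_lit 11) (nat_lit 5) (nat_lit 11) (nat_lit 4) (nat_lit 354) (nat_lit 311) (nat_lit 235)) (XT.lf (nat_lit 0) (nat_lit 6729799274) (nat_lit 152) (nat_lit 24272443563) (nat_lit 76) (nat_lit 58168549203) (nat_lit 9) (nat_lit 5) (nat_lit 11) (nat_lit 5) (nat_lit 10) (nat_lit 4) (nat_lit 355) (nat_lit 311) (nat_lit 234))) (XT.nd (nat_lit 78) (nat_lit 0) (nat_lit 0) (XT.lf (nat_lit 0) (nat_lit 4859937310) (nat_lit 76) (nat_lit 15879461827) (nat_lit 152) (nat_lit 74252449477) (nat_lit 8) (nat_lit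 5) (nat_lit 9) (nat_lit 5) (nat_lit 10) (nat_lit 4) (nat_lit 356) (nat_lit 311) (nat_lit 233)) (XT.lf (nat_lit 0) (nat_lit 36554955883) (nat_lit 152) (nat_lit 63562974715) (nat_lit 0) (nat_lit 1105846853) (nat_lit 8) (nat_lit 5) (nat_lit 10) (nat_lit 4) (nat_lit 8) (nat_lit 4) (nat_lit 357) (nat_lit 311) (nat_lit 232))))) (XT.nd (nat_lit 312) (nat_lit 152) (nat_lit 0) (XT.nd (nat_lit 156) (nat_lit 76) (nat_lit 0) (XT.nd (nat_lit 78) (nat_lit 0) (nat_lit 0) (XT.lf (nat_lit 0) (nat_lit 54042100996) (nat_lit 152) (nat_lit 35292685441) (nat_lit 0) (nat_lit 18586969286) (nat_lit 8) (nat_lit 5) (nat_lit 10) (nat_lit 4) (nat_lit 8) (nat_lit 4) (nat_lit 358) (nat_lit 311) (nat_lit 231)) (XT.lf (nat_lit 0) (nat_lit 72922560567) (nat_lit 152) (nat_lit 4771614404) (nat_lit 0) (nat_lit 37461852300) (nat_lit 8) (nat_lit 5) (nat_lit 10) (nat_lit 4) (nat_lit 8) (nat_lit 4) (nat_lit 359) (nat_lit 311)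 (nat_lit 230))) (XT.nd (nat_lit 78) (nat_lit 0) (nat_lit 0) (XT.lf (nat_lit 0) (nat_lit 29665070997) (nat_lit 76) (nat_lit 64356593472) (nat_lit 76) (nat_lit 28890721728) (nat_lit 7) (nat_lit 4) (nat_lit 8) (nat_lit 5) (nat_lit 8) (nat_lit 4) (nat_lit 360) (nat_lit 311) (nat_lit 229)) (XT.lf (nat_lit 0) (nat_lit 67118272992) (nat_lit 76) (nat_lit 49815802680) (nat_lit 76) (nat_lit 14345149938) (nat_lit 7) (nat_lit 4) (nat_lit 8) (nat_lit 5) (nat_lit 8) (nat_lit 4) (nat_lit 361) (nat_lit 311) (nat_lit 228)))) (XT.nd (nat_lit 156) (nat_lit 0) (nat_lit 0) (XT.nd (nat_lit 78) (nat_lit 76) (nat_lit 0) (XT.lf (nat_lit 0) (nat_lit 1290998554) (nat_lit 152) (nat_lit 32789802599) (nat_lit 76) (nat_lit 106232374978) (nat_lit 6) (nat_lit 5) (nat_lit 8) (nat_lit 5) (nat_lit 7) (nat_lit 4) (nat_lit 362) (nat_lit 311) (nat_lit 227)) (XT.lf (nat_lit 0) (nat_lit 747189935) (nat_lit 76) (nat_lit 16669333363)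 (nat_lit 152) (nat_lit 132622433345) (nat_lit 5) (nat_lit 5) (nat_lit 6) (nat_lit 5) (nat_lit 7) (nat_lit 4) (nat_lit 363) (nat_lit 311) (nat_lit 226))) (XT.nd (nat_lit 78) (nat_lit 0) (nat_lit 0) (XT.lf (nat_lit 0) (nat_lit 35798812639) (nat_lit 152) (nat_lit 121722443455) (nat_lit 0) (nat_lit 2944207234) (nat_lit 5) (nat_lit 5) (nat_lit 7) (nat_lit 4) (nat_lit 5) (nat_lit 4) (nat_lit 364) (nat_lit 311) (nat_lit 225)) (XT.nd (nat_lit 78) (nat_lit 0) (nat_lit 0) (XT.lf (nat_lit 0) (nat_lit 56080540682) (nat_lit 152) (nat_lit 92388561433) (nat_lit 0) (nat_lit 23222681410) (nat_lit 5) (nat_lit 5) (nat_lit 7) (nat_lit 4) (nat_lit 5) (nat_lit 4) (nat_lit 365) (nat_lit 311) (nat_lit 224)) (XT.lf (nat_lit 0) (nat_lit 77980997579) (nat_lit 152) (nat_lit 60715392362) (nat_lit 0) (nat_lit 45120125467) (nat_lit 5) (nat_lit 5) (nat_lit 7) (nat_lit 4) (nat_lit 5) (nat_lit 4) (nat_lit 366) (nat_lit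 311) (nat_lit 223))))))))
noncomputable def xc132 : XT := (XT.nd (nat_lit 1248) (nat_lit 76) (nat_lit 0) (XT.nd (nat_lit 624) (nat_lit 76) (nat_lit 0) (XT.nd (nat_lit 312) (nat_lit 76) (nat_lit 0) (XT.nd (nat_lit 156) (nat_lit 0) (nat_lit 0) (XT.nd (nat_lit 78) (nat_lit 76) (nat_lit 0) (XT.lf (nat_lit 0) (nat_lit 101629963814) (nat_lit 152) (nat_lit 26515243391) (nat_lit 0) (nat_lit 68766302036) (nat_lit 5) (nat_lit 5) (nat_lit 7) (nat_lit 4) (nat_lit 5) (nat_lit 4) (nat_lit 367) (nat_lit 311) (nat_lit 222)) (XT.lf (nat_lit 0) (nat_lit 10962964938) (nat_lit 76) (nat_lit 116468276042) (nat_lit 76) (nat_lit 83602031239) (nat_lit 4) (nat_lit 4) (nat_lit 5) (nat_lit 5) (nat_lit 5) (nat_lit 4) (nat_lit 368) (nat_lit 311) (nat_lit 221))) (XT.nd (nat_lit 78) (nat_lit 0) (nat_lit 0) (XT.lf (nat_lit 0) (nat_lit 52941171979) (nat_lit 76) (nat_lit 103077248877) (nat_lit 76) (nat_lit 70208612384)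 (nat_lit 4) (nat_lit 4) (nat_lit 5) (nat_lit 5) (nat_lit 5) (nat_lit 4) (nat_lit 369) (nat_lit 311) (nat_lit 220)) (XT.lf (nat_lit 0) (nat_lit 98271891750) (nat_lit 76) (nat_lit 88617745217) (nat_lit 76) (nat_lit 55746894198) (nat_lit 4) (nat_lit 4) (nat_lit 5) (nat_lit 5) (nat_lit 5) (nat_lit 4) (nat_lit 370) (nat_lit 311) (nat_lit 219)))) (XT.nd (nat_lit 156) (nat_lit 76) (nat_lit 0) (XT.nd (nat_lit 78) (nat_lit 0) (nat_lit 0) (XT.lf (nat_lit 0) (nat_lit 147223750738) (nat_lit 76) (nat_lit 73004079116) (nat_lit 76) (nat_lit 40131177608) (nat_lit 4) (nat_lit 4) (nat_lit 5) (nat_lit 5) (nat_lit 5) (nat_lit 4) (nat_lit 371) (nat_lit 311) (nat_lit 218)) (XT.lf (nat_lit 0) (nat_lit 200086834032) (nat_lit 76) (nat_lit 56143725144) (nat_lit 76) (nat_lit 23268925036) (nat_lit 4) (nat_lit 4) (nat_lit 5) (nat_lit 5) (nat_lit 5) (nat_lit 4) (nat_lit 372) (nat_lit 311) (nat_lit 217))) (XT.nd (nat_lit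 78) (nat_lit 76) (nat_lit 0) (XT.lf (nat_lit 0) (nat_lit 257174404350) (nat_lit 76) (nat_lit 37936770093) (nat_lit 76) (nat_lit 5060212023) (nat_lit 4) (nat_lit 4) (nat_lit 5) (nat_lit 5) (nat_lit 5) (nat_lit 4) (nat_lit 373) (nat_lit 311) (nat_lit 216)) (XT.lf (nat_lit 0) (nat_lit 13872370472) (nat_lit 152) (nat_lit 4023655231) (nat_lit 76) (nat_lit 304573092738) (nat_lit 3) (nat_lit 5) (nat_lit 5) (nat_lit 5) (nat_lit 4) (nat_lit 4) (nat_lit 374) (nat_lit 311) (nat_lit 215))))) (XT.nd (nat_lit 312) (nat_lit 0) (nat_lit 0) (XT.nd (nat_lit 156) (nat_lit 0) (nat_lit 0) (XT.nd (nat_lit 78) (nat_lit 0) (nat_lit 0) (XT.lf (nat_lit 0) (nat_lit 35122879009) (nat_lit 152) (nat_lit 306652420825) (nat_lit 0) (nat_lit 4678718839) (nat_lit 2) (nat_lit 5) (nat_lit 4) (nat_lit 4) (nat_lit 2) (nat_lit 4) (nat_lit 375) (nat_lit 311) (nat_lit 214)) (XT.lf (nat_lit 0) (nat_lit 58649090825) (nat_lit 152)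 (nat_lit 285458929158) (nat_lit 0) (nat_lit 28203638499) (nat_lit 2) (nat_lit 5) (nat_lit 4) (nat_lit 4) (nat_lit 2) (nat_lit 4) (nat_lit 376) (nat_lit 311) (nat_lit 213))) (XT.nd (nat_lit 78) (nat_lit 0) (nat_lit 0) (XT.lf (nat_lit 0) (nat_lit 84055510134) (nat_lit 152) (nat_lit 262573689653) (nat_lit 0) (nat_lit 53608861368) (nat_lit 2) (nat_lit 5) (nat_lit 4) (nat_lit 4) (nat_lit 2) (nat_lit 4) (nat_lit 377) (nat_lit 311) (nat_lit 212)) (XT.lf (nat_lit 0) (nat_lit 111492693495) (nat_lit 152) (nat_lit 237861086077) (nat_lit 0) (nat_lit 81044936914) (nat_lit 2) (nat_lit 5) (nat_lit 4) (nat_lit 4) (nat_lit 2) (nat_lit 4) (nat_lit 378) (nat_lit 311) (nat_lit 211)))) (XT.nd (nat_lit 156) (nat_lit 0) (nat_lit 0) (XT.nd (nat_lit 78) (nat_lit 0) (nat_lit 0) (XT.lf (nat_lit 0) (nat_lit 141123231624) (nat_lit 152) (nat_lit 211174673372) (nat_lit 0) (nat_lit 110674449289) (nat_lit 2) (nat_lit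 5) (nat_lit 4) (nat_lit 4) (nat_lit 2) (nat_lit 4) (nat_lit 379) (nat_lit 311) (nat_lit 210)) (XT.lf (nat_lit 0) (nat_lit 173122712896) (nat_lit 152) (nat_lit 182356309833) (nat_lit 0) (nat_lit 142672980788) (nat_lit 2) (nat_lit 5) (nat_lit 4) (nat_lit 4) (nat_lit 2) (nat_lit 4) (nat_lit 380) (nat_lit 311) (nat_lit 209))) (XT.nd (nat_lit 78) (nat_lit 0) (nat_lit 0) (XT.lf (nat_lit 0) (nat_lit 207680763865) (nat_lit 152) (nat_lit 151235219971) (nat_lit 0) (nat_lit 177230152338) (nat_lit 2) (nat_lit 5) (nat_lit 4) (nat_lit 4) (nat_lit 2) (nat_lit 4) (nat_lit 381) (nat_lit 311) (nat_lit 208)) (XT.lf (nat_lit 0) (nat_lit 245002172983) (nat_lit 152) (nat_lit 117626982515) (nat_lit 0) (nat_lit 214550747179) (nat_lit 2) (nat_lit 5) (nat_lit 4) (nat_lit 4) (nat_lit 2) (nat_lit 4) (nat_lit 382) (nat_lit 311) (nat_lit 207)))))) (XT.nd (nat_lit 624) (nat_lit 0) (nat_lit 0) (XT.nd (nat_lit 312) (nat_lit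 0) (nat_lit 0) (XT.nd (nat_lit 156) (nat_lit 76) (nat_lit 0) (XT.nd (nat_lit 78) (nat_lit 0) (nat_lit 0) (XT.lf (nat_lit 0) (nat_lit 285308104155) (nat_lit 152) (nat_lit 81332437538) (nat_lit 0) (nat_lit 254855924390) (nat_lit 2) (nat_lit 5) (nat_lit 4) (nat_lit 4) (nat_lit 2) (nat_lit 4) (nat_lit 383) (nat_lit 311) (nat_lit 206)) (XT.lf (nat_lit 0) (nat_lit 328837407343) (nat_lit 152) (nat_lit 42136506255) (nat_lit 0) (nat_lit 298384529467) (nat_lit 2) (nat_lit 5) (nat_lit 4) (nat_lit 4) (nat_lit 2) (nat_lit 4) (nat_lit 384) (nat_lit 311) (nat_lit 205))) (XT.nd (nat_lit 78) (nat_lit 0) (nat_lit 0) (XT.lf (nat_lit 0) (nat_lit 203250954) (nat_lit 76) (nat_lit 375649671211) (nat_lit 76) (nat_lit 345196146935) (nat_lit 1) (nat_lit 4) (nat_lit 2) (nat_lit 5) (nat_lit 2) (nat_lit 4) (nat_lit 385) (nat_lit 311) (nat_lit 204)) (XT.lf (nat_lit 0) (nat_lit 48324564214) (nat_lit 76) (nat_lit 379456208257)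 (nat_lit 76) (nat_lit 349002085464) (nat_lit 1) (nat_lit 4) (nat_lit 2) (nat_lit 5) (nat_lit 2) (nat_lit 4) (nat_lit 386) (nat_lit 311) (nat_lit 203)))) (XT.nd (nat_lit 156) (nat_lit 0) (nat_lit 0) (XT.nd (nat_lit 78) (nat_lit 0) (nat_lit 0) (XT.lf (nat_lit 0) (nat_lit 100293763116) (nat_lit 76) (nat_lit 383568168747) (nat_lit 76) (nat_lit 353113491771) (nat_lit 1) (nat_lit 4) (nat_lit 2) (nat_lit 5) (nat_lit 2) (nat_lit 4) (nat_lit 387) (nat_lit 311) (nat_lit 202)) (XT.lf (nat_lit 0) (nat_lit 156418813282) (nat_lit 76) (nat_lit 388009919855) (nat_lit 76) (nat_lit 357554729746) (nat_lit 1) (nat_lit 4) (nat_lit 2) (nat_lit 5) (nat_lit 2) (nat_lit 4) (nat_lit 388) (nat_lit 311) (nat_lit 201))) (XT.nd (nat_lit 78) (nat_lit 0) (nat_lit 0) (XT.lf (nat_lit 0) (nat_lit 217032307602) (nat_lit 76) (nat_lit 392807783068) (nat_lit 76) (nat_lit 362352117836) (nat_lit 1) (nat_lit 4) (nat_lit 2) (nat_lit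 5) (nat_lit 2) (nat_lit 4) (nat_lit 389) (nat_lit 311) (nat_lit 200)) (XT.lf (nat_lit 0) (nat_lit 282493437155) (nat_lit 76) (nat_lit 397990190169) (nat_lit 76) (nat_lit 367534085009) (nat_lit 1) (nat_lit 4) (nat_lit 2) (nat_lit 5) (nat_lit 2) (nat_lit 4) (nat_lit 390) (nat_lit 311) (nat_lit 199))))) (XT.nd (nat_lit 312) (nat_lit 0) (nat_lit 0) (XT.nd (nat_lit 156) (nat_lit 0) (nat_lit 0) (XT.nd (nat_lit 78) (nat_lit 0) (nat_lit 0) (XT.lf (nat_lit 0) (nat_lit 353190119743) (nat_lit 76) (nat_lit 403587851719) (nat_lit 76) (nat_lit 373131339217) (nat_lit 1) (nat_lit 4) (nat_lit 2) (nat_lit 5) (nat_lit 2) (nat_lit 4) (nat_lit 391) (nat_lit 311) (nat_lit 198)) (XT.lf (nat_lit 0) (nat_lit 429541298672) (nat_lit 76) (nat_lit 409633939044) (nat_lit 76) (nat_lit 379177049374) (nat_lit 1) (nat_lit 4) (nat_lit 2) (nat_lit 5) (nat_lit 2) (nat_lit 4) (nat_lit 392) (nat_lit 311) (nat_lit 197))) (XT.nd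 (nat_lit 78) (nat_lit 0) (nat_lit 0) (XT.lf (nat_lit 0) (nat_lit 511999425373) (nat_lit 76) (nat_lit 416164280810) (nat_lit 76) (nat_lit 385707041911) (nat_lit 1) (nat_lit 4) (nat_lit 2) (nat_lit 5) (nat_lit 2) (nat_lit 4) (nat_lit 393) (nat_lit 311) (nat_lit 196)) (XT.lf (nat_lit 0) (nat_lit 601053140595) (nat_lit 76) (nat_lit 423217575340) (nat_lit 76) (nat_lit 392760013081) (nat_lit 1) (nat_lit 4) (nat_lit 2) (nat_lit 5) (nat_lit 2) (nat_lit 4) (nat_lit 394) (nat_lit 311) (nat_lit 195)))) (XT.nd (nat_lit 156) (nat_lit 0) (nat_lit 0) (XT.nd (nat_lit 78) (nat_lit 0) (nat_lit 0) (XT.lf (nat_lit 0) (nat_lit 697230170060) (nat_lit 76) (nat_lit 430835619934) (nat_lit 76) (nat_lit 400377758266) (nat_lit 1) (nat_lit 4) (nat_lit 2) (nat_lit 5) (nat_lit 2) (nat_lit 4) (nat_lit 395) (nat_lit 311) (nat_lit 194)) (XT.lf (nat_lit 0) (nat_lit 801100451719) (nat_lit 76) (nat_lit 439063558560) (nat_lit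 76) (nat_lit 408605419663) (nat_lit 1) (nat_lit 4) (nat_lit 2) (nat_lit 5) (nat_lit 2) (nat_lit 4) (nat_lit 396) (nat_lit 311) (nat_lit 193))) (XT.nd (nat_lit 78) (nat_lit 0) (nat_lit 0) (XT.lf (nat_lit 0) (nat_lit 913279513168) (nat_lit 76) (nat_lit 447950149372) (nat_lit 76) (nat_lit 417491753781) (nat_lit 1) (nat_lit 4) (nat_lit 2) (nat_lit 5) (nat_lit 2) (nat_lit 4) (nat_lit 397) (nat_lit 311) (nat_lit 192)) (XT.lf (nat_lit 0) (nat_lit 1034432119214) (nat_lit 76) (nat_lit 457548053651) (nat_lit 76) (nat_lit 427089420380) (nat_lit 1) (nat_lit 4) (nat_lit 2) (nat_lit 5) (nat_lit 2) (nat_lit 4) (nat_lit 398) (nat_lit 311) (nat_lit 191)))))))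
noncomputable def xc133 : XT := (XT.nd (nat_lit 40482) (nat_lit 0) (nat_lit 1976) (XT.nd (nat_lit 624) (nat_lit 0) (nat_lit 0) (XT.nd (nat_lit 312) (nat_lit 0) (nat_lit 0) (XT.nd (nat_lit 156) (nat_lit 0) (nat_lit 0) (XT.nd (nat_lit 78) (nat_lit 0) (nat_lit 0) (XT.lf (nat_lit 0) (nat_lit 1165276211228) (nat_lit 76) (nat_lit 467914147864) (nat_lit 76) (nat_lit 437455294520) (nat_lit 1) (nat_lit 4) (nat_lit 2) (nat_lit 5) (nat_lit 2) (nat_lit 4) (nat_lit 399) (nat_lit 311) (nat_lit 190)) (XT.lf (nat_lit 0) (nat_lit 1306587161606) (nat_lit 76) (nat_lit 479109860720) (nat_lit 76) (nat_lit 448650803603) (nat_lit 1) (nat_lit 4) (nat_lit 2) (nat_lit 5) (nat_lit 2) (nat_lit 4) (nat_lit 400) (nat_lit 311) (nat_lit 189))) (XT.nd (nat_lit 78) (nat_lit 0) (nat_lit 0) (XT.lf (nat_lit 0) (nat_lit 1459202368573) (nat_lit 76) (nat_lit 491201537183) (nat_lit 76) (nat_lit 460742291388) (nat_lit 1) (nat_lit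 4) (nat_lit 2) (nat_lit 5) (nat_lit 2) (nat_lit 4) (nat_lit 401) (nat_lit 311) (nat_lit 188)) (XT.lf (nat_lit 0) (nat_lit 1624026218540) (nat_lit 76) (nat_lit 504260831632) (nat_lit 76) (nat_lit 473801411135) (nat_lit 1) (nat_lit 4) (nat_lit 2) (nat_lit 5) (nat_lit 2) (nat_lit 4) (nat_lit 402) (nat_lit 311) (nat_lit 187)))) (XT.nd (nat_lit 156) (nat_lit 0) (nat_lit 0) (XT.nd (nat_lit 78) (nat_lit 0) (nat_lit 0) (XT.lf (nat_lit 0) (nat_lit 1802035445434) (nat_lit 76) (nat_lit 518365132478) (nat_lit 76) (nat_lit 487905550221) (nat_lit 1) (nat_lit 4) (nat_lit 2) (nat_lit 5) (nat_lit 2) (nat_lit 4) (nat_lit 403) (nat_lit 311) (nat_lit 186)) (XT.lf (nat_lit 0) (nat_lit 1994284918746) (nat_lit 76) (nat_lit 533598020764) (nat_lit 76) (nat_lit 503138288729) (nat_lit 1) (nat_lit 4) (nat_lit 2) (nat_lit 5) (nat_lit 2) (nat_lit 4) (nat_lit 404) (nat_lit 311) (nat_lit 185))) (XT.nd (nat_lit 78) (nat_lit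 0) (nat_lit 0) (XT.lf (nat_lit 0) (nat_lit 2201913894615) (nat_lit 76) (nat_lit 550049765458) (nat_lit 76) (nat_lit 519589894738) (nat_lit 1) (nat_lit 4) (nat_lit 2) (nat_lit 5) (nat_lit 2) (nat_lit 4) (nat_lit 405) (nat_lit 311) (nat_lit 184)) (XT.lf (nat_lit 0) (nat_lit 2426152766972) (nat_lit 76) (nat_lit 567817858379) (nat_lit 76) (nat_lit 537357859248) (nat_lit 1) (nat_lit 4) (nat_lit 2) (nat_lit 5) (nat_lit 2) (nat_lit 4) (nat_lit 406) (nat_lit 311) (nat_lit 183))))) (XT.nd (nat_lit 39546) (nat_lit 0) (nat_lit 3800) (XT.nd (nat_lit 156) (nat_lit 0) (nat_lit 0) (XT.nd (nat_lit 78) (nat_lit 0) (nat_lit 0) (XT.lf (nat_lit 0) (nat_lit 2668330358765) (nat_lit 76) (nat_lit 587007591930) (nat_lit 76) (nat_lit 556547473900) (nat_lit 1) (nat_lit 4) (nat_lit 2) (nat_lit 5) (nat_lit 2) (nat_lit 4) (nat_lit 407) (nat_lit 311) (nat_lit 182)) (XT.lf (nat_lit 0) (nat_lit 2929881796462) (nat_lit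 76) (nat_lit 607732683051) (nat_lit 76) (nat_lit 577272454930) (nat_lit 1) (nat_lit 4) (nat_lit 2) (nat_lit 5) (nat_lit 2) (nat_lit 4) (nat_lit 408) (nat_lit 311) (nat_lit 181))) (XT.nd (nat_lit 39312) (nat_lit 0) (nat_lit 3800) (XT.lf (nat_lit 0) (nat_lit 3212357014511) (nat_lit 76) (nat_lit 630115947096) (nat_lit 76) (nat_lit 599655617038) (nat_lit 1) (nat_lit 4) (nat_lit 2) (nat_lit 5) (nat_lit 2) (nat_lit 4) (nat_lit 409) (nat_lit 311) (nat_lit 180)) (XT.lf (nat_lit 0) (nat_lit 1241873937) (nat_lit 532) (nat_lit 2049158643) (nat_lit 532) (nat_lit 2049158643) (nat_lit 51) (nat_lit 3) (nat_lit 58) (nat_lit 3) (nat_lit 58) (nat_lit 5) (nat_lit 312) (nat_lit 312) (nat_lit 276)))) (XT.nd (nat_lit 156) (nat_lit 0) (nat_lit 76) (XT.nd (nat_lit 78) (nat_lit 0) (nat_lit 76) (XT.lf (nat_lit 76) (nat_lit 964957326) (nat_lit 0) (nat_lit 2214147300) (nat_lit 532) (nat_lit 7879576837) (nat_lit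 52) (nat_lit 5) (nat_lit 51) (nat_lit 3) (nat_lit 58) (nat_lit 5) (nat_lit 313) (nat_lit 312) (nat_lit 275)) (XT.lf (nat_lit 0) (nat_lit 4047777416) (nat_lit 456) (nat_lit 4893047620) (nat_lit 532) (nat_lit 2517127997) (nat_lit 52) (nat_lit 5) (nat_lit 58) (nat_lit 5) (nat_lit 59) (nat_lit 5) (nat_lit 314) (nat_lit 312) (nat_lit 274))) (XT.nd (nat_lit 78) (nat_lit 0) (nat_lit 76) (XT.lf (nat_lit 76) (nat_lit 664190957) (nat_lit 0) (nat_lit 4342014603) (nat_lit 532) (nat_lit 6881454320) (nat_lit 53) (nat_lit 5) (nat_lit 52) (nat_lit 5) (nat_lit 59) (nat_lit 5) (nat_lit 315) (nat_lit 312) (nat_lit 273)) (XT.lf (nat_lit 0) (nat_lit 6143865799) (nat_lit 456) (nat_lit 5454069035) (nat_lit 532) (nat_lit 745709809) (nat_lit 53) (nat_lit 5) (nat_lit 59) (nat_lit 5) (nat_lit 60) (nat_lit 5) (nat_lit 316) (nat_lit 312) (nat_lit 272)))))) (XT.nd (nat_lit 624) (nat_lit 988) (nat_lit 0) (XT.nd (nat_lit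 312) (nat_lit 608) (nat_lit 0) (XT.nd (nat_lit 156) (nat_lit 380) (nat_lit 0) (XT.nd (nat_lit 78) (nat_lit 0) (nat_lit 0) (XT.lf (nat_lit 76) (nat_lit 661246165) (nat_lit 0) (nat_lit 6793932925) (nat_lit 532) (nat_lit 5374416022) (nat_lit 54) (nat_lit 5) (nat_lit 53) (nat_lit 5) (nat_lit 60) (nat_lit 5) (nat_lit 317) (nat_lit 312) (nat_lit 271)) (XT.lf (nat_lit 76) (nat_lit 7540938787) (nat_lit 0) (nat_lit 1436108398) (nat_lit 532) (nat_lit 4369013330) (nat_lit 54) (nat_lit 5) (nat_lit 53) (nat_lit 5) (nat_lit 60) (nat_lit 5) (nat_lit 318) (nat_lit 312) (nat_lit 270))) (XT.nd (nat_lit 78) (nat_lit 0) (nat_lit 0) (XT.lf (nat_lit 0) (nat_lit 975408056) (nat_lit 456) (nat_lit 9733275363) (nat_lit 532) (nat_lit 3188202376) (nat_lit 48) (nat_lit 5) (nat_lit 54) (nat_lit 5) (nat_lit 55) (nat_lit 5) (nat_lit 319) (nat_lit 312) (nat_lit 269)) (XT.lf (nat_lit 0) (nat_lit 8554242709) (nat_lit 456)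 (nat_lit 4181747349) (nat_lit 532) (nat_lit 1743293790) (nat_lit 48) (nat_lit 5) (nat_lit 54) (nat_lit 5) (nat_lit 55) (nat_lit 5) (nat_lit 320) (nat_lit 312) (nat_lit 268)))) (XT.nd (nat_lit 156) (nat_lit 228) (nat_lit 0) (XT.nd (nat_lit 78) (nat_lit 76) (nat_lit 0) (XT.lf (nat_lit 0) (nat_lit 1633849551) (nat_lit 304) (nat_lit 13339485743) (nat_lit 380) (nat_lit 131182264) (nat_lit 44) (nat_lit 5) (nat_lit 48) (nat_lit 5) (nat_lit 49) (nat_lit 5) (nat_lit 321) (nat_lit 312) (nat_lit 267)) (XT.lf (nat_lit 0) (nat_lit 1769965859) (nat_lit 380) (nat_lit 5820275614) (nat_lit 76) (nat_lit 8167244788) (nat_lit 43) (nat_lit 5) (nat_lit 48) (nat_lit 5) (nat_lit 44) (nat_lit 5) (nat_lit 322) (nat_lit 312) (nat_lit 266))) (XT.nd (nat_lit 78) (nat_lit 0) (nat_lit 0) (XT.lf (nat_lit 0) (nat_lit 2531743680) (nat_lit 228) (nat_lit 1313574089) (nat_lit 304) (nat_lit 12614823437) (nat_lit 40) (nat_lit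 5) (nat_lit 43) (nat_lit 5) (nat_lit 44) (nat_lit 5) (nat_lit 323) (nat_lit 312) (nat_lit 265)) (XT.lf (nat_lit 0) (nat_lit 6351212055) (nat_lit 304) (nat_lit 5494114005) (nat_lit 76) (nat_lit 5352574372) (nat_lit 40) (nat_lit 5) (nat_lit 44) (nat_lit 5) (nat_lit 41) (nat_lit 5) (nat_lit 324) (nat_lit 312) (nat_lit 264))))) (XT.nd (nat_lit 312) (nat_lit 608) (nat_lit 0) (XT.nd (nat_lit 156) (nat_lit 152) (nat_lit 0) (XT.nd (nat_lit 78) (nat_lit 0) (nat_lit 0) (XT.lf (nat_lit 0) (nat_lit 3735049697) (nat_lit 228) (nat_lit 5418516992) (nat_lit 304) (nat_lit 8833483699) (nat_lit 37) (nat_lit 5) (nat_lit 40) (nat_lit 5) (nat_lit 41) (nat_lit 5) (nat_lit 325) (nat_lit 312) (nat_lit 263)) (XT.lf (nat_lit 0) (nat_lit 12344071115) (nat_lit 304) (nat_lit 4886645317) (nat_lit 76) (nat_lit 1595544454) (nat_lit 37) (nat_lit 5) (nat_lit 41) (nat_lit 5) (nat_lit 38) (nat_lit 5) (nat_lit 326) (nat_lit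 312) (nat_lit 262))) (XT.nd (nat_lit 78) (nat_lit 0) (nat_lit 0) (XT.lf (nat_lit 0) (nat_lit 5322121018) (nat_lit 152) (nat_lit 10711642138) (nat_lit 228) (nat_lit 3679371380) (nat_lit 35) (nat_lit 5) (nat_lit 37) (nat_lit 5) (nat_lit 38) (nat_lit 5) (nat_lit 327) (nat_lit 312) (nat_lit 261)) (XT.lf (nat_lit 0) (nat_lit 16594978375) (nat_lit 152) (nat_lit 3533573529) (nat_lit 228) (nat_lit 533651440) (nat_lit 35) (nat_lit 5) (nat_lit 37) (nat_lit 5) (nat_lit 38) (nat_lit 5) (nat_lit 328) (nat_lit 312) (nat_lit 260)))) (XT.nd (nat_lit 156) (nat_lit 304) (nat_lit 0) (XT.nd (nat_lit 78) (nat_lit 0) (nat_lit 0) (XT.lf (nat_lit 0) (nat_lit 2982421831) (nat_lit 304) (nat_lit 14425167126) (nat_lit 76) (nat_lit 4253176226) (nat_lit 31) (nat_lit 5) (nat_lit 35) (nat_lit 5) (nat_lit 32) (nat_lit 5) (nat_lit 329) (nat_lit 312) (nat_lit 259)) (XT.lf (nat_lit 0) (nat_lit 6935093095) (nat_lit 304)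 (nat_lit 3195207223) (nat_lit 76) (nat_lit 12593102252) (nat_lit 31) (nat_lit 5) (nat_lit 35) (nat_lit 5) (nat_lit 32) (nat_lit 5) (nat_lit 330) (nat_lit 312) (nat_lit 258))) (XT.nd (nat_lit 78) (nat_lit 152) (nat_lit 0) (XT.lf (nat_lit 0) (nat_lit 9374006125) (nat_lit 152) (nat_lit 2035295204) (nat_lit 228) (nat_lit 12445352404) (nat_lit 29) (nat_lit 5) (nat_lit 31) (nat_lit 5) (nat_lit 32) (nat_lit 5) (nat_lit 331) (nat_lit 312) (nat_lit 257)) (XT.nd (nat_lit 78) (nat_lit 152) (nat_lit 0) (XT.lf (nat_lit 0) (nat_lit 16472905649) (nat_lit 228) (nat_lit 2131259396) (nat_lit 76) (nat_lit 6453749715) (nat_lit 29) (nat_lit 5) (nat_lit 32) (nat_lit 5) (nat_lit 30) (nat_lit 5) (nat_lit 332) (nat_lit 312) (nat_lit 256)) (XT.lf (nat_lit 0) (nat_lit 11712516956) (nat_lit 152) (nat_lit 10545592356) (nat_lit 228) (nat_lit 4074031037) (nat_lit 27) (nat_lit 5) (nat_lit 29) (nat_lit 5) (nat_lit 30)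 (nat_lit 5) (nat_lit 333) (nat_lit 312) (nat_lit 255))))))))
noncomputable def xc134 : XT := (XT.nd (nat_lit 1248) (nat_lit 608) (nat_lit 0) (XT.nd (nat_lit 624) (nat_lit 380) (nat_lit 0) (XT.nd (nat_lit 312) (nat_lit 304) (nat_lit 0) (XT.nd (nat_lit 156) (nat_lit 152) (nat_lit 0) (XT.nd (nat_lit 78) (nat_lit 152) (nat_lit 0) (XT.lf (nat_lit 0) (nat_lit 799901654) (nat_lit 228) (nat_lit 966231860) (nat_lit 76) (nat_lit 25937297565) (nat_lit 26) (nat_lit 5) (nat_lit 29) (nat_lit 5) (nat_lit 27) (nat_lit 5) (nat_lit 334) (nat_lit 312) (nat_lit 254)) (XT.lf (nat_lit 0) (nat_lit 6369785240) (nat_lit 228) (nat_lit 14979307414) (nat_lit 76) (nat_lit 7784795210) (nat_lit 24) (nat_lit 5) (nat_lit 27) (nat_lit 5) (nat_lit 25) (nat_lit 5) (nat_lit 335) (nat_lit 312) (nat_lit 253))) (XT.nd (nat_lit 78) (nat_lit 152) (nat_lit 0) (XT.lf (nat_lit 0) (nat_lit 12442191626) (nat_lit 228) (nat_lit 208570405)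 (nat_lit 76) (nat_lit 18023482642) (nat_lit 24) (nat_lit 5) (nat_lit 27) (nat_lit 5) (nat_lit 25) (nat_lit 5) (nat_lit 336) (nat_lit 312) (nat_lit 252)) (XT.lf (nat_lit 0) (nat_lit 16548158209) (nat_lit 152) (nat_lit 2835358353) (nat_lit 228) (nat_lit 12923680100) (nat_lit 22) (nat_lit 5) (nat_lit 24) (nat_lit 5) (nat_lit 25) (nat_lit 5) (nat_lit 337) (nat_lit 312) (nat_lit 251)))) (XT.nd (nat_lit 156) (nat_lit 228) (nat_lit 0) (XT.nd (nat_lit 78) (nat_lit 0) (nat_lit 0) (XT.lf (nat_lit 0) (nat_lit 396033154) (nat_lit 76) (nat_lit 26671731470) (nat_lit 152) (nat_lit 6988026291) (nat_lit 21) (nat_lit 5) (nat_lit 22) (nat_lit 5) (nat_lit 23) (nat_lit 4) (nat_lit 338) (nat_lit 312) (nat_lit 250)) (XT.lf (nat_lit 0) (nat_lit 18638987720) (nat_lit 76) (nat_lit 17216429075) (nat_lit 152) (nat_lit 49777104) (nat_lit 21) (nat_lit 5) (nat_lit 22) (nat_lit 5) (nat_lit 23) (nat_lit 4) (nat_lit 339)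 (nat_lit 312) (nat_lit 249))) (XT.nd (nat_lit 78) (nat_lit 0) (nat_lit 0) (XT.lf (nat_lit 0) (nat_lit 250101534) (nat_lit 152) (nat_lit 6813780395) (nat_lit 228) (nat_lit 30824941667) (nat_lit 18) (nat_lit 5) (nat_lit 20) (nat_lit 5) (nat_lit 21) (nat_lit 5) (nat_lit 340) (nat_lit 312) (nat_lit 248)) (XT.lf (nat_lit 0) (nat_lit 15321565789) (nat_lit 228) (nat_lit 19986086615) (nat_lit 76) (nat_lit 4677189497) (nat_lit 18) (nat_lit 5) (nat_lit 21) (nat_lit 5) (nat_lit 19) (nat_lit 4) (nat_lit 341) (nat_lit 312) (nat_lit 247))))) (XT.nd (nat_lit 312) (nat_lit 152) (nat_lit 0) (XT.nd (nat_lit 156) (nat_lit 152) (nat_lit 0) (XT.nd (nat_lit 78) (nat_lit 76) (nat_lit 0) (XT.lf (nat_lit 0) (nat_lit 24404756367) (nat_lit 228) (nat_lit 1119042302) (nat_lit 76) (nat_lit 16711562176) (nat_lit 18) (nat_lit 5) (nat_lit 21) (nat_lit 5) (nat_lit 19) (nat_lit 4) (nat_lit 342) (nat_lit 312) (nat_lit 246))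 (XT.lf (nat_lit 0) (nat_lit 20251130745) (nat_lit 76) (nat_lit 14439317832) (nat_lit 152) (nat_lit 9937414770) (nat_lit 17) (nat_lit 5) (nat_lit 18) (nat_lit 5) (nat_lit 19) (nat_lit 4) (nat_lit 343) (nat_lit 312) (nat_lit 245))) (XT.nd (nat_lit 78) (nat_lit 152) (nat_lit 0) (XT.lf (nat_lit 0) (nat_lit 43375768236) (nat_lit 76) (nat_lit 2443007993) (nat_lit 152) (nat_lit 1391416445) (nat_lit 17) (nat_lit 5) (nat_lit 18) (nat_lit 5) (nat_lit 19) (nat_lit 4) (nat_lit 344) (nat_lit 312) (nat_lit 244)) (XT.lf (nat_lit 0) (nat_lit 8164720641) (nat_lit 152) (nat_lit 31117306697) (nat_lit 76) (nat_lit 10644523083) (nat_lit 15) (nat_lit 5) (nat_lit 17) (nat_lit 5) (nat_lit 16) (nat_lit 4) (nat_lit 345) (nat_lit 312) (nat_lit 243)))) (XT.nd (nat_lit 156) (nat_lit 76) (nat_lit 0) (XT.nd (nat_lit 78) (nat_lit 76) (nat_lit 0) (XT.lf (nat_lit 0) (nat_lit 18571069920) (nat_lit 152) (nat_lit 9489789974)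 (nat_lit 76) (nat_lit 24783601297) (nat_lit 15) (nat_lit 5) (nat_lit 17) (nat_lit 5) (nat_lit 16) (nat_lit 4) (nat_lit 346) (nat_lit 312) (nat_lit 242)) (XT.lf (nat_lit 0) (nat_lit 14580532906) (nat_lit 76) (nat_lit 15570682353) (nat_lit 152) (nat_lit 25817293154) (nat_lit 14) (nat_lit 5) (nat_lit 15) (nat_lit 5) (nat_lit 16) (nat_lit 4) (nat_lit 347) (nat_lit 312) (nat_lit 241))) (XT.nd (nat_lit 78) (nat_lit 76) (nat_lit 0) (XT.lf (nat_lit 0) (nat_lit 41099826515) (nat_lit 76) (nat_lit 1808340544) (nat_lit 152) (nat_lit 16414286913) (nat_lit 14) (nat_lit 5) (nat_lit 15) (nat_lit 5) (nat_lit 16) (nat_lit 4) (nat_lit 348) (nat_lit 312) (nat_lit 240)) (XT.lf (nat_lit 0) (nat_lit 6806828094) (nat_lit 76) (nat_lit 50347961295) (nat_lit 76) (nat_lit 5752402326) (nat_lit 13) (nat_lit 4) (nat_lit 14) (nat_lit 5) (nat_lit 14) (nat_lit 4) (nat_lit 349) (nat_lit 312) (nat_lit 239)))))) (XT.nd (nat_lit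 624) (nat_lit 228) (nat_lit 0) (XT.nd (nat_lit 312) (nat_lit 228) (nat_lit 0) (XT.nd (nat_lit 156) (nat_lit 76) (nat_lit 0) (XT.nd (nat_lit 78) (nat_lit 0) (nat_lit 0) (XT.lf (nat_lit 0) (nat_lit 6023806979) (nat_lit 152) (nat_lit 32078079816) (nat_lit 76) (nat_lit 28621768894) (nat_lit 12) (nat_lit 5) (nat_lit 14) (nat_lit 5) (nat_lit 13) (nat_lit 4) (nat_lit 350) (nat_lit 312) (nat_lit 238)) (XT.lf (nat_lit 0) (nat_lit 18423448807) (nat_lit 152) (nat_lit 6297972376) (nat_lit 76) (nat_lit 46112697880) (nat_lit 12) (nat_lit 5) (nat_lit 14) (nat_lit 5) (nat_lit 13) (nat_lit 4) (nat_lit 351) (nat_lit 312) (nat_lit 237))) (XT.nd (nat_lit 78) (nat_lit 0) (nat_lit 0) (XT.lf (nat_lit 0) (nat_lit 22664863380) (nat_lit 76) (nat_lit 9687988106) (nat_lit 152) (nat_lit 42877549042) (nat_lit 11) (nat_lit 5) (nat_lit 12) (nat_lit 5) (nat_lit 13) (nat_lit 4) (nat_lit 352) (nat_lit 312) (nat_lit 236))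 (XT.lf (nat_lit 0) (nat_lit 47723537759) (nat_lit 152) (nat_lit 25837218495) (nat_lit 0) (nat_lit 6391477620) (nat_lit 11) (nat_lit 5) (nat_lit 13) (nat_lit 4) (nat_lit 11) (nat_lit 4) (nat_lit 353) (nat_lit 312) (nat_lit 235)))) (XT.nd (nat_lit 156) (nat_lit 152) (nat_lit 0) (XT.nd (nat_lit 78) (nat_lit 0) (nat_lit 0) (XT.lf (nat_lit 0) (nat_lit 2910791035) (nat_lit 76) (nat_lit 61728042019) (nat_lit 76) (nat_lit 20387788090) (nat_lit 10) (nat_lit 4) (nat_lit 11) (nat_lit 5) (nat_lit 11) (nat_lit 4) (nat_lit 354) (nat_lit 312) (nat_lit 234)) (XT.lf (nat_lit 0) (nat_lit 35415796395) (nat_lit 76) (nat_lit 48191505548) (nat_lit 76) (nat_lit 6843664776) (nat_lit 10) (nat_lit 4) (nat_lit 11) (nat_lit 5) (nat_lit 11) (nat_lit 4) (nat_lit 355) (nat_lit 312) (nat_lit 233))) (XT.nd (nat_lit 78) (nat_lit 76) (nat_lit 0) (XT.lf (nat_lit 0) (nat_lit 7388437909) (nat_lit 152) (nat_lit 25986914774)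 (nat_lit 76) (nat_lit 62919426803) (nat_lit 9) (nat_lit 5) (nat_lit 11) (nat_lit 5) (nat_lit 10) (nat_lit 4) (nat_lit 356) (nat_lit 312) (nat_lit 232)) (XT.lf (nat_lit 0) (nat_lit 5470301525) (nat_lit 76) (nat_lit 17044925228) (nat_lit 152) (nat_lit 80066584269) (nat_lit 8) (nat_lit 5) (nat_lit 9) (nat_lit 5) (nat_lit 10) (nat_lit 4) (nat_lit 357) (nat_lit 312) (nat_lit 231))))) (XT.nd (nat_lit 312) (nat_lit 152) (nat_lit 0) (XT.nd (nat_lit 156) (nat_lit 76) (nat_lit 0) (XT.nd (nat_lit 78) (nat_lit 0) (nat_lit 0) (XT.lf (nat_lit 0) (nat_lit 39589721220) (nat_lit 152) (nat_lit 68436501563) (nat_lit 0) (nat_lit 1286579736) (nat_lit 8) (nat_lit 5) (nat_lit 10) (nat_lit 4) (nat_lit 8) (nat_lit 4) (nat_lit 358) (nat_lit 312) (nat_lit 230)) (XT.lf (nat_lit 0) (nat_lit 58467662471) (nat_lit 152) (nat_lit 37920256638) (nat_lit 0) (nat_lit 20159357510) (nat_lit 8) (nat_lit 5) (nat_lit 10) (nat_lit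 4) (nat_lit 8) (nat_lit 4) (nat_lit 359) (nat_lit 312) (nat_lit 229))) (XT.nd (nat_lit 78) (nat_lit 76) (nat_lit 0) (XT.lf (nat_lit 0) (nat_lit 78850988926) (nat_lit 152) (nat_lit 4972006854) (nat_lit 0) (nat_lit 40537902966) (nat_lit 8) (nat_lit 5) (nat_lit 10) (nat_lit 4) (nat_lit 8) (nat_lit 4) (nat_lit 360) (nat_lit 312) (nat_lit 228)) (XT.lf (nat_lit 0) (nat_lit 32215022576) (nat_lit 76) (nat_lit 69420240158) (nat_lit 76) (nat_lit 31102727349) (nat_lit 7) (nat_lit 4) (nat_lit 8) (nat_lit 5) (nat_lit 8) (nat_lit 4) (nat_lit 361) (nat_lit 312) (nat_lit 227)))) (XT.nd (nat_lit 156) (nat_lit 76) (nat_lit 0) (XT.nd (nat_lit 78) (nat_lit 76) (nat_lit 0) (XT.lf (nat_lit 0) (nat_lit 72651388441) (nat_lit 76) (nat_lit 53722473570) (nat_lit 76) (nat_lit 15400861825) (nat_lit 7) (nat_lit 4) (nat_lit 8) (nat_lit 5) (nat_lit 8) (nat_lit 4) (nat_lit 362) (nat_lit 312) (nat_lit 226)) (XT.lf (nat_lit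 0) (nat_lit 1475114450) (nat_lit 152) (nat_lit 35257168998) (nat_lit 76) (nat_lit 114799449885) (nat_lit 6) (nat_lit 5) (nat_lit 8) (nat_lit 5) (nat_lit 7) (nat_lit 4) (nat_lit 363) (nat_lit 312) (nat_lit 225))) (XT.nd (nat_lit 78) (nat_lit 0) (nat_lit 0) (XT.lf (nat_lit 0) (nat_lit 958838185) (nat_lit 76) (nat_lit 17929507688) (nat_lit 152) (nat_lit 143147419462) (nat_lit 5) (nat_lit 5) (nat_lit 6) (nat_lit 5) (nat_lit 7) (nat_lit 4) (nat_lit 364) (nat_lit 312) (nat_lit 224)) (XT.nd (nat_lit 78) (nat_lit 0) (nat_lit 0) (XT.lf (nat_lit 0) (nat_lit 38737037388) (nat_lit 152) (nat_lit 131315409033) (nat_lit 0) (nat_lit 3244282667) (nat_lit 5) (nat_lit 5) (nat_lit 7) (nat_lit 4) (nat_lit 5) (nat_lit 4) (nat_lit 365) (nat_lit 312) (nat_lit 223)) (XT.lf (nat_lit 0) (nat_lit 60635798509) (nat_lit 152) (nat_lit 99645544590) (nat_lit 0) (nat_lit 25140254122) (nat_lit 5) (nat_lit 5) (nat_lit 7)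 (nat_lit 4) (nat_lit 5) (nat_lit 4) (nat_lit 366) (nat_lit 312) (nat_lit 222))))))))
noncomputable def xc135 : XT := (XT.nd (nat_lit 1248) (nat_lit 76) (nat_lit 0) (XT.nd (nat_lit 624) (nat_lit 152) (nat_lit 0) (XT.nd (nat_lit 312) (nat_lit 0) (nat_lit 0) (XT.nd (nat_lit 156) (nat_lit 76) (nat_lit 0) (XT.nd (nat_lit 78) (nat_lit 0) (nat_lit 0) (XT.lf (nat_lit 0) (nat_lit 84283194581) (nat_lit 152) (nat_lit 65448455458) (nat_lit 0) (nat_lit 48785067170) (nat_lit 5) (nat_lit 5) (nat_lit 7) (nat_lit 4) (nat_lit 5) (nat_lit 4) (nat_lit 367) (nat_lit 312) (nat_lit 221)) (XT.lf (nat_lit 0) (nat_lit 109819358323) (nat_lit 152) (nat_lit 28521492220) (nat_lit 0) (nat_lit 74318839222) (nat_lit 5) (nat_lit 5) (nat_lit 7) (nat_lit 4) (nat_lit 5) (nat_lit 4) (nat_lit 368) (nat_lit 312) (nat_lit 220))) (XT.nd (nat_lit 78) (nat_lit 0) (nat_lit 0) (XT.lf (nat_lit 0) (nat_lit 11952062126) (nat_lit 76)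 (nat_lit 125731000404) (nat_lit 76) (nat_lit 90228266776) (nat_lit 4) (nat_lit 4) (nat_lit 5) (nat_lit 5) (nat_lit 5) (nat_lit 4) (nat_lit 369) (nat_lit 312) (nat_lit 219)) (XT.lf (nat_lit 0) (nat_lit 57280224991) (nat_lit 76) (nat_lit 111272745711) (nat_lit 76) (nat_lit 75767961595) (nat_lit 4) (nat_lit 4) (nat_lit 5) (nat_lit 5) (nat_lit 5) (nat_lit 4) (nat_lit 370) (nat_lit 312) (nat_lit 218)))) (XT.nd (nat_lit 156) (nat_lit 0) (nat_lit 0) (XT.nd (nat_lit 78) (nat_lit 0) (nat_lit 0) (XT.lf (nat_lit 0) (nat_lit 106229716472) (nat_lit 76) (nat_lit 95660236061) (nat_lit 76) (nat_lit 60153553344) (nat_lit 4) (nat_lit 4) (nat_lit 5) (nat_lit 5) (nat_lit 5) (nat_lit 4) (nat_lit 371) (nat_lit 312) (nat_lit 217)) (XT.lf (nat_lit 0) (nat_lit 159090607632) (nat_lit 76) (nat_lit 78800952877) (nat_lit 76) (nat_lit 43292512197) (nat_lit 4) (nat_lit 4) (nat_lit 5) (nat_lit 5) (nat_lit 5) (nat_lit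 4) (nat_lit 372) (nat_lit 312) (nat_lit 216))) (XT.nd (nat_lit 78) (nat_lit 0) (nat_lit 0) (XT.lf (nat_lit 0) (nat_lit 216176148195) (nat_lit 76) (nat_lit 60594989296) (nat_lit 76) (nat_lit 25084920873) (nat_lit 4) (nat_lit 4) (nat_lit 5) (nat_lit 5) (nat_lit 5) (nat_lit 4) (nat_lit 373) (nat_lit 312) (nat_lit 215)) (XT.lf (nat_lit 0) (nat_lit 277824622846) (nat_lit 76) (nat_lit 40934458127) (nat_lit 76) (nat_lit 5422882534) (nat_lit 4) (nat_lit 4) (nat_lit 5) (nat_lit 5) (nat_lit 5) (nat_lit 4) (nat_lit 374) (nat_lit 312) (nat_lit 214))))) (XT.nd (nat_lit 312) (nat_lit 0) (nat_lit 0) (XT.nd (nat_lit 156) (nat_lit 0) (nat_lit 0) (XT.nd (nat_lit 78) (nat_lit 76) (nat_lit 0) (XT.lf (nat_lit 0) (nat_lit 15019232438) (nat_lit 152) (nat_lit 4272967649) (nat_lit 76) (nat_lit 328971471010) (nat_lit 3) (nat_lit 5) (nat_lit 5) (nat_lit 5) (nat_lit 4) (nat_lit 4) (nat_lit 375) (nat_lit 312) (nat_lit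 213)) (XT.lf (nat_lit 0) (nat_lit 37969571814) (nat_lit 152) (nat_lit 331111814431) (nat_lit 0) (nat_lit 5085994707) (nat_lit 2) (nat_lit 5) (nat_lit 4) (nat_lit 4) (nat_lit 2) (nat_lit 4) (nat_lit 376) (nat_lit 312) (nat_lit 212))) (XT.nd (nat_lit 78) (nat_lit 0) (nat_lit 0) (XT.lf (nat_lit 0) (nat_lit 63375150021) (nat_lit 152) (nat_lit 308228236027) (nat_lit 0) (nat_lit 30490465099) (nat_lit 2) (nat_lit 5) (nat_lit 4) (nat_lit 4) (nat_lit 2) (nat_lit 4) (nat_lit 377) (nat_lit 312) (nat_lit 211)) (XT.lf (nat_lit 0) (nat_lit 90811554584) (nat_lit 152) (nat_lit 283517170507) (nat_lit 0) (nat_lit 57925843907) (nat_lit 2) (nat_lit 5) (nat_lit 4) (nat_lit 4) (nat_lit 2) (nat_lit 4) (nat_lit 378) (nat_lit 312) (nat_lit 210)))) (XT.nd (nat_lit 156) (nat_lit 0) (nat_lit 0) (XT.nd (nat_lit 78) (nat_lit 0) (nat_lit 0) (XT.lf (nat_lit 0) (nat_lit 120441371603) (nat_lit 152) (nat_lit 256832181928)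 (nat_lit 0) (nat_lit 87554711154) (nat_lit 2) (nat_lit 5) (nat_lit 4) (nat_lit 4) (nat_lit 2) (nat_lit 4) (nat_lit 379) (nat_lit 312) (nat_lit 209)) (XT.lf (nat_lit 0) (nat_lit 152440185181) (nat_lit 152) (nat_lit 228015137024) (nat_lit 0) (nat_lit 119552645312) (nat_lit 2) (nat_lit 5) (nat_lit 4) (nat_lit 4) (nat_lit 2) (nat_lit 4) (nat_lit 380) (nat_lit 312) (nat_lit 208))) (XT.nd (nat_lit 78) (nat_lit 0) (nat_lit 0) (XT.lf (nat_lit 0) (nat_lit 186997617915) (nat_lit 152) (nat_lit 196895268121) (nat_lit 0) (nat_lit 154109263769) (nat_lit 2) (nat_lit 5) (nat_lit 4) (nat_lit 4) (nat_lit 2) (nat_lit 4) (nat_lit 381) (nat_lit 312) (nat_lit 207)) (XT.lf (nat_lit 0) (nat_lit 224318454593) (nat_lit 152) (nat_lit 163288161182) (nat_lit 0) (nat_lit 191429346487) (nat_lit 2) (nat_lit 5) (nat_lit 4) (nat_lit 4) (nat_lit 2) (nat_lit 4) (nat_lit 382) (nat_lit 312) (nat_lit 206)))))) (XT.nd (nat_lit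 624) (nat_lit 0) (nat_lit 0) (XT.nd (nat_lit 312) (nat_lit 0) (nat_lit 0) (XT.nd (nat_lit 156) (nat_lit 76) (nat_lit 0) (XT.nd (nat_lit 78) (nat_lit 0) (nat_lit 0) (XT.lf (nat_lit 0) (nat_lit 264623855727) (nat_lit 152) (nat_lit 126994662980) (nat_lit 0) (nat_lit 231734049510) (nat_lit 2) (nat_lit 5) (nat_lit 4) (nat_lit 4) (nat_lit 2) (nat_lit 4) (nat_lit 383) (nat_lit 312) (nat_lit 205)) (XT.lf (nat_lit 0) (nat_lit 308152668141) (nat_lit 152) (nat_lit 87799700934) (nat_lit 0) (nat_lit 275262215524) (nat_lit 2) (nat_lit 5) (nat_lit 4) (nat_lit 4) (nat_lit 2) (nat_lit 4) (nat_lit 384) (nat_lit 312) (nat_lit 204))) (XT.nd (nat_lit 78) (nat_lit 76) (nat_lit 0) (XT.lf (nat_lit 0) (nat_lit 355162840351) (nat_lit 152) (nat_lit 45471008601) (nat_lit 0) (nat_lit 322271789216) (nat_lit 2) (nat_lit 5) (nat_lit 4) (nat_lit 4) (nat_lit 2) (nat_lit 4) (nat_lit 385) (nat_lit 312) (nat_lit 203)) (XT.lf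 (nat_lit 0) (nat_lit 255007207) (nat_lit 76) (nat_lit 405684076878) (nat_lit 76) (nat_lit 372792471560) (nat_lit 1) (nat_lit 4) (nat_lit 2) (nat_lit 5) (nat_lit 2) (nat_lit 4) (nat_lit 386) (nat_lit 312) (nat_lit 202)))) (XT.nd (nat_lit 156) (nat_lit 0) (nat_lit 0) (XT.nd (nat_lit 78) (nat_lit 0) (nat_lit 0) (XT.lf (nat_lit 0) (nat_lit 52223396182) (nat_lit 76) (nat_lit 409796438223) (nat_lit 76) (nat_lit 376904319772) (nat_lit 1) (nat_lit 4) (nat_lit 2) (nat_lit 5) (nat_lit 2) (nat_lit 4) (nat_lit 387) (nat_lit 312) (nat_lit 201)) (XT.lf (nat_lit 0) (nat_lit 108347696415) (nat_lit 76) (nat_lit 414238560493) (nat_lit 76) (nat_lit 381345966919) (nat_lit 1) (nat_lit 4) (nat_lit 2) (nat_lit 5) (nat_lit 2) (nat_lit 4) (nat_lit 388) (nat_lit 312) (nat_lit 200))) (XT.nd (nat_lit 78) (nat_lit 0) (nat_lit 0) (XT.lf (nat_lit 0) (nat_lit 168960496354) (nat_lit 76) (nat_lit 419036767375) (nat_lit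 76) (nat_lit 386143733873) (nat_lit 1) (nat_lit 4) (nat_lit 2) (nat_lit 5) (nat_lit 2) (nat_lit 4) (nat_lit 389) (nat_lit 312) (nat_lit 199)) (XT.lf (nat_lit 0) (nat_lit 234420982960) (nat_lit 76) (nat_lit 424219492687) (nat_lit 76) (nat_lit 391326051844) (nat_lit 1) (nat_lit 4) (nat_lit 2) (nat_lit 5) (nat_lit 2) (nat_lit 4) (nat_lit 390) (nat_lit 312) (nat_lit 198))))) (XT.nd (nat_lit 312) (nat_lit 0) (nat_lit 0) (XT.nd (nat_lit 156) (nat_lit 0) (nat_lit 0) (XT.nd (nat_lit 78) (nat_lit 0) (nat_lit 0) (XT.lf (nat_lit 0) (nat_lit 305117070228) (nat_lit 76) (nat_lit 429817448877) (nat_lit 76) (nat_lit 396923630866) (nat_lit 1) (nat_lit 4) (nat_lit 2) (nat_lit 5) (nat_lit 2) (nat_lit 4) (nat_lit 391) (nat_lit 312) (nat_lit 197)) (XT.lf (nat_lit 0) (nat_lit 381467697935) (nat_lit 76) (nat_lit 435863809017) (nat_lit 76) (nat_lit 402969641777) (nat_lit 1) (nat_lit 4) (nat_lit 2) (nat_lit 5)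 (nat_lit 2) (nat_lit 4) (nat_lit 392) (nat_lit 312) (nat_lit 196))) (XT.nd (nat_lit 78) (nat_lit 0) (nat_lit 0) (XT.lf (nat_lit 0) (nat_lit 463925314244) (nat_lit 76) (nat_lit 442394403391) (nat_lit 76) (nat_lit 409499912790) (nat_lit 1) (nat_lit 4) (nat_lit 2) (nat_lit 5) (nat_lit 2) (nat_lit 4) (nat_lit 393) (nat_lit 312) (nat_lit 195)) (XT.lf (nat_lit 0) (nat_lit 552978556882) (nat_lit 76) (nat_lit 449447931815) (nat_lit 76) (nat_lit 416553141806) (nat_lit 1) (nat_lit 4) (nat_lit 2) (nat_lit 5) (nat_lit 2) (nat_lit 4) (nat_lit 394) (nat_lit 312) (nat_lit 194)))) (XT.nd (nat_lit 156) (nat_lit 0) (nat_lit 0) (XT.nd (nat_lit 78) (nat_lit 0) (nat_lit 0) (XT.lf (nat_lit 0) (nat_lit 649155148769) (nat_lit 76) (nat_lit 457066192979) (nat_lit 76) (nat_lit 424171125740) (nat_lit 1) (nat_lit 4) (nat_lit 2) (nat_lit 5) (nat_lit 2) (nat_lit 4) (nat_lit 395) (nat_lit 312) (nat_lit 193)) (XT.lf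 (nat_lit 0) (nat_lit 753025025263) (nat_lit 76) (nat_lit 465294332132) (nat_lit 76) (nat_lit 432399008199) (nat_lit 1) (nat_lit 4) (nat_lit 2) (nat_lit 5) (nat_lit 2) (nat_lit 4) (nat_lit 396) (nat_lit 312) (nat_lit 192))) (XT.nd (nat_lit 78) (nat_lit 0) (nat_lit 0) (XT.lf (nat_lit 0) (nat_lit 865203711559) (nat_lit 76) (nat_lit 474181108618) (nat_lit 76) (nat_lit 441285547005) (nat_lit 1) (nat_lit 4) (nat_lit 2) (nat_lit 5) (nat_lit 2) (nat_lit 4) (nat_lit 397) (nat_lit 312) (nat_lit 191)) (XT.nd (nat_lit 78) (nat_lit 0) (nat_lit 0) (XT.lf (nat_lit 0) (nat_lit 986355970241) (nat_lit 76) (nat_lit 483779184816) (nat_lit 76) (nat_lit 450883403130) (nat_lit 1) (nat_lit 4) (nat_lit 2) (nat_lit 5) (nat_lit 2) (nat_lit 4) (nat_lit 398) (nat_lit 312) (nat_lit 190)) (XT.lf (nat_lit 0) (nat_lit 1117199740622) (nat_lit 76) (nat_lit 494145438215) (nat_lit 76) (nat_lit 461249452756) (nat_lit 1) (nat_lit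 4) (nat_lit 2) (nat_lit 5) (nat_lit 2) (nat_lit 4) (nat_lit 399) (nat_lit 312) (nat_lit 189))))))))
noncomputable def xc136 : XT := (XT.nd (nat_lit 40560) (nat_lit 0) (nat_lit 1976) (XT.nd (nat_lit 624) (nat_lit 0) (nat_lit 0) (XT.nd (nat_lit 312) (nat_lit 0) (nat_lit 0) (XT.nd (nat_lit 156) (nat_lit 0) (nat_lit 0) (XT.nd (nat_lit 78) (nat_lit 0) (nat_lit 0) (XT.lf (nat_lit 0) (nat_lit 1258510393192) (nat_lit 76) (nat_lit 505341298464) (nat_lit 76) (nat_lit 472445124328) (nat_lit 1) (nat_lit 4) (nat_lit 2) (nat_lit 5) (nat_lit 2) (nat_lit 4) (nat_lit 400) (nat_lit 312) (nat_lit 188)) (XT.lf (nat_lit 0) (nat_lit 1411125324410) (nat_lit 76) (nat_lit 517433111402) (nat_lit 76) (nat_lit 484536762564) (nat_lit 1) (nat_lit 4) (nat_lit 2) (nat_lit 5) (nat_lit 2) (nat_lit 4) (nat_lit 401) (nat_lit 312) (nat_lit 187))) (XT.nd (nat_lit 78) (nat_lit 0) (nat_lit 0) (XT.lf (nat_lit 0) (nat_lit 1575948919054)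 (nat_lit 76) (nat_lit 530492532217) (nat_lit 76) (nat_lit 497596021619) (nat_lit 1) (nat_lit 4) (nat_lit 2) (nat_lit 5) (nat_lit 2) (nat_lit 4) (nat_lit 402) (nat_lit 312) (nat_lit 186)) (XT.lf (nat_lit 0) (nat_lit 1753957909538) (nat_lit 76) (nat_lit 544596950069) (nat_lit 76) (nat_lit 511700289692) (nat_lit 1) (nat_lit 4) (nat_lit 2) (nat_lit 5) (nat_lit 2) (nat_lit 4) (nat_lit 403) (nat_lit 312) (nat_lit 185)))) (XT.nd (nat_lit 156) (nat_lit 0) (nat_lit 0) (XT.nd (nat_lit 78) (nat_lit 0) (nat_lit 0) (XT.lf (nat_lit 0) (nat_lit 1946207163952) (nat_lit 76) (nat_lit 559829946694) (nat_lit 76) (nat_lit 526933147633) (nat_lit 1) (nat_lit 4) (nat_lit 2) (nat_lit 5) (nat_lit 2) (nat_lit 4) (nat_lit 404) (nat_lit 312) (nat_lit 184)) (XT.lf (nat_lit 0) (nat_lit 2153835937138) (nat_lit 76) (nat_lit 576281791701) (nat_lit 76) (nat_lit 543384864229) (nat_lit 1) (nat_lit 4) (nat_lit 2) (nat_lit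 5) (nat_lit 2) (nat_lit 4) (nat_lit 405) (nat_lit 312) (nat_lit 183))) (XT.nd (nat_lit 78) (nat_lit 0) (nat_lit 0) (XT.lf (nat_lit 0) (nat_lit 2378074621825) (nat_lit 76) (nat_lit 594049977505) (nat_lit 76) (nat_lit 561152931134) (nat_lit 1) (nat_lit 4) (nat_lit 2) (nat_lit 5) (nat_lit 2) (nat_lit 4) (nat_lit 406) (nat_lit 312) (nat_lit 182)) (XT.lf (nat_lit 0) (nat_lit 2620252039849) (nat_lit 76) (nat_lit 613239797059) (nat_lit 76) (nat_lit 580342640596) (nat_lit 1) (nat_lit 4) (nat_lit 2) (nat_lit 5) (nat_lit 2) (nat_lit 4) (nat_lit 407) (nat_lit 312) (nat_lit 181))))) (XT.nd (nat_lit 39624) (nat_lit 0) (nat_lit 3876) (XT.nd (nat_lit 39468) (nat_lit 0) (nat_lit 3800) (XT.nd (nat_lit 78) (nat_lit 0) (nat_lit 0) (XT.lf (nat_lit 0) (nat_lit 2881803316651) (nat_lit 76) (nat_lit 633964967812) (nat_lit 76) (nat_lit 601067709413) (nat_lit 1) (nat_lit 4) (nat_lit 2) (nat_lit 5) (nat_lit 2)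 (nat_lit 4) (nat_lit 408) (nat_lit 312) (nat_lit 180)) (XT.lf (nat_lit 0) (nat_lit 3164278385721) (nat_lit 76) (nat_lit 656348305591) (nat_lit 76) (nat_lit 623450952806) (nat_lit 1) (nat_lit 4) (nat_lit 2) (nat_lit 5) (nat_lit 2) (nat_lit 4) (nat_lit 409) (nat_lit 312) (nat_lit 179))) (XT.nd (nat_lit 78) (nat_lit 0) (nat_lit 0) (XT.lf (nat_lit 0) (nat_lit 1900247598) (nat_lit 532) (nat_lit 1910615503) (nat_lit 532) (nat_lit 1910615503) (nat_lit 51) (nat_lit 3) (nat_lit 58) (nat_lit 3) (nat_lit 58) (nat_lit 5) (nat_lit 313) (nat_lit 313) (nat_lit 274)) (XT.lf (nat_lit 76) (nat_lit 1631790343) (nat_lit 0) (nat_lit 2851052583) (nat_lit 532) (nat_lit 7374346895) (nat_lit 52) (nat_lit 5) (nat_lit 51) (nat_lit 3) (nat_lit 58) (nat_lit 5) (nat_lit 314) (nat_lit 313) (nat_lit 273)))) (XT.nd (nat_lit 156) (nat_lit 0) (nat_lit 76) (XT.nd (nat_lit 78) (nat_lit 0) (nat_lit 0) (XT.lf (nat_lit 0) (nat_lit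 5333036985) (nat_lit 456) (nat_lit 4648491288) (nat_lit 532) (nat_lit 2314078082) (nat_lit 52) (nat_lit 5) (nat_lit 58) (nat_lit 5) (nat_lit 59) (nat_lit 5) (nat_lit 315) (nat_lit 313) (nat_lit 272)) (XT.lf (nat_lit 76) (nat_lit 1337225107) (nat_lit 0) (nat_lit 4974605274) (nat_lit 532) (nat_lit 6452517269) (nat_lit 53) (nat_lit 5) (nat_lit 52) (nat_lit 5) (nat_lit 59) (nat_lit 5) (nat_lit 316) (nat_lit 313) (nat_lit 271))) (XT.nd (nat_lit 78) (nat_lit 0) (nat_lit 0) (XT.lf (nat_lit 0) (nat_lit 7467105248) (nat_lit 456) (nat_lit 5241243012) (nat_lit 532) (nat_lit 554476623) (nat_lit 53) (nat_lit 5) (nat_lit 59) (nat_lit 5) (nat_lit 60) (nat_lit 5) (nat_lit 317) (nat_lit 313) (nat_lit 270)) (XT.lf (nat_lit 76) (nat_lit 1346863188) (nat_lit 0) (nat_lit 7490067638) (nat_lit 532) (nat_lit 4954563313) (nat_lit 54) (nat_lit 5) (nat_lit 53) (nat_lit 5) (nat_lit 60) (nat_lit 5) (nat_lit 318)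 (nat_lit 313) (nat_lit 269)))))) (XT.nd (nat_lit 624) (nat_lit 760) (nat_lit 0) (XT.nd (nat_lit 312) (nat_lit 456) (nat_lit 0) (XT.nd (nat_lit 156) (nat_lit 380) (nat_lit 0) (XT.nd (nat_lit 78) (nat_lit 380) (nat_lit 0) (XT.lf (nat_lit 76) (nat_lit 8730063268) (nat_lit 0) (nat_lit 1692311958) (nat_lit 532) (nat_lit 3931676998) (nat_lit 54) (nat_lit 5) (nat_lit 53) (nat_lit 5) (nat_lit 60) (nat_lit 5) (nat_lit 319) (nat_lit 313) (nat_lit 268)) (XT.lf (nat_lit 0) (nat_lit 1685952948) (nat_lit 456) (nat_lit 10564790451) (nat_lit 532) (nat_lit 2701656637) (nat_lit 48) (nat_lit 5) (nat_lit 54) (nat_lit 5) (nat_lit 55) (nat_lit 5) (nat_lit 320) (nat_lit 313) (nat_lit 267))) (XT.nd (nat_lit 78) (nat_lit 380) (nat_lit 0) (XT.lf (nat_lit 0) (nat_lit 9824241614) (nat_lit 456) (nat_lit 4565225154) (nat_lit 532) (nat_lit 1196088841) (nat_lit 48) (nat_lit 5) (nat_lit 54) (nat_lit 5) (nat_lit 55) (nat_lit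 5) (nat_lit 321) (nat_lit 313) (nat_lit 266)) (XT.lf (nat_lit 0) (nat_lit 483656682) (nat_lit 380) (nat_lit 13888508601) (nat_lit 76) (nat_lit 1890409326) (nat_lit 43) (nat_lit 5) (nat_lit 48) (nat_lit 5) (nat_lit 44) (nat_lit 5) (nat_lit 322) (nat_lit 313) (nat_lit 265)))) (XT.nd (nat_lit 156) (nat_lit 228) (nat_lit 0) (XT.nd (nat_lit 78) (nat_lit 228) (nat_lit 0) (XT.lf (nat_lit 0) (nat_lit 2484013387) (nat_lit 380) (nat_lit 5678114778) (nat_lit 76) (nat_lit 8809126498) (nat_lit 43) (nat_lit 5) (nat_lit 48) (nat_lit 5) (nat_lit 44) (nat_lit 5) (nat_lit 323) (nat_lit 313) (nat_lit 264)) (XT.lf (nat_lit 0) (nat_lit 3326679151) (nat_lit 228) (nat_lit 1370557712) (nat_lit 304) (nat_lit 13035214294) (nat_lit 40) (nat_lit 5) (nat_lit 43) (nat_lit 5) (nat_lit 44) (nat_lit 5) (nat_lit 324) (nat_lit 313) (nat_lit 263))) (XT.nd (nat_lit 78) (nat_lit 228) (nat_lit 0) (XT.lf (nat_lit 0) (nat_lit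 7364355811) (nat_lit 304) (nat_lit 5344994550) (nat_lit 76) (nat_lit 5823091463) (nat_lit 40) (nat_lit 5) (nat_lit 44) (nat_lit 5) (nat_lit 41) (nat_lit 5) (nat_lit 325) (nat_lit 313) (nat_lit 262)) (XT.lf (nat_lit 0) (nat_lit 4607599752) (nat_lit 228) (nat_lit 5759686797) (nat_lit 304) (nat_lit 9019391904) (nat_lit 37) (nat_lit 5) (nat_lit 40) (nat_lit 5) (nat_lit 41) (nat_lit 5) (nat_lit 326) (nat_lit 313) (nat_lit 261))))) (XT.nd (nat_lit 312) (nat_lit 304) (nat_lit 0) (XT.nd (nat_lit 156) (nat_lit 304) (nat_lit 0) (XT.nd (nat_lit 78) (nat_lit 152) (nat_lit 0) (XT.lf (nat_lit 0) (nat_lit 13779425156) (nat_lit 304) (nat_lit 4711964026) (nat_lit 76) (nat_lit 1804385933) (nat_lit 37) (nat_lit 5) (nat_lit 41) (nat_lit 5) (nat_lit 38) (nat_lit 5) (nat_lit 327) (nat_lit 313) (nat_lit 260)) (XT.lf (nat_lit 0) (nat_lit 6299184302) (nat_lit 152) (nat_lit 11445194412) (nat_lit 228) (nat_lit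 3510869374) (nat_lit 35) (nat_lit 5) (nat_lit 37) (nat_lit 5) (nat_lit 38) (nat_lit 5) (nat_lit 328) (nat_lit 313) (nat_lit 259))) (XT.nd (nat_lit 78) (nat_lit 304) (nat_lit 0) (XT.lf (nat_lit 0) (nat_lit 18433033684) (nat_lit 152) (nat_lit 3702019507) (nat_lit 228) (nat_lit 147777152) (nat_lit 35) (nat_lit 5) (nat_lit 37) (nat_lit 5) (nat_lit 38) (nat_lit 5) (nat_lit 329) (nat_lit 313) (nat_lit 258)) (XT.lf (nat_lit 0) (nat_lit 3613584202) (nat_lit 304) (nat_lit 15031563172) (nat_lit 76) (nat_lit 4716514637) (nat_lit 31) (nat_lit 5) (nat_lit 35) (nat_lit 5) (nat_lit 32) (nat_lit 5) (nat_lit 330) (nat_lit 313) (nat_lit 257)))) (XT.nd (nat_lit 156) (nat_lit 152) (nat_lit 0) (XT.nd (nat_lit 78) (nat_lit 152) (nat_lit 0) (XT.lf (nat_lit 0) (nat_lit 7853390009) (nat_lit 304) (nat_lit 2943770722) (nat_lit 76) (nat_lit 13714517390) (nat_lit 31) (nat_lit 5) (nat_lit 35) (nat_lit 5) (nat_lit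 32) (nat_lit 5) (nat_lit 331) (nat_lit 313) (nat_lit 256)) (XT.lf (nat_lit 0) (nat_lit 10618142906) (nat_lit 152) (nat_lit 2052352763) (nat_lit 228) (nat_lit 13064175178) (nat_lit 29) (nat_lit 5) (nat_lit 31) (nat_lit 5) (nat_lit 32) (nat_lit 5) (nat_lit 332) (nat_lit 313) (nat_lit 255))) (XT.nd (nat_lit 78) (nat_lit 152) (nat_lit 0) (XT.lf (nat_lit 0) (nat_lit 18116623204) (nat_lit 228) (nat_lit 1821143668) (nat_lit 76) (nat_lit 7098266589) (nat_lit 29) (nat_lit 5) (nat_lit 32) (nat_lit 5) (nat_lit 30) (nat_lit 5) (nat_lit 333) (nat_lit 313) (nat_lit 254)) (XT.lf (nat_lit 0) (nat_lit 13117967286) (nat_lit 152) (nat_lit 11233802447) (nat_lit 228) (nat_lit 4061490104) (nat_lit 27) (nat_lit 5) (nat_lit 29) (nat_lit 5) (nat_lit 30) (nat_lit 5) (nat_lit 334) (nat_lit 313) (nat_lit 253)))))))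
noncomputable def xc137 : XT := (XT.nd (nat_lit 1248) (nat_lit 608) (nat_lit 0) (XT.nd (nat_lit 624) (nat_lit 380) (nat_lit 0) (XT.nd (nat_lit 312) (nat_lit 304) (nat_lit 0) (XT.nd (nat_lit 156) (nat_lit 152) (nat_lit 0) (XT.nd (nat_lit 78) (nat_lit 152) (nat_lit 0) (XT.lf (nat_lit 0) (nat_lit 1161608698) (nat_lit 228) (nat_lit 593752019) (nat_lit 76) (nat_lit 28140175455) (nat_lit 26) (nat_lit 5) (nat_lit 29) (nat_lit 5) (nat_lit 27) (nat_lit 5) (nat_lit 335) (nat_lit 313) (nat_lit 252)) (XT.lf (nat_lit 0) (nat_lit 7169233427) (nat_lit 228) (nat_lit 15719697963) (nat_lit 76) (nat_lit 8552152162) (nat_lit 24) (nat_lit 5) (nat_lit 27) (nat_lit 5) (nat_lit 25) (nat_lit 5) (nat_lit 336) (nat_lit 313) (nat_lit 251))) (XT.nd (nat_lit 78) (nat_lit 0) (nat_lit 0) (XT.lf (nat_lit 0) (nat_lit 209242648) (nat_lit 152) (nat_lit 13501750458) (nat_lit 228) (nat_lit 19395015095) (nat_lit 22) (nat_lit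 5) (nat_lit 24) (nat_lit 5) (nat_lit 25) (nat_lit 5) (nat_lit 337) (nat_lit 313) (nat_lit 250)) (XT.lf (nat_lit 0) (nat_lit 18285307413) (nat_lit 152) (nat_lit 2907343099) (nat_lit 228) (nat_lit 13678166086) (nat_lit 22) (nat_lit 5) (nat_lit 24) (nat_lit 5) (nat_lit 25) (nat_lit 5) (nat_lit 338) (nat_lit 313) (nat_lit 249)))) (XT.nd (nat_lit 156) (nat_lit 152) (nat_lit 0) (XT.nd (nat_lit 78) (nat_lit 76) (nat_lit 0) (XT.lf (nat_lit 0) (nat_lit 847344700) (nat_lit 76) (nat_lit 28638689314) (nat_lit 152) (nat_lit 7273733440) (nat_lit 21) (nat_lit 5) (nat_lit 22) (nat_lit 5) (nat_lit 23) (nat_lit 4) (nat_lit 339) (nat_lit 313) (nat_lit 248)) (XT.lf (nat_lit 0) (nat_lit 189357421) (nat_lit 152) (nat_lit 18244782063) (nat_lit 76) (nat_lit 20324117219) (nat_lit 20) (nat_lit 5) (nat_lit 22) (nat_lit 5) (nat_lit 21) (nat_lit 5) (nat_lit 340) (nat_lit 313) (nat_lit 247))) (XT.nd (nat_lit 78) (nat_lit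 0) (nat_lit 0) (XT.lf (nat_lit 0) (nat_lit 661374630) (nat_lit 152) (nat_lit 7199645783) (nat_lit 228) (nat_lit 33040141330) (nat_lit 18) (nat_lit 5) (nat_lit 20) (nat_lit 5) (nat_lit 21) (nat_lit 5) (nat_lit 341) (nat_lit 313) (nat_lit 246)) (XT.lf (nat_lit 0) (nat_lit 16765677705) (nat_lit 228) (nat_lit 21208859602) (nat_lit 76) (nat_lit 5191430733) (nat_lit 18) (nat_lit 5) (nat_lit 21) (nat_lit 5) (nat_lit 19) (nat_lit 4) (nat_lit 342) (nat_lit 313) (nat_lit 245))))) (XT.nd (nat_lit 312) (nat_lit 152) (nat_lit 0) (XT.nd (nat_lit 156) (nat_lit 152) (nat_lit 0) (XT.nd (nat_lit 78) (nat_lit 76) (nat_lit 0) (XT.lf (nat_lit 0) (nat_lit 26559346740) (nat_lit 228) (nat_lit 860312035) (nat_lit 76) (nat_lit 18178177961) (nat_lit 18) (nat_lit 5) (nat_lit 21) (nat_lit 5) (nat_lit 19) (nat_lit 4) (nat_lit 343) (nat_lit 313) (nat_lit 244)) (XT.lf (nat_lit 0) (nat_lit 22210658308) (nat_lit 76) (nat_lit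 15450420981) (nat_lit 152) (nat_lit 10521218404) (nat_lit 17) (nat_lit 5) (nat_lit 18) (nat_lit 5) (nat_lit 19) (nat_lit 4) (nat_lit 344) (nat_lit 313) (nat_lit 243))) (XT.nd (nat_lit 78) (nat_lit 152) (nat_lit 0) (XT.lf (nat_lit 0) (nat_lit 47160123309) (nat_lit 76) (nat_lit 2505076154) (nat_lit 152) (nat_lit 1307183882) (nat_lit 17) (nat_lit 5) (nat_lit 18) (nat_lit 5) (nat_lit 19) (nat_lit 4) (nat_lit 345) (nat_lit 313) (nat_lit 242)) (XT.lf (nat_lit 0) (nat_lit 9000782391) (nat_lit 152) (nat_lit 33279466473) (nat_lit 76) (nat_lit 11625665360) (nat_lit 15) (nat_lit 5) (nat_lit 17) (nat_lit 5) (nat_lit 16) (nat_lit 4) (nat_lit 346) (nat_lit 313) (nat_lit 241)))) (XT.nd (nat_lit 156) (nat_lit 76) (nat_lit 0) (XT.nd (nat_lit 78) (nat_lit 76) (nat_lit 0) (XT.lf (nat_lit 0) (nat_lit 20226092642) (nat_lit 152) (nat_lit 9945987284) (nat_lit 76) (nat_lit 26886271280) (nat_lit 15) (nat_lit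 5) (nat_lit 17) (nat_lit 5) (nat_lit 16) (nat_lit 4) (nat_lit 347) (nat_lit 313) (nat_lit 240)) (XT.lf (nat_lit 0) (nat_lit 16042290898) (nat_lit 76) (nat_lit 16684917561) (nat_lit 152) (nat_lit 27705557921) (nat_lit 14) (nat_lit 5) (nat_lit 15) (nat_lit 5) (nat_lit 16) (nat_lit 4) (nat_lit 348) (nat_lit 313) (nat_lit 239))) (XT.nd (nat_lit 78) (nat_lit 76) (nat_lit 0) (XT.lf (nat_lit 0) (nat_lit 44661252785) (nat_lit 76) (nat_lit 1831323175) (nat_lit 152) (nat_lit 17563431083) (nat_lit 14) (nat_lit 5) (nat_lit 15) (nat_lit 5) (nat_lit 16) (nat_lit 4) (nat_lit 349) (nat_lit 313) (nat_lit 238)) (XT.lf (nat_lit 0) (nat_lit 7626972816) (nat_lit 76) (nat_lit 54250051998) (nat_lit 76) (nat_lit 6050658868) (nat_lit 13) (nat_lit 4) (nat_lit 14) (nat_lit 5) (nat_lit 14) (nat_lit 4) (nat_lit 350) (nat_lit 313) (nat_lit 237)))))) (XT.nd (nat_lit 624) (nat_lit 228) (nat_lit 0) (XT.nd (nat_lit 312)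 (nat_lit 228) (nat_lit 0) (XT.nd (nat_lit 156) (nat_lit 76) (nat_lit 0) (XT.nd (nat_lit 78) (nat_lit 0) (nat_lit 0) (XT.lf (nat_lit 0) (nat_lit 6648151323) (nat_lit 152) (nat_lit 34381560193) (nat_lit 76) (nat_lit 31020359837) (nat_lit 12) (nat_lit 5) (nat_lit 14) (nat_lit 5) (nat_lit 13) (nat_lit 4) (nat_lit 351) (nat_lit 313) (nat_lit 236)) (XT.lf (nat_lit 0) (nat_lit 20029213402) (nat_lit 152) (nat_lit 6558508306) (nat_lit 76) (nat_lit 49902500221) (nat_lit 12) (nat_lit 5) (nat_lit 14) (nat_lit 5) (nat_lit 13) (nat_lit 4) (nat_lit 352) (nat_lit 313) (nat_lit 235))) (XT.nd (nat_lit 78) (nat_lit 0) (nat_lit 0) (XT.lf (nat_lit 0) (nat_lit 24715194770) (nat_lit 76) (nat_lit 10353707271) (nat_lit 152) (nat_lit 46169634768) (nat_lit 11) (nat_lit 5) (nat_lit 12) (nat_lit 5) (nat_lit 13) (nat_lit 4) (nat_lit 353) (nat_lit 313) (nat_lit 234)) (XT.lf (nat_lit 0) (nat_lit 51662209281) (nat_lit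 152) (nat_lit 27677521035) (nat_lit 0) (nat_lit 6998954404) (nat_lit 11) (nat_lit 5) (nat_lit 13) (nat_lit 4) (nat_lit 11) (nat_lit 4) (nat_lit 354) (nat_lit 313) (nat_lit 233)))) (XT.nd (nat_lit 156) (nat_lit 152) (nat_lit 0) (XT.nd (nat_lit 78) (nat_lit 0) (nat_lit 0) (XT.lf (nat_lit 0) (nat_lit 3364590651) (nat_lit 76) (nat_lit 66562503776) (nat_lit 76) (nat_lit 21892224045) (nat_lit 10) (nat_lit 4) (nat_lit 11) (nat_lit 5) (nat_lit 11) (nat_lit 4) (nat_lit 355) (nat_lit 313) (nat_lit 232)) (XT.lf (nat_lit 0) (nat_lit 38453630785) (nat_lit 76) (nat_lit 51950731913) (nat_lit 76) (nat_lit 7273947687) (nat_lit 10) (nat_lit 4) (nat_lit 11) (nat_lit 5) (nat_lit 11) (nat_lit 4) (nat_lit 356) (nat_lit 313) (nat_lit 231))) (XT.nd (nat_lit 78) (nat_lit 76) (nat_lit 0) (XT.lf (nat_lit 0) (nat_lit 8082611959) (nat_lit 152) (nat_lit 27870974031) (nat_lit 76) (nat_lit 68036480316) (nat_lit 9) (nat_lit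 5) (nat_lit 11) (nat_lit 5) (nat_lit 10) (nat_lit 4) (nat_lit 357) (nat_lit 313) (nat_lit 230)) (XT.lf (nat_lit 0) (nat_lit 6097885548) (nat_lit 76) (nat_lit 18318589937) (nat_lit 152) (nat_lit 86363833880) (nat_lit 8) (nat_lit 5) (nat_lit 9) (nat_lit 5) (nat_lit 10) (nat_lit 4) (nat_lit 358) (nat_lit 313) (nat_lit 229))))) (XT.nd (nat_lit 312) (nat_lit 152) (nat_lit 0) (XT.nd (nat_lit 156) (nat_lit 76) (nat_lit 0) (XT.nd (nat_lit 78) (nat_lit 0) (nat_lit 0) (XT.lf (nat_lit 0) (nat_lit 42851522432) (nat_lit 152) (nat_lit 73730084987) (nat_lit 0) (nat_lit 1468608597) (nat_lit 8) (nat_lit 5) (nat_lit 10) (nat_lit 4) (nat_lit 8) (nat_lit 4) (nat_lit 359) (nat_lit 313) (nat_lit 228)) (XT.lf (nat_lit 0) (nat_lit 63232689834) (nat_lit 152) (nat_lit 40785972816) (nat_lit 0) (nat_lit 21845349149) (nat_lit 8) (nat_lit 5) (nat_lit 10) (nat_lit 4) (nat_lit 8) (nat_lit 4) (nat_lit 360) (nat_lit 313)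 (nat_lit 227))) (XT.nd (nat_lit 78) (nat_lit 76) (nat_lit 0) (XT.lf (nat_lit 0) (nat_lit 85240192452) (nat_lit 152) (nat_lit 5214300409) (nat_lit 0) (nat_lit 43848752832) (nat_lit 8) (nat_lit 5) (nat_lit 10) (nat_lit 4) (nat_lit 8) (nat_lit 4) (nat_lit 361) (nat_lit 313) (nat_lit 226)) (XT.lf (nat_lit 0) (nat_lit 34943755503) (nat_lit 76) (nat_lit 74901087773) (nat_lit 76) (nat_lit 33505852844) (nat_lit 7) (nat_lit 4) (nat_lit 8) (nat_lit 5) (nat_lit 8) (nat_lit 4) (nat_lit 362) (nat_lit 313) (nat_lit 225)))) (XT.nd (nat_lit 156) (nat_lit 76) (nat_lit 0) (XT.nd (nat_lit 78) (nat_lit 76) (nat_lit 0) (XT.lf (nat_lit 0) (nat_lit 78603806110) (nat_lit 76) (nat_lit 57952890346) (nat_lit 76) (nat_lit 16554141240) (nat_lit 7) (nat_lit 4) (nat_lit 8) (nat_lit 5) (nat_lit 8) (nat_lit 4) (nat_lit 363) (nat_lit 313) (nat_lit 224)) (XT.lf (nat_lit 0) (nat_lit 1662427457) (nat_lit 152) (nat_lit 37944153861)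 (nat_lit 76) (nat_lit 124042120647) (nat_lit 6) (nat_lit 5) (nat_lit 8) (nat_lit 5) (nat_lit 7) (nat_lit 4) (nat_lit 364) (nat_lit 313) (nat_lit 223))) (XT.nd (nat_lit 78) (nat_lit 0) (nat_lit 0) (XT.lf (nat_lit 0) (nat_lit 1165751905) (nat_lit 76) (nat_lit 19300963343) (nat_lit 152) (nat_lit 154526503355) (nat_lit 5) (nat_lit 5) (nat_lit 6) (nat_lit 5) (nat_lit 7) (nat_lit 4) (nat_lit 365) (nat_lit 313) (nat_lit 222)) (XT.nd (nat_lit 78) (nat_lit 0) (nat_lit 0) (XT.lf (nat_lit 0) (nat_lit 41899717575) (nat_lit 152) (nat_lit 141696473463) (nat_lit 0) (nat_lit 3559156946) (nat_lit 5) (nat_lit 5) (nat_lit 7) (nat_lit 4) (nat_lit 5) (nat_lit 4) (nat_lit 366) (nat_lit 313) (nat_lit 221)) (XT.lf (nat_lit 0) (nat_lit 65545659793) (nat_lit 152) (nat_lit 107502217515) (nat_lit 0) (nat_lit 27202707475) (nat_lit 5) (nat_lit 5) (nat_lit 7) (nat_lit 4) (nat_lit 5) (nat_lit 4) (nat_lit 367) (nat_lit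 313) (nat_lit 220))))))))
noncomputable def xc138 : XT := (XT.nd (nat_lit 1248) (nat_lit 76) (nat_lit 0) (XT.nd (nat_lit 624) (nat_lit 152) (nat_lit 0) (XT.nd (nat_lit 312) (nat_lit 0) (nat_lit 0) (XT.nd (nat_lit 156) (nat_lit 76) (nat_lit 0) (XT.nd (nat_lit 78) (nat_lit 0) (nat_lit 0) (XT.lf (nat_lit 0) (nat_lit 91080477374) (nat_lit 152) (nat_lit 70577877596) (nat_lit 0) (nat_lit 52735310528) (nat_lit 5) (nat_lit 5) (nat_lit 7) (nat_lit 4) (nat_lit 5) (nat_lit 4) (nat_lit 368) (nat_lit 313) (nat_lit 219)) (XT.lf (nat_lit 0) (nat_lit 118655487754) (nat_lit 152) (nat_lit 30704642803) (nat_lit 0) (nat_lit 80308270420) (nat_lit 5) (nat_lit 5) (nat_lit 7) (nat_lit 4) (nat_lit 5) (nat_lit 4) (nat_lit 369) (nat_lit 313) (nat_lit 218))) (XT.nd (nat_lit 78) (nat_lit 0) (nat_lit 0) (XT.lf (nat_lit 0) (nat_lit 13004300479) (nat_lit 76) (nat_lit 135742551662) (nat_lit 76) (nat_lit 97393435729)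 (nat_lit 4) (nat_lit 4) (nat_lit 5) (nat_lit 5) (nat_lit 5) (nat_lit 4) (nat_lit 370) (nat_lit 313) (nat_lit 217)) (XT.lf (nat_lit 0) (nat_lit 61951599825) (nat_lit 76) (nat_lit 120131112800) (nat_lit 76) (nat_lit 81780238903) (nat_lit 4) (nat_lit 4) (nat_lit 5) (nat_lit 5) (nat_lit 5) (nat_lit 4) (nat_lit 371) (nat_lit 313) (nat_lit 216)))) (XT.nd (nat_lit 156) (nat_lit 0) (nat_lit 0) (XT.nd (nat_lit 78) (nat_lit 0) (nat_lit 0) (XT.lf (nat_lit 0) (nat_lit 114810461230) (nat_lit 76) (nat_lit 103272821086) (nat_lit 76) (nat_lit 64920319446) (nat_lit 4) (nat_lit 4) (nat_lit 5) (nat_lit 5) (nat_lit 5) (nat_lit 4) (nat_lit 372) (nat_lit 313) (nat_lit 215)) (XT.lf (nat_lit 0) (nat_lit 171894122391) (nat_lit 76) (nat_lit 85067775533) (nat_lit 76) (nat_lit 46713766723) (nat_lit 4) (nat_lit 4) (nat_lit 5) (nat_lit 5) (nat_lit 5) (nat_lit 4) (nat_lit 373) (nat_lit 313) (nat_lit 214))) (XT.nd (nat_lit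 78) (nat_lit 0) (nat_lit 0) (XT.lf (nat_lit 0) (nat_lit 233540856855) (nat_lit 76) (nat_lit 65408094390) (nat_lit 76) (nat_lit 27052690052) (nat_lit 4) (nat_lit 4) (nat_lit 5) (nat_lit 5) (nat_lit 5) (nat_lit 4) (nat_lit 374) (nat_lit 313) (nat_lit 213)) (XT.lf (nat_lit 0) (nat_lit 300115978603) (nat_lit 76) (nat_lit 44177275842) (nat_lit 76) (nat_lit 5820579349) (nat_lit 4) (nat_lit 4) (nat_lit 5) (nat_lit 5) (nat_lit 5) (nat_lit 4) (nat_lit 375) (nat_lit 313) (nat_lit 212))))) (XT.nd (nat_lit 312) (nat_lit 0) (nat_lit 0) (XT.nd (nat_lit 156) (nat_lit 0) (nat_lit 0) (XT.nd (nat_lit 78) (nat_lit 76) (nat_lit 0) (XT.lf (nat_lit 0) (nat_lit 16252554579) (nat_lit 152) (nat_lit 4552579408) (nat_lit 76) (nat_lit 355317078654) (nat_lit 3) (nat_lit 5) (nat_lit 5) (nat_lit 5) (nat_lit 4) (nat_lit 4) (nat_lit 376) (nat_lit 313) (nat_lit 211)) (XT.lf (nat_lit 0) (nat_lit 41038741198) (nat_lit 152)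 (nat_lit 357538345267) (nat_lit 0) (nat_lit 5521147913) (nat_lit 2) (nat_lit 5) (nat_lit 4) (nat_lit 4) (nat_lit 2) (nat_lit 4) (nat_lit 377) (nat_lit 313) (nat_lit 210))) (XT.nd (nat_lit 78) (nat_lit 0) (nat_lit 0) (XT.lf (nat_lit 0) (nat_lit 68474424651) (nat_lit 152) (nat_lit 332828703873) (nat_lit 0) (nat_lit 32955881593) (nat_lit 2) (nat_lit 5) (nat_lit 4) (nat_lit 4) (nat_lit 2) (nat_lit 4) (nat_lit 378) (nat_lit 313) (nat_lit 209)) (XT.lf (nat_lit 0) (nat_lit 98103573977) (nat_lit 152) (nat_lit 306145033930) (nat_lit 0) (nat_lit 62584151499) (nat_lit 2) (nat_lit 5) (nat_lit 4) (nat_lit 4) (nat_lit 2) (nat_lit 4) (nat_lit 379) (nat_lit 313) (nat_lit 208)))) (XT.nd (nat_lit 156) (nat_lit 0) (nat_lit 0) (XT.nd (nat_lit 78) (nat_lit 0) (nat_lit 0) (XT.lf (nat_lit 0) (nat_lit 130101769319) (nat_lit 152) (nat_lit 277329209984) (nat_lit 0) (nat_lit 94581532565) (nat_lit 2) (nat_lit 5)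 (nat_lit 4) (nat_lit 4) (nat_lit 2) (nat_lit 4) (nat_lit 380) (nat_lit 313) (nat_lit 207)) (XT.lf (nat_lit 0) (nat_lit 164658629613) (nat_lit 152) (nat_lit 246210471599) (nat_lit 0) (nat_lit 129137638899) (nat_lit 2) (nat_lit 5) (nat_lit 4) (nat_lit 4) (nat_lit 2) (nat_lit 4) (nat_lit 381) (nat_lit 313) (nat_lit 206))) (XT.nd (nat_lit 78) (nat_lit 0) (nat_lit 0) (XT.lf (nat_lit 0) (nat_lit 201978936254) (nat_lit 152) (nat_lit 212604411435) (nat_lit 0) (nat_lit 166457247428) (nat_lit 2) (nat_lit 5) (nat_lit 4) (nat_lit 4) (nat_lit 2) (nat_lit 4) (nat_lit 382) (nat_lit 313) (nat_lit 205)) (XT.lf (nat_lit 0) (nat_lit 242283846613) (nat_lit 152) (nat_lit 176311882469) (nat_lit 0) (nat_lit 206761511388) (nat_lit 2) (nat_lit 5) (nat_lit 4) (nat_lit 4) (nat_lit 2) (nat_lit 4) (nat_lit 383) (nat_lit 313) (nat_lit 204)))))) (XT.nd (nat_lit 624) (nat_lit 0) (nat_lit 0) (XT.nd (nat_lit 312) (nat_lit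 0) (nat_lit 0) (XT.nd (nat_lit 156) (nat_lit 76) (nat_lit 0) (XT.nd (nat_lit 78) (nat_lit 0) (nat_lit 0) (XT.lf (nat_lit 0) (nat_lit 285812204605) (nat_lit 152) (nat_lit 137117817863) (nat_lit 0) (nat_lit 250289270862) (nat_lit 2) (nat_lit 5) (nat_lit 4) (nat_lit 4) (nat_lit 2) (nat_lit 4) (nat_lit 384) (nat_lit 313) (nat_lit 203)) (XT.lf (nat_lit 0) (nat_lit 332821956055) (nat_lit 152) (nat_lit 94789956494) (nat_lit 0) (nat_lit 297298468128) (nat_lit 2) (nat_lit 5) (nat_lit 4) (nat_lit 4) (nat_lit 2) (nat_lit 4) (nat_lit 385) (nat_lit 313) (nat_lit 202))) (XT.nd (nat_lit 78) (nat_lit 76) (nat_lit 0) (XT.lf (nat_lit 0) (nat_lit 383591677266) (nat_lit 152) (nat_lit 49077466590) (nat_lit 0) (nat_lit 348067676207) (nat_lit 2) (nat_lit 5) (nat_lit 4) (nat_lit 4) (nat_lit 2) (nat_lit 4) (nat_lit 386) (nat_lit 313) (nat_lit 201)) (XT.lf (nat_lit 0) (nat_lit 305840033) (nat_lit 76) (nat_lit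 438123741274) (nat_lit 76) (nat_lit 402599265092) (nat_lit 1) (nat_lit 4) (nat_lit 2) (nat_lit 5) (nat_lit 2) (nat_lit 4) (nat_lit 387) (nat_lit 313) (nat_lit 200)))) (XT.nd (nat_lit 156) (nat_lit 0) (nat_lit 0) (XT.nd (nat_lit 78) (nat_lit 0) (nat_lit 0) (XT.lf (nat_lit 0) (nat_lit 56429445886) (nat_lit 76) (nat_lit 442566207212) (nat_lit 76) (nat_lit 407041291102) (nat_lit 1) (nat_lit 4) (nat_lit 2) (nat_lit 5) (nat_lit 2) (nat_lit 4) (nat_lit 388) (nat_lit 313) (nat_lit 199)) (XT.lf (nat_lit 0) (nat_lit 117041602878) (nat_lit 76) (nat_lit 447364732306) (nat_lit 76) (nat_lit 411839408854) (nat_lit 1) (nat_lit 4) (nat_lit 2) (nat_lit 5) (nat_lit 2) (nat_lit 4) (nat_lit 389) (nat_lit 313) (nat_lit 198))) (XT.nd (nat_lit 78) (nat_lit 0) (nat_lit 0) (XT.lf (nat_lit 0) (nat_lit 182501494164) (nat_lit 76) (nat_lit 452547752259) (nat_lit 76) (nat_lit 417022051639) (nat_lit 1) (nat_lit 4) (nat_lit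 2) (nat_lit 5) (nat_lit 2) (nat_lit 4) (nat_lit 390) (nat_lit 313) (nat_lit 197)) (XT.lf (nat_lit 0) (nat_lit 253197030209) (nat_lit 76) (nat_lit 458145981264) (nat_lit 76) (nat_lit 422619931414) (nat_lit 1) (nat_lit 4) (nat_lit 2) (nat_lit 5) (nat_lit 2) (nat_lit 4) (nat_lit 391) (nat_lit 313) (nat_lit 196))))) (XT.nd (nat_lit 312) (nat_lit 0) (nat_lit 0) (XT.nd (nat_lit 156) (nat_lit 0) (nat_lit 0) (XT.nd (nat_lit 78) (nat_lit 0) (nat_lit 0) (XT.lf (nat_lit 0) (nat_lit 329547147525) (nat_lit 76) (nat_lit 464192594010) (nat_lit 76) (nat_lit 428666220801) (nat_lit 1) (nat_lit 4) (nat_lit 2) (nat_lit 5) (nat_lit 2) (nat_lit 4) (nat_lit 392) (nat_lit 313) (nat_lit 195)) (XT.lf (nat_lit 0) (nat_lit 412004291249) (nat_lit 76) (nat_lit 470723422279) (nat_lit 76) (nat_lit 435196749661) (nat_lit 1) (nat_lit 4) (nat_lit 2) (nat_lit 5) (nat_lit 2) (nat_lit 4) (nat_lit 393) (nat_lit 313) (nat_lit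 194))) (XT.nd (nat_lit 78) (nat_lit 0) (nat_lit 0) (XT.lf (nat_lit 0) (nat_lit 501057096309) (nat_lit 76) (nat_lit 477777167273) (nat_lit 76) (nat_lit 442250217426) (nat_lit 1) (nat_lit 4) (nat_lit 2) (nat_lit 5) (nat_lit 2) (nat_lit 4) (nat_lit 394) (nat_lit 313) (nat_lit 193)) (XT.lf (nat_lit 0) (nat_lit 597233283031) (nat_lit 76) (nat_lit 485395628964) (nat_lit 76) (nat_lit 449868422422) (nat_lit 1) (nat_lit 4) (nat_lit 2) (nat_lit 5) (nat_lit 2) (nat_lit 4) (nat_lit 395) (nat_lit 313) (nat_lit 192)))) (XT.nd (nat_lit 156) (nat_lit 0) (nat_lit 0) (XT.nd (nat_lit 78) (nat_lit 0) (nat_lit 0) (XT.lf (nat_lit 0) (nat_lit 701102784372) (nat_lit 76) (nat_lit 493623953790) (nat_lit 76) (nat_lit 458096509569) (nat_lit 1) (nat_lit 4) (nat_lit 2) (nat_lit 5) (nat_lit 2) (nat_lit 4) (nat_lit 396) (nat_lit 313) (nat_lit 191)) (XT.lf (nat_lit 0) (nat_lit 813281123304) (nat_lit 76) (nat_lit 502510902196)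 (nat_lit 76) (nat_lit 466983237901) (nat_lit 1) (nat_lit 4) (nat_lit 2) (nat_lit 5) (nat_lit 2) (nat_lit 4) (nat_lit 397) (nat_lit 313) (nat_lit 190))) (XT.nd (nat_lit 78) (nat_lit 0) (nat_lit 0) (XT.lf (nat_lit 0) (nat_lit 934433060354) (nat_lit 76) (nat_lit 512109137579) (nat_lit 76) (nat_lit 476581269512) (nat_lit 1) (nat_lit 4) (nat_lit 2) (nat_lit 5) (nat_lit 2) (nat_lit 4) (nat_lit 398) (nat_lit 313) (nat_lit 189)) (XT.nd (nat_lit 78) (nat_lit 0) (nat_lit 0) (XT.lf (nat_lit 0) (nat_lit 1065276532926) (nat_lit 76) (nat_lit 522475538371) (nat_lit 76) (nat_lit 486947481627) (nat_lit 1) (nat_lit 4) (nat_lit 2) (nat_lit 5) (nat_lit 2) (nat_lit 4) (nat_lit 399) (nat_lit 313) (nat_lit 188)) (XT.lf (nat_lit 0) (nat_lit 1206586909747) (nat_lit 76) (nat_lit 533671535096) (nat_lit 76) (nat_lit 498143303650) (nat_lit 1) (nat_lit 4) (nat_lit 2) (nat_lit 5) (nat_lit 2) (nat_lit 4) (nat_lit 400)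 (nat_lit 313) (nat_lit 187))))))))
noncomputable def xc139 : XT := (XT.nd (nat_lit 40716) (nat_lit 0) (nat_lit 1596) (XT.nd (nat_lit 40092) (nat_lit 0) (nat_lit 3572) (XT.nd (nat_lit 312) (nat_lit 0) (nat_lit 0) (XT.nd (nat_lit 156) (nat_lit 0) (nat_lit 0) (XT.nd (nat_lit 78) (nat_lit 0) (nat_lit 0) (XT.lf (nat_lit 0) (nat_lit 1359201585643) (nat_lit 76) (nat_lit 545763474401) (nat_lit 76) (nat_lit 510235081193) (nat_lit 1) (nat_lit 4) (nat_lit 2) (nat_lit 5) (nat_lit 2) (nat_lit 4) (nat_lit 401) (nat_lit 313) (nat_lit 186)) (XT.lf (nat_lit 0) (nat_lit 1524024943877) (nat_lit 76) (nat_lit 558823012221) (nat_lit 76) (nat_lit 523294469236) (nat_lit 1) (nat_lit 4) (nat_lit 2) (nat_lit 5) (nat_lit 2) (nat_lit 4) (nat_lit 402) (nat_lit 313) (nat_lit 185))) (XT.nd (nat_lit 78) (nat_lit 0) (nat_lit 0) (XT.lf (nat_lit 0) (nat_lit 1702033715463) (nat_lit 76) (nat_lit 572927538412) (nat_lit 76)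 (nat_lit 537398856742) (nat_lit 1) (nat_lit 4) (nat_lit 2) (nat_lit 5) (nat_lit 2) (nat_lit 4) (nat_lit 403) (nat_lit 313) (nat_lit 184)) (XT.lf (nat_lit 0) (nat_lit 1894282767193) (nat_lit 76) (nat_lit 588160635350) (nat_lit 76) (nat_lit 552631825270) (nat_lit 1) (nat_lit 4) (nat_lit 2) (nat_lit 5) (nat_lit 2) (nat_lit 4) (nat_lit 404) (nat_lit 313) (nat_lit 183)))) (XT.nd (nat_lit 156) (nat_lit 0) (nat_lit 0) (XT.nd (nat_lit 78) (nat_lit 0) (nat_lit 0) (XT.lf (nat_lit 0) (nat_lit 2101911352709) (nat_lit 76) (nat_lit 604612573240) (nat_lit 76) (nat_lit 569083644261) (nat_lit 1) (nat_lit 4) (nat_lit 2) (nat_lit 5) (nat_lit 2) (nat_lit 4) (nat_lit 405) (nat_lit 313) (nat_lit 182)) (XT.lf (nat_lit 0) (nat_lit 2326149863628) (nat_lit 76) (nat_lit 622380845047) (nat_lit 76) (nat_lit 586851805976) (nat_lit 1) (nat_lit 4) (nat_lit 2) (nat_lit 5) (nat_lit 2) (nat_lit 4) (nat_lit 406) (nat_lit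 313) (nat_lit 181))) (XT.nd (nat_lit 78) (nat_lit 0) (nat_lit 0) (XT.lf (nat_lit 0) (nat_lit 2568327120756) (nat_lit 76) (nat_lit 641570744233) (nat_lit 76) (nat_lit 606041603225) (nat_lit 1) (nat_lit 4) (nat_lit 2) (nat_lit 5) (nat_lit 2) (nat_lit 4) (nat_lit 407) (nat_lit 313) (nat_lit 180)) (XT.lf (nat_lit 0) (nat_lit 2829878248579) (nat_lit 76) (nat_lit 662295988719) (nat_lit 76) (nat_lit 626766753326) (nat_lit 1) (nat_lit 4) (nat_lit 2) (nat_lit 5) (nat_lit 2) (nat_lit 4) (nat_lit 408) (nat_lit 313) (nat_lit 179))))) (XT.nd (nat_lit 312) (nat_lit 228) (nat_lit 0) (XT.nd (nat_lit 156) (nat_lit 0) (nat_lit 76) (XT.nd (nat_lit 78) (nat_lit 0) (nat_lit 0) (XT.lf (nat_lit 0) (nat_lit 2531540165) (nat_lit 532) (nat_lit 1804140471) (nat_lit 532) (nat_lit 1804140471) (nat_lit 51) (nat_lit 3) (nat_lit 58) (nat_lit 3) (nat_lit 58) (nat_lit 5) (nat_lit 314) (nat_lit 314) (nat_lit 272)) (XT.lf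 (nat_lit 76) (nat_lit 2267851773) (nat_lit 0) (nat_lit 3473318460) (nat_lit 532) (nat_lit 6990704035) (nat_lit 52) (nat_lit 5) (nat_lit 51) (nat_lit 3) (nat_lit 58) (nat_lit 5) (nat_lit 315) (nat_lit 314) (nat_lit 271))) (XT.nd (nat_lit 78) (nat_lit 0) (nat_lit 0) (XT.lf (nat_lit 0) (nat_lit 6583957531) (nat_lit 456) (nat_lit 4475102979) (nat_lit 532) (nat_lit 2152479230) (nat_lit 52) (nat_lit 5) (nat_lit 58) (nat_lit 5) (nat_lit 59) (nat_lit 5) (nat_lit 316) (nat_lit 314) (nat_lit 270)) (XT.lf (nat_lit 76) (nat_lit 1975666483) (nat_lit 0) (nat_lit 5617112022) (nat_lit 532) (nat_lit 6128995232) (nat_lit 53) (nat_lit 5) (nat_lit 52) (nat_lit 5) (nat_lit 59) (nat_lit 5) (nat_lit 317) (nat_lit 314) (nat_lit 269)))) (XT.nd (nat_lit 156) (nat_lit 380) (nat_lit 0) (XT.nd (nat_lit 78) (nat_lit 0) (nat_lit 0) (XT.lf (nat_lit 0) (nat_lit 8777548243) (nat_lit 456) (nat_lit 5103999633) (nat_lit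 532) (nat_lit 383737041) (nat_lit 53) (nat_lit 5) (nat_lit 59) (nat_lit 5) (nat_lit 60) (nat_lit 5) (nat_lit 318) (nat_lit 314) (nat_lit 268)) (XT.lf (nat_lit 76) (nat_lit 1997065371) (nat_lit 0) (nat_lit 8220120168) (nat_lit 532) (nat_lit 4622356713) (nat_lit 54) (nat_lit 5) (nat_lit 53) (nat_lit 5) (nat_lit 60) (nat_lit 5) (nat_lit 319) (nat_lit 314) (nat_lit 267))) (XT.nd (nat_lit 78) (nat_lit 380) (nat_lit 0) (XT.lf (nat_lit 76) (nat_lit 9930739745) (nat_lit 0) (nat_lit 1948851654) (nat_lit 532) (nat_lit 3571607764) (nat_lit 54) (nat_lit 5) (nat_lit 53) (nat_lit 5) (nat_lit 60) (nat_lit 5) (nat_lit 320) (nat_lit 314) (nat_lit 266)) (XT.lf (nat_lit 0) (nat_lit 2363106487) (nat_lit 456) (nat_lit 11455286666) (nat_lit 532) (nat_lit 2281985046) (nat_lit 48) (nat_lit 5) (nat_lit 54) (nat_lit 5) (nat_lit 55) (nat_lit 5) (nat_lit 321) (nat_lit 314) (nat_lit 265)))))) (XT.nd (nat_lit 624)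 (nat_lit 988) (nat_lit 0) (XT.nd (nat_lit 312) (nat_lit 380) (nat_lit 0) (XT.nd (nat_lit 156) (nat_lit 228) (nat_lit 0) (XT.nd (nat_lit 78) (nat_lit 380) (nat_lit 0) (XT.lf (nat_lit 0) (nat_lit 11112289558) (nat_lit 456) (nat_lit 4972399628) (nat_lit 532) (nat_lit 703068427) (nat_lit 48) (nat_lit 5) (nat_lit 54) (nat_lit 5) (nat_lit 55) (nat_lit 5) (nat_lit 322) (nat_lit 314) (nat_lit 264)) (XT.lf (nat_lit 0) (nat_lit 1052395753) (nat_lit 380) (nat_lit 14436827357) (nat_lit 76) (nat_lit 2030995893) (nat_lit 43) (nat_lit 5) (nat_lit 48) (nat_lit 5) (nat_lit 44) (nat_lit 5) (nat_lit 323) (nat_lit 314) (nat_lit 263))) (XT.nd (nat_lit 78) (nat_lit 228) (nat_lit 0) (XT.lf (nat_lit 0) (nat_lit 3173518287) (nat_lit 380) (nat_lit 5611288098) (nat_lit 76) (nat_lit 9503999044) (nat_lit 43) (nat_lit 5) (nat_lit 48) (nat_lit 5) (nat_lit 44) (nat_lit 5) (nat_lit 324) (nat_lit 314) (nat_lit 262)) (XT.lf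 (nat_lit 0) (nat_lit 4100697551) (nat_lit 228) (nat_lit 1438962357) (nat_lit 304) (nat_lit 13573234610) (nat_lit 40) (nat_lit 5) (nat_lit 43) (nat_lit 5) (nat_lit 44) (nat_lit 5) (nat_lit 325) (nat_lit 314) (nat_lit 261)))) (XT.nd (nat_lit 156) (nat_lit 152) (nat_lit 0) (XT.nd (nat_lit 78) (nat_lit 228) (nat_lit 0) (XT.lf (nat_lit 0) (nat_lit 8386500496) (nat_lit 304) (nat_lit 5267922839) (nat_lit 76) (nat_lit 6325213763) (nat_lit 40) (nat_lit 5) (nat_lit 44) (nat_lit 5) (nat_lit 41) (nat_lit 5) (nat_lit 326) (nat_lit 314) (nat_lit 260)) (XT.lf (nat_lit 0) (nat_lit 5468102519) (nat_lit 228) (nat_lit 6141319462) (nat_lit 304) (nat_lit 9294466498) (nat_lit 37) (nat_lit 5) (nat_lit 40) (nat_lit 5) (nat_lit 41) (nat_lit 5) (nat_lit 327) (nat_lit 314) (nat_lit 259))) (XT.nd (nat_lit 78) (nat_lit 152) (nat_lit 0) (XT.lf (nat_lit 0) (nat_lit 15265719799) (nat_lit 304) (nat_lit 4603999238) (nat_lit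 76) (nat_lit 2018350939) (nat_lit 37) (nat_lit 5) (nat_lit 41) (nat_lit 5) (nat_lit 38) (nat_lit 5) (nat_lit 328) (nat_lit 314) (nat_lit 258)) (XT.lf (nat_lit 0) (nat_lit 7275764452) (nat_lit 152) (nat_lit 12255032277) (nat_lit 228) (nat_lit 3394918180) (nat_lit 35) (nat_lit 5) (nat_lit 37) (nat_lit 5) (nat_lit 38) (nat_lit 5) (nat_lit 329) (nat_lit 314) (nat_lit 257))))) (XT.nd (nat_lit 312) (nat_lit 532) (nat_lit 0) (XT.nd (nat_lit 156) (nat_lit 152) (nat_lit 0) (XT.nd (nat_lit 78) (nat_lit 228) (nat_lit 0) (XT.lf (nat_lit 0) (nat_lit 197430927) (nat_lit 228) (nat_lit 3697409724) (nat_lit 76) (nat_lit 20142481975) (nat_lit 34) (nat_lit 5) (nat_lit 37) (nat_lit 5) (nat_lit 35) (nat_lit 5) (nat_lit 330) (nat_lit 314) (nat_lit 256)) (XT.lf (nat_lit 0) (nat_lit 4239235259) (nat_lit 304) (nat_lit 15764594634) (nat_lit 76) (nat_lit 5199360769) (nat_lit 31) (nat_lit 5) (nat_lit 35) (nat_lit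 5) (nat_lit 32) (nat_lit 5) (nat_lit 331) (nat_lit 314) (nat_lit 255))) (XT.nd (nat_lit 78) (nat_lit 152) (nat_lit 0) (XT.lf (nat_lit 0) (nat_lit 8793294840) (nat_lit 304) (nat_lit 2744556092) (nat_lit 76) (nat_lit 14909387077) (nat_lit 31) (nat_lit 5) (nat_lit 35) (nat_lit 5) (nat_lit 32) (nat_lit 5) (nat_lit 332) (nat_lit 314) (nat_lit 254)) (XT.lf (nat_lit 0) (nat_lit 11891305151) (nat_lit 152) (nat_lit 2091570085) (nat_lit 228) (nat_lit 13786259280) (nat_lit 29) (nat_lit 5) (nat_lit 31) (nat_lit 5) (nat_lit 32) (nat_lit 5) (nat_lit 333) (nat_lit 314) (nat_lit 253)))) (XT.nd (nat_lit 156) (nat_lit 380) (nat_lit 0) (XT.nd (nat_lit 78) (nat_lit 152) (nat_lit 0) (XT.lf (nat_lit 0) (nat_lit 19845347011) (nat_lit 228) (nat_lit 1554783997) (nat_lit 76) (nat_lit 7776053239) (nat_lit 29) (nat_lit 5) (nat_lit 32) (nat_lit 5) (nat_lit 30) (nat_lit 5) (nat_lit 334) (nat_lit 314) (nat_lit 252))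 (XT.lf (nat_lit 0) (nat_lit 14569024159) (nat_lit 152) (nat_lit 11999244213) (nat_lit 228) (nat_lit 4096231487) (nat_lit 27) (nat_lit 5) (nat_lit 29) (nat_lit 5) (nat_lit 30) (nat_lit 5) (nat_lit 335) (nat_lit 314) (nat_lit 251))) (XT.nd (nat_lit 78) (nat_lit 304) (nat_lit 0) (XT.lf (nat_lit 0) (nat_lit 1509779945) (nat_lit 228) (nat_lit 255639707) (nat_lit 76) (nat_lit 30501038055) (nat_lit 26) (nat_lit 5) (nat_lit 29) (nat_lit 5) (nat_lit 27) (nat_lit 5) (nat_lit 336) (nat_lit 314) (nat_lit 250)) (XT.nd (nat_lit 78) (nat_lit 152) (nat_lit 0) (XT.lf (nat_lit 0) (nat_lit 7991284934) (nat_lit 228) (nat_lit 16584652021) (nat_lit 76) (nat_lit 9360272667) (nat_lit 24) (nat_lit 5) (nat_lit 27) (nat_lit 5) (nat_lit 25) (nat_lit 5) (nat_lit 337) (nat_lit 314) (nat_lit 249)) (XT.lf (nat_lit 0) (nat_lit 608664048) (nat_lit 152) (nat_lit 14438516492) (nat_lit 228) (nat_lit 20687904801) (nat_lit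 22) (nat_lit 5) (nat_lit 24) (nat_lit 5) (nat_lit 25) (nat_lit 5) (nat_lit 338) (nat_lit 314) (nat_lit 248))))))))
noncomputable def xc140 : XT := (XT.nd (nat_lit 1248) (nat_lit 456) (nat_lit 0) (XT.nd (nat_lit 624) (nat_lit 456) (nat_lit 0) (XT.nd (nat_lit 312) (nat_lit 76) (nat_lit 0) (XT.nd (nat_lit 156) (nat_lit 228) (nat_lit 0) (XT.nd (nat_lit 78) (nat_lit 76) (nat_lit 0) (XT.lf (nat_lit 0) (nat_lit 20102467180) (nat_lit 152) (nat_lit 3007176841) (nat_lit 228) (nat_lit 14532871685) (nat_lit 22) (nat_lit 5) (nat_lit 24) (nat_lit 5) (nat_lit 25) (nat_lit 5) (nat_lit 339) (nat_lit 314) (nat_lit 247)) (XT.lf (nat_lit 0) (nat_lit 1274896416) (nat_lit 76) (nat_lit 30786796913) (nat_lit 152) (nat_lit 7621291449) (nat_lit 21) (nat_lit 5) (nat_lit 22) (nat_lit 5) (nat_lit 23) (nat_lit 4) (nat_lit 340) (nat_lit 314) (nat_lit 246))) (XT.nd (nat_lit 78) (nat_lit 152) (nat_lit 0) (XT.lf (nat_lit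 0) (nat_lit 410633791) (nat_lit 152) (nat_lit 19360205077) (nat_lit 76) (nat_lit 22071397867) (nat_lit 20) (nat_lit 5) (nat_lit 22) (nat_lit 5) (nat_lit 21) (nat_lit 5) (nat_lit 341) (nat_lit 314) (nat_lit 245)) (XT.lf (nat_lit 0) (nat_lit 1049731251) (nat_lit 152) (nat_lit 7639097347) (nat_lit 228) (nat_lit 35468335773) (nat_lit 18) (nat_lit 5) (nat_lit 20) (nat_lit 5) (nat_lit 21) (nat_lit 5) (nat_lit 342) (nat_lit 314) (nat_lit 244)))) (XT.nd (nat_lit 156) (nat_lit 76) (nat_lit 0) (XT.nd (nat_lit 78) (nat_lit 0) (nat_lit 0) (XT.lf (nat_lit 0) (nat_lit 18294163276) (nat_lit 228) (nat_lit 22583111286) (nat_lit 76) (nat_lit 5726829275) (nat_lit 18) (nat_lit 5) (nat_lit 21) (nat_lit 5) (nat_lit 19) (nat_lit 4) (nat_lit 343) (nat_lit 314) (nat_lit 243)) (XT.lf (nat_lit 0) (nat_lit 28857456845) (nat_lit 228) (nat_lit 630565624) (nat_lit 76) (nat_lit 19743621165) (nat_lit 18) (nat_lit 5)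 (nat_lit 21) (nat_lit 5) (nat_lit 19) (nat_lit 4) (nat_lit 344) (nat_lit 314) (nat_lit 242))) (XT.nd (nat_lit 78) (nat_lit 0) (nat_lit 0) (XT.lf (nat_lit 0) (nat_lit 24278523577) (nat_lit 76) (nat_lit 16562961623) (nat_lit 152) (nat_lit 11181854878) (nat_lit 17) (nat_lit 5) (nat_lit 18) (nat_lit 5) (nat_lit 19) (nat_lit 4) (nat_lit 345) (nat_lit 314) (nat_lit 241)) (XT.lf (nat_lit 0) (nat_lit 51202389289) (nat_lit 76) (nat_lit 2591136843) (nat_lit 152) (nat_lit 1244109521) (nat_lit 17) (nat_lit 5) (nat_lit 18) (nat_lit 5) (nat_lit 19) (nat_lit 4) (nat_lit 346) (nat_lit 314) (nat_lit 240))))) (XT.nd (nat_lit 312) (nat_lit 228) (nat_lit 0) (XT.nd (nat_lit 156) (nat_lit 76) (nat_lit 0) (XT.nd (nat_lit 78) (nat_lit 0) (nat_lit 0) (XT.lf (nat_lit 0) (nat_lit 9877638619) (nat_lit 152) (nat_lit 35661281301) (nat_lit 76) (nat_lit 12666812921) (nat_lit 15) (nat_lit 5) (nat_lit 17) (nat_lit 5)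 (nat_lit 16) (nat_lit 4) (nat_lit 347) (nat_lit 314) (nat_lit 239)) (XT.lf (nat_lit 0) (nat_lit 21989359347) (nat_lit 152) (nat_lit 10481904702) (nat_lit 76) (nat_lit 29140038106) (nat_lit 15) (nat_lit 5) (nat_lit 17) (nat_lit 5) (nat_lit 16) (nat_lit 4) (nat_lit 348) (nat_lit 314) (nat_lit 238))) (XT.nd (nat_lit 78) (nat_lit 0) (nat_lit 0) (XT.lf (nat_lit 0) (nat_lit 17578859492) (nat_lit 76) (nat_lit 17907040029) (nat_lit 152) (nat_lit 29770151830) (nat_lit 14) (nat_lit 5) (nat_lit 15) (nat_lit 5) (nat_lit 16) (nat_lit 4) (nat_lit 349) (nat_lit 314) (nat_lit 237)) (XT.lf (nat_lit 0) (nat_lit 48468583861) (nat_lit 76) (nat_lit 1873504088) (nat_lit 152) (nat_lit 18827903047) (nat_lit 14) (nat_lit 5) (nat_lit 15) (nat_lit 5) (nat_lit 16) (nat_lit 4) (nat_lit 350) (nat_lit 314) (nat_lit 236)))) (XT.nd (nat_lit 156) (nat_lit 76) (nat_lit 0) (XT.nd (nat_lit 78) (nat_lit 76) (nat_lit 0) (XT.lf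 (nat_lit 0) (nat_lit 8473411913) (nat_lit 76) (nat_lit 58482249058) (nat_lit 76) (nat_lit 6395877863) (nat_lit 13) (nat_lit 4) (nat_lit 14) (nat_lit 5) (nat_lit 14) (nat_lit 4) (nat_lit 351) (nat_lit 314) (nat_lit 235)) (XT.lf (nat_lit 0) (nat_lit 7302122586) (nat_lit 152) (nat_lit 36906805509) (nat_lit 76) (nat_lit 33595309468) (nat_lit 12) (nat_lit 5) (nat_lit 14) (nat_lit 5) (nat_lit 13) (nat_lit 4) (nat_lit 352) (nat_lit 314) (nat_lit 234))) (XT.nd (nat_lit 78) (nat_lit 76) (nat_lit 0) (XT.lf (nat_lit 0) (nat_lit 21744623768) (nat_lit 152) (nat_lit 6874596841) (nat_lit 76) (nat_lit 53981108428) (nat_lit 12) (nat_lit 5) (nat_lit 14) (nat_lit 5) (nat_lit 13) (nat_lit 4) (nat_lit 353) (nat_lit 314) (nat_lit 233)) (XT.lf (nat_lit 0) (nat_lit 26895721668) (nat_lit 76) (nat_lit 11088279673) (nat_lit 152) (nat_lit 49744791458) (nat_lit 11) (nat_lit 5) (nat_lit 12) (nat_lit 5) (nat_lit 13)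 (nat_lit 4) (nat_lit 354) (nat_lit 314) (nat_lit 232)))))) (XT.nd (nat_lit 624) (nat_lit 228) (nat_lit 0) (XT.nd (nat_lit 312) (nat_lit 76) (nat_lit 0) (XT.nd (nat_lit 156) (nat_lit 76) (nat_lit 0) (XT.nd (nat_lit 78) (nat_lit 76) (nat_lit 0) (XT.lf (nat_lit 0) (nat_lit 55898742695) (nat_lit 152) (nat_lit 29697385492) (nat_lit 0) (nat_lit 7641311235) (nat_lit 11) (nat_lit 5) (nat_lit 13) (nat_lit 4) (nat_lit 11) (nat_lit 4) (nat_lit 355) (nat_lit 314) (nat_lit 231)) (XT.lf (nat_lit 0) (nat_lit 3823175199) (nat_lit 76) (nat_lit 71798528080) (nat_lit 76) (nat_lit 23535073940) (nat_lit 10) (nat_lit 4) (nat_lit 11) (nat_lit 5) (nat_lit 11) (nat_lit 4) (nat_lit 356) (nat_lit 314) (nat_lit 230))) (XT.nd (nat_lit 78) (nat_lit 76) (nat_lit 0) (XT.lf (nat_lit 0) (nat_lit 41705307633) (nat_lit 76) (nat_lit 56024405283) (nat_lit 76) (nat_lit 7755374587) (nat_lit 10) (nat_lit 4) (nat_lit 11) (nat_lit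 5) (nat_lit 11) (nat_lit 4) (nat_lit 357) (nat_lit 314) (nat_lit 229)) (XT.lf (nat_lit 0) (nat_lit 8817611705) (nat_lit 152) (nat_lit 29933561825) (nat_lit 76) (nat_lit 73550985992) (nat_lit 9) (nat_lit 5) (nat_lit 11) (nat_lit 5) (nat_lit 10) (nat_lit 4) (nat_lit 358) (nat_lit 314) (nat_lit 228)))) (XT.nd (nat_lit 156) (nat_lit 0) (nat_lit 0) (XT.nd (nat_lit 78) (nat_lit 0) (nat_lit 0) (XT.lf (nat_lit 0) (nat_lit 6748576390) (nat_lit 76) (nat_lit 19706977245) (nat_lit 152) (nat_lit 93180281870) (nat_lit 8) (nat_lit 5) (nat_lit 9) (nat_lit 5) (nat_lit 10) (nat_lit 4) (nat_lit 359) (nat_lit 314) (nat_lit 227)) (XT.lf (nat_lit 0) (nat_lit 46360768638) (nat_lit 152) (nat_lit 79473024792) (nat_lit 0) (nat_lit 1653914914) (nat_lit 8) (nat_lit 5) (nat_lit 10) (nat_lit 4) (nat_lit 8) (nat_lit 4) (nat_lit 360) (nat_lit 314) (nat_lit 226))) (XT.nd (nat_lit 78) (nat_lit 0) (nat_lit 0) (XT.lf (nat_lit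 0) (nat_lit 68366420216) (nat_lit 152) (nat_lit 43904899721) (nat_lit 0) (nat_lit 23655771182) (nat_lit 8) (nat_lit 5) (nat_lit 10) (nat_lit 4) (nat_lit 8) (nat_lit 4) (nat_lit 361) (nat_lit 314) (nat_lit 225)) (XT.lf (nat_lit 0) (nat_lit 92128958956) (nat_lit 152) (nat_lit 5498156552) (nat_lit 0) (nat_lit 47414795745) (nat_lit 8) (nat_lit 5) (nat_lit 10) (nat_lit 4) (nat_lit 8) (nat_lit 4) (nat_lit 362) (nat_lit 314) (nat_lit 224))))) (XT.nd (nat_lit 312) (nat_lit 0) (nat_lit 0) (XT.nd (nat_lit 156) (nat_lit 152) (nat_lit 0) (XT.nd (nat_lit 78) (nat_lit 0) (nat_lit 0) (XT.lf (nat_lit 0) (nat_lit 37869169456) (nat_lit 76) (nat_lit 80830784880) (nat_lit 76) (nat_lit 36113367802) (nat_lit 7) (nat_lit 4) (nat_lit 8) (nat_lit 5) (nat_lit 8) (nat_lit 4) (nat_lit 363) (nat_lit 314) (nat_lit 223)) (XT.lf (nat_lit 0) (nat_lit 85012400888) (nat_lit 76) (nat_lit 62531353134) (nat_lit 76) (nat_lit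 17810923216) (nat_lit 7) (nat_lit 4) (nat_lit 8) (nat_lit 5) (nat_lit 8) (nat_lit 4) (nat_lit 364) (nat_lit 314) (nat_lit 222))) (XT.nd (nat_lit 78) (nat_lit 76) (nat_lit 0) (XT.lf (nat_lit 0) (nat_lit 1854838536) (nat_lit 152) (nat_lit 40865155428) (nat_lit 76) (nat_lit 134015828751) (nat_lit 6) (nat_lit 5) (nat_lit 8) (nat_lit 5) (nat_lit 7) (nat_lit 4) (nat_lit 365) (nat_lit 314) (nat_lit 221)) (XT.lf (nat_lit 0) (nat_lit 1370643287) (nat_lit 76) (nat_lit 20791109547) (nat_lit 152) (nat_lit 166826286807) (nat_lit 5) (nat_lit 5) (nat_lit 6) (nat_lit 5) (nat_lit 7) (nat_lit 4) (nat_lit 366) (nat_lit 314) (nat_lit 220)))) (XT.nd (nat_lit 156) (nat_lit 0) (nat_lit 0) (XT.nd (nat_lit 78) (nat_lit 0) (nat_lit 0) (XT.lf (nat_lit 0) (nat_lit 45306322207) (nat_lit 152) (nat_lit 152925737041) (nat_lit 0) (nat_lit 3891327486) (nat_lit 5) (nat_lit 5) (nat_lit 7) (nat_lit 4) (nat_lit 5) (nat_lit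 4) (nat_lit 367) (nat_lit 314) (nat_lit 219)) (XT.lf (nat_lit 0) (nat_lit 70839893341) (nat_lit 152) (nat_lit 116003826122) (nat_lit 0) (nat_lit 29422848133) (nat_lit 5) (nat_lit 5) (nat_lit 7) (nat_lit 4) (nat_lit 5) (nat_lit 4) (nat_lit 368) (nat_lit 314) (nat_lit 218))) (XT.nd (nat_lit 78) (nat_lit 0) (nat_lit 0) (XT.lf (nat_lit 0) (nat_lit 98413749605) (nat_lit 152) (nat_lit 76132840401) (nat_lit 0) (nat_lit 56994805797) (nat_lit 5) (nat_lit 5) (nat_lit 7) (nat_lit 4) (nat_lit 5) (nat_lit 4) (nat_lit 369) (nat_lit 314) (nat_lit 217)) (XT.lf (nat_lit 0) (nat_lit 128191291627) (nat_lit 152) (nat_lit 33076507373) (nat_lit 0) (nat_lit 86770589856) (nat_lit 5) (nat_lit 5) (nat_lit 7) (nat_lit 4) (nat_lit 5) (nat_lit 4) (nat_lit 370) (nat_lit 314) (nat_lit 216)))))))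
noncomputable def xc141 : XT := (XT.nd (nat_lit 1248) (nat_lit 76) (nat_lit 0) (XT.nd (nat_lit 624) (nat_lit 0) (nat_lit 0) (XT.nd (nat_lit 312) (nat_lit 152) (nat_lit 0) (XT.nd (nat_lit 156) (nat_lit 0) (nat_lit 0) (XT.nd (nat_lit 78) (nat_lit 0) (nat_lit 0) (XT.lf (nat_lit 0) (nat_lit 14127011957) (nat_lit 76) (nat_lit 146561721936) (nat_lit 76) (nat_lit 105139392421) (nat_lit 4) (nat_lit 4) (nat_lit 5) (nat_lit 5) (nat_lit 5) (nat_lit 4) (nat_lit 371) (nat_lit 314) (nat_lit 215)) (XT.lf (nat_lit 0) (nat_lit 66983993960) (nat_lit 76) (nat_lit 129704348250) (nat_lit 76) (nat_lit 88280511565) (nat_lit 4) (nat_lit 4) (nat_lit 5) (nat_lit 5) (nat_lit 5) (nat_lit 4) (nat_lit 372) (nat_lit 314) (nat_lit 214))) (XT.nd (nat_lit 78) (nat_lit 0) (nat_lit 0) (XT.lf (nat_lit 0) (nat_lit 124065914933) (nat_lit 76) (nat_lit 111500152723) (nat_lit 76) (nat_lit 70074920510) (nat_lit 4) (nat_lit 4)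 (nat_lit 5) (nat_lit 5) (nat_lit 5) (nat_lit 4) (nat_lit 373) (nat_lit 314) (nat_lit 213)) (XT.lf (nat_lit 0) (nat_lit 185711038112) (nat_lit 76) (nat_lit 91841258641) (nat_lit 76) (nat_lit 50414734273) (nat_lit 4) (nat_lit 4) (nat_lit 5) (nat_lit 5) (nat_lit 5) (nat_lit 4) (nat_lit 374) (nat_lit 314) (nat_lit 212)))) (XT.nd (nat_lit 156) (nat_lit 152) (nat_lit 0) (XT.nd (nat_lit 78) (nat_lit 0) (nat_lit 0) (XT.lf (nat_lit 0) (nat_lit 252284667930) (nat_lit 76) (nat_lit 70611168853) (nat_lit 76) (nat_lit 29183448045) (nat_lit 4) (nat_lit 4) (nat_lit 5) (nat_lit 5) (nat_lit 5) (nat_lit 4) (nat_lit 375) (nat_lit 314) (nat_lit 211)) (XT.lf (nat_lit 0) (nat_lit 324181314787) (nat_lit 76) (nat_lit 47684075421) (nat_lit 76) (nat_lit 6255246798) (nat_lit 4) (nat_lit 4) (nat_lit 5) (nat_lit 5) (nat_lit 5) (nat_lit 4) (nat_lit 376) (nat_lit 314) (nat_lit 210))) (XT.nd (nat_lit 78) (nat_lit 76)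 (nat_lit 0) (XT.lf (nat_lit 0) (nat_lit 17580008213) (nat_lit 152) (nat_lit 4863437294) (nat_lit 76) (nat_lit 383766356094) (nat_lit 3) (nat_lit 5) (nat_lit 5) (nat_lit 5) (nat_lit 4) (nat_lit 4) (nat_lit 377) (nat_lit 314) (nat_lit 209)) (XT.lf (nat_lit 0) (nat_lit 44348935521) (nat_lit 152) (nat_lit 386087902671) (nat_lit 0) (nat_lit 5987079826) (nat_lit 2) (nat_lit 5) (nat_lit 4) (nat_lit 4) (nat_lit 2) (nat_lit 4) (nat_lit 378) (nat_lit 314) (nat_lit 208))))) (XT.nd (nat_lit 312) (nat_lit 0) (nat_lit 0) (XT.nd (nat_lit 156) (nat_lit 0) (nat_lit 0) (XT.nd (nat_lit 78) (nat_lit 0) (nat_lit 0) (XT.lf (nat_lit 0) (nat_lit 73977466611) (nat_lit 152) (nat_lit 359405453685) (nat_lit 0) (nat_lit 35614796639) (nat_lit 2) (nat_lit 5) (nat_lit 4) (nat_lit 4) (nat_lit 2) (nat_lit 4) (nat_lit 379) (nat_lit 314) (nat_lit 207)) (XT.lf (nat_lit 0) (nat_lit 105975089513) (nat_lit 152) (nat_lit 330590760257)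 (nat_lit 0) (nat_lit 67611665581) (nat_lit 2) (nat_lit 5) (nat_lit 4) (nat_lit 4) (nat_lit 2) (nat_lit 4) (nat_lit 380) (nat_lit 314) (nat_lit 206))) (XT.nd (nat_lit 78) (nat_lit 0) (nat_lit 0) (XT.lf (nat_lit 0) (nat_lit 140531419770) (nat_lit 152) (nat_lit 299473068647) (nat_lit 0) (nat_lit 102167297727) (nat_lit 2) (nat_lit 5) (nat_lit 4) (nat_lit 4) (nat_lit 2) (nat_lit 4) (nat_lit 381) (nat_lit 314) (nat_lit 205)) (XT.lf (nat_lit 0) (nat_lit 177851235636) (nat_lit 152) (nat_lit 265867977719) (nat_lit 0) (nat_lit 139486467193) (nat_lit 2) (nat_lit 5) (nat_lit 4) (nat_lit 4) (nat_lit 2) (nat_lit 4) (nat_lit 382) (nat_lit 314) (nat_lit 204)))) (XT.nd (nat_lit 156) (nat_lit 0) (nat_lit 0) (XT.nd (nat_lit 78) (nat_lit 0) (nat_lit 0) (XT.lf (nat_lit 0) (nat_lit 218155691574) (nat_lit 152) (nat_lit 229576346194) (nat_lit 0) (nat_lit 179790324613) (nat_lit 2) (nat_lit 5) (nat_lit 4) (nat_lit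 4) (nat_lit 2) (nat_lit 4) (nat_lit 383) (nat_lit 314) (nat_lit 203)) (XT.lf (nat_lit 0) (nat_lit 261683628805) (nat_lit 152) (nat_lit 190383112553) (nat_lit 0) (nat_lit 223317707661) (nat_lit 2) (nat_lit 5) (nat_lit 4) (nat_lit 4) (nat_lit 2) (nat_lit 4) (nat_lit 384) (nat_lit 314) (nat_lit 202))) (XT.nd (nat_lit 78) (nat_lit 0) (nat_lit 0) (XT.lf (nat_lit 0) (nat_lit 308692990662) (nat_lit 152) (nat_lit 148056020594) (nat_lit 0) (nat_lit 270326556385) (nat_lit 2) (nat_lit 5) (nat_lit 4) (nat_lit 4) (nat_lit 2) (nat_lit 4) (nat_lit 385) (nat_lit 314) (nat_lit 201)) (XT.lf (nat_lit 0) (nat_lit 359462351139) (nat_lit 152) (nat_lit 102344243108) (nat_lit 0) (nat_lit 321095441739) (nat_lit 2) (nat_lit 5) (nat_lit 4) (nat_lit 4) (nat_lit 2) (nat_lit 4) (nat_lit 386) (nat_lit 314) (nat_lit 200)))))) (XT.nd (nat_lit 624) (nat_lit 0) (nat_lit 0) (XT.nd (nat_lit 312) (nat_lit 0) (nat_lit 0) (XT.nd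 (nat_lit 156) (nat_lit 0) (nat_lit 0) (XT.nd (nat_lit 78) (nat_lit 76) (nat_lit 0) (XT.lf (nat_lit 0) (nat_lit 414292565707) (nat_lit 152) (nat_lit 52976895486) (nat_lit 0) (nat_lit 375925216379) (nat_lit 2) (nat_lit 5) (nat_lit 4) (nat_lit 4) (nat_lit 2) (nat_lit 4) (nat_lit 387) (nat_lit 314) (nat_lit 199)) (XT.lf (nat_lit 0) (nat_lit 356397985) (nat_lit 76) (nat_lit 473160727549) (nat_lit 76) (nat_lit 434792970880) (nat_lit 1) (nat_lit 4) (nat_lit 2) (nat_lit 5) (nat_lit 2) (nat_lit 4) (nat_lit 388) (nat_lit 314) (nat_lit 198))) (XT.nd (nat_lit 78) (nat_lit 0) (nat_lit 0) (XT.lf (nat_lit 0) (nat_lit 60967959658) (nat_lit 76) (nat_lit 477959547283) (nat_lit 76) (nat_lit 439591413446) (nat_lit 1) (nat_lit 4) (nat_lit 2) (nat_lit 5) (nat_lit 2) (nat_lit 4) (nat_lit 389) (nat_lit 314) (nat_lit 197)) (XT.lf (nat_lit 0) (nat_lit 126427299721) (nat_lit 76) (nat_lit 483142840051) (nat_lit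 76) (nat_lit 444774356985) (nat_lit 1) (nat_lit 4) (nat_lit 2) (nat_lit 5) (nat_lit 2) (nat_lit 4) (nat_lit 390) (nat_lit 314) (nat_lit 196)))) (XT.nd (nat_lit 156) (nat_lit 0) (nat_lit 0) (XT.nd (nat_lit 78) (nat_lit 0) (nat_lit 0) (XT.lf (nat_lit 0) (nat_lit 197122325375) (nat_lit 76) (nat_lit 488741321663) (nat_lit 76) (nat_lit 450372515236) (nat_lit 1) (nat_lit 4) (nat_lit 2) (nat_lit 5) (nat_lit 2) (nat_lit 4) (nat_lit 391) (nat_lit 314) (nat_lit 195)) (XT.lf (nat_lit 0) (nat_lit 273471970106) (nat_lit 76) (nat_lit 494788168305) (nat_lit 76) (nat_lit 456419062470) (nat_lit 1) (nat_lit 4) (nat_lit 2) (nat_lit 5) (nat_lit 2) (nat_lit 4) (nat_lit 392) (nat_lit 314) (nat_lit 194))) (XT.nd (nat_lit 78) (nat_lit 0) (nat_lit 0) (XT.lf (nat_lit 0) (nat_lit 355928676252) (nat_lit 76) (nat_lit 501319213143) (nat_lit 76) (nat_lit 462949830078) (nat_lit 1) (nat_lit 4) (nat_lit 2) (nat_lit 5)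 (nat_lit 2) (nat_lit 4) (nat_lit 393) (nat_lit 314) (nat_lit 193)) (XT.lf (nat_lit 0) (nat_lit 444981076147) (nat_lit 76) (nat_lit 508373158664) (nat_lit 76) (nat_lit 470003518905) (nat_lit 1) (nat_lit 4) (nat_lit 2) (nat_lit 5) (nat_lit 2) (nat_lit 4) (nat_lit 394) (nat_lit 314) (nat_lit 192))))) (XT.nd (nat_lit 312) (nat_lit 0) (nat_lit 0) (XT.nd (nat_lit 156) (nat_lit 0) (nat_lit 0) (XT.nd (nat_lit 78) (nat_lit 0) (nat_lit 0) (XT.lf (nat_lit 0) (nat_lit 541156887716) (nat_lit 76) (nat_lit 515991806028) (nat_lit 76) (nat_lit 477621928590) (nat_lit 1) (nat_lit 4) (nat_lit 2) (nat_lit 5) (nat_lit 2) (nat_lit 4) (nat_lit 395) (nat_lit 314) (nat_lit 191)) (XT.lf (nat_lit 0) (nat_lit 645026041693) (nat_lit 76) (nat_lit 524220302774) (nat_lit 76) (nat_lit 485850205262) (nat_lit 1) (nat_lit 4) (nat_lit 2) (nat_lit 5) (nat_lit 2) (nat_lit 4) (nat_lit 396) (nat_lit 314) (nat_lit 190))) (XT.nd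 (nat_lit 78) (nat_lit 0) (nat_lit 0) (XT.lf (nat_lit 0) (nat_lit 757204058992) (nat_lit 76) (nat_lit 533107410365) (nat_lit 76) (nat_lit 494737109081) (nat_lit 1) (nat_lit 4) (nat_lit 2) (nat_lit 5) (nat_lit 2) (nat_lit 4) (nat_lit 397) (nat_lit 314) (nat_lit 189)) (XT.lf (nat_lit 0) (nat_lit 878355698234) (nat_lit 76) (nat_lit 542705793142) (nat_lit 76) (nat_lit 504335303180) (nat_lit 1) (nat_lit 4) (nat_lit 2) (nat_lit 5) (nat_lit 2) (nat_lit 4) (nat_lit 398) (nat_lit 314) (nat_lit 188)))) (XT.nd (nat_lit 156) (nat_lit 0) (nat_lit 0) (XT.nd (nat_lit 78) (nat_lit 0) (nat_lit 0) (XT.lf (nat_lit 0) (nat_lit 1009198895057) (nat_lit 76) (nat_lit 553072330410) (nat_lit 76) (nat_lit 514701665746) (nat_lit 1) (nat_lit 4) (nat_lit 2) (nat_lit 5) (nat_lit 2) (nat_lit 4) (nat_lit 399) (nat_lit 314) (nat_lit 187)) (XT.lf (nat_lit 0) (nat_lit 1150509016556) (nat_lit 76) (nat_lit 564268453501) (nat_lit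 76) (nat_lit 525897627076) (nat_lit 1) (nat_lit 4) (nat_lit 2) (nat_lit 5) (nat_lit 2) (nat_lit 4) (nat_lit 400) (nat_lit 314) (nat_lit 186))) (XT.nd (nat_lit 78) (nat_lit 0) (nat_lit 0) (XT.lf (nat_lit 0) (nat_lit 1303123456041) (nat_lit 76) (nat_lit 576360509811) (nat_lit 76) (nat_lit 537989533608) (nat_lit 1) (nat_lit 4) (nat_lit 2) (nat_lit 5) (nat_lit 2) (nat_lit 4) (nat_lit 401) (nat_lit 314) (nat_lit 185)) (XT.nd (nat_lit 78) (nat_lit 0) (nat_lit 0) (XT.lf (nat_lit 0) (nat_lit 1467946595378) (nat_lit 76) (nat_lit 589420155970) (nat_lit 76) (nat_lit 551049041083) (nat_lit 1) (nat_lit 4) (nat_lit 2) (nat_lit 5) (nat_lit 2) (nat_lit 4) (nat_lit 402) (nat_lit 314) (nat_lit 184)) (XT.lf (nat_lit 0) (nat_lit 1645955164280) (nat_lit 76) (nat_lit 603524782475) (nat_lit 76) (nat_lit 565153539177) (nat_lit 1) (nat_lit 4) (nat_lit 2) (nat_lit 5) (nat_lit 2) (nat_lit 4) (nat_lit 403) (nat_lit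 314) (nat_lit 183))))))))
noncomputable def xc142 : XT := (XT.nd (nat_lit 40794) (nat_lit 0) (nat_lit 1444) (XT.nd (nat_lit 40170) (nat_lit 0) (nat_lit 3192) (XT.nd (nat_lit 312) (nat_lit 0) (nat_lit 0) (XT.nd (nat_lit 156) (nat_lit 0) (nat_lit 0) (XT.nd (nat_lit 78) (nat_lit 0) (nat_lit 0) (XT.lf (nat_lit 0) (nat_lit 1838204028341) (nat_lit 76) (nat_lit 618757972296) (nat_lit 76) (nat_lit 580386610099) (nat_lit 1) (nat_lit 4) (nat_lit 2) (nat_lit 5) (nat_lit 2) (nat_lit 4) (nat_lit 404) (nat_lit 314) (nat_lit 182)) (XT.lf (nat_lit 0) (nat_lit 2045832440088) (nat_lit 76) (nat_lit 635209996188) (nat_lit 76) (nat_lit 596838523900) (nat_lit 1) (nat_lit 4) (nat_lit 2) (nat_lit 5) (nat_lit 2) (nat_lit 4) (nat_lit 405) (nat_lit 314) (nat_lit 181))) (XT.nd (nat_lit 78) (nat_lit 0) (nat_lit 0) (XT.lf (nat_lit 0) (nat_lit 2270070790111) (nat_lit 76) (nat_lit 652978347627) (nat_lit 76) (nat_lit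 614606773402) (nat_lit 1) (nat_lit 4) (nat_lit 2) (nat_lit 5) (nat_lit 2) (nat_lit 4) (nat_lit 406) (nat_lit 314) (nat_lit 180)) (XT.lf (nat_lit 0) (nat_lit 2512247898260) (nat_lit 76) (nat_lit 672168320547) (nat_lit 76) (nat_lit 633796651935) (nat_lit 1) (nat_lit 4) (nat_lit 2) (nat_lit 5) (nat_lit 2) (nat_lit 4) (nat_lit 407) (nat_lit 314) (nat_lit 179)))) (XT.nd (nat_lit 39702) (nat_lit 0) (nat_lit 3800) (XT.nd (nat_lit 39624) (nat_lit 0) (nat_lit 3800) (XT.lf (nat_lit 0) (nat_lit 2773798888140) (nat_lit 76) (nat_lit 692893633305) (nat_lit 76) (nat_lit 654521877299) (nat_lit 1) (nat_lit 4) (nat_lit 2) (nat_lit 5) (nat_lit 2) (nat_lit 4) (nat_lit 408) (nat_lit 314) (nat_lit 178)) (XT.lf (nat_lit 0) (nat_lit 3144962521) (nat_lit 532) (nat_lit 1726142943) (nat_lit 532) (nat_lit 1726142943) (nat_lit 51) (nat_lit 3) (nat_lit 58) (nat_lit 3) (nat_lit 58) (nat_lit 5) (nat_lit 315) (nat_lit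 315) (nat_lit 270))) (XT.nd (nat_lit 78) (nat_lit 0) (nat_lit 76) (XT.lf (nat_lit 76) (nat_lit 2882680294) (nat_lit 0) (nat_lit 4089131184) (nat_lit 532) (nat_lit 6715263332) (nat_lit 52) (nat_lit 5) (nat_lit 51) (nat_lit 3) (nat_lit 58) (nat_lit 5) (nat_lit 316) (nat_lit 315) (nat_lit 269)) (XT.lf (nat_lit 0) (nat_lit 7817359306) (nat_lit 456) (nat_lit 4365632127) (nat_lit 532) (nat_lit 2027416682) (nat_lit 52) (nat_lit 5) (nat_lit 58) (nat_lit 5) (nat_lit 59) (nat_lit 5) (nat_lit 317) (nat_lit 315) (nat_lit 268))))) (XT.nd (nat_lit 312) (nat_lit 684) (nat_lit 0) (XT.nd (nat_lit 156) (nat_lit 0) (nat_lit 76) (XT.nd (nat_lit 78) (nat_lit 0) (nat_lit 76) (XT.lf (nat_lit 76) (nat_lit 2589363979) (nat_lit 0) (nat_lit 6276133184) (nat_lit 532) (nat_lit 5899387365) (nat_lit 53) (nat_lit 5) (nat_lit 52) (nat_lit 5) (nat_lit 59) (nat_lit 5) (nat_lit 318) (nat_lit 315) (nat_lit 267)) (XT.lf (nat_lit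 0) (nat_lit 10091098618) (nat_lit 456) (nat_lit 5035173839) (nat_lit 532) (nat_lit 230024386) (nat_lit 53) (nat_lit 5) (nat_lit 59) (nat_lit 5) (nat_lit 60) (nat_lit 5) (nat_lit 319) (nat_lit 315) (nat_lit 266))) (XT.nd (nat_lit 78) (nat_lit 0) (nat_lit 0) (XT.lf (nat_lit 76) (nat_lit 2621896726) (nat_lit 0) (nat_lit 8989910096) (nat_lit 532) (nat_lit 4367512478) (nat_lit 54) (nat_lit 5) (nat_lit 53) (nat_lit 5) (nat_lit 60) (nat_lit 5) (nat_lit 320) (nat_lit 315) (nat_lit 265)) (XT.lf (nat_lit 76) (nat_lit 11155815707) (nat_lit 0) (nat_lit 2208630448) (nat_lit 532) (nat_lit 3278972707) (nat_lit 54) (nat_lit 5) (nat_lit 53) (nat_lit 5) (nat_lit 60) (nat_lit 5) (nat_lit 321) (nat_lit 315) (nat_lit 264)))) (XT.nd (nat_lit 156) (nat_lit 380) (nat_lit 0) (XT.nd (nat_lit 78) (nat_lit 0) (nat_lit 0) (XT.lf (nat_lit 0) (nat_lit 3017070390) (nat_lit 456) (nat_lit 12410558175) (nat_lit 532) (nat_lit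 1919444293) (nat_lit 48) (nat_lit 5) (nat_lit 54) (nat_lit 5) (nat_lit 55) (nat_lit 5) (nat_lit 322) (nat_lit 315) (nat_lit 263)) (XT.lf (nat_lit 0) (nat_lit 12431749930) (nat_lit 456) (nat_lit 5406162502) (nat_lit 532) (nat_lit 254592090) (nat_lit 48) (nat_lit 5) (nat_lit 54) (nat_lit 5) (nat_lit 55) (nat_lit 5) (nat_lit 323) (nat_lit 315) (nat_lit 262))) (XT.nd (nat_lit 78) (nat_lit 0) (nat_lit 0) (XT.lf (nat_lit 0) (nat_lit 1591016885) (nat_lit 380) (nat_lit 15109295896) (nat_lit 76) (nat_lit 2184348182) (nat_lit 43) (nat_lit 5) (nat_lit 48) (nat_lit 5) (nat_lit 44) (nat_lit 5) (nat_lit 324) (nat_lit 315) (nat_lit 261)) (XT.lf (nat_lit 0) (nat_lit 3848167779) (nat_lit 380) (nat_lit 5613452581) (nat_lit 76) (nat_lit 10255867688) (nat_lit 43) (nat_lit 5) (nat_lit 48) (nat_lit 5) (nat_lit 44) (nat_lit 5) (nat_lit 325) (nat_lit 315) (nat_lit 260)))))) (XT.nd (nat_lit 624) (nat_lit 836)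 (nat_lit 0) (XT.nd (nat_lit 312) (nat_lit 456) (nat_lit 0) (XT.nd (nat_lit 156) (nat_lit 228) (nat_lit 0) (XT.nd (nat_lit 78) (nat_lit 0) (nat_lit 0) (XT.lf (nat_lit 0) (nat_lit 4864182083) (nat_lit 228) (nat_lit 1518722716) (nat_lit 304) (nat_lit 14226311463) (nat_lit 40) (nat_lit 5) (nat_lit 43) (nat_lit 5) (nat_lit 44) (nat_lit 5) (nat_lit 326) (nat_lit 315) (nat_lit 259)) (XT.lf (nat_lit 0) (nat_lit 9428645004) (nat_lit 304) (nat_lit 5256682391) (nat_lit 76) (nat_lit 6862330816) (nat_lit 40) (nat_lit 5) (nat_lit 44) (nat_lit 5) (nat_lit 41) (nat_lit 5) (nat_lit 327) (nat_lit 315) (nat_lit 258))) (XT.nd (nat_lit 78) (nat_lit 0) (nat_lit 0) (XT.lf (nat_lit 0) (nat_lit 6327271217) (nat_lit 228) (nat_lit 6564773271) (nat_lit 304) (nat_lit 9655241961) (nat_lit 37) (nat_lit 5) (nat_lit 40) (nat_lit 5) (nat_lit 41) (nat_lit 5) (nat_lit 328) (nat_lit 315) (nat_lit 257)) (XT.lf (nat_lit 0)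 (nat_lit 16816144591) (nat_lit 304) (nat_lit 4556576798) (nat_lit 76) (nat_lit 2239501912) (nat_lit 37) (nat_lit 5) (nat_lit 41) (nat_lit 5) (nat_lit 38) (nat_lit 5) (nat_lit 329) (nat_lit 315) (nat_lit 256)))) (XT.nd (nat_lit 156) (nat_lit 228) (nat_lit 0) (XT.nd (nat_lit 78) (nat_lit 76) (nat_lit 0) (XT.lf (nat_lit 0) (nat_lit 8263042864) (nat_lit 152) (nat_lit 13144747540) (nat_lit 228) (nat_lit 3326301806) (nat_lit 35) (nat_lit 5) (nat_lit 37) (nat_lit 5) (nat_lit 38) (nat_lit 5) (nat_lit 330) (nat_lit 315) (nat_lit 255)) (XT.lf (nat_lit 0) (nat_lit 512476471) (nat_lit 228) (nat_lit 3601799639) (nat_lit 76) (nat_lit 21821648571) (nat_lit 34) (nat_lit 5) (nat_lit 37) (nat_lit 5) (nat_lit 35) (nat_lit 5) (nat_lit 331) (nat_lit 315) (nat_lit 254))) (XT.nd (nat_lit 78) (nat_lit 0) (nat_lit 0) (XT.lf (nat_lit 0) (nat_lit 4866923738) (nat_lit 304) (nat_lit 16623247123) (nat_lit 76) (nat_lit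 5705780275) (nat_lit 31) (nat_lit 5) (nat_lit 35) (nat_lit 5) (nat_lit 32) (nat_lit 5) (nat_lit 332) (nat_lit 315) (nat_lit 253)) (XT.lf (nat_lit 0) (nat_lit 9763934037) (nat_lit 304) (nat_lit 2591421429) (nat_lit 76) (nat_lit 16185907159) (nat_lit 31) (nat_lit 5) (nat_lit 35) (nat_lit 5) (nat_lit 32) (nat_lit 5) (nat_lit 333) (nat_lit 315) (nat_lit 252))))) (XT.nd (nat_lit 312) (nat_lit 304) (nat_lit 0) (XT.nd (nat_lit 156) (nat_lit 380) (nat_lit 0) (XT.nd (nat_lit 78) (nat_lit 0) (nat_lit 0) (XT.lf (nat_lit 0) (nat_lit 13205873292) (nat_lit 152) (nat_lit 2151753289) (nat_lit 228) (nat_lit 14612196792) (nat_lit 29) (nat_lit 5) (nat_lit 31) (nat_lit 5) (nat_lit 32) (nat_lit 5) (nat_lit 334) (nat_lit 315) (nat_lit 251)) (XT.lf (nat_lit 0) (nat_lit 21672510051) (nat_lit 228) (nat_lit 1325899256) (nat_lit 76) (nat_lit 8492380745) (nat_lit 29) (nat_lit 5) (nat_lit 32) (nat_lit 5) (nat_lit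 30) (nat_lit 5) (nat_lit 335) (nat_lit 315) (nat_lit 250))) (XT.nd (nat_lit 78) (nat_lit 228) (nat_lit 0) (XT.lf (nat_lit 0) (nat_lit 16078870072) (nat_lit 152) (nat_lit 12844932695) (nat_lit 228) (nat_lit 4175149291) (nat_lit 27) (nat_lit 5) (nat_lit 29) (nat_lit 5) (nat_lit 30) (nat_lit 5) (nat_lit 336) (nat_lit 315) (nat_lit 249)) (XT.lf (nat_lit 0) (nat_lit 57380041) (nat_lit 152) (nat_lit 1793391639) (nat_lit 228) (nat_lit 32979127020) (nat_lit 24) (nat_lit 5) (nat_lit 26) (nat_lit 5) (nat_lit 27) (nat_lit 5) (nat_lit 337) (nat_lit 315) (nat_lit 248)))) (XT.nd (nat_lit 156) (nat_lit 152) (nat_lit 0) (XT.nd (nat_lit 78) (nat_lit 152) (nat_lit 0) (XT.lf (nat_lit 0) (nat_lit 8843647428) (nat_lit 228) (nat_lit 17574814289) (nat_lit 76) (nat_lit 10215360198) (nat_lit 24) (nat_lit 5) (nat_lit 27) (nat_lit 5) (nat_lit 25) (nat_lit 5) (nat_lit 338) (nat_lit 315) (nat_lit 247)) (XT.lf (nat_lit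 0) (nat_lit 985445296) (nat_lit 152) (nat_lit 15470677714) (nat_lit 228) (nat_lit 22121133770) (nat_lit 22) (nat_lit 5) (nat_lit 24) (nat_lit 5) (nat_lit 25) (nat_lit 5) (nat_lit 339) (nat_lit 315) (nat_lit 246))) (XT.nd (nat_lit 78) (nat_lit 152) (nat_lit 0) (XT.lf (nat_lit 0) (nat_lit 22014449854) (nat_lit 152) (nat_lit 3133936083) (nat_lit 228) (nat_lit 15490127888) (nat_lit 22) (nat_lit 5) (nat_lit 24) (nat_lit 5) (nat_lit 25) (nat_lit 5) (nat_lit 340) (nat_lit 315) (nat_lit 245)) (XT.nd (nat_lit 78) (nat_lit 76) (nat_lit 0) (XT.lf (nat_lit 0) (nat_lit 1685327892) (nat_lit 76) (nat_lit 33127151891) (nat_lit 152) (nat_lit 8030085413) (nat_lit 21) (nat_lit 5) (nat_lit 22) (nat_lit 5) (nat_lit 23) (nat_lit 4) (nat_lit 341) (nat_lit 315) (nat_lit 244)) (XT.lf (nat_lit 0) (nat_lit 620205838) (nat_lit 152) (nat_lit 20613960140) (nat_lit 76) (nat_lit 23941148851) (nat_lit 20) (nat_lit 5)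 (nat_lit 22) (nat_lit 5) (nat_lit 21) (nat_lit 5) (nat_lit 342) (nat_lit 315) (nat_lit 243))))))))
noncomputable def xc143 : XT := (XT.nd (nat_lit 1248) (nat_lit 456) (nat_lit 0) (XT.nd (nat_lit 624) (nat_lit 304) (nat_lit 0) (XT.nd (nat_lit 312) (nat_lit 228) (nat_lit 0) (XT.nd (nat_lit 156) (nat_lit 76) (nat_lit 0) (XT.nd (nat_lit 78) (nat_lit 0) (nat_lit 0) (XT.lf (nat_lit 0) (nat_lit 1421301187) (nat_lit 152) (nat_lit 8133181154) (nat_lit 228) (nat_lit 38121460331) (nat_lit 18) (nat_lit 5) (nat_lit 20) (nat_lit 5) (nat_lit 21) (nat_lit 5) (nat_lit 343) (nat_lit 315) (nat_lit 242)) (XT.lf (nat_lit 0) (nat_lit 19918217047) (nat_lit 228) (nat_lit 24113305213) (nat_lit 76) (nat_lit 6287928364) (nat_lit 18) (nat_lit 5) (nat_lit 21) (nat_lit 5) (nat_lit 19) (nat_lit 4) (nat_lit 344) (nat_lit 315) (nat_lit 241))) (XT.nd (nat_lit 78) (nat_lit 76) (nat_lit 0) (XT.lf (nat_lit 0) (nat_lit 31314683679)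 (nat_lit 228) (nat_lit 425034044) (nat_lit 76) (nat_lit 21418437476) (nat_lit 18) (nat_lit 5) (nat_lit 21) (nat_lit 5) (nat_lit 19) (nat_lit 4) (nat_lit 345) (nat_lit 315) (nat_lit 240)) (XT.lf (nat_lit 0) (nat_lit 26470301867) (nat_lit 76) (nat_lit 17782123179) (nat_lit 152) (nat_lit 11921172646) (nat_lit 17) (nat_lit 5) (nat_lit 18) (nat_lit 5) (nat_lit 19) (nat_lit 4) (nat_lit 346) (nat_lit 315) (nat_lit 239)))) (XT.nd (nat_lit 156) (nat_lit 76) (nat_lit 0) (XT.nd (nat_lit 78) (nat_lit 152) (nat_lit 0) (XT.lf (nat_lit 0) (nat_lit 55529595621) (nat_lit 76) (nat_lit 2700395037) (nat_lit 152) (nat_lit 1199906225) (nat_lit 17) (nat_lit 5) (nat_lit 18) (nat_lit 5) (nat_lit 19) (nat_lit 4) (nat_lit 347) (nat_lit 315) (nat_lit 238)) (XT.lf (nat_lit 0) (nat_lit 10802274981) (nat_lit 152) (nat_lit 38273663838) (nat_lit 76) (nat_lit 13775403440) (nat_lit 15) (nat_lit 5) (nat_lit 17) (nat_lit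 5) (nat_lit 16) (nat_lit 4) (nat_lit 348) (nat_lit 315) (nat_lit 237))) (XT.nd (nat_lit 78) (nat_lit 76) (nat_lit 0) (XT.lf (nat_lit 0) (nat_lit 23872975940) (nat_lit 152) (nat_lit 11097753405) (nat_lit 76) (nat_lit 31559431418) (nat_lit 15) (nat_lit 5) (nat_lit 17) (nat_lit 5) (nat_lit 16) (nat_lit 4) (nat_lit 349) (nat_lit 315) (nat_lit 236)) (XT.lf (nat_lit 0) (nat_lit 19202233857) (nat_lit 76) (nat_lit 19243006063) (nat_lit 152) (nat_lit 32021576455) (nat_lit 14) (nat_lit 5) (nat_lit 15) (nat_lit 5) (nat_lit 16) (nat_lit 4) (nat_lit 350) (nat_lit 315) (nat_lit 235))))) (XT.nd (nat_lit 312) (nat_lit 152) (nat_lit 0) (XT.nd (nat_lit 156) (nat_lit 76) (nat_lit 0) (XT.nd (nat_lit 78) (nat_lit 76) (nat_lit 0) (XT.lf (nat_lit 0) (nat_lit 52547057242) (nat_lit 76) (nat_lit 1933942592) (nat_lit 152) (nat_lit 20213591289) (nat_lit 14) (nat_lit 5) (nat_lit 15) (nat_lit 5) (nat_lit 16) (nat_lit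 4) (nat_lit 351) (nat_lit 315) (nat_lit 234)) (XT.lf (nat_lit 0) (nat_lit 9353857972) (nat_lit 76) (nat_lit 63068401771) (nat_lit 76) (nat_lit 6788520559) (nat_lit 13) (nat_lit 4) (nat_lit 14) (nat_lit 5) (nat_lit 14) (nat_lit 4) (nat_lit 352) (nat_lit 315) (nat_lit 233))) (XT.nd (nat_lit 78) (nat_lit 0) (nat_lit 0) (XT.lf (nat_lit 0) (nat_lit 7990989887) (nat_lit 152) (nat_lit 39666209089) (nat_lit 76) (nat_lit 36362941808) (nat_lit 12) (nat_lit 5) (nat_lit 14) (nat_lit 5) (nat_lit 13) (nat_lit 4) (nat_lit 353) (nat_lit 315) (nat_lit 232)) (XT.lf (nat_lit 0) (nat_lit 23581135793) (nat_lit 152) (nat_lit 7245730458) (nat_lit 76) (nat_lit 58373678196) (nat_lit 12) (nat_lit 5) (nat_lit 14) (nat_lit 5) (nat_lit 13) (nat_lit 4) (nat_lit 354) (nat_lit 315) (nat_lit 231)))) (XT.nd (nat_lit 156) (nat_lit 76) (nat_lit 0) (XT.nd (nat_lit 78) (nat_lit 0) (nat_lit 0) (XT.lf (nat_lit 0) (nat_lit 29221686085)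 (nat_lit 76) (nat_lit 11894988669) (nat_lit 152) (nat_lit 53622853776) (nat_lit 11) (nat_lit 5) (nat_lit 12) (nat_lit 5) (nat_lit 13) (nat_lit 4) (nat_lit 355) (nat_lit 315) (nat_lit 230)) (XT.lf (nat_lit 0) (nat_lit 60459425265) (nat_lit 152) (nat_lit 31906563484) (nat_lit 0) (nat_lit 8323295557) (nat_lit 11) (nat_lit 5) (nat_lit 13) (nat_lit 4) (nat_lit 11) (nat_lit 4) (nat_lit 356) (nat_lit 315) (nat_lit 229))) (XT.nd (nat_lit 78) (nat_lit 0) (nat_lit 0) (XT.lf (nat_lit 0) (nat_lit 4291424016) (nat_lit 76) (nat_lit 77466127749) (nat_lit 76) (nat_lit 25324834563) (nat_lit 10) (nat_lit 4) (nat_lit 11) (nat_lit 5) (nat_lit 11) (nat_lit 4) (nat_lit 357) (nat_lit 315) (nat_lit 228)) (XT.lf (nat_lit 0) (nat_lit 45192097800) (nat_lit 76) (nat_lit 60435725690) (nat_lit 76) (nat_lit 8289651506) (nat_lit 10) (nat_lit 4) (nat_lit 11) (nat_lit 5) (nat_lit 11) (nat_lit 4) (nat_lit 358) (nat_lit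 315) (nat_lit 227)))))) (XT.nd (nat_lit 624) (nat_lit 152) (nat_lit 0) (XT.nd (nat_lit 312) (nat_lit 152) (nat_lit 0) (XT.nd (nat_lit 156) (nat_lit 0) (nat_lit 0) (XT.nd (nat_lit 78) (nat_lit 76) (nat_lit 0) (XT.lf (nat_lit 0) (nat_lit 9598801497) (nat_lit 152) (nat_lit 32184993918) (nat_lit 76) (nat_lit 79496439400) (nat_lit 9) (nat_lit 5) (nat_lit 11) (nat_lit 5) (nat_lit 10) (nat_lit 4) (nat_lit 359) (nat_lit 315) (nat_lit 226)) (XT.lf (nat_lit 0) (nat_lit 7428088700) (nat_lit 76) (nat_lit 21217434698) (nat_lit 152) (nat_lit 100555264502) (nat_lit 8) (nat_lit 5) (nat_lit 9) (nat_lit 5) (nat_lit 10) (nat_lit 4) (nat_lit 360) (nat_lit 315) (nat_lit 225))) (XT.nd (nat_lit 78) (nat_lit 0) (nat_lit 0) (XT.lf (nat_lit 0) (nat_lit 50139181236) (nat_lit 152) (nat_lit 85697578886) (nat_lit 0) (nat_lit 1844370792) (nat_lit 8) (nat_lit 5) (nat_lit 10) (nat_lit 4) (nat_lit 8) (nat_lit 4) (nat_lit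 361) (nat_lit 315) (nat_lit 224)) (XT.lf (nat_lit 0) (nat_lit 73900133007) (nat_lit 152) (nat_lit 47293876986) (nat_lit 0) (nat_lit 25602068696) (nat_lit 8) (nat_lit 5) (nat_lit 10) (nat_lit 4) (nat_lit 8) (nat_lit 4) (nat_lit 362) (nat_lit 315) (nat_lit 223)))) (XT.nd (nat_lit 156) (nat_lit 76) (nat_lit 0) (XT.nd (nat_lit 78) (nat_lit 76) (nat_lit 0) (XT.lf (nat_lit 0) (nat_lit 99558904536) (nat_lit 152) (nat_lit 5823736195) (nat_lit 0) (nat_lit 51257827386) (nat_lit 8) (nat_lit 5) (nat_lit 10) (nat_lit 4) (nat_lit 8) (nat_lit 4) (nat_lit 363) (nat_lit 315) (nat_lit 222)) (XT.lf (nat_lit 0) (nat_lit 41010082909) (nat_lit 76) (nat_lit 87243758374) (nat_lit 76) (nat_lit 38939891556) (nat_lit 7) (nat_lit 4) (nat_lit 8) (nat_lit 5) (nat_lit 8) (nat_lit 4) (nat_lit 364) (nat_lit 315) (nat_lit 221))) (XT.nd (nat_lit 78) (nat_lit 76) (nat_lit 0) (XT.lf (nat_lit 0) (nat_lit 91916522493) (nat_lit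 76) (nat_lit 67484334258) (nat_lit 76) (nat_lit 19177884416) (nat_lit 7) (nat_lit 4) (nat_lit 8) (nat_lit 5) (nat_lit 8) (nat_lit 4) (nat_lit 365) (nat_lit 315) (nat_lit 220)) (XT.lf (nat_lit 0) (nat_lit 2054166018) (nat_lit 152) (nat_lit 44036176212) (nat_lit 76) (nat_lit 144780252161) (nat_lit 6) (nat_lit 5) (nat_lit 8) (nat_lit 5) (nat_lit 7) (nat_lit 4) (nat_lit 366) (nat_lit 315) (nat_lit 219))))) (XT.nd (nat_lit 312) (nat_lit 76) (nat_lit 0) (XT.nd (nat_lit 156) (nat_lit 0) (nat_lit 0) (XT.nd (nat_lit 78) (nat_lit 0) (nat_lit 0) (XT.lf (nat_lit 0) (nat_lit 1576000536) (nat_lit 76) (nat_lit 22408161287) (nat_lit 152) (nat_lit 180118945978) (nat_lit 5) (nat_lit 5) (nat_lit 6) (nat_lit 5) (nat_lit 7) (nat_lit 4) (nat_lit 367) (nat_lit 315) (nat_lit 218)) (XT.lf (nat_lit 0) (nat_lit 48977662024) (nat_lit 152) (nat_lit 165068528602) (nat_lit 0) (nat_lit 4243304111) (nat_lit 5) (nat_lit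 5) (nat_lit 7) (nat_lit 4) (nat_lit 5) (nat_lit 4) (nat_lit 368) (nat_lit 315) (nat_lit 217))) (XT.nd (nat_lit 78) (nat_lit 0) (nat_lit 0) (XT.lf (nat_lit 0) (nat_lit 76550449662) (nat_lit 152) (nat_lit 125199625357) (nat_lit 0) (nat_lit 31814333786) (nat_lit 5) (nat_lit 5) (nat_lit 7) (nat_lit 4) (nat_lit 5) (nat_lit 4) (nat_lit 369) (nat_lit 315) (nat_lit 216)) (XT.lf (nat_lit 0) (nat_lit 106327002215) (nat_lit 152) (nat_lit 82145220546) (nat_lit 0) (nat_lit 61589258595) (nat_lit 5) (nat_lit 5) (nat_lit 7) (nat_lit 4) (nat_lit 5) (nat_lit 4) (nat_lit 370) (nat_lit 315) (nat_lit 215)))) (XT.nd (nat_lit 156) (nat_lit 0) (nat_lit 0) (XT.nd (nat_lit 78) (nat_lit 76) (nat_lit 0) (XT.lf (nat_lit 0) (nat_lit 138483773329) (nat_lit 152) (nat_lit 35650176956) (nat_lit 0) (nat_lit 93744522539) (nat_lit 5) (nat_lit 5) (nat_lit 7) (nat_lit 4) (nat_lit 5) (nat_lit 4) (nat_lit 371) (nat_lit 315)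 (nat_lit 214)) (XT.lf (nat_lit 0) (nat_lit 15327789718) (nat_lit 76) (nat_lit 158252165641) (nat_lit 76) (nat_lit 113511519323) (nat_lit 4) (nat_lit 4) (nat_lit 5) (nat_lit 5) (nat_lit 5) (nat_lit 4) (nat_lit 372) (nat_lit 315) (nat_lit 213))) (XT.nd (nat_lit 78) (nat_lit 0) (nat_lit 0) (XT.lf (nat_lit 0) (nat_lit 72408099406) (nat_lit 76) (nat_lit 140048757175) (nat_lit 76) (nat_lit 95306818702) (nat_lit 4) (nat_lit 4) (nat_lit 5) (nat_lit 5) (nat_lit 5) (nat_lit 4) (nat_lit 373) (nat_lit 315) (nat_lit 212)) (XT.nd (nat_lit 78) (nat_lit 0) (nat_lit 0) (XT.lf (nat_lit 0) (nat_lit 134051730655) (nat_lit 76) (nat_lit 120390591853) (nat_lit 76) (nat_lit 75647456940) (nat_lit 4) (nat_lit 4) (nat_lit 5) (nat_lit 5) (nat_lit 5) (nat_lit 4) (nat_lit 374) (nat_lit 315) (nat_lit 211)) (XT.lf (nat_lit 0) (nat_lit 200623979057) (nat_lit 76) (nat_lit 99161176843) (nat_lit 76) (nat_lit 54416934116)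 (nat_lit 4) (nat_lit 4) (nat_lit 5) (nat_lit 5) (nat_lit 5) (nat_lit 4) (nat_lit 375) (nat_lit 315) (nat_lit 210))))))))
noncomputable def xc144 : XT := (XT.nd (nat_lit 1248) (nat_lit 0) (nat_lit 0) (XT.nd (nat_lit 624) (nat_lit 76) (nat_lit 0) (XT.nd (nat_lit 312) (nat_lit 0) (nat_lit 0) (XT.nd (nat_lit 156) (nat_lit 152) (nat_lit 0) (XT.nd (nat_lit 78) (nat_lit 0) (nat_lit 0) (XT.lf (nat_lit 0) (nat_lit 272519346824) (nat_lit 76) (nat_lit 76234708205) (nat_lit 76) (nat_lit 31489439723) (nat_lit 4) (nat_lit 4) (nat_lit 5) (nat_lit 5) (nat_lit 5) (nat_lit 4) (nat_lit 376) (nat_lit 315) (nat_lit 209)) (XT.lf (nat_lit 0) (nat_lit 350163880581) (nat_lit 76) (nat_lit 51475325384) (nat_lit 76) (nat_lit 6729107129) (nat_lit 4) (nat_lit 4) (nat_lit 5) (nat_lit 5) (nat_lit 5) (nat_lit 4) (nat_lit 377) (nat_lit 315) (nat_lit 208))) (XT.nd (nat_lit 78) (nat_lit 76) (nat_lit 0) (XT.lf (nat_lit 0)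 (nat_lit 19009770725) (nat_lit 152) (nat_lit 5206774565) (nat_lit 76) (nat_lit 414488164537) (nat_lit 3) (nat_lit 5) (nat_lit 5) (nat_lit 5) (nat_lit 4) (nat_lit 4) (nat_lit 378) (nat_lit 315) (nat_lit 207)) (XT.lf (nat_lit 0) (nat_lit 47920079980) (nat_lit 152) (nat_lit 416929058497) (nat_lit 0) (nat_lit 6486828174) (nat_lit 2) (nat_lit 5) (nat_lit 4) (nat_lit 4) (nat_lit 2) (nat_lit 4) (nat_lit 379) (nat_lit 315) (nat_lit 206)))) (XT.nd (nat_lit 156) (nat_lit 0) (nat_lit 0) (XT.nd (nat_lit 78) (nat_lit 0) (nat_lit 0) (XT.lf (nat_lit 0) (nat_lit 79917172845) (nat_lit 152) (nat_lit 388115411844) (nat_lit 0) (nat_lit 38483222927) (nat_lit 2) (nat_lit 5) (nat_lit 4) (nat_lit 4) (nat_lit 2) (nat_lit 4) (nat_lit 380) (nat_lit 315) (nat_lit 205)) (XT.lf (nat_lit 0) (nat_lit 114473012327) (nat_lit 152) (nat_lit 356998689470) (nat_lit 0) (nat_lit 73038416010) (nat_lit 2) (nat_lit 5) (nat_lit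 4) (nat_lit 4) (nat_lit 2) (nat_lit 4) (nat_lit 381) (nat_lit 315) (nat_lit 204))) (XT.nd (nat_lit 78) (nat_lit 0) (nat_lit 0) (XT.lf (nat_lit 0) (nat_lit 151792373772) (nat_lit 152) (nat_lit 323394495983) (nat_lit 0) (nat_lit 110357178936) (nat_lit 2) (nat_lit 5) (nat_lit 4) (nat_lit 4) (nat_lit 2) (nat_lit 4) (nat_lit 382) (nat_lit 315) (nat_lit 203)) (XT.lf (nat_lit 0) (nat_lit 192096408949) (nat_lit 152) (nat_lit 287103695422) (nat_lit 0) (nat_lit 150660659931) (nat_lit 2) (nat_lit 5) (nat_lit 4) (nat_lit 4) (nat_lit 2) (nat_lit 4) (nat_lit 383) (nat_lit 315) (nat_lit 202))))) (XT.nd (nat_lit 312) (nat_lit 76) (nat_lit 0) (XT.nd (nat_lit 156) (nat_lit 0) (nat_lit 0) (XT.nd (nat_lit 78) (nat_lit 0) (nat_lit 0) (XT.lf (nat_lit 0) (nat_lit 235623956588) (nat_lit 152) (nat_lit 247911231192) (nat_lit 0) (nat_lit 194187694436) (nat_lit 2) (nat_lit 5) (nat_lit 4) (nat_lit 4) (nat_lit 2)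 (nat_lit 4) (nat_lit 384) (nat_lit 315) (nat_lit 201)) (XT.lf (nat_lit 0) (nat_lit 282632957709) (nat_lit 152) (nat_lit 205584851651) (nat_lit 0) (nat_lit 241196220435) (nat_lit 2) (nat_lit 5) (nat_lit 4) (nat_lit 4) (nat_lit 2) (nat_lit 4) (nat_lit 385) (nat_lit 315) (nat_lit 200))) (XT.nd (nat_lit 78) (nat_lit 0) (nat_lit 0) (XT.lf (nat_lit 0) (nat_lit 333401984174) (nat_lit 152) (nat_lit 159873733811) (nat_lit 0) (nat_lit 291964806971) (nat_lit 2) (nat_lit 5) (nat_lit 4) (nat_lit 4) (nat_lit 2) (nat_lit 4) (nat_lit 386) (nat_lit 315) (nat_lit 199)) (XT.lf (nat_lit 0) (nat_lit 388231889470) (nat_lit 152) (nat_lit 110506996972) (nat_lit 0) (nat_lit 346794304926) (nat_lit 2) (nat_lit 5) (nat_lit 4) (nat_lit 4) (nat_lit 2) (nat_lit 4) (nat_lit 387) (nat_lit 315) (nat_lit 198)))) (XT.nd (nat_lit 156) (nat_lit 0) (nat_lit 0) (XT.nd (nat_lit 78) (nat_lit 76) (nat_lit 0) (XT.lf (nat_lit 0)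 (nat_lit 447447591556) (nat_lit 152) (nat_lit 57192097510) (nat_lit 0) (nat_lit 406009629844) (nat_lit 2) (nat_lit 5) (nat_lit 4) (nat_lit 4) (nat_lit 2) (nat_lit 4) (nat_lit 388) (nat_lit 315) (nat_lit 197)) (XT.lf (nat_lit 0) (nat_lit 407278437) (nat_lit 76) (nat_lit 511002514915) (nat_lit 76) (nat_lit 469564203973) (nat_lit 1) (nat_lit 4) (nat_lit 2) (nat_lit 5) (nat_lit 2) (nat_lit 4) (nat_lit 389) (nat_lit 315) (nat_lit 196))) (XT.nd (nat_lit 78) (nat_lit 0) (nat_lit 0) (XT.lf (nat_lit 0) (nat_lit 65866108108) (nat_lit 76) (nat_lit 516186060289) (nat_lit 76) (nat_lit 474747425987) (nat_lit 1) (nat_lit 4) (nat_lit 2) (nat_lit 5) (nat_lit 2) (nat_lit 4) (nat_lit 390) (nat_lit 315) (nat_lit 195)) (XT.lf (nat_lit 0) (nat_lit 136560661178) (nat_lit 76) (nat_lit 521784775796) (nat_lit 76) (nat_lit 480345842086) (nat_lit 1) (nat_lit 4) (nat_lit 2) (nat_lit 5) (nat_lit 2) (nat_lit 4) (nat_lit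 391) (nat_lit 315) (nat_lit 194)))))) (XT.nd (nat_lit 624) (nat_lit 0) (nat_lit 0) (XT.nd (nat_lit 312) (nat_lit 0) (nat_lit 0) (XT.nd (nat_lit 156) (nat_lit 0) (nat_lit 0) (XT.nd (nat_lit 78) (nat_lit 0) (nat_lit 0) (XT.lf (nat_lit 0) (nat_lit 212909868331) (nat_lit 76) (nat_lit 527831839007) (nat_lit 76) (nat_lit 486392628068) (nat_lit 1) (nat_lit 4) (nat_lit 2) (nat_lit 5) (nat_lit 2) (nat_lit 4) (nat_lit 392) (nat_lit 315) (nat_lit 193)) (XT.lf (nat_lit 0) (nat_lit 295366169312) (nat_lit 76) (nat_lit 534363084372) (nat_lit 76) (nat_lit 492923616739) (nat_lit 1) (nat_lit 4) (nat_lit 2) (nat_lit 5) (nat_lit 2) (nat_lit 4) (nat_lit 393) (nat_lit 315) (nat_lit 192))) (XT.nd (nat_lit 78) (nat_lit 0) (nat_lit 0) (XT.lf (nat_lit 0) (nat_lit 384418194054) (nat_lit 76) (nat_lit 541417215567) (nat_lit 76) (nat_lit 499977510254) (nat_lit 1) (nat_lit 4) (nat_lit 2) (nat_lit 5) (nat_lit 2) (nat_lit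 4) (nat_lit 394) (nat_lit 315) (nat_lit 191)) (XT.lf (nat_lit 0) (nat_lit 480593658259) (nat_lit 76) (nat_lit 549036034851) (nat_lit 76) (nat_lit 507596109464) (nat_lit 1) (nat_lit 4) (nat_lit 2) (nat_lit 5) (nat_lit 2) (nat_lit 4) (nat_lit 395) (nat_lit 315) (nat_lit 190)))) (XT.nd (nat_lit 156) (nat_lit 0) (nat_lit 0) (XT.nd (nat_lit 78) (nat_lit 0) (nat_lit 0) (XT.lf (nat_lit 0) (nat_lit 584462490604) (nat_lit 76) (nat_lit 557264690782) (nat_lit 76) (nat_lit 515824561623) (nat_lit 1) (nat_lit 4) (nat_lit 2) (nat_lit 5) (nat_lit 2) (nat_lit 4) (nat_lit 396) (nat_lit 315) (nat_lit 189)) (XT.lf (nat_lit 0) (nat_lit 696640210094) (nat_lit 76) (nat_lit 566151945767) (nat_lit 76) (nat_lit 524711627930) (nat_lit 1) (nat_lit 4) (nat_lit 2) (nat_lit 5) (nat_lit 2) (nat_lit 4) (nat_lit 397) (nat_lit 315) (nat_lit 188))) (XT.nd (nat_lit 78) (nat_lit 0) (nat_lit 0) (XT.lf (nat_lit 0) (nat_lit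 817791573587) (nat_lit 76) (nat_lit 575750465019) (nat_lit 76) (nat_lit 534309972480) (nat_lit 1) (nat_lit 4) (nat_lit 2) (nat_lit 5) (nat_lit 2) (nat_lit 4) (nat_lit 398) (nat_lit 315) (nat_lit 187)) (XT.lf (nat_lit 0) (nat_lit 948634515088) (nat_lit 76) (nat_lit 586117128653) (nat_lit 76) (nat_lit 544676474353) (nat_lit 1) (nat_lit 4) (nat_lit 2) (nat_lit 5) (nat_lit 2) (nat_lit 4) (nat_lit 399) (nat_lit 315) (nat_lit 186))))) (XT.nd (nat_lit 312) (nat_lit 0) (nat_lit 0) (XT.nd (nat_lit 156) (nat_lit 0) (nat_lit 0) (XT.nd (nat_lit 78) (nat_lit 0) (nat_lit 0) (XT.lf (nat_lit 0) (nat_lit 1089944400176) (nat_lit 76) (nat_lit 597313368749) (nat_lit 76) (nat_lit 555872564671) (nat_lit 1) (nat_lit 4) (nat_lit 2) (nat_lit 5) (nat_lit 2) (nat_lit 4) (nat_lit 400) (nat_lit 315) (nat_lit 185)) (XT.lf (nat_lit 0) (nat_lit 1242558620764) (nat_lit 76) (nat_lit 609405533398) (nat_lit 76) (nat_lit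 567964590637) (nat_lit 1) (nat_lit 4) (nat_lit 2) (nat_lit 5) (nat_lit 2) (nat_lit 4) (nat_lit 401) (nat_lit 315) (nat_lit 184))) (XT.nd (nat_lit 78) (nat_lit 0) (nat_lit 0) (XT.lf (nat_lit 0) (nat_lit 1407381557417) (nat_lit 76) (nat_lit 622465279871) (nat_lit 76) (nat_lit 581024208699) (nat_lit 1) (nat_lit 4) (nat_lit 2) (nat_lit 5) (nat_lit 2) (nat_lit 4) (nat_lit 402) (nat_lit 315) (nat_lit 183)) (XT.lf (nat_lit 0) (nat_lit 1585389938649) (nat_lit 76) (nat_lit 636569999259) (nat_lit 76) (nat_lit 595128809187) (nat_lit 1) (nat_lit 4) (nat_lit 2) (nat_lit 5) (nat_lit 2) (nat_lit 4) (nat_lit 403) (nat_lit 315) (nat_lit 182)))) (XT.nd (nat_lit 156) (nat_lit 0) (nat_lit 0) (XT.nd (nat_lit 78) (nat_lit 0) (nat_lit 0) (XT.lf (nat_lit 0) (nat_lit 1777638628942) (nat_lit 76) (nat_lit 651803275082) (nat_lit 76) (nat_lit 610361974919) (nat_lit 1) (nat_lit 4) (nat_lit 2) (nat_lit 5) (nat_lit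 2) (nat_lit 4) (nat_lit 404) (nat_lit 315) (nat_lit 181)) (XT.lf (nat_lit 0) (nat_lit 1985266879793) (nat_lit 76) (nat_lit 668255378607) (nat_lit 76) (nat_lit 626813976507) (nat_lit 1) (nat_lit 4) (nat_lit 2) (nat_lit 5) (nat_lit 2) (nat_lit 4) (nat_lit 405) (nat_lit 315) (nat_lit 180))) (XT.nd (nat_lit 78) (nat_lit 0) (nat_lit 0) (XT.lf (nat_lit 0) (nat_lit 2209505080837) (nat_lit 76) (nat_lit 686023803779) (nat_lit 76) (nat_lit 644582307293) (nat_lit 1) (nat_lit 4) (nat_lit 2) (nat_lit 5) (nat_lit 2) (nat_lit 4) (nat_lit 406) (nat_lit 315) (nat_lit 179)) (XT.lf (nat_lit 0) (nat_lit 2451682051043) (nat_lit 76) (nat_lit 705213844971) (nat_lit 76) (nat_lit 663772261090) (nat_lit 1) (nat_lit 4) (nat_lit 2) (nat_lit 5) (nat_lit 2) (nat_lit 4) (nat_lit 407) (nat_lit 315) (nat_lit 178)))))))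
noncomputable def xc145 : XT := (XT.nd (nat_lit 40872) (nat_lit 0) (nat_lit 1216) (XT.nd (nat_lit 40248) (nat_lit 0) (nat_lit 2736) (XT.nd (nat_lit 39936) (nat_lit 0) (nat_lit 3876) (XT.nd (nat_lit 39780) (nat_lit 0) (nat_lit 3800) (XT.nd (nat_lit 39702) (nat_lit 0) (nat_lit 3800) (XT.lf (nat_lit 0) (nat_lit 2713232913198) (nat_lit 76) (nat_lit 725939220944) (nat_lit 76) (nat_lit 684497556142) (nat_lit 1) (nat_lit 4) (nat_lit 2) (nat_lit 5) (nat_lit 2) (nat_lit 4) (nat_lit 408) (nat_lit 315) (nat_lit 177)) (XT.lf (nat_lit 0) (nat_lit 3748839308) (nat_lit 532) (nat_lit 1673623297) (nat_lit 532) (nat_lit 1673623297) (nat_lit 51) (nat_lit 3) (nat_lit 58) (nat_lit 3) (nat_lit 58) (nat_lit 5) (nat_lit 316) (nat_lit 316) (nat_lit 268))) (XT.nd (nat_lit 78) (nat_lit 0) (nat_lit 76) (XT.lf (nat_lit 76) (nat_lit 3484865687) (nat_lit 0) (nat_lit 4705996974) (nat_lit 532) (nat_lit 6536866235) (nat_lit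 52) (nat_lit 5) (nat_lit 51) (nat_lit 3) (nat_lit 58) (nat_lit 5) (nat_lit 317) (nat_lit 316) (nat_lit 267)) (XT.lf (nat_lit 0) (nat_lit 9048616684) (nat_lit 456) (nat_lit 4314094725) (nat_lit 532) (nat_lit 1934756719) (nat_lit 52) (nat_lit 5) (nat_lit 58) (nat_lit 5) (nat_lit 59) (nat_lit 5) (nat_lit 318) (nat_lit 316) (nat_lit 266)))) (XT.nd (nat_lit 156) (nat_lit 0) (nat_lit 76) (XT.nd (nat_lit 78) (nat_lit 0) (nat_lit 76) (XT.lf (nat_lit 76) (nat_lit 3187154538) (nat_lit 0) (nat_lit 6957966808) (nat_lit 532) (nat_lit 5754116573) (nat_lit 53) (nat_lit 5) (nat_lit 52) (nat_lit 5) (nat_lit 59) (nat_lit 5) (nat_lit 319) (nat_lit 316) (nat_lit 265)) (XT.lf (nat_lit 0) (nat_lit 11422517608) (nat_lit 456) (nat_lit 5028912159) (nat_lit 532) (nat_lit 90323098) (nat_lit 53) (nat_lit 5) (nat_lit 59) (nat_lit 5) (nat_lit 60) (nat_lit 5) (nat_lit 320) (nat_lit 316) (nat_lit 264))) (XT.nd (nat_lit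 78) (nat_lit 0) (nat_lit 0) (XT.lf (nat_lit 76) (nat_lit 3230367707) (nat_lit 0) (nat_lit 9805279442) (nat_lit 532) (nat_lit 4181391553) (nat_lit 54) (nat_lit 5) (nat_lit 53) (nat_lit 5) (nat_lit 60) (nat_lit 5) (nat_lit 321) (nat_lit 316) (nat_lit 263)) (XT.lf (nat_lit 76) (nat_lit 12417465448) (nat_lit 0) (nat_lit 2474373234) (nat_lit 532) (nat_lit 3045436890) (nat_lit 54) (nat_lit 5) (nat_lit 53) (nat_lit 5) (nat_lit 60) (nat_lit 5) (nat_lit 322) (nat_lit 316) (nat_lit 262))))) (XT.nd (nat_lit 312) (nat_lit 456) (nat_lit 0) (XT.nd (nat_lit 156) (nat_lit 304) (nat_lit 0) (XT.nd (nat_lit 78) (nat_lit 76) (nat_lit 0) (XT.lf (nat_lit 0) (nat_lit 3657026028) (nat_lit 456) (nat_lit 13436709221) (nat_lit 532) (nat_lit 1605664826) (nat_lit 48) (nat_lit 5) (nat_lit 54) (nat_lit 5) (nat_lit 55) (nat_lit 5) (nat_lit 323) (nat_lit 316) (nat_lit 261)) (XT.lf (nat_lit 0) (nat_lit 149866442) (nat_lit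 532) (nat_lit 5715530697) (nat_lit 76) (nat_lit 13641390688) (nat_lit 47) (nat_lit 5) (nat_lit 54) (nat_lit 5) (nat_lit 48) (nat_lit 5) (nat_lit 324) (nat_lit 316) (nat_lit 260))) (XT.nd (nat_lit 78) (nat_lit 0) (nat_lit 0) (XT.lf (nat_lit 0) (nat_lit 2107898263) (nat_lit 380) (nat_lit 15904392748) (nat_lit 76) (nat_lit 2351270777) (nat_lit 43) (nat_lit 5) (nat_lit 48) (nat_lit 5) (nat_lit 44) (nat_lit 5) (nat_lit 325) (nat_lit 316) (nat_lit 259)) (XT.lf (nat_lit 0) (nat_lit 4516761968) (nat_lit 380) (nat_lit 5679522473) (nat_lit 76) (nat_lit 11069091492) (nat_lit 43) (nat_lit 5) (nat_lit 48) (nat_lit 5) (nat_lit 44) (nat_lit 5) (nat_lit 326) (nat_lit 316) (nat_lit 258)))) (XT.nd (nat_lit 156) (nat_lit 228) (nat_lit 0) (XT.nd (nat_lit 78) (nat_lit 0) (nat_lit 0) (XT.lf (nat_lit 0) (nat_lit 5626626602) (nat_lit 228) (nat_lit 1609907922) (nat_lit 304) (nat_lit 14993375643) (nat_lit 40)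 (nat_lit 5) (nat_lit 43) (nat_lit 5) (nat_lit 44) (nat_lit 5) (nat_lit 327) (nat_lit 316) (nat_lit 257)) (XT.lf (nat_lit 0) (nat_lit 10501201753) (nat_lit 304) (nat_lit 5306268529) (nat_lit 76) (nat_lit 7437980477) (nat_lit 40) (nat_lit 5) (nat_lit 44) (nat_lit 5) (nat_lit 41) (nat_lit 5) (nat_lit 328) (nat_lit 316) (nat_lit 256))) (XT.nd (nat_lit 78) (nat_lit 0) (nat_lit 0) (XT.lf (nat_lit 0) (nat_lit 7195010267) (nat_lit 228) (nat_lit 7031783195) (nat_lit 304) (nat_lit 10099487573) (nat_lit 37) (nat_lit 5) (nat_lit 40) (nat_lit 5) (nat_lit 41) (nat_lit 5) (nat_lit 329) (nat_lit 316) (nat_lit 255)) (XT.lf (nat_lit 0) (nat_lit 18443643984) (nat_lit 304) (nat_lit 4564670862) (nat_lit 76) (nat_lit 2469830530) (nat_lit 37) (nat_lit 5) (nat_lit 41) (nat_lit 5) (nat_lit 38) (nat_lit 5) (nat_lit 330) (nat_lit 316) (nat_lit 254)))))) (XT.nd (nat_lit 624) (nat_lit 532) (nat_lit 0) (XT.nd (nat_lit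 312) (nat_lit 532) (nat_lit 0) (XT.nd (nat_lit 156) (nat_lit 228) (nat_lit 0) (XT.nd (nat_lit 78) (nat_lit 76) (nat_lit 0) (XT.lf (nat_lit 0) (nat_lit 9271494777) (nat_lit 152) (nat_lit 14118577584) (nat_lit 228) (nat_lit 3300730858) (nat_lit 35) (nat_lit 5) (nat_lit 37) (nat_lit 5) (nat_lit 38) (nat_lit 5) (nat_lit 331) (nat_lit 316) (nat_lit 253)) (XT.lf (nat_lit 0) (nat_lit 810034148) (nat_lit 228) (nat_lit 3554378740) (nat_lit 76) (nat_lit 23625480627) (nat_lit 34) (nat_lit 5) (nat_lit 37) (nat_lit 5) (nat_lit 35) (nat_lit 5) (nat_lit 332) (nat_lit 316) (nat_lit 252))) (XT.nd (nat_lit 78) (nat_lit 0) (nat_lit 0) (XT.lf (nat_lit 0) (nat_lit 5503662460) (nat_lit 304) (nat_lit 17608015088) (nat_lit 76) (nat_lit 6239806693) (nat_lit 31) (nat_lit 5) (nat_lit 35) (nat_lit 5) (nat_lit 32) (nat_lit 5) (nat_lit 333) (nat_lit 316) (nat_lit 251)) (XT.lf (nat_lit 0) (nat_lit 10774108781) (nat_lit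 304) (nat_lit 2479205694) (nat_lit 76) (nat_lit 17552598247) (nat_lit 31) (nat_lit 5) (nat_lit 35) (nat_lit 5) (nat_lit 32) (nat_lit 5) (nat_lit 334) (nat_lit 316) (nat_lit 250)))) (XT.nd (nat_lit 156) (nat_lit 380) (nat_lit 0) (XT.nd (nat_lit 78) (nat_lit 0) (nat_lit 0) (XT.lf (nat_lit 0) (nat_lit 14573783251) (nat_lit 152) (nat_lit 2232036210) (nat_lit 228) (nat_lit 15543721206) (nat_lit 29) (nat_lit 5) (nat_lit 31) (nat_lit 5) (nat_lit 32) (nat_lit 5) (nat_lit 335) (nat_lit 316) (nat_lit 249)) (XT.lf (nat_lit 0) (nat_lit 23611673750) (nat_lit 228) (nat_lit 1129101289) (nat_lit 76) (nat_lit 9252569598) (nat_lit 29) (nat_lit 5) (nat_lit 32) (nat_lit 5) (nat_lit 30) (nat_lit 5) (nat_lit 336) (nat_lit 316) (nat_lit 248))) (XT.nd (nat_lit 78) (nat_lit 228) (nat_lit 0) (XT.lf (nat_lit 0) (nat_lit 17660381993) (nat_lit 152) (nat_lit 13774575447) (nat_lit 228) (nat_lit 4295871870) (nat_lit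 27) (nat_lit 5) (nat_lit 29) (nat_lit 5) (nat_lit 30) (nat_lit 5) (nat_lit 337) (nat_lit 316) (nat_lit 247)) (XT.lf (nat_lit 0) (nat_lit 360332397) (nat_lit 152) (nat_lit 1833287524) (nat_lit 228) (nat_lit 35406865808) (nat_lit 24) (nat_lit 5) (nat_lit 26) (nat_lit 5) (nat_lit 27) (nat_lit 5) (nat_lit 338) (nat_lit 316) (nat_lit 246))))) (XT.nd (nat_lit 312) (nat_lit 304) (nat_lit 0) (XT.nd (nat_lit 156) (nat_lit 76) (nat_lit 0) (XT.nd (nat_lit 78) (nat_lit 152) (nat_lit 0) (XT.lf (nat_lit 0) (nat_lit 9733803573) (nat_lit 228) (nat_lit 18692210703) (nat_lit 76) (nat_lit 11123694739) (nat_lit 24) (nat_lit 5) (nat_lit 27) (nat_lit 5) (nat_lit 25) (nat_lit 5) (nat_lit 339) (nat_lit 316) (nat_lit 245)) (XT.lf (nat_lit 0) (nat_lit 1345563605) (nat_lit 152) (nat_lit 16602947759) (nat_lit 228) (nat_lit 23700663795) (nat_lit 22) (nat_lit 5) (nat_lit 24) (nat_lit 5) (nat_lit 25) (nat_lit 5) (nat_lit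 340) (nat_lit 316) (nat_lit 244))) (XT.nd (nat_lit 78) (nat_lit 76) (nat_lit 0) (XT.lf (nat_lit 0) (nat_lit 24036052774) (nat_lit 152) (nat_lit 3287073033) (nat_lit 228) (nat_lit 16553263418) (nat_lit 22) (nat_lit 5) (nat_lit 24) (nat_lit 5) (nat_lit 25) (nat_lit 5) (nat_lit 341) (nat_lit 316) (nat_lit 243)) (XT.lf (nat_lit 0) (nat_lit 2084591507) (nat_lit 76) (nat_lit 35672223928) (nat_lit 152) (nat_lit 8500244860) (nat_lit 21) (nat_lit 5) (nat_lit 22) (nat_lit 5) (nat_lit 23) (nat_lit 4) (nat_lit 342) (nat_lit 316) (nat_lit 242)))) (XT.nd (nat_lit 156) (nat_lit 76) (nat_lit 0) (XT.nd (nat_lit 78) (nat_lit 152) (nat_lit 0) (XT.lf (nat_lit 0) (nat_lit 821332374) (nat_lit 152) (nat_lit 22010109408) (nat_lit 76) (nat_lit 25945637565) (nat_lit 20) (nat_lit 5) (nat_lit 22) (nat_lit 5) (nat_lit 21) (nat_lit 5) (nat_lit 343) (nat_lit 316) (nat_lit 241)) (XT.lf (nat_lit 0) (nat_lit 1781568584)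 (nat_lit 152) (nat_lit 8683489298) (nat_lit 228) (nat_lit 41013133344) (nat_lit 18) (nat_lit 5) (nat_lit 20) (nat_lit 5) (nat_lit 21) (nat_lit 5) (nat_lit 344) (nat_lit 316) (nat_lit 240))) (XT.nd (nat_lit 78) (nat_lit 76) (nat_lit 0) (XT.lf (nat_lit 0) (nat_lit 21649295046) (nat_lit 228) (nat_lit 25805354047) (nat_lit 76) (nat_lit 6879228020) (nat_lit 18) (nat_lit 5) (nat_lit 21) (nat_lit 5) (nat_lit 19) (nat_lit 4) (nat_lit 345) (nat_lit 316) (nat_lit 239)) (XT.nd (nat_lit 78) (nat_lit 76) (nat_lit 0) (XT.lf (nat_lit 0) (nat_lit 33947284887) (nat_lit 228) (nat_lit 239577894) (nat_lit 76) (nat_lit 23213639683) (nat_lit 18) (nat_lit 5) (nat_lit 21) (nat_lit 5) (nat_lit 19) (nat_lit 4) (nat_lit 346) (nat_lit 316) (nat_lit 238)) (XT.lf (nat_lit 0) (nat_lit 28801828969) (nat_lit 76) (nat_lit 19113921966) (nat_lit 152) (nat_lit 12741781219) (nat_lit 17) (nat_lit 5) (nat_lit 18) (nat_lit 5)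 (nat_lit 19) (nat_lit 4) (nat_lit 347) (nat_lit 316) (nat_lit 237))))))))
noncomputable def xc146 : XT := (XT.nd (nat_lit 1248) (nat_lit 380) (nat_lit 0) (XT.nd (nat_lit 624) (nat_lit 304) (nat_lit 0) (XT.nd (nat_lit 312) (nat_lit 152) (nat_lit 0) (XT.nd (nat_lit 156) (nat_lit 76) (nat_lit 0) (XT.nd (nat_lit 78) (nat_lit 152) (nat_lit 0) (XT.lf (nat_lit 0) (nat_lit 60170021560) (nat_lit 76) (nat_lit 2832379354) (nat_lit 152) (nat_lit 1172671650) (nat_lit 17) (nat_lit 5) (nat_lit 18) (nat_lit 5) (nat_lit 19) (nat_lit 4) (nat_lit 348) (nat_lit 316) (nat_lit 236)) (XT.lf (nat_lit 0) (nat_lit 11781704983) (nat_lit 152) (nat_lit 41129349841) (nat_lit 76) (nat_lit 14959093366) (nat_lit 15) (nat_lit 5) (nat_lit 17) (nat_lit 5) (nat_lit 16) (nat_lit 4) (nat_lit 349) (nat_lit 316) (nat_lit 235))) (XT.nd (nat_lit 78) (nat_lit 76) (nat_lit 0) (XT.lf (nat_lit 0) (nat_lit 25889525130) (nat_lit 152)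 (nat_lit 11794641173) (nat_lit 76) (nat_lit 34159794868) (nat_lit 15) (nat_lit 5) (nat_lit 17) (nat_lit 5) (nat_lit 16) (nat_lit 4) (nat_lit 350) (nat_lit 316) (nat_lit 234)) (XT.lf (nat_lit 0) (nat_lit 20924511336) (nat_lit 76) (nat_lit 20699630046) (nat_lit 152) (nat_lit 34471687756) (nat_lit 14) (nat_lit 5) (nat_lit 15) (nat_lit 5) (nat_lit 16) (nat_lit 4) (nat_lit 351) (nat_lit 316) (nat_lit 233)))) (XT.nd (nat_lit 156) (nat_lit 76) (nat_lit 0) (XT.nd (nat_lit 78) (nat_lit 76) (nat_lit 0) (XT.lf (nat_lit 0) (nat_lit 56923135497) (nat_lit 76) (nat_lit 2011976053) (nat_lit 152) (nat_lit 21727331541) (nat_lit 14) (nat_lit 5) (nat_lit 15) (nat_lit 5) (nat_lit 16) (nat_lit 4) (nat_lit 352) (nat_lit 316) (nat_lit 232)) (XT.lf (nat_lit 0) (nat_lit 10275840398) (nat_lit 76) (nat_lit 68034632476) (nat_lit 76) (nat_lit 7229555280) (nat_lit 13) (nat_lit 4) (nat_lit 14) (nat_lit 5) (nat_lit 14)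 (nat_lit 4) (nat_lit 353) (nat_lit 316) (nat_lit 231))) (XT.nd (nat_lit 78) (nat_lit 0) (nat_lit 0) (XT.lf (nat_lit 0) (nat_lit 8720030304) (nat_lit 152) (nat_lit 42673918658) (nat_lit 76) (nat_lit 39340570758) (nat_lit 12) (nat_lit 5) (nat_lit 14) (nat_lit 5) (nat_lit 13) (nat_lit 4) (nat_lit 354) (nat_lit 316) (nat_lit 230)) (XT.lf (nat_lit 0) (nat_lit 25550738903) (nat_lit 152) (nat_lit 7672067452) (nat_lit 76) (nat_lit 63107085050) (nat_lit 12) (nat_lit 5) (nat_lit 14) (nat_lit 5) (nat_lit 13) (nat_lit 4) (nat_lit 355) (nat_lit 316) (nat_lit 229))))) (XT.nd (nat_lit 312) (nat_lit 152) (nat_lit 0) (XT.nd (nat_lit 156) (nat_lit 76) (nat_lit 0) (XT.nd (nat_lit 78) (nat_lit 0) (nat_lit 0) (XT.lf (nat_lit 0) (nat_lit 31708860859) (nat_lit 76) (nat_lit 12777697692) (nat_lit 152) (nat_lit 57825644186) (nat_lit 11) (nat_lit 5) (nat_lit 12) (nat_lit 5) (nat_lit 13) (nat_lit 4) (nat_lit 356)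 (nat_lit 316) (nat_lit 228)) (XT.lf (nat_lit 0) (nat_lit 65372296531) (nat_lit 152) (nat_lit 34316244901) (nat_lit 0) (nat_lit 9049755414) (nat_lit 11) (nat_lit 5) (nat_lit 13) (nat_lit 4) (nat_lit 11) (nat_lit 4) (nat_lit 357) (nat_lit 316) (nat_lit 227))) (XT.nd (nat_lit 78) (nat_lit 0) (nat_lit 0) (XT.lf (nat_lit 0) (nat_lit 4773965304) (nat_lit 76) (nat_lit 83598017954) (nat_lit 76) (nat_lit 27271049987) (nat_lit 10) (nat_lit 4) (nat_lit 11) (nat_lit 5) (nat_lit 11) (nat_lit 4) (nat_lit 358) (nat_lit 316) (nat_lit 226)) (XT.lf (nat_lit 0) (nat_lit 48936379853) (nat_lit 76) (nat_lit 65210028175) (nat_lit 76) (nat_lit 8878961273) (nat_lit 10) (nat_lit 4) (nat_lit 11) (nat_lit 5) (nat_lit 11) (nat_lit 4) (nat_lit 359) (nat_lit 316) (nat_lit 225)))) (XT.nd (nat_lit 156) (nat_lit 0) (nat_lit 0) (XT.nd (nat_lit 78) (nat_lit 76) (nat_lit 0) (XT.lf (nat_lit 0) (nat_lit 10431675486) (nat_lit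 152) (nat_lit 34636977200) (nat_lit 76) (nat_lit 85908773318) (nat_lit 9) (nat_lit 5) (nat_lit 11) (nat_lit 5) (nat_lit 10) (nat_lit 4) (nat_lit 360) (nat_lit 316) (nat_lit 224)) (XT.lf (nat_lit 0) (nat_lit 8142042757) (nat_lit 76) (nat_lit 22858158755) (nat_lit 152) (nat_lit 108531578737) (nat_lit 8) (nat_lit 5) (nat_lit 9) (nat_lit 5) (nat_lit 10) (nat_lit 4) (nat_lit 361) (nat_lit 316) (nat_lit 223))) (XT.nd (nat_lit 78) (nat_lit 0) (nat_lit 0) (XT.lf (nat_lit 0) (nat_lit 54209944600) (nat_lit 152) (nat_lit 92439112315) (nat_lit 0) (nat_lit 2041768437) (nat_lit 8) (nat_lit 5) (nat_lit 10) (nat_lit 4) (nat_lit 8) (nat_lit 4) (nat_lit 362) (nat_lit 316) (nat_lit 222)) (XT.lf (nat_lit 0) (nat_lit 79867355559) (nat_lit 152) (nat_lit 50971578922) (nat_lit 0) (nat_lit 27696389731) (nat_lit 8) (nat_lit 5) (nat_lit 10) (nat_lit 4) (nat_lit 8) (nat_lit 4) (nat_lit 363) (nat_lit 316) (nat_lit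 221)))))) (XT.nd (nat_lit 624) (nat_lit 152) (nat_lit 0) (XT.nd (nat_lit 312) (nat_lit 76) (nat_lit 0) (XT.nd (nat_lit 156) (nat_lit 76) (nat_lit 0) (XT.nd (nat_lit 78) (nat_lit 76) (nat_lit 0) (XT.lf (nat_lit 0) (nat_lit 107574739040) (nat_lit 152) (nat_lit 6191664513) (nat_lit 0) (nat_lit 55401190186) (nat_lit 8) (nat_lit 5) (nat_lit 10) (nat_lit 4) (nat_lit 8) (nat_lit 4) (nat_lit 364) (nat_lit 316) (nat_lit 220)) (XT.lf (nat_lit 0) (nat_lit 44386379852) (nat_lit 76) (nat_lit 94177400593) (nat_lit 76) (nat_lit 42001460050) (nat_lit 7) (nat_lit 4) (nat_lit 8) (nat_lit 5) (nat_lit 8) (nat_lit 4) (nat_lit 365) (nat_lit 316) (nat_lit 219))) (XT.nd (nat_lit 78) (nat_lit 76) (nat_lit 0) (XT.lf (nat_lit 0) (nat_lit 99358261247) (nat_lit 76) (nat_lit 72840619471) (nat_lit 76) (nat_lit 20662464401) (nat_lit 7) (nat_lit 4) (nat_lit 8) (nat_lit 5) (nat_lit 8) (nat_lit 4) (nat_lit 366) (nat_lit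 316) (nat_lit 218)) (XT.lf (nat_lit 0) (nat_lit 2262172482) (nat_lit 152) (nat_lit 47474886795) (nat_lit 76) (nat_lit 156399672599) (nat_lit 6) (nat_lit 5) (nat_lit 8) (nat_lit 5) (nat_lit 7) (nat_lit 4) (nat_lit 367) (nat_lit 316) (nat_lit 217)))) (XT.nd (nat_lit 156) (nat_lit 0) (nat_lit 0) (XT.nd (nat_lit 78) (nat_lit 0) (nat_lit 0) (XT.lf (nat_lit 0) (nat_lit 1784132865) (nat_lit 76) (nat_lit 24161173396) (nat_lit 152) (nat_lit 194482642235) (nat_lit 5) (nat_lit 5) (nat_lit 6) (nat_lit 5) (nat_lit 7) (nat_lit 4) (nat_lit 368) (nat_lit 316) (nat_lit 216)) (XT.lf (nat_lit 0) (nat_lit 52936027628) (nat_lit 152) (nat_lit 178195763803) (nat_lit 0) (nat_lit 4617636775) (nat_lit 5) (nat_lit 5) (nat_lit 7) (nat_lit 4) (nat_lit 5) (nat_lit 4) (nat_lit 369) (nat_lit 316) (nat_lit 215))) (XT.nd (nat_lit 78) (nat_lit 0) (nat_lit 0) (XT.lf (nat_lit 0) (nat_lit 82711664007) (nat_lit 152) (nat_lit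 135143144379) (nat_lit 0) (nat_lit 34391765984) (nat_lit 5) (nat_lit 5) (nat_lit 7) (nat_lit 4) (nat_lit 5) (nat_lit 4) (nat_lit 370) (nat_lit 316) (nat_lit 214)) (XT.lf (nat_lit 0) (nat_lit 114867586811) (nat_lit 152) (nat_lit 88649753925) (nat_lit 0) (nat_lit 66546293260) (nat_lit 5) (nat_lit 5) (nat_lit 7) (nat_lit 4) (nat_lit 5) (nat_lit 4) (nat_lit 371) (nat_lit 316) (nat_lit 213))))) (XT.nd (nat_lit 312) (nat_lit 76) (nat_lit 0) (XT.nd (nat_lit 156) (nat_lit 0) (nat_lit 0) (XT.nd (nat_lit 78) (nat_lit 76) (nat_lit 0) (XT.lf (nat_lit 0) (nat_lit 149594349657) (nat_lit 152) (nat_lit 38440076052) (nat_lit 0) (nat_lit 101271763951) (nat_lit 5) (nat_lit 5) (nat_lit 7) (nat_lit 4) (nat_lit 5) (nat_lit 4) (nat_lit 372) (nat_lit 316) (nat_lit 212)) (XT.lf (nat_lit 0) (nat_lit 16614555423) (nat_lit 76) (nat_lit 170882765804) (nat_lit 76) (nat_lit 122558983658) (nat_lit 4) (nat_lit 4) (nat_lit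 5) (nat_lit 5) (nat_lit 5) (nat_lit 4) (nat_lit 373) (nat_lit 316) (nat_lit 211))) (XT.nd (nat_lit 78) (nat_lit 0) (nat_lit 0) (XT.lf (nat_lit 0) (nat_lit 78256805254) (nat_lit 76) (nat_lit 151225275260) (nat_lit 76) (nat_lit 102900385299) (nat_lit 4) (nat_lit 4) (nat_lit 5) (nat_lit 5) (nat_lit 5) (nat_lit 4) (nat_lit 374) (nat_lit 316) (nat_lit 210)) (XT.lf (nat_lit 0) (nat_lit 144827774566) (nat_lit 76) (nat_lit 129996485045) (nat_lit 76) (nat_lit 81670569329) (nat_lit 4) (nat_lit 4) (nat_lit 5) (nat_lit 5) (nat_lit 5) (nat_lit 4) (nat_lit 375) (nat_lit 316) (nat_lit 209)))) (XT.nd (nat_lit 156) (nat_lit 76) (nat_lit 0) (XT.nd (nat_lit 78) (nat_lit 0) (nat_lit 0) (XT.lf (nat_lit 0) (nat_lit 216721957991) (nat_lit 76) (nat_lit 107070594920) (nat_lit 76) (nat_lit 58743729432) (nat_lit 4) (nat_lit 4) (nat_lit 5) (nat_lit 5) (nat_lit 5) (nat_lit 4) (nat_lit 376) (nat_lit 316) (nat_lit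 208)) (XT.lf (nat_lit 0) (nat_lit 294365395135) (nat_lit 76) (nat_lit 82311747759) (nat_lit 76) (nat_lit 33984002852) (nat_lit 4) (nat_lit 4) (nat_lit 5) (nat_lit 5) (nat_lit 5) (nat_lit 4) (nat_lit 377) (nat_lit 316) (nat_lit 207))) (XT.nd (nat_lit 78) (nat_lit 76) (nat_lit 0) (XT.lf (nat_lit 0) (nat_lit 378218195254) (nat_lit 76) (nat_lit 55573224468) (nat_lit 76) (nat_lit 7244665283) (nat_lit 4) (nat_lit 4) (nat_lit 5) (nat_lit 5) (nat_lit 5) (nat_lit 4) (nat_lit 378) (nat_lit 316) (nat_lit 206)) (XT.lf (nat_lit 0) (nat_lit 20550581408) (nat_lit 152) (nat_lit 5584103815) (nat_lit 76) (nat_lit 447664793108) (nat_lit 3) (nat_lit 5) (nat_lit 5) (nat_lit 5) (nat_lit 4) (nat_lit 4) (nat_lit 379) (nat_lit 316) (nat_lit 205)))))))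
noncomputable def xc147 : XT := (XT.nd (nat_lit 1248) (nat_lit 0) (nat_lit 0) (XT.nd (nat_lit 624) (nat_lit 76) (nat_lit 0) (XT.nd (nat_lit 312) (nat_lit 0) (nat_lit 0) (XT.nd (nat_lit 156) (nat_lit 0) (nat_lit 0) (XT.nd (nat_lit 78) (nat_lit 0) (nat_lit 0) (XT.lf (nat_lit 0) (nat_lit 51773602032) (nat_lit 152) (nat_lit 450244051569) (nat_lit 0) (nat_lit 7023591610) (nat_lit 2) (nat_lit 5) (nat_lit 4) (nat_lit 4) (nat_lit 2) (nat_lit 4) (nat_lit 380) (nat_lit 316) (nat_lit 204)) (XT.lf (nat_lit 0) (nat_lit 86328987093) (nat_lit 152) (nat_lit 419128226636) (nat_lit 0) (nat_lit 41578378153) (nat_lit 2) (nat_lit 5) (nat_lit 4) (nat_lit 4) (nat_lit 2) (nat_lit 4) (nat_lit 381) (nat_lit 316) (nat_lit 203))) (XT.nd (nat_lit 78) (nat_lit 0) (nat_lit 0) (XT.lf (nat_lit 0) (nat_lit 123647927776) (nat_lit 152) (nat_lit 385524864114) (nat_lit 0) (nat_lit 78896764653) (nat_lit 2) (nat_lit 5) (nat_lit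 4) (nat_lit 4) (nat_lit 2) (nat_lit 4) (nat_lit 382) (nat_lit 316) (nat_lit 202)) (XT.lf (nat_lit 0) (nat_lit 163951573361) (nat_lit 152) (nat_lit 349234832964) (nat_lit 0) (nat_lit 119199897105) (nat_lit 2) (nat_lit 5) (nat_lit 4) (nat_lit 4) (nat_lit 2) (nat_lit 4) (nat_lit 383) (nat_lit 316) (nat_lit 201)))) (XT.nd (nat_lit 156) (nat_lit 0) (nat_lit 0) (XT.nd (nat_lit 78) (nat_lit 0) (nat_lit 0) (XT.lf (nat_lit 0) (nat_lit 207478760265) (nat_lit 152) (nat_lit 310043081151) (nat_lit 0) (nat_lit 162726608886) (nat_lit 2) (nat_lit 5) (nat_lit 4) (nat_lit 4) (nat_lit 2) (nat_lit 4) (nat_lit 384) (nat_lit 316) (nat_lit 200)) (XT.lf (nat_lit 0) (nat_lit 254487427374) (nat_lit 152) (nat_lit 267717361256) (nat_lit 0) (nat_lit 209734836066) (nat_lit 2) (nat_lit 5) (nat_lit 4) (nat_lit 4) (nat_lit 2) (nat_lit 4) (nat_lit 385) (nat_lit 316) (nat_lit 199))) (XT.nd (nat_lit 78) (nat_lit 0) (nat_lit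 0) (XT.lf (nat_lit 0) (nat_lit 305256144566) (nat_lit 152) (nat_lit 222006854199) (nat_lit 0) (nat_lit 260503145917) (nat_lit 2) (nat_lit 5) (nat_lit 4) (nat_lit 4) (nat_lit 2) (nat_lit 4) (nat_lit 386) (nat_lit 316) (nat_lit 198)) (XT.lf (nat_lit 0) (nat_lit 360085763500) (nat_lit 152) (nat_lit 172640682900) (nat_lit 0) (nat_lit 315332387683) (nat_lit 2) (nat_lit 5) (nat_lit 4) (nat_lit 4) (nat_lit 2) (nat_lit 4) (nat_lit 387) (nat_lit 316) (nat_lit 197))))) (XT.nd (nat_lit 312) (nat_lit 0) (nat_lit 0) (XT.nd (nat_lit 156) (nat_lit 76) (nat_lit 0) (XT.nd (nat_lit 78) (nat_lit 0) (nat_lit 0) (XT.lf (nat_lit 0) (nat_lit 419301200435) (nat_lit 152) (nat_lit 119326307086) (nat_lit 0) (nat_lit 374547475389) (nat_lit 2) (nat_lit 5) (nat_lit 4) (nat_lit 4) (nat_lit 2) (nat_lit 4) (nat_lit 388) (nat_lit 316) (nat_lit 196)) (XT.lf (nat_lit 0) (nat_lit 483253361665) (nat_lit 152) (nat_lit 61747789715)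 (nat_lit 0) (nat_lit 438499313259) (nat_lit 2) (nat_lit 5) (nat_lit 4) (nat_lit 4) (nat_lit 2) (nat_lit 4) (nat_lit 389) (nat_lit 316) (nat_lit 195))) (XT.nd (nat_lit 78) (nat_lit 0) (nat_lit 0) (XT.lf (nat_lit 0) (nat_lit 459038191) (nat_lit 76) (nat_lit 551873224648) (nat_lit 76) (nat_lit 507118876833) (nat_lit 1) (nat_lit 4) (nat_lit 2) (nat_lit 5) (nat_lit 2) (nat_lit 4) (nat_lit 390) (nat_lit 316) (nat_lit 194)) (XT.lf (nat_lit 0) (nat_lit 71153153683) (nat_lit 76) (nat_lit 557472156724) (nat_lit 76) (nat_lit 512717531679) (nat_lit 1) (nat_lit 4) (nat_lit 2) (nat_lit 5) (nat_lit 2) (nat_lit 4) (nat_lit 391) (nat_lit 316) (nat_lit 193)))) (XT.nd (nat_lit 156) (nat_lit 0) (nat_lit 0) (XT.nd (nat_lit 78) (nat_lit 0) (nat_lit 0) (XT.lf (nat_lit 0) (nat_lit 147501955670) (nat_lit 76) (nat_lit 563519420462) (nat_lit 76) (nat_lit 518764538724) (nat_lit 1) (nat_lit 4) (nat_lit 2) (nat_lit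 5) (nat_lit 2) (nat_lit 4) (nat_lit 392) (nat_lit 316) (nat_lit 192)) (XT.lf (nat_lit 0) (nat_lit 229957881499) (nat_lit 76) (nat_lit 570050851501) (nat_lit 76) (nat_lit 525295732083) (nat_lit 1) (nat_lit 4) (nat_lit 2) (nat_lit 5) (nat_lit 2) (nat_lit 4) (nat_lit 393) (nat_lit 316) (nat_lit 191))) (XT.nd (nat_lit 78) (nat_lit 0) (nat_lit 0) (XT.lf (nat_lit 0) (nat_lit 319009558877) (nat_lit 76) (nat_lit 577105154616) (nat_lit 76) (nat_lit 532349815124) (nat_lit 1) (nat_lit 4) (nat_lit 2) (nat_lit 5) (nat_lit 2) (nat_lit 4) (nat_lit 394) (nat_lit 316) (nat_lit 190)) (XT.lf (nat_lit 0) (nat_lit 415184701449) (nat_lit 76) (nat_lit 584724133084) (nat_lit 76) (nat_lit 539968589820) (nat_lit 1) (nat_lit 4) (nat_lit 2) (nat_lit 5) (nat_lit 2) (nat_lit 4) (nat_lit 395) (nat_lit 316) (nat_lit 189)))))) (XT.nd (nat_lit 624) (nat_lit 0) (nat_lit 0) (XT.nd (nat_lit 312) (nat_lit 0) (nat_lit 0) (XT.nd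 (nat_lit 156) (nat_lit 0) (nat_lit 0) (XT.nd (nat_lit 78) (nat_lit 0) (nat_lit 0) (XT.lf (nat_lit 0) (nat_lit 519053235985) (nat_lit 76) (nat_lit 592952936409) (nat_lit 76) (nat_lit 548197204467) (nat_lit 1) (nat_lit 4) (nat_lit 2) (nat_lit 5) (nat_lit 2) (nat_lit 4) (nat_lit 396) (nat_lit 316) (nat_lit 188)) (XT.lf (nat_lit 0) (nat_lit 631230679727) (nat_lit 76) (nat_lit 601840327869) (nat_lit 76) (nat_lit 557084421226) (nat_lit 1) (nat_lit 4) (nat_lit 2) (nat_lit 5) (nat_lit 2) (nat_lit 4) (nat_lit 397) (nat_lit 316) (nat_lit 187))) (XT.nd (nat_lit 78) (nat_lit 0) (nat_lit 0) (XT.lf (nat_lit 0) (nat_lit 752381787897) (nat_lit 76) (nat_lit 611438973487) (nat_lit 76) (nat_lit 566682905083) (nat_lit 1) (nat_lit 4) (nat_lit 2) (nat_lit 5) (nat_lit 2) (nat_lit 4) (nat_lit 398) (nat_lit 316) (nat_lit 186)) (XT.lf (nat_lit 0) (nat_lit 883224492988) (nat_lit 76) (nat_lit 621805754127) (nat_lit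 76) (nat_lit 577049535944) (nat_lit 1) (nat_lit 4) (nat_lit 2) (nat_lit 5) (nat_lit 2) (nat_lit 4) (nat_lit 399) (nat_lit 316) (nat_lit 185)))) (XT.nd (nat_lit 156) (nat_lit 0) (nat_lit 0) (XT.nd (nat_lit 78) (nat_lit 0) (nat_lit 0) (XT.lf (nat_lit 0) (nat_lit 1024534159179) (nat_lit 76) (nat_lit 633002102563) (nat_lit 76) (nat_lit 588245745696) (nat_lit 1) (nat_lit 4) (nat_lit 2) (nat_lit 5) (nat_lit 2) (nat_lit 4) (nat_lit 400) (nat_lit 316) (nat_lit 184)) (XT.lf (nat_lit 0) (nat_lit 1177148177083) (nat_lit 76) (nat_lit 645094367525) (nat_lit 76) (nat_lit 600337882247) (nat_lit 1) (nat_lit 4) (nat_lit 2) (nat_lit 5) (nat_lit 2) (nat_lit 4) (nat_lit 401) (nat_lit 316) (nat_lit 183))) (XT.nd (nat_lit 78) (nat_lit 0) (nat_lit 0) (XT.lf (nat_lit 0) (nat_lit 1341970926066) (nat_lit 76) (nat_lit 658154206881) (nat_lit 76) (nat_lit 613397602704) (nat_lit 1) (nat_lit 4) (nat_lit 2) (nat_lit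 5) (nat_lit 2) (nat_lit 4) (nat_lit 402) (nat_lit 316) (nat_lit 182)) (XT.lf (nat_lit 0) (nat_lit 1519979133530) (nat_lit 76) (nat_lit 672259012271) (nat_lit 76) (nat_lit 627502298003) (nat_lit 1) (nat_lit 4) (nat_lit 2) (nat_lit 5) (nat_lit 2) (nat_lit 4) (nat_lit 403) (nat_lit 316) (nat_lit 181))))) (XT.nd (nat_lit 312) (nat_lit 0) (nat_lit 0) (XT.nd (nat_lit 156) (nat_lit 0) (nat_lit 0) (XT.nd (nat_lit 78) (nat_lit 0) (nat_lit 0) (XT.lf (nat_lit 0) (nat_lit 1712227662926) (nat_lit 76) (nat_lit 687492367727) (nat_lit 76) (nat_lit 642735551522) (nat_lit 1) (nat_lit 4) (nat_lit 2) (nat_lit 5) (nat_lit 2) (nat_lit 4) (nat_lit 404) (nat_lit 316) (nat_lit 180)) (XT.lf (nat_lit 0) (nat_lit 1919855764798) (nat_lit 76) (nat_lit 703944544985) (nat_lit 76) (nat_lit 659187634394) (nat_lit 1) (nat_lit 4) (nat_lit 2) (nat_lit 5) (nat_lit 2) (nat_lit 4) (nat_lit 405) (nat_lit 316) (nat_lit 179)))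 (XT.nd (nat_lit 78) (nat_lit 0) (nat_lit 0) (XT.lf (nat_lit 0) (nat_lit 2144093827900) (nat_lit 76) (nat_lit 721713038429) (nat_lit 76) (nat_lit 676956040444) (nat_lit 1) (nat_lit 4) (nat_lit 2) (nat_lit 5) (nat_lit 2) (nat_lit 4) (nat_lit 406) (nat_lit 316) (nat_lit 178)) (XT.lf (nat_lit 0) (nat_lit 2386270670381) (nat_lit 76) (nat_lit 740903142835) (nat_lit 76) (nat_lit 696146063929) (nat_lit 1) (nat_lit 4) (nat_lit 2) (nat_lit 5) (nat_lit 2) (nat_lit 4) (nat_lit 407) (nat_lit 316) (nat_lit 177)))) (XT.nd (nat_lit 39858) (nat_lit 0) (nat_lit 3800) (XT.nd (nat_lit 39780) (nat_lit 0) (nat_lit 3800) (XT.lf (nat_lit 0) (nat_lit 2647821414272) (nat_lit 76) (nat_lit 761628577340) (nat_lit 76) (nat_lit 716871423507) (nat_lit 1) (nat_lit 4) (nat_lit 2) (nat_lit 5) (nat_lit 2) (nat_lit 4) (nat_lit 408) (nat_lit 316) (nat_lit 176)) (XT.lf (nat_lit 0) (nat_lit 4350769589) (nat_lit 532) (nat_lit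 1644094880) (nat_lit 532) (nat_lit 1644094880) (nat_lit 51) (nat_lit 3) (nat_lit 58) (nat_lit 3) (nat_lit 58) (nat_lit 5) (nat_lit 317) (nat_lit 317) (nat_lit 266))) (XT.nd (nat_lit 78) (nat_lit 0) (nat_lit 76) (XT.lf (nat_lit 76) (nat_lit 4082217158) (nat_lit 0) (nat_lit 5330878047) (nat_lit 532) (nat_lit 6446288301) (nat_lit 52) (nat_lit 5) (nat_lit 51) (nat_lit 3) (nat_lit 58) (nat_lit 5) (nat_lit 318) (nat_lit 317) (nat_lit 265)) (XT.nd (nat_lit 78) (nat_lit 0) (nat_lit 0) (XT.lf (nat_lit 0) (nat_lit 10291940717) (nat_lit 456) (nat_lit 4315611216) (nat_lit 532) (nat_lit 1871041630) (nat_lit 52) (nat_lit 5) (nat_lit 58) (nat_lit 5) (nat_lit 59) (nat_lit 5) (nat_lit 319) (nat_lit 317) (nat_lit 264)) (XT.lf (nat_lit 76) (nat_lit 3777038974) (nat_lit 0) (nat_lit 7668704779) (nat_lit 532) (nat_lit 5685277706) (nat_lit 53) (nat_lit 5) (nat_lit 52) (nat_lit 5) (nat_lit 59) (nat_lit 5) (nat_lit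 320) (nat_lit 317) (nat_lit 263))))))))
noncomputable def xc148 : XT := (XT.nd (nat_lit 1248) (nat_lit 1140) (nat_lit 0) (XT.nd (nat_lit 624) (nat_lit 836) (nat_lit 0) (XT.nd (nat_lit 312) (nat_lit 608) (nat_lit 0) (XT.nd (nat_lit 156) (nat_lit 304) (nat_lit 0) (XT.nd (nat_lit 78) (nat_lit 0) (nat_lit 76) (XT.lf (nat_lit 76) (nat_lit 12746638894) (nat_lit 0) (nat_lit 40000063) (nat_lit 532) (nat_lit 5041470689) (nat_lit 53) (nat_lit 5) (nat_lit 52) (nat_lit 5) (nat_lit 59) (nat_lit 5) (nat_lit 321) (nat_lit 317) (nat_lit 262)) (XT.lf (nat_lit 76) (nat_lit 3830634609) (nat_lit 0) (nat_lit 10672157678) (nat_lit 532) (nat_lit 4056779142) (nat_lit 54) (nat_lit 5) (nat_lit 53) (nat_lit 5) (nat_lit 60) (nat_lit 5) (nat_lit 322) (nat_lit 317) (nat_lit 261))) (XT.nd (nat_lit 78) (nat_lit 380) (nat_lit 0) (XT.lf (nat_lit 76) (nat_lit 13727378874) (nat_lit 0) (nat_lit 2748671130) (nat_lit 532)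 (nat_lit 2863957273) (nat_lit 54) (nat_lit 5) (nat_lit 53) (nat_lit 5) (nat_lit 60) (nat_lit 5) (nat_lit 323) (nat_lit 317) (nat_lit 260)) (XT.lf (nat_lit 0) (nat_lit 4291314797) (nat_lit 456) (nat_lit 14540200822) (nat_lit 532) (nat_lit 1333453566) (nat_lit 48) (nat_lit 5) (nat_lit 54) (nat_lit 5) (nat_lit 55) (nat_lit 5) (nat_lit 324) (nat_lit 317) (nat_lit 259)))) (XT.nd (nat_lit 156) (nat_lit 228) (nat_lit 0) (XT.nd (nat_lit 78) (nat_lit 304) (nat_lit 0) (XT.lf (nat_lit 0) (nat_lit 514283155) (nat_lit 532) (nat_lit 5837149454) (nat_lit 76) (nat_lit 14687052156) (nat_lit 47) (nat_lit 5) (nat_lit 54) (nat_lit 5) (nat_lit 48) (nat_lit 5) (nat_lit 325) (nat_lit 317) (nat_lit 258)) (XT.lf (nat_lit 0) (nat_lit 2610549351) (nat_lit 380) (nat_lit 16822108692) (nat_lit 76) (nat_lit 2532663541) (nat_lit 43) (nat_lit 5) (nat_lit 48) (nat_lit 5) (nat_lit 44) (nat_lit 5) (nat_lit 326) (nat_lit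 317) (nat_lit 257))) (XT.nd (nat_lit 78) (nat_lit 228) (nat_lit 0) (XT.lf (nat_lit 0) (nat_lit 5187379988) (nat_lit 380) (nat_lit 5805518090) (nat_lit 76) (nat_lit 11948406868) (nat_lit 43) (nat_lit 5) (nat_lit 48) (nat_lit 5) (nat_lit 44) (nat_lit 5) (nat_lit 327) (nat_lit 317) (nat_lit 256)) (XT.lf (nat_lit 0) (nat_lit 6396809844) (nat_lit 228) (nat_lit 1712712378) (nat_lit 304) (nat_lit 15874738067) (nat_lit 40) (nat_lit 5) (nat_lit 43) (nat_lit 5) (nat_lit 44) (nat_lit 5) (nat_lit 328) (nat_lit 317) (nat_lit 255))))) (XT.nd (nat_lit 312) (nat_lit 456) (nat_lit 0) (XT.nd (nat_lit 156) (nat_lit 152) (nat_lit 0) (XT.nd (nat_lit 78) (nat_lit 228) (nat_lit 0) (XT.lf (nat_lit 0) (nat_lit 11614158960) (nat_lit 304) (nat_lit 5412741503) (nat_lit 76) (nat_lit 8055878308) (nat_lit 40) (nat_lit 5) (nat_lit 44) (nat_lit 5) (nat_lit 41) (nat_lit 5) (nat_lit 329) (nat_lit 317) (nat_lit 254)) (XT.lf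 (nat_lit 0) (nat_lit 8080588243) (nat_lit 228) (nat_lit 7544452790) (nat_lit 304) (nat_lit 10626090487) (nat_lit 37) (nat_lit 5) (nat_lit 40) (nat_lit 5) (nat_lit 41) (nat_lit 5) (nat_lit 330) (nat_lit 317) (nat_lit 253))) (XT.nd (nat_lit 78) (nat_lit 152) (nat_lit 0) (XT.lf (nat_lit 0) (nat_lit 20161083227) (nat_lit 304) (nat_lit 4624261471) (nat_lit 76) (nat_lit 2711285683) (nat_lit 37) (nat_lit 5) (nat_lit 41) (nat_lit 5) (nat_lit 38) (nat_lit 5) (nat_lit 331) (nat_lit 317) (nat_lit 252)) (XT.lf (nat_lit 0) (nat_lit 10311061138) (nat_lit 152) (nat_lit 15181405904) (nat_lit 228) (nat_lit 3314724946) (nat_lit 35) (nat_lit 5) (nat_lit 37) (nat_lit 5) (nat_lit 38) (nat_lit 5) (nat_lit 332) (nat_lit 317) (nat_lit 251)))) (XT.nd (nat_lit 156) (nat_lit 152) (nat_lit 0) (XT.nd (nat_lit 78) (nat_lit 228) (nat_lit 0) (XT.lf (nat_lit 0) (nat_lit 1094795349) (nat_lit 228) (nat_lit 3551036250)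 (nat_lit 76) (nat_lit 25565330608) (nat_lit 34) (nat_lit 5) (nat_lit 37) (nat_lit 5) (nat_lit 35) (nat_lit 5) (nat_lit 333) (nat_lit 317) (nat_lit 250)) (XT.lf (nat_lit 0) (nat_lit 6156048070) (nat_lit 304) (nat_lit 18720795694) (nat_lit 76) (nat_lit 6805489853) (nat_lit 31) (nat_lit 5) (nat_lit 35) (nat_lit 5) (nat_lit 32) (nat_lit 5) (nat_lit 334) (nat_lit 317) (nat_lit 249))) (XT.nd (nat_lit 78) (nat_lit 152) (nat_lit 0) (XT.lf (nat_lit 0) (nat_lit 11832419533) (nat_lit 304) (nat_lit 2403597149) (nat_lit 76) (nat_lit 19018378907) (nat_lit 31) (nat_lit 5) (nat_lit 35) (nat_lit 5) (nat_lit 32) (nat_lit 5) (nat_lit 335) (nat_lit 317) (nat_lit 248)) (XT.lf (nat_lit 0) (nat_lit 16006695596) (nat_lit 152) (nat_lit 2331846242) (nat_lit 228) (nat_lit 16583642659) (nat_lit 29) (nat_lit 5) (nat_lit 31) (nat_lit 5) (nat_lit 32) (nat_lit 5) (nat_lit 336) (nat_lit 317) (nat_lit 247)))))) (XT.nd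 (nat_lit 624) (nat_lit 456) (nat_lit 0) (XT.nd (nat_lit 312) (nat_lit 304) (nat_lit 0) (XT.nd (nat_lit 156) (nat_lit 228) (nat_lit 0) (XT.nd (nat_lit 78) (nat_lit 152) (nat_lit 0) (XT.lf (nat_lit 0) (nat_lit 25676673231) (nat_lit 228) (nat_lit 959767263) (nat_lit 76) (nat_lit 10062046766) (nat_lit 29) (nat_lit 5) (nat_lit 32) (nat_lit 5) (nat_lit 30) (nat_lit 5) (nat_lit 337) (nat_lit 317) (nat_lit 246)) (XT.lf (nat_lit 0) (nat_lit 19326300957) (nat_lit 152) (nat_lit 14792563547) (nat_lit 228) (nat_lit 4456680368) (nat_lit 27) (nat_lit 5) (nat_lit 29) (nat_lit 5) (nat_lit 30) (nat_lit 5) (nat_lit 338) (nat_lit 317) (nat_lit 245))) (XT.nd (nat_lit 78) (nat_lit 0) (nat_lit 0) (XT.lf (nat_lit 0) (nat_lit 644956274) (nat_lit 152) (nat_lit 1891151275) (nat_lit 228) (nat_lit 38058866913) (nat_lit 24) (nat_lit 5) (nat_lit 26) (nat_lit 5) (nat_lit 27) (nat_lit 5) (nat_lit 339) (nat_lit 317) (nat_lit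 244)) (XT.lf (nat_lit 0) (nat_lit 10669113098) (nat_lit 228) (nat_lit 19940169238) (nat_lit 76) (nat_lit 12091698792) (nat_lit 24) (nat_lit 5) (nat_lit 27) (nat_lit 5) (nat_lit 25) (nat_lit 5) (nat_lit 340) (nat_lit 317) (nat_lit 243)))) (XT.nd (nat_lit 156) (nat_lit 152) (nat_lit 0) (XT.nd (nat_lit 78) (nat_lit 0) (nat_lit 0) (XT.lf (nat_lit 0) (nat_lit 1694363259) (nat_lit 152) (nat_lit 17840833639) (nat_lit 228) (nat_lit 25433684767) (nat_lit 22) (nat_lit 5) (nat_lit 24) (nat_lit 5) (nat_lit 25) (nat_lit 5) (nat_lit 341) (nat_lit 317) (nat_lit 242)) (XT.lf (nat_lit 0) (nat_lit 26182228260) (nat_lit 152) (nat_lit 3466381522) (nat_lit 228) (nat_lit 17726568815) (nat_lit 22) (nat_lit 5) (nat_lit 24) (nat_lit 5) (nat_lit 25) (nat_lit 5) (nat_lit 342) (nat_lit 317) (nat_lit 241))) (XT.nd (nat_lit 78) (nat_lit 76) (nat_lit 0) (XT.lf (nat_lit 0) (nat_lit 2478071261) (nat_lit 76) (nat_lit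 38435895433) (nat_lit 152) (nat_lit 9032590079) (nat_lit 21) (nat_lit 5) (nat_lit 22) (nat_lit 5) (nat_lit 23) (nat_lit 4) (nat_lit 343) (nat_lit 317) (nat_lit 240)) (XT.lf (nat_lit 0) (nat_lit 1016934427) (nat_lit 152) (nat_lit 23554039265) (nat_lit 76) (nat_lit 28097760455) (nat_lit 20) (nat_lit 5) (nat_lit 22) (nat_lit 5) (nat_lit 21) (nat_lit 5) (nat_lit 344) (nat_lit 317) (nat_lit 239))))) (XT.nd (nat_lit 312) (nat_lit 228) (nat_lit 0) (XT.nd (nat_lit 156) (nat_lit 76) (nat_lit 0) (XT.nd (nat_lit 78) (nat_lit 0) (nat_lit 0) (XT.lf (nat_lit 0) (nat_lit 2135482361) (nat_lit 152) (nat_lit 9292137622) (nat_lit 228) (nat_lit 44158686915) (nat_lit 18) (nat_lit 5) (nat_lit 20) (nat_lit 5) (nat_lit 21) (nat_lit 5) (nat_lit 345) (nat_lit 317) (nat_lit 238)) (XT.lf (nat_lit 0) (nat_lit 23499226163) (nat_lit 228) (nat_lit 27666579710) (nat_lit 76) (nat_lit 7505239604) (nat_lit 18) (nat_lit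 5) (nat_lit 21) (nat_lit 5) (nat_lit 19) (nat_lit 4) (nat_lit 346) (nat_lit 317) (nat_lit 237))) (XT.nd (nat_lit 78) (nat_lit 76) (nat_lit 0) (XT.lf (nat_lit 0) (nat_lit 36772315375) (nat_lit 228) (nat_lit 70593515) (nat_lit 76) (nat_lit 25140798768) (nat_lit 18) (nat_lit 5) (nat_lit 21) (nat_lit 5) (nat_lit 19) (nat_lit 4) (nat_lit 347) (nat_lit 317) (nat_lit 236)) (XT.lf (nat_lit 0) (nat_lit 31289362591) (nat_lit 76) (nat_lit 20565214163) (nat_lit 152) (nat_lit 13647024574) (nat_lit 17) (nat_lit 5) (nat_lit 18) (nat_lit 5) (nat_lit 19) (nat_lit 4) (nat_lit 348) (nat_lit 317) (nat_lit 235)))) (XT.nd (nat_lit 156) (nat_lit 76) (nat_lit 0) (XT.nd (nat_lit 78) (nat_lit 152) (nat_lit 0) (XT.lf (nat_lit 0) (nat_lit 65153426345) (nat_lit 76) (nat_lit 2986912702) (nat_lit 152) (nat_lit 1160838028) (nat_lit 17) (nat_lit 5) (nat_lit 18) (nat_lit 5) (nat_lit 19) (nat_lit 4) (nat_lit 349) (nat_lit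 317) (nat_lit 234)) (XT.lf (nat_lit 0) (nat_lit 12823047970) (nat_lit 152) (nat_lit 44242908472) (nat_lit 76) (nat_lit 16225829110) (nat_lit 15) (nat_lit 5) (nat_lit 17) (nat_lit 5) (nat_lit 16) (nat_lit 4) (nat_lit 350) (nat_lit 317) (nat_lit 233))) (XT.nd (nat_lit 78) (nat_lit 76) (nat_lit 0) (XT.lf (nat_lit 0) (nat_lit 28052174722) (nat_lit 152) (nat_lit 12574518619) (nat_lit 76) (nat_lit 36957400933) (nat_lit 15) (nat_lit 5) (nat_lit 17) (nat_lit 5) (nat_lit 16) (nat_lit 4) (nat_lit 351) (nat_lit 317) (nat_lit 232)) (XT.lf (nat_lit 0) (nat_lit 22758021943) (nat_lit 76) (nat_lit 22284598647) (nat_lit 152) (nat_lit 37133731062) (nat_lit 14) (nat_lit 5) (nat_lit 15) (nat_lit 5) (nat_lit 16) (nat_lit 4) (nat_lit 352) (nat_lit 317) (nat_lit 231)))))))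
noncomputable def xc149 : XT := (XT.nd (nat_lit 1248) (nat_lit 304) (nat_lit 0) (XT.nd (nat_lit 624) (nat_lit 304) (nat_lit 0) (XT.nd (nat_lit 312) (nat_lit 152) (nat_lit 0) (XT.nd (nat_lit 156) (nat_lit 76) (nat_lit 0) (XT.nd (nat_lit 78) (nat_lit 76) (nat_lit 0) (XT.lf (nat_lit 0) (nat_lit 61624717541) (nat_lit 76) (nat_lit 2107191728) (nat_lit 152) (nat_lit 23376914625) (nat_lit 14) (nat_lit 5) (nat_lit 15) (nat_lit 5) (nat_lit 16) (nat_lit 4) (nat_lit 353) (nat_lit 317) (nat_lit 230)) (XT.lf (nat_lit 0) (nat_lit 11246804911) (nat_lit 76) (nat_lit 73409466314) (nat_lit 76) (nat_lit 7720430912) (nat_lit 13) (nat_lit 4) (nat_lit 14) (nat_lit 5) (nat_lit 14) (nat_lit 4) (nat_lit 354) (nat_lit 317) (nat_lit 229))) (XT.nd (nat_lit 78) (nat_lit 0) (nat_lit 0) (XT.lf (nat_lit 0) (nat_lit 9494588512) (nat_lit 152) (nat_lit 45945867853) (nat_lit 76) (nat_lit 42546624380) (nat_lit 12) (nat_lit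 5) (nat_lit 14) (nat_lit 5) (nat_lit 13) (nat_lit 4) (nat_lit 355) (nat_lit 317) (nat_lit 228)) (XT.lf (nat_lit 0) (nat_lit 27666053371) (nat_lit 152) (nat_lit 8154384424) (nat_lit 76) (nat_lit 68210103670) (nat_lit 12) (nat_lit 5) (nat_lit 14) (nat_lit 5) (nat_lit 13) (nat_lit 4) (nat_lit 356) (nat_lit 317) (nat_lit 227)))) (XT.nd (nat_lit 156) (nat_lit 76) (nat_lit 0) (XT.nd (nat_lit 78) (nat_lit 0) (nat_lit 0) (XT.lf (nat_lit 0) (nat_lit 34373690344) (nat_lit 76) (nat_lit 13740851376) (nat_lit 152) (nat_lit 62377074756) (nat_lit 11) (nat_lit 5) (nat_lit 12) (nat_lit 5) (nat_lit 13) (nat_lit 4) (nat_lit 357) (nat_lit 317) (nat_lit 226)) (XT.lf (nat_lit 0) (nat_lit 70667338522) (nat_lit 152) (nat_lit 36939079076) (nat_lit 0) (nat_lit 9825687333) (nat_lit 11) (nat_lit 5) (nat_lit 13) (nat_lit 4) (nat_lit 11) (nat_lit 4) (nat_lit 358) (nat_lit 317) (nat_lit 225))) (XT.nd (nat_lit 78) (nat_lit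 0) (nat_lit 0) (XT.lf (nat_lit 0) (nat_lit 5275247555) (nat_lit 76) (nat_lit 90229789419) (nat_lit 76) (nat_lit 29384342919) (nat_lit 10) (nat_lit 4) (nat_lit 11) (nat_lit 5) (nat_lit 11) (nat_lit 4) (nat_lit 359) (nat_lit 317) (nat_lit 224)) (XT.lf (nat_lit 0) (nat_lit 52961813413) (nat_lit 76) (nat_lit 70374913789) (nat_lit 76) (nat_lit 9525953113) (nat_lit 10) (nat_lit 4) (nat_lit 11) (nat_lit 5) (nat_lit 11) (nat_lit 4) (nat_lit 360) (nat_lit 317) (nat_lit 223))))) (XT.nd (nat_lit 312) (nat_lit 152) (nat_lit 0) (XT.nd (nat_lit 156) (nat_lit 0) (nat_lit 0) (XT.nd (nat_lit 78) (nat_lit 76) (nat_lit 0) (XT.lf (nat_lit 0) (nat_lit 11321910716) (nat_lit 152) (nat_lit 37302640252) (nat_lit 76) (nat_lit 92826587294) (nat_lit 9) (nat_lit 5) (nat_lit 11) (nat_lit 5) (nat_lit 10) (nat_lit 4) (nat_lit 361) (nat_lit 317) (nat_lit 222)) (XT.lf (nat_lit 0) (nat_lit 8896035601) (nat_lit 76) (nat_lit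 24638225448) (nat_lit 152) (nat_lit 117155714324) (nat_lit 8) (nat_lit 5) (nat_lit 9) (nat_lit 5) (nat_lit 10) (nat_lit 4) (nat_lit 362) (nat_lit 317) (nat_lit 221))) (XT.nd (nat_lit 78) (nat_lit 0) (nat_lit 0) (XT.lf (nat_lit 0) (nat_lit 58597862308) (nat_lit 152) (nat_lit 99736270723) (nat_lit 0) (nat_lit 2247846522) (nat_lit 8) (nat_lit 5) (nat_lit 10) (nat_lit 4) (nat_lit 8) (nat_lit 4) (nat_lit 363) (nat_lit 317) (nat_lit 220)) (XT.lf (nat_lit 0) (nat_lit 86304079319) (nat_lit 152) (nat_lit 54958591738) (nat_lit 0) (nat_lit 29951671844) (nat_lit 8) (nat_lit 5) (nat_lit 10) (nat_lit 4) (nat_lit 8) (nat_lit 4) (nat_lit 364) (nat_lit 317) (nat_lit 219)))) (XT.nd (nat_lit 156) (nat_lit 76) (nat_lit 0) (XT.nd (nat_lit 78) (nat_lit 76) (nat_lit 0) (XT.lf (nat_lit 0) (nat_lit 116224547158) (nat_lit 152) (nat_lit 6603003695) (nat_lit 0) (nat_lit 59869925156) (nat_lit 8) (nat_lit 5) (nat_lit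 10) (nat_lit 4) (nat_lit 8) (nat_lit 4) (nat_lit 365) (nat_lit 317) (nat_lit 218)) (XT.lf (nat_lit 0) (nat_lit 48019157790) (nat_lit 76) (nat_lit 101672276411) (nat_lit 76) (nat_lit 45315603920) (nat_lit 7) (nat_lit 4) (nat_lit 8) (nat_lit 5) (nat_lit 8) (nat_lit 4) (nat_lit 366) (nat_lit 317) (nat_lit 217))) (XT.nd (nat_lit 78) (nat_lit 76) (nat_lit 0) (XT.lf (nat_lit 0) (nat_lit 107382725433) (nat_lit 76) (nat_lit 78631465112) (nat_lit 76) (nat_lit 22272894021) (nat_lit 7) (nat_lit 4) (nat_lit 8) (nat_lit 5) (nat_lit 8) (nat_lit 4) (nat_lit 367) (nat_lit 317) (nat_lit 216)) (XT.lf (nat_lit 0) (nat_lit 2480588995) (nat_lit 152) (nat_lit 51200703944) (nat_lit 76) (nat_lit 168943368171) (nat_lit 6) (nat_lit 5) (nat_lit 8) (nat_lit 5) (nat_lit 7) (nat_lit 4) (nat_lit 368) (nat_lit 317) (nat_lit 215)))))) (XT.nd (nat_lit 624) (nat_lit 152) (nat_lit 0) (XT.nd (nat_lit 312) (nat_lit 76) (nat_lit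 0) (XT.nd (nat_lit 156) (nat_lit 0) (nat_lit 0) (XT.nd (nat_lit 78) (nat_lit 0) (nat_lit 0) (XT.lf (nat_lit 0) (nat_lit 1997210104) (nat_lit 76) (nat_lit 26060081675) (nat_lit 152) (nat_lit 210001970845) (nat_lit 5) (nat_lit 5) (nat_lit 6) (nat_lit 5) (nat_lit 7) (nat_lit 4) (nat_lit 369) (nat_lit 317) (nat_lit 214)) (XT.lf (nat_lit 0) (nat_lit 57205334257) (nat_lit 152) (nat_lit 192384340642) (nat_lit 0) (nat_lit 5016941694) (nat_lit 5) (nat_lit 5) (nat_lit 7) (nat_lit 4) (nat_lit 5) (nat_lit 4) (nat_lit 370) (nat_lit 317) (nat_lit 213))) (XT.nd (nat_lit 78) (nat_lit 0) (nat_lit 0) (XT.lf (nat_lit 0) (nat_lit 89360471589) (nat_lit 152) (nat_lit 145892480869) (nat_lit 0) (nat_lit 37170786871) (nat_lit 5) (nat_lit 5) (nat_lit 7) (nat_lit 4) (nat_lit 5) (nat_lit 4) (nat_lit 371) (nat_lit 317) (nat_lit 212)) (XT.lf (nat_lit 0) (nat_lit 124086507146) (nat_lit 152) (nat_lit 95684220294) (nat_lit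 0) (nat_lit 71895625988) (nat_lit 5) (nat_lit 5) (nat_lit 7) (nat_lit 4) (nat_lit 5) (nat_lit 4) (nat_lit 372) (nat_lit 317) (nat_lit 211)))) (XT.nd (nat_lit 156) (nat_lit 0) (nat_lit 0) (XT.nd (nat_lit 78) (nat_lit 76) (nat_lit 0) (XT.lf (nat_lit 0) (nat_lit 161589224843) (nat_lit 152) (nat_lit 41462028483) (nat_lit 0) (nat_lit 109397235870) (nat_lit 5) (nat_lit 5) (nat_lit 7) (nat_lit 4) (nat_lit 5) (nat_lit 4) (nat_lit 373) (nat_lit 317) (nat_lit 210)) (XT.lf (nat_lit 0) (nat_lit 17995625315) (nat_lit 76) (nat_lit 184528032912) (nat_lit 76) (nat_lit 132335018185) (nat_lit 4) (nat_lit 4) (nat_lit 5) (nat_lit 5) (nat_lit 5) (nat_lit 4) (nat_lit 374) (nat_lit 317) (nat_lit 209))) (XT.nd (nat_lit 78) (nat_lit 0) (nat_lit 0) (XT.lf (nat_lit 0) (nat_lit 84565410285) (nat_lit 76) (nat_lit 163299821211) (nat_lit 76) (nat_lit 111105856710) (nat_lit 4) (nat_lit 4) (nat_lit 5) (nat_lit 5) (nat_lit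 5) (nat_lit 4) (nat_lit 375) (nat_lit 317) (nat_lit 208)) (XT.lf (nat_lit 0) (nat_lit 156458497097) (nat_lit 76) (nat_lit 140374466746) (nat_lit 76) (nat_lit 88179622827) (nat_lit 4) (nat_lit 4) (nat_lit 5) (nat_lit 5) (nat_lit 5) (nat_lit 4) (nat_lit 376) (nat_lit 317) (nat_lit 207))))) (XT.nd (nat_lit 312) (nat_lit 76) (nat_lit 0) (XT.nd (nat_lit 156) (nat_lit 76) (nat_lit 0) (XT.nd (nat_lit 78) (nat_lit 0) (nat_lit 0) (XT.lf (nat_lit 0) (nat_lit 234100918858) (nat_lit 76) (nat_lit 115616115567) (nat_lit 76) (nat_lit 63420457371) (nat_lit 4) (nat_lit 4) (nat_lit 5) (nat_lit 5) (nat_lit 5) (nat_lit 4) (nat_lit 377) (nat_lit 317) (nat_lit 206)) (XT.lf (nat_lit 0) (nat_lit 317952778808) (nat_lit 76) (nat_lit 88878051518) (nat_lit 76) (nat_lit 36681639362) (nat_lit 4) (nat_lit 4) (nat_lit 5) (nat_lit 5) (nat_lit 5) (nat_lit 4) (nat_lit 378) (nat_lit 317) (nat_lit 205))) (XT.nd (nat_lit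 78) (nat_lit 76) (nat_lit 0) (XT.lf (nat_lit 0) (nat_lit 408510976858) (nat_lit 76) (nat_lit 60001826813) (nat_lit 76) (nat_lit 7804716545) (nat_lit 4) (nat_lit 4) (nat_lit 5) (nat_lit 5) (nat_lit 5) (nat_lit 4) (nat_lit 379) (nat_lit 317) (nat_lit 204)) (XT.lf (nat_lit 0) (nat_lit 22211799582) (nat_lit 152) (nat_lit 5997213536) (nat_lit 76) (nat_lit 483493044636) (nat_lit 3) (nat_lit 5) (nat_lit 5) (nat_lit 5) (nat_lit 4) (nat_lit 4) (nat_lit 380) (nat_lit 317) (nat_lit 203)))) (XT.nd (nat_lit 156) (nat_lit 0) (nat_lit 0) (XT.nd (nat_lit 78) (nat_lit 0) (nat_lit 0) (XT.lf (nat_lit 0) (nat_lit 55932564658) (nat_lit 152) (nat_lit 486229855181) (nat_lit 0) (nat_lit 7600754301) (nat_lit 2) (nat_lit 5) (nat_lit 4) (nat_lit 4) (nat_lit 2) (nat_lit 4) (nat_lit 381) (nat_lit 317) (nat_lit 202)) (XT.lf (nat_lit 0) (nat_lit 93251115748) (nat_lit 152) (nat_lit 452627262069) (nat_lit 0) (nat_lit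 44918792259) (nat_lit 2) (nat_lit 5) (nat_lit 4) (nat_lit 4) (nat_lit 2) (nat_lit 4) (nat_lit 382) (nat_lit 317) (nat_lit 201))) (XT.nd (nat_lit 78) (nat_lit 0) (nat_lit 0) (XT.lf (nat_lit 0) (nat_lit 133554400598) (nat_lit 152) (nat_lit 416337943337) (nat_lit 0) (nat_lit 85221601986) (nat_lit 2) (nat_lit 5) (nat_lit 4) (nat_lit 4) (nat_lit 2) (nat_lit 4) (nat_lit 383) (nat_lit 317) (nat_lit 200)) (XT.nd (nat_lit 78) (nat_lit 0) (nat_lit 0) (XT.lf (nat_lit 0) (nat_lit 177081253489) (nat_lit 152) (nat_lit 377146851170) (nat_lit 0) (nat_lit 128748014948) (nat_lit 2) (nat_lit 5) (nat_lit 4) (nat_lit 4) (nat_lit 2) (nat_lit 4) (nat_lit 384) (nat_lit 317) (nat_lit 199)) (XT.lf (nat_lit 0) (nat_lit 224089611326) (nat_lit 152) (nat_lit 334821742058) (nat_lit 0) (nat_lit 175755965444) (nat_lit 2) (nat_lit 5) (nat_lit 4) (nat_lit 4) (nat_lit 2) (nat_lit 4) (nat_lit 385) (nat_lit 317) (nat_lit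 198))))))))
noncomputable def xc150 : XT := (XT.nd (nat_lit 1248) (nat_lit 0) (nat_lit 0) (XT.nd (nat_lit 624) (nat_lit 0) (nat_lit 0) (XT.nd (nat_lit 312) (nat_lit 76) (nat_lit 0) (XT.nd (nat_lit 156) (nat_lit 0) (nat_lit 0) (XT.nd (nat_lit 78) (nat_lit 0) (nat_lit 0) (XT.lf (nat_lit 0) (nat_lit 274858042156) (nat_lit 152) (nat_lit 289111800541) (nat_lit 0) (nat_lit 226524019106) (nat_lit 2) (nat_lit 5) (nat_lit 4) (nat_lit 4) (nat_lit 2) (nat_lit 4) (nat_lit 386) (nat_lit 317) (nat_lit 197)) (XT.lf (nat_lit 0) (nat_lit 329687395939) (nat_lit 152) (nat_lit 239746152891) (nat_lit 0) (nat_lit 281353023660) (nat_lit 2) (nat_lit 5) (nat_lit 4) (nat_lit 4) (nat_lit 2) (nat_lit 4) (nat_lit 387) (nat_lit 317) (nat_lit 196))) (XT.nd (nat_lit 78) (nat_lit 0) (nat_lit 0) (XT.lf (nat_lit 0) (nat_lit 388902587365) (nat_lit 152) (nat_lit 186432261936) (nat_lit 0) (nat_lit 340567891725) (nat_lit 2)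 (nat_lit 5) (nat_lit 4) (nat_lit 4) (nat_lit 2) (nat_lit 4) (nat_lit 388) (nat_lit 317) (nat_lit 195)) (XT.lf (nat_lit 0) (nat_lit 452854521271) (nat_lit 152) (nat_lit 128854193509) (nat_lit 0) (nat_lit 404519526223) (nat_lit 2) (nat_lit 5) (nat_lit 4) (nat_lit 4) (nat_lit 2) (nat_lit 4) (nat_lit 389) (nat_lit 317) (nat_lit 194)))) (XT.nd (nat_lit 156) (nat_lit 0) (nat_lit 0) (XT.nd (nat_lit 78) (nat_lit 76) (nat_lit 0) (XT.lf (nat_lit 0) (nat_lit 521922172081) (nat_lit 152) (nat_lit 66670744240) (nat_lit 0) (nat_lit 473586899803) (nat_lit 2) (nat_lit 5) (nat_lit 4) (nat_lit 4) (nat_lit 2) (nat_lit 4) (nat_lit 390) (nat_lit 317) (nat_lit 193)) (XT.lf (nat_lit 0) (nat_lit 512202845) (nat_lit 76) (nat_lit 596014945223) (nat_lit 76) (nat_lit 547679416251) (nat_lit 1) (nat_lit 4) (nat_lit 2) (nat_lit 5) (nat_lit 2) (nat_lit 4) (nat_lit 391) (nat_lit 317) (nat_lit 192))) (XT.nd (nat_lit 78)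 (nat_lit 0) (nat_lit 0) (XT.lf (nat_lit 0) (nat_lit 76860629679) (nat_lit 76) (nat_lit 602062394635) (nat_lit 76) (nat_lit 553726627983) (nat_lit 1) (nat_lit 4) (nat_lit 2) (nat_lit 5) (nat_lit 2) (nat_lit 4) (nat_lit 392) (nat_lit 317) (nat_lit 191)) (XT.lf (nat_lit 0) (nat_lit 159316208144) (nat_lit 76) (nat_lit 608593997593) (nat_lit 76) (nat_lit 560258010868) (nat_lit 1) (nat_lit 4) (nat_lit 2) (nat_lit 5) (nat_lit 2) (nat_lit 4) (nat_lit 393) (nat_lit 317) (nat_lit 190))))) (XT.nd (nat_lit 312) (nat_lit 0) (nat_lit 0) (XT.nd (nat_lit 156) (nat_lit 0) (nat_lit 0) (XT.nd (nat_lit 78) (nat_lit 0) (nat_lit 0) (XT.lf (nat_lit 0) (nat_lit 248367563889) (nat_lit 76) (nat_lit 615648459893) (nat_lit 76) (nat_lit 567312269396) (nat_lit 1) (nat_lit 4) (nat_lit 2) (nat_lit 5) (nat_lit 2) (nat_lit 4) (nat_lit 394) (nat_lit 317) (nat_lit 189)) (XT.lf (nat_lit 0) (nat_lit 344542408653) (nat_lit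 76) (nat_lit 623267585755) (nat_lit 76) (nat_lit 574931206580) (nat_lit 1) (nat_lit 4) (nat_lit 2) (nat_lit 5) (nat_lit 2) (nat_lit 4) (nat_lit 395) (nat_lit 317) (nat_lit 188))) (XT.nd (nat_lit 78) (nat_lit 0) (nat_lit 0) (XT.lf (nat_lit 0) (nat_lit 448410667440) (nat_lit 76) (nat_lit 631496525555) (nat_lit 76) (nat_lit 583159971679) (nat_lit 1) (nat_lit 4) (nat_lit 2) (nat_lit 5) (nat_lit 2) (nat_lit 4) (nat_lit 396) (nat_lit 317) (nat_lit 187)) (XT.lf (nat_lit 0) (nat_lit 560587855860) (nat_lit 76) (nat_lit 640384043381) (nat_lit 76) (nat_lit 592047327744) (nat_lit 1) (nat_lit 4) (nat_lit 2) (nat_lit 5) (nat_lit 2) (nat_lit 4) (nat_lit 397) (nat_lit 317) (nat_lit 186)))) (XT.nd (nat_lit 156) (nat_lit 0) (nat_lit 0) (XT.nd (nat_lit 78) (nat_lit 0) (nat_lit 0) (XT.lf (nat_lit 0) (nat_lit 681738727620) (nat_lit 76) (nat_lit 649982806006) (nat_lit 76) (nat_lit 601645940590) (nat_lit 1)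 (nat_lit 4) (nat_lit 2) (nat_lit 5) (nat_lit 2) (nat_lit 4) (nat_lit 398) (nat_lit 317) (nat_lit 185)) (XT.lf (nat_lit 0) (nat_lit 812581213813) (nat_lit 76) (nat_lit 660349694984) (nat_lit 76) (nat_lit 612012690884) (nat_lit 1) (nat_lit 4) (nat_lit 2) (nat_lit 5) (nat_lit 2) (nat_lit 4) (nat_lit 399) (nat_lit 317) (nat_lit 184))) (XT.nd (nat_lit 78) (nat_lit 0) (nat_lit 0) (XT.lf (nat_lit 0) (nat_lit 953890677320) (nat_lit 76) (nat_lit 671546143733) (nat_lit 76) (nat_lit 623209011222) (nat_lit 1) (nat_lit 4) (nat_lit 2) (nat_lit 5) (nat_lit 2) (nat_lit 4) (nat_lit 400) (nat_lit 317) (nat_lit 183)) (XT.lf (nat_lit 0) (nat_lit 1106504507554) (nat_lit 76) (nat_lit 683638501578) (nat_lit 76) (nat_lit 635301250169) (nat_lit 1) (nat_lit 4) (nat_lit 2) (nat_lit 5) (nat_lit 2) (nat_lit 4) (nat_lit 401) (nat_lit 317) (nat_lit 182)))))) (XT.nd (nat_lit 40404) (nat_lit 0) (nat_lit 3192) (XT.nd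 (nat_lit 312) (nat_lit 0) (nat_lit 0) (XT.nd (nat_lit 156) (nat_lit 0) (nat_lit 0) (XT.nd (nat_lit 78) (nat_lit 0) (nat_lit 0) (XT.lf (nat_lit 0) (nat_lit 1271327082769) (nat_lit 76) (nat_lit 696698426937) (nat_lit 76) (nat_lit 648361065436) (nat_lit 1) (nat_lit 4) (nat_lit 2) (nat_lit 5) (nat_lit 2) (nat_lit 4) (nat_lit 402) (nat_lit 317) (nat_lit 181)) (XT.lf (nat_lit 0) (nat_lit 1449335129336) (nat_lit 76) (nat_lit 710803311959) (nat_lit 76) (nat_lit 662465848521) (nat_lit 1) (nat_lit 4) (nat_lit 2) (nat_lit 5) (nat_lit 2) (nat_lit 4) (nat_lit 403) (nat_lit 317) (nat_lit 180))) (XT.nd (nat_lit 78) (nat_lit 0) (nat_lit 0) (XT.lf (nat_lit 0) (nat_lit 1641583509754) (nat_lit 76) (nat_lit 726036741149) (nat_lit 76) (nat_lit 677699183325) (nat_lit 1) (nat_lit 4) (nat_lit 2) (nat_lit 5) (nat_lit 2) (nat_lit 4) (nat_lit 404) (nat_lit 317) (nat_lit 179)) (XT.lf (nat_lit 0) (nat_lit 1849211473683)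 (nat_lit 76) (nat_lit 742488986678) (nat_lit 76) (nat_lit 694151341460) (nat_lit 1) (nat_lit 4) (nat_lit 2) (nat_lit 5) (nat_lit 2) (nat_lit 4) (nat_lit 405) (nat_lit 317) (nat_lit 178)))) (XT.nd (nat_lit 156) (nat_lit 0) (nat_lit 0) (XT.nd (nat_lit 78) (nat_lit 0) (nat_lit 0) (XT.lf (nat_lit 0) (nat_lit 2073449409060) (nat_lit 76) (nat_lit 760257543337) (nat_lit 76) (nat_lit 711919817198) (nat_lit 1) (nat_lit 4) (nat_lit 2) (nat_lit 5) (nat_lit 2) (nat_lit 4) (nat_lit 406) (nat_lit 317) (nat_lit 177)) (XT.lf (nat_lit 0) (nat_lit 2315626133277) (nat_lit 76) (nat_lit 779447706275) (nat_lit 76) (nat_lit 731109905209) (nat_lit 1) (nat_lit 4) (nat_lit 2) (nat_lit 5) (nat_lit 2) (nat_lit 4) (nat_lit 407) (nat_lit 317) (nat_lit 176))) (XT.nd (nat_lit 39858) (nat_lit 0) (nat_lit 3800) (XT.lf (nat_lit 0) (nat_lit 2577176767665) (nat_lit 76) (nat_lit 800173194976) (nat_lit 76) (nat_lit 751835324534)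 (nat_lit 1) (nat_lit 4) (nat_lit 2) (nat_lit 5) (nat_lit 2) (nat_lit 4) (nat_lit 408) (nat_lit 317) (nat_lit 175)) (XT.lf (nat_lit 0) (nat_lit 4957767315) (nat_lit 532) (nat_lit 1635517635) (nat_lit 532) (nat_lit 1635517635) (nat_lit 51) (nat_lit 3) (nat_lit 58) (nat_lit 3) (nat_lit 58) (nat_lit 5) (nat_lit 318) (nat_lit 318) (nat_lit 264))))) (XT.nd (nat_lit 312) (nat_lit 608) (nat_lit 0) (XT.nd (nat_lit 156) (nat_lit 0) (nat_lit 76) (XT.nd (nat_lit 78) (nat_lit 0) (nat_lit 76) (XT.lf (nat_lit 76) (nat_lit 4681910286) (nat_lit 0) (nat_lit 5970312382) (nat_lit 532) (nat_lit 6435990652) (nat_lit 52) (nat_lit 5) (nat_lit 51) (nat_lit 3) (nat_lit 58) (nat_lit 5) (nat_lit 319) (nat_lit 318) (nat_lit 263)) (XT.lf (nat_lit 0) (nat_lit 11560627507) (nat_lit 456) (nat_lit 4366268989) (nat_lit 532) (nat_lit 1833400179) (nat_lit 52) (nat_lit 5) (nat_lit 58) (nat_lit 5) (nat_lit 59) (nat_lit 5)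 (nat_lit 320) (nat_lit 318) (nat_lit 262))) (XT.nd (nat_lit 78) (nat_lit 0) (nat_lit 0) (XT.lf (nat_lit 76) (nat_lit 4366335213) (nat_lit 0) (nat_lit 8414317609) (nat_lit 532) (nat_lit 5686423487) (nat_lit 53) (nat_lit 5) (nat_lit 52) (nat_lit 5) (nat_lit 59) (nat_lit 5) (nat_lit 321) (nat_lit 318) (nat_lit 261)) (XT.lf (nat_lit 76) (nat_lit 14032234007) (nat_lit 0) (nat_lit 165530113) (nat_lit 532) (nat_lit 5024717572) (nat_lit 53) (nat_lit 5) (nat_lit 52) (nat_lit 5) (nat_lit 59) (nat_lit 5) (nat_lit 322) (nat_lit 318) (nat_lit 260)))) (XT.nd (nat_lit 156) (nat_lit 760) (nat_lit 0) (XT.nd (nat_lit 78) (nat_lit 0) (nat_lit 0) (XT.lf (nat_lit 76) (nat_lit 4430155925) (nat_lit 0) (nat_lit 11596622919) (nat_lit 532) (nat_lit 3987696873) (nat_lit 54) (nat_lit 5) (nat_lit 53) (nat_lit 5) (nat_lit 60) (nat_lit 5) (nat_lit 323) (nat_lit 318) (nat_lit 259)) (XT.lf (nat_lit 76) (nat_lit 15096930801)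 (nat_lit 0) (nat_lit 3034020957) (nat_lit 532) (nat_lit 2728606631) (nat_lit 54) (nat_lit 5) (nat_lit 53) (nat_lit 5) (nat_lit 60) (nat_lit 5) (nat_lit 324) (nat_lit 318) (nat_lit 258))) (XT.nd (nat_lit 78) (nat_lit 380) (nat_lit 0) (XT.lf (nat_lit 0) (nat_lit 4927595535) (nat_lit 456) (nat_lit 15727898080) (nat_lit 532) (nat_lit 1096624667) (nat_lit 48) (nat_lit 5) (nat_lit 54) (nat_lit 5) (nat_lit 55) (nat_lit 5) (nat_lit 325) (nat_lit 318) (nat_lit 257)) (XT.nd (nat_lit 78) (nat_lit 304) (nat_lit 0) (XT.lf (nat_lit 0) (nat_lit 857575495) (nat_lit 532) (nat_lit 6016378185) (nat_lit 76) (nat_lit 15822878993) (nat_lit 47) (nat_lit 5) (nat_lit 54) (nat_lit 5) (nat_lit 48) (nat_lit 5) (nat_lit 326) (nat_lit 318) (nat_lit 256)) (XT.lf (nat_lit 0) (nat_lit 3105760950) (nat_lit 380) (nat_lit 17863834627) (nat_lit 76) (nat_lit 2729524825) (nat_lit 43) (nat_lit 5) (nat_lit 48) (nat_lit 5) (nat_lit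 44) (nat_lit 5) (nat_lit 327) (nat_lit 318) (nat_lit 255))))))))
noncomputable def xc151 : XT := (XT.nd (nat_lit 1248) (nat_lit 912) (nat_lit 0) (XT.nd (nat_lit 624) (nat_lit 684) (nat_lit 0) (XT.nd (nat_lit 312) (nat_lit 456) (nat_lit 0) (XT.nd (nat_lit 156) (nat_lit 228) (nat_lit 0) (XT.nd (nat_lit 78) (nat_lit 228) (nat_lit 0) (XT.lf (nat_lit 0) (nat_lit 5867525619) (nat_lit 380) (nat_lit 5988438462) (nat_lit 76) (nat_lit 12898953678) (nat_lit 43) (nat_lit 5) (nat_lit 48) (nat_lit 5) (nat_lit 44) (nat_lit 5) (nat_lit 328) (nat_lit 318) (nat_lit 254)) (XT.lf (nat_lit 0) (nat_lit 7182948590) (nat_lit 228) (nat_lit 1827448695) (nat_lit 304) (nat_lit 16871991094) (nat_lit 40) (nat_lit 5) (nat_lit 43) (nat_lit 5) (nat_lit 44) (nat_lit 5) (nat_lit 329) (nat_lit 318) (nat_lit 253))) (XT.nd (nat_lit 78) (nat_lit 228) (nat_lit 0) (XT.lf (nat_lit 0) (nat_lit 12777226062) (nat_lit 304) (nat_lit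 5573102636) (nat_lit 76) (nat_lit 8719946817) (nat_lit 40) (nat_lit 5) (nat_lit 44) (nat_lit 5) (nat_lit 41) (nat_lit 5) (nat_lit 330) (nat_lit 318) (nat_lit 252)) (XT.lf (nat_lit 0) (nat_lit 8992790750) (nat_lit 228) (nat_lit 8105250902) (nat_lit 304) (nat_lit 11234960226) (nat_lit 37) (nat_lit 5) (nat_lit 40) (nat_lit 5) (nat_lit 41) (nat_lit 5) (nat_lit 331) (nat_lit 318) (nat_lit 251)))) (XT.nd (nat_lit 156) (nat_lit 304) (nat_lit 0) (XT.nd (nat_lit 78) (nat_lit 152) (nat_lit 0) (XT.lf (nat_lit 0) (nat_lit 21981401061) (nat_lit 304) (nat_lit 4732214169) (nat_lit 76) (nat_lit 2965798887) (nat_lit 37) (nat_lit 5) (nat_lit 41) (nat_lit 5) (nat_lit 38) (nat_lit 5) (nat_lit 332) (nat_lit 318) (nat_lit 250)) (XT.lf (nat_lit 0) (nat_lit 11391301636) (nat_lit 152) (nat_lit 16338769983) (nat_lit 228) (nat_lit 3365513041) (nat_lit 35) (nat_lit 5) (nat_lit 37) (nat_lit 5) (nat_lit 38) (nat_lit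 5) (nat_lit 333) (nat_lit 318) (nat_lit 249))) (XT.nd (nat_lit 78) (nat_lit 228) (nat_lit 0) (XT.lf (nat_lit 0) (nat_lit 1370957912) (nat_lit 228) (nat_lit 3588468953) (nat_lit 76) (nat_lit 27653262416) (nat_lit 34) (nat_lit 5) (nat_lit 37) (nat_lit 5) (nat_lit 35) (nat_lit 5) (nat_lit 334) (nat_lit 318) (nat_lit 248)) (XT.lf (nat_lit 0) (nat_lit 6830367146) (nat_lit 304) (nat_lit 19964806571) (nat_lit 76) (nat_lit 7406940894) (nat_lit 31) (nat_lit 5) (nat_lit 35) (nat_lit 5) (nat_lit 32) (nat_lit 5) (nat_lit 335) (nat_lit 318) (nat_lit 247))))) (XT.nd (nat_lit 312) (nat_lit 380) (nat_lit 0) (XT.nd (nat_lit 156) (nat_lit 152) (nat_lit 0) (XT.nd (nat_lit 78) (nat_lit 152) (nat_lit 0) (XT.lf (nat_lit 0) (nat_lit 12947379049) (nat_lit 304) (nat_lit 2361021237) (nat_lit 76) (nat_lit 20592637972) (nat_lit 31) (nat_lit 5) (nat_lit 35) (nat_lit 5) (nat_lit 32) (nat_lit 5) (nat_lit 336) (nat_lit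 318) (nat_lit 246)) (XT.lf (nat_lit 0) (nat_lit 17516149012) (nat_lit 152) (nat_lit 2450876053) (nat_lit 228) (nat_lit 17735800256) (nat_lit 29) (nat_lit 5) (nat_lit 31) (nat_lit 5) (nat_lit 32) (nat_lit 5) (nat_lit 337) (nat_lit 318) (nat_lit 245))) (XT.nd (nat_lit 78) (nat_lit 152) (nat_lit 0) (XT.lf (nat_lit 0) (nat_lit 27881754947) (nat_lit 228) (nat_lit 813930221) (nat_lit 76) (nat_lit 10926399739) (nat_lit 29) (nat_lit 5) (nat_lit 32) (nat_lit 5) (nat_lit 30) (nat_lit 5) (nat_lit 338) (nat_lit 318) (nat_lit 244)) (XT.lf (nat_lit 0) (nat_lit 21089387547) (nat_lit 152) (nat_lit 15903971086) (nat_lit 228) (nat_lit 4656440747) (nat_lit 27) (nat_lit 5) (nat_lit 29) (nat_lit 5) (nat_lit 30) (nat_lit 5) (nat_lit 339) (nat_lit 318) (nat_lit 243)))) (XT.nd (nat_lit 156) (nat_lit 152) (nat_lit 0) (XT.nd (nat_lit 78) (nat_lit 0) (nat_lit 0) (XT.lf (nat_lit 0) (nat_lit 915857718) (nat_lit 152)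 (nat_lit 1966312333) (nat_lit 228) (nat_lit 40948785320) (nat_lit 24) (nat_lit 5) (nat_lit 26) (nat_lit 5) (nat_lit 27) (nat_lit 5) (nat_lit 340) (nat_lit 318) (nat_lit 242)) (XT.lf (nat_lit 0) (nat_lit 11656905897) (nat_lit 228) (nat_lit 21323261446) (nat_lit 76) (nat_lit 13126000123) (nat_lit 24) (nat_lit 5) (nat_lit 27) (nat_lit 5) (nat_lit 25) (nat_lit 5) (nat_lit 341) (nat_lit 318) (nat_lit 241))) (XT.nd (nat_lit 78) (nat_lit 0) (nat_lit 0) (XT.lf (nat_lit 0) (nat_lit 2036663491) (nat_lit 152) (nat_lit 19190639818) (nat_lit 228) (nat_lit 27328605774) (nat_lit 22) (nat_lit 5) (nat_lit 24) (nat_lit 5) (nat_lit 25) (nat_lit 5) (nat_lit 342) (nat_lit 318) (nat_lit 240)) (XT.lf (nat_lit 0) (nat_lit 28468242790) (nat_lit 152) (nat_lit 3671969348) (nat_lit 228) (nat_lit 19015274158) (nat_lit 22) (nat_lit 5) (nat_lit 24) (nat_lit 5) (nat_lit 25) (nat_lit 5) (nat_lit 343) (nat_lit 318) (nat_lit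 239)))))) (XT.nd (nat_lit 624) (nat_lit 380) (nat_lit 0) (XT.nd (nat_lit 312) (nat_lit 228) (nat_lit 0) (XT.nd (nat_lit 156) (nat_lit 152) (nat_lit 0) (XT.nd (nat_lit 78) (nat_lit 76) (nat_lit 0) (XT.lf (nat_lit 0) (nat_lit 2870686333) (nat_lit 76) (nat_lit 41433515346) (nat_lit 152) (nat_lit 9628590314) (nat_lit 21) (nat_lit 5) (nat_lit 22) (nat_lit 5) (nat_lit 23) (nat_lit 4) (nat_lit 344) (nat_lit 318) (nat_lit 238)) (XT.lf (nat_lit 0) (nat_lit 1209653605) (nat_lit 152) (nat_lit 25252423709) (nat_lit 76) (nat_lit 30411143607) (nat_lit 20) (nat_lit 5) (nat_lit 22) (nat_lit 5) (nat_lit 21) (nat_lit 5) (nat_lit 345) (nat_lit 318) (nat_lit 237))) (XT.nd (nat_lit 78) (nat_lit 0) (nat_lit 0) (XT.lf (nat_lit 0) (nat_lit 2487552338) (nat_lit 152) (nat_lit 9961751070) (nat_lit 228) (nat_lit 47575214947) (nat_lit 18) (nat_lit 5) (nat_lit 20) (nat_lit 5) (nat_lit 21) (nat_lit 5) (nat_lit 346)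 (nat_lit 318) (nat_lit 236)) (XT.lf (nat_lit 0) (nat_lit 25480319531) (nat_lit 228) (nat_lit 29705692558) (nat_lit 76) (nat_lit 8170536466) (nat_lit 18) (nat_lit 5) (nat_lit 21) (nat_lit 5) (nat_lit 19) (nat_lit 4) (nat_lit 347) (nat_lit 318) (nat_lit 235)))) (XT.nd (nat_lit 156) (nat_lit 152) (nat_lit 0) (XT.nd (nat_lit 78) (nat_lit 0) (nat_lit 0) (XT.lf (nat_lit 0) (nat_lit 89547347) (nat_lit 76) (nat_lit 39720369165) (nat_lit 152) (nat_lit 27124740876) (nat_lit 17) (nat_lit 5) (nat_lit 18) (nat_lit 5) (nat_lit 19) (nat_lit 4) (nat_lit 348) (nat_lit 318) (nat_lit 234)) (XT.lf (nat_lit 0) (nat_lit 33949736654) (nat_lit 76) (nat_lit 22143711851) (nat_lit 152) (nat_lit 14640964917) (nat_lit 17) (nat_lit 5) (nat_lit 18) (nat_lit 5) (nat_lit 19) (nat_lit 4) (nat_lit 349) (nat_lit 318) (nat_lit 233))) (XT.nd (nat_lit 78) (nat_lit 152) (nat_lit 0) (XT.lf (nat_lit 0) (nat_lit 70511279208) (nat_lit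 76) (nat_lit 3164088455) (nat_lit 152) (nat_lit 1163129493) (nat_lit 17) (nat_lit 5) (nat_lit 18) (nat_lit 5) (nat_lit 19) (nat_lit 4) (nat_lit 350) (nat_lit 318) (nat_lit 232)) (XT.lf (nat_lit 0) (nat_lit 13933602531) (nat_lit 152) (nat_lit 47630772772) (nat_lit 76) (nat_lit 17583916250) (nat_lit 15) (nat_lit 5) (nat_lit 17) (nat_lit 5) (nat_lit 16) (nat_lit 4) (nat_lit 351) (nat_lit 318) (nat_lit 231))))) (XT.nd (nat_lit 312) (nat_lit 228) (nat_lit 0) (XT.nd (nat_lit 156) (nat_lit 76) (nat_lit 0) (XT.nd (nat_lit 78) (nat_lit 76) (nat_lit 0) (XT.lf (nat_lit 0) (nat_lit 30374784555) (nat_lit 152) (nat_lit 13440139018) (nat_lit 76) (nat_lit 39969567833) (nat_lit 15) (nat_lit 5) (nat_lit 17) (nat_lit 5) (nat_lit 16) (nat_lit 4) (nat_lit 352) (nat_lit 318) (nat_lit 230)) (XT.lf (nat_lit 0) (nat_lit 24715451850) (nat_lit 76) (nat_lit 24006493937) (nat_lit 152) (nat_lit 40022389325) (nat_lit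 14) (nat_lit 5) (nat_lit 15) (nat_lit 5) (nat_lit 16) (nat_lit 4) (nat_lit 353) (nat_lit 318) (nat_lit 229))) (XT.nd (nat_lit 78) (nat_lit 76) (nat_lit 0) (XT.lf (nat_lit 0) (nat_lit 66681350640) (nat_lit 76) (nat_lit 2219403546) (nat_lit 152) (nat_lit 25171104627) (nat_lit 14) (nat_lit 5) (nat_lit 15) (nat_lit 5) (nat_lit 16) (nat_lit 4) (nat_lit 354) (nat_lit 318) (nat_lit 228)) (XT.lf (nat_lit 0) (nat_lit 12274204722) (nat_lit 76) (nat_lit 79223978798) (nat_lit 76) (nat_lit 8263057849) (nat_lit 13) (nat_lit 4) (nat_lit 14) (nat_lit 5) (nat_lit 14) (nat_lit 4) (nat_lit 355) (nat_lit 318) (nat_lit 227)))) (XT.nd (nat_lit 156) (nat_lit 152) (nat_lit 0) (XT.nd (nat_lit 78) (nat_lit 0) (nat_lit 0) (XT.lf (nat_lit 0) (nat_lit 10320132774) (nat_lit 152) (nat_lit 49499825777) (nat_lit 76) (nat_lit 46000772679) (nat_lit 12) (nat_lit 5) (nat_lit 14) (nat_lit 5) (nat_lit 13) (nat_lit 4) (nat_lit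 356) (nat_lit 318) (nat_lit 226)) (XT.lf (nat_lit 0) (nat_lit 29940427623) (nat_lit 152) (nat_lit 8694039341) (nat_lit 76) (nat_lit 73713595619) (nat_lit 12) (nat_lit 5) (nat_lit 14) (nat_lit 5) (nat_lit 13) (nat_lit 4) (nat_lit 357) (nat_lit 318) (nat_lit 225))) (XT.nd (nat_lit 78) (nat_lit 76) (nat_lit 0) (XT.lf (nat_lit 0) (nat_lit 37233428349) (nat_lit 76) (nat_lit 14789483228) (nat_lit 152) (nat_lit 67303265287) (nat_lit 11) (nat_lit 5) (nat_lit 12) (nat_lit 5) (nat_lit 13) (nat_lit 4) (nat_lit 358) (nat_lit 318) (nat_lit 224)) (XT.nd (nat_lit 78) (nat_lit 76) (nat_lit 0) (XT.lf (nat_lit 0) (nat_lit 76376674051) (nat_lit 152) (nat_lit 39789211046) (nat_lit 0) (nat_lit 10656282345) (nat_lit 11) (nat_lit 5) (nat_lit 13) (nat_lit 4) (nat_lit 11) (nat_lit 4) (nat_lit 359) (nat_lit 318) (nat_lit 223)) (XT.lf (nat_lit 0) (nat_lit 5799603630) (nat_lit 76) (nat_lit 97400101609) (nat_lit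 76) (nat_lit 31676456035) (nat_lit 10) (nat_lit 4) (nat_lit 11) (nat_lit 5) (nat_lit 11) (nat_lit 4) (nat_lit 360) (nat_lit 318) (nat_lit 222))))))))
noncomputable def xc152 : XT := (XT.nd (nat_lit 1248) (nat_lit 228) (nat_lit 0) (XT.nd (nat_lit 624) (nat_lit 228) (nat_lit 0) (XT.nd (nat_lit 312) (nat_lit 76) (nat_lit 0) (XT.nd (nat_lit 156) (nat_lit 76) (nat_lit 0) (XT.nd (nat_lit 78) (nat_lit 76) (nat_lit 0) (XT.lf (nat_lit 0) (nat_lit 57293514293) (nat_lit 76) (nat_lit 75960396741) (nat_lit 76) (nat_lit 10233738328) (nat_lit 10) (nat_lit 4) (nat_lit 11) (nat_lit 5) (nat_lit 11) (nat_lit 4) (nat_lit 361) (nat_lit 318) (nat_lit 221)) (XT.lf (nat_lit 0) (nat_lit 12275418367) (nat_lit 152) (nat_lit 40196577875) (nat_lit 76) (nat_lit 100291390641) (nat_lit 9) (nat_lit 5) (nat_lit 11) (nat_lit 5) (nat_lit 10) (nat_lit 4) (nat_lit 362) (nat_lit 318) (nat_lit 220))) (XT.nd (nat_lit 78) (nat_lit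 0) (nat_lit 0) (XT.lf (nat_lit 0) (nat_lit 9695706639) (nat_lit 76) (nat_lit 26567628814) (nat_lit 152) (nat_lit 126478110847) (nat_lit 8) (nat_lit 5) (nat_lit 9) (nat_lit 5) (nat_lit 10) (nat_lit 4) (nat_lit 363) (nat_lit 318) (nat_lit 219)) (XT.lf (nat_lit 0) (nat_lit 63329520288) (nat_lit 152) (nat_lit 107631178401) (nat_lit 0) (nat_lit 2464313998) (nat_lit 8) (nat_lit 5) (nat_lit 10) (nat_lit 4) (nat_lit 8) (nat_lit 4) (nat_lit 364) (nat_lit 318) (nat_lit 218)))) (XT.nd (nat_lit 156) (nat_lit 76) (nat_lit 0) (XT.nd (nat_lit 78) (nat_lit 0) (nat_lit 0) (XT.lf (nat_lit 0) (nat_lit 93248988068) (nat_lit 152) (nat_lit 59277506874) (nat_lit 0) (nat_lit 32381731290) (nat_lit 8) (nat_lit 5) (nat_lit 10) (nat_lit 4) (nat_lit 8) (nat_lit 4) (nat_lit 365) (nat_lit 318) (nat_lit 217)) (XT.lf (nat_lit 0) (nat_lit 125560087230) (nat_lit 152) (nat_lit 7059232691) (nat_lit 0) (nat_lit 64690931852)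 (nat_lit 8) (nat_lit 5) (nat_lit 10) (nat_lit 4) (nat_lit 8) (nat_lit 4) (nat_lit 366) (nat_lit 318) (nat_lit 216))) (XT.nd (nat_lit 78) (nat_lit 0) (nat_lit 0) (XT.lf (nat_lit 0) (nat_lit 51930878641) (nat_lit 76) (nat_lit 109772351194) (nat_lit 76) (nat_lit 48901437852) (nat_lit 7) (nat_lit 4) (nat_lit 8) (nat_lit 5) (nat_lit 8) (nat_lit 4) (nat_lit 367) (nat_lit 318) (nat_lit 215)) (XT.lf (nat_lit 0) (nat_lit 116038332568) (nat_lit 76) (nat_lit 84890771830) (nat_lit 76) (nat_lit 24018230745) (nat_lit 7) (nat_lit 4) (nat_lit 8) (nat_lit 5) (nat_lit 8) (nat_lit 4) (nat_lit 368) (nat_lit 318) (nat_lit 214))))) (XT.nd (nat_lit 312) (nat_lit 76) (nat_lit 0) (XT.nd (nat_lit 156) (nat_lit 0) (nat_lit 0) (XT.nd (nat_lit 78) (nat_lit 76) (nat_lit 0) (XT.lf (nat_lit 0) (nat_lit 2711137207) (nat_lit 152) (nat_lit 55234882863) (nat_lit 76) (nat_lit 182486033924) (nat_lit 6) (nat_lit 5) (nat_lit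 8) (nat_lit 5) (nat_lit 7) (nat_lit 4) (nat_lit 369) (nat_lit 318) (nat_lit 213)) (XT.lf (nat_lit 0) (nat_lit 2217297792) (nat_lit 76) (nat_lit 28115751041) (nat_lit 152) (nat_lit 226768449870) (nat_lit 5) (nat_lit 5) (nat_lit 6) (nat_lit 5) (nat_lit 7) (nat_lit 4) (nat_lit 370) (nat_lit 318) (nat_lit 212))) (XT.nd (nat_lit 78) (nat_lit 0) (nat_lit 0) (XT.lf (nat_lit 0) (nat_lit 61811274388) (nat_lit 152) (nat_lit 207717573948) (nat_lit 0) (nat_lit 5443926297) (nat_lit 5) (nat_lit 5) (nat_lit 7) (nat_lit 4) (nat_lit 5) (nat_lit 4) (nat_lit 371) (nat_lit 318) (nat_lit 211)) (XT.lf (nat_lit 0) (nat_lit 96536636529) (nat_lit 152) (nat_lit 157510625686) (nat_lit 0) (nat_lit 40168180624) (nat_lit 5) (nat_lit 5) (nat_lit 7) (nat_lit 4) (nat_lit 5) (nat_lit 4) (nat_lit 372) (nat_lit 318) (nat_lit 210)))) (XT.nd (nat_lit 156) (nat_lit 76) (nat_lit 0) (XT.nd (nat_lit 78) (nat_lit 0) (nat_lit 0)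 (XT.lf (nat_lit 0) (nat_lit 134038730693) (nat_lit 152) (nat_lit 103289648979) (nat_lit 0) (nat_lit 77669249033) (nat_lit 5) (nat_lit 5) (nat_lit 7) (nat_lit 4) (nat_lit 5) (nat_lit 4) (nat_lit 373) (nat_lit 318) (nat_lit 209)) (XT.lf (nat_lit 0) (nat_lit 174539791511) (nat_lit 152) (nat_lit 44733334338) (nat_lit 0) (nat_lit 118169360078) (nat_lit 5) (nat_lit 5) (nat_lit 7) (nat_lit 4) (nat_lit 5) (nat_lit 4) (nat_lit 374) (nat_lit 318) (nat_lit 208))) (XT.nd (nat_lit 78) (nat_lit 0) (nat_lit 0) (XT.lf (nat_lit 0) (nat_lit 19479775906) (nat_lit 76) (nat_lit 199268538443) (nat_lit 76) (nat_lit 142897227591) (nat_lit 4) (nat_lit 4) (nat_lit 5) (nat_lit 5) (nat_lit 5) (nat_lit 4) (nat_lit 375) (nat_lit 318) (nat_lit 207)) (XT.lf (nat_lit 0) (nat_lit 91371847335) (nat_lit 76) (nat_lit 176343679961) (nat_lit 76) (nat_lit 119971554832) (nat_lit 4) (nat_lit 4) (nat_lit 5) (nat_lit 5) (nat_lit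 5) (nat_lit 4) (nat_lit 376) (nat_lit 318) (nat_lit 206)))))) (XT.nd (nat_lit 624) (nat_lit 76) (nat_lit 0) (XT.nd (nat_lit 312) (nat_lit 152) (nat_lit 0) (XT.nd (nat_lit 156) (nat_lit 0) (nat_lit 0) (XT.nd (nat_lit 78) (nat_lit 0) (nat_lit 0) (XT.lf (nat_lit 0) (nat_lit 169013328927) (nat_lit 76) (nat_lit 151585788024) (nat_lit 76) (nat_lit 95212908935) (nat_lit 4) (nat_lit 4) (nat_lit 5) (nat_lit 5) (nat_lit 5) (nat_lit 4) (nat_lit 377) (nat_lit 318) (nat_lit 205)) (XT.lf (nat_lit 0) (nat_lit 252864318350) (nat_lit 76) (nat_lit 124848149200) (nat_lit 76) (nat_lit 68474571999) (nat_lit 4) (nat_lit 4) (nat_lit 5) (nat_lit 5) (nat_lit 5) (nat_lit 4) (nat_lit 378) (nat_lit 318) (nat_lit 204))) (XT.nd (nat_lit 78) (nat_lit 0) (nat_lit 0) (XT.lf (nat_lit 0) (nat_lit 343421710356) (nat_lit 76) (nat_lit 95972318221) (nat_lit 76) (nat_lit 39598094621) (nat_lit 4) (nat_lit 4) (nat_lit 5) (nat_lit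 5) (nat_lit 5) (nat_lit 4) (nat_lit 379) (nat_lit 318) (nat_lit 203)) (XT.lf (nat_lit 0) (nat_lit 441222141343) (nat_lit 76) (nat_lit 64787179051) (nat_lit 76) (nat_lit 8412356933) (nat_lit 4) (nat_lit 4) (nat_lit 5) (nat_lit 5) (nat_lit 5) (nat_lit 4) (nat_lit 380) (nat_lit 318) (nat_lit 202)))) (XT.nd (nat_lit 156) (nat_lit 0) (nat_lit 0) (XT.nd (nat_lit 78) (nat_lit 76) (nat_lit 0) (XT.lf (nat_lit 0) (nat_lit 24003465480) (nat_lit 152) (nat_lit 6448168102) (nat_lit 76) (nat_lit 522185406656) (nat_lit 3) (nat_lit 5) (nat_lit 5) (nat_lit 5) (nat_lit 4) (nat_lit 4) (nat_lit 381) (nat_lit 318) (nat_lit 201)) (XT.lf (nat_lit 0) (nat_lit 60421808430) (nat_lit 152) (nat_lit 525099333690) (nat_lit 0) (nat_lit 8221910806) (nat_lit 2) (nat_lit 5) (nat_lit 4) (nat_lit 4) (nat_lit 2) (nat_lit 4) (nat_lit 382) (nat_lit 318) (nat_lit 200))) (XT.nd (nat_lit 78) (nat_lit 0) (nat_lit 0) (XT.lf (nat_lit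 0) (nat_lit 100724759267) (nat_lit 152) (nat_lit 488810674603) (nat_lit 0) (nat_lit 48524421714) (nat_lit 2) (nat_lit 5) (nat_lit 4) (nat_lit 4) (nat_lit 2) (nat_lit 4) (nat_lit 383) (nat_lit 318) (nat_lit 199)) (XT.lf (nat_lit 0) (nat_lit 144251302886) (nat_lit 152) (nat_lit 449620193219) (nat_lit 0) (nat_lit 92050557992) (nat_lit 2) (nat_lit 5) (nat_lit 4) (nat_lit 4) (nat_lit 2) (nat_lit 4) (nat_lit 384) (nat_lit 318) (nat_lit 198))))) (XT.nd (nat_lit 312) (nat_lit 76) (nat_lit 0) (XT.nd (nat_lit 156) (nat_lit 0) (nat_lit 0) (XT.nd (nat_lit 78) (nat_lit 0) (nat_lit 0) (XT.lf (nat_lit 0) (nat_lit 191259374361) (nat_lit 152) (nat_lit 407295649648) (nat_lit 0) (nat_lit 139058252299) (nat_lit 2) (nat_lit 5) (nat_lit 4) (nat_lit 4) (nat_lit 2) (nat_lit 4) (nat_lit 385) (nat_lit 318) (nat_lit 197)) (XT.lf (nat_lit 0) (nat_lit 242027540040) (nat_lit 152) (nat_lit 361586231779) (nat_lit 0)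 (nat_lit 189826068749) (nat_lit 2) (nat_lit 5) (nat_lit 4) (nat_lit 4) (nat_lit 2) (nat_lit 4) (nat_lit 386) (nat_lit 318) (nat_lit 196))) (XT.nd (nat_lit 78) (nat_lit 0) (nat_lit 0) (XT.lf (nat_lit 0) (nat_lit 296856648313) (nat_lit 152) (nat_lit 312221068988) (nat_lit 0) (nat_lit 244654853662) (nat_lit 2) (nat_lit 5) (nat_lit 4) (nat_lit 4) (nat_lit 2) (nat_lit 4) (nat_lit 387) (nat_lit 318) (nat_lit 195)) (XT.lf (nat_lit 0) (nat_lit 356071612415) (nat_lit 152) (nat_lit 258907626978) (nat_lit 0) (nat_lit 303869518356) (nat_lit 2) (nat_lit 5) (nat_lit 4) (nat_lit 4) (nat_lit 2) (nat_lit 4) (nat_lit 388) (nat_lit 318) (nat_lit 194)))) (XT.nd (nat_lit 156) (nat_lit 76) (nat_lit 0) (XT.nd (nat_lit 78) (nat_lit 0) (nat_lit 0) (XT.lf (nat_lit 0) (nat_lit 420023335836) (nat_lit 152) (nat_lit 201329974239) (nat_lit 0) (nat_lit 367820964547) (nat_lit 2) (nat_lit 5) (nat_lit 4) (nat_lit 4) (nat_lit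 2) (nat_lit 4) (nat_lit 389) (nat_lit 318) (nat_lit 193)) (XT.lf (nat_lit 0) (nat_lit 489090791753) (nat_lit 152) (nat_lit 139146909867) (nat_lit 0) (nat_lit 436888163769) (nat_lit 2) (nat_lit 5) (nat_lit 4) (nat_lit 4) (nat_lit 2) (nat_lit 4) (nat_lit 390) (nat_lit 318) (nat_lit 192))) (XT.nd (nat_lit 78) (nat_lit 76) (nat_lit 0) (XT.lf (nat_lit 0) (nat_lit 563683268792) (nat_lit 152) (nat_lit 71989941629) (nat_lit 0) (nat_lit 511480403129) (nat_lit 2) (nat_lit 5) (nat_lit 4) (nat_lit 4) (nat_lit 2) (nat_lit 4) (nat_lit 391) (nat_lit 318) (nat_lit 191)) (XT.lf (nat_lit 0) (nat_lit 567275092) (nat_lit 76) (nat_lit 643689164334) (nat_lit 76) (nat_lit 591486078597) (nat_lit 1) (nat_lit 4) (nat_lit 2) (nat_lit 5) (nat_lit 2) (nat_lit 4) (nat_lit 392) (nat_lit 318) (nat_lit 190)))))))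
noncomputable def xc153 : XT := (XT.nd (nat_lit 41106) (nat_lit 0) (nat_lit 2508) (XT.nd (nat_lit 624) (nat_lit 0) (nat_lit 0) (XT.nd (nat_lit 312) (nat_lit 0) (nat_lit 0) (XT.nd (nat_lit 156) (nat_lit 0) (nat_lit 0) (XT.nd (nat_lit 78) (nat_lit 0) (nat_lit 0) (XT.lf (nat_lit 0) (nat_lit 83022531924) (nat_lit 76) (nat_lit 650220926477) (nat_lit 76) (nat_lit 598017636968) (nat_lit 1) (nat_lit 4) (nat_lit 2) (nat_lit 5) (nat_lit 2) (nat_lit 4) (nat_lit 393) (nat_lit 318) (nat_lit 189)) (XT.lf (nat_lit 0) (nat_lit 172073589861) (nat_lit 76) (nat_lit 657275536171) (nat_lit 76) (nat_lit 605072057984) (nat_lit 1) (nat_lit 4) (nat_lit 2) (nat_lit 5) (nat_lit 2) (nat_lit 4) (nat_lit 394) (nat_lit 318) (nat_lit 188))) (XT.nd (nat_lit 78) (nat_lit 0) (nat_lit 0) (XT.lf (nat_lit 0) (nat_lit 268248158876) (nat_lit 76) (nat_lit 664894798508) (nat_lit 76) (nat_lit 612691145620) (nat_lit 1) (nat_lit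 4) (nat_lit 2) (nat_lit 5) (nat_lit 2) (nat_lit 4) (nat_lit 395) (nat_lit 318) (nat_lit 187)) (XT.lf (nat_lit 0) (nat_lit 372116162341) (nat_lit 76) (nat_lit 673123864675) (nat_lit 76) (nat_lit 620920050026) (nat_lit 1) (nat_lit 4) (nat_lit 2) (nat_lit 5) (nat_lit 2) (nat_lit 4) (nat_lit 396) (nat_lit 318) (nat_lit 186)))) (XT.nd (nat_lit 156) (nat_lit 0) (nat_lit 0) (XT.nd (nat_lit 78) (nat_lit 0) (nat_lit 0) (XT.lf (nat_lit 0) (nat_lit 484293114350) (nat_lit 76) (nat_lit 682011499507) (nat_lit 76) (nat_lit 629807535079) (nat_lit 1) (nat_lit 4) (nat_lit 2) (nat_lit 5) (nat_lit 2) (nat_lit 4) (nat_lit 397) (nat_lit 318) (nat_lit 185)) (XT.lf (nat_lit 0) (nat_lit 605443767212) (nat_lit 76) (nat_lit 691610370470) (nat_lit 76) (nat_lit 639406267358) (nat_lit 1) (nat_lit 4) (nat_lit 2) (nat_lit 5) (nat_lit 2) (nat_lit 4) (nat_lit 398) (nat_lit 318) (nat_lit 184))) (XT.nd (nat_lit 78) (nat_lit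 0) (nat_lit 0) (XT.lf (nat_lit 0) (nat_lit 736286050722) (nat_lit 76) (nat_lit 701977359762) (nat_lit 76) (nat_lit 649773128239) (nat_lit 1) (nat_lit 4) (nat_lit 2) (nat_lit 5) (nat_lit 2) (nat_lit 4) (nat_lit 399) (nat_lit 318) (nat_lit 183)) (XT.lf (nat_lit 0) (nat_lit 877595326559) (nat_lit 76) (nat_lit 713173901393) (nat_lit 76) (nat_lit 660969550972) (nat_lit 1) (nat_lit 4) (nat_lit 2) (nat_lit 5) (nat_lit 2) (nat_lit 4) (nat_lit 400) (nat_lit 318) (nat_lit 182))))) (XT.nd (nat_lit 312) (nat_lit 0) (nat_lit 0) (XT.nd (nat_lit 156) (nat_lit 0) (nat_lit 0) (XT.nd (nat_lit 78) (nat_lit 0) (nat_lit 0) (XT.lf (nat_lit 0) (nat_lit 1030208983025) (nat_lit 76) (nat_lit 725266345242) (nat_lit 76) (nat_lit 673061884728) (nat_lit 1) (nat_lit 4) (nat_lit 2) (nat_lit 5) (nat_lit 2) (nat_lit 4) (nat_lit 401) (nat_lit 318) (nat_lit 181)) (XT.lf (nat_lit 0) (nat_lit 1195031397343) (nat_lit 76) (nat_lit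 738326350232) (nat_lit 76) (nat_lit 686121787782) (nat_lit 1) (nat_lit 4) (nat_lit 2) (nat_lit 5) (nat_lit 2) (nat_lit 4) (nat_lit 402) (nat_lit 318) (nat_lit 180))) (XT.nd (nat_lit 78) (nat_lit 0) (nat_lit 0) (XT.lf (nat_lit 0) (nat_lit 1373039294932) (nat_lit 76) (nat_lit 752431308988) (nat_lit 76) (nat_lit 700226652152) (nat_lit 1) (nat_lit 4) (nat_lit 2) (nat_lit 5) (nat_lit 2) (nat_lit 4) (nat_lit 403) (nat_lit 318) (nat_lit 179)) (XT.lf (nat_lit 0) (nat_lit 1565287537407) (nat_lit 76) (nat_lit 767664806449) (nat_lit 76) (nat_lit 715460062219) (nat_lit 1) (nat_lit 4) (nat_lit 2) (nat_lit 5) (nat_lit 2) (nat_lit 4) (nat_lit 404) (nat_lit 318) (nat_lit 178)))) (XT.nd (nat_lit 156) (nat_lit 0) (nat_lit 0) (XT.nd (nat_lit 78) (nat_lit 0) (nat_lit 0) (XT.lf (nat_lit 0) (nat_lit 1772915373611) (nat_lit 76) (nat_lit 784117115194) (nat_lit 76) (nat_lit 731912290043) (nat_lit 1) (nat_lit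 4) (nat_lit 2) (nat_lit 5) (nat_lit 2) (nat_lit 4) (nat_lit 405) (nat_lit 318) (nat_lit 177)) (XT.lf (nat_lit 0) (nat_lit 1997153190724) (nat_lit 76) (nat_lit 801885730384) (nat_lit 76) (nat_lit 749680830307) (nat_lit 1) (nat_lit 4) (nat_lit 2) (nat_lit 5) (nat_lit 2) (nat_lit 4) (nat_lit 406) (nat_lit 318) (nat_lit 176))) (XT.nd (nat_lit 78) (nat_lit 0) (nat_lit 0) (XT.lf (nat_lit 0) (nat_lit 2239329805438) (nat_lit 76) (nat_lit 821075947518) (nat_lit 76) (nat_lit 768870978064) (nat_lit 1) (nat_lit 4) (nat_lit 2) (nat_lit 5) (nat_lit 2) (nat_lit 4) (nat_lit 407) (nat_lit 318) (nat_lit 175)) (XT.lf (nat_lit 0) (nat_lit 2500880338433) (nat_lit 76) (nat_lit 841801486401) (nat_lit 76) (nat_lit 789596452710) (nat_lit 1) (nat_lit 4) (nat_lit 2) (nat_lit 5) (nat_lit 2) (nat_lit 4) (nat_lit 408) (nat_lit 318) (nat_lit 174)))))) (XT.nd (nat_lit 624) (nat_lit 1064) (nat_lit 0) (XT.nd (nat_lit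 312) (nat_lit 228) (nat_lit 0) (XT.nd (nat_lit 156) (nat_lit 0) (nat_lit 76) (XT.nd (nat_lit 78) (nat_lit 0) (nat_lit 0) (XT.lf (nat_lit 0) (nat_lit 5576384721) (nat_lit 532) (nat_lit 1646241732) (nat_lit 532) (nat_lit 1646241732) (nat_lit 51) (nat_lit 3) (nat_lit 58) (nat_lit 3) (nat_lit 58) (nat_lit 5) (nat_lit 319) (nat_lit 319) (nat_lit 262)) (XT.lf (nat_lit 76) (nat_lit 5290615849) (nat_lit 0) (nat_lit 6630519755) (nat_lit 532) (nat_lit 6499909073) (nat_lit 52) (nat_lit 5) (nat_lit 51) (nat_lit 3) (nat_lit 58) (nat_lit 5) (nat_lit 320) (nat_lit 319) (nat_lit 261))) (XT.nd (nat_lit 78) (nat_lit 0) (nat_lit 0) (XT.lf (nat_lit 0) (nat_lit 12867277718) (nat_lit 456) (nat_lit 4463006101) (nat_lit 532) (nat_lit 1819471385) (nat_lit 52) (nat_lit 5) (nat_lit 58) (nat_lit 5) (nat_lit 59) (nat_lit 5) (nat_lit 321) (nat_lit 319) (nat_lit 260)) (XT.lf (nat_lit 76) (nat_lit 4961812401) (nat_lit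 0) (nat_lit 9200731578) (nat_lit 532) (nat_lit 5752382947) (nat_lit 53) (nat_lit 5) (nat_lit 52) (nat_lit 5) (nat_lit 59) (nat_lit 5) (nat_lit 322) (nat_lit 319) (nat_lit 259)))) (XT.nd (nat_lit 156) (nat_lit 304) (nat_lit 0) (XT.nd (nat_lit 78) (nat_lit 0) (nat_lit 76) (XT.lf (nat_lit 76) (nat_lit 15382748256) (nat_lit 0) (nat_lit 283650819) (nat_lit 532) (nat_lit 5066551996) (nat_lit 53) (nat_lit 5) (nat_lit 52) (nat_lit 5) (nat_lit 59) (nat_lit 5) (nat_lit 323) (nat_lit 319) (nat_lit 258)) (XT.lf (nat_lit 76) (nat_lit 5035829156) (nat_lit 0) (nat_lit 12584960286) (nat_lit 532) (nat_lit 3969242972) (nat_lit 54) (nat_lit 5) (nat_lit 53) (nat_lit 5) (nat_lit 60) (nat_lit 5) (nat_lit 324) (nat_lit 319) (nat_lit 257))) (XT.nd (nat_lit 78) (nat_lit 380) (nat_lit 0) (XT.lf (nat_lit 76) (nat_lit 16537334114) (nat_lit 0) (nat_lit 3332860720) (nat_lit 532) (nat_lit 2634423263) (nat_lit 54) (nat_lit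 5) (nat_lit 53) (nat_lit 5) (nat_lit 60) (nat_lit 5) (nat_lit 325) (nat_lit 319) (nat_lit 256)) (XT.lf (nat_lit 0) (nat_lit 5572982493) (nat_lit 456) (nat_lit 17007118603) (nat_lit 532) (nat_lit 889854311) (nat_lit 48) (nat_lit 5) (nat_lit 54) (nat_lit 5) (nat_lit 55) (nat_lit 5) (nat_lit 326) (nat_lit 319) (nat_lit 255))))) (XT.nd (nat_lit 312) (nat_lit 456) (nat_lit 0) (XT.nd (nat_lit 156) (nat_lit 228) (nat_lit 0) (XT.nd (nat_lit 78) (nat_lit 304) (nat_lit 0) (XT.lf (nat_lit 0) (nat_lit 1185226192) (nat_lit 532) (nat_lit 6250995003) (nat_lit 76) (nat_lit 17055155356) (nat_lit 47) (nat_lit 5) (nat_lit 54) (nat_lit 5) (nat_lit 48) (nat_lit 5) (nat_lit 327) (nat_lit 319) (nat_lit 254)) (XT.lf (nat_lit 0) (nat_lit 3599735930) (nat_lit 380) (nat_lit 19032273735) (nat_lit 76) (nat_lit 2942955570) (nat_lit 43) (nat_lit 5) (nat_lit 48) (nat_lit 5) (nat_lit 44) (nat_lit 5) (nat_lit 328) (nat_lit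 319) (nat_lit 253))) (XT.nd (nat_lit 78) (nat_lit 228) (nat_lit 0) (XT.lf (nat_lit 0) (nat_lit 6564255542) (nat_lit 380) (nat_lit 6226154593) (nat_lit 76) (nat_lit 13926304008) (nat_lit 43) (nat_lit 5) (nat_lit 48) (nat_lit 5) (nat_lit 44) (nat_lit 5) (nat_lit 329) (nat_lit 319) (nat_lit 252)) (XT.lf (nat_lit 0) (nat_lit 7992833071) (nat_lit 228) (nat_lit 1954542503) (nat_lit 304) (nat_lit 17987931778) (nat_lit 40) (nat_lit 5) (nat_lit 43) (nat_lit 5) (nat_lit 44) (nat_lit 5) (nat_lit 330) (nat_lit 319) (nat_lit 251)))) (XT.nd (nat_lit 156) (nat_lit 228) (nat_lit 0) (XT.nd (nat_lit 78) (nat_lit 228) (nat_lit 0) (XT.lf (nat_lit 0) (nat_lit 13999965176) (nat_lit 304) (nat_lit 5785190399) (nat_lit 76) (nat_lit 9434344898) (nat_lit 40) (nat_lit 5) (nat_lit 44) (nat_lit 5) (nat_lit 41) (nat_lit 5) (nat_lit 331) (nat_lit 319) (nat_lit 250)) (XT.lf (nat_lit 0) (nat_lit 9940056472) (nat_lit 228)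 (nat_lit 8717012786) (nat_lit 304) (nat_lit 11926951917) (nat_lit 37) (nat_lit 5) (nat_lit 40) (nat_lit 5) (nat_lit 41) (nat_lit 5) (nat_lit 332) (nat_lit 319) (nat_lit 249))) (XT.nd (nat_lit 78) (nat_lit 228) (nat_lit 0) (XT.lf (nat_lit 0) (nat_lit 23917751946) (nat_lit 304) (nat_lit 4886178632) (nat_lit 76) (nat_lit 3235307610) (nat_lit 37) (nat_lit 5) (nat_lit 41) (nat_lit 5) (nat_lit 38) (nat_lit 5) (nat_lit 333) (nat_lit 319) (nat_lit 248)) (XT.nd (nat_lit 78) (nat_lit 76) (nat_lit 0) (XT.lf (nat_lit 0) (nat_lit 12521532041) (nat_lit 152) (nat_lit 17596876045) (nat_lit 228) (nat_lit 3450949300) (nat_lit 35) (nat_lit 5) (nat_lit 37) (nat_lit 5) (nat_lit 38) (nat_lit 5) (nat_lit 334) (nat_lit 319) (nat_lit 247)) (XT.lf (nat_lit 0) (nat_lit 1642310586) (nat_lit 228) (nat_lit 3664083681) (nat_lit 76) (nat_lit 29902136372) (nat_lit 34) (nat_lit 5) (nat_lit 37) (nat_lit 5) (nat_lit 35)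 (nat_lit 5) (nat_lit 335) (nat_lit 319) (nat_lit 246))))))))
noncomputable def xc154 : XT := (XT.nd (nat_lit 1248) (nat_lit 760) (nat_lit 0) (XT.nd (nat_lit 624) (nat_lit 380) (nat_lit 0) (XT.nd (nat_lit 312) (nat_lit 532) (nat_lit 0) (XT.nd (nat_lit 156) (nat_lit 152) (nat_lit 0) (XT.nd (nat_lit 78) (nat_lit 0) (nat_lit 0) (XT.lf (nat_lit 0) (nat_lit 7532690919) (nat_lit 304) (nat_lit 21344524722) (nat_lit 76) (nat_lit 8048374640) (nat_lit 31) (nat_lit 5) (nat_lit 35) (nat_lit 5) (nat_lit 32) (nat_lit 5) (nat_lit 336) (nat_lit 319) (nat_lit 245)) (XT.lf (nat_lit 0) (nat_lit 14127516041) (nat_lit 304) (nat_lit 2348545182) (nat_lit 76) (nat_lit 22285306857) (nat_lit 31) (nat_lit 5) (nat_lit 35) (nat_lit 5) (nat_lit 32) (nat_lit 5) (nat_lit 337) (nat_lit 319) (nat_lit 244))) (XT.nd (nat_lit 78) (nat_lit 0) (nat_lit 0) (XT.lf (nat_lit 0) (nat_lit 19113701022) (nat_lit 152) (nat_lit 2589060430)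 (nat_lit 228) (nat_lit 19005029661) (nat_lit 29) (nat_lit 5) (nat_lit 31) (nat_lit 5) (nat_lit 32) (nat_lit 5) (nat_lit 338) (nat_lit 319) (nat_lit 243)) (XT.lf (nat_lit 0) (nat_lit 30241708802) (nat_lit 228) (nat_lit 688185222) (nat_lit 76) (nat_lit 11851428412) (nat_lit 29) (nat_lit 5) (nat_lit 32) (nat_lit 5) (nat_lit 30) (nat_lit 5) (nat_lit 339) (nat_lit 319) (nat_lit 242)))) (XT.nd (nat_lit 156) (nat_lit 152) (nat_lit 0) (XT.nd (nat_lit 78) (nat_lit 228) (nat_lit 0) (XT.lf (nat_lit 0) (nat_lit 22962566084) (nat_lit 152) (nat_lit 17114562484) (nat_lit 228) (nat_lit 4894547528) (nat_lit 27) (nat_lit 5) (nat_lit 29) (nat_lit 5) (nat_lit 30) (nat_lit 5) (nat_lit 340) (nat_lit 319) (nat_lit 241)) (XT.lf (nat_lit 0) (nat_lit 1177144976) (nat_lit 152) (nat_lit 2058347219) (nat_lit 228) (nat_lit 44091979858) (nat_lit 24) (nat_lit 5) (nat_lit 26) (nat_lit 5) (nat_lit 27) (nat_lit 5) (nat_lit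 341) (nat_lit 319) (nat_lit 240))) (XT.nd (nat_lit 78) (nat_lit 152) (nat_lit 0) (XT.lf (nat_lit 0) (nat_lit 12704567894) (nat_lit 228) (nat_lit 22847262511) (nat_lit 76) (nat_lit 14233492193) (nat_lit 24) (nat_lit 5) (nat_lit 27) (nat_lit 5) (nat_lit 25) (nat_lit 5) (nat_lit 342) (nat_lit 319) (nat_lit 239)) (XT.lf (nat_lit 0) (nat_lit 2376852375) (nat_lit 152) (nat_lit 20659481099) (nat_lit 228) (nat_lit 29395060753) (nat_lit 22) (nat_lit 5) (nat_lit 24) (nat_lit 5) (nat_lit 25) (nat_lit 5) (nat_lit 343) (nat_lit 319) (nat_lit 238))))) (XT.nd (nat_lit 312) (nat_lit 76) (nat_lit 0) (XT.nd (nat_lit 156) (nat_lit 228) (nat_lit 0) (XT.nd (nat_lit 78) (nat_lit 76) (nat_lit 0) (XT.lf (nat_lit 0) (nat_lit 30909827959) (nat_lit 152) (nat_lit 3904236243) (nat_lit 228) (nat_lit 20425539162) (nat_lit 22) (nat_lit 5) (nat_lit 24) (nat_lit 5) (nat_lit 25) (nat_lit 5) (nat_lit 344) (nat_lit 319)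 (nat_lit 237)) (XT.lf (nat_lit 0) (nat_lit 3266981646) (nat_lit 76) (nat_lit 44681965673) (nat_lit 152) (nat_lit 10290332468) (nat_lit 21) (nat_lit 5) (nat_lit 22) (nat_lit 5) (nat_lit 23) (nat_lit 4) (nat_lit 345) (nat_lit 319) (nat_lit 236))) (XT.nd (nat_lit 78) (nat_lit 152) (nat_lit 0) (XT.lf (nat_lit 0) (nat_lit 1401902937) (nat_lit 152) (nat_lit 27113205143) (nat_lit 76) (nat_lit 32900244214) (nat_lit 20) (nat_lit 5) (nat_lit 22) (nat_lit 5) (nat_lit 21) (nat_lit 5) (nat_lit 346) (nat_lit 319) (nat_lit 235)) (XT.lf (nat_lit 0) (nat_lit 2841933229) (nat_lit 152) (nat_lit 10695455935) (nat_lit 228) (nat_lit 51281637732) (nat_lit 18) (nat_lit 5) (nat_lit 20) (nat_lit 5) (nat_lit 21) (nat_lit 5) (nat_lit 347) (nat_lit 319) (nat_lit 234)))) (XT.nd (nat_lit 156) (nat_lit 0) (nat_lit 0) (XT.nd (nat_lit 78) (nat_lit 76) (nat_lit 0) (XT.lf (nat_lit 0) (nat_lit 27605469438) (nat_lit 228)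 (nat_lit 31932787941) (nat_lit 76) (nat_lit 8879801549) (nat_lit 18) (nat_lit 5) (nat_lit 21) (nat_lit 5) (nat_lit 19) (nat_lit 4) (nat_lit 348) (nat_lit 319) (nat_lit 233)) (XT.lf (nat_lit 0) (nat_lit 242289890) (nat_lit 76) (nat_lit 42836221435) (nat_lit 152) (nat_lit 29204144569) (nat_lit 17) (nat_lit 5) (nat_lit 18) (nat_lit 5) (nat_lit 19) (nat_lit 4) (nat_lit 349) (nat_lit 319) (nat_lit 232))) (XT.nd (nat_lit 78) (nat_lit 0) (nat_lit 0) (XT.lf (nat_lit 0) (nat_lit 36800510730) (nat_lit 76) (nat_lit 23858007629) (nat_lit 152) (nat_lit 15728375835) (nat_lit 17) (nat_lit 5) (nat_lit 18) (nat_lit 5) (nat_lit 19) (nat_lit 4) (nat_lit 350) (nat_lit 319) (nat_lit 231)) (XT.lf (nat_lit 0) (nat_lit 76276991863) (nat_lit 76) (nat_lit 3364251485) (nat_lit 152) (nat_lit 1178525894) (nat_lit 17) (nat_lit 5) (nat_lit 18) (nat_lit 5) (nat_lit 19) (nat_lit 4) (nat_lit 351) (nat_lit 319) (nat_lit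 230)))))) (XT.nd (nat_lit 624) (nat_lit 304) (nat_lit 0) (XT.nd (nat_lit 312) (nat_lit 228) (nat_lit 0) (XT.nd (nat_lit 156) (nat_lit 76) (nat_lit 0) (XT.nd (nat_lit 78) (nat_lit 0) (nat_lit 0) (XT.lf (nat_lit 0) (nat_lit 15120916526) (nat_lit 152) (nat_lit 51311289140) (nat_lit 76) (nat_lit 19042087722) (nat_lit 15) (nat_lit 5) (nat_lit 17) (nat_lit 5) (nat_lit 16) (nat_lit 4) (nat_lit 352) (nat_lit 319) (nat_lit 229)) (XT.lf (nat_lit 0) (nat_lit 32872013423) (nat_lit 152) (nat_lit 14395030275) (nat_lit 76) (nat_lit 43214779715) (nat_lit 15) (nat_lit 5) (nat_lit 17) (nat_lit 5) (nat_lit 16) (nat_lit 4) (nat_lit 353) (nat_lit 319) (nat_lit 228))) (XT.nd (nat_lit 78) (nat_lit 0) (nat_lit 0) (XT.lf (nat_lit 0) (nat_lit 26809961790) (nat_lit 76) (nat_lit 25874825008) (nat_lit 152) (nat_lit 43153844204) (nat_lit 14) (nat_lit 5) (nat_lit 15) (nat_lit 5) (nat_lit 16) (nat_lit 4) (nat_lit 354)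 (nat_lit 319) (nat_lit 227)) (XT.lf (nat_lit 0) (nat_lit 72124445536) (nat_lit 76) (nat_lit 2348633196) (nat_lit 152) (nat_lit 27119666824) (nat_lit 14) (nat_lit 5) (nat_lit 15) (nat_lit 5) (nat_lit 16) (nat_lit 4) (nat_lit 355) (nat_lit 319) (nat_lit 226)))) (XT.nd (nat_lit 156) (nat_lit 76) (nat_lit 0) (XT.nd (nat_lit 78) (nat_lit 76) (nat_lit 0) (XT.lf (nat_lit 0) (nat_lit 13365585046) (nat_lit 76) (nat_lit 85511961555) (nat_lit 76) (nat_lit 8859795604) (nat_lit 13) (nat_lit 4) (nat_lit 14) (nat_lit 5) (nat_lit 14) (nat_lit 4) (nat_lit 356) (nat_lit 319) (nat_lit 225)) (XT.lf (nat_lit 0) (nat_lit 11202308194) (nat_lit 152) (nat_lit 53355463841) (nat_lit 76) (nat_lit 49724060100) (nat_lit 12) (nat_lit 5) (nat_lit 14) (nat_lit 5) (nat_lit 13) (nat_lit 4) (nat_lit 357) (nat_lit 319) (nat_lit 224))) (XT.nd (nat_lit 78) (nat_lit 76) (nat_lit 0) (XT.lf (nat_lit 0) (nat_lit 32388036646) (nat_lit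 152) (nat_lit 9292943972) (nat_lit 76) (nat_lit 79650706979) (nat_lit 12) (nat_lit 5) (nat_lit 14) (nat_lit 5) (nat_lit 13) (nat_lit 4) (nat_lit 358) (nat_lit 319) (nat_lit 223)) (XT.lf (nat_lit 0) (nat_lit 40306275095) (nat_lit 76) (nat_lit 15929229456) (nat_lit 152) (nat_lit 72632677874) (nat_lit 11) (nat_lit 5) (nat_lit 12) (nat_lit 5) (nat_lit 13) (nat_lit 4) (nat_lit 359) (nat_lit 319) (nat_lit 222))))) (XT.nd (nat_lit 312) (nat_lit 152) (nat_lit 0) (XT.nd (nat_lit 156) (nat_lit 76) (nat_lit 0) (XT.nd (nat_lit 78) (nat_lit 76) (nat_lit 0) (XT.lf (nat_lit 0) (nat_lit 82534774751) (nat_lit 152) (nat_lit 42882332193) (nat_lit 0) (nat_lit 11546970825) (nat_lit 11) (nat_lit 5) (nat_lit 13) (nat_lit 4) (nat_lit 11) (nat_lit 4) (nat_lit 360) (nat_lit 319) (nat_lit 221)) (XT.lf (nat_lit 0) (nat_lit 6351308778) (nat_lit 76) (nat_lit 105150896634) (nat_lit 76) (nat_lit 34160303042) (nat_lit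 10) (nat_lit 4) (nat_lit 11) (nat_lit 5) (nat_lit 11) (nat_lit 4) (nat_lit 361) (nat_lit 319) (nat_lit 220))) (XT.nd (nat_lit 78) (nat_lit 76) (nat_lit 0) (XT.lf (nat_lit 0) (nat_lit 61958233268) (nat_lit 76) (nat_lit 81999068200) (nat_lit 76) (nat_lit 11005891583) (nat_lit 10) (nat_lit 4) (nat_lit 11) (nat_lit 5) (nat_lit 11) (nat_lit 4) (nat_lit 362) (nat_lit 319) (nat_lit 219)) (XT.lf (nat_lit 0) (nat_lit 13298393874) (nat_lit 152) (nat_lit 43334909046) (nat_lit 76) (nat_lit 108347860641) (nat_lit 9) (nat_lit 5) (nat_lit 11) (nat_lit 5) (nat_lit 10) (nat_lit 4) (nat_lit 363) (nat_lit 319) (nat_lit 218)))) (XT.nd (nat_lit 156) (nat_lit 76) (nat_lit 0) (XT.nd (nat_lit 78) (nat_lit 0) (nat_lit 0) (XT.lf (nat_lit 0) (nat_lit 10546798861) (nat_lit 76) (nat_lit 28657326953) (nat_lit 152) (nat_lit 136553440799) (nat_lit 8) (nat_lit 5) (nat_lit 9) (nat_lit 5) (nat_lit 10) (nat_lit 4) (nat_lit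 364) (nat_lit 319) (nat_lit 217)) (XT.lf (nat_lit 0) (nat_lit 68433458211) (nat_lit 152) (nat_lit 116169661374) (nat_lit 0) (nat_lit 2692871802) (nat_lit 8) (nat_lit 5) (nat_lit 10) (nat_lit 4) (nat_lit 8) (nat_lit 4) (nat_lit 365) (nat_lit 319) (nat_lit 216))) (XT.nd (nat_lit 78) (nat_lit 76) (nat_lit 0) (XT.lf (nat_lit 0) (nat_lit 100743699983) (nat_lit 152) (nat_lit 63953030295) (nat_lit 0) (nat_lit 35001355612) (nat_lit 8) (nat_lit 5) (nat_lit 10) (nat_lit 4) (nat_lit 8) (nat_lit 4) (nat_lit 366) (nat_lit 319) (nat_lit 215)) (XT.nd (nat_lit 78) (nat_lit 76) (nat_lit 0) (XT.lf (nat_lit 0) (nat_lit 135637109829) (nat_lit 152) (nat_lit 7562233224) (nat_lit 0) (nat_lit 69893137714) (nat_lit 8) (nat_lit 5) (nat_lit 10) (nat_lit 4) (nat_lit 8) (nat_lit 4) (nat_lit 367) (nat_lit 319) (nat_lit 214)) (XT.lf (nat_lit 0) (nat_lit 56145524026) (nat_lit 76) (nat_lit 118525240687) (nat_lit 76)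 (nat_lit 52779761401) (nat_lit 7) (nat_lit 4) (nat_lit 8) (nat_lit 5) (nat_lit 8) (nat_lit 4) (nat_lit 368) (nat_lit 319) (nat_lit 213))))))))
noncomputable def xc155 : XT := (XT.nd (nat_lit 1248) (nat_lit 76) (nat_lit 0) (XT.nd (nat_lit 624) (nat_lit 152) (nat_lit 0) (XT.nd (nat_lit 312) (nat_lit 76) (nat_lit 0) (XT.nd (nat_lit 156) (nat_lit 76) (nat_lit 0) (XT.nd (nat_lit 78) (nat_lit 76) (nat_lit 0) (XT.lf (nat_lit 0) (nat_lit 125377116852) (nat_lit 76) (nat_lit 91655275611) (nat_lit 76) (nat_lit 25908400798) (nat_lit 7) (nat_lit 4) (nat_lit 8) (nat_lit 5) (nat_lit 8) (nat_lit 4) (nat_lit 369) (nat_lit 319) (nat_lit 212)) (XT.lf (nat_lit 0) (nat_lit 2955549696) (nat_lit 152) (nat_lit 59600623599) (nat_lit 76) (nat_lit 197108233081) (nat_lit 6) (nat_lit 5) (nat_lit 8) (nat_lit 5) (nat_lit 7) (nat_lit 4) (nat_lit 370) (nat_lit 319) (nat_lit 211))) (XT.nd (nat_lit 78) (nat_lit 0) (nat_lit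 0) (XT.lf (nat_lit 0) (nat_lit 2446388473) (nat_lit 76) (nat_lit 30340030700) (nat_lit 152) (nat_lit 244881051852) (nat_lit 5) (nat_lit 5) (nat_lit 6) (nat_lit 5) (nat_lit 7) (nat_lit 4) (nat_lit 371) (nat_lit 319) (nat_lit 210)) (XT.lf (nat_lit 0) (nat_lit 66781479314) (nat_lit 152) (nat_lit 224285670926) (nat_lit 0) (nat_lit 5901413366) (nat_lit 5) (nat_lit 5) (nat_lit 7) (nat_lit 4) (nat_lit 5) (nat_lit 4) (nat_lit 372) (nat_lit 319) (nat_lit 209)))) (XT.nd (nat_lit 156) (nat_lit 76) (nat_lit 0) (XT.nd (nat_lit 78) (nat_lit 0) (nat_lit 0) (XT.lf (nat_lit 0) (nat_lit 104282996132) (nat_lit 152) (nat_lit 170065819317) (nat_lit 0) (nat_lit 43401980412) (nat_lit 5) (nat_lit 5) (nat_lit 7) (nat_lit 4) (nat_lit 5) (nat_lit 4) (nat_lit 373) (nat_lit 319) (nat_lit 208)) (XT.lf (nat_lit 0) (nat_lit 144783522371) (nat_lit 152) (nat_lit 111510546431) (nat_lit 0) (nat_lit 83901627232) (nat_lit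 5) (nat_lit 5) (nat_lit 7) (nat_lit 4) (nat_lit 5) (nat_lit 4) (nat_lit 374) (nat_lit 319) (nat_lit 207))) (XT.nd (nat_lit 78) (nat_lit 76) (nat_lit 0) (XT.lf (nat_lit 0) (nat_lit 188523061150) (nat_lit 152) (nat_lit 48272858060) (nat_lit 0) (nat_lit 127640351733) (nat_lit 5) (nat_lit 5) (nat_lit 7) (nat_lit 4) (nat_lit 5) (nat_lit 4) (nat_lit 375) (nat_lit 319) (nat_lit 206)) (XT.lf (nat_lit 0) (nat_lit 21076310040) (nat_lit 76) (nat_lit 215191385457) (nat_lit 76) (nat_lit 154307922080) (nat_lit 4) (nat_lit 4) (nat_lit 5) (nat_lit 5) (nat_lit 5) (nat_lit 4) (nat_lit 376) (nat_lit 319) (nat_lit 205))))) (XT.nd (nat_lit 312) (nat_lit 152) (nat_lit 0) (XT.nd (nat_lit 156) (nat_lit 0) (nat_lit 0) (XT.nd (nat_lit 78) (nat_lit 0) (nat_lit 0) (XT.lf (nat_lit 0) (nat_lit 98716921105) (nat_lit 76) (nat_lit 190433918745) (nat_lit 76) (nat_lit 129549757257) (nat_lit 4) (nat_lit 4) (nat_lit 5) (nat_lit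 5) (nat_lit 5) (nat_lit 4) (nat_lit 377) (nat_lit 319) (nat_lit 204)) (XT.lf (nat_lit 0) (nat_lit 182567104485) (nat_lit 76) (nat_lit 163696673647) (nat_lit 76) (nat_lit 102811865760) (nat_lit 4) (nat_lit 4) (nat_lit 5) (nat_lit 5) (nat_lit 5) (nat_lit 4) (nat_lit 378) (nat_lit 319) (nat_lit 203))) (XT.nd (nat_lit 78) (nat_lit 0) (nat_lit 0) (XT.lf (nat_lit 0) (nat_lit 273123750154) (nat_lit 76) (nat_lit 134821207229) (nat_lit 76) (nat_lit 73935800824) (nat_lit 4) (nat_lit 4) (nat_lit 5) (nat_lit 5) (nat_lit 5) (nat_lit 4) (nat_lit 379) (nat_lit 319) (nat_lit 202)) (XT.lf (nat_lit 0) (nat_lit 370923490089) (nat_lit 76) (nat_lit 103636405617) (nat_lit 76) (nat_lit 42750445028) (nat_lit 4) (nat_lit 4) (nat_lit 5) (nat_lit 5) (nat_lit 5) (nat_lit 4) (nat_lit 380) (nat_lit 319) (nat_lit 201)))) (XT.nd (nat_lit 156) (nat_lit 76) (nat_lit 0) (XT.nd (nat_lit 78) (nat_lit 76) (nat_lit 0) (XT.lf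 (nat_lit 0) (nat_lit 476545878303) (nat_lit 76) (nat_lit 69957469985) (nat_lit 76) (nat_lit 9070996263) (nat_lit 4) (nat_lit 4) (nat_lit 5) (nat_lit 5) (nat_lit 5) (nat_lit 4) (nat_lit 381) (nat_lit 319) (nat_lit 200)) (XT.lf (nat_lit 0) (nat_lit 25936364401) (nat_lit 152) (nat_lit 6939310888) (nat_lit 76) (nat_lit 563971314677) (nat_lit 3) (nat_lit 5) (nat_lit 5) (nat_lit 5) (nat_lit 4) (nat_lit 4) (nat_lit 382) (nat_lit 319) (nat_lit 199))) (XT.nd (nat_lit 78) (nat_lit 0) (nat_lit 0) (XT.lf (nat_lit 0) (nat_lit 65268103344) (nat_lit 152) (nat_lit 567082494800) (nat_lit 0) (nat_lit 8890891518) (nat_lit 2) (nat_lit 5) (nat_lit 4) (nat_lit 4) (nat_lit 2) (nat_lit 4) (nat_lit 383) (nat_lit 319) (nat_lit 198)) (XT.lf (nat_lit 0) (nat_lit 108794360601) (nat_lit 152) (nat_lit 527892578956) (nat_lit 0) (nat_lit 52416771606) (nat_lit 2) (nat_lit 5) (nat_lit 4) (nat_lit 4) (nat_lit 2) (nat_lit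 4) (nat_lit 384) (nat_lit 319) (nat_lit 197)))))) (XT.nd (nat_lit 624) (nat_lit 76) (nat_lit 0) (XT.nd (nat_lit 312) (nat_lit 0) (nat_lit 0) (XT.nd (nat_lit 156) (nat_lit 0) (nat_lit 0) (XT.nd (nat_lit 78) (nat_lit 0) (nat_lit 0) (XT.lf (nat_lit 0) (nat_lit 155802166925) (nat_lit 152) (nat_lit 485568559033) (nat_lit 0) (nat_lit 99424228701) (nat_lit 2) (nat_lit 5) (nat_lit 4) (nat_lit 4) (nat_lit 2) (nat_lit 4) (nat_lit 385) (nat_lit 319) (nat_lit 196)) (XT.lf (nat_lit 0) (nat_lit 206570087094) (nat_lit 152) (nat_lit 439859626024) (nat_lit 0) (nat_lit 150191825510) (nat_lit 2) (nat_lit 5) (nat_lit 4) (nat_lit 4) (nat_lit 2) (nat_lit 4) (nat_lit 386) (nat_lit 319) (nat_lit 195))) (XT.nd (nat_lit 78) (nat_lit 0) (nat_lit 0) (XT.lf (nat_lit 0) (nat_lit 261398968044) (nat_lit 152) (nat_lit 390494912177) (nat_lit 0) (nat_lit 205020407052) (nat_lit 2) (nat_lit 5) (nat_lit 4) (nat_lit 4) (nat_lit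 2) (nat_lit 4) (nat_lit 387) (nat_lit 319) (nat_lit 194)) (XT.lf (nat_lit 0) (nat_lit 320613721661) (nat_lit 152) (nat_lit 337181885855) (nat_lit 0) (nat_lit 264234883439) (nat_lit 2) (nat_lit 5) (nat_lit 4) (nat_lit 4) (nat_lit 2) (nat_lit 4) (nat_lit 388) (nat_lit 319) (nat_lit 193)))) (XT.nd (nat_lit 156) (nat_lit 0) (nat_lit 0) (XT.nd (nat_lit 78) (nat_lit 0) (nat_lit 0) (XT.lf (nat_lit 0) (nat_lit 384565250189) (nat_lit 152) (nat_lit 279604618014) (nat_lit 0) (nat_lit 328186155272) (nat_lit 2) (nat_lit 5) (nat_lit 4) (nat_lit 4) (nat_lit 2) (nat_lit 4) (nat_lit 389) (nat_lit 319) (nat_lit 192)) (XT.lf (nat_lit 0) (nat_lit 453632525648) (nat_lit 152) (nat_lit 217421910028) (nat_lit 0) (nat_lit 397253193052) (nat_lit 2) (nat_lit 5) (nat_lit 4) (nat_lit 4) (nat_lit 2) (nat_lit 4) (nat_lit 390) (nat_lit 319) (nat_lit 191))) (XT.nd (nat_lit 78) (nat_lit 0) (nat_lit 0) (XT.lf (nat_lit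 0) (nat_lit 528224835597) (nat_lit 152) (nat_lit 150265271776) (nat_lit 0) (nat_lit 471845282927) (nat_lit 2) (nat_lit 5) (nat_lit 4) (nat_lit 4) (nat_lit 2) (nat_lit 4) (nat_lit 391) (nat_lit 319) (nat_lit 190)) (XT.lf (nat_lit 0) (nat_lit 608784208540) (nat_lit 152) (nat_lit 77736737996) (nat_lit 0) (nat_lit 552404452098) (nat_lit 2) (nat_lit 5) (nat_lit 4) (nat_lit 4) (nat_lit 2) (nat_lit 4) (nat_lit 392) (nat_lit 319) (nat_lit 189))))) (XT.nd (nat_lit 312) (nat_lit 0) (nat_lit 0) (XT.nd (nat_lit 156) (nat_lit 0) (nat_lit 0) (XT.nd (nat_lit 78) (nat_lit 0) (nat_lit 0) (XT.lf (nat_lit 0) (nat_lit 624742165) (nat_lit 76) (nat_lit 695178316251) (nat_lit 76) (nat_lit 638798371132) (nat_lit 1) (nat_lit 4) (nat_lit 2) (nat_lit 5) (nat_lit 2) (nat_lit 4) (nat_lit 393) (nat_lit 319) (nat_lit 188)) (XT.lf (nat_lit 0) (nat_lit 89675524353) (nat_lit 76) (nat_lit 702233062420) (nat_lit 76) (nat_lit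 645852942599) (nat_lit 1) (nat_lit 4) (nat_lit 2) (nat_lit 5) (nat_lit 2) (nat_lit 4) (nat_lit 394) (nat_lit 319) (nat_lit 187))) (XT.nd (nat_lit 78) (nat_lit 0) (nat_lit 0) (XT.lf (nat_lit 0) (nat_lit 185849838045) (nat_lit 76) (nat_lit 709852451124) (nat_lit 76) (nat_lit 653472169542) (nat_lit 1) (nat_lit 4) (nat_lit 2) (nat_lit 5) (nat_lit 2) (nat_lit 4) (nat_lit 395) (nat_lit 319) (nat_lit 186)) (XT.lf (nat_lit 0) (nat_lit 289717605100) (nat_lit 76) (nat_lit 718081634296) (nat_lit 76) (nat_lit 661701202936) (nat_lit 1) (nat_lit 4) (nat_lit 2) (nat_lit 5) (nat_lit 2) (nat_lit 4) (nat_lit 396) (nat_lit 319) (nat_lit 185)))) (XT.nd (nat_lit 156) (nat_lit 0) (nat_lit 0) (XT.nd (nat_lit 78) (nat_lit 0) (nat_lit 0) (XT.lf (nat_lit 0) (nat_lit 401894338212) (nat_lit 76) (nat_lit 726969377467) (nat_lit 76) (nat_lit 670588807422) (nat_lit 1) (nat_lit 4) (nat_lit 2) (nat_lit 5) (nat_lit 2)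 (nat_lit 4) (nat_lit 397) (nat_lit 319) (nat_lit 184)) (XT.lf (nat_lit 0) (nat_lit 523044788390) (nat_lit 76) (nat_lit 736568348743) (nat_lit 76) (nat_lit 680187650288) (nat_lit 1) (nat_lit 4) (nat_lit 2) (nat_lit 5) (nat_lit 2) (nat_lit 4) (nat_lit 398) (nat_lit 319) (nat_lit 183))) (XT.nd (nat_lit 78) (nat_lit 0) (nat_lit 0) (XT.lf (nat_lit 0) (nat_lit 653886884230) (nat_lit 76) (nat_lit 746935430918) (nat_lit 76) (nat_lit 690554613564) (nat_lit 1) (nat_lit 4) (nat_lit 2) (nat_lit 5) (nat_lit 2) (nat_lit 4) (nat_lit 399) (nat_lit 319) (nat_lit 182)) (XT.nd (nat_lit 78) (nat_lit 0) (nat_lit 0) (XT.lf (nat_lit 0) (nat_lit 795195986299) (nat_lit 76) (nat_lit 758132058552) (nat_lit 76) (nat_lit 701751131107) (nat_lit 1) (nat_lit 4) (nat_lit 2) (nat_lit 5) (nat_lit 2) (nat_lit 4) (nat_lit 400) (nat_lit 319) (nat_lit 181)) (XT.lf (nat_lit 0) (nat_lit 947809481868) (nat_lit 76) (nat_lit 770224582033)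 (nat_lit 76) (nat_lit 713843552650) (nat_lit 1) (nat_lit 4) (nat_lit 2) (nat_lit 5) (nat_lit 2) (nat_lit 4) (nat_lit 401) (nat_lit 319) (nat_lit 180))))))))
noncomputable def xc156 : XT := (XT.nd (nat_lit 41184) (nat_lit 0) (nat_lit 1596) (XT.nd (nat_lit 40560) (nat_lit 0) (nat_lit 3496) (XT.nd (nat_lit 312) (nat_lit 0) (nat_lit 0) (XT.nd (nat_lit 156) (nat_lit 0) (nat_lit 0) (XT.nd (nat_lit 78) (nat_lit 0) (nat_lit 0) (XT.lf (nat_lit 0) (nat_lit 1112631747208) (nat_lit 76) (nat_lit 783284660757) (nat_lit 76) (nat_lit 726903536988) (nat_lit 1) (nat_lit 4) (nat_lit 2) (nat_lit 5) (nat_lit 2) (nat_lit 4) (nat_lit 402) (nat_lit 319) (nat_lit 179)) (XT.lf (nat_lit 0) (nat_lit 1290639506854) (nat_lit 76) (nat_lit 797389687784) (nat_lit 76) (nat_lit 741008476621) (nat_lit 1) (nat_lit 4) (nat_lit 2) (nat_lit 5) (nat_lit 2) (nat_lit 4) (nat_lit 403) (nat_lit 319) (nat_lit 178))) (XT.nd (nat_lit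 78) (nat_lit 0) (nat_lit 0) (XT.lf (nat_lit 0) (nat_lit 1482887621604) (nat_lit 76) (nat_lit 812623248460) (nat_lit 76) (nat_lit 756241956376) (nat_lit 1) (nat_lit 4) (nat_lit 2) (nat_lit 5) (nat_lit 2) (nat_lit 4) (nat_lit 404) (nat_lit 319) (nat_lit 177)) (XT.lf (nat_lit 0) (nat_lit 1690515339545) (nat_lit 76) (nat_lit 829075615736) (nat_lit 76) (nat_lit 772694248726) (nat_lit 1) (nat_lit 4) (nat_lit 2) (nat_lit 5) (nat_lit 2) (nat_lit 4) (nat_lit 405) (nat_lit 319) (nat_lit 176)))) (XT.nd (nat_lit 156) (nat_lit 0) (nat_lit 0) (XT.nd (nat_lit 78) (nat_lit 0) (nat_lit 0) (XT.lf (nat_lit 0) (nat_lit 1914753047154) (nat_lit 76) (nat_lit 846844285123) (nat_lit 76) (nat_lit 790462848737) (nat_lit 1) (nat_lit 4) (nat_lit 2) (nat_lit 5) (nat_lit 2) (nat_lit 4) (nat_lit 406) (nat_lit 319) (nat_lit 175)) (XT.lf (nat_lit 0) (nat_lit 2156929560476) (nat_lit 76) (nat_lit 866034552439) (nat_lit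 76) (nat_lit 809653051815) (nat_lit 1) (nat_lit 4) (nat_lit 2) (nat_lit 5) (nat_lit 2) (nat_lit 4) (nat_lit 407) (nat_lit 319) (nat_lit 174))) (XT.nd (nat_lit 40014) (nat_lit 0) (nat_lit 3800) (XT.lf (nat_lit 0) (nat_lit 2418479999590) (nat_lit 76) (nat_lit 886760137787) (nat_lit 76) (nat_lit 830378577684) (nat_lit 1) (nat_lit 4) (nat_lit 2) (nat_lit 5) (nat_lit 2) (nat_lit 4) (nat_lit 408) (nat_lit 319) (nat_lit 173)) (XT.lf (nat_lit 0) (nat_lit 6212821306) (nat_lit 532) (nat_lit 1674959834) (nat_lit 532) (nat_lit 1674959834) (nat_lit 51) (nat_lit 3) (nat_lit 58) (nat_lit 3) (nat_lit 58) (nat_lit 5) (nat_lit 320) (nat_lit 320) (nat_lit 260))))) (XT.nd (nat_lit 312) (nat_lit 304) (nat_lit 0) (XT.nd (nat_lit 156) (nat_lit 0) (nat_lit 76) (XT.nd (nat_lit 78) (nat_lit 0) (nat_lit 76) (XT.lf (nat_lit 76) (nat_lit 5914613350) (nat_lit 0) (nat_lit 7317496300) (nat_lit 532) (nat_lit 6633275571)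 (nat_lit 52) (nat_lit 5) (nat_lit 51) (nat_lit 3) (nat_lit 58) (nat_lit 5) (nat_lit 321) (nat_lit 320) (nat_lit 259)) (XT.lf (nat_lit 0) (nat_lit 14223991906) (nat_lit 456) (nat_lit 4603513319) (nat_lit 532) (nat_lit 1827339789) (nat_lit 52) (nat_lit 5) (nat_lit 58) (nat_lit 5) (nat_lit 59) (nat_lit 5) (nat_lit 322) (nat_lit 320) (nat_lit 258))) (XT.nd (nat_lit 78) (nat_lit 0) (nat_lit 0) (XT.lf (nat_lit 76) (nat_lit 5569808809) (nat_lit 0) (nat_lit 10033899639) (nat_lit 532) (nat_lit 5879107860) (nat_lit 53) (nat_lit 5) (nat_lit 52) (nat_lit 5) (nat_lit 59) (nat_lit 5) (nat_lit 323) (nat_lit 320) (nat_lit 257)) (XT.lf (nat_lit 76) (nat_lit 16808786094) (nat_lit 0) (nat_lit 396259120) (nat_lit 532) (nat_lit 5163111598) (nat_lit 53) (nat_lit 5) (nat_lit 52) (nat_lit 5) (nat_lit 59) (nat_lit 5) (nat_lit 324) (nat_lit 320) (nat_lit 256)))) (XT.nd (nat_lit 156) (nat_lit 456) (nat_lit 0) (XT.nd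 (nat_lit 78) (nat_lit 0) (nat_lit 0) (XT.lf (nat_lit 76) (nat_lit 5654111089) (nat_lit 0) (nat_lit 13643718300) (nat_lit 532) (nat_lit 3997456577) (nat_lit 54) (nat_lit 5) (nat_lit 53) (nat_lit 5) (nat_lit 60) (nat_lit 5) (nat_lit 325) (nat_lit 320) (nat_lit 255)) (XT.lf (nat_lit 76) (nat_lit 18059779733) (nat_lit 0) (nat_lit 3647601791) (nat_lit 532) (nat_lit 2577282835) (nat_lit 54) (nat_lit 5) (nat_lit 53) (nat_lit 5) (nat_lit 60) (nat_lit 5) (nat_lit 326) (nat_lit 320) (nat_lit 254))) (XT.nd (nat_lit 78) (nat_lit 76) (nat_lit 0) (XT.lf (nat_lit 0) (nat_lit 6234166871) (nat_lit 456) (nat_lit 18385682499) (nat_lit 532) (nat_lit 708556091) (nat_lit 48) (nat_lit 5) (nat_lit 54) (nat_lit 5) (nat_lit 55) (nat_lit 5) (nat_lit 327) (nat_lit 320) (nat_lit 253)) (XT.lf (nat_lit 0) (nat_lit 1502133329) (nat_lit 532) (nat_lit 6539574742) (nat_lit 76) (nat_lit 18390800674) (nat_lit 47) (nat_lit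 5) (nat_lit 54) (nat_lit 5) (nat_lit 48) (nat_lit 5) (nat_lit 328) (nat_lit 320) (nat_lit 252)))))) (XT.nd (nat_lit 624) (nat_lit 912) (nat_lit 0) (XT.nd (nat_lit 312) (nat_lit 456) (nat_lit 0) (XT.nd (nat_lit 156) (nat_lit 228) (nat_lit 0) (XT.nd (nat_lit 78) (nat_lit 0) (nat_lit 0) (XT.lf (nat_lit 0) (nat_lit 4098203576) (nat_lit 380) (nat_lit 20331375128) (nat_lit 76) (nat_lit 3174164271) (nat_lit 43) (nat_lit 5) (nat_lit 48) (nat_lit 5) (nat_lit 44) (nat_lit 5) (nat_lit 329) (nat_lit 320) (nat_lit 251)) (XT.lf (nat_lit 0) (nat_lit 7284292997) (nat_lit 380) (nat_lit 6517320566) (nat_lit 76) (nat_lit 15036493751) (nat_lit 43) (nat_lit 5) (nat_lit 48) (nat_lit 5) (nat_lit 44) (nat_lit 5) (nat_lit 330) (nat_lit 320) (nat_lit 250))) (XT.nd (nat_lit 78) (nat_lit 0) (nat_lit 0) (XT.lf (nat_lit 0) (nat_lit 8833947468) (nat_lit 228) (nat_lit 2094528943) (nat_lit 304) (nat_lit 19226504555)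 (nat_lit 40) (nat_lit 5) (nat_lit 43) (nat_lit 5) (nat_lit 44) (nat_lit 5) (nat_lit 331) (nat_lit 320) (nat_lit 249)) (XT.lf (nat_lit 0) (nat_lit 15291911147) (nat_lit 304) (nat_lit 6047593724) (nat_lit 76) (nat_lit 10203497785) (nat_lit 40) (nat_lit 5) (nat_lit 44) (nat_lit 5) (nat_lit 41) (nat_lit 5) (nat_lit 332) (nat_lit 320) (nat_lit 248)))) (XT.nd (nat_lit 156) (nat_lit 228) (nat_lit 0) (XT.nd (nat_lit 78) (nat_lit 0) (nat_lit 0) (XT.lf (nat_lit 0) (nat_lit 10930599178) (nat_lit 228) (nat_lit 9382945321) (nat_lit 304) (nat_lit 12703806007) (nat_lit 37) (nat_lit 5) (nat_lit 40) (nat_lit 5) (nat_lit 41) (nat_lit 5) (nat_lit 333) (nat_lit 320) (nat_lit 247)) (XT.lf (nat_lit 0) (nat_lit 25983640209) (nat_lit 304) (nat_lit 5084503760) (nat_lit 76) (nat_lit 3521776948) (nat_lit 37) (nat_lit 5) (nat_lit 41) (nat_lit 5) (nat_lit 38) (nat_lit 5) (nat_lit 334) (nat_lit 320) (nat_lit 246)))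 (XT.nd (nat_lit 78) (nat_lit 76) (nat_lit 0) (XT.lf (nat_lit 0) (nat_lit 13710948598) (nat_lit 152) (nat_lit 18962620353) (nat_lit 228) (nat_lit 3569442267) (nat_lit 35) (nat_lit 5) (nat_lit 37) (nat_lit 5) (nat_lit 38) (nat_lit 5) (nat_lit 335) (nat_lit 320) (nat_lit 245)) (XT.lf (nat_lit 0) (nat_lit 1912306580) (nat_lit 228) (nat_lit 3775915118) (nat_lit 76) (nat_lit 32325696996) (nat_lit 34) (nat_lit 5) (nat_lit 37) (nat_lit 5) (nat_lit 35) (nat_lit 5) (nat_lit 336) (nat_lit 320) (nat_lit 244))))) (XT.nd (nat_lit 312) (nat_lit 532) (nat_lit 0) (XT.nd (nat_lit 156) (nat_lit 152) (nat_lit 0) (XT.nd (nat_lit 78) (nat_lit 0) (nat_lit 0) (XT.lf (nat_lit 0) (nat_lit 8268960515) (nat_lit 304) (nat_lit 22865644335) (nat_lit 76) (nat_lit 8734150025) (nat_lit 31) (nat_lit 5) (nat_lit 35) (nat_lit 5) (nat_lit 32) (nat_lit 5) (nat_lit 337) (nat_lit 320) (nat_lit 243)) (XT.lf (nat_lit 0) (nat_lit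 15381471327) (nat_lit 304) (nat_lit 2363796977) (nat_lit 76) (nat_lit 24106932714) (nat_lit 31) (nat_lit 5) (nat_lit 35) (nat_lit 5) (nat_lit 32) (nat_lit 5) (nat_lit 338) (nat_lit 320) (nat_lit 242))) (XT.nd (nat_lit 78) (nat_lit 0) (nat_lit 0) (XT.lf (nat_lit 0) (nat_lit 20811058497) (nat_lit 152) (nat_lit 2746557601) (nat_lit 228) (nat_lit 20397144469) (nat_lit 29) (nat_lit 5) (nat_lit 31) (nat_lit 5) (nat_lit 32) (nat_lit 5) (nat_lit 339) (nat_lit 320) (nat_lit 241)) (XT.lf (nat_lit 0) (nat_lit 32771996688) (nat_lit 228) (nat_lit 579608853) (nat_lit 76) (nat_lit 12843195543) (nat_lit 29) (nat_lit 5) (nat_lit 32) (nat_lit 5) (nat_lit 30) (nat_lit 5) (nat_lit 340) (nat_lit 320) (nat_lit 240)))) (XT.nd (nat_lit 156) (nat_lit 152) (nat_lit 0) (XT.nd (nat_lit 78) (nat_lit 228) (nat_lit 0) (XT.lf (nat_lit 0) (nat_lit 24959059996) (nat_lit 152) (nat_lit 18430807138) (nat_lit 228) (nat_lit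 5170877724) (nat_lit 27) (nat_lit 5) (nat_lit 29) (nat_lit 5) (nat_lit 30) (nat_lit 5) (nat_lit 341) (nat_lit 320) (nat_lit 239)) (XT.lf (nat_lit 0) (nat_lit 1432512254) (nat_lit 152) (nat_lit 2167056406) (nat_lit 228) (nat_lit 47505562281) (nat_lit 24) (nat_lit 5) (nat_lit 26) (nat_lit 5) (nat_lit 27) (nat_lit 5) (nat_lit 342) (nat_lit 320) (nat_lit 238))) (XT.nd (nat_lit 78) (nat_lit 152) (nat_lit 0) (XT.lf (nat_lit 0) (nat_lit 13819621191) (nat_lit 228) (nat_lit 24519128001) (nat_lit 76) (nat_lit 15421393157) (nat_lit 24) (nat_lit 5) (nat_lit 27) (nat_lit 5) (nat_lit 25) (nat_lit 5) (nat_lit 343) (nat_lit 320) (nat_lit 237)) (XT.lf (nat_lit 0) (nat_lit 2718968847) (nat_lit 152) (nat_lit 22255303798) (nat_lit 228) (nat_lit 31643927716) (nat_lit 22) (nat_lit 5) (nat_lit 24) (nat_lit 5) (nat_lit 25) (nat_lit 5) (nat_lit 344) (nat_lit 320) (nat_lit 236)))))))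
noncomputable def xc157 : XT := (XT.nd (nat_lit 1248) (nat_lit 532) (nat_lit 0) (XT.nd (nat_lit 624) (nat_lit 456) (nat_lit 0) (XT.nd (nat_lit 312) (nat_lit 76) (nat_lit 0) (XT.nd (nat_lit 156) (nat_lit 228) (nat_lit 0) (XT.nd (nat_lit 78) (nat_lit 76) (nat_lit 0) (XT.lf (nat_lit 0) (nat_lit 33523325568) (nat_lit 152) (nat_lit 4163856820) (nat_lit 228) (nat_lit 21964454613) (nat_lit 22) (nat_lit 5) (nat_lit 24) (nat_lit 5) (nat_lit 25) (nat_lit 5) (nat_lit 345) (nat_lit 320) (nat_lit 235)) (XT.lf (nat_lit 0) (nat_lit 3671207468) (nat_lit 76) (nat_lit 48199740605) (nat_lit 152) (nat_lit 11020499163) (nat_lit 21) (nat_lit 5) (nat_lit 22) (nat_lit 5) (nat_lit 23) (nat_lit 4) (nat_lit 346) (nat_lit 320) (nat_lit 234))) (XT.nd (nat_lit 78) (nat_lit 152) (nat_lit 0) (XT.lf (nat_lit 0) (nat_lit 1595911348) (nat_lit 152) (nat_lit 29145591062) (nat_lit 76) (nat_lit 35580454010) (nat_lit 20) (nat_lit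 5) (nat_lit 22) (nat_lit 5) (nat_lit 21) (nat_lit 5) (nat_lit 347) (nat_lit 320) (nat_lit 233)) (XT.lf (nat_lit 0) (nat_lit 3202498368) (nat_lit 152) (nat_lit 11496878400) (nat_lit 228) (nat_lit 55298782596) (nat_lit 18) (nat_lit 5) (nat_lit 20) (nat_lit 5) (nat_lit 21) (nat_lit 5) (nat_lit 348) (nat_lit 320) (nat_lit 232)))) (XT.nd (nat_lit 156) (nat_lit 0) (nat_lit 0) (XT.nd (nat_lit 78) (nat_lit 76) (nat_lit 0) (XT.lf (nat_lit 0) (nat_lit 29888259140) (nat_lit 228) (nat_lit 34359358832) (nat_lit 76) (nat_lit 9637872715) (nat_lit 18) (nat_lit 5) (nat_lit 21) (nat_lit 5) (nat_lit 19) (nat_lit 4) (nat_lit 349) (nat_lit 320) (nat_lit 231)) (XT.lf (nat_lit 0) (nat_lit 386483400) (nat_lit 76) (nat_lit 46210155103) (nat_lit 152) (nat_lit 31462822176) (nat_lit 17) (nat_lit 5) (nat_lit 18) (nat_lit 5) (nat_lit 19) (nat_lit 4) (nat_lit 350) (nat_lit 320) (nat_lit 230))) (XT.nd (nat_lit 78) (nat_lit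 0) (nat_lit 0) (XT.lf (nat_lit 0) (nat_lit 39860116698) (nat_lit 76) (nat_lit 25717607455) (nat_lit 152) (nat_lit 16914744088) (nat_lit 17) (nat_lit 5) (nat_lit 18) (nat_lit 5) (nat_lit 19) (nat_lit 4) (nat_lit 351) (nat_lit 320) (nat_lit 229)) (XT.lf (nat_lit 0) (nat_lit 82486155943) (nat_lit 76) (nat_lit 3587983470) (nat_lit 152) (nat_lit 1206232212) (nat_lit 17) (nat_lit 5) (nat_lit 18) (nat_lit 5) (nat_lit 19) (nat_lit 4) (nat_lit 352) (nat_lit 320) (nat_lit 228))))) (XT.nd (nat_lit 312) (nat_lit 228) (nat_lit 0) (XT.nd (nat_lit 156) (nat_lit 76) (nat_lit 0) (XT.nd (nat_lit 78) (nat_lit 0) (nat_lit 0) (XT.lf (nat_lit 0) (nat_lit 16392854758) (nat_lit 152) (nat_lit 55304784989) (nat_lit 76) (nat_lit 20609571827) (nat_lit 15) (nat_lit 5) (nat_lit 17) (nat_lit 5) (nat_lit 16) (nat_lit 4) (nat_lit 353) (nat_lit 320) (nat_lit 227)) (XT.lf (nat_lit 0) (nat_lit 35559427191) (nat_lit 152)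 (nat_lit 15443477806) (nat_lit 76) (nat_lit 46712811248) (nat_lit 15) (nat_lit 5) (nat_lit 17) (nat_lit 5) (nat_lit 16) (nat_lit 4) (nat_lit 354) (nat_lit 320) (nat_lit 226))) (XT.nd (nat_lit 78) (nat_lit 0) (nat_lit 0) (XT.lf (nat_lit 0) (nat_lit 29055302108) (nat_lit 76) (nat_lit 27900067829) (nat_lit 152) (nat_lit 46545849729) (nat_lit 14) (nat_lit 5) (nat_lit 15) (nat_lit 5) (nat_lit 16) (nat_lit 4) (nat_lit 355) (nat_lit 320) (nat_lit 225)) (XT.lf (nat_lit 0) (nat_lit 77987496897) (nat_lit 76) (nat_lit 2495094982) (nat_lit 152) (nat_lit 29233404974) (nat_lit 14) (nat_lit 5) (nat_lit 15) (nat_lit 5) (nat_lit 16) (nat_lit 4) (nat_lit 356) (nat_lit 320) (nat_lit 224)))) (XT.nd (nat_lit 156) (nat_lit 76) (nat_lit 0) (XT.nd (nat_lit 78) (nat_lit 76) (nat_lit 0) (XT.lf (nat_lit 0) (nat_lit 14528662394) (nat_lit 76) (nat_lit 92310106797) (nat_lit 76) (nat_lit 9513446475) (nat_lit 13) (nat_lit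 4) (nat_lit 14) (nat_lit 5) (nat_lit 14) (nat_lit 4) (nat_lit 357) (nat_lit 320) (nat_lit 223)) (XT.lf (nat_lit 0) (nat_lit 12146988047) (nat_lit 152) (nat_lit 57534439360) (nat_lit 76) (nat_lit 53739043899) (nat_lit 12) (nat_lit 5) (nat_lit 14) (nat_lit 5) (nat_lit 13) (nat_lit 4) (nat_lit 358) (nat_lit 320) (nat_lit 222))) (XT.nd (nat_lit 78) (nat_lit 76) (nat_lit 0) (XT.lf (nat_lit 0) (nat_lit 35023982538) (nat_lit 152) (nat_lit 9953544685) (nat_lit 76) (nat_lit 86057077418) (nat_lit 12) (nat_lit 5) (nat_lit 14) (nat_lit 5) (nat_lit 13) (nat_lit 4) (nat_lit 359) (nat_lit 320) (nat_lit 221)) (XT.lf (nat_lit 0) (nat_lit 43611514824) (nat_lit 76) (nat_lit 17166348651) (nat_lit 152) (nat_lit 78396268239) (nat_lit 11) (nat_lit 5) (nat_lit 12) (nat_lit 5) (nat_lit 13) (nat_lit 4) (nat_lit 360) (nat_lit 320) (nat_lit 220)))))) (XT.nd (nat_lit 624) (nat_lit 304) (nat_lit 0) (XT.nd (nat_lit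 312) (nat_lit 76) (nat_lit 0) (XT.nd (nat_lit 156) (nat_lit 76) (nat_lit 0) (XT.nd (nat_lit 78) (nat_lit 76) (nat_lit 0) (XT.lf (nat_lit 0) (nat_lit 89178680510) (nat_lit 152) (nat_lit 46235744783) (nat_lit 0) (nat_lit 12503466740) (nat_lit 11) (nat_lit 5) (nat_lit 13) (nat_lit 4) (nat_lit 11) (nat_lit 4) (nat_lit 361) (nat_lit 320) (nat_lit 219)) (XT.lf (nat_lit 0) (nat_lit 6934633695) (nat_lit 76) (nat_lit 113527634772) (nat_lit 76) (nat_lit 36850029312) (nat_lit 10) (nat_lit 4) (nat_lit 11) (nat_lit 5) (nat_lit 11) (nat_lit 4) (nat_lit 362) (nat_lit 320) (nat_lit 218))) (XT.nd (nat_lit 78) (nat_lit 76) (nat_lit 0) (XT.lf (nat_lit 0) (nat_lit 66984540276) (nat_lit 76) (nat_lit 88526277366) (nat_lit 76) (nat_lit 11846457379) (nat_lit 10) (nat_lit 4) (nat_lit 11) (nat_lit 5) (nat_lit 11) (nat_lit 4) (nat_lit 363) (nat_lit 320) (nat_lit 217)) (XT.lf (nat_lit 0) (nat_lit 14397366583) (nat_lit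 152) (nat_lit 46735347981) (nat_lit 76) (nat_lit 117044117774) (nat_lit 9) (nat_lit 5) (nat_lit 11) (nat_lit 5) (nat_lit 10) (nat_lit 4) (nat_lit 364) (nat_lit 320) (nat_lit 216)))) (XT.nd (nat_lit 156) (nat_lit 0) (nat_lit 0) (XT.nd (nat_lit 78) (nat_lit 0) (nat_lit 0) (XT.lf (nat_lit 0) (nat_lit 11455216716) (nat_lit 76) (nat_lit 30919295683) (nat_lit 152) (nat_lit 147440920010) (nat_lit 8) (nat_lit 5) (nat_lit 9) (nat_lit 5) (nat_lit 10) (nat_lit 4) (nat_lit 365) (nat_lit 320) (nat_lit 215)) (XT.lf (nat_lit 0) (nat_lit 73940350488) (nat_lit 152) (nat_lit 125401496202) (nat_lit 0) (nat_lit 2935232860) (nat_lit 8) (nat_lit 5) (nat_lit 10) (nat_lit 4) (nat_lit 8) (nat_lit 4) (nat_lit 366) (nat_lit 320) (nat_lit 214))) (XT.nd (nat_lit 78) (nat_lit 0) (nat_lit 0) (XT.lf (nat_lit 0) (nat_lit 108833025260) (nat_lit 152) (nat_lit 69012107827) (nat_lit 0) (nat_lit 37826400462) (nat_lit 8) (nat_lit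 5) (nat_lit 10) (nat_lit 4) (nat_lit 8) (nat_lit 4) (nat_lit 367) (nat_lit 320) (nat_lit 213)) (XT.lf (nat_lit 0) (nat_lit 146515698317) (nat_lit 152) (nat_lit 8114281427) (nat_lit 0) (nat_lit 75507677991) (nat_lit 8) (nat_lit 5) (nat_lit 10) (nat_lit 4) (nat_lit 8) (nat_lit 4) (nat_lit 368) (nat_lit 320) (nat_lit 212))))) (XT.nd (nat_lit 312) (nat_lit 76) (nat_lit 0) (XT.nd (nat_lit 156) (nat_lit 152) (nat_lit 0) (XT.nd (nat_lit 78) (nat_lit 0) (nat_lit 0) (XT.lf (nat_lit 0) (nat_lit 60688756391) (nat_lit 76) (nat_lit 127982484048) (nat_lit 76) (nat_lit 56973171567) (nat_lit 7) (nat_lit 4) (nat_lit 8) (nat_lit 5) (nat_lit 8) (nat_lit 4) (nat_lit 369) (nat_lit 320) (nat_lit 211)) (XT.lf (nat_lit 0) (nat_lit 135455055129) (nat_lit 76) (nat_lit 98964757017) (nat_lit 76) (nat_lit 27954248096) (nat_lit 7) (nat_lit 4) (nat_lit 8) (nat_lit 5) (nat_lit 8) (nat_lit 4) (nat_lit 370) (nat_lit 320)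 (nat_lit 210))) (XT.nd (nat_lit 78) (nat_lit 76) (nat_lit 0) (XT.lf (nat_lit 0) (nat_lit 3215588933) (nat_lit 152) (nat_lit 64323191753) (nat_lit 76) (nat_lit 212896881820) (nat_lit 6) (nat_lit 5) (nat_lit 8) (nat_lit 5) (nat_lit 7) (nat_lit 4) (nat_lit 371) (nat_lit 320) (nat_lit 209)) (XT.lf (nat_lit 0) (nat_lit 2686429848) (nat_lit 76) (nat_lit 32745816468) (nat_lit 152) (nat_lit 264446781193) (nat_lit 5) (nat_lit 5) (nat_lit 6) (nat_lit 5) (nat_lit 7) (nat_lit 4) (nat_lit 372) (nat_lit 320) (nat_lit 208)))) (XT.nd (nat_lit 156) (nat_lit 76) (nat_lit 0) (XT.nd (nat_lit 78) (nat_lit 0) (nat_lit 0) (XT.lf (nat_lit 0) (nat_lit 72145690882) (nat_lit 152) (nat_lit 242186250134) (nat_lit 0) (nat_lit 6392364712) (nat_lit 5) (nat_lit 5) (nat_lit 7) (nat_lit 4) (nat_lit 5) (nat_lit 4) (nat_lit 373) (nat_lit 320) (nat_lit 207)) (XT.lf (nat_lit 0) (nat_lit 112645722140) (nat_lit 152) (nat_lit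 183631941838) (nat_lit 0) (nat_lit 46891581694) (nat_lit 5) (nat_lit 5) (nat_lit 7) (nat_lit 4) (nat_lit 5) (nat_lit 4) (nat_lit 374) (nat_lit 320) (nat_lit 206))) (XT.nd (nat_lit 78) (nat_lit 76) (nat_lit 0) (XT.lf (nat_lit 0) (nat_lit 156384802603) (nat_lit 152) (nat_lit 120395146605) (nat_lit 0) (nat_lit 90629908196) (nat_lit 5) (nat_lit 5) (nat_lit 7) (nat_lit 4) (nat_lit 5) (nat_lit 4) (nat_lit 375) (nat_lit 320) (nat_lit 205)) (XT.nd (nat_lit 78) (nat_lit 76) (nat_lit 0) (XT.lf (nat_lit 0) (nat_lit 203622126821) (nat_lit 152) (nat_lit 52101127871) (nat_lit 0) (nat_lit 137866534303) (nat_lit 5) (nat_lit 5) (nat_lit 7) (nat_lit 4) (nat_lit 5) (nat_lit 4) (nat_lit 376) (nat_lit 320) (nat_lit 204)) (XT.lf (nat_lit 0) (nat_lit 22795124087) (nat_lit 76) (nat_lit 232390718874) (nat_lit 76) (nat_lit 166634479956) (nat_lit 4) (nat_lit 4) (nat_lit 5) (nat_lit 5) (nat_lit 5) (nat_lit 4) (nat_lit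 377) (nat_lit 320) (nat_lit 203))))))))
noncomputable def xc158 : XT := (XT.nd (nat_lit 1248) (nat_lit 76) (nat_lit 0) (XT.nd (nat_lit 624) (nat_lit 0) (nat_lit 0) (XT.nd (nat_lit 312) (nat_lit 152) (nat_lit 0) (XT.nd (nat_lit 156) (nat_lit 0) (nat_lit 0) (XT.nd (nat_lit 78) (nat_lit 0) (nat_lit 0) (XT.lf (nat_lit 0) (nat_lit 106644561130) (nat_lit 76) (nat_lit 205653838338) (nat_lit 76) (nat_lit 139897000902) (nat_lit 4) (nat_lit 4) (nat_lit 5) (nat_lit 5) (nat_lit 5) (nat_lit 4) (nat_lit 378) (nat_lit 320) (nat_lit 202)) (XT.lf (nat_lit 0) (nat_lit 197200515748) (nat_lit 76) (nat_lit 176778709477) (nat_lit 76) (nat_lit 111021317858) (nat_lit 4) (nat_lit 4) (nat_lit 5) (nat_lit 5) (nat_lit 5) (nat_lit 4) (nat_lit 379) (nat_lit 320) (nat_lit 201))) (XT.nd (nat_lit 78) (nat_lit 0) (nat_lit 0) (XT.lf (nat_lit 0) (nat_lit 294999615819) (nat_lit 76) (nat_lit 145594220417) (nat_lit 76) (nat_lit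 79836315666) (nat_lit 4) (nat_lit 4) (nat_lit 5) (nat_lit 5) (nat_lit 5) (nat_lit 4) (nat_lit 380) (nat_lit 320) (nat_lit 200)) (XT.lf (nat_lit 0) (nat_lit 400621411567) (nat_lit 76) (nat_lit 111915574186) (nat_lit 76) (nat_lit 46157194311) (nat_lit 4) (nat_lit 4) (nat_lit 5) (nat_lit 5) (nat_lit 5) (nat_lit 4) (nat_lit 381) (nat_lit 320) (nat_lit 199)))) (XT.nd (nat_lit 156) (nat_lit 76) (nat_lit 0) (XT.nd (nat_lit 78) (nat_lit 76) (nat_lit 0) (XT.lf (nat_lit 0) (nat_lit 514691809929) (nat_lit 76) (nat_lit 75543193620) (nat_lit 76) (nat_lit 9784373817) (nat_lit 4) (nat_lit 4) (nat_lit 5) (nat_lit 5) (nat_lit 5) (nat_lit 4) (nat_lit 382) (nat_lit 320) (nat_lit 198)) (XT.lf (nat_lit 0) (nat_lit 28022094613) (nat_lit 152) (nat_lit 7473270348) (nat_lit 76) (nat_lit 609098515297) (nat_lit 3) (nat_lit 5) (nat_lit 5) (nat_lit 5) (nat_lit 4) (nat_lit 4) (nat_lit 383) (nat_lit 320) (nat_lit 197)))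 (XT.nd (nat_lit 78) (nat_lit 0) (nat_lit 0) (XT.lf (nat_lit 0) (nat_lit 70500311419) (nat_lit 152) (nat_lit 612427844741) (nat_lit 0) (nat_lit 9611788908) (nat_lit 2) (nat_lit 5) (nat_lit 4) (nat_lit 4) (nat_lit 2) (nat_lit 4) (nat_lit 384) (nat_lit 320) (nat_lit 196)) (XT.lf (nat_lit 0) (nat_lit 117507872234) (nat_lit 152) (nat_lit 570104309677) (nat_lit 0) (nat_lit 56619026362) (nat_lit 2) (nat_lit 5) (nat_lit 4) (nat_lit 4) (nat_lit 2) (nat_lit 4) (nat_lit 385) (nat_lit 320) (nat_lit 195))))) (XT.nd (nat_lit 312) (nat_lit 0) (nat_lit 0) (XT.nd (nat_lit 156) (nat_lit 0) (nat_lit 0) (XT.nd (nat_lit 78) (nat_lit 0) (nat_lit 0) (XT.lf (nat_lit 0) (nat_lit 168275565080) (nat_lit 152) (nat_lit 524395825611) (nat_lit 0) (nat_lit 107386419800) (nat_lit 2) (nat_lit 5) (nat_lit 4) (nat_lit 4) (nat_lit 2) (nat_lit 4) (nat_lit 386) (nat_lit 320) (nat_lit 194)) (XT.lf (nat_lit 0) (nat_lit 223104235544)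 (nat_lit 152) (nat_lit 475031527453) (nat_lit 0) (nat_lit 162214813035) (nat_lit 2) (nat_lit 5) (nat_lit 4) (nat_lit 4) (nat_lit 2) (nat_lit 4) (nat_lit 387) (nat_lit 320) (nat_lit 193))) (XT.nd (nat_lit 78) (nat_lit 0) (nat_lit 0) (XT.lf (nat_lit 0) (nat_lit 282318794268) (nat_lit 152) (nat_lit 421718886029) (nat_lit 0) (nat_lit 221429115064) (nat_lit 2) (nat_lit 5) (nat_lit 4) (nat_lit 4) (nat_lit 2) (nat_lit 4) (nat_lit 388) (nat_lit 320) (nat_lit 192)) (XT.lf (nat_lit 0) (nat_lit 346270142338) (nat_lit 152) (nat_lit 364141974573) (nat_lit 0) (nat_lit 285380225455) (nat_lit 2) (nat_lit 5) (nat_lit 4) (nat_lit 4) (nat_lit 2) (nat_lit 4) (nat_lit 389) (nat_lit 320) (nat_lit 191)))) (XT.nd (nat_lit 156) (nat_lit 0) (nat_lit 0) (XT.nd (nat_lit 78) (nat_lit 0) (nat_lit 0) (XT.lf (nat_lit 0) (nat_lit 415337250708) (nat_lit 152) (nat_lit 301959596575) (nat_lit 0) (nat_lit 354447113751) (nat_lit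 2) (nat_lit 5) (nat_lit 4) (nat_lit 4) (nat_lit 2) (nat_lit 4) (nat_lit 390) (nat_lit 320) (nat_lit 190)) (XT.lf (nat_lit 0) (nat_lit 489929405944) (nat_lit 152) (nat_lit 234803263867) (nat_lit 0) (nat_lit 429039065215) (nat_lit 2) (nat_lit 5) (nat_lit 4) (nat_lit 4) (nat_lit 2) (nat_lit 4) (nat_lit 391) (nat_lit 320) (nat_lit 189))) (XT.nd (nat_lit 78) (nat_lit 0) (nat_lit 0) (XT.lf (nat_lit 0) (nat_lit 570488635634) (nat_lit 152) (nat_lit 162275012997) (nat_lit 0) (nat_lit 509598106227) (nat_lit 2) (nat_lit 5) (nat_lit 4) (nat_lit 4) (nat_lit 2) (nat_lit 4) (nat_lit 392) (nat_lit 320) (nat_lit 188)) (XT.lf (nat_lit 0) (nat_lit 657492327806) (nat_lit 152) (nat_lit 83945046923) (nat_lit 0) (nat_lit 596601623697) (nat_lit 2) (nat_lit 5) (nat_lit 4) (nat_lit 4) (nat_lit 2) (nat_lit 4) (nat_lit 393) (nat_lit 320) (nat_lit 187)))))) (XT.nd (nat_lit 624) (nat_lit 0) (nat_lit 0) (XT.nd (nat_lit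 312) (nat_lit 0) (nat_lit 0) (XT.nd (nat_lit 156) (nat_lit 0) (nat_lit 0) (XT.nd (nat_lit 78) (nat_lit 0) (nat_lit 0) (XT.lf (nat_lit 0) (nat_lit 685082534) (nat_lit 76) (nat_lit 750787453611) (nat_lit 76) (nat_lit 689896587741) (nat_lit 1) (nat_lit 4) (nat_lit 2) (nat_lit 5) (nat_lit 2) (nat_lit 4) (nat_lit 394) (nat_lit 320) (nat_lit 186)) (XT.lf (nat_lit 0) (nat_lit 96859159816) (nat_lit 76) (nat_lit 758406959320) (nat_lit 76) (nat_lit 697515943673) (nat_lit 1) (nat_lit 4) (nat_lit 2) (nat_lit 5) (nat_lit 2) (nat_lit 4) (nat_lit 395) (nat_lit 320) (nat_lit 185))) (XT.nd (nat_lit 78) (nat_lit 0) (nat_lit 0) (XT.lf (nat_lit 0) (nat_lit 200726707973) (nat_lit 76) (nat_lit 766636250831) (nat_lit 76) (nat_lit 705745096500) (nat_lit 1) (nat_lit 4) (nat_lit 2) (nat_lit 5) (nat_lit 2) (nat_lit 4) (nat_lit 396) (nat_lit 320) (nat_lit 184)) (XT.lf (nat_lit 0) (nat_lit 312903238401) (nat_lit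 76) (nat_lit 775524094315) (nat_lit 76) (nat_lit 714632811573) (nat_lit 1) (nat_lit 4) (nat_lit 2) (nat_lit 5) (nat_lit 2) (nat_lit 4) (nat_lit 397) (nat_lit 320) (nat_lit 183)))) (XT.nd (nat_lit 156) (nat_lit 0) (nat_lit 0) (XT.nd (nat_lit 78) (nat_lit 0) (nat_lit 0) (XT.lf (nat_lit 0) (nat_lit 434053500910) (nat_lit 76) (nat_lit 785123158475) (nat_lit 76) (nat_lit 724231756833) (nat_lit 1) (nat_lit 4) (nat_lit 2) (nat_lit 5) (nat_lit 2) (nat_lit 4) (nat_lit 398) (nat_lit 320) (nat_lit 182)) (XT.lf (nat_lit 0) (nat_lit 564895422981) (nat_lit 76) (nat_lit 795490326652) (nat_lit 76) (nat_lit 734598814919) (nat_lit 1) (nat_lit 4) (nat_lit 2) (nat_lit 5) (nat_lit 2) (nat_lit 4) (nat_lit 399) (nat_lit 320) (nat_lit 181))) (XT.nd (nat_lit 78) (nat_lit 0) (nat_lit 0) (XT.lf (nat_lit 0) (nat_lit 706204364153) (nat_lit 76) (nat_lit 806687033919) (nat_lit 76) (nat_lit 745795420249) (nat_lit 1)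 (nat_lit 4) (nat_lit 2) (nat_lit 5) (nat_lit 2) (nat_lit 4) (nat_lit 400) (nat_lit 320) (nat_lit 180)) (XT.lf (nat_lit 0) (nat_lit 858817710744) (nat_lit 76) (nat_lit 818779631133) (nat_lit 76) (nat_lit 757887923077) (nat_lit 1) (nat_lit 4) (nat_lit 2) (nat_lit 5) (nat_lit 2) (nat_lit 4) (nat_lit 401) (nat_lit 320) (nat_lit 179))))) (XT.nd (nat_lit 312) (nat_lit 0) (nat_lit 0) (XT.nd (nat_lit 156) (nat_lit 0) (nat_lit 0) (XT.nd (nat_lit 78) (nat_lit 0) (nat_lit 0) (XT.lf (nat_lit 0) (nat_lit 1023639838141) (nat_lit 76) (nat_lit 831839778129) (nat_lit 76) (nat_lit 770947982678) (nat_lit 1) (nat_lit 4) (nat_lit 2) (nat_lit 5) (nat_lit 2) (nat_lit 4) (nat_lit 402) (nat_lit 320) (nat_lit 178)) (XT.lf (nat_lit 0) (nat_lit 1201647470062) (nat_lit 76) (nat_lit 845944868371) (nat_lit 76) (nat_lit 785052992000) (nat_lit 1) (nat_lit 4) (nat_lit 2) (nat_lit 5) (nat_lit 2) (nat_lit 4) (nat_lit 403)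 (nat_lit 320) (nat_lit 177))) (XT.nd (nat_lit 78) (nat_lit 0) (nat_lit 0) (XT.lf (nat_lit 0) (nat_lit 1393895466548) (nat_lit 76) (nat_lit 861178487578) (nat_lit 76) (nat_lit 800286536281) (nat_lit 1) (nat_lit 4) (nat_lit 2) (nat_lit 5) (nat_lit 2) (nat_lit 4) (nat_lit 404) (nat_lit 320) (nat_lit 176)) (XT.lf (nat_lit 0) (nat_lit 1601523074986) (nat_lit 76) (nat_lit 877630909051) (nat_lit 76) (nat_lit 816738888377) (nat_lit 1) (nat_lit 4) (nat_lit 2) (nat_lit 5) (nat_lit 2) (nat_lit 4) (nat_lit 405) (nat_lit 320) (nat_lit 175)))) (XT.nd (nat_lit 156) (nat_lit 0) (nat_lit 0) (XT.nd (nat_lit 78) (nat_lit 0) (nat_lit 0) (XT.lf (nat_lit 0) (nat_lit 1825760681202) (nat_lit 76) (nat_lit 895399628620) (nat_lit 76) (nat_lit 834507543708) (nat_lit 1) (nat_lit 4) (nat_lit 2) (nat_lit 5) (nat_lit 2) (nat_lit 4) (nat_lit 406) (nat_lit 320) (nat_lit 174)) (XT.lf (nat_lit 0) (nat_lit 2067937100643)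 (nat_lit 76) (nat_lit 914589942400) (nat_lit 76) (nat_lit 853697798010) (nat_lit 1) (nat_lit 4) (nat_lit 2) (nat_lit 5) (nat_lit 2) (nat_lit 4) (nat_lit 407) (nat_lit 320) (nat_lit 173))) (XT.nd (nat_lit 40092) (nat_lit 0) (nat_lit 3800) (XT.lf (nat_lit 0) (nat_lit 2329487452829) (nat_lit 76) (nat_lit 935315570770) (nat_lit 76) (nat_lit 874423371307) (nat_lit 1) (nat_lit 4) (nat_lit 2) (nat_lit 5) (nat_lit 2) (nat_lit 4) (nat_lit 408) (nat_lit 320) (nat_lit 172)) (XT.nd (nat_lit 78) (nat_lit 0) (nat_lit 0) (XT.lf (nat_lit 0) (nat_lit 6873020713) (nat_lit 532) (nat_lit 1720666809) (nat_lit 532) (nat_lit 1720666809) (nat_lit 51) (nat_lit 3) (nat_lit 58) (nat_lit 3) (nat_lit 58) (nat_lit 5) (nat_lit 321) (nat_lit 321) (nat_lit 258)) (XT.lf (nat_lit 76) (nat_lit 6559891671) (nat_lit 0) (nat_lit 8037099506) (nat_lit 532) (nat_lit 6832467944) (nat_lit 52) (nat_lit 5) (nat_lit 51) (nat_lit 3)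 (nat_lit 58) (nat_lit 5) (nat_lit 322) (nat_lit 321) (nat_lit 257))))))))
noncomputable def xc159 : XT := (XT.nd (nat_lit 1248) (nat_lit 1216) (nat_lit 0) (XT.nd (nat_lit 624) (nat_lit 912) (nat_lit 0) (XT.nd (nat_lit 312) (nat_lit 684) (nat_lit 0) (XT.nd (nat_lit 156) (nat_lit 0) (nat_lit 0) (XT.nd (nat_lit 78) (nat_lit 0) (nat_lit 0) (XT.lf (nat_lit 0) (nat_lit 15642545664) (nat_lit 456) (nat_lit 4786152005) (nat_lit 532) (nat_lit 1855480584) (nat_lit 52) (nat_lit 5) (nat_lit 58) (nat_lit 5) (nat_lit 59) (nat_lit 5) (nat_lit 323) (nat_lit 321) (nat_lit 256)) (XT.lf (nat_lit 76) (nat_lit 6196336086) (nat_lit 0) (nat_lit 10919867383) (nat_lit 532) (nat_lit 6063543379) (nat_lit 53) (nat_lit 5) (nat_lit 52) (nat_lit 5) (nat_lit 59) (nat_lit 5) (nat_lit 324) (nat_lit 321) (nat_lit 255))) (XT.nd (nat_lit 78) (nat_lit 0) (nat_lit 76) (XT.lf (nat_lit 76) (nat_lit 18321028400) (nat_lit 0) (nat_lit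 505048528) (nat_lit 532) (nat_lit 5311444683) (nat_lit 53) (nat_lit 5) (nat_lit 52) (nat_lit 5) (nat_lit 59) (nat_lit 5) (nat_lit 325) (nat_lit 321) (nat_lit 254)) (XT.lf (nat_lit 76) (nat_lit 6291124133) (nat_lit 0) (nat_lit 14779764110) (nat_lit 532) (nat_lit 4069202835) (nat_lit 54) (nat_lit 5) (nat_lit 53) (nat_lit 5) (nat_lit 60) (nat_lit 5) (nat_lit 326) (nat_lit 321) (nat_lit 253)))) (XT.nd (nat_lit 156) (nat_lit 380) (nat_lit 0) (XT.nd (nat_lit 78) (nat_lit 380) (nat_lit 0) (XT.lf (nat_lit 76) (nat_lit 19675565961) (nat_lit 0) (nat_lit 3980658404) (nat_lit 532) (nat_lit 2553789287) (nat_lit 54) (nat_lit 5) (nat_lit 53) (nat_lit 5) (nat_lit 60) (nat_lit 5) (nat_lit 327) (nat_lit 321) (nat_lit 252)) (XT.lf (nat_lit 0) (nat_lit 6917524516) (nat_lit 456) (nat_lit 19871964403) (nat_lit 532) (nat_lit 548774045) (nat_lit 48) (nat_lit 5) (nat_lit 54) (nat_lit 5) (nat_lit 55) (nat_lit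 5) (nat_lit 328) (nat_lit 321) (nat_lit 251))) (XT.nd (nat_lit 78) (nat_lit 304) (nat_lit 0) (XT.lf (nat_lit 0) (nat_lit 1812709552) (nat_lit 532) (nat_lit 6881413680) (nat_lit 76) (nat_lit 19837401569) (nat_lit 47) (nat_lit 5) (nat_lit 54) (nat_lit 5) (nat_lit 48) (nat_lit 5) (nat_lit 329) (nat_lit 321) (nat_lit 250)) (XT.lf (nat_lit 0) (nat_lit 4606520058) (nat_lit 380) (nat_lit 21766286625) (nat_lit 76) (nat_lit 3424472804) (nat_lit 43) (nat_lit 5) (nat_lit 48) (nat_lit 5) (nat_lit 44) (nat_lit 5) (nat_lit 330) (nat_lit 321) (nat_lit 249))))) (XT.nd (nat_lit 312) (nat_lit 456) (nat_lit 0) (XT.nd (nat_lit 156) (nat_lit 228) (nat_lit 0) (XT.nd (nat_lit 78) (nat_lit 228) (nat_lit 0) (XT.lf (nat_lit 0) (nat_lit 8034129210) (nat_lit 380) (nat_lit 6861300181) (nat_lit 76) (nat_lit 16236057131) (nat_lit 43) (nat_lit 5) (nat_lit 48) (nat_lit 5) (nat_lit 44) (nat_lit 5) (nat_lit 331) (nat_lit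 321) (nat_lit 248)) (XT.lf (nat_lit 0) (nat_lit 9713578004) (nat_lit 228) (nat_lit 2248050655) (nat_lit 304) (nat_lit 20592761266) (nat_lit 40) (nat_lit 5) (nat_lit 43) (nat_lit 5) (nat_lit 44) (nat_lit 5) (nat_lit 332) (nat_lit 321) (nat_lit 247))) (XT.nd (nat_lit 78) (nat_lit 228) (nat_lit 0) (XT.lf (nat_lit 0) (nat_lit 16662682383) (nat_lit 304) (nat_lit 6359580314) (nat_lit 76) (nat_lit 11032127827) (nat_lit 40) (nat_lit 5) (nat_lit 44) (nat_lit 5) (nat_lit 41) (nat_lit 5) (nat_lit 333) (nat_lit 321) (nat_lit 246)) (XT.lf (nat_lit 0) (nat_lit 11972518124) (nat_lit 228) (nat_lit 10106636084) (nat_lit 304) (nat_lit 13568102545) (nat_lit 37) (nat_lit 5) (nat_lit 40) (nat_lit 5) (nat_lit 41) (nat_lit 5) (nat_lit 334) (nat_lit 321) (nat_lit 245)))) (XT.nd (nat_lit 156) (nat_lit 304) (nat_lit 0) (XT.nd (nat_lit 78) (nat_lit 152) (nat_lit 0) (XT.lf (nat_lit 0) (nat_lit 28193048253) (nat_lit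 304) (nat_lit 5326167042) (nat_lit 76) (nat_lit 3827220004) (nat_lit 37) (nat_lit 5) (nat_lit 41) (nat_lit 5) (nat_lit 38) (nat_lit 5) (nat_lit 335) (nat_lit 321) (nat_lit 244)) (XT.lf (nat_lit 0) (nat_lit 14968741834) (nat_lit 152) (nat_lit 20443616799) (nat_lit 228) (nat_lit 3719895644) (nat_lit 35) (nat_lit 5) (nat_lit 37) (nat_lit 5) (nat_lit 38) (nat_lit 5) (nat_lit 336) (nat_lit 321) (nat_lit 243))) (XT.nd (nat_lit 78) (nat_lit 228) (nat_lit 0) (XT.lf (nat_lit 0) (nat_lit 2184127824) (nat_lit 228) (nat_lit 3922556865) (nat_lit 76) (nat_lit 34938664376) (nat_lit 34) (nat_lit 5) (nat_lit 37) (nat_lit 5) (nat_lit 35) (nat_lit 5) (nat_lit 337) (nat_lit 321) (nat_lit 242)) (XT.lf (nat_lit 0) (nat_lit 9045064396) (nat_lit 304) (nat_lit 24535051605) (nat_lit 76) (nat_lit 9468809165) (nat_lit 31) (nat_lit 5) (nat_lit 35) (nat_lit 5) (nat_lit 32) (nat_lit 5) (nat_lit 338) (nat_lit 321) (nat_lit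 241)))))) (XT.nd (nat_lit 624) (nat_lit 532) (nat_lit 0) (XT.nd (nat_lit 312) (nat_lit 380) (nat_lit 0) (XT.nd (nat_lit 156) (nat_lit 152) (nat_lit 0) (XT.nd (nat_lit 78) (nat_lit 152) (nat_lit 0) (XT.lf (nat_lit 0) (nat_lit 16718088144) (nat_lit 304) (nat_lit 2404896775) (nat_lit 76) (nat_lit 26068753200) (nat_lit 31) (nat_lit 5) (nat_lit 35) (nat_lit 5) (nat_lit 32) (nat_lit 5) (nat_lit 339) (nat_lit 321) (nat_lit 240)) (XT.lf (nat_lit 0) (nat_lit 22620200202) (nat_lit 152) (nat_lit 2923734487) (nat_lit 228) (nat_lit 21918930117) (nat_lit 29) (nat_lit 5) (nat_lit 31) (nat_lit 5) (nat_lit 32) (nat_lit 5) (nat_lit 340) (nat_lit 321) (nat_lit 239))) (XT.nd (nat_lit 78) (nat_lit 152) (nat_lit 0) (XT.lf (nat_lit 0) (nat_lit 35488879178) (nat_lit 228) (nat_lit 485690192) (nat_lit 76) (nat_lit 13908076477) (nat_lit 29) (nat_lit 5) (nat_lit 32) (nat_lit 5) (nat_lit 30) (nat_lit 5) (nat_lit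 341) (nat_lit 321) (nat_lit 238)) (XT.lf (nat_lit 0) (nat_lit 27092520585) (nat_lit 152) (nat_lit 19859901043) (nat_lit 228) (nat_lit 5485753697) (nat_lit 27) (nat_lit 5) (nat_lit 29) (nat_lit 5) (nat_lit 30) (nat_lit 5) (nat_lit 342) (nat_lit 321) (nat_lit 237)))) (XT.nd (nat_lit 156) (nat_lit 152) (nat_lit 0) (XT.nd (nat_lit 78) (nat_lit 0) (nat_lit 0) (XT.lf (nat_lit 0) (nat_lit 1685312548) (nat_lit 152) (nat_lit 2292445446) (nat_lit 228) (nat_lit 51208462711) (nat_lit 24) (nat_lit 5) (nat_lit 26) (nat_lit 5) (nat_lit 27) (nat_lit 5) (nat_lit 343) (nat_lit 321) (nat_lit 236)) (XT.lf (nat_lit 0) (nat_lit 15009799824) (nat_lit 228) (nat_lit 26346985821) (nat_lit 76) (nat_lit 16697304188) (nat_lit 24) (nat_lit 5) (nat_lit 27) (nat_lit 5) (nat_lit 25) (nat_lit 5) (nat_lit 344) (nat_lit 321) (nat_lit 235))) (XT.nd (nat_lit 78) (nat_lit 0) (nat_lit 0) (XT.lf (nat_lit 0) (nat_lit 3066774663)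 (nat_lit 152) (nat_lit 23986914840) (nat_lit 228) (nat_lit 34087360746) (nat_lit 22) (nat_lit 5) (nat_lit 24) (nat_lit 5) (nat_lit 25) (nat_lit 5) (nat_lit 345) (nat_lit 321) (nat_lit 234)) (XT.lf (nat_lit 0) (nat_lit 36325828936) (nat_lit 152) (nat_lit 4451767901) (nat_lit 228) (nat_lit 23640054327) (nat_lit 22) (nat_lit 5) (nat_lit 24) (nat_lit 5) (nat_lit 25) (nat_lit 5) (nat_lit 346) (nat_lit 321) (nat_lit 233))))) (XT.nd (nat_lit 312) (nat_lit 228) (nat_lit 0) (XT.nd (nat_lit 156) (nat_lit 152) (nat_lit 0) (XT.nd (nat_lit 78) (nat_lit 76) (nat_lit 0) (XT.lf (nat_lit 0) (nat_lit 4087389739) (nat_lit 76) (nat_lit 52007038165) (nat_lit 152) (nat_lit 11822355228) (nat_lit 21) (nat_lit 5) (nat_lit 22) (nat_lit 5) (nat_lit 23) (nat_lit 4) (nat_lit 347) (nat_lit 321) (nat_lit 232)) (XT.lf (nat_lit 0) (nat_lit 1793762733) (nat_lit 152) (nat_lit 31360065428) (nat_lit 76) (nat_lit 38468205710)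 (nat_lit 20) (nat_lit 5) (nat_lit 22) (nat_lit 5) (nat_lit 21) (nat_lit 5) (nat_lit 348) (nat_lit 321) (nat_lit 231))) (XT.nd (nat_lit 78) (nat_lit 0) (nat_lit 0) (XT.lf (nat_lit 0) (nat_lit 3572904753) (nat_lit 152) (nat_lit 12370148897) (nat_lit 228) (nat_lit 59649480338) (nat_lit 18) (nat_lit 5) (nat_lit 20) (nat_lit 5) (nat_lit 21) (nat_lit 5) (nat_lit 349) (nat_lit 321) (nat_lit 230)) (XT.lf (nat_lit 0) (nat_lit 32343064854) (nat_lit 228) (nat_lit 36998323464) (nat_lit 76) (nat_lit 10449786485) (nat_lit 18) (nat_lit 5) (nat_lit 21) (nat_lit 5) (nat_lit 19) (nat_lit 4) (nat_lit 350) (nat_lit 321) (nat_lit 229)))) (XT.nd (nat_lit 156) (nat_lit 152) (nat_lit 0) (XT.nd (nat_lit 78) (nat_lit 0) (nat_lit 0) (XT.lf (nat_lit 0) (nat_lit 524406803) (nat_lit 76) (nat_lit 49861559378) (nat_lit 152) (nat_lit 33913272197) (nat_lit 17) (nat_lit 5) (nat_lit 18) (nat_lit 5) (nat_lit 19) (nat_lit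 4) (nat_lit 351) (nat_lit 321) (nat_lit 228)) (XT.lf (nat_lit 0) (nat_lit 43148004489) (nat_lit 76) (nat_lit 27732971484) (nat_lit 152) (nat_lit 18206279400) (nat_lit 17) (nat_lit 5) (nat_lit 18) (nat_lit 5) (nat_lit 19) (nat_lit 4) (nat_lit 352) (nat_lit 321) (nat_lit 227))) (XT.nd (nat_lit 78) (nat_lit 152) (nat_lit 0) (XT.lf (nat_lit 0) (nat_lit 89176787728) (nat_lit 76) (nat_lit 3836091993) (nat_lit 152) (nat_lit 1245652812) (nat_lit 17) (nat_lit 5) (nat_lit 18) (nat_lit 5) (nat_lit 19) (nat_lit 4) (nat_lit 353) (nat_lit 321) (nat_lit 226)) (XT.nd (nat_lit 78) (nat_lit 0) (nat_lit 0) (XT.lf (nat_lit 0) (nat_lit 17757665264) (nat_lit 152) (nat_lit 59633654000) (nat_lit 76) (nat_lit 22296160866) (nat_lit 15) (nat_lit 5) (nat_lit 17) (nat_lit 5) (nat_lit 16) (nat_lit 4) (nat_lit 354) (nat_lit 321) (nat_lit 225)) (XT.lf (nat_lit 0) (nat_lit 38453609260) (nat_lit 152) (nat_lit 16590517337)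 (nat_lit 76) (nat_lit 50484857715) (nat_lit 15) (nat_lit 5) (nat_lit 17) (nat_lit 5) (nat_lit 16) (nat_lit 4) (nat_lit 355) (nat_lit 321) (nat_lit 224))))))))
noncomputable def xc160 : XT := (XT.nd (nat_lit 1248) (nat_lit 380) (nat_lit 0) (XT.nd (nat_lit 624) (nat_lit 228) (nat_lit 0) (XT.nd (nat_lit 312) (nat_lit 152) (nat_lit 0) (XT.nd (nat_lit 156) (nat_lit 152) (nat_lit 0) (XT.nd (nat_lit 78) (nat_lit 0) (nat_lit 0) (XT.lf (nat_lit 0) (nat_lit 31465926015) (nat_lit 76) (nat_lit 30093713191) (nat_lit 152) (nat_lit 50217818451) (nat_lit 14) (nat_lit 5) (nat_lit 15) (nat_lit 5) (nat_lit 16) (nat_lit 4) (nat_lit 356) (nat_lit 321) (nat_lit 223)) (XT.lf (nat_lit 0) (nat_lit 84306311221) (nat_lit 76) (nat_lit 2659184003) (nat_lit 152) (nat_lit 31524207690) (nat_lit 14) (nat_lit 5) (nat_lit 15) (nat_lit 5) (nat_lit 16) (nat_lit 4) (nat_lit 357) (nat_lit 321) (nat_lit 222))) (XT.nd (nat_lit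 78) (nat_lit 76) (nat_lit 0) (XT.lf (nat_lit 0) (nat_lit 15771399953) (nat_lit 76) (nat_lit 99658211224) (nat_lit 76) (nat_lit 10227254722) (nat_lit 13) (nat_lit 4) (nat_lit 14) (nat_lit 5) (nat_lit 14) (nat_lit 4) (nat_lit 358) (nat_lit 321) (nat_lit 221)) (XT.lf (nat_lit 0) (nat_lit 13160323906) (nat_lit 152) (nat_lit 62060495616) (nat_lit 76) (nat_lit 58069939522) (nat_lit 12) (nat_lit 5) (nat_lit 14) (nat_lit 5) (nat_lit 13) (nat_lit 4) (nat_lit 359) (nat_lit 321) (nat_lit 220)))) (XT.nd (nat_lit 156) (nat_lit 76) (nat_lit 0) (XT.nd (nat_lit 78) (nat_lit 76) (nat_lit 0) (XT.lf (nat_lit 0) (nat_lit 37864398192) (nat_lit 152) (nat_lit 10678810766) (nat_lit 76) (nat_lit 92971062233) (nat_lit 12) (nat_lit 5) (nat_lit 14) (nat_lit 5) (nat_lit 13) (nat_lit 4) (nat_lit 360) (nat_lit 321) (nat_lit 219)) (XT.lf (nat_lit 0) (nat_lit 47169655592) (nat_lit 76) (nat_lit 18507747112) (nat_lit 152)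 (nat_lit 84627654313) (nat_lit 11) (nat_lit 5) (nat_lit 12) (nat_lit 5) (nat_lit 13) (nat_lit 4) (nat_lit 361) (nat_lit 321) (nat_lit 218))) (XT.nd (nat_lit 78) (nat_lit 76) (nat_lit 0) (XT.lf (nat_lit 0) (nat_lit 96348231963) (nat_lit 152) (nat_lit 49868440111) (nat_lit 0) (nat_lit 13531811850) (nat_lit 11) (nat_lit 5) (nat_lit 13) (nat_lit 4) (nat_lit 11) (nat_lit 4) (nat_lit 362) (nat_lit 321) (nat_lit 217)) (XT.lf (nat_lit 0) (nat_lit 7553893600) (nat_lit 76) (nat_lit 122579552693) (nat_lit 76) (nat_lit 39761082092) (nat_lit 10) (nat_lit 4) (nat_lit 11) (nat_lit 5) (nat_lit 11) (nat_lit 4) (nat_lit 363) (nat_lit 321) (nat_lit 216))))) (XT.nd (nat_lit 312) (nat_lit 76) (nat_lit 0) (XT.nd (nat_lit 156) (nat_lit 76) (nat_lit 0) (XT.nd (nat_lit 78) (nat_lit 76) (nat_lit 0) (XT.lf (nat_lit 0) (nat_lit 72403015729) (nat_lit 76) (nat_lit 95580330610) (nat_lit 76) (nat_lit 12759961408) (nat_lit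 10) (nat_lit 4) (nat_lit 11) (nat_lit 5) (nat_lit 11) (nat_lit 4) (nat_lit 364) (nat_lit 321) (nat_lit 215)) (XT.lf (nat_lit 0) (nat_lit 15579249530) (nat_lit 152) (nat_lit 50417288141) (nat_lit 76) (nat_lit 126432019866) (nat_lit 9) (nat_lit 5) (nat_lit 11) (nat_lit 5) (nat_lit 10) (nat_lit 4) (nat_lit 365) (nat_lit 321) (nat_lit 214))) (XT.nd (nat_lit 78) (nat_lit 0) (nat_lit 0) (XT.lf (nat_lit 0) (nat_lit 12427081537) (nat_lit 76) (nat_lit 33366589830) (nat_lit 152) (nat_lit 159204646927) (nat_lit 8) (nat_lit 5) (nat_lit 9) (nat_lit 5) (nat_lit 10) (nat_lit 4) (nat_lit 366) (nat_lit 321) (nat_lit 213)) (XT.lf (nat_lit 0) (nat_lit 79883198229) (nat_lit 152) (nat_lit 135380685443) (nat_lit 0) (nat_lit 3193140749) (nat_lit 8) (nat_lit 5) (nat_lit 10) (nat_lit 4) (nat_lit 8) (nat_lit 4) (nat_lit 367) (nat_lit 321) (nat_lit 212)))) (XT.nd (nat_lit 156) (nat_lit 76) (nat_lit 0) (XT.nd (nat_lit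 78) (nat_lit 0) (nat_lit 0) (XT.lf (nat_lit 0) (nat_lit 117565241079) (nat_lit 152) (nat_lit 74484066773) (nat_lit 0) (nat_lit 40873891444) (nat_lit 8) (nat_lit 5) (nat_lit 10) (nat_lit 4) (nat_lit 8) (nat_lit 4) (nat_lit 368) (nat_lit 321) (nat_lit 211)) (XT.lf (nat_lit 0) (nat_lit 158260633625) (nat_lit 152) (nat_lit 8718044608) (nat_lit 0) (nat_lit 81568087550) (nat_lit 8) (nat_lit 5) (nat_lit 10) (nat_lit 4) (nat_lit 8) (nat_lit 4) (nat_lit 369) (nat_lit 321) (nat_lit 210))) (XT.nd (nat_lit 78) (nat_lit 0) (nat_lit 0) (XT.lf (nat_lit 0) (nat_lit 65588087392) (nat_lit 76) (nat_lit 138199841436) (nat_lit 76) (nat_lit 61506187546) (nat_lit 7) (nat_lit 4) (nat_lit 8) (nat_lit 5) (nat_lit 8) (nat_lit 4) (nat_lit 370) (nat_lit 321) (nat_lit 209)) (XT.lf (nat_lit 0) (nat_lit 146332413696) (nat_lit 76) (nat_lit 106862269675) (nat_lit 76) (nat_lit 30167590031) (nat_lit 7) (nat_lit 4) (nat_lit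 8) (nat_lit 5) (nat_lit 8) (nat_lit 4) (nat_lit 371) (nat_lit 321) (nat_lit 208)))))) (XT.nd (nat_lit 624) (nat_lit 152) (nat_lit 0) (XT.nd (nat_lit 312) (nat_lit 76) (nat_lit 0) (XT.nd (nat_lit 156) (nat_lit 0) (nat_lit 0) (XT.nd (nat_lit 78) (nat_lit 76) (nat_lit 0) (XT.lf (nat_lit 0) (nat_lit 3493065181) (nat_lit 152) (nat_lit 69430053838) (nat_lit 76) (nat_lit 229945770648) (nat_lit 6) (nat_lit 5) (nat_lit 8) (nat_lit 5) (nat_lit 7) (nat_lit 4) (nat_lit 372) (nat_lit 321) (nat_lit 207)) (XT.lf (nat_lit 0) (nat_lit 2939350321) (nat_lit 76) (nat_lit 35347120427) (nat_lit 152) (nat_lit 285581300430) (nat_lit 5) (nat_lit 5) (nat_lit 6) (nat_lit 5) (nat_lit 7) (nat_lit 4) (nat_lit 373) (nat_lit 321) (nat_lit 206))) (XT.nd (nat_lit 78) (nat_lit 0) (nat_lit 0) (XT.lf (nat_lit 0) (nat_lit 77935944595) (nat_lit 152) (nat_lit 261524906603) (nat_lit 0) (nat_lit 6919904675) (nat_lit 5) (nat_lit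 5) (nat_lit 7) (nat_lit 4) (nat_lit 5) (nat_lit 4) (nat_lit 374) (nat_lit 321) (nat_lit 205)) (XT.lf (nat_lit 0) (nat_lit 121674600691) (nat_lit 152) (nat_lit 198288938350) (nat_lit 0) (nat_lit 50657862660) (nat_lit 5) (nat_lit 5) (nat_lit 7) (nat_lit 4) (nat_lit 5) (nat_lit 4) (nat_lit 375) (nat_lit 321) (nat_lit 204)))) (XT.nd (nat_lit 156) (nat_lit 76) (nat_lit 0) (XT.nd (nat_lit 78) (nat_lit 0) (nat_lit 0) (XT.lf (nat_lit 0) (nat_lit 168911531978) (nat_lit 152) (nat_lit 129995685338) (nat_lit 0) (nat_lit 97894147548) (nat_lit 5) (nat_lit 5) (nat_lit 7) (nat_lit 4) (nat_lit 5) (nat_lit 4) (nat_lit 376) (nat_lit 321) (nat_lit 203)) (XT.lf (nat_lit 0) (nat_lit 219926661010) (nat_lit 152) (nat_lit 56240446809) (nat_lit 0) (nat_lit 148908678062) (nat_lit 5) (nat_lit 5) (nat_lit 7) (nat_lit 4) (nat_lit 5) (nat_lit 4) (nat_lit 377) (nat_lit 321) (nat_lit 202))) (XT.nd (nat_lit 78) (nat_lit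 0) (nat_lit 0) (XT.lf (nat_lit 0) (nat_lit 24646776919) (nat_lit 76) (nat_lit 250968278322) (nat_lit 76) (nat_lit 179949741191) (nat_lit 4) (nat_lit 4) (nat_lit 5) (nat_lit 5) (nat_lit 5) (nat_lit 4) (nat_lit 378) (nat_lit 321) (nat_lit 201)) (XT.lf (nat_lit 0) (nat_lit 115202091673) (nat_lit 76) (nat_lit 222093462014) (nat_lit 76) (nat_lit 151074411750) (nat_lit 4) (nat_lit 4) (nat_lit 5) (nat_lit 5) (nat_lit 5) (nat_lit 4) (nat_lit 379) (nat_lit 321) (nat_lit 200))))) (XT.nd (nat_lit 312) (nat_lit 152) (nat_lit 0) (XT.nd (nat_lit 156) (nat_lit 0) (nat_lit 0) (XT.nd (nat_lit 78) (nat_lit 0) (nat_lit 0) (XT.lf (nat_lit 0) (nat_lit 213000599278) (nat_lit 76) (nat_lit 190909262355) (nat_lit 76) (nat_lit 119889736968) (nat_lit 4) (nat_lit 4) (nat_lit 5) (nat_lit 5) (nat_lit 5) (nat_lit 4) (nat_lit 380) (nat_lit 321) (nat_lit 199)) (XT.lf (nat_lit 0) (nat_lit 318621846446) (nat_lit 76) (nat_lit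 157230884087) (nat_lit 76) (nat_lit 86210918772) (nat_lit 4) (nat_lit 4) (nat_lit 5) (nat_lit 5) (nat_lit 5) (nat_lit 4) (nat_lit 381) (nat_lit 321) (nat_lit 198))) (XT.nd (nat_lit 78) (nat_lit 0) (nat_lit 0) (XT.lf (nat_lit 0) (nat_lit 432691736864) (nat_lit 76) (nat_lit 120858751636) (nat_lit 76) (nat_lit 49838378979) (nat_lit 4) (nat_lit 4) (nat_lit 5) (nat_lit 5) (nat_lit 5) (nat_lit 4) (nat_lit 382) (nat_lit 321) (nat_lit 197)) (XT.lf (nat_lit 0) (nat_lit 555886240253) (nat_lit 76) (nat_lit 81577326439) (nat_lit 76) (nat_lit 10556576615) (nat_lit 4) (nat_lit 4) (nat_lit 5) (nat_lit 5) (nat_lit 5) (nat_lit 4) (nat_lit 383) (nat_lit 321) (nat_lit 196)))) (XT.nd (nat_lit 156) (nat_lit 0) (nat_lit 0) (XT.nd (nat_lit 78) (nat_lit 76) (nat_lit 0) (XT.lf (nat_lit 0) (nat_lit 30273139496) (nat_lit 152) (nat_lit 8052968902) (nat_lit 76) (nat_lit 657834537335) (nat_lit 3) (nat_lit 5) (nat_lit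 5) (nat_lit 5) (nat_lit 4) (nat_lit 4) (nat_lit 384) (nat_lit 321) (nat_lit 195)) (XT.lf (nat_lit 0) (nat_lit 76149561134) (nat_lit 152) (nat_lit 661403854176) (nat_lit 0) (nat_lit 10388984824) (nat_lit 2) (nat_lit 5) (nat_lit 4) (nat_lit 4) (nat_lit 2) (nat_lit 4) (nat_lit 385) (nat_lit 321) (nat_lit 194))) (XT.nd (nat_lit 78) (nat_lit 0) (nat_lit 0) (XT.lf (nat_lit 0) (nat_lit 126917043495) (nat_lit 152) (nat_lit 615695785799) (nat_lit 0) (nat_lit 61156189955) (nat_lit 2) (nat_lit 5) (nat_lit 4) (nat_lit 4) (nat_lit 2) (nat_lit 4) (nat_lit 386) (nat_lit 321) (nat_lit 193)) (XT.lf (nat_lit 0) (nat_lit 181745519066) (nat_lit 152) (nat_lit 566331872538) (nat_lit 0) (nat_lit 115984408832) (nat_lit 2) (nat_lit 5) (nat_lit 4) (nat_lit 4) (nat_lit 2) (nat_lit 4) (nat_lit 387) (nat_lit 321) (nat_lit 192)))))))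
noncomputable def xc161 : XT := (XT.nd (nat_lit 1248) (nat_lit 0) (nat_lit 0) (XT.nd (nat_lit 624) (nat_lit 0) (nat_lit 0) (XT.nd (nat_lit 312) (nat_lit 76) (nat_lit 0) (XT.nd (nat_lit 156) (nat_lit 0) (nat_lit 0) (XT.nd (nat_lit 78) (nat_lit 0) (nat_lit 0) (XT.lf (nat_lit 0) (nat_lit 240959897332) (nat_lit 152) (nat_lit 513019587499) (nat_lit 0) (nat_lit 175198549419) (nat_lit 2) (nat_lit 5) (nat_lit 4) (nat_lit 4) (nat_lit 2) (nat_lit 4) (nat_lit 388) (nat_lit 321) (nat_lit 191)) (XT.lf (nat_lit 0) (nat_lit 304911078313) (nat_lit 152) (nat_lit 455443006031) (nat_lit 0) (nat_lit 239149510326) (nat_lit 2) (nat_lit 5) (nat_lit 4) (nat_lit 4) (nat_lit 2) (nat_lit 4) (nat_lit 389) (nat_lit 321) (nat_lit 190))) (XT.nd (nat_lit 78) (nat_lit 0) (nat_lit 0) (XT.lf (nat_lit 0) (nat_lit 373978031970) (nat_lit 152) (nat_lit 393260933576) (nat_lit 0) (nat_lit 308216260211) (nat_lit 2) (nat_lit 5)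 (nat_lit 4) (nat_lit 4) (nat_lit 2) (nat_lit 4) (nat_lit 390) (nat_lit 321) (nat_lit 189)) (XT.lf (nat_lit 0) (nat_lit 448570043954) (nat_lit 152) (nat_lit 326104883779) (nat_lit 0) (nat_lit 382808083517) (nat_lit 2) (nat_lit 5) (nat_lit 4) (nat_lit 4) (nat_lit 2) (nat_lit 4) (nat_lit 391) (nat_lit 321) (nat_lit 188)))) (XT.nd (nat_lit 156) (nat_lit 76) (nat_lit 0) (XT.nd (nat_lit 78) (nat_lit 0) (nat_lit 0) (XT.lf (nat_lit 0) (nat_lit 529129141002) (nat_lit 152) (nat_lit 253576894864) (nat_lit 0) (nat_lit 463367005864) (nat_lit 2) (nat_lit 5) (nat_lit 4) (nat_lit 4) (nat_lit 2) (nat_lit 4) (nat_lit 392) (nat_lit 321) (nat_lit 187)) (XT.lf (nat_lit 0) (nat_lit 616132710358) (nat_lit 152) (nat_lit 175247171340) (nat_lit 0) (nat_lit 550370413458) (nat_lit 2) (nat_lit 5) (nat_lit 4) (nat_lit 4) (nat_lit 2) (nat_lit 4) (nat_lit 393) (nat_lit 321) (nat_lit 186))) (XT.nd (nat_lit 78) (nat_lit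 76) (nat_lit 0) (XT.lf (nat_lit 0) (nat_lit 710096328727) (nat_lit 152) (nat_lit 90651537069) (nat_lit 0) (nat_lit 644333882049) (nat_lit 2) (nat_lit 5) (nat_lit 4) (nat_lit 4) (nat_lit 2) (nat_lit 4) (nat_lit 394) (nat_lit 321) (nat_lit 185)) (XT.lf (nat_lit 0) (nat_lit 748772020) (nat_lit 76) (nat_lit 810846053517) (nat_lit 76) (nat_lit 745083468155) (nat_lit 1) (nat_lit 4) (nat_lit 2) (nat_lit 5) (nat_lit 2) (nat_lit 4) (nat_lit 395) (nat_lit 321) (nat_lit 184))))) (XT.nd (nat_lit 312) (nat_lit 0) (nat_lit 0) (XT.nd (nat_lit 156) (nat_lit 0) (nat_lit 0) (XT.nd (nat_lit 78) (nat_lit 0) (nat_lit 0) (XT.lf (nat_lit 0) (nat_lit 104616117494) (nat_lit 76) (nat_lit 819075445342) (nat_lit 76) (nat_lit 753312731569) (nat_lit 1) (nat_lit 4) (nat_lit 2) (nat_lit 5) (nat_lit 2) (nat_lit 4) (nat_lit 396) (nat_lit 321) (nat_lit 183)) (XT.lf (nat_lit 0) (nat_lit 216792460252) (nat_lit 76) (nat_lit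 827963381709) (nat_lit 76) (nat_lit 762200549037) (nat_lit 1) (nat_lit 4) (nat_lit 2) (nat_lit 5) (nat_lit 2) (nat_lit 4) (nat_lit 397) (nat_lit 321) (nat_lit 182))) (XT.nd (nat_lit 78) (nat_lit 0) (nat_lit 0) (XT.lf (nat_lit 0) (nat_lit 337942548992) (nat_lit 76) (nat_lit 837562531871) (nat_lit 76) (nat_lit 771799589107) (nat_lit 1) (nat_lit 4) (nat_lit 2) (nat_lit 5) (nat_lit 2) (nat_lit 4) (nat_lit 398) (nat_lit 321) (nat_lit 181)) (XT.lf (nat_lit 0) (nat_lit 468784310167) (nat_lit 76) (nat_lit 847929779680) (nat_lit 76) (nat_lit 782166734980) (nat_lit 1) (nat_lit 4) (nat_lit 2) (nat_lit 5) (nat_lit 2) (nat_lit 4) (nat_lit 399) (nat_lit 321) (nat_lit 180)))) (XT.nd (nat_lit 156) (nat_lit 0) (nat_lit 0) (XT.nd (nat_lit 78) (nat_lit 0) (nat_lit 0) (XT.lf (nat_lit 0) (nat_lit 610093102361) (nat_lit 76) (nat_lit 859126560681) (nat_lit 76) (nat_lit 793363421594) (nat_lit 1) (nat_lit 4)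 (nat_lit 2) (nat_lit 5) (nat_lit 2) (nat_lit 4) (nat_lit 400) (nat_lit 321) (nat_lit 179)) (XT.lf (nat_lit 0) (nat_lit 762706311009) (nat_lit 76) (nat_lit 871219226166) (nat_lit 76) (nat_lit 805455999685) (nat_lit 1) (nat_lit 4) (nat_lit 2) (nat_lit 5) (nat_lit 2) (nat_lit 4) (nat_lit 401) (nat_lit 321) (nat_lit 178))) (XT.nd (nat_lit 78) (nat_lit 0) (nat_lit 0) (XT.lf (nat_lit 0) (nat_lit 927528310681) (nat_lit 76) (nat_lit 884279436376) (nat_lit 76) (nat_lit 818516128975) (nat_lit 1) (nat_lit 4) (nat_lit 2) (nat_lit 5) (nat_lit 2) (nat_lit 4) (nat_lit 402) (nat_lit 321) (nat_lit 177)) (XT.lf (nat_lit 0) (nat_lit 1105535824338) (nat_lit 76) (nat_lit 898384585150) (nat_lit 76) (nat_lit 832621202822) (nat_lit 1) (nat_lit 4) (nat_lit 2) (nat_lit 5) (nat_lit 2) (nat_lit 4) (nat_lit 403) (nat_lit 321) (nat_lit 176)))))) (XT.nd (nat_lit 40716) (nat_lit 0) (nat_lit 2964) (XT.nd (nat_lit 312)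 (nat_lit 0) (nat_lit 0) (XT.nd (nat_lit 156) (nat_lit 0) (nat_lit 0) (XT.nd (nat_lit 78) (nat_lit 0) (nat_lit 0) (XT.lf (nat_lit 0) (nat_lit 1297783711321) (nat_lit 76) (nat_lit 913618258554) (nat_lit 76) (nat_lit 847854806850) (nat_lit 1) (nat_lit 4) (nat_lit 2) (nat_lit 5) (nat_lit 2) (nat_lit 4) (nat_lit 404) (nat_lit 321) (nat_lit 175)) (XT.lf (nat_lit 0) (nat_lit 1505411218366) (nat_lit 76) (nat_lit 930070730209) (nat_lit 76) (nat_lit 864307214267) (nat_lit 1) (nat_lit 4) (nat_lit 2) (nat_lit 5) (nat_lit 2) (nat_lit 4) (nat_lit 405) (nat_lit 321) (nat_lit 174))) (XT.nd (nat_lit 78) (nat_lit 0) (nat_lit 0) (XT.lf (nat_lit 0) (nat_lit 1729648730701) (nat_lit 76) (nat_lit 947839496242) (nat_lit 76) (nat_lit 882075920821) (nat_lit 1) (nat_lit 4) (nat_lit 2) (nat_lit 5) (nat_lit 2) (nat_lit 4) (nat_lit 406) (nat_lit 321) (nat_lit 173)) (XT.lf (nat_lit 0) (nat_lit 1971825063214) (nat_lit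 76) (nat_lit 967029853045) (nat_lit 76) (nat_lit 901266222551) (nat_lit 1) (nat_lit 4) (nat_lit 2) (nat_lit 5) (nat_lit 2) (nat_lit 4) (nat_lit 407) (nat_lit 321) (nat_lit 172)))) (XT.nd (nat_lit 40248) (nat_lit 0) (nat_lit 3800) (XT.nd (nat_lit 40170) (nat_lit 0) (nat_lit 3800) (XT.lf (nat_lit 0) (nat_lit 2233375334912) (nat_lit 76) (nat_lit 987755521252) (nat_lit 76) (nat_lit 921991839764) (nat_lit 1) (nat_lit 4) (nat_lit 2) (nat_lit 5) (nat_lit 2) (nat_lit 4) (nat_lit 408) (nat_lit 321) (nat_lit 171)) (XT.lf (nat_lit 0) (nat_lit 7562757520) (nat_lit 532) (nat_lit 1782625871) (nat_lit 532) (nat_lit 1782625871) (nat_lit 51) (nat_lit 3) (nat_lit 58) (nat_lit 3) (nat_lit 58) (nat_lit 5) (nat_lit 322) (nat_lit 322) (nat_lit 256))) (XT.nd (nat_lit 78) (nat_lit 0) (nat_lit 76) (XT.lf (nat_lit 76) (nat_lit 7232238949) (nat_lit 0) (nat_lit 8795125338) (nat_lit 532) (nat_lit 7094883561) (nat_lit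 52) (nat_lit 5) (nat_lit 51) (nat_lit 3) (nat_lit 58) (nat_lit 5) (nat_lit 323) (nat_lit 322) (nat_lit 255)) (XT.lf (nat_lit 0) (nat_lit 17134548087) (nat_lit 456) (nat_lit 5009885748) (nat_lit 532) (nat_lit 1902713280) (nat_lit 52) (nat_lit 5) (nat_lit 58) (nat_lit 5) (nat_lit 59) (nat_lit 5) (nat_lit 324) (nat_lit 322) (nat_lit 254))))) (XT.nd (nat_lit 312) (nat_lit 912) (nat_lit 0) (XT.nd (nat_lit 156) (nat_lit 0) (nat_lit 76) (XT.nd (nat_lit 78) (nat_lit 0) (nat_lit 0) (XT.lf (nat_lit 76) (nat_lit 6847172064) (nat_lit 0) (nat_lit 11864835180) (nat_lit 532) (nat_lit 6303519588) (nat_lit 53) (nat_lit 5) (nat_lit 52) (nat_lit 5) (nat_lit 59) (nat_lit 5) (nat_lit 325) (nat_lit 322) (nat_lit 253)) (XT.lf (nat_lit 76) (nat_lit 19930348719) (nat_lit 0) (nat_lit 611543527) (nat_lit 532) (nat_lit 5509409090) (nat_lit 53) (nat_lit 5) (nat_lit 52) (nat_lit 5) (nat_lit 59) (nat_lit 5) (nat_lit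 326) (nat_lit 322) (nat_lit 252))) (XT.nd (nat_lit 78) (nat_lit 0) (nat_lit 0) (XT.lf (nat_lit 76) (nat_lit 6952750961) (nat_lit 0) (nat_lit 16000338266) (nat_lit 532) (nat_lit 4182075938) (nat_lit 54) (nat_lit 5) (nat_lit 53) (nat_lit 5) (nat_lit 60) (nat_lit 5) (nat_lit 327) (nat_lit 322) (nat_lit 251)) (XT.lf (nat_lit 76) (nat_lit 21396219476) (nat_lit 0) (nat_lit 4334474990) (nat_lit 532) (nat_lit 2561182130) (nat_lit 54) (nat_lit 5) (nat_lit 53) (nat_lit 5) (nat_lit 60) (nat_lit 5) (nat_lit 328) (nat_lit 322) (nat_lit 250)))) (XT.nd (nat_lit 156) (nat_lit 532) (nat_lit 0) (XT.nd (nat_lit 78) (nat_lit 76) (nat_lit 0) (XT.lf (nat_lit 0) (nat_lit 7629212054) (nat_lit 456) (nat_lit 21474947982) (nat_lit 532) (nat_lit 407090806) (nat_lit 48) (nat_lit 5) (nat_lit 54) (nat_lit 5) (nat_lit 55) (nat_lit 5) (nat_lit 329) (nat_lit 322) (nat_lit 249)) (XT.lf (nat_lit 0) (nat_lit 2120968391)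 (nat_lit 532) (nat_lit 7276468063) (nat_lit 76) (nat_lit 21403249010) (nat_lit 47) (nat_lit 5) (nat_lit 54) (nat_lit 5) (nat_lit 48) (nat_lit 5) (nat_lit 330) (nat_lit 322) (nat_lit 248))) (XT.nd (nat_lit 78) (nat_lit 228) (nat_lit 0) (XT.lf (nat_lit 0) (nat_lit 5129757194) (nat_lit 380) (nat_lit 23343324712) (nat_lit 76) (nat_lit 3695323110) (nat_lit 43) (nat_lit 5) (nat_lit 48) (nat_lit 5) (nat_lit 44) (nat_lit 5) (nat_lit 331) (nat_lit 322) (nat_lit 247)) (XT.nd (nat_lit 78) (nat_lit 228) (nat_lit 0) (XT.lf (nat_lit 0) (nat_lit 8820114668) (nat_lit 380) (nat_lit 7258107118) (nat_lit 76) (nat_lit 17532064370) (nat_lit 43) (nat_lit 5) (nat_lit 48) (nat_lit 5) (nat_lit 44) (nat_lit 5) (nat_lit 332) (nat_lit 322) (nat_lit 246)) (XT.lf (nat_lit 0) (nat_lit 10638910762) (nat_lit 228) (nat_lit 2415857152) (nat_lit 304) (nat_lit 22092836786) (nat_lit 40) (nat_lit 5) (nat_lit 43) (nat_lit 5)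 (nat_lit 44) (nat_lit 5) (nat_lit 333) (nat_lit 322) (nat_lit 245))))))))
noncomputable def xc162 : XT := (XT.nd (nat_lit 1248) (nat_lit 760) (nat_lit 0) (XT.nd (nat_lit 624) (nat_lit 684) (nat_lit 0) (XT.nd (nat_lit 312) (nat_lit 456) (nat_lit 0) (XT.nd (nat_lit 156) (nat_lit 152) (nat_lit 0) (XT.nd (nat_lit 78) (nat_lit 228) (nat_lit 0) (XT.lf (nat_lit 0) (nat_lit 18122084443) (nat_lit 304) (nat_lit 6721038005) (nat_lit 76) (nat_lit 11925286375) (nat_lit 40) (nat_lit 5) (nat_lit 44) (nat_lit 5) (nat_lit 41) (nat_lit 5) (nat_lit 334) (nat_lit 322) (nat_lit 244)) (XT.lf (nat_lit 0) (nat_lit 13073898973) (nat_lit 228) (nat_lit 10892066094) (nat_lit 304) (nat_lit 14523228439) (nat_lit 37) (nat_lit 5) (nat_lit 40) (nat_lit 5) (nat_lit 41) (nat_lit 5) (nat_lit 335) (nat_lit 322) (nat_lit 243))) (XT.nd (nat_lit 78) (nat_lit 152) (nat_lit 0) (XT.lf (nat_lit 0) (nat_lit 30560560723) (nat_lit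 304) (nat_lit 5610716322) (nat_lit 76) (nat_lit 4153717306) (nat_lit 37) (nat_lit 5) (nat_lit 41) (nat_lit 5) (nat_lit 38) (nat_lit 5) (nat_lit 336) (nat_lit 322) (nat_lit 242)) (XT.lf (nat_lit 0) (nat_lit 16304201869) (nat_lit 152) (nat_lit 22048230644) (nat_lit 228) (nat_lit 3901659103) (nat_lit 35) (nat_lit 5) (nat_lit 37) (nat_lit 5) (nat_lit 38) (nat_lit 5) (nat_lit 337) (nat_lit 322) (nat_lit 241)))) (XT.nd (nat_lit 156) (nat_lit 152) (nat_lit 0) (XT.nd (nat_lit 78) (nat_lit 228) (nat_lit 0) (XT.lf (nat_lit 0) (nat_lit 2460741380) (nat_lit 228) (nat_lit 4103103987) (nat_lit 76) (nat_lit 37756829903) (nat_lit 34) (nat_lit 5) (nat_lit 37) (nat_lit 5) (nat_lit 35) (nat_lit 5) (nat_lit 338) (nat_lit 322) (nat_lit 240)) (XT.lf (nat_lit 0) (nat_lit 9866909465) (nat_lit 304) (nat_lit 26360815030) (nat_lit 76) (nat_lit 10257115628) (nat_lit 31) (nat_lit 5) (nat_lit 35) (nat_lit 5) (nat_lit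 32) (nat_lit 5) (nat_lit 339) (nat_lit 322) (nat_lit 239))) (XT.nd (nat_lit 78) (nat_lit 152) (nat_lit 0) (XT.lf (nat_lit 0) (nat_lit 18146498081) (nat_lit 304) (nat_lit 2470398977) (nat_lit 76) (nat_lit 28182773576) (nat_lit 31) (nat_lit 5) (nat_lit 35) (nat_lit 5) (nat_lit 32) (nat_lit 5) (nat_lit 340) (nat_lit 322) (nat_lit 238)) (XT.lf (nat_lit 0) (nat_lit 24553493365) (nat_lit 152) (nat_lit 3121155431) (nat_lit 228) (nat_lit 23578149336) (nat_lit 29) (nat_lit 5) (nat_lit 31) (nat_lit 5) (nat_lit 32) (nat_lit 5) (nat_lit 341) (nat_lit 322) (nat_lit 237))))) (XT.nd (nat_lit 312) (nat_lit 304) (nat_lit 0) (XT.nd (nat_lit 156) (nat_lit 228) (nat_lit 0) (XT.nd (nat_lit 78) (nat_lit 152) (nat_lit 0) (XT.lf (nat_lit 0) (nat_lit 38409541943) (nat_lit 228) (nat_lit 404271601) (nat_lit 76) (nat_lit 15052808749) (nat_lit 29) (nat_lit 5) (nat_lit 32) (nat_lit 5) (nat_lit 30) (nat_lit 5) (nat_lit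 342) (nat_lit 322) (nat_lit 236)) (XT.lf (nat_lit 0) (nat_lit 29377151133) (nat_lit 152) (nat_lit 21409795094) (nat_lit 228) (nat_lit 5839913851) (nat_lit 27) (nat_lit 5) (nat_lit 29) (nat_lit 5) (nat_lit 30) (nat_lit 5) (nat_lit 343) (nat_lit 322) (nat_lit 235))) (XT.nd (nat_lit 78) (nat_lit 0) (nat_lit 0) (XT.lf (nat_lit 0) (nat_lit 1938621188) (nat_lit 152) (nat_lit 2434709847) (nat_lit 228) (nat_lit 55221510996) (nat_lit 24) (nat_lit 5) (nat_lit 26) (nat_lit 5) (nat_lit 27) (nat_lit 5) (nat_lit 344) (nat_lit 322) (nat_lit 234)) (XT.lf (nat_lit 0) (nat_lit 16283122337) (nat_lit 228) (nat_lit 28340142132) (nat_lit 76) (nat_lit 18069267860) (nat_lit 24) (nat_lit 5) (nat_lit 27) (nat_lit 5) (nat_lit 25) (nat_lit 5) (nat_lit 345) (nat_lit 322) (nat_lit 233)))) (XT.nd (nat_lit 156) (nat_lit 152) (nat_lit 0) (XT.nd (nat_lit 78) (nat_lit 0) (nat_lit 0) (XT.lf (nat_lit 0) (nat_lit 3423817861)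 (nat_lit 152) (nat_lit 25864018523) (nat_lit 228) (nat_lit 36738834184) (nat_lit 22) (nat_lit 5) (nat_lit 24) (nat_lit 5) (nat_lit 25) (nat_lit 5) (nat_lit 346) (nat_lit 322) (nat_lit 232)) (XT.lf (nat_lit 0) (nat_lit 39335322310) (nat_lit 152) (nat_lit 4769159792) (nat_lit 228) (nat_lit 25461336987) (nat_lit 22) (nat_lit 5) (nat_lit 24) (nat_lit 5) (nat_lit 25) (nat_lit 5) (nat_lit 347) (nat_lit 322) (nat_lit 231))) (XT.nd (nat_lit 78) (nat_lit 76) (nat_lit 0) (XT.lf (nat_lit 0) (nat_lit 4519392641) (nat_lit 76) (nat_lit 56125864516) (nat_lit 152) (nat_lit 12699741840) (nat_lit 21) (nat_lit 5) (nat_lit 22) (nat_lit 5) (nat_lit 23) (nat_lit 4) (nat_lit 348) (nat_lit 322) (nat_lit 230)) (XT.lf (nat_lit 0) (nat_lit 1997430484) (nat_lit 152) (nat_lit 33768413770) (nat_lit 76) (nat_lit 41581083446) (nat_lit 20) (nat_lit 5) (nat_lit 22) (nat_lit 5) (nat_lit 21) (nat_lit 5) (nat_lit 349) (nat_lit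 322) (nat_lit 229)))))) (XT.nd (nat_lit 624) (nat_lit 304) (nat_lit 0) (XT.nd (nat_lit 312) (nat_lit 228) (nat_lit 0) (XT.nd (nat_lit 156) (nat_lit 76) (nat_lit 0) (XT.nd (nat_lit 78) (nat_lit 0) (nat_lit 0) (XT.lf (nat_lit 0) (nat_lit 3956650813) (nat_lit 152) (nat_lit 13319911894) (nat_lit 228) (nat_lit 64358677393) (nat_lit 18) (nat_lit 5) (nat_lit 20) (nat_lit 5) (nat_lit 21) (nat_lit 5) (nat_lit 350) (nat_lit 322) (nat_lit 228)) (XT.lf (nat_lit 0) (nat_lit 34985161090) (nat_lit 228) (nat_lit 39864067192) (nat_lit 76) (nat_lit 11320820803) (nat_lit 18) (nat_lit 5) (nat_lit 21) (nat_lit 5) (nat_lit 19) (nat_lit 4) (nat_lit 351) (nat_lit 322) (nat_lit 227))) (XT.nd (nat_lit 78) (nat_lit 0) (nat_lit 0) (XT.lf (nat_lit 0) (nat_lit 658098657) (nat_lit 76) (nat_lit 53811553974) (nat_lit 152) (nat_lit 36569255995) (nat_lit 17) (nat_lit 5) (nat_lit 18) (nat_lit 5) (nat_lit 19) (nat_lit 4)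 (nat_lit 352) (nat_lit 322) (nat_lit 226)) (XT.lf (nat_lit 0) (nat_lit 46684788653) (nat_lit 76) (nat_lit 29915562763) (nat_lit 152) (nat_lit 19609931772) (nat_lit 17) (nat_lit 5) (nat_lit 18) (nat_lit 5) (nat_lit 19) (nat_lit 4) (nat_lit 353) (nat_lit 322) (nat_lit 225)))) (XT.nd (nat_lit 156) (nat_lit 76) (nat_lit 0) (XT.nd (nat_lit 78) (nat_lit 152) (nat_lit 0) (XT.lf (nat_lit 0) (nat_lit 96389582418) (nat_lit 76) (nat_lit 4109603019) (nat_lit 152) (nat_lit 1296369871) (nat_lit 17) (nat_lit 5) (nat_lit 18) (nat_lit 5) (nat_lit 19) (nat_lit 4) (nat_lit 354) (nat_lit 322) (nat_lit 224)) (XT.lf (nat_lit 0) (nat_lit 19224045053) (nat_lit 152) (nat_lit 64322458641) (nat_lit 76) (nat_lit 24112281112) (nat_lit 15) (nat_lit 5) (nat_lit 17) (nat_lit 5) (nat_lit 16) (nat_lit 4) (nat_lit 355) (nat_lit 322) (nat_lit 223))) (XT.nd (nat_lit 78) (nat_lit 76) (nat_lit 0) (XT.lf (nat_lit 0) (nat_lit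 41572274453) (nat_lit 152) (nat_lit 17841936800) (nat_lit 76) (nat_lit 54553671681) (nat_lit 15) (nat_lit 5) (nat_lit 17) (nat_lit 5) (nat_lit 16) (nat_lit 4) (nat_lit 356) (nat_lit 322) (nat_lit 222)) (XT.lf (nat_lit 0) (nat_lit 34057102479) (nat_lit 76) (nat_lit 32468322674) (nat_lit 152) (nat_lit 54190920148) (nat_lit 14) (nat_lit 5) (nat_lit 15) (nat_lit 5) (nat_lit 16) (nat_lit 4) (nat_lit 357) (nat_lit 322) (nat_lit 221))))) (XT.nd (nat_lit 312) (nat_lit 152) (nat_lit 0) (XT.nd (nat_lit 156) (nat_lit 76) (nat_lit 0) (XT.nd (nat_lit 78) (nat_lit 76) (nat_lit 0) (XT.lf (nat_lit 0) (nat_lit 91119244250) (nat_lit 76) (nat_lit 2841467267) (nat_lit 152) (nat_lit 34005103769) (nat_lit 14) (nat_lit 5) (nat_lit 15) (nat_lit 5) (nat_lit 16) (nat_lit 4) (nat_lit 358) (nat_lit 322) (nat_lit 220)) (XT.lf (nat_lit 0) (nat_lit 17102080200) (nat_lit 76) (nat_lit 107599400257) (nat_lit 76) (nat_lit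 11004910862) (nat_lit 13) (nat_lit 4) (nat_lit 14) (nat_lit 5) (nat_lit 14) (nat_lit 4) (nat_lit 359) (nat_lit 322) (nat_lit 219))) (XT.nd (nat_lit 78) (nat_lit 0) (nat_lit 0) (XT.lf (nat_lit 0) (nat_lit 14248795237) (nat_lit 152) (nat_lit 66959578326) (nat_lit 76) (nat_lit 62742774149) (nat_lit 12) (nat_lit 5) (nat_lit 14) (nat_lit 5) (nat_lit 13) (nat_lit 4) (nat_lit 360) (nat_lit 322) (nat_lit 218)) (XT.lf (nat_lit 0) (nat_lit 40926555064) (nat_lit 152) (nat_lit 11472229574) (nat_lit 76) (nat_lit 100433968939) (nat_lit 12) (nat_lit 5) (nat_lit 14) (nat_lit 5) (nat_lit 13) (nat_lit 4) (nat_lit 361) (nat_lit 322) (nat_lit 217)))) (XT.nd (nat_lit 156) (nat_lit 76) (nat_lit 0) (XT.nd (nat_lit 78) (nat_lit 0) (nat_lit 0) (XT.lf (nat_lit 0) (nat_lit 51002572674) (nat_lit 76) (nat_lit 19961009686) (nat_lit 152) (nat_lit 91363302713) (nat_lit 11) (nat_lit 5) (nat_lit 12) (nat_lit 5) (nat_lit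 13) (nat_lit 4) (nat_lit 362) (nat_lit 322) (nat_lit 216)) (XT.lf (nat_lit 0) (nat_lit 104086317726) (nat_lit 152) (nat_lit 53801190136) (nat_lit 0) (nat_lit 14638420388) (nat_lit 11) (nat_lit 5) (nat_lit 13) (nat_lit 4) (nat_lit 11) (nat_lit 4) (nat_lit 363) (nat_lit 322) (nat_lit 215))) (XT.nd (nat_lit 78) (nat_lit 0) (nat_lit 0) (XT.lf (nat_lit 0) (nat_lit 8213494191) (nat_lit 76) (nat_lit 132359945663) (nat_lit 76) (nat_lit 42910290362) (nat_lit 10) (nat_lit 4) (nat_lit 11) (nat_lit 5) (nat_lit 11) (nat_lit 4) (nat_lit 364) (nat_lit 322) (nat_lit 214)) (XT.lf (nat_lit 0) (nat_lit 78246450601) (nat_lit 76) (nat_lit 103202709609) (nat_lit 76) (nat_lit 13751426565) (nat_lit 10) (nat_lit 4) (nat_lit 11) (nat_lit 5) (nat_lit 11) (nat_lit 4) (nat_lit 365) (nat_lit 322) (nat_lit 213)))))))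
noncomputable def xc163 : XT := (XT.nd (nat_lit 1248) (nat_lit 228) (nat_lit 0) (XT.nd (nat_lit 624) (nat_lit 152) (nat_lit 0) (XT.nd (nat_lit 312) (nat_lit 152) (nat_lit 0) (XT.nd (nat_lit 156) (nat_lit 0) (nat_lit 0) (XT.nd (nat_lit 78) (nat_lit 76) (nat_lit 0) (XT.lf (nat_lit 0) (nat_lit 16851389921) (nat_lit 152) (nat_lit 54401899177) (nat_lit 76) (nat_lit 136567477091) (nat_lit 9) (nat_lit 5) (nat_lit 11) (nat_lit 5) (nat_lit 10) (nat_lit 4) (nat_lit 366) (nat_lit 322) (nat_lit 212)) (XT.lf (nat_lit 0) (nat_lit 13468785341) (nat_lit 76) (nat_lit 36013412294) (nat_lit 152) (nat_lit 171913972484) (nat_lit 8) (nat_lit 5) (nat_lit 9) (nat_lit 5) (nat_lit 10) (nat_lit 4) (nat_lit 367) (nat_lit 322) (nat_lit 211))) (XT.nd (nat_lit 78) (nat_lit 0) (nat_lit 0) (XT.lf (nat_lit 0) (nat_lit 86297533529) (nat_lit 152) (nat_lit 146165760945) (nat_lit 0) (nat_lit 3468387328) (nat_lit 8) (nat_lit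 5) (nat_lit 10) (nat_lit 4) (nat_lit 8) (nat_lit 4) (nat_lit 368) (nat_lit 322) (nat_lit 210)) (XT.lf (nat_lit 0) (nat_lit 126992385775) (nat_lit 152) (nat_lit 80400774214) (nat_lit 0) (nat_lit 44162131759) (nat_lit 8) (nat_lit 5) (nat_lit 10) (nat_lit 4) (nat_lit 8) (nat_lit 4) (nat_lit 369) (nat_lit 322) (nat_lit 209)))) (XT.nd (nat_lit 156) (nat_lit 76) (nat_lit 0) (XT.nd (nat_lit 78) (nat_lit 76) (nat_lit 0) (XT.lf (nat_lit 0) (nat_lit 170941785620) (nat_lit 152) (nat_lit 9376582712) (nat_lit 0) (nat_lit 88110505850) (nat_lit 8) (nat_lit 5) (nat_lit 10) (nat_lit 4) (nat_lit 8) (nat_lit 4) (nat_lit 370) (nat_lit 322) (nat_lit 208)) (XT.lf (nat_lit 0) (nat_lit 70873054899) (nat_lit 76) (nat_lit 149237617729) (nat_lit 76) (nat_lit 66405388186) (nat_lit 7) (nat_lit 4) (nat_lit 8) (nat_lit 5) (nat_lit 8) (nat_lit 4) (nat_lit 371) (nat_lit 322) (nat_lit 207))) (XT.nd (nat_lit 78) (nat_lit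 76) (nat_lit 0) (XT.lf (nat_lit 0) (nat_lit 158074118381) (nat_lit 76) (nat_lit 115394389192) (nat_lit 76) (nat_lit 32561280230) (nat_lit 7) (nat_lit 4) (nat_lit 8) (nat_lit 5) (nat_lit 8) (nat_lit 4) (nat_lit 372) (nat_lit 322) (nat_lit 206)) (XT.lf (nat_lit 0) (nat_lit 3789853617) (nat_lit 152) (nat_lit 74951027714) (nat_lit 76) (nat_lit 248356125614) (nat_lit 6) (nat_lit 5) (nat_lit 8) (nat_lit 5) (nat_lit 7) (nat_lit 4) (nat_lit 373) (nat_lit 322) (nat_lit 205))))) (XT.nd (nat_lit 312) (nat_lit 76) (nat_lit 0) (XT.nd (nat_lit 156) (nat_lit 0) (nat_lit 0) (XT.nd (nat_lit 78) (nat_lit 0) (nat_lit 0) (XT.lf (nat_lit 0) (nat_lit 3207082438) (nat_lit 76) (nat_lit 38159148156) (nat_lit 152) (nat_lit 308409608942) (nat_lit 5) (nat_lit 5) (nat_lit 6) (nat_lit 5) (nat_lit 7) (nat_lit 4) (nat_lit 374) (nat_lit 322) (nat_lit 204)) (XT.lf (nat_lit 0) (nat_lit 84186765329) (nat_lit 152) (nat_lit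 282415826137) (nat_lit 0) (nat_lit 7487343745) (nat_lit 5) (nat_lit 5) (nat_lit 7) (nat_lit 4) (nat_lit 5) (nat_lit 4) (nat_lit 375) (nat_lit 322) (nat_lit 203))) (XT.nd (nat_lit 78) (nat_lit 0) (nat_lit 0) (XT.lf (nat_lit 0) (nat_lit 131423332790) (nat_lit 152) (nat_lit 214123282126) (nat_lit 0) (nat_lit 54723312688) (nat_lit 5) (nat_lit 5) (nat_lit 7) (nat_lit 4) (nat_lit 5) (nat_lit 4) (nat_lit 376) (nat_lit 322) (nat_lit 202)) (XT.lf (nat_lit 0) (nat_lit 182438124946) (nat_lit 152) (nat_lit 140368700080) (nat_lit 0) (nat_lit 105737550661) (nat_lit 5) (nat_lit 5) (nat_lit 7) (nat_lit 4) (nat_lit 5) (nat_lit 4) (nat_lit 377) (nat_lit 322) (nat_lit 201)))) (XT.nd (nat_lit 156) (nat_lit 0) (nat_lit 0) (XT.nd (nat_lit 78) (nat_lit 76) (nat_lit 0) (XT.lf (nat_lit 0) (nat_lit 237533451678) (nat_lit 152) (nat_lit 60715015808) (nat_lit 0) (nat_lit 160832364260) (nat_lit 5) (nat_lit 5) (nat_lit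 7) (nat_lit 4) (nat_lit 5) (nat_lit 4) (nat_lit 378) (nat_lit 322) (nat_lit 200)) (XT.lf (nat_lit 0) (nat_lit 26642561343) (nat_lit 76) (nat_lit 271033996708) (nat_lit 76) (nat_lit 194332434167) (nat_lit 4) (nat_lit 4) (nat_lit 5) (nat_lit 5) (nat_lit 5) (nat_lit 4) (nat_lit 379) (nat_lit 322) (nat_lit 199))) (XT.nd (nat_lit 78) (nat_lit 0) (nat_lit 0) (XT.lf (nat_lit 0) (nat_lit 124440520369) (nat_lit 76) (nat_lit 239850065013) (nat_lit 76) (nat_lit 163148062543) (nat_lit 4) (nat_lit 4) (nat_lit 5) (nat_lit 5) (nat_lit 5) (nat_lit 4) (nat_lit 380) (nat_lit 322) (nat_lit 198)) (XT.lf (nat_lit 0) (nat_lit 230061259593) (nat_lit 76) (nat_lit 206171934859) (nat_lit 76) (nat_lit 129469525049) (nat_lit 4) (nat_lit 4) (nat_lit 5) (nat_lit 5) (nat_lit 5) (nat_lit 4) (nat_lit 381) (nat_lit 322) (nat_lit 197)))))) (XT.nd (nat_lit 624) (nat_lit 76) (nat_lit 0) (XT.nd (nat_lit 312) (nat_lit 76)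 (nat_lit 0) (XT.nd (nat_lit 156) (nat_lit 76) (nat_lit 0) (XT.nd (nat_lit 78) (nat_lit 0) (nat_lit 0) (XT.lf (nat_lit 0) (nat_lit 344130679692) (nat_lit 76) (nat_lit 169800032144) (nat_lit 76) (nat_lit 93097245165) (nat_lit 4) (nat_lit 4) (nat_lit 5) (nat_lit 5) (nat_lit 5) (nat_lit 4) (nat_lit 382) (nat_lit 322) (nat_lit 196)) (XT.lf (nat_lit 0) (nat_lit 467324747600) (nat_lit 76) (nat_lit 130518819665) (nat_lit 76) (nat_lit 53815683457) (nat_lit 4) (nat_lit 4) (nat_lit 5) (nat_lit 5) (nat_lit 5) (nat_lit 4) (nat_lit 383) (nat_lit 322) (nat_lit 195))) (XT.nd (nat_lit 78) (nat_lit 76) (nat_lit 0) (XT.lf (nat_lit 0) (nat_lit 600373502238) (nat_lit 76) (nat_lit 88095519867) (nat_lit 76) (nat_lit 11392060298) (nat_lit 4) (nat_lit 4) (nat_lit 5) (nat_lit 5) (nat_lit 5) (nat_lit 4) (nat_lit 384) (nat_lit 322) (nat_lit 194)) (XT.lf (nat_lit 0) (nat_lit 32702944457) (nat_lit 152) (nat_lit 8681634505)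 (nat_lit 76) (nat_lit 710468279758) (nat_lit 3) (nat_lit 5) (nat_lit 5) (nat_lit 5) (nat_lit 4) (nat_lit 4) (nat_lit 385) (nat_lit 322) (nat_lit 193)))) (XT.nd (nat_lit 156) (nat_lit 0) (nat_lit 0) (XT.nd (nat_lit 78) (nat_lit 0) (nat_lit 0) (XT.lf (nat_lit 0) (nat_lit 82249434805) (nat_lit 152) (nat_lit 714300543387) (nat_lit 0) (nat_lit 11227179058) (nat_lit 2) (nat_lit 5) (nat_lit 4) (nat_lit 4) (nat_lit 2) (nat_lit 4) (nat_lit 386) (nat_lit 322) (nat_lit 192)) (XT.lf (nat_lit 0) (nat_lit 137077729919) (nat_lit 152) (nat_lit 664936986512) (nat_lit 0) (nat_lit 66055236493) (nat_lit 2) (nat_lit 5) (nat_lit 4) (nat_lit 4) (nat_lit 2) (nat_lit 4) (nat_lit 387) (nat_lit 322) (nat_lit 191))) (XT.nd (nat_lit 78) (nat_lit 0) (nat_lit 0) (XT.lf (nat_lit 0) (nat_lit 196291941095) (nat_lit 152) (nat_lit 611625031461) (nat_lit 0) (nat_lit 125269227595) (nat_lit 2) (nat_lit 5) (nat_lit 4) (nat_lit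 4) (nat_lit 2) (nat_lit 4) (nat_lit 388) (nat_lit 322) (nat_lit 190)) (XT.lf (nat_lit 0) (nat_lit 260242967363) (nat_lit 152) (nat_lit 554048755536) (nat_lit 0) (nat_lit 189220050091) (nat_lit 2) (nat_lit 5) (nat_lit 4) (nat_lit 4) (nat_lit 2) (nat_lit 4) (nat_lit 389) (nat_lit 322) (nat_lit 189))))) (XT.nd (nat_lit 312) (nat_lit 76) (nat_lit 0) (XT.nd (nat_lit 156) (nat_lit 0) (nat_lit 0) (XT.nd (nat_lit 78) (nat_lit 0) (nat_lit 0) (XT.lf (nat_lit 0) (nat_lit 329309777768) (nat_lit 152) (nat_lit 491866965992) (nat_lit 0) (nat_lit 258286671818) (nat_lit 2) (nat_lit 5) (nat_lit 4) (nat_lit 4) (nat_lit 2) (nat_lit 4) (nat_lit 390) (nat_lit 322) (nat_lit 188)) (XT.lf (nat_lit 0) (nat_lit 403901657110) (nat_lit 152) (nat_lit 424711178150) (nat_lit 0) (nat_lit 332878376459) (nat_lit 2) (nat_lit 5) (nat_lit 4) (nat_lit 4) (nat_lit 2) (nat_lit 4) (nat_lit 391) (nat_lit 322) (nat_lit 187))) (XT.nd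 (nat_lit 78) (nat_lit 0) (nat_lit 0) (XT.lf (nat_lit 0) (nat_lit 484460631343) (nat_lit 152) (nat_lit 352183431785) (nat_lit 0) (nat_lit 413437188931) (nat_lit 2) (nat_lit 5) (nat_lit 4) (nat_lit 4) (nat_lit 2) (nat_lit 4) (nat_lit 392) (nat_lit 322) (nat_lit 186)) (XT.lf (nat_lit 0) (nat_lit 571464086980) (nat_lit 152) (nat_lit 273853932845) (nat_lit 0) (nat_lit 500440494789) (nat_lit 2) (nat_lit 5) (nat_lit 4) (nat_lit 4) (nat_lit 2) (nat_lit 4) (nat_lit 393) (nat_lit 322) (nat_lit 185)))) (XT.nd (nat_lit 156) (nat_lit 76) (nat_lit 0) (XT.nd (nat_lit 78) (nat_lit 0) (nat_lit 0) (XT.lf (nat_lit 0) (nat_lit 665427600054) (nat_lit 152) (nat_lit 189258506522) (nat_lit 0) (nat_lit 594403869180) (nat_lit 2) (nat_lit 5) (nat_lit 4) (nat_lit 4) (nat_lit 2) (nat_lit 4) (nat_lit 394) (nat_lit 322) (nat_lit 184)) (XT.lf (nat_lit 0) (nat_lit 766907991384) (nat_lit 152) (nat_lit 97895846585) (nat_lit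 0) (nat_lit 695884132099) (nat_lit 2) (nat_lit 5) (nat_lit 4) (nat_lit 4) (nat_lit 2) (nat_lit 4) (nat_lit 395) (nat_lit 322) (nat_lit 183))) (XT.nd (nat_lit 78) (nat_lit 0) (nat_lit 0) (XT.lf (nat_lit 0) (nat_lit 816289423) (nat_lit 76) (nat_lit 875709968609) (nat_lit 76) (nat_lit 804685990424) (nat_lit 1) (nat_lit 4) (nat_lit 2) (nat_lit 5) (nat_lit 2) (nat_lit 4) (nat_lit 396) (nat_lit 322) (nat_lit 182)) (XT.nd (nat_lit 78) (nat_lit 0) (nat_lit 0) (XT.lf (nat_lit 0) (nat_lit 112992458413) (nat_lit 76) (nat_lit 884597990979) (nat_lit 76) (nat_lit 813573902702) (nat_lit 1) (nat_lit 4) (nat_lit 2) (nat_lit 5) (nat_lit 2) (nat_lit 4) (nat_lit 397) (nat_lit 322) (nat_lit 181)) (XT.lf (nat_lit 0) (nat_lit 234142386257) (nat_lit 76) (nat_lit 894197220773) (nat_lit 76) (nat_lit 823173030560) (nat_lit 1) (nat_lit 4) (nat_lit 2) (nat_lit 5) (nat_lit 2) (nat_lit 4) (nat_lit 398) (nat_lit 322)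 (nat_lit 180))))))))
noncomputable def xc164 : XT := (XT.nd (nat_lit 41496) (nat_lit 0) (nat_lit 1748) (XT.nd (nat_lit 624) (nat_lit 0) (nat_lit 0) (XT.nd (nat_lit 312) (nat_lit 0) (nat_lit 0) (XT.nd (nat_lit 156) (nat_lit 0) (nat_lit 0) (XT.nd (nat_lit 78) (nat_lit 0) (nat_lit 0) (XT.lf (nat_lit 0) (nat_lit 364983998453) (nat_lit 76) (nat_lit 904564542316) (nat_lit 76) (nat_lit 833540257717) (nat_lit 1) (nat_lit 4) (nat_lit 2) (nat_lit 5) (nat_lit 2) (nat_lit 4) (nat_lit 399) (nat_lit 322) (nat_lit 179)) (XT.lf (nat_lit 0) (nat_lit 506292652704) (nat_lit 76) (nat_lit 915761391588) (nat_lit 76) (nat_lit 844737019595) (nat_lit 1) (nat_lit 4) (nat_lit 2) (nat_lit 5) (nat_lit 2) (nat_lit 4) (nat_lit 400) (nat_lit 322) (nat_lit 178))) (XT.nd (nat_lit 78) (nat_lit 0) (nat_lit 0) (XT.lf (nat_lit 0) (nat_lit 658905733627) (nat_lit 76) (nat_lit 927854120288) (nat_lit 76) (nat_lit 856829667374)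 (nat_lit 1) (nat_lit 4) (nat_lit 2) (nat_lit 5) (nat_lit 2) (nat_lit 4) (nat_lit 401) (nat_lit 322) (nat_lit 177)) (XT.lf (nat_lit 0) (nat_lit 823727615036) (nat_lit 76) (nat_lit 940914389031) (nat_lit 76) (nat_lit 869889861190) (nat_lit 1) (nat_lit 4) (nat_lit 2) (nat_lit 5) (nat_lit 2) (nat_lit 4) (nat_lit 402) (nat_lit 322) (nat_lit 176)))) (XT.nd (nat_lit 156) (nat_lit 0) (nat_lit 0) (XT.nd (nat_lit 78) (nat_lit 0) (nat_lit 0) (XT.lf (nat_lit 0) (nat_lit 1001735019189) (nat_lit 76) (nat_lit 955019592001) (nat_lit 76) (nat_lit 883994994784) (nat_lit 1) (nat_lit 4) (nat_lit 2) (nat_lit 5) (nat_lit 2) (nat_lit 4) (nat_lit 403) (nat_lit 322) (nat_lit 175)) (XT.lf (nat_lit 0) (nat_lit 1193982804779) (nat_lit 76) (nat_lit 970253315587) (nat_lit 76) (nat_lit 899228654132) (nat_lit 1) (nat_lit 4) (nat_lit 2) (nat_lit 5) (nat_lit 2) (nat_lit 4) (nat_lit 404) (nat_lit 322) (nat_lit 174))) (XT.nd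 (nat_lit 78) (nat_lit 0) (nat_lit 0) (XT.lf (nat_lit 0) (nat_lit 1401610217943) (nat_lit 76) (nat_lit 986705833706) (nat_lit 76) (nat_lit 915681112772) (nat_lit 1) (nat_lit 4) (nat_lit 2) (nat_lit 5) (nat_lit 2) (nat_lit 4) (nat_lit 405) (nat_lit 322) (nat_lit 173)) (XT.lf (nat_lit 0) (nat_lit 1625847643351) (nat_lit 76) (nat_lit 1004474642762) (nat_lit 76) (nat_lit 933449866755) (nat_lit 1) (nat_lit 4) (nat_lit 2) (nat_lit 5) (nat_lit 2) (nat_lit 4) (nat_lit 406) (nat_lit 322) (nat_lit 172))))) (XT.nd (nat_lit 40560) (nat_lit 0) (nat_lit 3876) (XT.nd (nat_lit 40404) (nat_lit 0) (nat_lit 3800) (XT.nd (nat_lit 40326) (nat_lit 0) (nat_lit 3800) (XT.lf (nat_lit 0) (nat_lit 1868023895375) (nat_lit 76) (nat_lit 1023665039401) (nat_lit 76) (nat_lit 952640212400) (nat_lit 1) (nat_lit 4) (nat_lit 2) (nat_lit 5) (nat_lit 2) (nat_lit 4) (nat_lit 407) (nat_lit 322) (nat_lit 171)) (XT.lf (nat_lit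 0) (nat_lit 8287715664) (nat_lit 532) (nat_lit 1860340293) (nat_lit 532) (nat_lit 1860340293) (nat_lit 51) (nat_lit 3) (nat_lit 58) (nat_lit 3) (nat_lit 58) (nat_lit 5) (nat_lit 323) (nat_lit 323) (nat_lit 254))) (XT.nd (nat_lit 78) (nat_lit 0) (nat_lit 76) (XT.lf (nat_lit 76) (nat_lit 7937323505) (nat_lit 0) (nat_lit 9597378946) (nat_lit 532) (nat_lit 7418834140) (nat_lit 52) (nat_lit 5) (nat_lit 51) (nat_lit 3) (nat_lit 58) (nat_lit 5) (nat_lit 324) (nat_lit 323) (nat_lit 253)) (XT.lf (nat_lit 0) (nat_lit 18711586599) (nat_lit 456) (nat_lit 5274223917) (nat_lit 532) (nat_lit 1968162723) (nat_lit 52) (nat_lit 5) (nat_lit 58) (nat_lit 5) (nat_lit 59) (nat_lit 5) (nat_lit 325) (nat_lit 323) (nat_lit 252)))) (XT.nd (nat_lit 156) (nat_lit 0) (nat_lit 76) (XT.nd (nat_lit 78) (nat_lit 0) (nat_lit 0) (XT.lf (nat_lit 76) (nat_lit 7527944021) (nat_lit 0) (nat_lit 12875217473) (nat_lit 532) (nat_lit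 6597661184) (nat_lit 53) (nat_lit 5) (nat_lit 52) (nat_lit 5) (nat_lit 59) (nat_lit 5) (nat_lit 326) (nat_lit 323) (nat_lit 251)) (XT.lf (nat_lit 76) (nat_lit 21647923091) (nat_lit 0) (nat_lit 717129490) (nat_lit 532) (nat_lit 5755587771) (nat_lit 53) (nat_lit 5) (nat_lit 52) (nat_lit 5) (nat_lit 59) (nat_lit 5) (nat_lit 327) (nat_lit 323) (nat_lit 250))) (XT.nd (nat_lit 78) (nat_lit 0) (nat_lit 0) (XT.lf (nat_lit 76) (nat_lit 7644719406) (nat_lit 0) (nat_lit 17313109691) (nat_lit 532) (nat_lit 4334317661) (nat_lit 54) (nat_lit 5) (nat_lit 53) (nat_lit 5) (nat_lit 60) (nat_lit 5) (nat_lit 328) (nat_lit 323) (nat_lit 249)) (XT.lf (nat_lit 76) (nat_lit 23233609968) (nat_lit 0) (nat_lit 4711551845) (nat_lit 532) (nat_lit 2597257857) (nat_lit 54) (nat_lit 5) (nat_lit 53) (nat_lit 5) (nat_lit 60) (nat_lit 5) (nat_lit 329) (nat_lit 323) (nat_lit 248)))))) (XT.nd (nat_lit 624) (nat_lit 988)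 (nat_lit 0) (XT.nd (nat_lit 312) (nat_lit 456) (nat_lit 0) (XT.nd (nat_lit 156) (nat_lit 304) (nat_lit 0) (XT.nd (nat_lit 78) (nat_lit 76) (nat_lit 0) (XT.lf (nat_lit 0) (nat_lit 8375253387) (nat_lit 456) (nat_lit 23204283349) (nat_lit 532) (nat_lit 280548706) (nat_lit 48) (nat_lit 5) (nat_lit 54) (nat_lit 5) (nat_lit 55) (nat_lit 5) (nat_lit 330) (nat_lit 323) (nat_lit 247)) (XT.lf (nat_lit 0) (nat_lit 2430599630) (nat_lit 532) (nat_lit 7725304720) (nat_lit 76) (nat_lit 23097380772) (nat_lit 47) (nat_lit 5) (nat_lit 54) (nat_lit 5) (nat_lit 48) (nat_lit 5) (nat_lit 331) (nat_lit 323) (nat_lit 246))) (XT.nd (nat_lit 78) (nat_lit 0) (nat_lit 0) (XT.lf (nat_lit 0) (nat_lit 5672781401) (nat_lit 380) (nat_lit 25069960062) (nat_lit 76) (nat_lit 3988284763) (nat_lit 43) (nat_lit 5) (nat_lit 48) (nat_lit 5) (nat_lit 44) (nat_lit 5) (nat_lit 332) (nat_lit 323) (nat_lit 245)) (XT.lf (nat_lit 0)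 (nat_lit 9648542019) (nat_lit 380) (nat_lit 7708356959) (nat_lit 76) (nat_lit 18932162672) (nat_lit 43) (nat_lit 5) (nat_lit 48) (nat_lit 5) (nat_lit 44) (nat_lit 5) (nat_lit 333) (nat_lit 323) (nat_lit 244)))) (XT.nd (nat_lit 156) (nat_lit 228) (nat_lit 0) (XT.nd (nat_lit 78) (nat_lit 0) (nat_lit 0) (XT.lf (nat_lit 0) (nat_lit 11617121118) (nat_lit 228) (nat_lit 2598805462) (nat_lit 304) (nat_lit 23733938813) (nat_lit 40) (nat_lit 5) (nat_lit 43) (nat_lit 5) (nat_lit 44) (nat_lit 5) (nat_lit 334) (nat_lit 323) (nat_lit 243)) (XT.lf (nat_lit 0) (nat_lit 19680208082) (nat_lit 304) (nat_lit 7132427549) (nat_lit 76) (nat_lit 12888387064) (nat_lit 40) (nat_lit 5) (nat_lit 44) (nat_lit 5) (nat_lit 41) (nat_lit 5) (nat_lit 335) (nat_lit 323) (nat_lit 242))) (XT.nd (nat_lit 78) (nat_lit 0) (nat_lit 0) (XT.lf (nat_lit 0) (nat_lit 14242907084) (nat_lit 228) (nat_lit 11743626103) (nat_lit 304)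 (nat_lit 15573356339) (nat_lit 37) (nat_lit 5) (nat_lit 40) (nat_lit 5) (nat_lit 41) (nat_lit 5) (nat_lit 336) (nat_lit 323) (nat_lit 241)) (XT.lf (nat_lit 0) (nat_lit 33101486352) (nat_lit 304) (nat_lit 5938222390) (nat_lit 76) (nat_lit 4503435559) (nat_lit 37) (nat_lit 5) (nat_lit 41) (nat_lit 5) (nat_lit 38) (nat_lit 5) (nat_lit 337) (nat_lit 323) (nat_lit 240))))) (XT.nd (nat_lit 312) (nat_lit 532) (nat_lit 0) (XT.nd (nat_lit 156) (nat_lit 228) (nat_lit 0) (XT.nd (nat_lit 78) (nat_lit 76) (nat_lit 0) (XT.lf (nat_lit 0) (nat_lit 17726817073) (nat_lit 152) (nat_lit 23785618331) (nat_lit 228) (nat_lit 4114487826) (nat_lit 35) (nat_lit 5) (nat_lit 37) (nat_lit 5) (nat_lit 38) (nat_lit 5) (nat_lit 338) (nat_lit 323) (nat_lit 239)) (XT.lf (nat_lit 0) (nat_lit 2744949225) (nat_lit 228) (nat_lit 4317105541) (nat_lit 76) (nat_lit 40797157139) (nat_lit 34) (nat_lit 5) (nat_lit 37) (nat_lit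 5) (nat_lit 35) (nat_lit 5) (nat_lit 339) (nat_lit 323) (nat_lit 238))) (XT.nd (nat_lit 78) (nat_lit 0) (nat_lit 0) (XT.lf (nat_lit 0) (nat_lit 10740487116) (nat_lit 304) (nat_lit 28352189917) (nat_lit 76) (nat_lit 11104092397) (nat_lit 31) (nat_lit 5) (nat_lit 35) (nat_lit 5) (nat_lit 32) (nat_lit 5) (nat_lit 340) (nat_lit 323) (nat_lit 237)) (XT.lf (nat_lit 0) (nat_lit 19676203942) (nat_lit 304) (nat_lit 2559243566) (nat_lit 76) (nat_lit 30461846869) (nat_lit 31) (nat_lit 5) (nat_lit 35) (nat_lit 5) (nat_lit 32) (nat_lit 5) (nat_lit 341) (nat_lit 323) (nat_lit 236)))) (XT.nd (nat_lit 156) (nat_lit 380) (nat_lit 0) (XT.nd (nat_lit 78) (nat_lit 0) (nat_lit 0) (XT.lf (nat_lit 0) (nat_lit 26623806054) (nat_lit 152) (nat_lit 3339574020) (nat_lit 228) (nat_lit 25383558356) (nat_lit 29) (nat_lit 5) (nat_lit 31) (nat_lit 5) (nat_lit 32) (nat_lit 5) (nat_lit 342) (nat_lit 323) (nat_lit 235))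 (XT.lf (nat_lit 0) (nat_lit 41552223363) (nat_lit 228) (nat_lit 333497925) (nat_lit 76) (nat_lit 16284542154) (nat_lit 29) (nat_lit 5) (nat_lit 32) (nat_lit 5) (nat_lit 30) (nat_lit 5) (nat_lit 343) (nat_lit 323) (nat_lit 234))) (XT.nd (nat_lit 78) (nat_lit 228) (nat_lit 0) (XT.lf (nat_lit 0) (nat_lit 31827828111) (nat_lit 152) (nat_lit 23089229908) (nat_lit 228) (nat_lit 6234490241) (nat_lit 27) (nat_lit 5) (nat_lit 29) (nat_lit 5) (nat_lit 30) (nat_lit 5) (nat_lit 344) (nat_lit 323) (nat_lit 233)) (XT.lf (nat_lit 0) (nat_lit 2195291505) (nat_lit 152) (nat_lit 2594223231) (nat_lit 228) (nat_lit 59567533717) (nat_lit 24) (nat_lit 5) (nat_lit 26) (nat_lit 5) (nat_lit 27) (nat_lit 5) (nat_lit 345) (nat_lit 323) (nat_lit 232)))))))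
noncomputable def xc165 : XT := (XT.nd (nat_lit 1248) (nat_lit 532) (nat_lit 0) (XT.nd (nat_lit 624) (nat_lit 380) (nat_lit 0) (XT.nd (nat_lit 312) (nat_lit 304) (nat_lit 0) (XT.nd (nat_lit 156) (nat_lit 76) (nat_lit 0) (XT.nd (nat_lit 78) (nat_lit 152) (nat_lit 0) (XT.lf (nat_lit 0) (nat_lit 17647962219) (nat_lit 228) (nat_lit 30509100283) (nat_lit 76) (nat_lit 19545827239) (nat_lit 24) (nat_lit 5) (nat_lit 27) (nat_lit 5) (nat_lit 25) (nat_lit 5) (nat_lit 346) (nat_lit 323) (nat_lit 231)) (XT.lf (nat_lit 0) (nat_lit 3793489086) (nat_lit 152) (nat_lit 27897260800) (nat_lit 228) (nat_lit 39613198617) (nat_lit 22) (nat_lit 5) (nat_lit 24) (nat_lit 5) (nat_lit 25) (nat_lit 5) (nat_lit 347) (nat_lit 323) (nat_lit 230))) (XT.nd (nat_lit 78) (nat_lit 76) (nat_lit 0) (XT.lf (nat_lit 0) (nat_lit 42570820129) (nat_lit 152) (nat_lit 5117471089) (nat_lit 228) (nat_lit 27438297369) (nat_lit 22)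 (nat_lit 5) (nat_lit 24) (nat_lit 5) (nat_lit 25) (nat_lit 5) (nat_lit 348) (nat_lit 323) (nat_lit 229)) (XT.lf (nat_lit 0) (nat_lit 4970974679) (nat_lit 76) (nat_lit 60580151183) (nat_lit 152) (nat_lit 13657077662) (nat_lit 21) (nat_lit 5) (nat_lit 22) (nat_lit 5) (nat_lit 23) (nat_lit 4) (nat_lit 349) (nat_lit 323) (nat_lit 228)))) (XT.nd (nat_lit 156) (nat_lit 76) (nat_lit 0) (XT.nd (nat_lit 78) (nat_lit 152) (nat_lit 0) (XT.lf (nat_lit 0) (nat_lit 2208808199) (nat_lit 152) (nat_lit 36383761279) (nat_lit 76) (nat_lit 44937938159) (nat_lit 20) (nat_lit 5) (nat_lit 22) (nat_lit 5) (nat_lit 21) (nat_lit 5) (nat_lit 350) (nat_lit 323) (nat_lit 227)) (XT.lf (nat_lit 0) (nat_lit 4357128077) (nat_lit 152) (nat_lit 14351340823) (nat_lit 228) (nat_lit 69453563823) (nat_lit 18) (nat_lit 5) (nat_lit 20) (nat_lit 5) (nat_lit 21) (nat_lit 5) (nat_lit 351) (nat_lit 323) (nat_lit 226))) (XT.nd (nat_lit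 78) (nat_lit 76) (nat_lit 0) (XT.lf (nat_lit 0) (nat_lit 37830828442) (nat_lit 228) (nat_lit 42972497995) (nat_lit 76) (nat_lit 12256537393) (nat_lit 18) (nat_lit 5) (nat_lit 21) (nat_lit 5) (nat_lit 19) (nat_lit 4) (nat_lit 352) (nat_lit 323) (nat_lit 225)) (XT.lf (nat_lit 0) (nat_lit 789398221) (nat_lit 76) (nat_lit 58083101958) (nat_lit 152) (nat_lit 39445861308) (nat_lit 17) (nat_lit 5) (nat_lit 18) (nat_lit 5) (nat_lit 19) (nat_lit 4) (nat_lit 353) (nat_lit 323) (nat_lit 224))))) (XT.nd (nat_lit 312) (nat_lit 228) (nat_lit 0) (XT.nd (nat_lit 156) (nat_lit 152) (nat_lit 0) (XT.nd (nat_lit 78) (nat_lit 0) (nat_lit 0) (XT.lf (nat_lit 0) (nat_lit 50492397367) (nat_lit 76) (nat_lit 32277903772) (nat_lit 152) (nat_lit 21133415975) (nat_lit 17) (nat_lit 5) (nat_lit 18) (nat_lit 5) (nat_lit 19) (nat_lit 4) (nat_lit 354) (nat_lit 323) (nat_lit 223)) (XT.lf (nat_lit 0) (nat_lit 104168180143)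 (nat_lit 76) (nat_lit 4409756434) (nat_lit 152) (nat_lit 1358125443) (nat_lit 17) (nat_lit 5) (nat_lit 18) (nat_lit 5) (nat_lit 19) (nat_lit 4) (nat_lit 355) (nat_lit 323) (nat_lit 222))) (XT.nd (nat_lit 78) (nat_lit 0) (nat_lit 0) (XT.lf (nat_lit 0) (nat_lit 20801206113) (nat_lit 152) (nat_lit 69398049847) (nat_lit 76) (nat_lit 26069064850) (nat_lit 15) (nat_lit 5) (nat_lit 17) (nat_lit 5) (nat_lit 16) (nat_lit 4) (nat_lit 356) (nat_lit 323) (nat_lit 221)) (XT.lf (nat_lit 0) (nat_lit 44934387387) (nat_lit 152) (nat_lit 19204286665) (nat_lit 76) (nat_lit 58943707313) (nat_lit 15) (nat_lit 5) (nat_lit 17) (nat_lit 5) (nat_lit 16) (nat_lit 4) (nat_lit 357) (nat_lit 323) (nat_lit 220)))) (XT.nd (nat_lit 156) (nat_lit 152) (nat_lit 0) (XT.nd (nat_lit 78) (nat_lit 0) (nat_lit 0) (XT.lf (nat_lit 0) (nat_lit 36845030058) (nat_lit 76) (nat_lit 35037592695) (nat_lit 152) (nat_lit 58488193264)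 (nat_lit 14) (nat_lit 5) (nat_lit 15) (nat_lit 5) (nat_lit 16) (nat_lit 4) (nat_lit 358) (nat_lit 323) (nat_lit 219)) (XT.lf (nat_lit 0) (nat_lit 98467449884) (nat_lit 76) (nat_lit 3042677433) (nat_lit 152) (nat_lit 36690326426) (nat_lit 14) (nat_lit 5) (nat_lit 15) (nat_lit 5) (nat_lit 16) (nat_lit 4) (nat_lit 359) (nat_lit 323) (nat_lit 218))) (XT.nd (nat_lit 78) (nat_lit 76) (nat_lit 0) (XT.lf (nat_lit 0) (nat_lit 18529375775) (nat_lit 76) (nat_lit 116180373656) (nat_lit 76) (nat_lit 11850560728) (nat_lit 13) (nat_lit 4) (nat_lit 14) (nat_lit 5) (nat_lit 14) (nat_lit 4) (nat_lit 360) (nat_lit 323) (nat_lit 217)) (XT.lf (nat_lit 0) (nat_lit 15419259056) (nat_lit 152) (nat_lit 72259968616) (nat_lit 76) (nat_lit 67785549531) (nat_lit 12) (nat_lit 5) (nat_lit 14) (nat_lit 5) (nat_lit 13) (nat_lit 4) (nat_lit 361) (nat_lit 323) (nat_lit 216)))))) (XT.nd (nat_lit 624) (nat_lit 228) (nat_lit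 0) (XT.nd (nat_lit 312) (nat_lit 152) (nat_lit 0) (XT.nd (nat_lit 156) (nat_lit 76) (nat_lit 0) (XT.nd (nat_lit 78) (nat_lit 76) (nat_lit 0) (XT.lf (nat_lit 0) (nat_lit 44228975952) (nat_lit 152) (nat_lit 12337807962) (nat_lit 76) (nat_lit 108490310019) (nat_lit 12) (nat_lit 5) (nat_lit 14) (nat_lit 5) (nat_lit 13) (nat_lit 4) (nat_lit 362) (nat_lit 323) (nat_lit 215)) (XT.lf (nat_lit 0) (nat_lit 55133656948) (nat_lit 76) (nat_lit 21534436076) (nat_lit 152) (nat_lit 98642733919) (nat_lit 11) (nat_lit 5) (nat_lit 12) (nat_lit 5) (nat_lit 13) (nat_lit 4) (nat_lit 363) (nat_lit 323) (nat_lit 214))) (XT.nd (nat_lit 78) (nat_lit 76) (nat_lit 0) (XT.lf (nat_lit 0) (nat_lit 112439138100) (nat_lit 152) (nat_lit 58056652645) (nat_lit 0) (nat_lit 15830124669) (nat_lit 11) (nat_lit 5) (nat_lit 13) (nat_lit 4) (nat_lit 11) (nat_lit 4) (nat_lit 364) (nat_lit 323) (nat_lit 213)) (XT.lf (nat_lit 0)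 (nat_lit 8917975221) (nat_lit 76) (nat_lit 142926475159) (nat_lit 76) (nat_lit 46315954557) (nat_lit 10) (nat_lit 4) (nat_lit 11) (nat_lit 5) (nat_lit 11) (nat_lit 4) (nat_lit 365) (nat_lit 323) (nat_lit 212)))) (XT.nd (nat_lit 156) (nat_lit 76) (nat_lit 0) (XT.nd (nat_lit 78) (nat_lit 76) (nat_lit 0) (XT.lf (nat_lit 0) (nat_lit 84550056922) (nat_lit 76) (nat_lit 111438309565) (nat_lit 76) (nat_lit 14826393436) (nat_lit 10) (nat_lit 4) (nat_lit 11) (nat_lit 5) (nat_lit 11) (nat_lit 4) (nat_lit 366) (nat_lit 323) (nat_lit 211)) (XT.lf (nat_lit 0) (nat_lit 18221620824) (nat_lit 152) (nat_lit 58712236969) (nat_lit 76) (nat_lit 147510789898) (nat_lit 9) (nat_lit 5) (nat_lit 11) (nat_lit 5) (nat_lit 10) (nat_lit 4) (nat_lit 367) (nat_lit 323) (nat_lit 210))) (XT.nd (nat_lit 78) (nat_lit 0) (nat_lit 0) (XT.lf (nat_lit 0) (nat_lit 14587043725) (nat_lit 76) (nat_lit 38875191106) (nat_lit 152)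 (nat_lit 185643902528) (nat_lit 8) (nat_lit 5) (nat_lit 9) (nat_lit 5) (nat_lit 10) (nat_lit 4) (nat_lit 368) (nat_lit 323) (nat_lit 209)) (XT.lf (nat_lit 0) (nat_lit 93221637517) (nat_lit 152) (nat_lit 157820116356) (nat_lit 0) (nat_lit 3762829610) (nat_lit 8) (nat_lit 5) (nat_lit 10) (nat_lit 4) (nat_lit 8) (nat_lit 4) (nat_lit 369) (nat_lit 323) (nat_lit 208))))) (XT.nd (nat_lit 312) (nat_lit 152) (nat_lit 0) (XT.nd (nat_lit 156) (nat_lit 76) (nat_lit 0) (XT.nd (nat_lit 78) (nat_lit 0) (nat_lit 0) (XT.lf (nat_lit 0) (nat_lit 137170574142) (nat_lit 152) (nat_lit 86796812573) (nat_lit 0) (nat_lit 47710816462) (nat_lit 8) (nat_lit 5) (nat_lit 10) (nat_lit 4) (nat_lit 8) (nat_lit 4) (nat_lit 370) (nat_lit 323) (nat_lit 207)) (XT.lf (nat_lit 0) (nat_lit 184634533567) (nat_lit 152) (nat_lit 10093354165) (nat_lit 0) (nat_lit 95173896468) (nat_lit 8) (nat_lit 5) (nat_lit 10) (nat_lit 4) (nat_lit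 8) (nat_lit 4) (nat_lit 371) (nat_lit 323) (nat_lit 206))) (XT.nd (nat_lit 78) (nat_lit 0) (nat_lit 0) (XT.lf (nat_lit 0) (nat_lit 76575410021) (nat_lit 76) (nat_lit 161161014132) (nat_lit 76) (nat_lit 71699562756) (nat_lit 7) (nat_lit 4) (nat_lit 8) (nat_lit 5) (nat_lit 8) (nat_lit 4) (nat_lit 372) (nat_lit 323) (nat_lit 205)) (XT.lf (nat_lit 0) (nat_lit 170750150380) (nat_lit 76) (nat_lit 124611483832) (nat_lit 76) (nat_lit 35149278496) (nat_lit 7) (nat_lit 4) (nat_lit 8) (nat_lit 5) (nat_lit 8) (nat_lit 4) (nat_lit 373) (nat_lit 323) (nat_lit 204)))) (XT.nd (nat_lit 156) (nat_lit 0) (nat_lit 0) (XT.nd (nat_lit 78) (nat_lit 76) (nat_lit 0) (XT.lf (nat_lit 0) (nat_lit 4107910924) (nat_lit 152) (nat_lit 80918448724) (nat_lit 76) (nat_lit 268237212812) (nat_lit 6) (nat_lit 5) (nat_lit 8) (nat_lit 5) (nat_lit 7) (nat_lit 4) (nat_lit 374) (nat_lit 323) (nat_lit 203)) (XT.lf (nat_lit 0) (nat_lit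 3491584640) (nat_lit 76) (nat_lit 41198383863) (nat_lit 152) (nat_lit 333066777930) (nat_lit 5) (nat_lit 5) (nat_lit 6) (nat_lit 5) (nat_lit 7) (nat_lit 4) (nat_lit 375) (nat_lit 323) (nat_lit 202))) (XT.nd (nat_lit 78) (nat_lit 0) (nat_lit 0) (XT.lf (nat_lit 0) (nat_lit 90935376965) (nat_lit 152) (nat_lit 304982452143) (nat_lit 0) (nat_lit 8098202554) (nat_lit 5) (nat_lit 5) (nat_lit 7) (nat_lit 4) (nat_lit 5) (nat_lit 4) (nat_lit 376) (nat_lit 323) (nat_lit 201)) (XT.nd (nat_lit 78) (nat_lit 0) (nat_lit 0) (XT.lf (nat_lit 0) (nat_lit 141949857200) (nat_lit 152) (nat_lit 231228477951) (nat_lit 0) (nat_lit 59112169656) (nat_lit 5) (nat_lit 5) (nat_lit 7) (nat_lit 4) (nat_lit 5) (nat_lit 4) (nat_lit 377) (nat_lit 323) (nat_lit 200)) (XT.lf (nat_lit 0) (nat_lit 197044895116) (nat_lit 152) (nat_lit 151575356508) (nat_lit 0) (nat_lit 114206732449) (nat_lit 5) (nat_lit 5) (nat_lit 7) (nat_lit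 4) (nat_lit 5) (nat_lit 4) (nat_lit 378) (nat_lit 323) (nat_lit 199))))))))
noncomputable def xc166 : XT := (XT.nd (nat_lit 1248) (nat_lit 76) (nat_lit 0) (XT.nd (nat_lit 624) (nat_lit 76) (nat_lit 0) (XT.nd (nat_lit 312) (nat_lit 76) (nat_lit 0) (XT.nd (nat_lit 156) (nat_lit 0) (nat_lit 0) (XT.nd (nat_lit 78) (nat_lit 76) (nat_lit 0) (XT.lf (nat_lit 0) (nat_lit 256546979825) (nat_lit 152) (nat_lit 65551069315) (nat_lit 0) (nat_lit 173708377229) (nat_lit 5) (nat_lit 5) (nat_lit 7) (nat_lit 4) (nat_lit 5) (nat_lit 4) (nat_lit 379) (nat_lit 323) (nat_lit 198)) (XT.lf (nat_lit 0) (nat_lit 28794578622) (nat_lit 76) (nat_lit 292706647961) (nat_lit 76) (nat_lit 209867638024) (nat_lit 4) (nat_lit 4) (nat_lit 5) (nat_lit 5) (nat_lit 5) (nat_lit 4) (nat_lit 380) (nat_lit 323) (nat_lit 197))) (XT.nd (nat_lit 78) (nat_lit 0) (nat_lit 0) (XT.lf (nat_lit 0) (nat_lit 134414847528) (nat_lit 76) (nat_lit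 259028747543) (nat_lit 76) (nat_lit 176189360438) (nat_lit 4) (nat_lit 4) (nat_lit 5) (nat_lit 5) (nat_lit 5) (nat_lit 4) (nat_lit 381) (nat_lit 323) (nat_lit 196)) (XT.lf (nat_lit 0) (nat_lit 248483832147) (nat_lit 76) (nat_lit 222657057546) (nat_lit 76) (nat_lit 139817321211) (nat_lit 4) (nat_lit 4) (nat_lit 5) (nat_lit 5) (nat_lit 5) (nat_lit 4) (nat_lit 382) (nat_lit 323) (nat_lit 195)))) (XT.nd (nat_lit 156) (nat_lit 76) (nat_lit 0) (XT.nd (nat_lit 78) (nat_lit 0) (nat_lit 0) (XT.lf (nat_lit 0) (nat_lit 371677496833) (nat_lit 76) (nat_lit 183376042028) (nat_lit 76) (nat_lit 100535982333) (nat_lit 4) (nat_lit 4) (nat_lit 5) (nat_lit 5) (nat_lit 5) (nat_lit 4) (nat_lit 383) (nat_lit 323) (nat_lit 194)) (XT.lf (nat_lit 0) (nat_lit 504725878117) (nat_lit 76) (nat_lit 140952924602) (nat_lit 76) (nat_lit 58112565499) (nat_lit 4) (nat_lit 4) (nat_lit 5) (nat_lit 5) (nat_lit 5) (nat_lit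 4) (nat_lit 384) (nat_lit 323) (nat_lit 193))) (XT.nd (nat_lit 78) (nat_lit 76) (nat_lit 0) (XT.lf (nat_lit 0) (nat_lit 648417410852) (nat_lit 76) (nat_lit 95136309015) (nat_lit 76) (nat_lit 12295672683) (nat_lit 4) (nat_lit 4) (nat_lit 5) (nat_lit 5) (nat_lit 5) (nat_lit 4) (nat_lit 385) (nat_lit 323) (nat_lit 192)) (XT.lf (nat_lit 0) (nat_lit 35325999116) (nat_lit 152) (nat_lit 9362814863) (nat_lit 76) (nat_lit 767311725880) (nat_lit 3) (nat_lit 5) (nat_lit 5) (nat_lit 5) (nat_lit 4) (nat_lit 4) (nat_lit 386) (nat_lit 323) (nat_lit 191))))) (XT.nd (nat_lit 312) (nat_lit 0) (nat_lit 0) (XT.nd (nat_lit 156) (nat_lit 0) (nat_lit 0) (XT.nd (nat_lit 78) (nat_lit 0) (nat_lit 0) (XT.lf (nat_lit 0) (nat_lit 88836170093) (nat_lit 152) (nat_lit 771431195978) (nat_lit 0) (nat_lit 12131419439) (nat_lit 2) (nat_lit 5) (nat_lit 4) (nat_lit 4) (nat_lit 2) (nat_lit 4) (nat_lit 387) (nat_lit 323) (nat_lit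 190)) (XT.lf (nat_lit 0) (nat_lit 148050226557) (nat_lit 152) (nat_lit 718119546470) (nat_lit 0) (nat_lit 71345272131) (nat_lit 2) (nat_lit 5) (nat_lit 4) (nat_lit 4) (nat_lit 2) (nat_lit 4) (nat_lit 388) (nat_lit 323) (nat_lit 189))) (XT.nd (nat_lit 78) (nat_lit 0) (nat_lit 0) (XT.lf (nat_lit 0) (nat_lit 212001109572) (nat_lit 152) (nat_lit 660543553457) (nat_lit 0) (nat_lit 135295966469) (nat_lit 2) (nat_lit 5) (nat_lit 4) (nat_lit 4) (nat_lit 2) (nat_lit 4) (nat_lit 389) (nat_lit 323) (nat_lit 188)) (XT.lf (nat_lit 0) (nat_lit 281067787335) (nat_lit 152) (nat_lit 598362025867) (nat_lit 0) (nat_lit 204362469530) (nat_lit 2) (nat_lit 5) (nat_lit 4) (nat_lit 4) (nat_lit 2) (nat_lit 4) (nat_lit 390) (nat_lit 323) (nat_lit 187)))) (XT.nd (nat_lit 156) (nat_lit 0) (nat_lit 0) (XT.nd (nat_lit 78) (nat_lit 0) (nat_lit 0) (XT.lf (nat_lit 0) (nat_lit 355659543862) (nat_lit 152) (nat_lit 531206480575)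 (nat_lit 0) (nat_lit 278954064296) (nat_lit 2) (nat_lit 5) (nat_lit 4) (nat_lit 4) (nat_lit 2) (nat_lit 4) (nat_lit 391) (nat_lit 323) (nat_lit 186)) (XT.lf (nat_lit 0) (nat_lit 436218404376) (nat_lit 152) (nat_lit 458678958794) (nat_lit 0) (nat_lit 359512775031) (nat_lit 2) (nat_lit 5) (nat_lit 4) (nat_lit 4) (nat_lit 2) (nat_lit 4) (nat_lit 392) (nat_lit 323) (nat_lit 185))) (XT.nd (nat_lit 78) (nat_lit 0) (nat_lit 0) (XT.lf (nat_lit 0) (nat_lit 523221754718) (nat_lit 152) (nat_lit 380349667802) (nat_lit 0) (nat_lit 446515986690) (nat_lit 2) (nat_lit 5) (nat_lit 4) (nat_lit 4) (nat_lit 2) (nat_lit 4) (nat_lit 393) (nat_lit 323) (nat_lit 184)) (XT.lf (nat_lit 0) (nat_lit 617185170297) (nat_lit 152) (nat_lit 295754434023) (nat_lit 0) (nat_lit 540479273858) (nat_lit 2) (nat_lit 5) (nat_lit 4) (nat_lit 4) (nat_lit 2) (nat_lit 4) (nat_lit 394) (nat_lit 323) (nat_lit 183)))))) (XT.nd (nat_lit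 624) (nat_lit 0) (nat_lit 0) (XT.nd (nat_lit 312) (nat_lit 0) (nat_lit 0) (XT.nd (nat_lit 156) (nat_lit 76) (nat_lit 0) (XT.nd (nat_lit 78) (nat_lit 0) (nat_lit 0) (XT.lf (nat_lit 0) (nat_lit 718665471354) (nat_lit 152) (nat_lit 204391952368) (nat_lit 0) (nat_lit 641959456015) (nat_lit 2) (nat_lit 5) (nat_lit 4) (nat_lit 4) (nat_lit 2) (nat_lit 4) (nat_lit 395) (nat_lit 323) (nat_lit 182)) (XT.lf (nat_lit 0) (nat_lit 828264022635) (nat_lit 152) (nat_lit 105720815538) (nat_lit 0) (nat_lit 751557897205) (nat_lit 2) (nat_lit 5) (nat_lit 4) (nat_lit 4) (nat_lit 2) (nat_lit 4) (nat_lit 396) (nat_lit 323) (nat_lit 181))) (XT.nd (nat_lit 78) (nat_lit 0) (nat_lit 0) (XT.lf (nat_lit 0) (nat_lit 888121761) (nat_lit 76) (nat_lit 945763534626) (nat_lit 76) (nat_lit 869057307259) (nat_lit 1) (nat_lit 4) (nat_lit 2) (nat_lit 5) (nat_lit 2) (nat_lit 4) (nat_lit 397) (nat_lit 323) (nat_lit 180)) (XT.lf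 (nat_lit 0) (nat_lit 122037900627) (nat_lit 76) (nat_lit 955362838153) (nat_lit 76) (nat_lit 878656516400) (nat_lit 1) (nat_lit 4) (nat_lit 2) (nat_lit 5) (nat_lit 2) (nat_lit 4) (nat_lit 398) (nat_lit 323) (nat_lit 179)))) (XT.nd (nat_lit 156) (nat_lit 0) (nat_lit 0) (XT.nd (nat_lit 78) (nat_lit 0) (nat_lit 0) (XT.lf (nat_lit 0) (nat_lit 252879374881) (nat_lit 76) (nat_lit 965730227968) (nat_lit 76) (nat_lit 889023818821) (nat_lit 1) (nat_lit 4) (nat_lit 2) (nat_lit 5) (nat_lit 2) (nat_lit 4) (nat_lit 399) (nat_lit 323) (nat_lit 178)) (XT.lf (nat_lit 0) (nat_lit 394187901407) (nat_lit 76) (nat_lit 976927140455) (nat_lit 76) (nat_lit 900220650387) (nat_lit 1) (nat_lit 4) (nat_lit 2) (nat_lit 5) (nat_lit 2) (nat_lit 4) (nat_lit 400) (nat_lit 323) (nat_lit 177))) (XT.nd (nat_lit 78) (nat_lit 0) (nat_lit 0) (XT.lf (nat_lit 0) (nat_lit 546800864066) (nat_lit 76) (nat_lit 989019927687) (nat_lit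 76) (nat_lit 912313362692) (nat_lit 1) (nat_lit 4) (nat_lit 2) (nat_lit 5) (nat_lit 2) (nat_lit 4) (nat_lit 401) (nat_lit 323) (nat_lit 176)) (XT.lf (nat_lit 0) (nat_lit 711622635971) (nat_lit 76) (nat_lit 1002080250625) (nat_lit 76) (nat_lit 925373616255) (nat_lit 1) (nat_lit 4) (nat_lit 2) (nat_lit 5) (nat_lit 2) (nat_lit 4) (nat_lit 402) (nat_lit 323) (nat_lit 175))))) (XT.nd (nat_lit 312) (nat_lit 0) (nat_lit 0) (XT.nd (nat_lit 156) (nat_lit 0) (nat_lit 0) (XT.nd (nat_lit 78) (nat_lit 0) (nat_lit 0) (XT.lf (nat_lit 0) (nat_lit 889629938732) (nat_lit 76) (nat_lit 1016185503777) (nat_lit 76) (nat_lit 939478805169) (nat_lit 1) (nat_lit 4) (nat_lit 2) (nat_lit 5) (nat_lit 2) (nat_lit 4) (nat_lit 403) (nat_lit 323) (nat_lit 174)) (XT.lf (nat_lit 0) (nat_lit 1081877630441) (nat_lit 76) (nat_lit 1031419273828) (nat_lit 76) (nat_lit 954712515740) (nat_lit 1) (nat_lit 4) (nat_lit 2) (nat_lit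 5) (nat_lit 2) (nat_lit 4) (nat_lit 404) (nat_lit 323) (nat_lit 173))) (XT.nd (nat_lit 78) (nat_lit 0) (nat_lit 0) (XT.lf (nat_lit 0) (nat_lit 1289504956677) (nat_lit 76) (nat_lit 1047871834970) (nat_lit 76) (nat_lit 971165021809) (nat_lit 1) (nat_lit 4) (nat_lit 2) (nat_lit 5) (nat_lit 2) (nat_lit 4) (nat_lit 405) (nat_lit 323) (nat_lit 172)) (XT.lf (nat_lit 0) (nat_lit 1513742301596) (nat_lit 76) (nat_lit 1065640683862) (nat_lit 76) (nat_lit 988933819707) (nat_lit 1) (nat_lit 4) (nat_lit 2) (nat_lit 5) (nat_lit 2) (nat_lit 4) (nat_lit 406) (nat_lit 323) (nat_lit 171)))) (XT.nd (nat_lit 40482) (nat_lit 0) (nat_lit 3800) (XT.nd (nat_lit 40404) (nat_lit 0) (nat_lit 3800) (XT.lf (nat_lit 0) (nat_lit 1755918479095) (nat_lit 76) (nat_lit 1084831117386) (nat_lit 76) (nat_lit 1008124206015) (nat_lit 1) (nat_lit 4) (nat_lit 2) (nat_lit 5) (nat_lit 2) (nat_lit 4) (nat_lit 407) (nat_lit 323) (nat_lit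 170)) (XT.lf (nat_lit 0) (nat_lit 9053560029) (nat_lit 532) (nat_lit 1953529959) (nat_lit 532) (nat_lit 1953529959) (nat_lit 51) (nat_lit 3) (nat_lit 58) (nat_lit 3) (nat_lit 58) (nat_lit 5) (nat_lit 324) (nat_lit 324) (nat_lit 252))) (XT.nd (nat_lit 78) (nat_lit 0) (nat_lit 76) (XT.lf (nat_lit 76) (nat_lit 8680767409) (nat_lit 0) (nat_lit 10449740232) (nat_lit 532) (nat_lit 7803458751) (nat_lit 52) (nat_lit 5) (nat_lit 51) (nat_lit 3) (nat_lit 58) (nat_lit 5) (nat_lit 325) (nat_lit 324) (nat_lit 251)) (XT.nd (nat_lit 78) (nat_lit 0) (nat_lit 0) (XT.lf (nat_lit 0) (nat_lit 20385360806) (nat_lit 456) (nat_lit 5579175642) (nat_lit 532) (nat_lit 2051226493) (nat_lit 52) (nat_lit 5) (nat_lit 58) (nat_lit 5) (nat_lit 59) (nat_lit 5) (nat_lit 326) (nat_lit 324) (nat_lit 250)) (XT.lf (nat_lit 76) (nat_lit 8244204055) (nat_lit 0) (nat_lit 13957700130) (nat_lit 532) (nat_lit 6945312925) (nat_lit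 53) (nat_lit 5) (nat_lit 52) (nat_lit 5) (nat_lit 59) (nat_lit 5) (nat_lit 327) (nat_lit 324) (nat_lit 249))))))))
noncomputable def xc167 : XT := (XT.nd (nat_lit 1248) (nat_lit 1140) (nat_lit 0) (XT.nd (nat_lit 624) (nat_lit 836) (nat_lit 0) (XT.nd (nat_lit 312) (nat_lit 608) (nat_lit 0) (XT.nd (nat_lit 156) (nat_lit 304) (nat_lit 0) (XT.nd (nat_lit 78) (nat_lit 0) (nat_lit 76) (XT.lf (nat_lit 76) (nat_lit 23485335191) (nat_lit 0) (nat_lit 823078793) (nat_lit 532) (nat_lit 6049218909) (nat_lit 53) (nat_lit 5) (nat_lit 52) (nat_lit 5) (nat_lit 59) (nat_lit 5) (nat_lit 328) (nat_lit 324) (nat_lit 248)) (XT.lf (nat_lit 76) (nat_lit 8372679305) (nat_lit 0) (nat_lit 18726231482) (nat_lit 532) (nat_lit 4524749329) (nat_lit 54) (nat_lit 5) (nat_lit 53) (nat_lit 5) (nat_lit 60) (nat_lit 5) (nat_lit 329) (nat_lit 324) (nat_lit 247))) (XT.nd (nat_lit 78) (nat_lit 380) (nat_lit 0) (XT.lf (nat_lit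 76) (nat_lit 25200060197) (nat_lit 0) (nat_lit 5114469525) (nat_lit 532) (nat_lit 2660303536) (nat_lit 54) (nat_lit 5) (nat_lit 53) (nat_lit 5) (nat_lit 60) (nat_lit 5) (nat_lit 330) (nat_lit 324) (nat_lit 246)) (XT.lf (nat_lit 0) (nat_lit 9161618281) (nat_lit 456) (nat_lit 25070347836) (nat_lit 532) (nat_lit 166581968) (nat_lit 48) (nat_lit 5) (nat_lit 54) (nat_lit 5) (nat_lit 55) (nat_lit 5) (nat_lit 331) (nat_lit 324) (nat_lit 245)))) (XT.nd (nat_lit 156) (nat_lit 228) (nat_lit 0) (XT.nd (nat_lit 78) (nat_lit 304) (nat_lit 0) (XT.lf (nat_lit 0) (nat_lit 2745035399) (nat_lit 532) (nat_lit 8229062304) (nat_lit 76) (nat_lit 24929629259) (nat_lit 47) (nat_lit 5) (nat_lit 54) (nat_lit 5) (nat_lit 48) (nat_lit 5) (nat_lit 332) (nat_lit 324) (nat_lit 244)) (XT.lf (nat_lit 0) (nat_lit 6240324447) (nat_lit 380) (nat_lit 26954817304) (nat_lit 76) (nat_lit 4305063425) (nat_lit 43) (nat_lit 5)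 (nat_lit 48) (nat_lit 5) (nat_lit 44) (nat_lit 5) (nat_lit 333) (nat_lit 324) (nat_lit 243))) (XT.nd (nat_lit 78) (nat_lit 228) (nat_lit 0) (XT.lf (nat_lit 0) (nat_lit 10525722171) (nat_lit 380) (nat_lit 8213229624) (nat_lit 76) (nat_lit 20444620761) (nat_lit 43) (nat_lit 5) (nat_lit 48) (nat_lit 5) (nat_lit 44) (nat_lit 5) (nat_lit 334) (nat_lit 324) (nat_lit 242)) (XT.lf (nat_lit 0) (nat_lit 12655456424) (nat_lit 228) (nat_lit 2797861936) (nat_lit 304) (nat_lit 25524350664) (nat_lit 40) (nat_lit 5) (nat_lit 43) (nat_lit 5) (nat_lit 44) (nat_lit 5) (nat_lit 335) (nat_lit 324) (nat_lit 241))))) (XT.nd (nat_lit 312) (nat_lit 456) (nat_lit 0) (XT.nd (nat_lit 156) (nat_lit 152) (nat_lit 0) (XT.nd (nat_lit 78) (nat_lit 228) (nat_lit 0) (XT.lf (nat_lit 0) (nat_lit 21347523292) (nat_lit 304) (nat_lit 7594745435) (nat_lit 76) (nat_lit 13927240762) (nat_lit 40) (nat_lit 5) (nat_lit 44) (nat_lit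 5) (nat_lit 41) (nat_lit 5) (nat_lit 336) (nat_lit 324) (nat_lit 240)) (XT.lf (nat_lit 0) (nat_lit 15487874795) (nat_lit 228) (nat_lit 12666136357) (nat_lit 304) (nat_lit 16723434058) (nat_lit 37) (nat_lit 5) (nat_lit 40) (nat_lit 5) (nat_lit 41) (nat_lit 5) (nat_lit 337) (nat_lit 324) (nat_lit 239))) (XT.nd (nat_lit 78) (nat_lit 152) (nat_lit 0) (XT.lf (nat_lit 0) (nat_lit 35831979034) (nat_lit 304) (nat_lit 6309241055) (nat_lit 76) (nat_lit 4878645991) (nat_lit 37) (nat_lit 5) (nat_lit 41) (nat_lit 5) (nat_lit 38) (nat_lit 5) (nat_lit 338) (nat_lit 324) (nat_lit 238)) (XT.lf (nat_lit 0) (nat_lit 19246367663) (nat_lit 152) (nat_lit 25665773384) (nat_lit 228) (nat_lit 4358509672) (nat_lit 35) (nat_lit 5) (nat_lit 37) (nat_lit 5) (nat_lit 38) (nat_lit 5) (nat_lit 339) (nat_lit 324) (nat_lit 237)))) (XT.nd (nat_lit 156) (nat_lit 152) (nat_lit 0) (XT.nd (nat_lit 78) (nat_lit 228) (nat_lit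 0) (XT.lf (nat_lit 0) (nat_lit 3039432453) (nat_lit 228) (nat_lit 4564525798) (nat_lit 76) (nat_lit 44077888596) (nat_lit 34) (nat_lit 5) (nat_lit 37) (nat_lit 5) (nat_lit 35) (nat_lit 5) (nat_lit 340) (nat_lit 324) (nat_lit 236)) (XT.lf (nat_lit 0) (nat_lit 11671935358) (nat_lit 304) (nat_lit 30519636102) (nat_lit 76) (nat_lit 12015059980) (nat_lit 31) (nat_lit 5) (nat_lit 35) (nat_lit 5) (nat_lit 32) (nat_lit 5) (nat_lit 341) (nat_lit 324) (nat_lit 235))) (XT.nd (nat_lit 78) (nat_lit 152) (nat_lit 0) (XT.lf (nat_lit 0) (nat_lit 21317160694) (nat_lit 304) (nat_lit 2670715451) (nat_lit 76) (nat_lit 32919757758) (nat_lit 31) (nat_lit 5) (nat_lit 35) (nat_lit 5) (nat_lit 32) (nat_lit 5) (nat_lit 342) (nat_lit 324) (nat_lit 234)) (XT.lf (nat_lit 0) (nat_lit 28844616933) (nat_lit 152) (nat_lit 3579927659) (nat_lit 228) (nat_lit 27344933245) (nat_lit 29) (nat_lit 5) (nat_lit 31) (nat_lit 5)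 (nat_lit 32) (nat_lit 5) (nat_lit 343) (nat_lit 324) (nat_lit 233)))))) (XT.nd (nat_lit 624) (nat_lit 456) (nat_lit 0) (XT.nd (nat_lit 312) (nat_lit 304) (nat_lit 0) (XT.nd (nat_lit 156) (nat_lit 228) (nat_lit 0) (XT.nd (nat_lit 78) (nat_lit 152) (nat_lit 0) (XT.lf (nat_lit 0) (nat_lit 44936344704) (nat_lit 228) (nat_lit 271772920) (nat_lit 76) (nat_lit 17610889807) (nat_lit 29) (nat_lit 5) (nat_lit 32) (nat_lit 5) (nat_lit 30) (nat_lit 5) (nat_lit 344) (nat_lit 324) (nat_lit 232)) (XT.lf (nat_lit 0) (nat_lit 34460221102) (nat_lit 152) (nat_lit 24907777085) (nat_lit 228) (nat_lit 6670992328) (nat_lit 27) (nat_lit 5) (nat_lit 29) (nat_lit 5) (nat_lit 30) (nat_lit 5) (nat_lit 345) (nat_lit 324) (nat_lit 231))) (XT.nd (nat_lit 78) (nat_lit 0) (nat_lit 0) (XT.lf (nat_lit 0) (nat_lit 2458003835) (nat_lit 152) (nat_lit 2771528404) (nat_lit 228) (nat_lit 64271466800) (nat_lit 24) (nat_lit 5)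 (nat_lit 26) (nat_lit 5) (nat_lit 27) (nat_lit 5) (nat_lit 346) (nat_lit 324) (nat_lit 230)) (XT.lf (nat_lit 0) (nat_lit 19113117180) (nat_lit 228) (nat_lit 32865592006) (nat_lit 76) (nat_lit 21136086311) (nat_lit 24) (nat_lit 5) (nat_lit 27) (nat_lit 5) (nat_lit 25) (nat_lit 5) (nat_lit 347) (nat_lit 324) (nat_lit 229)))) (XT.nd (nat_lit 156) (nat_lit 152) (nat_lit 0) (XT.nd (nat_lit 78) (nat_lit 0) (nat_lit 0) (XT.lf (nat_lit 0) (nat_lit 4179071947) (nat_lit 152) (nat_lit 30098281029) (nat_lit 228) (nat_lit 42726748417) (nat_lit 22) (nat_lit 5) (nat_lit 24) (nat_lit 5) (nat_lit 25) (nat_lit 5) (nat_lit 348) (nat_lit 324) (nat_lit 228)) (XT.lf (nat_lit 0) (nat_lit 46052507715) (nat_lit 152) (nat_lit 5498386707) (nat_lit 228) (nat_lit 29581966632) (nat_lit 22) (nat_lit 5) (nat_lit 24) (nat_lit 5) (nat_lit 25) (nat_lit 5) (nat_lit 349) (nat_lit 324) (nat_lit 227))) (XT.nd (nat_lit 78)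 (nat_lit 76) (nat_lit 0) (XT.lf (nat_lit 0) (nat_lit 5445839405) (nat_lit 76) (nat_lit 65395885556) (nat_lit 152) (nat_lit 14699366505) (nat_lit 21) (nat_lit 5) (nat_lit 22) (nat_lit 5) (nat_lit 23) (nat_lit 4) (nat_lit 350) (nat_lit 324) (nat_lit 226)) (XT.lf (nat_lit 0) (nat_lit 2429737199) (nat_lit 152) (nat_lit 39220623366) (nat_lit 76) (nat_lit 48559008910) (nat_lit 20) (nat_lit 5) (nat_lit 22) (nat_lit 5) (nat_lit 21) (nat_lit 5) (nat_lit 351) (nat_lit 324) (nat_lit 225))))) (XT.nd (nat_lit 312) (nat_lit 228) (nat_lit 0) (XT.nd (nat_lit 156) (nat_lit 76) (nat_lit 0) (XT.nd (nat_lit 78) (nat_lit 0) (nat_lit 0) (XT.lf (nat_lit 0) (nat_lit 4777667801) (nat_lit 152) (nat_lit 15470157946) (nat_lit 228) (nat_lit 74963717446) (nat_lit 18) (nat_lit 5) (nat_lit 20) (nat_lit 5) (nat_lit 21) (nat_lit 5) (nat_lit 352) (nat_lit 324) (nat_lit 224)) (XT.lf (nat_lit 0) (nat_lit 40897464869) (nat_lit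 228) (nat_lit 46341115245) (nat_lit 76) (nat_lit 13262824209) (nat_lit 18) (nat_lit 5) (nat_lit 21) (nat_lit 5) (nat_lit 19) (nat_lit 4) (nat_lit 353) (nat_lit 324) (nat_lit 223))) (XT.nd (nat_lit 78) (nat_lit 0) (nat_lit 0) (XT.lf (nat_lit 0) (nat_lit 919981210) (nat_lit 76) (nat_lit 62701135289) (nat_lit 152) (nat_lit 42559576195) (nat_lit 17) (nat_lit 5) (nat_lit 18) (nat_lit 5) (nat_lit 19) (nat_lit 4) (nat_lit 354) (nat_lit 324) (nat_lit 222)) (XT.lf (nat_lit 0) (nat_lit 54594225389) (nat_lit 76) (nat_lit 34833640864) (nat_lit 152) (nat_lit 22785242940) (nat_lit 17) (nat_lit 5) (nat_lit 18) (nat_lit 5) (nat_lit 19) (nat_lit 4) (nat_lit 355) (nat_lit 324) (nat_lit 221)))) (XT.nd (nat_lit 156) (nat_lit 76) (nat_lit 0) (XT.nd (nat_lit 78) (nat_lit 152) (nat_lit 0) (XT.lf (nat_lit 0) (nat_lit 112559445881) (nat_lit 76) (nat_lit 4738004348) (nat_lit 152) (nat_lit 1430806670) (nat_lit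 17) (nat_lit 5) (nat_lit 18) (nat_lit 5) (nat_lit 19) (nat_lit 4) (nat_lit 356) (nat_lit 324) (nat_lit 220)) (XT.lf (nat_lit 0) (nat_lit 22498942396) (nat_lit 152) (nat_lit 74889703947) (nat_lit 76) (nat_lit 28178425128) (nat_lit 15) (nat_lit 5) (nat_lit 17) (nat_lit 5) (nat_lit 16) (nat_lit 4) (nat_lit 357) (nat_lit 324) (nat_lit 219))) (XT.nd (nat_lit 78) (nat_lit 76) (nat_lit 0) (XT.lf (nat_lit 0) (nat_lit 48560286335) (nat_lit 152) (nat_lit 20684898220) (nat_lit 76) (nat_lit 63681273426) (nat_lit 15) (nat_lit 5) (nat_lit 17) (nat_lit 5) (nat_lit 16) (nat_lit 4) (nat_lit 358) (nat_lit 324) (nat_lit 218)) (XT.nd (nat_lit 78) (nat_lit 0) (nat_lit 0) (XT.lf (nat_lit 0) (nat_lit 39846952920) (nat_lit 76) (nat_lit 37816426763) (nat_lit 152) (nat_lit 63134669424) (nat_lit 14) (nat_lit 5) (nat_lit 15) (nat_lit 5) (nat_lit 16) (nat_lit 4) (nat_lit 359) (nat_lit 324) (nat_lit 217)) (XT.lf (nat_lit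 0) (nat_lit 106395142594) (nat_lit 76) (nat_lit 3263708898) (nat_lit 152) (nat_lit 39595386521) (nat_lit 14) (nat_lit 5) (nat_lit 15) (nat_lit 5) (nat_lit 16) (nat_lit 4) (nat_lit 360) (nat_lit 324) (nat_lit 216))))))))
noncomputable def xc168 : XT := (XT.nd (nat_lit 1248) (nat_lit 228) (nat_lit 0) (XT.nd (nat_lit 624) (nat_lit 304) (nat_lit 0) (XT.nd (nat_lit 312) (nat_lit 152) (nat_lit 0) (XT.nd (nat_lit 156) (nat_lit 76) (nat_lit 0) (XT.nd (nat_lit 78) (nat_lit 76) (nat_lit 0) (XT.lf (nat_lit 0) (nat_lit 20062419560) (nat_lit 76) (nat_lit 125451673728) (nat_lit 76) (nat_lit 12768819062) (nat_lit 13) (nat_lit 4) (nat_lit 14) (nat_lit 5) (nat_lit 14) (nat_lit 4) (nat_lit 361) (nat_lit 324) (nat_lit 215)) (XT.lf (nat_lit 0) (nat_lit 16679000227) (nat_lit 152) (nat_lit 77992432793) (nat_lit 76) (nat_lit 73228415314) (nat_lit 12) (nat_lit 5) (nat_lit 14) (nat_lit 5) (nat_lit 13) (nat_lit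 4) (nat_lit 362) (nat_lit 324) (nat_lit 214))) (XT.nd (nat_lit 78) (nat_lit 76) (nat_lit 0) (XT.lf (nat_lit 0) (nat_lit 47791553700) (nat_lit 152) (nat_lit 13280079531) (nat_lit 76) (nat_lit 117188073542) (nat_lit 12) (nat_lit 5) (nat_lit 14) (nat_lit 5) (nat_lit 13) (nat_lit 4) (nat_lit 363) (nat_lit 324) (nat_lit 213)) (XT.lf (nat_lit 0) (nat_lit 59587969582) (nat_lit 76) (nat_lit 23237082607) (nat_lit 152) (nat_lit 106508747101) (nat_lit 11) (nat_lit 5) (nat_lit 12) (nat_lit 5) (nat_lit 13) (nat_lit 4) (nat_lit 364) (nat_lit 324) (nat_lit 212)))) (XT.nd (nat_lit 156) (nat_lit 76) (nat_lit 0) (XT.nd (nat_lit 78) (nat_lit 76) (nat_lit 0) (XT.lf (nat_lit 0) (nat_lit 121456487046) (nat_lit 152) (nat_lit 62659490154) (nat_lit 0) (nat_lit 17114222099) (nat_lit 11) (nat_lit 5) (nat_lit 13) (nat_lit 4) (nat_lit 11) (nat_lit 4) (nat_lit 365) (nat_lit 324) (nat_lit 211)) (XT.lf (nat_lit 0) (nat_lit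 9672052380) (nat_lit 76) (nat_lit 154341503530) (nat_lit 76) (nat_lit 49997946428) (nat_lit 10) (nat_lit 4) (nat_lit 11) (nat_lit 5) (nat_lit 11) (nat_lit 4) (nat_lit 366) (nat_lit 324) (nat_lit 210))) (XT.nd (nat_lit 78) (nat_lit 76) (nat_lit 0) (XT.lf (nat_lit 0) (nat_lit 91351690310) (nat_lit 76) (nat_lit 120335698737) (nat_lit 76) (nat_lit 15990945195) (nat_lit 10) (nat_lit 4) (nat_lit 11) (nat_lit 5) (nat_lit 11) (nat_lit 4) (nat_lit 367) (nat_lit 324) (nat_lit 209)) (XT.lf (nat_lit 0) (nat_lit 19698314576) (nat_lit 152) (nat_lit 63373367039) (nat_lit 76) (nat_lit 159327012006) (nat_lit 9) (nat_lit 5) (nat_lit 11) (nat_lit 5) (nat_lit 10) (nat_lit 4) (nat_lit 368) (nat_lit 324) (nat_lit 208))))) (XT.nd (nat_lit 312) (nat_lit 228) (nat_lit 0) (XT.nd (nat_lit 156) (nat_lit 0) (nat_lit 0) (XT.nd (nat_lit 78) (nat_lit 0) (nat_lit 0) (XT.lf (nat_lit 0) (nat_lit 15788948544) (nat_lit 76)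 (nat_lit 41968664751) (nat_lit 152) (nat_lit 200475534968) (nat_lit 8) (nat_lit 5) (nat_lit 9) (nat_lit 5) (nat_lit 10) (nat_lit 4) (nat_lit 369) (nat_lit 324) (nat_lit 207)) (XT.lf (nat_lit 0) (nat_lit 100696773616) (nat_lit 152) (nat_lit 170412370500) (nat_lit 0) (nat_lit 4078406130) (nat_lit 8) (nat_lit 5) (nat_lit 10) (nat_lit 4) (nat_lit 8) (nat_lit 4) (nat_lit 370) (nat_lit 324) (nat_lit 206))) (XT.nd (nat_lit 78) (nat_lit 0) (nat_lit 0) (XT.lf (nat_lit 0) (nat_lit 148160335904) (nat_lit 152) (nat_lit 93709673167) (nat_lit 0) (nat_lit 51541154141) (nat_lit 8) (nat_lit 5) (nat_lit 10) (nat_lit 4) (nat_lit 8) (nat_lit 4) (nat_lit 371) (nat_lit 324) (nat_lit 205)) (XT.lf (nat_lit 0) (nat_lit 199420218318) (nat_lit 152) (nat_lit 10872225820) (nat_lit 0) (nat_lit 102800282595) (nat_lit 8) (nat_lit 5) (nat_lit 10) (nat_lit 4) (nat_lit 8) (nat_lit 4) (nat_lit 372) (nat_lit 324) (nat_lit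 204)))) (XT.nd (nat_lit 156) (nat_lit 152) (nat_lit 0) (XT.nd (nat_lit 78) (nat_lit 0) (nat_lit 0) (XT.lf (nat_lit 0) (nat_lit 82729315534) (nat_lit 76) (nat_lit 174040509618) (nat_lit 76) (nat_lit 77419875783) (nat_lit 7) (nat_lit 4) (nat_lit 8) (nat_lit 5) (nat_lit 8) (nat_lit 4) (nat_lit 373) (nat_lit 324) (nat_lit 203)) (XT.lf (nat_lit 0) (nat_lit 184435970476) (nat_lit 76) (nat_lit 134568008423) (nat_lit 76) (nat_lit 37946728189) (nat_lit 7) (nat_lit 4) (nat_lit 8) (nat_lit 5) (nat_lit 8) (nat_lit 4) (nat_lit 374) (nat_lit 324) (nat_lit 202))) (XT.nd (nat_lit 78) (nat_lit 76) (nat_lit 0) (XT.lf (nat_lit 0) (nat_lit 4449291583) (nat_lit 152) (nat_lit 87367352257) (nat_lit 76) (nat_lit 289706989862) (nat_lit 6) (nat_lit 5) (nat_lit 8) (nat_lit 5) (nat_lit 7) (nat_lit 4) (nat_lit 375) (nat_lit 324) (nat_lit 201)) (XT.lf (nat_lit 0) (nat_lit 3794861691) (nat_lit 76) (nat_lit 44482683802)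 (nat_lit 152) (nat_lit 359698745912) (nat_lit 5) (nat_lit 5) (nat_lit 6) (nat_lit 5) (nat_lit 7) (nat_lit 4) (nat_lit 376) (nat_lit 324) (nat_lit 200)))))) (XT.nd (nat_lit 624) (nat_lit 152) (nat_lit 0) (XT.nd (nat_lit 312) (nat_lit 76) (nat_lit 0) (XT.nd (nat_lit 156) (nat_lit 0) (nat_lit 0) (XT.nd (nat_lit 78) (nat_lit 0) (nat_lit 0) (XT.lf (nat_lit 0) (nat_lit 98221927296) (nat_lit 152) (nat_lit 329358208736) (nat_lit 0) (nat_lit 8756236493) (nat_lit 5) (nat_lit 5) (nat_lit 7) (nat_lit 4) (nat_lit 5) (nat_lit 4) (nat_lit 377) (nat_lit 324) (nat_lit 199)) (XT.lf (nat_lit 0) (nat_lit 153316697789) (nat_lit 152) (nat_lit 249705608429) (nat_lit 0) (nat_lit 63850567057) (nat_lit 5) (nat_lit 5) (nat_lit 7) (nat_lit 4) (nat_lit 5) (nat_lit 4) (nat_lit 378) (nat_lit 324) (nat_lit 198))) (XT.nd (nat_lit 78) (nat_lit 0) (nat_lit 0) (XT.lf (nat_lit 0) (nat_lit 212818534884) (nat_lit 152) (nat_lit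 163681803771) (nat_lit 0) (nat_lit 123351996811) (nat_lit 5) (nat_lit 5) (nat_lit 7) (nat_lit 4) (nat_lit 5) (nat_lit 4) (nat_lit 379) (nat_lit 324) (nat_lit 197)) (XT.lf (nat_lit 0) (nat_lit 277080042063) (nat_lit 152) (nat_lit 70777024066) (nat_lit 0) (nat_lit 187613126822) (nat_lit 5) (nat_lit 5) (nat_lit 7) (nat_lit 4) (nat_lit 5) (nat_lit 4) (nat_lit 380) (nat_lit 324) (nat_lit 196)))) (XT.nd (nat_lit 156) (nat_lit 0) (nat_lit 0) (XT.nd (nat_lit 78) (nat_lit 0) (nat_lit 0) (XT.lf (nat_lit 0) (nat_lit 31115816699) (nat_lit 76) (nat_lit 316114547695) (nat_lit 76) (nat_lit 226647283225) (nat_lit 4) (nat_lit 4) (nat_lit 5) (nat_lit 5) (nat_lit 5) (nat_lit 4) (nat_lit 381) (nat_lit 324) (nat_lit 195)) (XT.lf (nat_lit 0) (nat_lit 145184398095) (nat_lit 76) (nat_lit 279743054659) (nat_lit 76) (nat_lit 190275466828) (nat_lit 4) (nat_lit 4) (nat_lit 5) (nat_lit 5) (nat_lit 5) (nat_lit 4)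 (nat_lit 382) (nat_lit 324) (nat_lit 194))) (XT.nd (nat_lit 78) (nat_lit 0) (nat_lit 0) (XT.lf (nat_lit 0) (nat_lit 268377689427) (nat_lit 76) (nat_lit 240462221513) (nat_lit 76) (nat_lit 150994334274) (nat_lit 4) (nat_lit 4) (nat_lit 5) (nat_lit 5) (nat_lit 5) (nat_lit 4) (nat_lit 383) (nat_lit 324) (nat_lit 193)) (XT.lf (nat_lit 0) (nat_lit 401425725013) (nat_lit 76) (nat_lit 198039272949) (nat_lit 76) (nat_lit 108571108480) (nat_lit 4) (nat_lit 4) (nat_lit 5) (nat_lit 5) (nat_lit 5) (nat_lit 4) (nat_lit 384) (nat_lit 324) (nat_lit 192))))) (XT.nd (nat_lit 312) (nat_lit 0) (nat_lit 0) (XT.nd (nat_lit 156) (nat_lit 152) (nat_lit 0) (XT.nd (nat_lit 78) (nat_lit 0) (nat_lit 0) (XT.lf (nat_lit 0) (nat_lit 545116937657) (nat_lit 76) (nat_lit 152222813717) (nat_lit 76) (nat_lit 62754392554) (nat_lit 4) (nat_lit 4) (nat_lit 5) (nat_lit 5) (nat_lit 5) (nat_lit 4) (nat_lit 385) (nat_lit 324)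 (nat_lit 191)) (XT.lf (nat_lit 0) (nat_lit 700302830841) (nat_lit 76) (nat_lit 102741338873) (nat_lit 76) (nat_lit 13272680030) (nat_lit 4) (nat_lit 4) (nat_lit 5) (nat_lit 5) (nat_lit 5) (nat_lit 4) (nat_lit 386) (nat_lit 324) (nat_lit 190))) (XT.nd (nat_lit 78) (nat_lit 76) (nat_lit 0) (XT.lf (nat_lit 0) (nat_lit 38157925327) (nat_lit 152) (nat_lit 10100394234) (nat_lit 76) (nat_lit 828701794045) (nat_lit 3) (nat_lit 5) (nat_lit 5) (nat_lit 5) (nat_lit 4) (nat_lit 4) (nat_lit 387) (nat_lit 324) (nat_lit 189)) (XT.lf (nat_lit 0) (nat_lit 95948876890) (nat_lit 152) (nat_lit 833134211135) (nat_lit 0) (nat_lit 13107133660) (nat_lit 2) (nat_lit 5) (nat_lit 4) (nat_lit 4) (nat_lit 2) (nat_lit 4) (nat_lit 388) (nat_lit 324) (nat_lit 188)))) (XT.nd (nat_lit 156) (nat_lit 0) (nat_lit 0) (XT.nd (nat_lit 78) (nat_lit 0) (nat_lit 0) (XT.lf (nat_lit 0) (nat_lit 159899627264) (nat_lit 152) (nat_lit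 775558480076) (nat_lit 0) (nat_lit 77057709333) (nat_lit 2) (nat_lit 5) (nat_lit 4) (nat_lit 4) (nat_lit 2) (nat_lit 4) (nat_lit 389) (nat_lit 324) (nat_lit 187)) (XT.lf (nat_lit 0) (nat_lit 228966182211) (nat_lit 152) (nat_lit 713377195036) (nat_lit 0) (nat_lit 146124102519) (nat_lit 2) (nat_lit 5) (nat_lit 4) (nat_lit 4) (nat_lit 2) (nat_lit 4) (nat_lit 390) (nat_lit 324) (nat_lit 186))) (XT.nd (nat_lit 78) (nat_lit 0) (nat_lit 0) (XT.lf (nat_lit 0) (nat_lit 303557825019) (nat_lit 152) (nat_lit 646221874328) (nat_lit 0) (nat_lit 220715595548) (nat_lit 2) (nat_lit 5) (nat_lit 4) (nat_lit 4) (nat_lit 2) (nat_lit 4) (nat_lit 391) (nat_lit 324) (nat_lit 185)) (XT.lf (nat_lit 0) (nat_lit 384116580239) (nat_lit 152) (nat_lit 573694560495) (nat_lit 0) (nat_lit 301274212084) (nat_lit 2) (nat_lit 5) (nat_lit 4) (nat_lit 4) (nat_lit 2) (nat_lit 4) (nat_lit 392) (nat_lit 324) (nat_lit 184)))))))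
noncomputable def xc169 : XT := (XT.nd (nat_lit 41652) (nat_lit 0) (nat_lit 2280) (XT.nd (nat_lit 624) (nat_lit 0) (nat_lit 0) (XT.nd (nat_lit 312) (nat_lit 76) (nat_lit 0) (XT.nd (nat_lit 156) (nat_lit 0) (nat_lit 0) (XT.nd (nat_lit 78) (nat_lit 0) (nat_lit 0) (XT.lf (nat_lit 0) (nat_lit 471119833085) (nat_lit 152) (nat_lit 495365462048) (nat_lit 0) (nat_lit 388277336520) (nat_lit 2) (nat_lit 5) (nat_lit 4) (nat_lit 4) (nat_lit 2) (nat_lit 4) (nat_lit 393) (nat_lit 324) (nat_lit 183)) (XT.lf (nat_lit 0) (nat_lit 565083158391) (nat_lit 152) (nat_lit 410770406550) (nat_lit 0) (nat_lit 482240542926) (nat_lit 2) (nat_lit 5) (nat_lit 4) (nat_lit 4) (nat_lit 2) (nat_lit 4) (nat_lit 394) (nat_lit 324) (nat_lit 182))) (XT.nd (nat_lit 78) (nat_lit 0) (nat_lit 0) (XT.lf (nat_lit 0) (nat_lit 666563375861) (nat_lit 152) (nat_lit 319408089971) (nat_lit 0) (nat_lit 583720650305) (nat_lit 2) (nat_lit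 5) (nat_lit 4) (nat_lit 4) (nat_lit 2) (nat_lit 4) (nat_lit 395) (nat_lit 324) (nat_lit 181)) (XT.lf (nat_lit 0) (nat_lit 776161849748) (nat_lit 152) (nat_lit 220737105989) (nat_lit 0) (nat_lit 693319022255) (nat_lit 2) (nat_lit 5) (nat_lit 4) (nat_lit 4) (nat_lit 2) (nat_lit 4) (nat_lit 396) (nat_lit 324) (nat_lit 180)))) (XT.nd (nat_lit 156) (nat_lit 0) (nat_lit 0) (XT.nd (nat_lit 78) (nat_lit 76) (nat_lit 0) (XT.lf (nat_lit 0) (nat_lit 894528052488) (nat_lit 152) (nat_lit 114172737662) (nat_lit 0) (nat_lit 811685130609) (nat_lit 2) (nat_lit 5) (nat_lit 4) (nat_lit 4) (nat_lit 2) (nat_lit 4) (nat_lit 397) (nat_lit 324) (nat_lit 179)) (XT.lf (nat_lit 0) (nat_lit 964769226) (nat_lit 76) (nat_lit 1021421846929) (nat_lit 76) (nat_lit 938578837656) (nat_lit 1) (nat_lit 4) (nat_lit 2) (nat_lit 5) (nat_lit 2) (nat_lit 4) (nat_lit 398) (nat_lit 324) (nat_lit 178))) (XT.nd (nat_lit 78) (nat_lit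 0) (nat_lit 0) (XT.lf (nat_lit 0) (nat_lit 131806115755) (nat_lit 76) (nat_lit 1031789299959) (nat_lit 76) (nat_lit 948946209765) (nat_lit 1) (nat_lit 4) (nat_lit 2) (nat_lit 5) (nat_lit 2) (nat_lit 4) (nat_lit 399) (nat_lit 324) (nat_lit 177)) (XT.lf (nat_lit 0) (nat_lit 273114524017) (nat_lit 76) (nat_lit 1042986270977) (nat_lit 76) (nat_lit 960143105856) (nat_lit 1) (nat_lit 4) (nat_lit 2) (nat_lit 5) (nat_lit 2) (nat_lit 4) (nat_lit 400) (nat_lit 324) (nat_lit 176))))) (XT.nd (nat_lit 312) (nat_lit 0) (nat_lit 0) (XT.nd (nat_lit 156) (nat_lit 0) (nat_lit 0) (XT.nd (nat_lit 78) (nat_lit 0) (nat_lit 0) (XT.lf (nat_lit 0) (nat_lit 425727377173) (nat_lit 76) (nat_lit 1055079112405) (nat_lit 76) (nat_lit 972235877908) (nat_lit 1) (nat_lit 4) (nat_lit 2) (nat_lit 5) (nat_lit 2) (nat_lit 4) (nat_lit 401) (nat_lit 324) (nat_lit 175)) (XT.lf (nat_lit 0) (nat_lit 590549047685) (nat_lit 76)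 (nat_lit 1068139485526) (nat_lit 76) (nat_lit 985296186791) (nat_lit 1) (nat_lit 4) (nat_lit 2) (nat_lit 5) (nat_lit 2) (nat_lit 4) (nat_lit 402) (nat_lit 324) (nat_lit 174))) (XT.nd (nat_lit 78) (nat_lit 0) (nat_lit 0) (XT.lf (nat_lit 0) (nat_lit 768556256565) (nat_lit 76) (nat_lit 1082244785142) (nat_lit 76) (nat_lit 999401426929) (nat_lit 1) (nat_lit 4) (nat_lit 2) (nat_lit 5) (nat_lit 2) (nat_lit 4) (nat_lit 403) (nat_lit 324) (nat_lit 173)) (XT.lf (nat_lit 0) (nat_lit 960803861346) (nat_lit 76) (nat_lit 1097478598216) (nat_lit 76) (nat_lit 1014635184929) (nat_lit 1) (nat_lit 4) (nat_lit 2) (nat_lit 5) (nat_lit 2) (nat_lit 4) (nat_lit 404) (nat_lit 324) (nat_lit 172)))) (XT.nd (nat_lit 156) (nat_lit 0) (nat_lit 0) (XT.nd (nat_lit 78) (nat_lit 0) (nat_lit 0) (XT.lf (nat_lit 0) (nat_lit 1168431107094) (nat_lit 76) (nat_lit 1113931199193) (nat_lit 76) (nat_lit 1031087734913) (nat_lit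 1) (nat_lit 4) (nat_lit 2) (nat_lit 5) (nat_lit 2) (nat_lit 4) (nat_lit 405) (nat_lit 324) (nat_lit 171)) (XT.lf (nat_lit 0) (nat_lit 1392668377487) (nat_lit 76) (nat_lit 1131700084970) (nat_lit 76) (nat_lit 1048856573473) (nat_lit 1) (nat_lit 4) (nat_lit 2) (nat_lit 5) (nat_lit 2) (nat_lit 4) (nat_lit 406) (nat_lit 324) (nat_lit 170))) (XT.nd (nat_lit 40482) (nat_lit 0) (nat_lit 3800) (XT.lf (nat_lit 0) (nat_lit 1634844485980) (nat_lit 76) (nat_lit 1150890552647) (nat_lit 76) (nat_lit 1068046997432) (nat_lit 1) (nat_lit 4) (nat_lit 2) (nat_lit 5) (nat_lit 2) (nat_lit 4) (nat_lit 407) (nat_lit 324) (nat_lit 169)) (XT.lf (nat_lit 0) (nat_lit 9866002506) (nat_lit 532) (nat_lit 2062112117) (nat_lit 532) (nat_lit 2062112117) (nat_lit 51) (nat_lit 3) (nat_lit 58) (nat_lit 3) (nat_lit 58) (nat_lit 5) (nat_lit 325) (nat_lit 325) (nat_lit 250)))))) (XT.nd (nat_lit 624) (nat_lit 1216) (nat_lit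 0) (XT.nd (nat_lit 312) (nat_lit 304) (nat_lit 0) (XT.nd (nat_lit 156) (nat_lit 0) (nat_lit 76) (XT.nd (nat_lit 78) (nat_lit 0) (nat_lit 76) (XT.lf (nat_lit 76) (nat_lit 9468214076) (nat_lit 0) (nat_lit 11358225427) (nat_lit 532) (nat_lit 8248652700) (nat_lit 52) (nat_lit 5) (nat_lit 51) (nat_lit 3) (nat_lit 58) (nat_lit 5) (nat_lit 326) (nat_lit 325) (nat_lit 249)) (XT.lf (nat_lit 0) (nat_lit 22167807708) (nat_lit 456) (nat_lit 5925212893) (nat_lit 532) (nat_lit 2151547822) (nat_lit 52) (nat_lit 5) (nat_lit 58) (nat_lit 5) (nat_lit 59) (nat_lit 5) (nat_lit 327) (nat_lit 325) (nat_lit 248))) (XT.nd (nat_lit 78) (nat_lit 0) (nat_lit 0) (XT.lf (nat_lit 76) (nat_lit 9001498021) (nat_lit 0) (nat_lit 15119296644) (nat_lit 532) (nat_lit 7346478808) (nat_lit 53) (nat_lit 5) (nat_lit 52) (nat_lit 5) (nat_lit 59) (nat_lit 5) (nat_lit 328) (nat_lit 325) (nat_lit 247)) (XT.lf (nat_lit 76) (nat_lit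 25454678341) (nat_lit 0) (nat_lit 930573711) (nat_lit 532) (nat_lit 6390138689) (nat_lit 53) (nat_lit 5) (nat_lit 52) (nat_lit 5) (nat_lit 59) (nat_lit 5) (nat_lit 329) (nat_lit 325) (nat_lit 246)))) (XT.nd (nat_lit 156) (nat_lit 456) (nat_lit 0) (XT.nd (nat_lit 78) (nat_lit 0) (nat_lit 0) (XT.lf (nat_lit 76) (nat_lit 9142272753) (nat_lit 0) (nat_lit 20248398086) (nat_lit 532) (nat_lit 4752715434) (nat_lit 54) (nat_lit 5) (nat_lit 53) (nat_lit 5) (nat_lit 60) (nat_lit 5) (nat_lit 330) (nat_lit 325) (nat_lit 245)) (XT.lf (nat_lit 76) (nat_lit 27308453072) (nat_lit 0) (nat_lit 5545912351) (nat_lit 532) (nat_lit 2749040929) (nat_lit 54) (nat_lit 5) (nat_lit 53) (nat_lit 5) (nat_lit 60) (nat_lit 5) (nat_lit 331) (nat_lit 325) (nat_lit 244))) (XT.nd (nat_lit 78) (nat_lit 76) (nat_lit 0) (XT.lf (nat_lit 0) (nat_lit 9994294506) (nat_lit 456) (nat_lit 27084310555) (nat_lit 532) (nat_lit 62958393)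 (nat_lit 48) (nat_lit 5) (nat_lit 54) (nat_lit 5) (nat_lit 55) (nat_lit 5) (nat_lit 332) (nat_lit 325) (nat_lit 243)) (XT.lf (nat_lit 0) (nat_lit 3067508429) (nat_lit 532) (nat_lit 8789421930) (nat_lit 76) (nat_lit 26910674862) (nat_lit 47) (nat_lit 5) (nat_lit 54) (nat_lit 5) (nat_lit 48) (nat_lit 5) (nat_lit 333) (nat_lit 325) (nat_lit 242))))) (XT.nd (nat_lit 312) (nat_lit 684) (nat_lit 0) (XT.nd (nat_lit 156) (nat_lit 228) (nat_lit 0) (XT.nd (nat_lit 78) (nat_lit 0) (nat_lit 0) (XT.lf (nat_lit 0) (nat_lit 6837047431) (nat_lit 380) (nat_lit 29007687973) (nat_lit 76) (nat_lit 4647510236) (nat_lit 43) (nat_lit 5) (nat_lit 48) (nat_lit 5) (nat_lit 44) (nat_lit 5) (nat_lit 334) (nat_lit 325) (nat_lit 241)) (XT.lf (nat_lit 0) (nat_lit 11458054971) (nat_lit 380) (nat_lit 8774441035) (nat_lit 76) (nat_lit 22078377215) (nat_lit 43) (nat_lit 5) (nat_lit 48) (nat_lit 5) (nat_lit 44) (nat_lit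 5) (nat_lit 335) (nat_lit 325) (nat_lit 240))) (XT.nd (nat_lit 78) (nat_lit 0) (nat_lit 0) (XT.lf (nat_lit 0) (nat_lit 13761313391) (nat_lit 228) (nat_lit 3014105190) (nat_lit 304) (nat_lit 27473446133) (nat_lit 40) (nat_lit 5) (nat_lit 43) (nat_lit 5) (nat_lit 44) (nat_lit 5) (nat_lit 336) (nat_lit 325) (nat_lit 239)) (XT.lf (nat_lit 0) (nat_lit 23134970699) (nat_lit 304) (nat_lit 8109495580) (nat_lit 76) (nat_lit 15048092462) (nat_lit 40) (nat_lit 5) (nat_lit 44) (nat_lit 5) (nat_lit 41) (nat_lit 5) (nat_lit 337) (nat_lit 325) (nat_lit 238)))) (XT.nd (nat_lit 156) (nat_lit 456) (nat_lit 0) (XT.nd (nat_lit 78) (nat_lit 0) (nat_lit 0) (XT.lf (nat_lit 0) (nat_lit 16817384155) (nat_lit 228) (nat_lit 13664869795) (nat_lit 304) (nat_lit 17979183622) (nat_lit 37) (nat_lit 5) (nat_lit 40) (nat_lit 5) (nat_lit 41) (nat_lit 5) (nat_lit 338) (nat_lit 325) (nat_lit 237)) (XT.lf (nat_lit 0) (nat_lit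 38769159591) (nat_lit 304) (nat_lit 6724783557) (nat_lit 76) (nat_lit 5281742529) (nat_lit 37) (nat_lit 5) (nat_lit 41) (nat_lit 5) (nat_lit 38) (nat_lit 5) (nat_lit 339) (nat_lit 325) (nat_lit 236))) (XT.nd (nat_lit 78) (nat_lit 304) (nat_lit 0) (XT.lf (nat_lit 0) (nat_lit 20873015712) (nat_lit 152) (nat_lit 27699578453) (nat_lit 228) (nat_lit 4634199037) (nat_lit 35) (nat_lit 5) (nat_lit 37) (nat_lit 5) (nat_lit 38) (nat_lit 5) (nat_lit 340) (nat_lit 325) (nat_lit 235)) (XT.nd (nat_lit 78) (nat_lit 228) (nat_lit 0) (XT.lf (nat_lit 0) (nat_lit 3346790830) (nat_lit 228) (nat_lit 4845713079) (nat_lit 76) (nat_lit 47618659195) (nat_lit 34) (nat_lit 5) (nat_lit 37) (nat_lit 5) (nat_lit 35) (nat_lit 5) (nat_lit 341) (nat_lit 325) (nat_lit 234)) (XT.lf (nat_lit 0) (nat_lit 12667597998) (nat_lit 304) (nat_lit 32874848101) (nat_lit 76) (nat_lit 12995675093) (nat_lit 31) (nat_lit 5) (nat_lit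 35) (nat_lit 5) (nat_lit 32) (nat_lit 5) (nat_lit 342) (nat_lit 325) (nat_lit 233))))))))
noncomputable def xc170 : XT := (XT.nd (nat_lit 1248) (nat_lit 608) (nat_lit 0) (XT.nd (nat_lit 624) (nat_lit 532) (nat_lit 0) (XT.nd (nat_lit 312) (nat_lit 380) (nat_lit 0) (XT.nd (nat_lit 156) (nat_lit 152) (nat_lit 0) (XT.nd (nat_lit 78) (nat_lit 152) (nat_lit 0) (XT.lf (nat_lit 0) (nat_lit 23079855597) (nat_lit 304) (nat_lit 2804410752) (nat_lit 76) (nat_lit 35571310893) (nat_lit 31) (nat_lit 5) (nat_lit 35) (nat_lit 5) (nat_lit 32) (nat_lit 5) (nat_lit 343) (nat_lit 325) (nat_lit 232)) (XT.lf (nat_lit 0) (nat_lit 31230123870) (nat_lit 152) (nat_lit 3843334661) (nat_lit 228) (nat_lit 29473105940) (nat_lit 29) (nat_lit 5) (nat_lit 31) (nat_lit 5) (nat_lit 32) (nat_lit 5) (nat_lit 344) (nat_lit 325) (nat_lit 231))) (XT.nd (nat_lit 78) (nat_lit 152) (nat_lit 0) (XT.lf (nat_lit 0) (nat_lit 48582644145)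 (nat_lit 228) (nat_lit 217721853) (nat_lit 76) (nat_lit 19039980712) (nat_lit 29) (nat_lit 5) (nat_lit 32) (nat_lit 5) (nat_lit 30) (nat_lit 5) (nat_lit 345) (nat_lit 325) (nat_lit 230)) (XT.lf (nat_lit 0) (nat_lit 37290912883) (nat_lit 152) (nat_lit 26875886893) (nat_lit 228) (nat_lit 7151296257) (nat_lit 27) (nat_lit 5) (nat_lit 29) (nat_lit 5) (nat_lit 30) (nat_lit 5) (nat_lit 346) (nat_lit 325) (nat_lit 229)))) (XT.nd (nat_lit 156) (nat_lit 152) (nat_lit 0) (XT.nd (nat_lit 78) (nat_lit 0) (nat_lit 0) (XT.lf (nat_lit 0) (nat_lit 2729308931) (nat_lit 152) (nat_lit 2967331022) (nat_lit 228) (nat_lit 69360483857) (nat_lit 24) (nat_lit 5) (nat_lit 26) (nat_lit 5) (nat_lit 27) (nat_lit 5) (nat_lit 347) (nat_lit 325) (nat_lit 228)) (XT.lf (nat_lit 0) (nat_lit 20687878131) (nat_lit 228) (nat_lit 35422620318) (nat_lit 76) (nat_lit 22849772335) (nat_lit 24) (nat_lit 5) (nat_lit 27) (nat_lit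 5) (nat_lit 25) (nat_lit 5) (nat_lit 348) (nat_lit 325) (nat_lit 227))) (XT.nd (nat_lit 78) (nat_lit 0) (nat_lit 0) (XT.lf (nat_lit 0) (nat_lit 4583788422) (nat_lit 152) (nat_lit 32479771224) (nat_lit 228) (nat_lit 46097300766) (nat_lit 22) (nat_lit 5) (nat_lit 24) (nat_lit 5) (nat_lit 25) (nat_lit 5) (nat_lit 349) (nat_lit 325) (nat_lit 226)) (XT.lf (nat_lit 0) (nat_lit 49801884924) (nat_lit 152) (nat_lit 5913838859) (nat_lit 228) (nat_lit 31904461440) (nat_lit 22) (nat_lit 5) (nat_lit 24) (nat_lit 5) (nat_lit 25) (nat_lit 5) (nat_lit 350) (nat_lit 325) (nat_lit 225))))) (XT.nd (nat_lit 312) (nat_lit 228) (nat_lit 0) (XT.nd (nat_lit 156) (nat_lit 152) (nat_lit 0) (XT.nd (nat_lit 78) (nat_lit 76) (nat_lit 0) (XT.lf (nat_lit 0) (nat_lit 5947681756) (nat_lit 76) (nat_lit 70601255199) (nat_lit 152) (nat_lit 15832211085) (nat_lit 21) (nat_lit 5) (nat_lit 22) (nat_lit 5) (nat_lit 23) (nat_lit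 4) (nat_lit 351) (nat_lit 325) (nat_lit 224)) (XT.lf (nat_lit 0) (nat_lit 2662031423) (nat_lit 152) (nat_lit 42294968354) (nat_lit 76) (nat_lit 52466051036) (nat_lit 20) (nat_lit 5) (nat_lit 22) (nat_lit 5) (nat_lit 21) (nat_lit 5) (nat_lit 352) (nat_lit 325) (nat_lit 223))) (XT.nd (nat_lit 78) (nat_lit 0) (nat_lit 0) (XT.lf (nat_lit 0) (nat_lit 5221583452) (nat_lit 152) (nat_lit 16682659006) (nat_lit 228) (nat_lit 80921264531) (nat_lit 18) (nat_lit 5) (nat_lit 20) (nat_lit 5) (nat_lit 21) (nat_lit 5) (nat_lit 353) (nat_lit 325) (nat_lit 222)) (XT.lf (nat_lit 0) (nat_lit 44203701489) (nat_lit 228) (nat_lit 49989091546) (nat_lit 76) (nat_lit 14345938473) (nat_lit 18) (nat_lit 5) (nat_lit 21) (nat_lit 5) (nat_lit 19) (nat_lit 4) (nat_lit 354) (nat_lit 325) (nat_lit 221)))) (XT.nd (nat_lit 156) (nat_lit 152) (nat_lit 0) (XT.nd (nat_lit 78) (nat_lit 0) (nat_lit 0) (XT.lf (nat_lit 0) (nat_lit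 1051391034) (nat_lit 76) (nat_lit 67692693510) (nat_lit 152) (nat_lit 45928373483) (nat_lit 17) (nat_lit 5) (nat_lit 18) (nat_lit 5) (nat_lit 19) (nat_lit 4) (nat_lit 355) (nat_lit 325) (nat_lit 220)) (XT.lf (nat_lit 0) (nat_lit 59015292427) (nat_lit 76) (nat_lit 37597616761) (nat_lit 152) (nat_lit 24574757924) (nat_lit 17) (nat_lit 5) (nat_lit 18) (nat_lit 5) (nat_lit 19) (nat_lit 4) (nat_lit 356) (nat_lit 325) (nat_lit 219))) (XT.nd (nat_lit 78) (nat_lit 152) (nat_lit 0) (XT.lf (nat_lit 0) (nat_lit 121613765446) (nat_lit 76) (nat_lit 5096011944) (nat_lit 152) (nat_lit 1514433748) (nat_lit 17) (nat_lit 5) (nat_lit 18) (nat_lit 5) (nat_lit 19) (nat_lit 4) (nat_lit 357) (nat_lit 325) (nat_lit 218)) (XT.lf (nat_lit 0) (nat_lit 24327698489) (nat_lit 152) (nat_lit 80829277135) (nat_lit 76) (nat_lit 30453133886) (nat_lit 15) (nat_lit 5) (nat_lit 17) (nat_lit 5) (nat_lit 16) (nat_lit 4) (nat_lit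 358) (nat_lit 325) (nat_lit 217)))))) (XT.nd (nat_lit 624) (nat_lit 304) (nat_lit 0) (XT.nd (nat_lit 312) (nat_lit 152) (nat_lit 0) (XT.nd (nat_lit 156) (nat_lit 76) (nat_lit 0) (XT.nd (nat_lit 78) (nat_lit 76) (nat_lit 0) (XT.lf (nat_lit 0) (nat_lit 52471813595) (nat_lit 152) (nat_lit 22291909404) (nat_lit 76) (nat_lit 68794696363) (nat_lit 15) (nat_lit 5) (nat_lit 17) (nat_lit 5) (nat_lit 16) (nat_lit 4) (nat_lit 359) (nat_lit 325) (nat_lit 216)) (XT.lf (nat_lit 0) (nat_lit 43081280190) (nat_lit 76) (nat_lit 40821016155) (nat_lit 152) (nat_lit 68157511479) (nat_lit 14) (nat_lit 5) (nat_lit 15) (nat_lit 5) (nat_lit 16) (nat_lit 4) (nat_lit 360) (nat_lit 325) (nat_lit 215))) (XT.nd (nat_lit 78) (nat_lit 76) (nat_lit 0) (XT.lf (nat_lit 0) (nat_lit 114949875332) (nat_lit 76) (nat_lit 3505616028) (nat_lit 152) (nat_lit 42737154943) (nat_lit 14) (nat_lit 5) (nat_lit 15) (nat_lit 5) (nat_lit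 16) (nat_lit 4) (nat_lit 361) (nat_lit 325) (nat_lit 214)) (XT.lf (nat_lit 0) (nat_lit 21710874822) (nat_lit 76) (nat_lit 135467977534) (nat_lit 76) (nat_lit 13764787443) (nat_lit 13) (nat_lit 4) (nat_lit 14) (nat_lit 5) (nat_lit 14) (nat_lit 4) (nat_lit 362) (nat_lit 325) (nat_lit 213)))) (XT.nd (nat_lit 156) (nat_lit 76) (nat_lit 0) (XT.nd (nat_lit 78) (nat_lit 0) (nat_lit 0) (XT.lf (nat_lit 0) (nat_lit 18035782905) (nat_lit 152) (nat_lit 84190389391) (nat_lit 76) (nat_lit 79103854022) (nat_lit 12) (nat_lit 5) (nat_lit 14) (nat_lit 5) (nat_lit 13) (nat_lit 4) (nat_lit 363) (nat_lit 325) (nat_lit 212)) (XT.lf (nat_lit 0) (nat_lit 51635676755) (nat_lit 152) (nat_lit 14304117352) (nat_lit 76) (nat_lit 126579013392) (nat_lit 12) (nat_lit 5) (nat_lit 14) (nat_lit 5) (nat_lit 13) (nat_lit 4) (nat_lit 364) (nat_lit 325) (nat_lit 211))) (XT.nd (nat_lit 78) (nat_lit 0) (nat_lit 0) (XT.lf (nat_lit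 0) (nat_lit 64392404335) (nat_lit 76) (nat_lit 25078809542) (nat_lit 152) (nat_lit 115007665721) (nat_lit 11) (nat_lit 5) (nat_lit 12) (nat_lit 5) (nat_lit 13) (nat_lit 4) (nat_lit 365) (nat_lit 325) (nat_lit 210)) (XT.lf (nat_lit 0) (nat_lit 131192054277) (nat_lit 152) (nat_lit 67636502878) (nat_lit 0) (nat_lit 18498524011) (nat_lit 11) (nat_lit 5) (nat_lit 13) (nat_lit 4) (nat_lit 11) (nat_lit 4) (nat_lit 366) (nat_lit 325) (nat_lit 209))))) (XT.nd (nat_lit 312) (nat_lit 76) (nat_lit 0) (XT.nd (nat_lit 156) (nat_lit 152) (nat_lit 0) (XT.nd (nat_lit 78) (nat_lit 0) (nat_lit 0) (XT.lf (nat_lit 0) (nat_lit 10480658083) (nat_lit 76) (nat_lit 166672457523) (nat_lit 76) (nat_lit 53977819442) (nat_lit 10) (nat_lit 4) (nat_lit 11) (nat_lit 5) (nat_lit 11) (nat_lit 4) (nat_lit 367) (nat_lit 325) (nat_lit 208)) (XT.lf (nat_lit 0) (nat_lit 98692086195) (nat_lit 76) (nat_lit 129947400664) (nat_lit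 76) (nat_lit 17251736828) (nat_lit 10) (nat_lit 4) (nat_lit 11) (nat_lit 5) (nat_lit 11) (nat_lit 4) (nat_lit 368) (nat_lit 325) (nat_lit 207))) (XT.nd (nat_lit 78) (nat_lit 76) (nat_lit 0) (XT.lf (nat_lit 0) (nat_lit 21290438388) (nat_lit 152) (nat_lit 68412501759) (nat_lit 76) (nat_lit 172086340762) (nat_lit 9) (nat_lit 5) (nat_lit 11) (nat_lit 5) (nat_lit 10) (nat_lit 4) (nat_lit 369) (nat_lit 325) (nat_lit 206)) (XT.lf (nat_lit 0) (nat_lit 17082020978) (nat_lit 76) (nat_lit 45311976139) (nat_lit 152) (nat_lit 216496534073) (nat_lit 8) (nat_lit 5) (nat_lit 9) (nat_lit 5) (nat_lit 10) (nat_lit 4) (nat_lit 370) (nat_lit 325) (nat_lit 205)))) (XT.nd (nat_lit 156) (nat_lit 76) (nat_lit 0) (XT.nd (nat_lit 78) (nat_lit 0) (nat_lit 0) (XT.lf (nat_lit 0) (nat_lit 108767437570) (nat_lit 152) (nat_lit 184016763462) (nat_lit 0) (nat_lit 4417153029) (nat_lit 8) (nat_lit 5) (nat_lit 10) (nat_lit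 4) (nat_lit 8) (nat_lit 4) (nat_lit 371) (nat_lit 325) (nat_lit 204)) (XT.lf (nat_lit 0) (nat_lit 160026979503) (nat_lit 152) (nat_lit 101179968615) (nat_lit 0) (nat_lit 55675996851) (nat_lit 8) (nat_lit 5) (nat_lit 10) (nat_lit 4) (nat_lit 8) (nat_lit 4) (nat_lit 372) (nat_lit 325) (nat_lit 203))) (XT.nd (nat_lit 78) (nat_lit 76) (nat_lit 0) (XT.lf (nat_lit 0) (nat_lit 215386629049) (nat_lit 152) (nat_lit 11717486844) (nat_lit 0) (nat_lit 111034999998) (nat_lit 8) (nat_lit 5) (nat_lit 10) (nat_lit 4) (nat_lit 8) (nat_lit 4) (nat_lit 373) (nat_lit 325) (nat_lit 202)) (XT.nd (nat_lit 78) (nat_lit 0) (nat_lit 0) (XT.lf (nat_lit 0) (nat_lit 89371557134) (nat_lit 76) (nat_lit 187952274355) (nat_lit 76) (nat_lit 83600046785) (nat_lit 7) (nat_lit 4) (nat_lit 8) (nat_lit 5) (nat_lit 8) (nat_lit 4) (nat_lit 374) (nat_lit 325) (nat_lit 201)) (XT.lf (nat_lit 0) (nat_lit 199212974371) (nat_lit 76)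 (nat_lit 145322823141) (nat_lit 76) (nat_lit 40970041388) (nat_lit 7) (nat_lit 4) (nat_lit 8) (nat_lit 5) (nat_lit 8) (nat_lit 4) (nat_lit 375) (nat_lit 325) (nat_lit 200))))))))
noncomputable def xc171 : XT := (XT.nd (nat_lit 1248) (nat_lit 76) (nat_lit 0) (XT.nd (nat_lit 624) (nat_lit 152) (nat_lit 0) (XT.nd (nat_lit 312) (nat_lit 76) (nat_lit 0) (XT.nd (nat_lit 156) (nat_lit 0) (nat_lit 0) (XT.nd (nat_lit 78) (nat_lit 76) (nat_lit 0) (XT.lf (nat_lit 0) (nat_lit 4816164082) (nat_lit 152) (nat_lit 94335673594) (nat_lit 76) (nat_lit 312892808331) (nat_lit 6) (nat_lit 5) (nat_lit 8) (nat_lit 5) (nat_lit 7) (nat_lit 4) (nat_lit 376) (nat_lit 325) (nat_lit 199)) (XT.lf (nat_lit 0) (nat_lit 4118984131) (nat_lit 76) (nat_lit 48031378435) (nat_lit 152) (nat_lit 388463179319) (nat_lit 5) (nat_lit 5) (nat_lit 6) (nat_lit 5) (nat_lit 7) (nat_lit 4) (nat_lit 377) (nat_lit 325) (nat_lit 198))) (XT.nd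 (nat_lit 78) (nat_lit 0) (nat_lit 0) (XT.lf (nat_lit 0) (nat_lit 106089729639) (nat_lit 152) (nat_lit 355687284177) (nat_lit 0) (nat_lit 9465461179) (nat_lit 5) (nat_lit 5) (nat_lit 7) (nat_lit 4) (nat_lit 5) (nat_lit 4) (nat_lit 378) (nat_lit 325) (nat_lit 197)) (XT.lf (nat_lit 0) (nat_lit 165591337463) (nat_lit 152) (nat_lit 269663926310) (nat_lit 0) (nat_lit 68966691835) (nat_lit 5) (nat_lit 5) (nat_lit 7) (nat_lit 4) (nat_lit 5) (nat_lit 4) (nat_lit 379) (nat_lit 325) (nat_lit 196)))) (XT.nd (nat_lit 156) (nat_lit 76) (nat_lit 0) (XT.nd (nat_lit 78) (nat_lit 0) (nat_lit 0) (XT.lf (nat_lit 0) (nat_lit 229852632353) (nat_lit 152) (nat_lit 176759560300) (nat_lit 0) (nat_lit 133227637495) (nat_lit 5) (nat_lit 5) (nat_lit 7) (nat_lit 4) (nat_lit 5) (nat_lit 4) (nat_lit 380) (nat_lit 325) (nat_lit 195)) (XT.lf (nat_lit 0) (nat_lit 299254421981) (nat_lit 152) (nat_lit 76423641758) (nat_lit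 0) (nat_lit 202629103763) (nat_lit 5) (nat_lit 5) (nat_lit 7) (nat_lit 4) (nat_lit 5) (nat_lit 4) (nat_lit 381) (nat_lit 325) (nat_lit 194))) (XT.nd (nat_lit 78) (nat_lit 0) (nat_lit 0) (XT.lf (nat_lit 0) (nat_lit 33620232743) (nat_lit 76) (nat_lit 341396310874) (nat_lit 76) (nat_lit 244770693248) (nat_lit 4) (nat_lit 4) (nat_lit 5) (nat_lit 5) (nat_lit 5) (nat_lit 4) (nat_lit 382) (nat_lit 325) (nat_lit 193)) (XT.lf (nat_lit 0) (nat_lit 156813178377) (nat_lit 76) (nat_lit 302115646590) (nat_lit 76) (nat_lit 205489751735) (nat_lit 4) (nat_lit 4) (nat_lit 5) (nat_lit 5) (nat_lit 5) (nat_lit 4) (nat_lit 383) (nat_lit 325) (nat_lit 192))))) (XT.nd (nat_lit 312) (nat_lit 152) (nat_lit 0) (XT.nd (nat_lit 156) (nat_lit 0) (nat_lit 0) (XT.nd (nat_lit 78) (nat_lit 0) (nat_lit 0) (XT.lf (nat_lit 0) (nat_lit 289860893872) (nat_lit 76) (nat_lit 259692854381) (nat_lit 76) (nat_lit 163066702831) (nat_lit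 4) (nat_lit 4) (nat_lit 5) (nat_lit 5) (nat_lit 5) (nat_lit 4) (nat_lit 384) (nat_lit 325) (nat_lit 191)) (XT.lf (nat_lit 0) (nat_lit 433551810135) (nat_lit 76) (nat_lit 213876539921) (nat_lit 76) (nat_lit 117250150692) (nat_lit 4) (nat_lit 4) (nat_lit 5) (nat_lit 5) (nat_lit 5) (nat_lit 4) (nat_lit 385) (nat_lit 325) (nat_lit 190))) (XT.nd (nat_lit 78) (nat_lit 0) (nat_lit 0) (XT.lf (nat_lit 0) (nat_lit 588737428893) (nat_lit 76) (nat_lit 164395199125) (nat_lit 76) (nat_lit 67768589822) (nat_lit 4) (nat_lit 4) (nat_lit 5) (nat_lit 5) (nat_lit 5) (nat_lit 4) (nat_lit 386) (nat_lit 325) (nat_lit 189)) (XT.lf (nat_lit 0) (nat_lit 756337368626) (nat_lit 76) (nat_lit 110955609234) (nat_lit 76) (nat_lit 14328796158) (nat_lit 4) (nat_lit 4) (nat_lit 5) (nat_lit 5) (nat_lit 5) (nat_lit 4) (nat_lit 387) (nat_lit 325) (nat_lit 188)))) (XT.nd (nat_lit 156) (nat_lit 0) (nat_lit 0) (XT.nd (nat_lit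 78) (nat_lit 76) (nat_lit 0) (XT.lf (nat_lit 0) (nat_lit 41215571598) (nat_lit 152) (nat_lit 10898612829) (nat_lit 76) (nat_lit 895002335797) (nat_lit 3) (nat_lit 5) (nat_lit 5) (nat_lit 5) (nat_lit 4) (nat_lit 4) (nat_lit 388) (nat_lit 325) (nat_lit 187)) (XT.lf (nat_lit 0) (nat_lit 103629770914) (nat_lit 152) (nat_lit 899775105329) (nat_lit 0) (nat_lit 14160163086) (nat_lit 2) (nat_lit 5) (nat_lit 4) (nat_lit 4) (nat_lit 2) (nat_lit 4) (nat_lit 389) (nat_lit 325) (nat_lit 186))) (XT.nd (nat_lit 78) (nat_lit 0) (nat_lit 0) (XT.lf (nat_lit 0) (nat_lit 172696212143) (nat_lit 152) (nat_lit 837594044874) (nat_lit 0) (nat_lit 83226454536) (nat_lit 2) (nat_lit 5) (nat_lit 4) (nat_lit 4) (nat_lit 2) (nat_lit 4) (nat_lit 390) (nat_lit 325) (nat_lit 185)) (XT.lf (nat_lit 0) (nat_lit 247287749656) (nat_lit 152) (nat_lit 770438932114) (nat_lit 0) (nat_lit 157817853365) (nat_lit 2) (nat_lit 5) (nat_lit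 4) (nat_lit 4) (nat_lit 2) (nat_lit 4) (nat_lit 391) (nat_lit 325) (nat_lit 184)))))) (XT.nd (nat_lit 624) (nat_lit 0) (nat_lit 0) (XT.nd (nat_lit 312) (nat_lit 76) (nat_lit 0) (XT.nd (nat_lit 156) (nat_lit 0) (nat_lit 0) (XT.nd (nat_lit 78) (nat_lit 0) (nat_lit 0) (XT.lf (nat_lit 0) (nat_lit 327846407380) (nat_lit 152) (nat_lit 697911810825) (nat_lit 0) (nat_lit 238376382678) (nat_lit 2) (nat_lit 5) (nat_lit 4) (nat_lit 4) (nat_lit 2) (nat_lit 4) (nat_lit 392) (nat_lit 325) (nat_lit 183)) (XT.lf (nat_lit 0) (nat_lit 414849569953) (nat_lit 152) (nat_lit 619582890659) (nat_lit 0) (nat_lit 325379426352) (nat_lit 2) (nat_lit 5) (nat_lit 4) (nat_lit 4) (nat_lit 2) (nat_lit 4) (nat_lit 393) (nat_lit 325) (nat_lit 182))) (XT.nd (nat_lit 78) (nat_lit 0) (nat_lit 0) (XT.lf (nat_lit 0) (nat_lit 508812811672) (nat_lit 152) (nat_lit 534988000237) (nat_lit 0) (nat_lit 419342557980) (nat_lit 2) (nat_lit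 5) (nat_lit 4) (nat_lit 4) (nat_lit 2) (nat_lit 4) (nat_lit 394) (nat_lit 325) (nat_lit 181)) (XT.lf (nat_lit 0) (nat_lit 610292951748) (nat_lit 152) (nat_lit 443625836506) (nat_lit 0) (nat_lit 520822596118) (nat_lit 2) (nat_lit 5) (nat_lit 4) (nat_lit 4) (nat_lit 2) (nat_lit 4) (nat_lit 395) (nat_lit 325) (nat_lit 180)))) (XT.nd (nat_lit 156) (nat_lit 76) (nat_lit 0) (XT.nd (nat_lit 78) (nat_lit 0) (nat_lit 0) (XT.lf (nat_lit 0) (nat_lit 719891353972) (nat_lit 152) (nat_lit 344954994050) (nat_lit 0) (nat_lit 630420903957) (nat_lit 2) (nat_lit 5) (nat_lit 4) (nat_lit 4) (nat_lit 2) (nat_lit 4) (nat_lit 396) (nat_lit 325) (nat_lit 179)) (XT.lf (nat_lit 0) (nat_lit 838257490359) (nat_lit 152) (nat_lit 238390756765) (nat_lit 0) (nat_lit 748786952950) (nat_lit 2) (nat_lit 5) (nat_lit 4) (nat_lit 4) (nat_lit 2) (nat_lit 4) (nat_lit 397) (nat_lit 325) (nat_lit 178))) (XT.nd (nat_lit 78) (nat_lit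 76) (nat_lit 0) (XT.lf (nat_lit 0) (nat_lit 966092789865) (nat_lit 152) (nat_lit 123301632876) (nat_lit 0) (nat_lit 876622171534) (nat_lit 2) (nat_lit 5) (nat_lit 4) (nat_lit 4) (nat_lit 2) (nat_lit 4) (nat_lit 398) (nat_lit 325) (nat_lit 177)) (XT.lf (nat_lit 0) (nat_lit 1046749910) (nat_lit 76) (nat_lit 1103133219455) (nat_lit 76) (nat_lit 1013662526198) (nat_lit 1) (nat_lit 4) (nat_lit 2) (nat_lit 5) (nat_lit 2) (nat_lit 4) (nat_lit 399) (nat_lit 325) (nat_lit 176))))) (XT.nd (nat_lit 312) (nat_lit 0) (nat_lit 0) (XT.nd (nat_lit 156) (nat_lit 0) (nat_lit 0) (XT.nd (nat_lit 78) (nat_lit 0) (nat_lit 0) (XT.lf (nat_lit 0) (nat_lit 142355048668) (nat_lit 76) (nat_lit 1114330244670) (nat_lit 76) (nat_lit 1024859482036) (nat_lit 1) (nat_lit 4) (nat_lit 2) (nat_lit 5) (nat_lit 2) (nat_lit 4) (nat_lit 400) (nat_lit 325) (nat_lit 175)) (XT.lf (nat_lit 0) (nat_lit 294967800432) (nat_lit 76)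 (nat_lit 1126423136280) (nat_lit 76) (nat_lit 1036952309409) (nat_lit 1) (nat_lit 4) (nat_lit 2) (nat_lit 5) (nat_lit 2) (nat_lit 4) (nat_lit 401) (nat_lit 325) (nat_lit 174))) (XT.nd (nat_lit 78) (nat_lit 0) (nat_lit 0) (XT.lf (nat_lit 0) (nat_lit 459789377063) (nat_lit 76) (nat_lit 1139483555865) (nat_lit 76) (nat_lit 1050012669515) (nat_lit 1) (nat_lit 4) (nat_lit 2) (nat_lit 5) (nat_lit 2) (nat_lit 4) (nat_lit 402) (nat_lit 325) (nat_lit 173)) (XT.lf (nat_lit 0) (nat_lit 637796499015) (nat_lit 76) (nat_lit 1153588898504) (nat_lit 76) (nat_lit 1064117957081) (nat_lit 1) (nat_lit 4) (nat_lit 2) (nat_lit 5) (nat_lit 2) (nat_lit 4) (nat_lit 403) (nat_lit 325) (nat_lit 172)))) (XT.nd (nat_lit 156) (nat_lit 0) (nat_lit 0) (XT.nd (nat_lit 78) (nat_lit 0) (nat_lit 0) (XT.lf (nat_lit 0) (nat_lit 830044023308) (nat_lit 76) (nat_lit 1168822751413) (nat_lit 76) (nat_lit 1079351758996) (nat_lit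 1) (nat_lit 4) (nat_lit 2) (nat_lit 5) (nat_lit 2) (nat_lit 4) (nat_lit 404) (nat_lit 325) (nat_lit 171)) (XT.lf (nat_lit 0) (nat_lit 1037671194530) (nat_lit 76) (nat_lit 1185275389276) (nat_lit 76) (nat_lit 1095804349643) (nat_lit 1) (nat_lit 4) (nat_lit 2) (nat_lit 5) (nat_lit 2) (nat_lit 4) (nat_lit 405) (nat_lit 325) (nat_lit 170))) (XT.nd (nat_lit 78) (nat_lit 0) (nat_lit 0) (XT.lf (nat_lit 0) (nat_lit 1261908395917) (nat_lit 76) (nat_lit 1203044309206) (nat_lit 76) (nat_lit 1113573225854) (nat_lit 1) (nat_lit 4) (nat_lit 2) (nat_lit 5) (nat_lit 2) (nat_lit 4) (nat_lit 406) (nat_lit 325) (nat_lit 169)) (XT.nd (nat_lit 40560) (nat_lit 0) (nat_lit 3800) (XT.lf (nat_lit 0) (nat_lit 1504084440515) (nat_lit 76) (nat_lit 1222234808506) (nat_lit 76) (nat_lit 1132763684673) (nat_lit 1) (nat_lit 4) (nat_lit 2) (nat_lit 5) (nat_lit 2) (nat_lit 4) (nat_lit 407) (nat_lit 325) (nat_lit 168))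 (XT.lf (nat_lit 0) (nat_lit 10730863703) (nat_lit 532) (nat_lit 2186185821) (nat_lit 532) (nat_lit 2186185821) (nat_lit 51) (nat_lit 3) (nat_lit 58) (nat_lit 3) (nat_lit 58) (nat_lit 5) (nat_lit 326) (nat_lit 326) (nat_lit 248))))))))
noncomputable def xc172 : XT := (XT.nd (nat_lit 1248) (nat_lit 1292) (nat_lit 0) (XT.nd (nat_lit 624) (nat_lit 988) (nat_lit 0) (XT.nd (nat_lit 312) (nat_lit 304) (nat_lit 0) (XT.nd (nat_lit 156) (nat_lit 0) (nat_lit 76) (XT.nd (nat_lit 78) (nat_lit 0) (nat_lit 76) (XT.lf (nat_lit 76) (nat_lit 10305391088) (nat_lit 0) (nat_lit 12329045649) (nat_lit 532) (nat_lit 8755010322) (nat_lit 52) (nat_lit 5) (nat_lit 51) (nat_lit 3) (nat_lit 58) (nat_lit 5) (nat_lit 327) (nat_lit 326) (nat_lit 247)) (XT.lf (nat_lit 0) (nat_lit 24071220353) (nat_lit 456) (nat_lit 6313241583) (nat_lit 532) (nat_lit 2268993330) (nat_lit 52) (nat_lit 5) (nat_lit 58) (nat_lit 5) (nat_lit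 59) (nat_lit 5) (nat_lit 328) (nat_lit 326) (nat_lit 246))) (XT.nd (nat_lit 78) (nat_lit 0) (nat_lit 0) (XT.lf (nat_lit 76) (nat_lit 9805429284) (nat_lit 0) (nat_lit 16367403908) (nat_lit 532) (nat_lit 7801773285) (nat_lit 53) (nat_lit 5) (nat_lit 52) (nat_lit 5) (nat_lit 59) (nat_lit 5) (nat_lit 329) (nat_lit 326) (nat_lit 245)) (XT.lf (nat_lit 76) (nat_lit 27568655776) (nat_lit 0) (nat_lit 1040726582) (nat_lit 532) (nat_lit 6778735129) (nat_lit 53) (nat_lit 5) (nat_lit 52) (nat_lit 5) (nat_lit 59) (nat_lit 5) (nat_lit 330) (nat_lit 326) (nat_lit 244)))) (XT.nd (nat_lit 156) (nat_lit 456) (nat_lit 0) (XT.nd (nat_lit 78) (nat_lit 0) (nat_lit 0) (XT.lf (nat_lit 76) (nat_lit 9959199072) (nat_lit 0) (nat_lit 21888904436) (nat_lit 532) (nat_lit 5018037400) (nat_lit 54) (nat_lit 5) (nat_lit 53) (nat_lit 5) (nat_lit 60) (nat_lit 5) (nat_lit 331) (nat_lit 326) (nat_lit 243)) (XT.lf (nat_lit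 76) (nat_lit 29572337187) (nat_lit 0) (nat_lit 6008691361) (nat_lit 532) (nat_lit 2862579695) (nat_lit 54) (nat_lit 5) (nat_lit 53) (nat_lit 5) (nat_lit 60) (nat_lit 5) (nat_lit 332) (nat_lit 326) (nat_lit 242))) (XT.nd (nat_lit 78) (nat_lit 0) (nat_lit 0) (XT.lf (nat_lit 0) (nat_lit 30656506) (nat_lit 532) (nat_lit 29226706516) (nat_lit 76) (nat_lit 10847860128) (nat_lit 47) (nat_lit 5) (nat_lit 54) (nat_lit 5) (nat_lit 48) (nat_lit 5) (nat_lit 333) (nat_lit 326) (nat_lit 241)) (XT.lf (nat_lit 0) (nat_lit 3401103717) (nat_lit 532) (nat_lit 9408586180) (nat_lit 76) (nat_lit 29052105036) (nat_lit 47) (nat_lit 5) (nat_lit 54) (nat_lit 5) (nat_lit 48) (nat_lit 5) (nat_lit 334) (nat_lit 326) (nat_lit 240))))) (XT.nd (nat_lit 312) (nat_lit 456) (nat_lit 0) (XT.nd (nat_lit 156) (nat_lit 228) (nat_lit 0) (XT.nd (nat_lit 78) (nat_lit 0) (nat_lit 0) (XT.lf (nat_lit 0) (nat_lit 7467599213) (nat_lit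 380) (nat_lit 31239555828) (nat_lit 76) (nat_lit 5017632159) (nat_lit 43) (nat_lit 5) (nat_lit 48) (nat_lit 5) (nat_lit 44) (nat_lit 5) (nat_lit 335) (nat_lit 326) (nat_lit 239)) (XT.lf (nat_lit 0) (nat_lit 12452095654) (nat_lit 380) (nat_lit 9394223000) (nat_lit 76) (nat_lit 23843092859) (nat_lit 43) (nat_lit 5) (nat_lit 48) (nat_lit 5) (nat_lit 44) (nat_lit 5) (nat_lit 336) (nat_lit 326) (nat_lit 238))) (XT.nd (nat_lit 78) (nat_lit 0) (nat_lit 0) (XT.lf (nat_lit 0) (nat_lit 14942311444) (nat_lit 228) (nat_lit 3248730089) (nat_lit 304) (nat_lit 29591715698) (nat_lit 40) (nat_lit 5) (nat_lit 43) (nat_lit 5) (nat_lit 44) (nat_lit 5) (nat_lit 337) (nat_lit 326) (nat_lit 237)) (XT.lf (nat_lit 0) (nat_lit 25054051572) (nat_lit 304) (nat_lit 8678668901) (nat_lit 76) (nat_lit 16257660400) (nat_lit 40) (nat_lit 5) (nat_lit 44) (nat_lit 5) (nat_lit 41) (nat_lit 5) (nat_lit 338) (nat_lit 326)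 (nat_lit 236)))) (XT.nd (nat_lit 156) (nat_lit 228) (nat_lit 0) (XT.nd (nat_lit 78) (nat_lit 0) (nat_lit 0) (XT.lf (nat_lit 0) (nat_lit 18240346370) (nat_lit 228) (nat_lit 14745578693) (nat_lit 304) (nat_lit 19347109223) (nat_lit 37) (nat_lit 5) (nat_lit 40) (nat_lit 5) (nat_lit 41) (nat_lit 5) (nat_lit 339) (nat_lit 326) (nat_lit 235)) (XT.lf (nat_lit 0) (nat_lit 41931239541) (nat_lit 304) (nat_lit 7186294378) (nat_lit 76) (nat_lit 5715260033) (nat_lit 37) (nat_lit 5) (nat_lit 41) (nat_lit 5) (nat_lit 38) (nat_lit 5) (nat_lit 340) (nat_lit 326) (nat_lit 234))) (XT.nd (nat_lit 78) (nat_lit 76) (nat_lit 0) (XT.lf (nat_lit 0) (nat_lit 22617392836) (nat_lit 152) (nat_lit 29898863658) (nat_lit 228) (nat_lit 4942356592) (nat_lit 35) (nat_lit 5) (nat_lit 37) (nat_lit 5) (nat_lit 38) (nat_lit 5) (nat_lit 341) (nat_lit 326) (nat_lit 233)) (XT.lf (nat_lit 0) (nat_lit 3669578490) (nat_lit 228)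 (nat_lit 5161375284) (nat_lit 76) (nat_lit 51440617218) (nat_lit 34) (nat_lit 5) (nat_lit 37) (nat_lit 5) (nat_lit 35) (nat_lit 5) (nat_lit 342) (nat_lit 326) (nat_lit 232)))))) (XT.nd (nat_lit 624) (nat_lit 380) (nat_lit 0) (XT.nd (nat_lit 312) (nat_lit 532) (nat_lit 0) (XT.nd (nat_lit 156) (nat_lit 152) (nat_lit 0) (XT.nd (nat_lit 78) (nat_lit 0) (nat_lit 0) (XT.lf (nat_lit 0) (nat_lit 13734081808) (nat_lit 304) (nat_lit 35430797121) (nat_lit 76) (nat_lit 14051970317) (nat_lit 31) (nat_lit 5) (nat_lit 35) (nat_lit 5) (nat_lit 32) (nat_lit 5) (nat_lit 343) (nat_lit 326) (nat_lit 231)) (XT.lf (nat_lit 0) (nat_lit 24975388462) (nat_lit 304) (nat_lit 2960209142) (nat_lit 76) (nat_lit 38432424298) (nat_lit 31) (nat_lit 5) (nat_lit 35) (nat_lit 5) (nat_lit 32) (nat_lit 5) (nat_lit 344) (nat_lit 326) (nat_lit 230))) (XT.nd (nat_lit 78) (nat_lit 0) (nat_lit 0) (XT.lf (nat_lit 0) (nat_lit 33795352694)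 (nat_lit 152) (nat_lit 4131093606) (nat_lit 228) (nat_lit 31780009659) (nat_lit 29) (nat_lit 5) (nat_lit 31) (nat_lit 5) (nat_lit 32) (nat_lit 5) (nat_lit 345) (nat_lit 326) (nat_lit 229)) (XT.lf (nat_lit 0) (nat_lit 52513315917) (nat_lit 228) (nat_lit 170159406) (nat_lit 76) (nat_lit 20580514319) (nat_lit 29) (nat_lit 5) (nat_lit 32) (nat_lit 5) (nat_lit 30) (nat_lit 5) (nat_lit 346) (nat_lit 326) (nat_lit 228)))) (XT.nd (nat_lit 156) (nat_lit 152) (nat_lit 0) (XT.nd (nat_lit 78) (nat_lit 228) (nat_lit 0) (XT.lf (nat_lit 0) (nat_lit 40337521041) (nat_lit 152) (nat_lit 29004942448) (nat_lit 228) (nat_lit 7677639107) (nat_lit 27) (nat_lit 5) (nat_lit 29) (nat_lit 5) (nat_lit 30) (nat_lit 5) (nat_lit 347) (nat_lit 326) (nat_lit 227)) (XT.lf (nat_lit 0) (nat_lit 3011666668) (nat_lit 152) (nat_lit 3182495577) (nat_lit 228) (nat_lit 74864140564) (nat_lit 24) (nat_lit 5) (nat_lit 26) (nat_lit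 5) (nat_lit 27) (nat_lit 5) (nat_lit 348) (nat_lit 326) (nat_lit 226))) (XT.nd (nat_lit 78) (nat_lit 152) (nat_lit 0) (XT.lf (nat_lit 0) (nat_lit 22382098690) (nat_lit 228) (nat_lit 38194513749) (nat_lit 76) (nat_lit 24697300691) (nat_lit 24) (nat_lit 5) (nat_lit 27) (nat_lit 5) (nat_lit 25) (nat_lit 5) (nat_lit 349) (nat_lit 326) (nat_lit 225)) (XT.lf (nat_lit 0) (nat_lit 5010840191) (nat_lit 152) (nat_lit 35055542937) (nat_lit 228) (nat_lit 49744286195) (nat_lit 22) (nat_lit 5) (nat_lit 24) (nat_lit 5) (nat_lit 25) (nat_lit 5) (nat_lit 350) (nat_lit 326) (nat_lit 224))))) (XT.nd (nat_lit 312) (nat_lit 76) (nat_lit 0) (XT.nd (nat_lit 156) (nat_lit 228) (nat_lit 0) (XT.nd (nat_lit 78) (nat_lit 76) (nat_lit 0) (XT.lf (nat_lit 0) (nat_lit 53841914140) (nat_lit 152) (nat_lit 6366010797) (nat_lit 228) (nat_lit 34419041843) (nat_lit 22) (nat_lit 5) (nat_lit 24) (nat_lit 5) (nat_lit 25) (nat_lit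 5) (nat_lit 351) (nat_lit 326) (nat_lit 223)) (XT.lf (nat_lit 0) (nat_lit 6480230863) (nat_lit 76) (nat_lit 76226806573) (nat_lit 152) (nat_lit 17061832604) (nat_lit 21) (nat_lit 5) (nat_lit 22) (nat_lit 5) (nat_lit 23) (nat_lit 4) (nat_lit 352) (nat_lit 326) (nat_lit 222))) (XT.nd (nat_lit 78) (nat_lit 152) (nat_lit 0) (XT.lf (nat_lit 0) (nat_lit 2907500150) (nat_lit 152) (nat_lit 45624292089) (nat_lit 76) (nat_lit 56682472134) (nat_lit 20) (nat_lit 5) (nat_lit 22) (nat_lit 5) (nat_lit 21) (nat_lit 5) (nat_lit 353) (nat_lit 326) (nat_lit 221)) (XT.lf (nat_lit 0) (nat_lit 5692209843) (nat_lit 152) (nat_lit 17995742597) (nat_lit 228) (nat_lit 87361057676) (nat_lit 18) (nat_lit 5) (nat_lit 20) (nat_lit 5) (nat_lit 21) (nat_lit 5) (nat_lit 354) (nat_lit 326) (nat_lit 220)))) (XT.nd (nat_lit 156) (nat_lit 0) (nat_lit 0) (XT.nd (nat_lit 78) (nat_lit 76) (nat_lit 0) (XT.lf (nat_lit 0) (nat_lit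 47769523868) (nat_lit 228) (nat_lit 53937367601) (nat_lit 76) (nat_lit 15512550731) (nat_lit 18) (nat_lit 5) (nat_lit 21) (nat_lit 5) (nat_lit 19) (nat_lit 4) (nat_lit 355) (nat_lit 326) (nat_lit 219)) (XT.lf (nat_lit 0) (nat_lit 1185066211) (nat_lit 76) (nat_lit 73087076240) (nat_lit 152) (nat_lit 49571805906) (nat_lit 17) (nat_lit 5) (nat_lit 18) (nat_lit 5) (nat_lit 19) (nat_lit 4) (nat_lit 356) (nat_lit 326) (nat_lit 218))) (XT.nd (nat_lit 78) (nat_lit 0) (nat_lit 0) (XT.lf (nat_lit 0) (nat_lit 63782408316) (nat_lit 76) (nat_lit 40585951333) (nat_lit 152) (nat_lit 26512185358) (nat_lit 17) (nat_lit 5) (nat_lit 18) (nat_lit 5) (nat_lit 19) (nat_lit 4) (nat_lit 357) (nat_lit 326) (nat_lit 217)) (XT.lf (nat_lit 0) (nat_lit 131385359732) (nat_lit 76) (nat_lit 5485660705) (nat_lit 152) (nat_lit 1609150301) (nat_lit 17) (nat_lit 5) (nat_lit 18) (nat_lit 5) (nat_lit 19) (nat_lit 4) (nat_lit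 358) (nat_lit 326) (nat_lit 216)))))))
noncomputable def xc173 : XT := (XT.nd (nat_lit 1248) (nat_lit 456) (nat_lit 0) (XT.nd (nat_lit 624) (nat_lit 228) (nat_lit 0) (XT.nd (nat_lit 312) (nat_lit 228) (nat_lit 0) (XT.nd (nat_lit 156) (nat_lit 76) (nat_lit 0) (XT.nd (nat_lit 78) (nat_lit 0) (nat_lit 0) (XT.lf (nat_lit 0) (nat_lit 26298640621) (nat_lit 152) (nat_lit 87251377941) (nat_lit 76) (nat_lit 32906904100) (nat_lit 15) (nat_lit 5) (nat_lit 17) (nat_lit 5) (nat_lit 16) (nat_lit 4) (nat_lit 359) (nat_lit 326) (nat_lit 215)) (XT.lf (nat_lit 0) (nat_lit 56692453361) (nat_lit 152) (nat_lit 24034297930) (nat_lit 76) (nat_lit 74314493834) (nat_lit 15) (nat_lit 5) (nat_lit 17) (nat_lit 5) (nat_lit 16) (nat_lit 4) (nat_lit 360) (nat_lit 326) (nat_lit 214))) (XT.nd (nat_lit 78) (nat_lit 0) (nat_lit 0) (XT.lf (nat_lit 0) (nat_lit 46567709763) (nat_lit 76) (nat_lit 44068929316) (nat_lit 152)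 (nat_lit 73586165639) (nat_lit 14) (nat_lit 5) (nat_lit 15) (nat_lit 5) (nat_lit 16) (nat_lit 4) (nat_lit 361) (nat_lit 326) (nat_lit 213)) (XT.lf (nat_lit 0) (nat_lit 124182834949) (nat_lit 76) (nat_lit 3769613336) (nat_lit 152) (nat_lit 46133954414) (nat_lit 14) (nat_lit 5) (nat_lit 15) (nat_lit 5) (nat_lit 16) (nat_lit 4) (nat_lit 362) (nat_lit 326) (nat_lit 212)))) (XT.nd (nat_lit 156) (nat_lit 76) (nat_lit 0) (XT.nd (nat_lit 78) (nat_lit 76) (nat_lit 0) (XT.lf (nat_lit 0) (nat_lit 23485006208) (nat_lit 76) (nat_lit 146288414628) (nat_lit 76) (nat_lit 14844076454) (nat_lit 13) (nat_lit 4) (nat_lit 14) (nat_lit 5) (nat_lit 14) (nat_lit 4) (nat_lit 363) (nat_lit 326) (nat_lit 211)) (XT.lf (nat_lit 0) (nat_lit 19497903647) (nat_lit 152) (nat_lit 90890094114) (nat_lit 76) (nat_lit 85446878979) (nat_lit 12) (nat_lit 5) (nat_lit 14) (nat_lit 5) (nat_lit 13) (nat_lit 4) (nat_lit 364) (nat_lit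 326) (nat_lit 210))) (XT.nd (nat_lit 78) (nat_lit 76) (nat_lit 0) (XT.lf (nat_lit 0) (nat_lit 55784362479) (nat_lit 152) (nat_lit 15415551899) (nat_lit 76) (nat_lit 136718960977) (nat_lit 12) (nat_lit 5) (nat_lit 14) (nat_lit 5) (nat_lit 13) (nat_lit 4) (nat_lit 365) (nat_lit 326) (nat_lit 209)) (XT.lf (nat_lit 0) (nat_lit 69575858742) (nat_lit 76) (nat_lit 27070334065) (nat_lit 152) (nat_lit 124189605155) (nat_lit 11) (nat_lit 5) (nat_lit 12) (nat_lit 5) (nat_lit 13) (nat_lit 4) (nat_lit 366) (nat_lit 326) (nat_lit 208))))) (XT.nd (nat_lit 312) (nat_lit 76) (nat_lit 0) (XT.nd (nat_lit 156) (nat_lit 76) (nat_lit 0) (XT.nd (nat_lit 78) (nat_lit 76) (nat_lit 0) (XT.lf (nat_lit 0) (nat_lit 141703749437) (nat_lit 152) (nat_lit 73016776257) (nat_lit 0) (nat_lit 19991406741) (nat_lit 11) (nat_lit 5) (nat_lit 13) (nat_lit 4) (nat_lit 11) (nat_lit 4) (nat_lit 367) (nat_lit 326) (nat_lit 207))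 (XT.lf (nat_lit 0) (nat_lit 11348981712) (nat_lit 76) (nat_lit 179992222668) (nat_lit 76) (nat_lit 58278930199) (nat_lit 10) (nat_lit 4) (nat_lit 11) (nat_lit 5) (nat_lit 11) (nat_lit 4) (nat_lit 368) (nat_lit 326) (nat_lit 206))) (XT.nd (nat_lit 78) (nat_lit 76) (nat_lit 0) (XT.lf (nat_lit 0) (nat_lit 106615111408) (nat_lit 76) (nat_lit 140330200628) (nat_lit 76) (nat_lit 18616028739) (nat_lit 10) (nat_lit 4) (nat_lit 11) (nat_lit 5) (nat_lit 11) (nat_lit 4) (nat_lit 369) (nat_lit 326) (nat_lit 205)) (XT.lf (nat_lit 0) (nat_lit 23007612628) (nat_lit 152) (nat_lit 73859151897) (nat_lit 76) (nat_lit 185864537285) (nat_lit 9) (nat_lit 5) (nat_lit 11) (nat_lit 5) (nat_lit 10) (nat_lit 4) (nat_lit 370) (nat_lit 326) (nat_lit 204)))) (XT.nd (nat_lit 156) (nat_lit 0) (nat_lit 0) (XT.nd (nat_lit 78) (nat_lit 0) (nat_lit 0) (XT.lf (nat_lit 0) (nat_lit 18474265570) (nat_lit 76) (nat_lit 48924775629)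 (nat_lit 152) (nat_lit 233801644580) (nat_lit 8) (nat_lit 5) (nat_lit 9) (nat_lit 5) (nat_lit 10) (nat_lit 4) (nat_lit 371) (nat_lit 326) (nat_lit 203)) (XT.lf (nat_lit 0) (nat_lit 117481625842) (nat_lit 152) (nat_lit 198713587497) (nat_lit 0) (nat_lit 4781220067) (nat_lit 8) (nat_lit 5) (nat_lit 10) (nat_lit 4) (nat_lit 8) (nat_lit 4) (nat_lit 372) (nat_lit 326) (nat_lit 202))) (XT.nd (nat_lit 78) (nat_lit 0) (nat_lit 0) (XT.lf (nat_lit 0) (nat_lit 172840983480) (nat_lit 152) (nat_lit 109251665139) (nat_lit 0) (nat_lit 60139979187) (nat_lit 8) (nat_lit 5) (nat_lit 10) (nat_lit 4) (nat_lit 8) (nat_lit 4) (nat_lit 373) (nat_lit 326) (nat_lit 201)) (XT.lf (nat_lit 0) (nat_lit 232628527537) (nat_lit 152) (nat_lit 12633866379) (nat_lit 0) (nat_lit 119926969060) (nat_lit 8) (nat_lit 5) (nat_lit 10) (nat_lit 4) (nat_lit 8) (nat_lit 4) (nat_lit 374) (nat_lit 326) (nat_lit 200)))))) (XT.nd (nat_lit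 624) (nat_lit 228) (nat_lit 0) (XT.nd (nat_lit 312) (nat_lit 0) (nat_lit 0) (XT.nd (nat_lit 156) (nat_lit 152) (nat_lit 0) (XT.nd (nat_lit 78) (nat_lit 0) (nat_lit 0) (XT.lf (nat_lit 0) (nat_lit 96541768980) (nat_lit 76) (nat_lit 202978617455) (nat_lit 76) (nat_lit 90276545845) (nat_lit 7) (nat_lit 4) (nat_lit 8) (nat_lit 5) (nat_lit 8) (nat_lit 4) (nat_lit 375) (nat_lit 326) (nat_lit 199)) (XT.lf (nat_lit 0) (nat_lit 215168982019) (nat_lit 76) (nat_lit 156939538947) (nat_lit 76) (nat_lit 44236992215) (nat_lit 7) (nat_lit 4) (nat_lit 8) (nat_lit 5) (nat_lit 8) (nat_lit 4) (nat_lit 376) (nat_lit 326) (nat_lit 198))) (XT.nd (nat_lit 78) (nat_lit 76) (nat_lit 0) (XT.lf (nat_lit 0) (nat_lit 5210827211) (nat_lit 152) (nat_lit 101864466060) (nat_lit 76) (nat_lit 337932171338) (nat_lit 6) (nat_lit 5) (nat_lit 8) (nat_lit 5) (nat_lit 7) (nat_lit 4) (nat_lit 377) (nat_lit 326) (nat_lit 197)) (XT.lf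 (nat_lit 0) (nat_lit 4466107032) (nat_lit 76) (nat_lit 51865383849) (nat_lit 152) (nat_lit 419530403190) (nat_lit 5) (nat_lit 5) (nat_lit 6) (nat_lit 5) (nat_lit 7) (nat_lit 4) (nat_lit 378) (nat_lit 326) (nat_lit 196)))) (XT.nd (nat_lit 156) (nat_lit 0) (nat_lit 0) (XT.nd (nat_lit 78) (nat_lit 0) (nat_lit 0) (XT.lf (nat_lit 0) (nat_lit 114585522688) (nat_lit 152) (nat_lit 384125479139) (nat_lit 0) (nat_lit 10230179012) (nat_lit 5) (nat_lit 5) (nat_lit 7) (nat_lit 4) (nat_lit 5) (nat_lit 4) (nat_lit 379) (nat_lit 326) (nat_lit 195)) (XT.lf (nat_lit 0) (nat_lit 178846621013) (nat_lit 152) (nat_lit 291221496181) (nat_lit 0) (nat_lit 74490953977) (nat_lit 5) (nat_lit 5) (nat_lit 7) (nat_lit 4) (nat_lit 5) (nat_lit 4) (nat_lit 380) (nat_lit 326) (nat_lit 194))) (XT.nd (nat_lit 78) (nat_lit 0) (nat_lit 0) (XT.lf (nat_lit 0) (nat_lit 248248228638) (nat_lit 152) (nat_lit 190885932315) (nat_lit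 0) (nat_lit 143892262194) (nat_lit 5) (nat_lit 5) (nat_lit 7) (nat_lit 4) (nat_lit 5) (nat_lit 4) (nat_lit 381) (nat_lit 326) (nat_lit 193)) (XT.lf (nat_lit 0) (nat_lit 323201614348) (nat_lit 152) (nat_lit 82524206423) (nat_lit 0) (nat_lit 218845370674) (nat_lit 5) (nat_lit 5) (nat_lit 7) (nat_lit 4) (nat_lit 5) (nat_lit 4) (nat_lit 382) (nat_lit 326) (nat_lit 192))))) (XT.nd (nat_lit 312) (nat_lit 152) (nat_lit 0) (XT.nd (nat_lit 156) (nat_lit 0) (nat_lit 0) (XT.nd (nat_lit 78) (nat_lit 0) (nat_lit 0) (XT.lf (nat_lit 0) (nat_lit 36322840654) (nat_lit 76) (nat_lit 368701670891) (nat_lit 76) (nat_lit 264345170523) (nat_lit 4) (nat_lit 4) (nat_lit 5) (nat_lit 5) (nat_lit 5) (nat_lit 4) (nat_lit 383) (nat_lit 326) (nat_lit 191)) (XT.lf (nat_lit 0) (nat_lit 169370259768) (nat_lit 76) (nat_lit 326279023454) (nat_lit 76) (nat_lit 221922285406) (nat_lit 4) (nat_lit 4) (nat_lit 5) (nat_lit 5)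 (nat_lit 5) (nat_lit 4) (nat_lit 384) (nat_lit 326) (nat_lit 190))) (XT.nd (nat_lit 78) (nat_lit 0) (nat_lit 0) (XT.lf (nat_lit 0) (nat_lit 313060901605) (nat_lit 76) (nat_lit 280462843043) (nat_lit 76) (nat_lit 176105884921) (nat_lit 4) (nat_lit 4) (nat_lit 5) (nat_lit 5) (nat_lit 5) (nat_lit 4) (nat_lit 385) (nat_lit 326) (nat_lit 189)) (XT.lf (nat_lit 0) (nat_lit 468246266264) (nat_lit 76) (nat_lit 230981626366) (nat_lit 76) (nat_lit 126624464473) (nat_lit 4) (nat_lit 4) (nat_lit 5) (nat_lit 5) (nat_lit 5) (nat_lit 4) (nat_lit 386) (nat_lit 326) (nat_lit 188)))) (XT.nd (nat_lit 156) (nat_lit 152) (nat_lit 0) (XT.nd (nat_lit 78) (nat_lit 0) (nat_lit 0) (XT.lf (nat_lit 0) (nat_lit 635845970721) (nat_lit 76) (nat_lit 177542151399) (nat_lit 76) (nat_lit 73184800828) (nat_lit 4) (nat_lit 4) (nat_lit 5) (nat_lit 5) (nat_lit 5) (nat_lit 4) (nat_lit 387) (nat_lit 326) (nat_lit 187)) (XT.lf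 (nat_lit 0) (nat_lit 816853198409) (nat_lit 76) (nat_lit 119827739772) (nat_lit 76) (nat_lit 15470214499) (nat_lit 4) (nat_lit 4) (nat_lit 5) (nat_lit 5) (nat_lit 5) (nat_lit 4) (nat_lit 388) (nat_lit 326) (nat_lit 186))) (XT.nd (nat_lit 78) (nat_lit 76) (nat_lit 0) (XT.lf (nat_lit 0) (nat_lit 44517114517) (nat_lit 152) (nat_lit 11762088837) (nat_lit 76) (nat_lit 966606293433) (nat_lit 3) (nat_lit 5) (nat_lit 5) (nat_lit 5) (nat_lit 4) (nat_lit 4) (nat_lit 389) (nat_lit 326) (nat_lit 185)) (XT.nd (nat_lit 78) (nat_lit 0) (nat_lit 0) (XT.lf (nat_lit 0) (nat_lit 111924425455) (nat_lit 152) (nat_lit 971748675230) (nat_lit 0) (nat_lit 15296798777) (nat_lit 2) (nat_lit 5) (nat_lit 4) (nat_lit 4) (nat_lit 2) (nat_lit 4) (nat_lit 390) (nat_lit 326) (nat_lit 184)) (XT.lf (nat_lit 0) (nat_lit 186515865473) (nat_lit 152) (nat_lit 904593755014) (nat_lit 0) (nat_lit 89888110384) (nat_lit 2) (nat_lit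 5) (nat_lit 4) (nat_lit 4) (nat_lit 2) (nat_lit 4) (nat_lit 391) (nat_lit 326) (nat_lit 183))))))))
noncomputable def xc174 : XT := (XT.nd (nat_lit 41808) (nat_lit 0) (nat_lit 2508) (XT.nd (nat_lit 624) (nat_lit 76) (nat_lit 0) (XT.nd (nat_lit 312) (nat_lit 0) (nat_lit 0) (XT.nd (nat_lit 156) (nat_lit 0) (nat_lit 0) (XT.nd (nat_lit 78) (nat_lit 0) (nat_lit 0) (XT.lf (nat_lit 0) (nat_lit 267074432924) (nat_lit 152) (nat_lit 832066812007) (nat_lit 0) (nat_lit 170446558936) (nat_lit 2) (nat_lit 5) (nat_lit 4) (nat_lit 4) (nat_lit 2) (nat_lit 4) (nat_lit 392) (nat_lit 326) (nat_lit 182)) (XT.lf (nat_lit 0) (nat_lit 354077511910) (nat_lit 152) (nat_lit 753738056917) (nat_lit 0) (nat_lit 257449527831) (nat_lit 2) (nat_lit 5) (nat_lit 4) (nat_lit 4) (nat_lit 2) (nat_lit 4) (nat_lit 393) (nat_lit 326) (nat_lit 181))) (XT.nd (nat_lit 78) (nat_lit 0) (nat_lit 0) (XT.lf (nat_lit 0) (nat_lit 448040676235)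 (nat_lit 152) (nat_lit 669143319343) (nat_lit 0) (nat_lit 351412590218) (nat_lit 2) (nat_lit 5) (nat_lit 4) (nat_lit 4) (nat_lit 2) (nat_lit 4) (nat_lit 394) (nat_lit 326) (nat_lit 180)) (XT.lf (nat_lit 0) (nat_lit 549520744648) (nat_lit 152) (nat_lit 577781297138) (nat_lit 0) (nat_lit 452892564246) (nat_lit 2) (nat_lit 5) (nat_lit 4) (nat_lit 4) (nat_lit 2) (nat_lit 4) (nat_lit 395) (nat_lit 326) (nat_lit 179)))) (XT.nd (nat_lit 156) (nat_lit 0) (nat_lit 0) (XT.nd (nat_lit 78) (nat_lit 0) (nat_lit 0) (XT.lf (nat_lit 0) (nat_lit 659119080519) (nat_lit 152) (nat_lit 479110585724) (nat_lit 0) (nat_lit 562490812722) (nat_lit 2) (nat_lit 5) (nat_lit 4) (nat_lit 4) (nat_lit 2) (nat_lit 4) (nat_lit 396) (nat_lit 326) (nat_lit 178)) (XT.lf (nat_lit 0) (nat_lit 777485155467) (nat_lit 152) (nat_lit 372546469775) (nat_lit 0) (nat_lit 680856806750) (nat_lit 2) (nat_lit 5) (nat_lit 4) (nat_lit 4)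 (nat_lit 2) (nat_lit 4) (nat_lit 397) (nat_lit 326) (nat_lit 177))) (XT.nd (nat_lit 78) (nat_lit 0) (nat_lit 0) (XT.lf (nat_lit 0) (nat_lit 905320398085) (nat_lit 152) (nat_lit 257457458234) (nat_lit 0) (nat_lit 808691974441) (nat_lit 2) (nat_lit 5) (nat_lit 4) (nat_lit 4) (nat_lit 2) (nat_lit 4) (nat_lit 398) (nat_lit 326) (nat_lit 176)) (XT.lf (nat_lit 0) (nat_lit 1043382350551) (nat_lit 152) (nat_lit 133161542142) (nat_lit 0) (nat_lit 946753857531) (nat_lit 2) (nat_lit 5) (nat_lit 4) (nat_lit 4) (nat_lit 2) (nat_lit 4) (nat_lit 399) (nat_lit 326) (nat_lit 175))))) (XT.nd (nat_lit 312) (nat_lit 0) (nat_lit 0) (XT.nd (nat_lit 156) (nat_lit 0) (nat_lit 0) (XT.nd (nat_lit 78) (nat_lit 0) (nat_lit 0) (XT.lf (nat_lit 0) (nat_lit 1134604396) (nat_lit 76) (nat_lit 1191381840635) (nat_lit 76) (nat_lit 1094753283378) (nat_lit 1) (nat_lit 4) (nat_lit 2) (nat_lit 5) (nat_lit 2) (nat_lit 4) (nat_lit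 400) (nat_lit 326) (nat_lit 174)) (XT.lf (nat_lit 0) (nat_lit 153747262279) (nat_lit 76) (nat_lit 1203474778710) (nat_lit 76) (nat_lit 1106846161973) (nat_lit 1) (nat_lit 4) (nat_lit 2) (nat_lit 5) (nat_lit 2) (nat_lit 4) (nat_lit 401) (nat_lit 326) (nat_lit 173))) (XT.nd (nat_lit 78) (nat_lit 0) (nat_lit 0) (XT.lf (nat_lit 0) (nat_lit 318568751982) (nat_lit 76) (nat_lit 1216535241318) (nat_lit 76) (nat_lit 1119906569508) (nat_lit 1) (nat_lit 4) (nat_lit 2) (nat_lit 5) (nat_lit 2) (nat_lit 4) (nat_lit 402) (nat_lit 326) (nat_lit 172)) (XT.lf (nat_lit 0) (nat_lit 496575793446) (nat_lit 76) (nat_lit 1230640623793) (nat_lit 76) (nat_lit 1134011900989) (nat_lit 1) (nat_lit 4) (nat_lit 2) (nat_lit 5) (nat_lit 2) (nat_lit 4) (nat_lit 403) (nat_lit 326) (nat_lit 171)))) (XT.nd (nat_lit 156) (nat_lit 0) (nat_lit 0) (XT.nd (nat_lit 78) (nat_lit 0) (nat_lit 0) (XT.lf (nat_lit 0) (nat_lit 688823243213)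 (nat_lit 76) (nat_lit 1245874513587) (nat_lit 76) (nat_lit 1149245743567) (nat_lit 1) (nat_lit 4) (nat_lit 2) (nat_lit 5) (nat_lit 2) (nat_lit 4) (nat_lit 404) (nat_lit 326) (nat_lit 170)) (XT.lf (nat_lit 0) (nat_lit 896450345428) (nat_lit 76) (nat_lit 1262327185603) (nat_lit 76) (nat_lit 1165698371864) (nat_lit 1) (nat_lit 4) (nat_lit 2) (nat_lit 5) (nat_lit 2) (nat_lit 4) (nat_lit 405) (nat_lit 326) (nat_lit 169))) (XT.nd (nat_lit 78) (nat_lit 0) (nat_lit 0) (XT.lf (nat_lit 0) (nat_lit 1120687482921) (nat_lit 76) (nat_lit 1280096137156) (nat_lit 76) (nat_lit 1183467282936) (nat_lit 1) (nat_lit 4) (nat_lit 2) (nat_lit 5) (nat_lit 2) (nat_lit 4) (nat_lit 406) (nat_lit 326) (nat_lit 168)) (XT.lf (nat_lit 0) (nat_lit 1362863468358) (nat_lit 76) (nat_lit 1299286665737) (nat_lit 76) (nat_lit 1202657774035) (nat_lit 1) (nat_lit 4) (nat_lit 2) (nat_lit 5) (nat_lit 2) (nat_lit 4) (nat_lit 407)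 (nat_lit 326) (nat_lit 167)))))) (XT.nd (nat_lit 624) (nat_lit 988) (nat_lit 0) (XT.nd (nat_lit 312) (nat_lit 304) (nat_lit 0) (XT.nd (nat_lit 156) (nat_lit 0) (nat_lit 76) (XT.nd (nat_lit 78) (nat_lit 0) (nat_lit 0) (XT.lf (nat_lit 0) (nat_lit 11654131321) (nat_lit 532) (nat_lit 2326019587) (nat_lit 532) (nat_lit 2326019587) (nat_lit 51) (nat_lit 3) (nat_lit 58) (nat_lit 3) (nat_lit 58) (nat_lit 5) (nat_lit 327) (nat_lit 327) (nat_lit 246)) (XT.lf (nat_lit 76) (nat_lit 11198169328) (nat_lit 0) (nat_lit 13368663358) (nat_lit 532) (nat_lit 9323779980) (nat_lit 52) (nat_lit 5) (nat_lit 51) (nat_lit 3) (nat_lit 58) (nat_lit 5) (nat_lit 328) (nat_lit 327) (nat_lit 245))) (XT.nd (nat_lit 78) (nat_lit 0) (nat_lit 0) (XT.lf (nat_lit 0) (nat_lit 26108361765) (nat_lit 456) (nat_lit 6744579767) (nat_lit 532) (nat_lit 2403634951) (nat_lit 52) (nat_lit 5) (nat_lit 58) (nat_lit 5) (nat_lit 59) (nat_lit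 5) (nat_lit 329) (nat_lit 327) (nat_lit 244)) (XT.lf (nat_lit 76) (nat_lit 10661718411) (nat_lit 0) (nat_lit 17709858233) (nat_lit 532) (nat_lit 8312383061) (nat_lit 53) (nat_lit 5) (nat_lit 52) (nat_lit 5) (nat_lit 59) (nat_lit 5) (nat_lit 330) (nat_lit 327) (nat_lit 243)))) (XT.nd (nat_lit 156) (nat_lit 380) (nat_lit 0) (XT.nd (nat_lit 78) (nat_lit 0) (nat_lit 76) (XT.lf (nat_lit 76) (nat_lit 29840680446) (nat_lit 0) (nat_lit 1154597683) (nat_lit 532) (nat_lit 7215911637) (nat_lit 53) (nat_lit 5) (nat_lit 52) (nat_lit 5) (nat_lit 59) (nat_lit 5) (nat_lit 331) (nat_lit 327) (nat_lit 242)) (XT.lf (nat_lit 76) (nat_lit 10829275618) (nat_lit 0) (nat_lit 23657707553) (nat_lit 532) (nat_lit 5320976218) (nat_lit 54) (nat_lit 5) (nat_lit 53) (nat_lit 5) (nat_lit 60) (nat_lit 5) (nat_lit 332) (nat_lit 327) (nat_lit 241))) (XT.nd (nat_lit 78) (nat_lit 456) (nat_lit 0) (XT.lf (nat_lit 76) (nat_lit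 32006032143) (nat_lit 0) (nat_lit 6505767005) (nat_lit 532) (nat_lit 3000378502) (nat_lit 54) (nat_lit 5) (nat_lit 53) (nat_lit 5) (nat_lit 60) (nat_lit 5) (nat_lit 333) (nat_lit 327) (nat_lit 240)) (XT.lf (nat_lit 0) (nat_lit 114770706) (nat_lit 532) (nat_lit 31487074978) (nat_lit 76) (nat_lit 11705111332) (nat_lit 47) (nat_lit 5) (nat_lit 54) (nat_lit 5) (nat_lit 48) (nat_lit 5) (nat_lit 334) (nat_lit 327) (nat_lit 239))))) (XT.nd (nat_lit 312) (nat_lit 456) (nat_lit 0) (XT.nd (nat_lit 156) (nat_lit 228) (nat_lit 0) (XT.nd (nat_lit 78) (nat_lit 304) (nat_lit 0) (XT.lf (nat_lit 0) (nat_lit 3748804680) (nat_lit 532) (nat_lit 10089265612) (nat_lit 76) (nat_lit 31366479359) (nat_lit 47) (nat_lit 5) (nat_lit 54) (nat_lit 5) (nat_lit 48) (nat_lit 5) (nat_lit 335) (nat_lit 327) (nat_lit 238)) (XT.lf (nat_lit 0) (nat_lit 8136670377) (nat_lit 380) (nat_lit 33662633888) (nat_lit 76) (nat_lit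 5417603350) (nat_lit 43) (nat_lit 5) (nat_lit 48) (nat_lit 5) (nat_lit 44) (nat_lit 5) (nat_lit 336) (nat_lit 327) (nat_lit 237))) (XT.nd (nat_lit 78) (nat_lit 228) (nat_lit 0) (XT.lf (nat_lit 0) (nat_lit 13514618145) (nat_lit 380) (nat_lit 10075310465) (nat_lit 76) (nat_lit 25749207526) (nat_lit 43) (nat_lit 5) (nat_lit 48) (nat_lit 5) (nat_lit 44) (nat_lit 5) (nat_lit 337) (nat_lit 327) (nat_lit 236)) (XT.lf (nat_lit 0) (nat_lit 16206363181) (nat_lit 228) (nat_lit 3503052779) (nat_lit 304) (nat_lit 31890803533) (nat_lit 40) (nat_lit 5) (nat_lit 43) (nat_lit 5) (nat_lit 44) (nat_lit 5) (nat_lit 338) (nat_lit 327) (nat_lit 235)))) (XT.nd (nat_lit 156) (nat_lit 228) (nat_lit 0) (XT.nd (nat_lit 78) (nat_lit 228) (nat_lit 0) (XT.lf (nat_lit 0) (nat_lit 27116917551) (nat_lit 304) (nat_lit 9304729967) (nat_lit 76) (nat_lit 17563177674) (nat_lit 40) (nat_lit 5) (nat_lit 44) (nat_lit 5) (nat_lit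 41) (nat_lit 5) (nat_lit 339) (nat_lit 327) (nat_lit 234)) (XT.lf (nat_lit 0) (nat_lit 19766079122) (nat_lit 228) (nat_lit 15914524813) (nat_lit 304) (nat_lit 20834513516) (nat_lit 37) (nat_lit 5) (nat_lit 40) (nat_lit 5) (nat_lit 41) (nat_lit 5) (nat_lit 340) (nat_lit 327) (nat_lit 233))) (XT.nd (nat_lit 78) (nat_lit 228) (nat_lit 0) (XT.lf (nat_lit 0) (nat_lit 45337648155) (nat_lit 304) (nat_lit 7695635631) (nat_lit 76) (nat_lit 6181892789) (nat_lit 37) (nat_lit 5) (nat_lit 41) (nat_lit 5) (nat_lit 38) (nat_lit 5) (nat_lit 341) (nat_lit 327) (nat_lit 232)) (XT.nd (nat_lit 78) (nat_lit 76) (nat_lit 0) (XT.lf (nat_lit 0) (nat_lit 24490686756) (nat_lit 152) (nat_lit 32276471421) (nat_lit 228) (nat_lit 5284094255) (nat_lit 35) (nat_lit 5) (nat_lit 37) (nat_lit 5) (nat_lit 38) (nat_lit 5) (nat_lit 342) (nat_lit 327) (nat_lit 231)) (XT.lf (nat_lit 0) (nat_lit 4010336464) (nat_lit 228) (nat_lit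 5512561335) (nat_lit 76) (nat_lit 55566553570) (nat_lit 34) (nat_lit 5) (nat_lit 37) (nat_lit 5) (nat_lit 35) (nat_lit 5) (nat_lit 343) (nat_lit 327) (nat_lit 230))))))))
noncomputable def xc175 : XT := (XT.nd (nat_lit 1248) (nat_lit 760) (nat_lit 0) (XT.nd (nat_lit 624) (nat_lit 380) (nat_lit 0) (XT.nd (nat_lit 312) (nat_lit 532) (nat_lit 0) (XT.nd (nat_lit 156) (nat_lit 152) (nat_lit 0) (XT.nd (nat_lit 78) (nat_lit 0) (nat_lit 0) (XT.lf (nat_lit 0) (nat_lit 14878312443) (nat_lit 304) (nat_lit 38201784529) (nat_lit 76) (nat_lit 15190395103) (nat_lit 31) (nat_lit 5) (nat_lit 35) (nat_lit 5) (nat_lit 32) (nat_lit 5) (nat_lit 344) (nat_lit 327) (nat_lit 229)) (XT.lf (nat_lit 0) (nat_lit 27015552956) (nat_lit 304) (nat_lit 3138251465) (nat_lit 76) (nat_lit 41520228575) (nat_lit 31) (nat_lit 5) (nat_lit 35) (nat_lit 5) (nat_lit 32) (nat_lit 5) (nat_lit 345) (nat_lit 327) (nat_lit 228))) (XT.nd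 (nat_lit 78) (nat_lit 0) (nat_lit 0) (XT.lf (nat_lit 0) (nat_lit 36556267358) (nat_lit 152) (nat_lit 4444684809) (nat_lit 228) (nat_lit 34278733513) (nat_lit 29) (nat_lit 5) (nat_lit 31) (nat_lit 5) (nat_lit 32) (nat_lit 5) (nat_lit 346) (nat_lit 327) (nat_lit 227)) (XT.lf (nat_lit 0) (nat_lit 56752155745) (nat_lit 228) (nat_lit 128062114) (nat_lit 76) (nat_lit 22241817562) (nat_lit 29) (nat_lit 5) (nat_lit 32) (nat_lit 5) (nat_lit 30) (nat_lit 5) (nat_lit 347) (nat_lit 327) (nat_lit 226)))) (XT.nd (nat_lit 156) (nat_lit 152) (nat_lit 0) (XT.nd (nat_lit 78) (nat_lit 228) (nat_lit 0) (XT.lf (nat_lit 0) (nat_lit 43618822388) (nat_lit 152) (nat_lit 31307320528) (nat_lit 228) (nat_lit 8252617682) (nat_lit 27) (nat_lit 5) (nat_lit 29) (nat_lit 5) (nat_lit 30) (nat_lit 5) (nat_lit 348) (nat_lit 327) (nat_lit 225)) (XT.lf (nat_lit 0) (nat_lit 3307480850) (nat_lit 152) (nat_lit 3418043504) (nat_lit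 228) (nat_lit 80814535525) (nat_lit 24) (nat_lit 5) (nat_lit 26) (nat_lit 5) (nat_lit 27) (nat_lit 5) (nat_lit 349) (nat_lit 327) (nat_lit 224))) (XT.nd (nat_lit 78) (nat_lit 152) (nat_lit 0) (XT.lf (nat_lit 0) (nat_lit 24206265959) (nat_lit 228) (nat_lit 41196991692) (nat_lit 76) (nat_lit 26689842780) (nat_lit 24) (nat_lit 5) (nat_lit 27) (nat_lit 5) (nat_lit 25) (nat_lit 5) (nat_lit 350) (nat_lit 327) (nat_lit 223)) (XT.lf (nat_lit 0) (nat_lit 5463446687) (nat_lit 152) (nat_lit 37840601954) (nat_lit 228) (nat_lit 53688850839) (nat_lit 22) (nat_lit 5) (nat_lit 24) (nat_lit 5) (nat_lit 25) (nat_lit 5) (nat_lit 351) (nat_lit 327) (nat_lit 222))))) (XT.nd (nat_lit 312) (nat_lit 76) (nat_lit 0) (XT.nd (nat_lit 156) (nat_lit 228) (nat_lit 0) (XT.nd (nat_lit 78) (nat_lit 76) (nat_lit 0) (XT.lf (nat_lit 0) (nat_lit 58197174012) (nat_lit 152) (nat_lit 6857343125) (nat_lit 228) (nat_lit 37140177921)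 (nat_lit 22) (nat_lit 5) (nat_lit 24) (nat_lit 5) (nat_lit 25) (nat_lit 5) (nat_lit 352) (nat_lit 327) (nat_lit 221)) (XT.lf (nat_lit 0) (nat_lit 7047290078) (nat_lit 76) (nat_lit 82305618931) (nat_lit 152) (nat_lit 18395095940) (nat_lit 21) (nat_lit 5) (nat_lit 22) (nat_lit 5) (nat_lit 23) (nat_lit 4) (nat_lit 353) (nat_lit 327) (nat_lit 220))) (XT.nd (nat_lit 78) (nat_lit 152) (nat_lit 0) (XT.lf (nat_lit 0) (nat_lit 3167969001) (nat_lit 152) (nat_lit 49227704478) (nat_lit 76) (nat_lit 61233476811) (nat_lit 20) (nat_lit 5) (nat_lit 22) (nat_lit 5) (nat_lit 21) (nat_lit 5) (nat_lit 354) (nat_lit 327) (nat_lit 219)) (XT.lf (nat_lit 0) (nat_lit 6192939609) (nat_lit 152) (nat_lit 19416944247) (nat_lit 228) (nat_lit 94320871631) (nat_lit 18) (nat_lit 5) (nat_lit 20) (nat_lit 5) (nat_lit 21) (nat_lit 5) (nat_lit 355) (nat_lit 327) (nat_lit 218)))) (XT.nd (nat_lit 156) (nat_lit 0) (nat_lit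 0) (XT.nd (nat_lit 78) (nat_lit 76) (nat_lit 0) (XT.lf (nat_lit 0) (nat_lit 51616399787) (nat_lit 228) (nat_lit 58208760242) (nat_lit 76) (nat_lit 16769790370) (nat_lit 18) (nat_lit 5) (nat_lit 21) (nat_lit 5) (nat_lit 19) (nat_lit 4) (nat_lit 356) (nat_lit 327) (nat_lit 217)) (XT.lf (nat_lit 0) (nat_lit 1322364559) (nat_lit 76) (nat_lit 78916010144) (nat_lit 152) (nat_lit 53511112231) (nat_lit 17) (nat_lit 5) (nat_lit 18) (nat_lit 5) (nat_lit 19) (nat_lit 4) (nat_lit 357) (nat_lit 327) (nat_lit 216))) (XT.nd (nat_lit 78) (nat_lit 0) (nat_lit 0) (XT.lf (nat_lit 0) (nat_lit 68924346399) (nat_lit 76) (nat_lit 43816130963) (nat_lit 152) (nat_lit 28608680421) (nat_lit 17) (nat_lit 5) (nat_lit 18) (nat_lit 5) (nat_lit 19) (nat_lit 4) (nat_lit 358) (nat_lit 327) (nat_lit 215)) (XT.lf (nat_lit 0) (nat_lit 141932619453) (nat_lit 76) (nat_lit 5909053861) (nat_lit 152) (nat_lit 1715215875) (nat_lit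 17) (nat_lit 5) (nat_lit 18) (nat_lit 5) (nat_lit 19) (nat_lit 4) (nat_lit 359) (nat_lit 327) (nat_lit 214)))))) (XT.nd (nat_lit 624) (nat_lit 304) (nat_lit 0) (XT.nd (nat_lit 312) (nat_lit 228) (nat_lit 0) (XT.nd (nat_lit 156) (nat_lit 76) (nat_lit 0) (XT.nd (nat_lit 78) (nat_lit 0) (nat_lit 0) (XT.lf (nat_lit 0) (nat_lit 28423730647) (nat_lit 152) (nat_lit 94193558337) (nat_lit 76) (nat_lit 35554476578) (nat_lit 15) (nat_lit 5) (nat_lit 17) (nat_lit 5) (nat_lit 16) (nat_lit 4) (nat_lit 360) (nat_lit 327) (nat_lit 213)) (XT.lf (nat_lit 0) (nat_lit 61247478126) (nat_lit 152) (nat_lit 25921921542) (nat_lit 76) (nat_lit 80273560887) (nat_lit 15) (nat_lit 5) (nat_lit 17) (nat_lit 5) (nat_lit 16) (nat_lit 4) (nat_lit 361) (nat_lit 327) (nat_lit 212))) (XT.nd (nat_lit 78) (nat_lit 0) (nat_lit 0) (XT.lf (nat_lit 0) (nat_lit 50327357646) (nat_lit 76) (nat_lit 47579210351) (nat_lit 152) (nat_lit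 79452528404) (nat_lit 14) (nat_lit 5) (nat_lit 15) (nat_lit 5) (nat_lit 16) (nat_lit 4) (nat_lit 362) (nat_lit 327) (nat_lit 211)) (XT.lf (nat_lit 0) (nat_lit 134149157210) (nat_lit 76) (nat_lit 4057077487) (nat_lit 152) (nat_lit 49805661058) (nat_lit 14) (nat_lit 5) (nat_lit 15) (nat_lit 5) (nat_lit 16) (nat_lit 4) (nat_lit 363) (nat_lit 327) (nat_lit 210)))) (XT.nd (nat_lit 156) (nat_lit 76) (nat_lit 0) (XT.nd (nat_lit 78) (nat_lit 76) (nat_lit 0) (XT.lf (nat_lit 0) (nat_lit 25395752349) (nat_lit 76) (nat_lit 157976912089) (nat_lit 76) (nat_lit 16012832007) (nat_lit 13) (nat_lit 4) (nat_lit 14) (nat_lit 5) (nat_lit 14) (nat_lit 4) (nat_lit 364) (nat_lit 327) (nat_lit 209)) (XT.lf (nat_lit 0) (nat_lit 21074246665) (nat_lit 152) (nat_lit 98130843458) (nat_lit 76) (nat_lit 92295246440) (nat_lit 12) (nat_lit 5) (nat_lit 14) (nat_lit 5) (nat_lit 13) (nat_lit 4) (nat_lit 365) (nat_lit 327)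 (nat_lit 208))) (XT.nd (nat_lit 78) (nat_lit 76) (nat_lit 0) (XT.lf (nat_lit 0) (nat_lit 60262399186) (nat_lit 152) (nat_lit 16620594027) (nat_lit 76) (nat_lit 147668160395) (nat_lit 12) (nat_lit 5) (nat_lit 14) (nat_lit 5) (nat_lit 13) (nat_lit 4) (nat_lit 366) (nat_lit 327) (nat_lit 207)) (XT.lf (nat_lit 0) (nat_lit 75169415490) (nat_lit 76) (nat_lit 29223289116) (nat_lit 152) (nat_lit 134108763773) (nat_lit 11) (nat_lit 5) (nat_lit 12) (nat_lit 5) (nat_lit 13) (nat_lit 4) (nat_lit 367) (nat_lit 327) (nat_lit 206))))) (XT.nd (nat_lit 312) (nat_lit 152) (nat_lit 0) (XT.nd (nat_lit 156) (nat_lit 76) (nat_lit 0) (XT.nd (nat_lit 78) (nat_lit 76) (nat_lit 0) (XT.lf (nat_lit 0) (nat_lit 153054050437) (nat_lit 152) (nat_lit 78831843622) (nat_lit 0) (nat_lit 21601865378) (nat_lit 11) (nat_lit 5) (nat_lit 13) (nat_lit 4) (nat_lit 11) (nat_lit 4) (nat_lit 368) (nat_lit 327) (nat_lit 205)) (XT.lf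 (nat_lit 0) (nat_lit 12282509801) (nat_lit 76) (nat_lit 194379570770) (nat_lit 76) (nat_lit 62926571434) (nat_lit 10) (nat_lit 4) (nat_lit 11) (nat_lit 5) (nat_lit 11) (nat_lit 4) (nat_lit 369) (nat_lit 327) (nat_lit 204))) (XT.nd (nat_lit 78) (nat_lit 76) (nat_lit 0) (XT.lf (nat_lit 0) (nat_lit 115168032869) (nat_lit 76) (nat_lit 151545478056) (nat_lit 76) (nat_lit 20091724760) (nat_lit 10) (nat_lit 4) (nat_lit 11) (nat_lit 5) (nat_lit 11) (nat_lit 4) (nat_lit 370) (nat_lit 327) (nat_lit 203)) (XT.lf (nat_lit 0) (nat_lit 24860172229) (nat_lit 152) (nat_lit 79745293169) (nat_lit 76) (nat_lit 200743378990) (nat_lit 9) (nat_lit 5) (nat_lit 11) (nat_lit 5) (nat_lit 10) (nat_lit 4) (nat_lit 371) (nat_lit 327) (nat_lit 202)))) (XT.nd (nat_lit 156) (nat_lit 76) (nat_lit 0) (XT.nd (nat_lit 78) (nat_lit 0) (nat_lit 0) (XT.lf (nat_lit 0) (nat_lit 19974225775) (nat_lit 76) (nat_lit 52828333639)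 (nat_lit 152) (nat_lit 252493248524) (nat_lit 8) (nat_lit 5) (nat_lit 9) (nat_lit 5) (nat_lit 10) (nat_lit 4) (nat_lit 372) (nat_lit 327) (nat_lit 201)) (XT.lf (nat_lit 0) (nat_lit 126891124073) (nat_lit 152) (nat_lit 214589655085) (nat_lit 0) (nat_lit 5172886735) (nat_lit 8) (nat_lit 5) (nat_lit 10) (nat_lit 4) (nat_lit 8) (nat_lit 4) (nat_lit 373) (nat_lit 327) (nat_lit 200))) (XT.nd (nat_lit 78) (nat_lit 76) (nat_lit 0) (XT.lf (nat_lit 0) (nat_lit 186678417866) (nat_lit 152) (nat_lit 117972335932) (nat_lit 0) (nat_lit 64959667395) (nat_lit 8) (nat_lit 5) (nat_lit 10) (nat_lit 4) (nat_lit 8) (nat_lit 4) (nat_lit 374) (nat_lit 327) (nat_lit 199)) (XT.nd (nat_lit 78) (nat_lit 76) (nat_lit 0) (XT.lf (nat_lit 0) (nat_lit 251248213172) (nat_lit 152) (nat_lit 13626554932) (nat_lit 0) (nat_lit 129528987579) (nat_lit 8) (nat_lit 5) (nat_lit 10) (nat_lit 4) (nat_lit 8) (nat_lit 4) (nat_lit 375)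 (nat_lit 327) (nat_lit 198)) (XT.lf (nat_lit 0) (nat_lit 104282675034) (nat_lit 76) (nat_lit 219208471624) (nat_lit 76) (nat_lit 97488806102) (nat_lit 7) (nat_lit 4) (nat_lit 8) (nat_lit 5) (nat_lit 8) (nat_lit 4) (nat_lit 376) (nat_lit 327) (nat_lit 197))))))))
noncomputable def xc176 : XT := (XT.nd (nat_lit 1248) (nat_lit 76) (nat_lit 0) (XT.nd (nat_lit 624) (nat_lit 152) (nat_lit 0) (XT.nd (nat_lit 312) (nat_lit 76) (nat_lit 0) (XT.nd (nat_lit 156) (nat_lit 76) (nat_lit 0) (XT.nd (nat_lit 78) (nat_lit 76) (nat_lit 0) (XT.lf (nat_lit 0) (nat_lit 232398764040) (nat_lit 76) (nat_lit 169486891668) (nat_lit 76) (nat_lit 47766818805) (nat_lit 7) (nat_lit 4) (nat_lit 8) (nat_lit 5) (nat_lit 8) (nat_lit 4) (nat_lit 377) (nat_lit 327) (nat_lit 196)) (XT.lf (nat_lit 0) (nat_lit 5635726655) (nat_lit 152) (nat_lit 109998138587) (nat_lit 76) (nat_lit 364973550893) (nat_lit 6) (nat_lit 5) (nat_lit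 8) (nat_lit 5) (nat_lit 7) (nat_lit 4) (nat_lit 378) (nat_lit 327) (nat_lit 195))) (XT.nd (nat_lit 78) (nat_lit 0) (nat_lit 0) (XT.lf (nat_lit 0) (nat_lit 4838488334) (nat_lit 76) (nat_lit 56007323009) (nat_lit 152) (nat_lit 453084407397) (nat_lit 5) (nat_lit 5) (nat_lit 6) (nat_lit 5) (nat_lit 7) (nat_lit 4) (nat_lit 379) (nat_lit 327) (nat_lit 194)) (XT.lf (nat_lit 0) (nat_lit 123759750200) (nat_lit 152) (nat_lit 414841124661) (nat_lit 0) (nat_lit 11055007033) (nat_lit 5) (nat_lit 5) (nat_lit 7) (nat_lit 4) (nat_lit 5) (nat_lit 4) (nat_lit 380) (nat_lit 327) (nat_lit 193)))) (XT.nd (nat_lit 156) (nat_lit 76) (nat_lit 0) (XT.nd (nat_lit 78) (nat_lit 0) (nat_lit 0) (XT.lf (nat_lit 0) (nat_lit 193161189303) (nat_lit 152) (nat_lit 314505889201) (nat_lit 0) (nat_lit 80456168906) (nat_lit 5) (nat_lit 5) (nat_lit 7) (nat_lit 4) (nat_lit 5) (nat_lit 4) (nat_lit 381) (nat_lit 327) (nat_lit 192))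 (XT.lf (nat_lit 0) (nat_lit 268114418974) (nat_lit 152) (nat_lit 206144467387) (nat_lit 0) (nat_lit 155409141883) (nat_lit 5) (nat_lit 5) (nat_lit 7) (nat_lit 4) (nat_lit 5) (nat_lit 4) (nat_lit 382) (nat_lit 327) (nat_lit 191))) (XT.nd (nat_lit 78) (nat_lit 76) (nat_lit 0) (XT.lf (nat_lit 0) (nat_lit 349063606500) (nat_lit 152) (nat_lit 89114717461) (nat_lit 0) (nat_lit 236358091729) (nat_lit 5) (nat_lit 5) (nat_lit 7) (nat_lit 4) (nat_lit 5) (nat_lit 4) (nat_lit 383) (nat_lit 327) (nat_lit 190)) (XT.lf (nat_lit 0) (nat_lit 39239804129) (nat_lit 76) (nat_lit 398192364874) (nat_lit 76) (nat_lit 285486630029) (nat_lit 4) (nat_lit 4) (nat_lit 5) (nat_lit 5) (nat_lit 5) (nat_lit 4) (nat_lit 384) (nat_lit 327) (nat_lit 189))))) (XT.nd (nat_lit 312) (nat_lit 152) (nat_lit 0) (XT.nd (nat_lit 156) (nat_lit 0) (nat_lit 0) (XT.nd (nat_lit 78) (nat_lit 0) (nat_lit 0) (XT.lf (nat_lit 0) (nat_lit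 182930191867) (nat_lit 76) (nat_lit 352376308581) (nat_lit 76) (nat_lit 239670369964) (nat_lit 4) (nat_lit 4) (nat_lit 5) (nat_lit 5) (nat_lit 5) (nat_lit 4) (nat_lit 385) (nat_lit 327) (nat_lit 188)) (XT.lf (nat_lit 0) (nat_lit 338115321250) (nat_lit 76) (nat_lit 302895206830) (nat_lit 76) (nat_lit 190189079535) (nat_lit 4) (nat_lit 4) (nat_lit 5) (nat_lit 5) (nat_lit 5) (nat_lit 4) (nat_lit 386) (nat_lit 327) (nat_lit 187))) (XT.nd (nat_lit 78) (nat_lit 0) (nat_lit 0) (XT.lf (nat_lit 0) (nat_lit 505714807858) (nat_lit 76) (nat_lit 249455838275) (nat_lit 76) (nat_lit 136749536279) (nat_lit 4) (nat_lit 4) (nat_lit 5) (nat_lit 5) (nat_lit 5) (nat_lit 4) (nat_lit 387) (nat_lit 327) (nat_lit 186)) (XT.lf (nat_lit 0) (nat_lit 686721833835) (nat_lit 76) (nat_lit 191741525177) (nat_lit 76) (nat_lit 79035061420) (nat_lit 4) (nat_lit 4) (nat_lit 5) (nat_lit 5) (nat_lit 5) (nat_lit 4) (nat_lit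 388) (nat_lit 327) (nat_lit 185)))) (XT.nd (nat_lit 156) (nat_lit 76) (nat_lit 0) (XT.nd (nat_lit 78) (nat_lit 76) (nat_lit 0) (XT.lf (nat_lit 0) (nat_lit 882209033408) (nat_lit 76) (nat_lit 129410256793) (nat_lit 76) (nat_lit 16703643257) (nat_lit 4) (nat_lit 4) (nat_lit 5) (nat_lit 5) (nat_lit 5) (nat_lit 4) (nat_lit 389) (nat_lit 327) (nat_lit 184)) (XT.lf (nat_lit 0) (nat_lit 48082167827) (nat_lit 152) (nat_lit 12695843137) (nat_lit 76) (nat_lit 1043938029737) (nat_lit 3) (nat_lit 5) (nat_lit 5) (nat_lit 5) (nat_lit 4) (nat_lit 4) (nat_lit 390) (nat_lit 327) (nat_lit 183))) (XT.nd (nat_lit 78) (nat_lit 0) (nat_lit 0) (XT.lf (nat_lit 0) (nat_lit 120882042787) (nat_lit 152) (nat_lit 1049481334572) (nat_lit 0) (nat_lit 16523819981) (nat_lit 2) (nat_lit 5) (nat_lit 4) (nat_lit 4) (nat_lit 2) (nat_lit 4) (nat_lit 391) (nat_lit 327) (nat_lit 182)) (XT.lf (nat_lit 0) (nat_lit 201440526651)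 (nat_lit 152) (nat_lit 976954556641) (nat_lit 0) (nat_lit 97082193753) (nat_lit 2) (nat_lit 5) (nat_lit 4) (nat_lit 4) (nat_lit 2) (nat_lit 4) (nat_lit 392) (nat_lit 327) (nat_lit 181)))))) (XT.nd (nat_lit 624) (nat_lit 76) (nat_lit 0) (XT.nd (nat_lit 312) (nat_lit 0) (nat_lit 0) (XT.nd (nat_lit 156) (nat_lit 0) (nat_lit 0) (XT.nd (nat_lit 78) (nat_lit 0) (nat_lit 0) (XT.lf (nat_lit 0) (nat_lit 288443528243) (nat_lit 152) (nat_lit 898625954399) (nat_lit 0) (nat_lit 184085093408) (nat_lit 2) (nat_lit 5) (nat_lit 4) (nat_lit 4) (nat_lit 2) (nat_lit 4) (nat_lit 393) (nat_lit 327) (nat_lit 180)) (XT.lf (nat_lit 0) (nat_lit 382406620905) (nat_lit 152) (nat_lit 814031358351) (nat_lit 0) (nat_lit 278048091685) (nat_lit 2) (nat_lit 5) (nat_lit 4) (nat_lit 4) (nat_lit 2) (nat_lit 4) (nat_lit 394) (nat_lit 327) (nat_lit 179))) (XT.nd (nat_lit 78) (nat_lit 0) (nat_lit 0) (XT.lf (nat_lit 0) (nat_lit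 483886622965) (nat_lit 152) (nat_lit 722669467188) (nat_lit 0) (nat_lit 379528006350) (nat_lit 2) (nat_lit 5) (nat_lit 4) (nat_lit 4) (nat_lit 2) (nat_lit 4) (nat_lit 395) (nat_lit 327) (nat_lit 178)) (XT.lf (nat_lit 0) (nat_lit 593484897397) (nat_lit 152) (nat_lit 623998877110) (nat_lit 0) (nat_lit 489126199862) (nat_lit 2) (nat_lit 5) (nat_lit 4) (nat_lit 4) (nat_lit 2) (nat_lit 4) (nat_lit 396) (nat_lit 327) (nat_lit 177)))) (XT.nd (nat_lit 156) (nat_lit 0) (nat_lit 0) (XT.nd (nat_lit 78) (nat_lit 0) (nat_lit 0) (XT.lf (nat_lit 0) (nat_lit 711850915458) (nat_lit 152) (nat_lit 517434873509) (nat_lit 0) (nat_lit 607492142996) (nat_lit 2) (nat_lit 5) (nat_lit 4) (nat_lit 4) (nat_lit 2) (nat_lit 4) (nat_lit 397) (nat_lit 327) (nat_lit 176)) (XT.lf (nat_lit 0) (nat_lit 839686105402) (nat_lit 152) (nat_lit 402345965993) (nat_lit 0) (nat_lit 735327263564) (nat_lit 2) (nat_lit 5) (nat_lit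 4) (nat_lit 4) (nat_lit 2) (nat_lit 4) (nat_lit 398) (nat_lit 327) (nat_lit 175))) (XT.nd (nat_lit 78) (nat_lit 0) (nat_lit 0) (XT.lf (nat_lit 0) (nat_lit 977748009097) (nat_lit 152) (nat_lit 278050146222) (nat_lit 0) (nat_lit 873389103021) (nat_lit 2) (nat_lit 5) (nat_lit 4) (nat_lit 4) (nat_lit 2) (nat_lit 4) (nat_lit 399) (nat_lit 327) (nat_lit 174)) (XT.lf (nat_lit 0) (nat_lit 1126854771155) (nat_lit 152) (nat_lit 143810846375) (nat_lit 0) (nat_lit 1022495805600) (nat_lit 2) (nat_lit 5) (nat_lit 4) (nat_lit 4) (nat_lit 2) (nat_lit 4) (nat_lit 400) (nat_lit 327) (nat_lit 173))))) (XT.nd (nat_lit 312) (nat_lit 0) (nat_lit 0) (XT.nd (nat_lit 156) (nat_lit 0) (nat_lit 0) (XT.nd (nat_lit 78) (nat_lit 0) (nat_lit 0) (XT.lf (nat_lit 0) (nat_lit 1228900264) (nat_lit 76) (nat_lit 1286690642022) (nat_lit 76) (nat_lit 1182331621394) (nat_lit 1) (nat_lit 4) (nat_lit 2) (nat_lit 5) (nat_lit 2)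 (nat_lit 4) (nat_lit 401) (nat_lit 327) (nat_lit 172)) (XT.lf (nat_lit 0) (nat_lit 166050309479) (nat_lit 76) (nat_lit 1299751144466) (nat_lit 76) (nat_lit 1195392072844) (nat_lit 1) (nat_lit 4) (nat_lit 2) (nat_lit 5) (nat_lit 2) (nat_lit 4) (nat_lit 402) (nat_lit 327) (nat_lit 171))) (XT.nd (nat_lit 78) (nat_lit 0) (nat_lit 0) (XT.lf (nat_lit 0) (nat_lit 344057276416) (nat_lit 76) (nat_lit 1313856563827) (nat_lit 76) (nat_lit 1209497444988) (nat_lit 1) (nat_lit 4) (nat_lit 2) (nat_lit 5) (nat_lit 2) (nat_lit 4) (nat_lit 403) (nat_lit 327) (nat_lit 170)) (XT.lf (nat_lit 0) (nat_lit 536304657177) (nat_lit 76) (nat_lit 1329090487774) (nat_lit 76) (nat_lit 1224731325216) (nat_lit 1) (nat_lit 4) (nat_lit 2) (nat_lit 5) (nat_lit 2) (nat_lit 4) (nat_lit 404) (nat_lit 327) (nat_lit 169)))) (XT.nd (nat_lit 156) (nat_lit 0) (nat_lit 0) (XT.nd (nat_lit 78) (nat_lit 0) (nat_lit 0) (XT.lf (nat_lit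 0) (nat_lit 743931695499) (nat_lit 76) (nat_lit 1345543191412) (nat_lit 76) (nat_lit 1241183988375) (nat_lit 1) (nat_lit 4) (nat_lit 2) (nat_lit 5) (nat_lit 2) (nat_lit 4) (nat_lit 405) (nat_lit 327) (nat_lit 168)) (XT.lf (nat_lit 0) (nat_lit 968168773830) (nat_lit 76) (nat_lit 1363312172246) (nat_lit 76) (nat_lit 1258952931726) (nat_lit 1) (nat_lit 4) (nat_lit 2) (nat_lit 5) (nat_lit 2) (nat_lit 4) (nat_lit 406) (nat_lit 327) (nat_lit 167))) (XT.nd (nat_lit 40716) (nat_lit 0) (nat_lit 3800) (XT.lf (nat_lit 0) (nat_lit 1210344704488) (nat_lit 76) (nat_lit 1382502727938) (nat_lit 76) (nat_lit 1278143452713) (nat_lit 1) (nat_lit 4) (nat_lit 2) (nat_lit 5) (nat_lit 2) (nat_lit 4) (nat_lit 407) (nat_lit 327) (nat_lit 166)) (XT.lf (nat_lit 0) (nat_lit 12642016116) (nat_lit 532) (nat_lit 2482041913) (nat_lit 532) (nat_lit 2482041913) (nat_lit 51) (nat_lit 3) (nat_lit 58) (nat_lit 3) (nat_lit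 58) (nat_lit 5) (nat_lit 328) (nat_lit 328) (nat_lit 244)))))))
noncomputable def xc177 : XT := (XT.nd (nat_lit 1248) (nat_lit 1444) (nat_lit 0) (XT.nd (nat_lit 624) (nat_lit 988) (nat_lit 0) (XT.nd (nat_lit 312) (nat_lit 304) (nat_lit 0) (XT.nd (nat_lit 156) (nat_lit 0) (nat_lit 76) (XT.nd (nat_lit 78) (nat_lit 0) (nat_lit 76) (XT.lf (nat_lit 76) (nat_lit 12152619369) (nat_lit 0) (nat_lit 14483847490) (nat_lit 532) (nat_lit 9956829868) (nat_lit 52) (nat_lit 5) (nat_lit 51) (nat_lit 3) (nat_lit 58) (nat_lit 5) (nat_lit 329) (nat_lit 328) (nat_lit 243)) (XT.lf (nat_lit 0) (nat_lit 28292575788) (nat_lit 456) (nat_lit 7220942151) (nat_lit 532) (nat_lit 2555735551) (nat_lit 52) (nat_lit 5) (nat_lit 58) (nat_lit 5) (nat_lit 59) (nat_lit 5) (nat_lit 330) (nat_lit 328) (nat_lit 242))) (XT.nd (nat_lit 78) (nat_lit 0) (nat_lit 0) (XT.lf (nat_lit 76) (nat_lit 11576259781) (nat_lit 0) (nat_lit 19154992239)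 (nat_lit 532) (nat_lit 8880038240) (nat_lit 53) (nat_lit 5) (nat_lit 52) (nat_lit 5) (nat_lit 59) (nat_lit 5) (nat_lit 331) (nat_lit 328) (nat_lit 241)) (XT.lf (nat_lit 76) (nat_lit 32284975526) (nat_lit 0) (nat_lit 1273211190) (nat_lit 532) (nat_lit 7703059136) (nat_lit 53) (nat_lit 5) (nat_lit 52) (nat_lit 5) (nat_lit 59) (nat_lit 5) (nat_lit 332) (nat_lit 328) (nat_lit 240)))) (XT.nd (nat_lit 156) (nat_lit 456) (nat_lit 0) (XT.nd (nat_lit 78) (nat_lit 0) (nat_lit 0) (XT.lf (nat_lit 76) (nat_lit 11758495428) (nat_lit 0) (nat_lit 25565491133) (nat_lit 532) (nat_lit 5662202863) (nat_lit 54) (nat_lit 5) (nat_lit 53) (nat_lit 5) (nat_lit 60) (nat_lit 5) (nat_lit 333) (nat_lit 328) (nat_lit 239)) (XT.lf (nat_lit 76) (nat_lit 34624734863) (nat_lit 0) (nat_lit 7040271862) (nat_lit 532) (nat_lit 3162212993) (nat_lit 54) (nat_lit 5) (nat_lit 53) (nat_lit 5) (nat_lit 60) (nat_lit 5) (nat_lit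 334) (nat_lit 328) (nat_lit 238))) (XT.nd (nat_lit 78) (nat_lit 0) (nat_lit 0) (XT.lf (nat_lit 0) (nat_lit 193964091) (nat_lit 532) (nat_lit 33939367399) (nat_lit 76) (nat_lit 12632451645) (nat_lit 47) (nat_lit 5) (nat_lit 54) (nat_lit 5) (nat_lit 48) (nat_lit 5) (nat_lit 335) (nat_lit 328) (nat_lit 237)) (XT.lf (nat_lit 0) (nat_lit 4113534729) (nat_lit 532) (nat_lit 10834672067) (nat_lit 76) (nat_lit 33867400862) (nat_lit 47) (nat_lit 5) (nat_lit 54) (nat_lit 5) (nat_lit 48) (nat_lit 5) (nat_lit 336) (nat_lit 328) (nat_lit 236))))) (XT.nd (nat_lit 312) (nat_lit 456) (nat_lit 0) (XT.nd (nat_lit 156) (nat_lit 228) (nat_lit 0) (XT.nd (nat_lit 78) (nat_lit 0) (nat_lit 0) (XT.lf (nat_lit 0) (nat_lit 8849043673) (nat_lit 380) (nat_lit 36290412770) (nat_lit 76) (nat_lit 5849777580) (nat_lit 43) (nat_lit 5) (nat_lit 48) (nat_lit 5) (nat_lit 44) (nat_lit 5) (nat_lit 337) (nat_lit 328) (nat_lit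 235)) (XT.lf (nat_lit 0) (nat_lit 14652676177) (nat_lit 380) (nat_lit 10820935460) (nat_lit 76) (nat_lit 27808001501) (nat_lit 43) (nat_lit 5) (nat_lit 48) (nat_lit 5) (nat_lit 44) (nat_lit 5) (nat_lit 338) (nat_lit 328) (nat_lit 234))) (XT.nd (nat_lit 78) (nat_lit 0) (nat_lit 0) (XT.lf (nat_lit 0) (nat_lit 17561742968) (nat_lit 228) (nat_lit 3778516723) (nat_lit 304) (nat_lit 34383554937) (nat_lit 40) (nat_lit 5) (nat_lit 43) (nat_lit 5) (nat_lit 44) (nat_lit 5) (nat_lit 339) (nat_lit 328) (nat_lit 233)) (XT.lf (nat_lit 0) (nat_lit 29336461158) (nat_lit 304) (nat_lit 9990610039) (nat_lit 76) (nat_lit 18972436656) (nat_lit 40) (nat_lit 5) (nat_lit 44) (nat_lit 5) (nat_lit 41) (nat_lit 5) (nat_lit 340) (nat_lit 328) (nat_lit 232)))) (XT.nd (nat_lit 156) (nat_lit 228) (nat_lit 0) (XT.nd (nat_lit 78) (nat_lit 0) (nat_lit 0) (XT.lf (nat_lit 0) (nat_lit 21404382807) (nat_lit 228) (nat_lit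 17178513122) (nat_lit 304) (nat_lit 22449521815) (nat_lit 37) (nat_lit 5) (nat_lit 40) (nat_lit 5) (nat_lit 41) (nat_lit 5) (nat_lit 341) (nat_lit 328) (nat_lit 231)) (XT.lf (nat_lit 0) (nat_lit 49009163995) (nat_lit 304) (nat_lit 8255077378) (nat_lit 76) (nat_lit 6684513446) (nat_lit 37) (nat_lit 5) (nat_lit 41) (nat_lit 5) (nat_lit 38) (nat_lit 5) (nat_lit 342) (nat_lit 328) (nat_lit 230))) (XT.nd (nat_lit 78) (nat_lit 76) (nat_lit 0) (XT.lf (nat_lit 0) (nat_lit 26504727784) (nat_lit 152) (nat_lit 34846328049) (nat_lit 228) (nat_lit 5660824826) (nat_lit 35) (nat_lit 5) (nat_lit 37) (nat_lit 5) (nat_lit 38) (nat_lit 5) (nat_lit 343) (nat_lit 328) (nat_lit 229)) (XT.lf (nat_lit 0) (nat_lit 4371622654) (nat_lit 228) (nat_lit 5900647884) (nat_lit 76) (nat_lit 60021040214) (nat_lit 34) (nat_lit 5) (nat_lit 37) (nat_lit 5) (nat_lit 35) (nat_lit 5) (nat_lit 344) (nat_lit 328) (nat_lit 228))))))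 (XT.nd (nat_lit 624) (nat_lit 532) (nat_lit 0) (XT.nd (nat_lit 312) (nat_lit 532) (nat_lit 0) (XT.nd (nat_lit 156) (nat_lit 152) (nat_lit 0) (XT.nd (nat_lit 78) (nat_lit 0) (nat_lit 0) (XT.lf (nat_lit 0) (nat_lit 16107589861) (nat_lit 304) (nat_lit 41203506542) (nat_lit 76) (nat_lit 16417858503) (nat_lit 31) (nat_lit 5) (nat_lit 35) (nat_lit 5) (nat_lit 32) (nat_lit 5) (nat_lit 345) (nat_lit 328) (nat_lit 227)) (XT.lf (nat_lit 0) (nat_lit 29212919806) (nat_lit 304) (nat_lit 3338921999) (nat_lit 76) (nat_lit 44853172594) (nat_lit 31) (nat_lit 5) (nat_lit 35) (nat_lit 5) (nat_lit 32) (nat_lit 5) (nat_lit 346) (nat_lit 328) (nat_lit 226))) (XT.nd (nat_lit 78) (nat_lit 0) (nat_lit 0) (XT.lf (nat_lit 0) (nat_lit 39529882644) (nat_lit 152) (nat_lit 4785773751) (nat_lit 228) (nat_lit 36983586277) (nat_lit 29) (nat_lit 5) (nat_lit 31) (nat_lit 5) (nat_lit 32) (nat_lit 5) (nat_lit 347) (nat_lit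 328) (nat_lit 225)) (XT.lf (nat_lit 0) (nat_lit 61324713797) (nat_lit 228) (nat_lit 90544699) (nat_lit 76) (nat_lit 24033904820) (nat_lit 29) (nat_lit 5) (nat_lit 32) (nat_lit 5) (nat_lit 30) (nat_lit 5) (nat_lit 348) (nat_lit 328) (nat_lit 224)))) (XT.nd (nat_lit 156) (nat_lit 152) (nat_lit 0) (XT.nd (nat_lit 78) (nat_lit 228) (nat_lit 0) (XT.lf (nat_lit 0) (nat_lit 47154881388) (nat_lit 152) (nat_lit 33796459226) (nat_lit 228) (nat_lit 8879191505) (nat_lit 27) (nat_lit 5) (nat_lit 29) (nat_lit 5) (nat_lit 30) (nat_lit 5) (nat_lit 349) (nat_lit 328) (nat_lit 223)) (XT.lf (nat_lit 0) (nat_lit 3619130800) (nat_lit 152) (nat_lit 3675153205) (nat_lit 228) (nat_lit 87246488247) (nat_lit 24) (nat_lit 5) (nat_lit 26) (nat_lit 5) (nat_lit 27) (nat_lit 5) (nat_lit 350) (nat_lit 328) (nat_lit 222))) (XT.nd (nat_lit 78) (nat_lit 152) (nat_lit 0) (XT.lf (nat_lit 0) (nat_lit 26171573283) (nat_lit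 228) (nat_lit 44447240776) (nat_lit 76) (nat_lit 28839397515) (nat_lit 24) (nat_lit 5) (nat_lit 27) (nat_lit 5) (nat_lit 25) (nat_lit 5) (nat_lit 351) (nat_lit 328) (nat_lit 221)) (XT.lf (nat_lit 0) (nat_lit 5944880515) (nat_lit 152) (nat_lit 40851231097) (nat_lit 228) (nat_lit 57953970693) (nat_lit 22) (nat_lit 5) (nat_lit 24) (nat_lit 5) (nat_lit 25) (nat_lit 5) (nat_lit 352) (nat_lit 328) (nat_lit 220))))) (XT.nd (nat_lit 312) (nat_lit 228) (nat_lit 0) (XT.nd (nat_lit 156) (nat_lit 228) (nat_lit 0) (XT.nd (nat_lit 78) (nat_lit 76) (nat_lit 0) (XT.lf (nat_lit 0) (nat_lit 62894020241) (nat_lit 152) (nat_lit 7390542599) (nat_lit 228) (nat_lit 40083625291) (nat_lit 22) (nat_lit 5) (nat_lit 24) (nat_lit 5) (nat_lit 25) (nat_lit 5) (nat_lit 353) (nat_lit 328) (nat_lit 219)) (XT.lf (nat_lit 0) (nat_lit 7652774885) (nat_lit 76) (nat_lit 88873494227) (nat_lit 152) (nat_lit 19839540317) (nat_lit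 21) (nat_lit 5) (nat_lit 22) (nat_lit 5) (nat_lit 23) (nat_lit 4) (nat_lit 354) (nat_lit 328) (nat_lit 218))) (XT.nd (nat_lit 78) (nat_lit 152) (nat_lit 0) (XT.lf (nat_lit 0) (nat_lit 3445299559) (nat_lit 152) (nat_lit 53126028022) (nat_lit 76) (nat_lit 66146221233) (nat_lit 20) (nat_lit 5) (nat_lit 22) (nat_lit 5) (nat_lit 21) (nat_lit 5) (nat_lit 355) (nat_lit 328) (nat_lit 217)) (XT.lf (nat_lit 0) (nat_lit 6727257647) (nat_lit 152) (nat_lit 20954475234) (nat_lit 228) (nat_lit 101841617957) (nat_lit 18) (nat_lit 5) (nat_lit 20) (nat_lit 5) (nat_lit 21) (nat_lit 5) (nat_lit 356) (nat_lit 328) (nat_lit 216)))) (XT.nd (nat_lit 156) (nat_lit 152) (nat_lit 0) (XT.nd (nat_lit 78) (nat_lit 76) (nat_lit 0) (XT.lf (nat_lit 0) (nat_lit 55767414453) (nat_lit 228) (nat_lit 62828083861) (nat_lit 76) (nat_lit 18125292993) (nat_lit 18) (nat_lit 5) (nat_lit 21) (nat_lit 5) (nat_lit 19) (nat_lit 4)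 (nat_lit 357) (nat_lit 328) (nat_lit 215)) (XT.lf (nat_lit 0) (nat_lit 1464584666) (nat_lit 76) (nat_lit 85213831256) (nat_lit 152) (nat_lit 57769334760) (nat_lit 17) (nat_lit 5) (nat_lit 18) (nat_lit 5) (nat_lit 19) (nat_lit 4) (nat_lit 358) (nat_lit 328) (nat_lit 214))) (XT.nd (nat_lit 78) (nat_lit 152) (nat_lit 0) (XT.lf (nat_lit 0) (nat_lit 74472026465) (nat_lit 76) (nat_lit 47307106903) (nat_lit 152) (nat_lit 30876387401) (nat_lit 17) (nat_lit 5) (nat_lit 18) (nat_lit 5) (nat_lit 19) (nat_lit 4) (nat_lit 359) (nat_lit 328) (nat_lit 213)) (XT.nd (nat_lit 78) (nat_lit 152) (nat_lit 0) (XT.lf (nat_lit 0) (nat_lit 153318462670) (nat_lit 76) (nat_lit 6368523969) (nat_lit 152) (nat_lit 1833000317) (nat_lit 17) (nat_lit 5) (nat_lit 18) (nat_lit 5) (nat_lit 19) (nat_lit 4) (nat_lit 360) (nat_lit 328) (nat_lit 212)) (XT.lf (nat_lit 0) (nat_lit 30715803633) (nat_lit 152) (nat_lit 101696524280)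 (nat_lit 76) (nat_lit 38411712061) (nat_lit 15) (nat_lit 5) (nat_lit 17) (nat_lit 5) (nat_lit 16) (nat_lit 4) (nat_lit 361) (nat_lit 328) (nat_lit 211))))))))
noncomputable def xc178 : XT := (XT.nd (nat_lit 1248) (nat_lit 380) (nat_lit 0) (XT.nd (nat_lit 624) (nat_lit 304) (nat_lit 0) (XT.nd (nat_lit 312) (nat_lit 152) (nat_lit 0) (XT.nd (nat_lit 156) (nat_lit 76) (nat_lit 0) (XT.nd (nat_lit 78) (nat_lit 76) (nat_lit 0) (XT.lf (nat_lit 0) (nat_lit 66164104649) (nat_lit 152) (nat_lit 27965565336) (nat_lit 76) (nat_lit 86707369237) (nat_lit 15) (nat_lit 5) (nat_lit 17) (nat_lit 5) (nat_lit 16) (nat_lit 4) (nat_lit 362) (nat_lit 328) (nat_lit 210)) (XT.lf (nat_lit 0) (nat_lit 54382893910) (nat_lit 76) (nat_lit 51372487072) (nat_lit 152) (nat_lit 85791129094) (nat_lit 14) (nat_lit 5) (nat_lit 15) (nat_lit 5) (nat_lit 16) (nat_lit 4) (nat_lit 363) (nat_lit 328) (nat_lit 209))) (XT.nd (nat_lit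 78) (nat_lit 76) (nat_lit 0) (XT.lf (nat_lit 0) (nat_lit 144908263539) (nat_lit 76) (nat_lit 4369550993) (nat_lit 152) (nat_lit 53773816181) (nat_lit 14) (nat_lit 5) (nat_lit 15) (nat_lit 5) (nat_lit 16) (nat_lit 4) (nat_lit 364) (nat_lit 328) (nat_lit 208)) (XT.lf (nat_lit 0) (nat_lit 27454800778) (nat_lit 76) (nat_lit 170602568734) (nat_lit 76) (nat_lit 17277765836) (nat_lit 13) (nat_lit 4) (nat_lit 14) (nat_lit 5) (nat_lit 14) (nat_lit 4) (nat_lit 365) (nat_lit 328) (nat_lit 207)))) (XT.nd (nat_lit 156) (nat_lit 76) (nat_lit 0) (XT.nd (nat_lit 78) (nat_lit 0) (nat_lit 0) (XT.lf (nat_lit 0) (nat_lit 22774341684) (nat_lit 152) (nat_lit 105955197949) (nat_lit 76) (nat_lit 99689683321) (nat_lit 12) (nat_lit 5) (nat_lit 14) (nat_lit 5) (nat_lit 13) (nat_lit 4) (nat_lit 366) (nat_lit 328) (nat_lit 206)) (XT.lf (nat_lit 0) (nat_lit 65096497867) (nat_lit 152) (nat_lit 17926062860) (nat_lit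 76) (nat_lit 159491629121) (nat_lit 12) (nat_lit 5) (nat_lit 14) (nat_lit 5) (nat_lit 13) (nat_lit 4) (nat_lit 367) (nat_lit 328) (nat_lit 205))) (XT.nd (nat_lit 78) (nat_lit 0) (nat_lit 0) (XT.lf (nat_lit 0) (nat_lit 81206535300) (nat_lit 76) (nat_lit 31550288326) (nat_lit 152) (nat_lit 144823739057) (nat_lit 11) (nat_lit 5) (nat_lit 12) (nat_lit 5) (nat_lit 13) (nat_lit 4) (nat_lit 368) (nat_lit 328) (nat_lit 204)) (XT.lf (nat_lit 0) (nat_lit 165310378111) (nat_lit 152) (nat_lit 85115864761) (nat_lit 0) (nat_lit 23339570591) (nat_lit 11) (nat_lit 5) (nat_lit 13) (nat_lit 4) (nat_lit 11) (nat_lit 4) (nat_lit 369) (nat_lit 328) (nat_lit 203))))) (XT.nd (nat_lit 312) (nat_lit 76) (nat_lit 0) (XT.nd (nat_lit 156) (nat_lit 152) (nat_lit 0) (XT.nd (nat_lit 78) (nat_lit 0) (nat_lit 0) (XT.lf (nat_lit 0) (nat_lit 13287066649) (nat_lit 76) (nat_lit 209919622893) (nat_lit 76) (nat_lit 67948117261)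 (nat_lit 10) (nat_lit 4) (nat_lit 11) (nat_lit 5) (nat_lit 11) (nat_lit 4) (nat_lit 370) (nat_lit 328) (nat_lit 202)) (XT.lf (nat_lit 0) (nat_lit 124401805187) (nat_lit 76) (nat_lit 163659566727) (nat_lit 76) (nat_lit 21687414697) (nat_lit 10) (nat_lit 4) (nat_lit 11) (nat_lit 5) (nat_lit 11) (nat_lit 4) (nat_lit 371) (nat_lit 328) (nat_lit 201))) (XT.nd (nat_lit 78) (nat_lit 76) (nat_lit 0) (XT.lf (nat_lit 0) (nat_lit 26859231713) (nat_lit 152) (nat_lit 86105548584) (nat_lit 76) (nat_lit 216811147254) (nat_lit 9) (nat_lit 5) (nat_lit 11) (nat_lit 5) (nat_lit 10) (nat_lit 4) (nat_lit 372) (nat_lit 328) (nat_lit 200)) (XT.lf (nat_lit 0) (nat_lit 21591041545) (nat_lit 76) (nat_lit 57045663395) (nat_lit 152) (nat_lit 272681967989) (nat_lit 8) (nat_lit 5) (nat_lit 9) (nat_lit 5) (nat_lit 10) (nat_lit 4) (nat_lit 373) (nat_lit 328) (nat_lit 199)))) (XT.nd (nat_lit 156) (nat_lit 76) (nat_lit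 0) (XT.nd (nat_lit 78) (nat_lit 0) (nat_lit 0) (XT.lf (nat_lit 0) (nat_lit 137051817431) (nat_lit 152) (nat_lit 231738806735) (nat_lit 0) (nat_lit 5594578667) (nat_lit 8) (nat_lit 5) (nat_lit 10) (nat_lit 4) (nat_lit 8) (nat_lit 4) (nat_lit 374) (nat_lit 328) (nat_lit 198)) (XT.lf (nat_lit 0) (nat_lit 201621398177) (nat_lit 152) (nat_lit 127393436920) (nat_lit 0) (nat_lit 70163719485) (nat_lit 8) (nat_lit 5) (nat_lit 10) (nat_lit 4) (nat_lit 8) (nat_lit 4) (nat_lit 375) (nat_lit 328) (nat_lit 197))) (XT.nd (nat_lit 78) (nat_lit 76) (nat_lit 0) (XT.lf (nat_lit 0) (nat_lit 271356132154) (nat_lit 152) (nat_lit 14701229432) (nat_lit 0) (nat_lit 139898046120) (nat_lit 8) (nat_lit 5) (nat_lit 10) (nat_lit 4) (nat_lit 8) (nat_lit 4) (nat_lit 376) (nat_lit 328) (nat_lit 196)) (XT.lf (nat_lit 0) (nat_lit 112640347796) (nat_lit 76) (nat_lit 236737917507) (nat_lit 76) (nat_lit 105279454306) (nat_lit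 7) (nat_lit 4) (nat_lit 8) (nat_lit 5) (nat_lit 8) (nat_lit 4) (nat_lit 377) (nat_lit 328) (nat_lit 195)))))) (XT.nd (nat_lit 624) (nat_lit 152) (nat_lit 0) (XT.nd (nat_lit 312) (nat_lit 76) (nat_lit 0) (XT.nd (nat_lit 156) (nat_lit 76) (nat_lit 0) (XT.nd (nat_lit 78) (nat_lit 76) (nat_lit 0) (XT.lf (nat_lit 0) (nat_lit 251004608458) (nat_lit 76) (nat_lit 183039146847) (nat_lit 76) (nat_lit 51580334416) (nat_lit 7) (nat_lit 4) (nat_lit 8) (nat_lit 5) (nat_lit 8) (nat_lit 4) (nat_lit 378) (nat_lit 328) (nat_lit 194)) (XT.lf (nat_lit 0) (nat_lit 6093472020) (nat_lit 152) (nat_lit 118784713989) (nat_lit 76) (nat_lit 394177269882) (nat_lit 6) (nat_lit 5) (nat_lit 8) (nat_lit 5) (nat_lit 7) (nat_lit 4) (nat_lit 379) (nat_lit 328) (nat_lit 193))) (XT.nd (nat_lit 78) (nat_lit 0) (nat_lit 0) (XT.lf (nat_lit 0) (nat_lit 5238506992) (nat_lit 76) (nat_lit 60481657522) (nat_lit 152) (nat_lit 489323934297)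 (nat_lit 5) (nat_lit 5) (nat_lit 6) (nat_lit 5) (nat_lit 7) (nat_lit 4) (nat_lit 380) (nat_lit 328) (nat_lit 192)) (XT.lf (nat_lit 0) (nat_lit 133666862261) (nat_lit 152) (nat_lit 448016075120) (nat_lit 0) (nat_lit 11944906308) (nat_lit 5) (nat_lit 5) (nat_lit 7) (nat_lit 4) (nat_lit 5) (nat_lit 4) (nat_lit 381) (nat_lit 328) (nat_lit 191)))) (XT.nd (nat_lit 156) (nat_lit 76) (nat_lit 0) (XT.nd (nat_lit 78) (nat_lit 0) (nat_lit 0) (XT.lf (nat_lit 0) (nat_lit 208619947452) (nat_lit 152) (nat_lit 339654934861) (nat_lit 0) (nat_lit 86897753820) (nat_lit 5) (nat_lit 5) (nat_lit 7) (nat_lit 4) (nat_lit 5) (nat_lit 4) (nat_lit 382) (nat_lit 328) (nat_lit 190)) (XT.lf (nat_lit 0) (nat_lit 289569001200) (nat_lit 152) (nat_lit 222625445634) (nat_lit 0) (nat_lit 167846587494) (nat_lit 5) (nat_lit 5) (nat_lit 7) (nat_lit 4) (nat_lit 5) (nat_lit 4) (nat_lit 383) (nat_lit 328) (nat_lit 189))) (XT.nd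 (nat_lit 78) (nat_lit 76) (nat_lit 0) (XT.lf (nat_lit 0) (nat_lit 376993721602) (nat_lit 152) (nat_lit 96234099354) (nat_lit 0) (nat_lit 255271104123) (nat_lit 5) (nat_lit 5) (nat_lit 7) (nat_lit 4) (nat_lit 5) (nat_lit 4) (nat_lit 384) (nat_lit 328) (nat_lit 188)) (XT.lf (nat_lit 0) (nat_lit 42388535976) (nat_lit 76) (nat_lit 430043090407) (nat_lit 76) (nat_lit 308320284251) (nat_lit 4) (nat_lit 4) (nat_lit 5) (nat_lit 5) (nat_lit 5) (nat_lit 4) (nat_lit 385) (nat_lit 328) (nat_lit 187))))) (XT.nd (nat_lit 312) (nat_lit 152) (nat_lit 0) (XT.nd (nat_lit 156) (nat_lit 0) (nat_lit 0) (XT.nd (nat_lit 78) (nat_lit 0) (nat_lit 0) (XT.lf (nat_lit 0) (nat_lit 197573447510) (nat_lit 76) (nat_lit 380562095068) (nat_lit 76) (nat_lit 258839114210) (nat_lit 4) (nat_lit 4) (nat_lit 5) (nat_lit 5) (nat_lit 5) (nat_lit 4) (nat_lit 386) (nat_lit 328) (nat_lit 186)) (XT.lf (nat_lit 0) (nat_lit 365172732406)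 (nat_lit 76) (nat_lit 327122825042) (nat_lit 76) (nat_lit 205399682424) (nat_lit 4) (nat_lit 4) (nat_lit 5) (nat_lit 5) (nat_lit 5) (nat_lit 4) (nat_lit 387) (nat_lit 328) (nat_lit 185))) (XT.nd (nat_lit 78) (nat_lit 0) (nat_lit 0) (XT.lf (nat_lit 0) (nat_lit 546179571613) (nat_lit 76) (nat_lit 269408603176) (nat_lit 76) (nat_lit 147685310779) (nat_lit 4) (nat_lit 4) (nat_lit 5) (nat_lit 5) (nat_lit 5) (nat_lit 4) (nat_lit 388) (nat_lit 328) (nat_lit 184)) (XT.lf (nat_lit 0) (nat_lit 741666598251) (nat_lit 76) (nat_lit 207077419265) (nat_lit 76) (nat_lit 85353988184) (nat_lit 4) (nat_lit 4) (nat_lit 5) (nat_lit 5) (nat_lit 5) (nat_lit 4) (nat_lit 389) (nat_lit 328) (nat_lit 183)))) (XT.nd (nat_lit 156) (nat_lit 76) (nat_lit 0) (XT.nd (nat_lit 78) (nat_lit 76) (nat_lit 0) (XT.lf (nat_lit 0) (nat_lit 952792253960) (nat_lit 76) (nat_lit 139759903330) (nat_lit 76) (nat_lit 18036343838) (nat_lit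 4) (nat_lit 4) (nat_lit 5) (nat_lit 5) (nat_lit 5) (nat_lit 4) (nat_lit 390) (nat_lit 328) (nat_lit 182)) (XT.lf (nat_lit 0) (nat_lit 51931899818) (nat_lit 152) (nat_lit 13705326769) (nat_lit 76) (nat_lit 1127455843746) (nat_lit 3) (nat_lit 5) (nat_lit 5) (nat_lit 5) (nat_lit 4) (nat_lit 4) (nat_lit 391) (nat_lit 328) (nat_lit 181))) (XT.nd (nat_lit 78) (nat_lit 0) (nat_lit 0) (XT.lf (nat_lit 0) (nat_lit 130555746895) (nat_lit 152) (nat_lit 1133433638770) (nat_lit 0) (nat_lit 17848535337) (nat_lit 2) (nat_lit 5) (nat_lit 4) (nat_lit 4) (nat_lit 2) (nat_lit 4) (nat_lit 392) (nat_lit 328) (nat_lit 180)) (XT.lf (nat_lit 0) (nat_lit 217558676825) (nat_lit 152) (nat_lit 1055105178053) (nat_lit 0) (nat_lit 104851370881) (nat_lit 2) (nat_lit 5) (nat_lit 4) (nat_lit 4) (nat_lit 2) (nat_lit 4) (nat_lit 393) (nat_lit 328) (nat_lit 179)))))))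
noncomputable def xc179 : XT := (XT.nd (nat_lit 41964) (nat_lit 0) (nat_lit 2280) (XT.nd (nat_lit 624) (nat_lit 76) (nat_lit 0) (XT.nd (nat_lit 312) (nat_lit 0) (nat_lit 0) (XT.nd (nat_lit 156) (nat_lit 0) (nat_lit 0) (XT.nd (nat_lit 78) (nat_lit 0) (nat_lit 0) (XT.lf (nat_lit 0) (nat_lit 311521703134) (nat_lit 152) (nat_lit 970510713048) (nat_lit 0) (nat_lit 198814309796) (nat_lit 2) (nat_lit 5) (nat_lit 4) (nat_lit 4) (nat_lit 2) (nat_lit 4) (nat_lit 394) (nat_lit 328) (nat_lit 178)) (XT.lf (nat_lit 0) (nat_lit 413001643755) (nat_lit 152) (nat_lit 879148943221) (nat_lit 0) (nat_lit 300294169496) (nat_lit 2) (nat_lit 5) (nat_lit 4) (nat_lit 4) (nat_lit 2) (nat_lit 4) (nat_lit 395) (nat_lit 328) (nat_lit 177))) (XT.nd (nat_lit 78) (nat_lit 0) (nat_lit 0) (XT.lf (nat_lit 0) (nat_lit 522599861300) (nat_lit 152) (nat_lit 780478465490) (nat_lit 0) (nat_lit 409892312114) (nat_lit 2) (nat_lit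 5) (nat_lit 4) (nat_lit 4) (nat_lit 2) (nat_lit 4) (nat_lit 396) (nat_lit 328) (nat_lit 176)) (XT.lf (nat_lit 0) (nat_lit 640965826687) (nat_lit 152) (nat_lit 673914565915) (nat_lit 0) (nat_lit 528258208125) (nat_lit 2) (nat_lit 5) (nat_lit 4) (nat_lit 4) (nat_lit 2) (nat_lit 4) (nat_lit 397) (nat_lit 328) (nat_lit 175)))) (XT.nd (nat_lit 156) (nat_lit 0) (nat_lit 0) (XT.nd (nat_lit 78) (nat_lit 0) (nat_lit 0) (XT.lf (nat_lit 0) (nat_lit 768800967859) (nat_lit 152) (nat_lit 558825754719) (nat_lit 0) (nat_lit 656093285060) (nat_lit 2) (nat_lit 5) (nat_lit 4) (nat_lit 4) (nat_lit 2) (nat_lit 4) (nat_lit 398) (nat_lit 328) (nat_lit 174)) (XT.lf (nat_lit 0) (nat_lit 906862826394) (nat_lit 152) (nat_lit 434530024133) (nat_lit 0) (nat_lit 794155084116) (nat_lit 2) (nat_lit 5) (nat_lit 4) (nat_lit 4) (nat_lit 2) (nat_lit 4) (nat_lit 399) (nat_lit 328) (nat_lit 173))) (XT.nd (nat_lit 78) (nat_lit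 0) (nat_lit 0) (XT.lf (nat_lit 0) (nat_lit 1055969546639) (nat_lit 152) (nat_lit 300290806865) (nat_lit 0) (nat_lit 943261749287) (nat_lit 2) (nat_lit 5) (nat_lit 4) (nat_lit 4) (nat_lit 2) (nat_lit 4) (nat_lit 400) (nat_lit 328) (nat_lit 172)) (XT.lf (nat_lit 0) (nat_lit 1217004723972) (nat_lit 152) (nat_lit 155312611256) (nat_lit 0) (nat_lit 1104296875627) (nat_lit 2) (nat_lit 5) (nat_lit 4) (nat_lit 4) (nat_lit 2) (nat_lit 4) (nat_lit 401) (nat_lit 328) (nat_lit 171))))) (XT.nd (nat_lit 312) (nat_lit 0) (nat_lit 0) (XT.nd (nat_lit 156) (nat_lit 0) (nat_lit 0) (XT.nd (nat_lit 78) (nat_lit 0) (nat_lit 0) (XT.lf (nat_lit 0) (nat_lit 1330236561) (nat_lit 76) (nat_lit 1389624396587) (nat_lit 76) (nat_lit 1276916501025) (nat_lit 1) (nat_lit 4) (nat_lit 2) (nat_lit 5) (nat_lit 2) (nat_lit 4) (nat_lit 402) (nat_lit 328) (nat_lit 170)) (XT.lf (nat_lit 0) (nat_lit 179337134492) (nat_lit 76)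 (nat_lit 1403729850100) (nat_lit 76) (nat_lit 1291021910820) (nat_lit 1) (nat_lit 4) (nat_lit 2) (nat_lit 5) (nat_lit 2) (nat_lit 4) (nat_lit 403) (nat_lit 328) (nat_lit 169))) (XT.nd (nat_lit 78) (nat_lit 0) (nat_lit 0) (XT.lf (nat_lit 0) (nat_lit 371584451359) (nat_lit 76) (nat_lit 1418963805671) (nat_lit 76) (nat_lit 1306255825909) (nat_lit 1) (nat_lit 4) (nat_lit 2) (nat_lit 5) (nat_lit 2) (nat_lit 4) (nat_lit 404) (nat_lit 328) (nat_lit 168)) (XT.lf (nat_lit 0) (nat_lit 579211430519) (nat_lit 76) (nat_lit 1435416538590) (nat_lit 76) (nat_lit 1322708521347) (nat_lit 1) (nat_lit 4) (nat_lit 2) (nat_lit 5) (nat_lit 2) (nat_lit 4) (nat_lit 405) (nat_lit 328) (nat_lit 167)))) (XT.nd (nat_lit 40872) (nat_lit 0) (nat_lit 3800) (XT.nd (nat_lit 78) (nat_lit 0) (nat_lit 0) (XT.lf (nat_lit 0) (nat_lit 803448454072) (nat_lit 76) (nat_lit 1453185546535) (nat_lit 76) (nat_lit 1340477494586) (nat_lit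 1) (nat_lit 4) (nat_lit 2) (nat_lit 5) (nat_lit 2) (nat_lit 4) (nat_lit 406) (nat_lit 328) (nat_lit 166)) (XT.lf (nat_lit 0) (nat_lit 1045624334008) (nat_lit 76) (nat_lit 1472376127331) (nat_lit 76) (nat_lit 1359668043247) (nat_lit 1) (nat_lit 4) (nat_lit 2) (nat_lit 5) (nat_lit 2) (nat_lit 4) (nat_lit 407) (nat_lit 328) (nat_lit 165))) (XT.nd (nat_lit 78) (nat_lit 0) (nat_lit 0) (XT.lf (nat_lit 0) (nat_lit 13701006253) (nat_lit 532) (nat_lit 2654834312) (nat_lit 532) (nat_lit 2654834312) (nat_lit 51) (nat_lit 3) (nat_lit 58) (nat_lit 3) (nat_lit 58) (nat_lit 5) (nat_lit 329) (nat_lit 329) (nat_lit 242)) (XT.lf (nat_lit 76) (nat_lit 13175065970) (nat_lit 0) (nat_lit 15681728013) (nat_lit 532) (nat_lit 10656623420) (nat_lit 52) (nat_lit 5) (nat_lit 51) (nat_lit 3) (nat_lit 58) (nat_lit 5) (nat_lit 330) (nat_lit 329) (nat_lit 241)))))) (XT.nd (nat_lit 624) (nat_lit 912) (nat_lit 0) (XT.nd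 (nat_lit 312) (nat_lit 684) (nat_lit 0) (XT.nd (nat_lit 156) (nat_lit 0) (nat_lit 0) (XT.nd (nat_lit 78) (nat_lit 0) (nat_lit 0) (XT.lf (nat_lit 0) (nat_lit 30637896359) (nat_lit 456) (nat_lit 7744430282) (nat_lit 532) (nat_lit 2725737780) (nat_lit 52) (nat_lit 5) (nat_lit 58) (nat_lit 5) (nat_lit 59) (nat_lit 5) (nat_lit 331) (nat_lit 329) (nat_lit 240)) (XT.lf (nat_lit 76) (nat_lit 12555175975) (nat_lit 0) (nat_lit 20711693185) (nat_lit 532) (nat_lit 9506991826) (nat_lit 53) (nat_lit 5) (nat_lit 52) (nat_lit 5) (nat_lit 59) (nat_lit 5) (nat_lit 332) (nat_lit 329) (nat_lit 239))) (XT.nd (nat_lit 78) (nat_lit 0) (nat_lit 76) (XT.lf (nat_lit 76) (nat_lit 34916676728) (nat_lit 0) (nat_lit 1397569535) (nat_lit 532) (nat_lit 8242035836) (nat_lit 53) (nat_lit 5) (nat_lit 52) (nat_lit 5) (nat_lit 59) (nat_lit 5) (nat_lit 333) (nat_lit 329) (nat_lit 238)) (XT.lf (nat_lit 76) (nat_lit 12753082607)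 (nat_lit 0) (nat_lit 27623733662) (nat_lit 532) (nat_lit 6042775584) (nat_lit 54) (nat_lit 5) (nat_lit 53) (nat_lit 5) (nat_lit 60) (nat_lit 5) (nat_lit 334) (nat_lit 329) (nat_lit 237)))) (XT.nd (nat_lit 156) (nat_lit 304) (nat_lit 0) (XT.nd (nat_lit 78) (nat_lit 456) (nat_lit 0) (XT.lf (nat_lit 76) (nat_lit 37444628046) (nat_lit 0) (nat_lit 7615533645) (nat_lit 532) (nat_lit 3348149747) (nat_lit 54) (nat_lit 5) (nat_lit 53) (nat_lit 5) (nat_lit 60) (nat_lit 5) (nat_lit 335) (nat_lit 329) (nat_lit 236)) (XT.lf (nat_lit 0) (nat_lit 269504990) (nat_lit 532) (nat_lit 36597354946) (nat_lit 76) (nat_lit 13635272921) (nat_lit 47) (nat_lit 5) (nat_lit 54) (nat_lit 5) (nat_lit 48) (nat_lit 5) (nat_lit 336) (nat_lit 329) (nat_lit 235))) (XT.nd (nat_lit 78) (nat_lit 304) (nat_lit 0) (XT.lf (nat_lit 0) (nat_lit 4498195074) (nat_lit 532) (nat_lit 11648518198) (nat_lit 76) (nat_lit 36569593990) (nat_lit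 47) (nat_lit 5) (nat_lit 54) (nat_lit 5) (nat_lit 48) (nat_lit 5) (nat_lit 337) (nat_lit 329) (nat_lit 234)) (XT.lf (nat_lit 0) (nat_lit 9609641778) (nat_lit 380) (nat_lit 39137720012) (nat_lit 76) (nat_lit 6316701797) (nat_lit 43) (nat_lit 5) (nat_lit 48) (nat_lit 5) (nat_lit 44) (nat_lit 5) (nat_lit 338) (nat_lit 329) (nat_lit 233))))) (XT.nd (nat_lit 312) (nat_lit 456) (nat_lit 0) (XT.nd (nat_lit 156) (nat_lit 228) (nat_lit 0) (XT.nd (nat_lit 78) (nat_lit 228) (nat_lit 0) (XT.lf (nat_lit 0) (nat_lit 15873663059) (nat_lit 380) (nat_lit 11634827168) (nat_lit 76) (nat_lit 30031662001) (nat_lit 43) (nat_lit 5) (nat_lit 48) (nat_lit 5) (nat_lit 44) (nat_lit 5) (nat_lit 339) (nat_lit 329) (nat_lit 232)) (XT.lf (nat_lit 0) (nat_lit 19017154569) (nat_lit 228) (nat_lit 4076699742) (nat_lit 304) (nat_lit 37084073970) (nat_lit 40) (nat_lit 5) (nat_lit 43) (nat_lit 5) (nat_lit 44) (nat_lit 5)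 (nat_lit 340) (nat_lit 329) (nat_lit 231))) (XT.nd (nat_lit 78) (nat_lit 228) (nat_lit 0) (XT.lf (nat_lit 0) (nat_lit 31726408060) (nat_lit 304) (nat_lit 10739705957) (nat_lit 76) (nat_lit 20493836499) (nat_lit 40) (nat_lit 5) (nat_lit 44) (nat_lit 5) (nat_lit 41) (nat_lit 5) (nat_lit 341) (nat_lit 329) (nat_lit 230)) (XT.lf (nat_lit 0) (nat_lit 23165616623) (nat_lit 228) (nat_lit 18544929223) (nat_lit 304) (nat_lit 24201113891) (nat_lit 37) (nat_lit 5) (nat_lit 40) (nat_lit 5) (nat_lit 41) (nat_lit 5) (nat_lit 342) (nat_lit 329) (nat_lit 229)))) (XT.nd (nat_lit 156) (nat_lit 304) (nat_lit 0) (XT.nd (nat_lit 78) (nat_lit 152) (nat_lit 0) (XT.lf (nat_lit 0) (nat_lit 52968052110) (nat_lit 304) (nat_lit 8867293323) (nat_lit 76) (nat_lit 7226192588) (nat_lit 37) (nat_lit 5) (nat_lit 41) (nat_lit 5) (nat_lit 38) (nat_lit 5) (nat_lit 343) (nat_lit 329) (nat_lit 228)) (XT.lf (nat_lit 0) (nat_lit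 28672076247) (nat_lit 152) (nat_lit 37623522388) (nat_lit 228) (nat_lit 6074255825) (nat_lit 35) (nat_lit 5) (nat_lit 37) (nat_lit 5) (nat_lit 38) (nat_lit 5) (nat_lit 344) (nat_lit 329) (nat_lit 227))) (XT.nd (nat_lit 78) (nat_lit 228) (nat_lit 0) (XT.lf (nat_lit 0) (nat_lit 4756039771) (nat_lit 228) (nat_lit 6327330752) (nat_lit 76) (nat_lit 64830578677) (nat_lit 34) (nat_lit 5) (nat_lit 37) (nat_lit 5) (nat_lit 35) (nat_lit 5) (nat_lit 345) (nat_lit 329) (nat_lit 226)) (XT.nd (nat_lit 78) (nat_lit 0) (nat_lit 0) (XT.lf (nat_lit 0) (nat_lit 17429643914) (nat_lit 304) (nat_lit 44453130045) (nat_lit 76) (nat_lit 17741773972) (nat_lit 31) (nat_lit 5) (nat_lit 35) (nat_lit 5) (nat_lit 32) (nat_lit 5) (nat_lit 346) (nat_lit 329) (nat_lit 225)) (XT.lf (nat_lit 0) (nat_lit 31580922709) (nat_lit 304) (nat_lit 3562834814) (nat_lit 76) (nat_lit 48451136391) (nat_lit 31) (nat_lit 5) (nat_lit 35)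 (nat_lit 5) (nat_lit 32) (nat_lit 5) (nat_lit 347) (nat_lit 329) (nat_lit 224))))))))
noncomputable def xc180 : XT := (XT.nd (nat_lit 1248) (nat_lit 608) (nat_lit 0) (XT.nd (nat_lit 624) (nat_lit 456) (nat_lit 0) (XT.nd (nat_lit 312) (nat_lit 228) (nat_lit 0) (XT.nd (nat_lit 156) (nat_lit 380) (nat_lit 0) (XT.nd (nat_lit 78) (nat_lit 0) (nat_lit 0) (XT.lf (nat_lit 0) (nat_lit 42734380506) (nat_lit 152) (nat_lit 5156216377) (nat_lit 228) (nat_lit 39910169341) (nat_lit 29) (nat_lit 5) (nat_lit 31) (nat_lit 5) (nat_lit 32) (nat_lit 5) (nat_lit 348) (nat_lit 329) (nat_lit 223)) (XT.lf (nat_lit 0) (nat_lit 66258456327) (nat_lit 228) (nat_lit 56839729) (nat_lit 76) (nat_lit 25967541292) (nat_lit 29) (nat_lit 5) (nat_lit 32) (nat_lit 5) (nat_lit 30) (nat_lit 5) (nat_lit 349) (nat_lit 329) (nat_lit 222))) (XT.nd (nat_lit 78) (nat_lit 228) (nat_lit 0) (XT.lf (nat_lit 0) (nat_lit 50967183773) (nat_lit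 152) (nat_lit 36486932700) (nat_lit 228) (nat_lit 9560689728) (nat_lit 27) (nat_lit 5) (nat_lit 29) (nat_lit 5) (nat_lit 30) (nat_lit 5) (nat_lit 350) (nat_lit 329) (nat_lit 221)) (XT.lf (nat_lit 0) (nat_lit 3949000327) (nat_lit 152) (nat_lit 3955161878) (nat_lit 228) (nat_lit 94197734982) (nat_lit 24) (nat_lit 5) (nat_lit 26) (nat_lit 5) (nat_lit 27) (nat_lit 5) (nat_lit 351) (nat_lit 329) (nat_lit 220)))) (XT.nd (nat_lit 156) (nat_lit 76) (nat_lit 0) (XT.nd (nat_lit 78) (nat_lit 152) (nat_lit 0) (XT.lf (nat_lit 0) (nat_lit 28289995688) (nat_lit 228) (nat_lit 47964002332) (nat_lit 76) (nat_lit 31158866971) (nat_lit 24) (nat_lit 5) (nat_lit 27) (nat_lit 5) (nat_lit 25) (nat_lit 5) (nat_lit 352) (nat_lit 329) (nat_lit 219)) (XT.lf (nat_lit 0) (nat_lit 6458500871) (nat_lit 152) (nat_lit 44105081458) (nat_lit 228) (nat_lit 62564578290) (nat_lit 22) (nat_lit 5) (nat_lit 24) (nat_lit 5) (nat_lit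 25) (nat_lit 5) (nat_lit 353) (nat_lit 329) (nat_lit 218))) (XT.nd (nat_lit 78) (nat_lit 76) (nat_lit 0) (XT.lf (nat_lit 0) (nat_lit 67960754745) (nat_lit 152) (nat_lit 7968593298) (nat_lit 228) (nat_lit 43266509704) (nat_lit 22) (nat_lit 5) (nat_lit 24) (nat_lit 5) (nat_lit 25) (nat_lit 5) (nat_lit 354) (nat_lit 329) (nat_lit 217)) (XT.lf (nat_lit 0) (nat_lit 8300749276) (nat_lit 76) (nat_lit 95969164044) (nat_lit 152) (nat_lit 21403415392) (nat_lit 21) (nat_lit 5) (nat_lit 22) (nat_lit 5) (nat_lit 23) (nat_lit 4) (nat_lit 355) (nat_lit 329) (nat_lit 216))))) (XT.nd (nat_lit 312) (nat_lit 152) (nat_lit 0) (XT.nd (nat_lit 156) (nat_lit 76) (nat_lit 0) (XT.nd (nat_lit 78) (nat_lit 152) (nat_lit 0) (XT.lf (nat_lit 0) (nat_lit 3741407952) (nat_lit 152) (nat_lit 57341908606) (nat_lit 76) (nat_lit 71449978497) (nat_lit 20) (nat_lit 5) (nat_lit 22) (nat_lit 5) (nat_lit 21) (nat_lit 5) (nat_lit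 356) (nat_lit 329) (nat_lit 215)) (XT.lf (nat_lit 0) (nat_lit 7298774052) (nat_lit 152) (nat_lit 22617266250) (nat_lit 228) (nat_lit 109967579592) (nat_lit 18) (nat_lit 5) (nat_lit 20) (nat_lit 5) (nat_lit 21) (nat_lit 5) (nat_lit 357) (nat_lit 329) (nat_lit 214))) (XT.nd (nat_lit 78) (nat_lit 76) (nat_lit 0) (XT.lf (nat_lit 0) (nat_lit 60247414162) (nat_lit 228) (nat_lit 67822285646) (nat_lit 76) (nat_lit 19587250068) (nat_lit 18) (nat_lit 5) (nat_lit 21) (nat_lit 5) (nat_lit 19) (nat_lit 4) (nat_lit 358) (nat_lit 329) (nat_lit 213)) (XT.lf (nat_lit 0) (nat_lit 1612985100) (nat_lit 76) (nat_lit 92017683555) (nat_lit 152) (nat_lit 62371448713) (nat_lit 17) (nat_lit 5) (nat_lit 18) (nat_lit 5) (nat_lit 19) (nat_lit 4) (nat_lit 359) (nat_lit 329) (nat_lit 212)))) (XT.nd (nat_lit 156) (nat_lit 152) (nat_lit 0) (XT.nd (nat_lit 78) (nat_lit 0) (nat_lit 0) (XT.lf (nat_lit 0) (nat_lit 80458708638)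 (nat_lit 76) (nat_lit 51079403046) (nat_lit 152) (nat_lit 33328505034) (nat_lit 17) (nat_lit 5) (nat_lit 18) (nat_lit 5) (nat_lit 19) (nat_lit 4) (nat_lit 360) (nat_lit 329) (nat_lit 211)) (XT.lf (nat_lit 0) (nat_lit 165610717514) (nat_lit 76) (nat_lit 6866642545) (nat_lit 152) (nat_lit 1962979825) (nat_lit 17) (nat_lit 5) (nat_lit 18) (nat_lit 5) (nat_lit 19) (nat_lit 4) (nat_lit 361) (nat_lit 329) (nat_lit 210))) (XT.nd (nat_lit 78) (nat_lit 0) (nat_lit 0) (XT.lf (nat_lit 0) (nat_lit 33188649657) (nat_lit 152) (nat_lit 109804366658) (nat_lit 76) (nat_lit 41495689285) (nat_lit 15) (nat_lit 5) (nat_lit 17) (nat_lit 5) (nat_lit 16) (nat_lit 4) (nat_lit 362) (nat_lit 329) (nat_lit 209)) (XT.lf (nat_lit 0) (nat_lit 71471660551) (nat_lit 152) (nat_lit 30176996152) (nat_lit 76) (nat_lit 93654181237) (nat_lit 15) (nat_lit 5) (nat_lit 17) (nat_lit 5) (nat_lit 16) (nat_lit 4) (nat_lit 363) (nat_lit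 329) (nat_lit 208)))))) (XT.nd (nat_lit 624) (nat_lit 228) (nat_lit 0) (XT.nd (nat_lit 312) (nat_lit 152) (nat_lit 0) (XT.nd (nat_lit 156) (nat_lit 152) (nat_lit 0) (XT.nd (nat_lit 78) (nat_lit 0) (nat_lit 0) (XT.lf (nat_lit 0) (nat_lit 58758686305) (nat_lit 76) (nat_lit 55471089101) (nat_lit 152) (nat_lit 92639328901) (nat_lit 14) (nat_lit 5) (nat_lit 15) (nat_lit 5) (nat_lit 16) (nat_lit 4) (nat_lit 364) (nat_lit 329) (nat_lit 207)) (XT.lf (nat_lit 0) (nat_lit 156524221735) (nat_lit 76) (nat_lit 4708747538) (nat_lit 152) (nat_lit 58061748772) (nat_lit 14) (nat_lit 5) (nat_lit 15) (nat_lit 5) (nat_lit 16) (nat_lit 4) (nat_lit 365) (nat_lit 329) (nat_lit 206))) (XT.nd (nat_lit 78) (nat_lit 76) (nat_lit 0) (XT.lf (nat_lit 0) (nat_lit 29674665843) (nat_lit 76) (nat_lit 184240060651) (nat_lit 76) (nat_lit 18646190178) (nat_lit 13) (nat_lit 4) (nat_lit 14) (nat_lit 5) (nat_lit 14) (nat_lit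 4) (nat_lit 366) (nat_lit 329) (nat_lit 205)) (XT.lf (nat_lit 0) (nat_lit 24608424894) (nat_lit 152) (nat_lit 114409226110) (nat_lit 76) (nat_lit 107674131964) (nat_lit 12) (nat_lit 5) (nat_lit 14) (nat_lit 5) (nat_lit 13) (nat_lit 4) (nat_lit 367) (nat_lit 329) (nat_lit 204)))) (XT.nd (nat_lit 156) (nat_lit 76) (nat_lit 0) (XT.nd (nat_lit 78) (nat_lit 76) (nat_lit 0) (XT.lf (nat_lit 0) (nat_lit 70315454619) (nat_lit 152) (nat_lit 19339418559) (nat_lit 76) (nat_lit 172259546466) (nat_lit 12) (nat_lit 5) (nat_lit 14) (nat_lit 5) (nat_lit 13) (nat_lit 4) (nat_lit 368) (nat_lit 329) (nat_lit 203)) (XT.lf (nat_lit 0) (nat_lit 87723262661) (nat_lit 76) (nat_lit 34064997334) (nat_lit 152) (nat_lit 156397870505) (nat_lit 11) (nat_lit 5) (nat_lit 12) (nat_lit 5) (nat_lit 13) (nat_lit 4) (nat_lit 369) (nat_lit 329) (nat_lit 202))) (XT.nd (nat_lit 78) (nat_lit 76) (nat_lit 0) (XT.lf (nat_lit 0)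 (nat_lit 178545499546) (nat_lit 152) (nat_lit 91905821227) (nat_lit 0) (nat_lit 25214928953) (nat_lit 11) (nat_lit 5) (nat_lit 13) (nat_lit 4) (nat_lit 11) (nat_lit 4) (nat_lit 370) (nat_lit 329) (nat_lit 201)) (XT.lf (nat_lit 0) (nat_lit 14368855767) (nat_lit 76) (nat_lit 226704350527) (nat_lit 76) (nat_lit 73373181416) (nat_lit 10) (nat_lit 4) (nat_lit 11) (nat_lit 5) (nat_lit 11) (nat_lit 4) (nat_lit 371) (nat_lit 329) (nat_lit 200))))) (XT.nd (nat_lit 312) (nat_lit 76) (nat_lit 0) (XT.nd (nat_lit 156) (nat_lit 76) (nat_lit 0) (XT.nd (nat_lit 78) (nat_lit 76) (nat_lit 0) (XT.lf (nat_lit 0) (nat_lit 134371379033) (nat_lit 76) (nat_lit 176744144846) (nat_lit 76) (nat_lit 23412421552) (nat_lit 10) (nat_lit 4) (nat_lit 11) (nat_lit 5) (nat_lit 11) (nat_lit 4) (nat_lit 372) (nat_lit 329) (nat_lit 199)) (XT.lf (nat_lit 0) (nat_lit 29016754291) (nat_lit 152) (nat_lit 92977387500) (nat_lit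 76) (nat_lit 234163153185) (nat_lit 9) (nat_lit 5) (nat_lit 11) (nat_lit 5) (nat_lit 10) (nat_lit 4) (nat_lit 373) (nat_lit 329) (nat_lit 198))) (XT.nd (nat_lit 78) (nat_lit 0) (nat_lit 0) (XT.lf (nat_lit 0) (nat_lit 23334509461) (nat_lit 76) (nat_lit 61601654486) (nat_lit 152) (nat_lit 294487317252) (nat_lit 8) (nat_lit 5) (nat_lit 9) (nat_lit 5) (nat_lit 10) (nat_lit 4) (nat_lit 374) (nat_lit 329) (nat_lit 197)) (XT.lf (nat_lit 0) (nat_lit 148024024753) (nat_lit 152) (nat_lit 250262461378) (nat_lit 0) (nat_lit 6048884496) (nat_lit 8) (nat_lit 5) (nat_lit 10) (nat_lit 4) (nat_lit 8) (nat_lit 4) (nat_lit 375) (nat_lit 329) (nat_lit 196)))) (XT.nd (nat_lit 156) (nat_lit 76) (nat_lit 0) (XT.nd (nat_lit 78) (nat_lit 0) (nat_lit 0) (XT.lf (nat_lit 0) (nat_lit 217758574779) (nat_lit 152) (nat_lit 137570606415) (nat_lit 0) (nat_lit 75783057354) (nat_lit 8) (nat_lit 5) (nat_lit 10) (nat_lit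 4) (nat_lit 8) (nat_lit 4) (nat_lit 376) (nat_lit 329) (nat_lit 195)) (XT.lf (nat_lit 0) (nat_lit 293071534530) (nat_lit 152) (nat_lit 15864081991) (nat_lit 0) (nat_lit 151095667875) (nat_lit 8) (nat_lit 5) (nat_lit 10) (nat_lit 4) (nat_lit 8) (nat_lit 4) (nat_lit 377) (nat_lit 329) (nat_lit 194))) (XT.nd (nat_lit 78) (nat_lit 0) (nat_lit 0) (XT.lf (nat_lit 0) (nat_lit 121664486078) (nat_lit 76) (nat_lit 255670750764) (nat_lit 76) (nat_lit 113694560749) (nat_lit 7) (nat_lit 4) (nat_lit 8) (nat_lit 5) (nat_lit 8) (nat_lit 4) (nat_lit 378) (nat_lit 329) (nat_lit 193)) (XT.lf (nat_lit 0) (nat_lit 271096931263) (nat_lit 76) (nat_lit 197676537721) (nat_lit 76) (nat_lit 55700048298) (nat_lit 7) (nat_lit 4) (nat_lit 8) (nat_lit 5) (nat_lit 8) (nat_lit 4) (nat_lit 379) (nat_lit 329) (nat_lit 192)))))))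
noncomputable def xc181 : XT := (XT.nd (nat_lit 1248) (nat_lit 76) (nat_lit 0) (XT.nd (nat_lit 624) (nat_lit 152) (nat_lit 0) (XT.nd (nat_lit 312) (nat_lit 76) (nat_lit 0) (XT.nd (nat_lit 156) (nat_lit 0) (nat_lit 0) (XT.nd (nat_lit 78) (nat_lit 76) (nat_lit 0) (XT.lf (nat_lit 0) (nat_lit 6586854472) (nat_lit 152) (nat_lit 128276109349) (nat_lit 76) (nat_lit 425716453974) (nat_lit 6) (nat_lit 5) (nat_lit 8) (nat_lit 5) (nat_lit 7) (nat_lit 4) (nat_lit 380) (nat_lit 329) (nat_lit 191)) (XT.lf (nat_lit 0) (nat_lit 5668681165) (nat_lit 76) (nat_lit 65314830619) (nat_lit 152) (nat_lit 528463654174) (nat_lit 5) (nat_lit 5) (nat_lit 6) (nat_lit 5) (nat_lit 7) (nat_lit 4) (nat_lit 381) (nat_lit 329) (nat_lit 190))) (XT.nd (nat_lit 78) (nat_lit 0) (nat_lit 0) (XT.lf (nat_lit 0) (nat_lit 144365639950) (nat_lit 152) (nat_lit 483846781985) (nat_lit 0) (nat_lit 12905213074) (nat_lit 5) (nat_lit 5)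 (nat_lit 7) (nat_lit 4) (nat_lit 5) (nat_lit 4) (nat_lit 382) (nat_lit 329) (nat_lit 189)) (XT.lf (nat_lit 0) (nat_lit 225314569830) (nat_lit 152) (nat_lit 366817534146) (nat_lit 0) (nat_lit 93853939181) (nat_lit 5) (nat_lit 5) (nat_lit 7) (nat_lit 4) (nat_lit 5) (nat_lit 4) (nat_lit 383) (nat_lit 329) (nat_lit 188)))) (XT.nd (nat_lit 156) (nat_lit 76) (nat_lit 0) (XT.nd (nat_lit 78) (nat_lit 0) (nat_lit 0) (XT.lf (nat_lit 0) (nat_lit 312739175538) (nat_lit 152) (nat_lit 240426411373) (nat_lit 0) (nat_lit 181278356212) (nat_lit 5) (nat_lit 5) (nat_lit 7) (nat_lit 4) (nat_lit 5) (nat_lit 4) (nat_lit 384) (nat_lit 329) (nat_lit 187)) (XT.lf (nat_lit 0) (nat_lit 407157528813) (nat_lit 152) (nat_lit 103924429237) (nat_lit 0) (nat_lit 275696534785) (nat_lit 5) (nat_lit 5) (nat_lit 7) (nat_lit 4) (nat_lit 5) (nat_lit 4) (nat_lit 385) (nat_lit 329) (nat_lit 186))) (XT.nd (nat_lit 78) (nat_lit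 0) (nat_lit 0) (XT.lf (nat_lit 0) (nat_lit 45787804311) (nat_lit 76) (nat_lit 464442539306) (nat_lit 76) (nat_lit 332981383517) (nat_lit 4) (nat_lit 4) (nat_lit 5) (nat_lit 5) (nat_lit 5) (nat_lit 4) (nat_lit 386) (nat_lit 329) (nat_lit 185)) (XT.lf (nat_lit 0) (nat_lit 213386902437) (nat_lit 76) (nat_lit 411003360512) (nat_lit 76) (nat_lit 279542054945) (nat_lit 4) (nat_lit 4) (nat_lit 5) (nat_lit 5) (nat_lit 5) (nat_lit 4) (nat_lit 387) (nat_lit 329) (nat_lit 184))))) (XT.nd (nat_lit 312) (nat_lit 152) (nat_lit 0) (XT.nd (nat_lit 156) (nat_lit 0) (nat_lit 0) (XT.nd (nat_lit 78) (nat_lit 0) (nat_lit 0) (XT.lf (nat_lit 0) (nat_lit 394393568709) (nat_lit 76) (nat_lit 353289223119) (nat_lit 76) (nat_lit 221827778868) (nat_lit 4) (nat_lit 4) (nat_lit 5) (nat_lit 5) (nat_lit 5) (nat_lit 4) (nat_lit 388) (nat_lit 329) (nat_lit 183)) (XT.lf (nat_lit 0) (nat_lit 589880435222) (nat_lit 76) (nat_lit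 290958117424) (nat_lit 76) (nat_lit 159496544762) (nat_lit 4) (nat_lit 4) (nat_lit 5) (nat_lit 5) (nat_lit 5) (nat_lit 4) (nat_lit 389) (nat_lit 329) (nat_lit 182))) (XT.nd (nat_lit 78) (nat_lit 0) (nat_lit 0) (XT.lf (nat_lit 0) (nat_lit 801005942666) (nat_lit 76) (nat_lit 223640673912) (nat_lit 76) (nat_lit 92178982350) (nat_lit 4) (nat_lit 4) (nat_lit 5) (nat_lit 5) (nat_lit 5) (nat_lit 4) (nat_lit 390) (nat_lit 329) (nat_lit 181)) (XT.lf (nat_lit 0) (nat_lit 1029021205161) (nat_lit 76) (nat_lit 150937974398) (nat_lit 76) (nat_lit 19476172745) (nat_lit 4) (nat_lit 4) (nat_lit 5) (nat_lit 5) (nat_lit 5) (nat_lit 4) (nat_lit 391) (nat_lit 329) (nat_lit 180)))) (XT.nd (nat_lit 156) (nat_lit 0) (nat_lit 0) (XT.nd (nat_lit 78) (nat_lit 76) (nat_lit 0) (XT.lf (nat_lit 0) (nat_lit 56089159763) (nat_lit 152) (nat_lit 14796451282) (nat_lit 76) (nat_lit 1217654687472) (nat_lit 3) (nat_lit 5)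 (nat_lit 5) (nat_lit 5) (nat_lit 4) (nat_lit 4) (nat_lit 392) (nat_lit 329) (nat_lit 179)) (XT.lf (nat_lit 0) (nat_lit 141002899278) (nat_lit 152) (nat_lit 1224103012169) (nat_lit 0) (nat_lit 19278827079) (nat_lit 2) (nat_lit 5) (nat_lit 4) (nat_lit 4) (nat_lit 2) (nat_lit 4) (nat_lit 393) (nat_lit 329) (nat_lit 178))) (XT.nd (nat_lit 78) (nat_lit 0) (nat_lit 0) (XT.lf (nat_lit 0) (nat_lit 234965864148) (nat_lit 152) (nat_lit 1139508668499) (nat_lit 0) (nat_lit 113241711028) (nat_lit 2) (nat_lit 5) (nat_lit 4) (nat_lit 4) (nat_lit 2) (nat_lit 4) (nat_lit 394) (nat_lit 329) (nat_lit 177)) (XT.lf (nat_lit 0) (nat_lit 336445747882) (nat_lit 152) (nat_lit 1048147011019) (nat_lit 0) (nat_lit 214721519835) (nat_lit 2) (nat_lit 5) (nat_lit 4) (nat_lit 4) (nat_lit 2) (nat_lit 4) (nat_lit 395) (nat_lit 329) (nat_lit 176)))))) (XT.nd (nat_lit 624) (nat_lit 0) (nat_lit 0) (XT.nd (nat_lit 312) (nat_lit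 76) (nat_lit 0) (XT.nd (nat_lit 156) (nat_lit 0) (nat_lit 0) (XT.nd (nat_lit 78) (nat_lit 0) (nat_lit 0) (XT.lf (nat_lit 0) (nat_lit 446043912753) (nat_lit 152) (nat_lit 949476637314) (nat_lit 0) (nat_lit 324319615330) (nat_lit 2) (nat_lit 5) (nat_lit 4) (nat_lit 4) (nat_lit 2) (nat_lit 4) (nat_lit 396) (nat_lit 329) (nat_lit 175)) (XT.lf (nat_lit 0) (nat_lit 564409829368) (nat_lit 152) (nat_lit 842912834059) (nat_lit 0) (nat_lit 442685467708) (nat_lit 2) (nat_lit 5) (nat_lit 4) (nat_lit 4) (nat_lit 2) (nat_lit 4) (nat_lit 397) (nat_lit 329) (nat_lit 174))) (XT.nd (nat_lit 78) (nat_lit 0) (nat_lit 0) (XT.lf (nat_lit 0) (nat_lit 692244925381) (nat_lit 152) (nat_lit 727824112049) (nat_lit 0) (nat_lit 570520504242) (nat_lit 2) (nat_lit 5) (nat_lit 4) (nat_lit 4) (nat_lit 2) (nat_lit 4) (nat_lit 398) (nat_lit 329) (nat_lit 173)) (XT.lf (nat_lit 0) (nat_lit 830306742103) (nat_lit 152) (nat_lit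 603528464042) (nat_lit 0) (nat_lit 708582265889) (nat_lit 2) (nat_lit 5) (nat_lit 4) (nat_lit 4) (nat_lit 2) (nat_lit 4) (nat_lit 399) (nat_lit 329) (nat_lit 172)))) (XT.nd (nat_lit 156) (nat_lit 76) (nat_lit 0) (XT.nd (nat_lit 78) (nat_lit 0) (nat_lit 0) (XT.lf (nat_lit 0) (nat_lit 979413423630) (nat_lit 152) (nat_lit 469289323236) (nat_lit 0) (nat_lit 857688896424) (nat_lit 2) (nat_lit 5) (nat_lit 4) (nat_lit 4) (nat_lit 2) (nat_lit 4) (nat_lit 400) (nat_lit 329) (nat_lit 171)) (XT.lf (nat_lit 0) (nat_lit 1140448565115) (nat_lit 152) (nat_lit 324311198425) (nat_lit 0) (nat_lit 1018723990692) (nat_lit 2) (nat_lit 5) (nat_lit 4) (nat_lit 4) (nat_lit 2) (nat_lit 4) (nat_lit 401) (nat_lit 329) (nat_lit 170))) (XT.nd (nat_lit 78) (nat_lit 76) (nat_lit 0) (XT.lf (nat_lit 0) (nat_lit 1314366448876) (nat_lit 152) (nat_lit 167734959981) (nat_lit 0) (nat_lit 1192641830734) (nat_lit 2) (nat_lit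 5) (nat_lit 4) (nat_lit 4) (nat_lit 2) (nat_lit 4) (nat_lit 402) (nat_lit 329) (nat_lit 169)) (XT.lf (nat_lit 0) (nat_lit 1439248314) (nat_lit 76) (nat_lit 1500793065052) (nat_lit 76) (nat_lit 1379068406430) (nat_lit 1) (nat_lit 4) (nat_lit 2) (nat_lit 5) (nat_lit 2) (nat_lit 4) (nat_lit 403) (nat_lit 329) (nat_lit 168))))) (XT.nd (nat_lit 41184) (nat_lit 0) (nat_lit 3800) (XT.nd (nat_lit 156) (nat_lit 0) (nat_lit 0) (XT.nd (nat_lit 78) (nat_lit 0) (nat_lit 0) (XT.lf (nat_lit 0) (nat_lit 193686506020) (nat_lit 76) (nat_lit 1516027049903) (nat_lit 76) (nat_lit 1394302353798) (nat_lit 1) (nat_lit 4) (nat_lit 2) (nat_lit 5) (nat_lit 2) (nat_lit 4) (nat_lit 404) (nat_lit 329) (nat_lit 167)) (XT.lf (nat_lit 0) (nat_lit 401313430401) (nat_lit 76) (nat_lit 1532479809934) (nat_lit 76) (nat_lit 1410755079124) (nat_lit 1) (nat_lit 4) (nat_lit 2) (nat_lit 5) (nat_lit 2) (nat_lit 4) (nat_lit 405)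 (nat_lit 329) (nat_lit 166))) (XT.nd (nat_lit 40950) (nat_lit 0) (nat_lit 3800) (XT.lf (nat_lit 0) (nat_lit 625550403232) (nat_lit 76) (nat_lit 1550248842982) (nat_lit 76) (nat_lit 1428524080037) (nat_lit 1) (nat_lit 4) (nat_lit 2) (nat_lit 5) (nat_lit 2) (nat_lit 4) (nat_lit 406) (nat_lit 329) (nat_lit 165)) (XT.lf (nat_lit 0) (nat_lit 14837920814) (nat_lit 532) (nat_lit 2845126617) (nat_lit 532) (nat_lit 2845126617) (nat_lit 51) (nat_lit 3) (nat_lit 58) (nat_lit 3) (nat_lit 58) (nat_lit 5) (nat_lit 330) (nat_lit 330) (nat_lit 240)))) (XT.nd (nat_lit 156) (nat_lit 0) (nat_lit 76) (XT.nd (nat_lit 78) (nat_lit 0) (nat_lit 76) (XT.lf (nat_lit 76) (nat_lit 14272141421) (nat_lit 0) (nat_lit 16969850550) (nat_lit 532) (nat_lit 11426203330) (nat_lit 52) (nat_lit 5) (nat_lit 51) (nat_lit 3) (nat_lit 58) (nat_lit 5) (nat_lit 331) (nat_lit 330) (nat_lit 239)) (XT.lf (nat_lit 0) (nat_lit 33159156556)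 (nat_lit 456) (nat_lit 8317527880) (nat_lit 532) (nat_lit 2914255809) (nat_lit 52) (nat_lit 5) (nat_lit 58) (nat_lit 5) (nat_lit 59) (nat_lit 5) (nat_lit 332) (nat_lit 330) (nat_lit 238))) (XT.nd (nat_lit 78) (nat_lit 0) (nat_lit 0) (XT.lf (nat_lit 76) (nat_lit 13604870756) (nat_lit 0) (nat_lit 22389463316) (nat_lit 532) (nat_lit 10196006699) (nat_lit 53) (nat_lit 5) (nat_lit 52) (nat_lit 5) (nat_lit 59) (nat_lit 5) (nat_lit 333) (nat_lit 330) (nat_lit 237)) (XT.nd (nat_lit 78) (nat_lit 0) (nat_lit 76) (XT.lf (nat_lit 76) (nat_lit 37751937443) (nat_lit 0) (nat_lit 1528666465) (nat_lit 532) (nat_lit 8835153821) (nat_lit 53) (nat_lit 5) (nat_lit 52) (nat_lit 5) (nat_lit 59) (nat_lit 5) (nat_lit 334) (nat_lit 330) (nat_lit 236)) (XT.lf (nat_lit 76) (nat_lit 13819546247) (nat_lit 0) (nat_lit 29844780535) (nat_lit 532) (nat_lit 6464123292) (nat_lit 54) (nat_lit 5) (nat_lit 53) (nat_lit 5)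 (nat_lit 60) (nat_lit 5) (nat_lit 335) (nat_lit 330) (nat_lit 235))))))))
noncomputable def xc182 : XT := (XT.nd (nat_lit 1248) (nat_lit 1140) (nat_lit 0) (XT.nd (nat_lit 624) (nat_lit 760) (nat_lit 0) (XT.nd (nat_lit 312) (nat_lit 456) (nat_lit 0) (XT.nd (nat_lit 156) (nat_lit 304) (nat_lit 0) (XT.nd (nat_lit 78) (nat_lit 456) (nat_lit 0) (XT.lf (nat_lit 76) (nat_lit 40482991837) (nat_lit 0) (nat_lit 8235098726) (nat_lit 532) (nat_lit 3558525487) (nat_lit 54) (nat_lit 5) (nat_lit 53) (nat_lit 5) (nat_lit 60) (nat_lit 5) (nat_lit 336) (nat_lit 330) (nat_lit 234)) (XT.lf (nat_lit 0) (nat_lit 342526099) (nat_lit 532) (nat_lit 39476136272) (nat_lit 76) (nat_lit 14719429068) (nat_lit 47) (nat_lit 5) (nat_lit 54) (nat_lit 5) (nat_lit 48) (nat_lit 5) (nat_lit 337) (nat_lit 330) (nat_lit 233))) (XT.nd (nat_lit 78) (nat_lit 304) (nat_lit 0) (XT.lf (nat_lit 0) (nat_lit 4905699486) (nat_lit 532)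 (nat_lit 12535022738) (nat_lit 76) (nat_lit 39488989577) (nat_lit 47) (nat_lit 5) (nat_lit 54) (nat_lit 5) (nat_lit 48) (nat_lit 5) (nat_lit 338) (nat_lit 330) (nat_lit 232)) (XT.lf (nat_lit 0) (nat_lit 10423573109) (nat_lit 380) (nat_lit 42220790271) (nat_lit 76) (nat_lit 6821130886) (nat_lit 43) (nat_lit 5) (nat_lit 48) (nat_lit 5) (nat_lit 44) (nat_lit 5) (nat_lit 339) (nat_lit 330) (nat_lit 231)))) (XT.nd (nat_lit 156) (nat_lit 228) (nat_lit 0) (XT.nd (nat_lit 78) (nat_lit 228) (nat_lit 0) (XT.lf (nat_lit 0) (nat_lit 17185370908) (nat_lit 380) (nat_lit 12521217654) (nat_lit 76) (nat_lit 32433355096) (nat_lit 43) (nat_lit 5) (nat_lit 48) (nat_lit 5) (nat_lit 44) (nat_lit 5) (nat_lit 340) (nat_lit 330) (nat_lit 230)) (XT.lf (nat_lit 0) (nat_lit 20581798680) (nat_lit 228) (nat_lit 4399322074) (nat_lit 304) (nat_lit 40007791175) (nat_lit 40) (nat_lit 5) (nat_lit 43) (nat_lit 5) (nat_lit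 44) (nat_lit 5) (nat_lit 341) (nat_lit 330) (nat_lit 229))) (XT.nd (nat_lit 78) (nat_lit 228) (nat_lit 0) (XT.lf (nat_lit 0) (nat_lit 34301412002) (nat_lit 304) (nat_lit 11555884418) (nat_lit 76) (nat_lit 22136434049) (nat_lit 40) (nat_lit 5) (nat_lit 44) (nat_lit 5) (nat_lit 41) (nat_lit 5) (nat_lit 342) (nat_lit 330) (nat_lit 228)) (XT.lf (nat_lit 0) (nat_lit 25060775411) (nat_lit 228) (nat_lit 20021780635) (nat_lit 304) (nat_lit 26099163162) (nat_lit 37) (nat_lit 5) (nat_lit 40) (nat_lit 5) (nat_lit 41) (nat_lit 5) (nat_lit 343) (nat_lit 330) (nat_lit 227))))) (XT.nd (nat_lit 312) (nat_lit 304) (nat_lit 0) (XT.nd (nat_lit 156) (nat_lit 304) (nat_lit 0) (XT.nd (nat_lit 78) (nat_lit 152) (nat_lit 0) (XT.lf (nat_lit 0) (nat_lit 57238208038) (nat_lit 304) (nat_lit 9535361420) (nat_lit 76) (nat_lit 7810219122) (nat_lit 37) (nat_lit 5) (nat_lit 41) (nat_lit 5) (nat_lit 38) (nat_lit 5) (nat_lit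 344) (nat_lit 330) (nat_lit 226)) (XT.lf (nat_lit 0) (nat_lit 31006111756) (nat_lit 152) (nat_lit 40624391915) (nat_lit 228) (nat_lit 6526387146) (nat_lit 35) (nat_lit 5) (nat_lit 37) (nat_lit 5) (nat_lit 38) (nat_lit 5) (nat_lit 345) (nat_lit 330) (nat_lit 225))) (XT.nd (nat_lit 78) (nat_lit 228) (nat_lit 0) (XT.lf (nat_lit 0) (nat_lit 5166261726) (nat_lit 228) (nat_lit 6794620640) (nat_lit 76) (nat_lit 70023759578) (nat_lit 34) (nat_lit 5) (nat_lit 37) (nat_lit 5) (nat_lit 35) (nat_lit 5) (nat_lit 346) (nat_lit 330) (nat_lit 224)) (XT.lf (nat_lit 0) (nat_lit 18852690723) (nat_lit 304) (nat_lit 47969379573) (nat_lit 76) (nat_lit 19170106621) (nat_lit 31) (nat_lit 5) (nat_lit 35) (nat_lit 5) (nat_lit 32) (nat_lit 5) (nat_lit 347) (nat_lit 330) (nat_lit 223)))) (XT.nd (nat_lit 156) (nat_lit 152) (nat_lit 0) (XT.nd (nat_lit 78) (nat_lit 152) (nat_lit 0) (XT.lf (nat_lit 0) (nat_lit 34133947725)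 (nat_lit 304) (nat_lit 3810823752) (nat_lit 76) (nat_lit 52335552054) (nat_lit 31) (nat_lit 5) (nat_lit 35) (nat_lit 5) (nat_lit 32) (nat_lit 5) (nat_lit 348) (nat_lit 330) (nat_lit 222)) (XT.lf (nat_lit 0) (nat_lit 46189231127) (nat_lit 152) (nat_lit 5558066161) (nat_lit 228) (nat_lit 43075459021) (nat_lit 29) (nat_lit 5) (nat_lit 31) (nat_lit 5) (nat_lit 32) (nat_lit 5) (nat_lit 349) (nat_lit 330) (nat_lit 221))) (XT.nd (nat_lit 78) (nat_lit 152) (nat_lit 0) (XT.lf (nat_lit 0) (nat_lit 71582937210) (nat_lit 228) (nat_lit 26280130) (nat_lit 76) (nat_lit 28054310237) (nat_lit 29) (nat_lit 5) (nat_lit 32) (nat_lit 5) (nat_lit 30) (nat_lit 5) (nat_lit 350) (nat_lit 330) (nat_lit 220)) (XT.lf (nat_lit 0) (nat_lit 55078776474) (nat_lit 152) (nat_lit 39394533350) (nat_lit 228) (nat_lit 10300821742) (nat_lit 27) (nat_lit 5) (nat_lit 29) (nat_lit 5) (nat_lit 30) (nat_lit 5) (nat_lit 351) (nat_lit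 330) (nat_lit 219)))))) (XT.nd (nat_lit 624) (nat_lit 456) (nat_lit 0) (XT.nd (nat_lit 312) (nat_lit 304) (nat_lit 0) (XT.nd (nat_lit 156) (nat_lit 152) (nat_lit 0) (XT.nd (nat_lit 78) (nat_lit 0) (nat_lit 0) (XT.lf (nat_lit 0) (nat_lit 4299504597) (nat_lit 152) (nat_lit 4259569013) (nat_lit 228) (nat_lit 101709143351) (nat_lit 24) (nat_lit 5) (nat_lit 26) (nat_lit 5) (nat_lit 27) (nat_lit 5) (nat_lit 352) (nat_lit 330) (nat_lit 218)) (XT.lf (nat_lit 0) (nat_lit 30574368647) (nat_lit 228) (nat_lit 51767671126) (nat_lit 76) (nat_lit 33662136732) (nat_lit 24) (nat_lit 5) (nat_lit 27) (nat_lit 5) (nat_lit 25) (nat_lit 5) (nat_lit 353) (nat_lit 330) (nat_lit 217))) (XT.nd (nat_lit 78) (nat_lit 0) (nat_lit 0) (XT.lf (nat_lit 0) (nat_lit 7007785463) (nat_lit 152) (nat_lit 47621272504) (nat_lit 228) (nat_lit 67547702321) (nat_lit 22) (nat_lit 5) (nat_lit 24) (nat_lit 5) (nat_lit 25) (nat_lit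 5) (nat_lit 354) (nat_lit 330) (nat_lit 216)) (XT.lf (nat_lit 0) (nat_lit 73427804498) (nat_lit 152) (nat_lit 8594770140) (nat_lit 228) (nat_lit 46707421007) (nat_lit 22) (nat_lit 5) (nat_lit 24) (nat_lit 5) (nat_lit 25) (nat_lit 5) (nat_lit 355) (nat_lit 330) (nat_lit 215)))) (XT.nd (nat_lit 156) (nat_lit 152) (nat_lit 0) (XT.nd (nat_lit 78) (nat_lit 76) (nat_lit 0) (XT.lf (nat_lit 0) (nat_lit 8995461139) (nat_lit 76) (nat_lit 103634514622) (nat_lit 152) (nat_lit 23095722788) (nat_lit 21) (nat_lit 5) (nat_lit 22) (nat_lit 5) (nat_lit 23) (nat_lit 4) (nat_lit 356) (nat_lit 330) (nat_lit 214)) (XT.lf (nat_lit 0) (nat_lit 4058282684) (nat_lit 152) (nat_lit 61899938885) (nat_lit 76) (nat_lit 77176315911) (nat_lit 20) (nat_lit 5) (nat_lit 22) (nat_lit 5) (nat_lit 21) (nat_lit 5) (nat_lit 357) (nat_lit 330) (nat_lit 213))) (XT.nd (nat_lit 78) (nat_lit 0) (nat_lit 0) (XT.lf (nat_lit 0) (nat_lit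 7911256046) (nat_lit 152) (nat_lit 24415016031) (nat_lit 228) (nat_lit 118746666512) (nat_lit 18) (nat_lit 5) (nat_lit 20) (nat_lit 5) (nat_lit 21) (nat_lit 5) (nat_lit 358) (nat_lit 330) (nat_lit 212)) (XT.lf (nat_lit 0) (nat_lit 65083159415) (nat_lit 228) (nat_lit 73220595139) (nat_lit 76) (nat_lit 21164461243) (nat_lit 18) (nat_lit 5) (nat_lit 21) (nat_lit 5) (nat_lit 19) (nat_lit 4) (nat_lit 359) (nat_lit 330) (nat_lit 211))))) (XT.nd (nat_lit 312) (nat_lit 228) (nat_lit 0) (XT.nd (nat_lit 156) (nat_lit 152) (nat_lit 0) (XT.nd (nat_lit 78) (nat_lit 0) (nat_lit 0) (XT.lf (nat_lit 0) (nat_lit 1768801738) (nat_lit 76) (nat_lit 99367734898) (nat_lit 152) (nat_lit 67344504092) (nat_lit 17) (nat_lit 5) (nat_lit 18) (nat_lit 5) (nat_lit 19) (nat_lit 4) (nat_lit 360) (nat_lit 330) (nat_lit 210)) (XT.lf (nat_lit 0) (nat_lit 86920199616) (nat_lit 76) (nat_lit 55155233678) (nat_lit 152) (nat_lit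 35979359031) (nat_lit 17) (nat_lit 5) (nat_lit 18) (nat_lit 5) (nat_lit 19) (nat_lit 4) (nat_lit 361) (nat_lit 330) (nat_lit 209))) (XT.nd (nat_lit 78) (nat_lit 152) (nat_lit 0) (XT.lf (nat_lit 0) (nat_lit 178882532588) (nat_lit 76) (nat_lit 7406231715) (nat_lit 152) (nat_lit 2105734502) (nat_lit 17) (nat_lit 5) (nat_lit 18) (nat_lit 5) (nat_lit 19) (nat_lit 4) (nat_lit 362) (nat_lit 330) (nat_lit 208)) (XT.lf (nat_lit 0) (nat_lit 35857100454) (nat_lit 152) (nat_lit 118564813758) (nat_lit 76) (nat_lit 44824809670) (nat_lit 15) (nat_lit 5) (nat_lit 17) (nat_lit 5) (nat_lit 16) (nat_lit 4) (nat_lit 363) (nat_lit 330) (nat_lit 207)))) (XT.nd (nat_lit 156) (nat_lit 152) (nat_lit 0) (XT.nd (nat_lit 78) (nat_lit 76) (nat_lit 0) (XT.lf (nat_lit 0) (nat_lit 77201762678) (nat_lit 152) (nat_lit 32569024147) (nat_lit 76) (nat_lit 101155279849) (nat_lit 15) (nat_lit 5) (nat_lit 17) (nat_lit 5) (nat_lit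 16) (nat_lit 4) (nat_lit 364) (nat_lit 330) (nat_lit 206)) (XT.lf (nat_lit 0) (nat_lit 63480952610) (nat_lit 76) (nat_lit 59899176660) (nat_lit 152) (nat_lit 100037537525) (nat_lit 14) (nat_lit 5) (nat_lit 15) (nat_lit 5) (nat_lit 16) (nat_lit 4) (nat_lit 365) (nat_lit 330) (nat_lit 205))) (XT.nd (nat_lit 78) (nat_lit 152) (nat_lit 0) (XT.lf (nat_lit 0) (nat_lit 169066132993) (nat_lit 76) (nat_lit 5076558852) (nat_lit 152) (nat_lit 62694709333) (nat_lit 14) (nat_lit 5) (nat_lit 15) (nat_lit 5) (nat_lit 16) (nat_lit 4) (nat_lit 366) (nat_lit 330) (nat_lit 204)) (XT.nd (nat_lit 78) (nat_lit 76) (nat_lit 0) (XT.lf (nat_lit 0) (nat_lit 32068770286) (nat_lit 76) (nat_lit 198970080333) (nat_lit 76) (nat_lit 20126056754) (nat_lit 13) (nat_lit 4) (nat_lit 14) (nat_lit 5) (nat_lit 14) (nat_lit 4) (nat_lit 367) (nat_lit 330) (nat_lit 203)) (XT.lf (nat_lit 0) (nat_lit 26587503444) (nat_lit 152)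 (nat_lit 123542770375) (nat_lit 76) (nat_lit 116296013461) (nat_lit 12) (nat_lit 5) (nat_lit 14) (nat_lit 5) (nat_lit 13) (nat_lit 4) (nat_lit 368) (nat_lit 330) (nat_lit 202))))))))
noncomputable def xc183 : XT := (XT.nd (nat_lit 1248) (nat_lit 228) (nat_lit 0) (XT.nd (nat_lit 624) (nat_lit 228) (nat_lit 0) (XT.nd (nat_lit 312) (nat_lit 152) (nat_lit 0) (XT.nd (nat_lit 156) (nat_lit 76) (nat_lit 0) (XT.nd (nat_lit 78) (nat_lit 76) (nat_lit 0) (XT.lf (nat_lit 0) (nat_lit 75950324839) (nat_lit 152) (nat_lit 20868799985) (nat_lit 76) (nat_lit 186047672165) (nat_lit 12) (nat_lit 5) (nat_lit 14) (nat_lit 5) (nat_lit 13) (nat_lit 4) (nat_lit 369) (nat_lit 330) (nat_lit 201)) (XT.lf (nat_lit 0) (nat_lit 94758445807) (nat_lit 76) (nat_lit 36782211816) (nat_lit 152) (nat_lit 168899611260) (nat_lit 11) (nat_lit 5) (nat_lit 12) (nat_lit 5) (nat_lit 13) (nat_lit 4) (nat_lit 370) (nat_lit 330) (nat_lit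 200))) (XT.nd (nat_lit 78) (nat_lit 76) (nat_lit 0) (XT.lf (nat_lit 0) (nat_lit 192837962543) (nat_lit 152) (nat_lit 99241729385) (nat_lit 0) (nat_lit 27239147202) (nat_lit 11) (nat_lit 5) (nat_lit 13) (nat_lit 4) (nat_lit 11) (nat_lit 4) (nat_lit 371) (nat_lit 330) (nat_lit 199)) (XT.lf (nat_lit 0) (nat_lit 15534502590) (nat_lit 76) (nat_lit 244833117810) (nat_lit 76) (nat_lit 79233789337) (nat_lit 10) (nat_lit 4) (nat_lit 11) (nat_lit 5) (nat_lit 11) (nat_lit 4) (nat_lit 372) (nat_lit 330) (nat_lit 198)))) (XT.nd (nat_lit 156) (nat_lit 76) (nat_lit 0) (XT.nd (nat_lit 78) (nat_lit 76) (nat_lit 0) (XT.lf (nat_lit 0) (nat_lit 145136032284) (nat_lit 76) (nat_lit 190876657212) (nat_lit 76) (nat_lit 25276853616) (nat_lit 10) (nat_lit 4) (nat_lit 11) (nat_lit 5) (nat_lit 11) (nat_lit 4) (nat_lit 373) (nat_lit 330) (nat_lit 197)) (XT.lf (nat_lit 0) (nat_lit 31345625533) (nat_lit 152) (nat_lit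 100401342414) (nat_lit 76) (nat_lit 252902304676) (nat_lit 9) (nat_lit 5) (nat_lit 11) (nat_lit 5) (nat_lit 10) (nat_lit 4) (nat_lit 374) (nat_lit 330) (nat_lit 196))) (XT.nd (nat_lit 78) (nat_lit 0) (nat_lit 0) (XT.lf (nat_lit 0) (nat_lit 25215145897) (nat_lit 76) (nat_lit 66523217931) (nat_lit 152) (nat_lit 318038408105) (nat_lit 8) (nat_lit 5) (nat_lit 9) (nat_lit 5) (nat_lit 10) (nat_lit 4) (nat_lit 375) (nat_lit 330) (nat_lit 195)) (XT.lf (nat_lit 0) (nat_lit 159872858537) (nat_lit 152) (nat_lit 270270212494) (nat_lit 0) (nat_lit 6538573321) (nat_lit 8) (nat_lit 5) (nat_lit 10) (nat_lit 4) (nat_lit 8) (nat_lit 4) (nat_lit 376) (nat_lit 330) (nat_lit 194))))) (XT.nd (nat_lit 312) (nat_lit 152) (nat_lit 0) (XT.nd (nat_lit 156) (nat_lit 76) (nat_lit 0) (XT.nd (nat_lit 78) (nat_lit 0) (nat_lit 0) (XT.lf (nat_lit 0) (nat_lit 235185660579) (nat_lit 152) (nat_lit 148563990303) (nat_lit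 0) (nat_lit 81851052002) (nat_lit 8) (nat_lit 5) (nat_lit 10) (nat_lit 4) (nat_lit 8) (nat_lit 4) (nat_lit 377) (nat_lit 330) (nat_lit 193)) (XT.lf (nat_lit 0) (nat_lit 316523183050) (nat_lit 152) (nat_lit 17121852416) (nat_lit 0) (nat_lit 163188275064) (nat_lit 8) (nat_lit 5) (nat_lit 10) (nat_lit 4) (nat_lit 8) (nat_lit 4) (nat_lit 378) (nat_lit 330) (nat_lit 192))) (XT.nd (nat_lit 78) (nat_lit 0) (nat_lit 0) (XT.lf (nat_lit 0) (nat_lit 131408713601) (nat_lit 76) (nat_lit 276119095202) (nat_lit 76) (nat_lit 122783909987) (nat_lit 7) (nat_lit 4) (nat_lit 8) (nat_lit 5) (nat_lit 8) (nat_lit 4) (nat_lit 379) (nat_lit 330) (nat_lit 191)) (XT.lf (nat_lit 0) (nat_lit 292794934502) (nat_lit 76) (nat_lit 213485738865) (nat_lit 76) (nat_lit 60150296956) (nat_lit 7) (nat_lit 4) (nat_lit 8) (nat_lit 5) (nat_lit 8) (nat_lit 4) (nat_lit 380) (nat_lit 330) (nat_lit 190)))) (XT.nd (nat_lit 156) (nat_lit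 0) (nat_lit 0) (XT.nd (nat_lit 78) (nat_lit 76) (nat_lit 0) (XT.lf (nat_lit 0) (nat_lit 7118865151) (nat_lit 152) (nat_lit 138528440072) (nat_lit 76) (nat_lit 459778059130) (nat_lit 6) (nat_lit 5) (nat_lit 8) (nat_lit 5) (nat_lit 7) (nat_lit 4) (nat_lit 381) (nat_lit 330) (nat_lit 189)) (XT.lf (nat_lit 0) (nat_lit 6131686644) (nat_lit 76) (nat_lit 70535422156) (nat_lit 152) (nat_lit 570735435408) (nat_lit 5) (nat_lit 5) (nat_lit 6) (nat_lit 5) (nat_lit 7) (nat_lit 4) (nat_lit 382) (nat_lit 330) (nat_lit 188))) (XT.nd (nat_lit 78) (nat_lit 0) (nat_lit 0) (XT.lf (nat_lit 0) (nat_lit 155919545388) (nat_lit 152) (nat_lit 522545454633) (nat_lit 0) (nat_lit 13941671838) (nat_lit 5) (nat_lit 5) (nat_lit 7) (nat_lit 4) (nat_lit 5) (nat_lit 4) (nat_lit 383) (nat_lit 330) (nat_lit 187)) (XT.lf (nat_lit 0) (nat_lit 243344044900) (nat_lit 152) (nat_lit 396154538812) (nat_lit 0) (nat_lit 101365996648)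 (nat_lit 5) (nat_lit 5) (nat_lit 7) (nat_lit 4) (nat_lit 5) (nat_lit 4) (nat_lit 384) (nat_lit 330) (nat_lit 186)))))) (XT.nd (nat_lit 624) (nat_lit 152) (nat_lit 0) (XT.nd (nat_lit 312) (nat_lit 0) (nat_lit 0) (XT.nd (nat_lit 156) (nat_lit 76) (nat_lit 0) (XT.nd (nat_lit 78) (nat_lit 0) (nat_lit 0) (XT.lf (nat_lit 0) (nat_lit 337762299844) (nat_lit 152) (nat_lit 259652748297) (nat_lit 0) (nat_lit 195784089831) (nat_lit 5) (nat_lit 5) (nat_lit 7) (nat_lit 4) (nat_lit 5) (nat_lit 4) (nat_lit 385) (nat_lit 330) (nat_lit 185)) (XT.lf (nat_lit 0) (nat_lit 439733825806) (nat_lit 152) (nat_lit 112231183588) (nat_lit 0) (nat_lit 297755466014) (nat_lit 5) (nat_lit 5) (nat_lit 7) (nat_lit 4) (nat_lit 5) (nat_lit 4) (nat_lit 386) (nat_lit 330) (nat_lit 184))) (XT.nd (nat_lit 78) (nat_lit 0) (nat_lit 0) (XT.lf (nat_lit 0) (nat_lit 49457846365) (nat_lit 76) (nat_lit 501594514524) (nat_lit 76) (nat_lit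 359616016049) (nat_lit 4) (nat_lit 4) (nat_lit 5) (nat_lit 5) (nat_lit 5) (nat_lit 4) (nat_lit 387) (nat_lit 330) (nat_lit 183)) (XT.lf (nat_lit 0) (nat_lit 230464352511) (nat_lit 76) (nat_lit 443880455347) (nat_lit 76) (nat_lit 301901828461) (nat_lit 4) (nat_lit 4) (nat_lit 5) (nat_lit 5) (nat_lit 5) (nat_lit 4) (nat_lit 388) (nat_lit 330) (nat_lit 182)))) (XT.nd (nat_lit 156) (nat_lit 0) (nat_lit 0) (XT.nd (nat_lit 78) (nat_lit 0) (nat_lit 0) (XT.lf (nat_lit 0) (nat_lit 425951070760) (nat_lit 76) (nat_lit 381549422074) (nat_lit 76) (nat_lit 239570676289) (nat_lit 4) (nat_lit 4) (nat_lit 5) (nat_lit 5) (nat_lit 5) (nat_lit 4) (nat_lit 389) (nat_lit 330) (nat_lit 181)) (XT.lf (nat_lit 0) (nat_lit 637076440923) (nat_lit 76) (nat_lit 314232045619) (nat_lit 76) (nat_lit 172253189743) (nat_lit 4) (nat_lit 4) (nat_lit 5) (nat_lit 5) (nat_lit 5) (nat_lit 4) (nat_lit 390) (nat_lit 330) (nat_lit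 180))) (XT.nd (nat_lit 78) (nat_lit 0) (nat_lit 0) (XT.lf (nat_lit 0) (nat_lit 865091576306) (nat_lit 76) (nat_lit 241529408196) (nat_lit 76) (nat_lit 99550450383) (nat_lit 4) (nat_lit 4) (nat_lit 5) (nat_lit 5) (nat_lit 5) (nat_lit 4) (nat_lit 391) (nat_lit 330) (nat_lit 179)) (XT.lf (nat_lit 0) (nat_lit 1111347677709) (nat_lit 76) (nat_lit 163010679361) (nat_lit 76) (nat_lit 21031627161) (nat_lit 4) (nat_lit 4) (nat_lit 5) (nat_lit 5) (nat_lit 5) (nat_lit 4) (nat_lit 392) (nat_lit 330) (nat_lit 178))))) (XT.nd (nat_lit 312) (nat_lit 0) (nat_lit 0) (XT.nd (nat_lit 156) (nat_lit 0) (nat_lit 0) (XT.nd (nat_lit 78) (nat_lit 76) (nat_lit 0) (XT.lf (nat_lit 0) (nat_lit 60578614182) (nat_lit 152) (nat_lit 15975622093) (nat_lit 76) (nat_lit 1315069099701) (nat_lit 3) (nat_lit 5) (nat_lit 5) (nat_lit 5) (nat_lit 4) (nat_lit 4) (nat_lit 393) (nat_lit 330) (nat_lit 177)) (XT.lf (nat_lit 0) (nat_lit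 152285439718) (nat_lit 152) (nat_lit 1322026694069) (nat_lit 0) (nat_lit 20823198501) (nat_lit 2) (nat_lit 5) (nat_lit 4) (nat_lit 4) (nat_lit 2) (nat_lit 4) (nat_lit 394) (nat_lit 330) (nat_lit 176))) (XT.nd (nat_lit 78) (nat_lit 0) (nat_lit 0) (XT.lf (nat_lit 0) (nat_lit 253765270778) (nat_lit 152) (nat_lit 1230665140615) (nat_lit 0) (nat_lit 122302960185) (nat_lit 2) (nat_lit 5) (nat_lit 4) (nat_lit 4) (nat_lit 2) (nat_lit 4) (nat_lit 395) (nat_lit 330) (nat_lit 175)) (XT.lf (nat_lit 0) (nat_lit 363363386877) (nat_lit 152) (nat_lit 1131994863230) (nat_lit 0) (nat_lit 231901012046) (nat_lit 2) (nat_lit 5) (nat_lit 4) (nat_lit 4) (nat_lit 2) (nat_lit 4) (nat_lit 396) (nat_lit 330) (nat_lit 174)))) (XT.nd (nat_lit 156) (nat_lit 0) (nat_lit 0) (XT.nd (nat_lit 78) (nat_lit 0) (nat_lit 0) (XT.lf (nat_lit 0) (nat_lit 481729258333) (nat_lit 152) (nat_lit 1025431149160) (nat_lit 0) (nat_lit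 350266824023) (nat_lit 2) (nat_lit 5) (nat_lit 4) (nat_lit 4) (nat_lit 2) (nat_lit 4) (nat_lit 397) (nat_lit 330) (nat_lit 173)) (XT.lf (nat_lit 0) (nat_lit 609564312532) (nat_lit 152) (nat_lit 910342509729) (nat_lit 0) (nat_lit 478101823149) (nat_lit 2) (nat_lit 5) (nat_lit 4) (nat_lit 4) (nat_lit 2) (nat_lit 4) (nat_lit 398) (nat_lit 330) (nat_lit 172))) (XT.nd (nat_lit 78) (nat_lit 0) (nat_lit 0) (XT.lf (nat_lit 0) (nat_lit 747626090537) (nat_lit 152) (nat_lit 786046938184) (nat_lit 0) (nat_lit 616163550160) (nat_lit 2) (nat_lit 5) (nat_lit 4) (nat_lit 4) (nat_lit 2) (nat_lit 4) (nat_lit 399) (nat_lit 330) (nat_lit 171)) (XT.nd (nat_lit 78) (nat_lit 0) (nat_lit 0) (XT.lf (nat_lit 0) (nat_lit 896732736216) (nat_lit 152) (nat_lit 651807868176) (nat_lit 0) (nat_lit 765270148622) (nat_lit 2) (nat_lit 5) (nat_lit 4) (nat_lit 4) (nat_lit 2) (nat_lit 4) (nat_lit 400) (nat_lit 330) (nat_lit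 170)) (XT.lf (nat_lit 0) (nat_lit 1057767844507) (nat_lit 152) (nat_lit 506829808919) (nat_lit 0) (nat_lit 926305213195) (nat_lit 2) (nat_lit 5) (nat_lit 4) (nat_lit 4) (nat_lit 2) (nat_lit 4) (nat_lit 401) (nat_lit 330) (nat_lit 169))))))))
noncomputable def xc184 : XT := (XT.nd (nat_lit 42198) (nat_lit 0) (nat_lit 1520) (XT.nd (nat_lit 41574) (nat_lit 0) (nat_lit 3192) (XT.nd (nat_lit 312) (nat_lit 0) (nat_lit 0) (XT.nd (nat_lit 156) (nat_lit 76) (nat_lit 0) (XT.nd (nat_lit 78) (nat_lit 0) (nat_lit 0) (XT.lf (nat_lit 0) (nat_lit 1231685697534) (nat_lit 152) (nat_lit 350253631174) (nat_lit 0) (nat_lit 1100223025741) (nat_lit 2) (nat_lit 5) (nat_lit 4) (nat_lit 4) (nat_lit 2) (nat_lit 4) (nat_lit 402) (nat_lit 330) (nat_lit 168)) (XT.lf (nat_lit 0) (nat_lit 1419516919610) (nat_lit 152) (nat_lit 181151476108) (nat_lit 0) (nat_lit 1288054210335) (nat_lit 2) (nat_lit 5) (nat_lit 4) (nat_lit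 4) (nat_lit 2) (nat_lit 4) (nat_lit 403) (nat_lit 330) (nat_lit 167))) (XT.nd (nat_lit 78) (nat_lit 0) (nat_lit 0) (XT.lf (nat_lit 0) (nat_lit 1556611113) (nat_lit 76) (nat_lit 1620855410066) (nat_lit 76) (nat_lit 1489392666086) (nat_lit 1) (nat_lit 4) (nat_lit 2) (nat_lit 5) (nat_lit 2) (nat_lit 4) (nat_lit 404) (nat_lit 330) (nat_lit 166)) (XT.lf (nat_lit 0) (nat_lit 209183484773) (nat_lit 76) (nat_lit 1637308195200) (nat_lit 76) (nat_lit 1505845419085) (nat_lit 1) (nat_lit 4) (nat_lit 2) (nat_lit 5) (nat_lit 2) (nat_lit 4) (nat_lit 405) (nat_lit 330) (nat_lit 165)))) (XT.nd (nat_lit 41106) (nat_lit 0) (nat_lit 3800) (XT.nd (nat_lit 41028) (nat_lit 0) (nat_lit 3800) (XT.lf (nat_lit 0) (nat_lit 433420410640) (nat_lit 76) (nat_lit 1655077251493) (nat_lit 76) (nat_lit 1523614445623) (nat_lit 1) (nat_lit 4) (nat_lit 2) (nat_lit 5) (nat_lit 2) (nat_lit 4) (nat_lit 406) (nat_lit 330) (nat_lit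 164)) (XT.lf (nat_lit 0) (nat_lit 16059963105) (nat_lit 532) (nat_lit 3053794325) (nat_lit 532) (nat_lit 3053794325) (nat_lit 51) (nat_lit 3) (nat_lit 58) (nat_lit 3) (nat_lit 58) (nat_lit 5) (nat_lit 331) (nat_lit 331) (nat_lit 238))) (XT.nd (nat_lit 78) (nat_lit 0) (nat_lit 76) (XT.lf (nat_lit 76) (nat_lit 15450838466) (nat_lit 0) (nat_lit 18356231714) (nat_lit 532) (nat_lit 12269183372) (nat_lit 52) (nat_lit 5) (nat_lit 51) (nat_lit 3) (nat_lit 58) (nat_lit 5) (nat_lit 332) (nat_lit 331) (nat_lit 237)) (XT.lf (nat_lit 0) (nat_lit 35872098689) (nat_lit 456) (nat_lit 8943100871) (nat_lit 532) (nat_lit 3122069632) (nat_lit 52) (nat_lit 5) (nat_lit 58) (nat_lit 5) (nat_lit 59) (nat_lit 5) (nat_lit 333) (nat_lit 331) (nat_lit 236))))) (XT.nd (nat_lit 312) (nat_lit 684) (nat_lit 0) (XT.nd (nat_lit 156) (nat_lit 0) (nat_lit 76) (XT.nd (nat_lit 78) (nat_lit 0) (nat_lit 0) (XT.lf (nat_lit 76)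 (nat_lit 14732081321) (nat_lit 0) (nat_lit 24198482758) (nat_lit 532) (nat_lit 10950349381) (nat_lit 53) (nat_lit 5) (nat_lit 52) (nat_lit 5) (nat_lit 59) (nat_lit 5) (nat_lit 334) (nat_lit 331) (nat_lit 235)) (XT.lf (nat_lit 76) (nat_lit 40808037720) (nat_lit 0) (nat_lit 1667499020) (nat_lit 532) (nat_lit 9485171817) (nat_lit 53) (nat_lit 5) (nat_lit 52) (nat_lit 5) (nat_lit 59) (nat_lit 5) (nat_lit 335) (nat_lit 331) (nat_lit 234))) (XT.nd (nat_lit 78) (nat_lit 0) (nat_lit 0) (XT.lf (nat_lit 76) (nat_lit 14964733601) (nat_lit 0) (nat_lit 32241920746) (nat_lit 532) (nat_lit 6928034415) (nat_lit 54) (nat_lit 5) (nat_lit 53) (nat_lit 5) (nat_lit 60) (nat_lit 5) (nat_lit 336) (nat_lit 331) (nat_lit 233)) (XT.lf (nat_lit 76) (nat_lit 43758319753) (nat_lit 0) (nat_lit 8902756410) (nat_lit 532) (nat_lit 3793930914) (nat_lit 54) (nat_lit 5) (nat_lit 53) (nat_lit 5) (nat_lit 60) (nat_lit 5)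 (nat_lit 337) (nat_lit 331) (nat_lit 232)))) (XT.nd (nat_lit 156) (nat_lit 304) (nat_lit 0) (XT.nd (nat_lit 78) (nat_lit 0) (nat_lit 0) (XT.lf (nat_lit 0) (nat_lit 414047452) (nat_lit 532) (nat_lit 42592211511) (nat_lit 76) (nat_lit 15891268642) (nat_lit 47) (nat_lit 5) (nat_lit 54) (nat_lit 5) (nat_lit 48) (nat_lit 5) (nat_lit 338) (nat_lit 331) (nat_lit 231)) (XT.lf (nat_lit 0) (nat_lit 5339006616) (nat_lit 532) (nat_lit 13498921165) (nat_lit 76) (nat_lit 42642817307) (nat_lit 47) (nat_lit 5) (nat_lit 54) (nat_lit 5) (nat_lit 48) (nat_lit 5) (nat_lit 339) (nat_lit 331) (nat_lit 230))) (XT.nd (nat_lit 78) (nat_lit 0) (nat_lit 0) (XT.lf (nat_lit 0) (nat_lit 11296176369) (nat_lit 380) (nat_lit 45557346375) (nat_lit 76) (nat_lit 7366043703) (nat_lit 43) (nat_lit 5) (nat_lit 48) (nat_lit 5) (nat_lit 44) (nat_lit 5) (nat_lit 340) (nat_lit 331) (nat_lit 229)) (XT.lf (nat_lit 0) (nat_lit 18596050035)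 (nat_lit 380) (nat_lit 13484852921) (nat_lit 76) (nat_lit 35027303454) (nat_lit 43) (nat_lit 5) (nat_lit 48) (nat_lit 5) (nat_lit 44) (nat_lit 5) (nat_lit 341) (nat_lit 331) (nat_lit 228)))))) (XT.nd (nat_lit 624) (nat_lit 760) (nat_lit 0) (XT.nd (nat_lit 312) (nat_lit 456) (nat_lit 0) (XT.nd (nat_lit 156) (nat_lit 228) (nat_lit 0) (XT.nd (nat_lit 78) (nat_lit 0) (nat_lit 0) (XT.lf (nat_lit 0) (nat_lit 22265441122) (nat_lit 228) (nat_lit 4748255453) (nat_lit 304) (nat_lit 43171541430) (nat_lit 40) (nat_lit 5) (nat_lit 43) (nat_lit 5) (nat_lit 44) (nat_lit 5) (nat_lit 342) (nat_lit 331) (nat_lit 227)) (XT.lf (nat_lit 0) (nat_lit 37077153304) (nat_lit 304) (nat_lit 12443491304) (nat_lit 76) (nat_lit 23909998491) (nat_lit 40) (nat_lit 5) (nat_lit 44) (nat_lit 5) (nat_lit 41) (nat_lit 5) (nat_lit 343) (nat_lit 331) (nat_lit 226))) (XT.nd (nat_lit 78) (nat_lit 0) (nat_lit 0) (XT.lf (nat_lit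 0) (nat_lit 27101568050) (nat_lit 228) (nat_lit 21617742114) (nat_lit 304) (nat_lit 28154483184) (nat_lit 37) (nat_lit 5) (nat_lit 40) (nat_lit 5) (nat_lit 41) (nat_lit 5) (nat_lit 344) (nat_lit 331) (nat_lit 225)) (XT.lf (nat_lit 0) (nat_lit 61845309742) (nat_lit 304) (nat_lit 10262769064) (nat_lit 76) (nat_lit 8440121637) (nat_lit 37) (nat_lit 5) (nat_lit 41) (nat_lit 5) (nat_lit 38) (nat_lit 5) (nat_lit 345) (nat_lit 331) (nat_lit 224)))) (XT.nd (nat_lit 156) (nat_lit 228) (nat_lit 0) (XT.nd (nat_lit 78) (nat_lit 76) (nat_lit 0) (XT.lf (nat_lit 0) (nat_lit 33521125225) (nat_lit 152) (nat_lit 43866616705) (nat_lit 228) (nat_lit 7019512225) (nat_lit 35) (nat_lit 5) (nat_lit 37) (nat_lit 5) (nat_lit 38) (nat_lit 5) (nat_lit 346) (nat_lit 331) (nat_lit 223)) (XT.lf (nat_lit 0) (nat_lit 5605058869) (nat_lit 228) (nat_lit 7304842749) (nat_lit 76) (nat_lit 75631434184) (nat_lit 34) (nat_lit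 5) (nat_lit 37) (nat_lit 5) (nat_lit 35) (nat_lit 5) (nat_lit 347) (nat_lit 331) (nat_lit 222))) (XT.nd (nat_lit 78) (nat_lit 0) (nat_lit 0) (XT.lf (nat_lit 0) (nat_lit 20385490425) (nat_lit 304) (nat_lit 51772635636) (nat_lit 76) (nat_lit 20711423254) (nat_lit 31) (nat_lit 5) (nat_lit 35) (nat_lit 5) (nat_lit 32) (nat_lit 5) (nat_lit 348) (nat_lit 331) (nat_lit 221)) (XT.lf (nat_lit 0) (nat_lit 36887426917) (nat_lit 304) (nat_lit 4083935668) (nat_lit 76) (nat_lit 56529533351) (nat_lit 31) (nat_lit 5) (nat_lit 35) (nat_lit 5) (nat_lit 32) (nat_lit 5) (nat_lit 349) (nat_lit 331) (nat_lit 220))))) (XT.nd (nat_lit 312) (nat_lit 228) (nat_lit 0) (XT.nd (nat_lit 156) (nat_lit 228) (nat_lit 0) (XT.nd (nat_lit 78) (nat_lit 152) (nat_lit 0) (XT.lf (nat_lit 0) (nat_lit 49915319703) (nat_lit 152) (nat_lit 5993582916) (nat_lit 228) (nat_lit 46497898463) (nat_lit 29) (nat_lit 5) (nat_lit 31) (nat_lit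 5) (nat_lit 32) (nat_lit 5) (nat_lit 350) (nat_lit 331) (nat_lit 219)) (XT.lf (nat_lit 0) (nat_lit 1806216) (nat_lit 152) (nat_lit 77328217826) (nat_lit 228) (nat_lit 30304921808) (nat_lit 27) (nat_lit 5) (nat_lit 29) (nat_lit 5) (nat_lit 30) (nat_lit 5) (nat_lit 351) (nat_lit 331) (nat_lit 218))) (XT.nd (nat_lit 78) (nat_lit 228) (nat_lit 0) (XT.lf (nat_lit 0) (nat_lit 59514415010) (nat_lit 152) (nat_lit 42536361824) (nat_lit 228) (nat_lit 11103691353) (nat_lit 27) (nat_lit 5) (nat_lit 29) (nat_lit 5) (nat_lit 30) (nat_lit 5) (nat_lit 352) (nat_lit 331) (nat_lit 217)) (XT.lf (nat_lit 0) (nat_lit 4673115380) (nat_lit 152) (nat_lit 4590041483) (nat_lit 228) (nat_lit 109824946810) (nat_lit 24) (nat_lit 5) (nat_lit 26) (nat_lit 5) (nat_lit 27) (nat_lit 5) (nat_lit 353) (nat_lit 331) (nat_lit 216)))) (XT.nd (nat_lit 156) (nat_lit 76) (nat_lit 0) (XT.nd (nat_lit 78) (nat_lit 152) (nat_lit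 0) (XT.lf (nat_lit 0) (nat_lit 33038470835) (nat_lit 228) (nat_lit 55880405638) (nat_lit 76) (nat_lit 36364161514) (nat_lit 24) (nat_lit 5) (nat_lit 27) (nat_lit 5) (nat_lit 25) (nat_lit 5) (nat_lit 354) (nat_lit 331) (nat_lit 215)) (XT.lf (nat_lit 0) (nat_lit 7596361423) (nat_lit 152) (nat_lit 51420501506) (nat_lit 228) (nat_lit 72932620846) (nat_lit 22) (nat_lit 5) (nat_lit 24) (nat_lit 5) (nat_lit 25) (nat_lit 5) (nat_lit 355) (nat_lit 331) (nat_lit 214))) (XT.nd (nat_lit 78) (nat_lit 76) (nat_lit 0) (XT.lf (nat_lit 0) (nat_lit 79327911379) (nat_lit 152) (nat_lit 9272654716) (nat_lit 228) (nat_lit 50426516853) (nat_lit 22) (nat_lit 5) (nat_lit 24) (nat_lit 5) (nat_lit 25) (nat_lit 5) (nat_lit 356) (nat_lit 331) (nat_lit 213)) (XT.lf (nat_lit 0) (nat_lit 9741377112) (nat_lit 76) (nat_lit 111914831223) (nat_lit 152) (nat_lit 24926263125) (nat_lit 21) (nat_lit 5) (nat_lit 22) (nat_lit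 5) (nat_lit 23) (nat_lit 4) (nat_lit 357) (nat_lit 331) (nat_lit 212)))))))
noncomputable def xc185 : XT := (XT.nd (nat_lit 1248) (nat_lit 456) (nat_lit 0) (XT.nd (nat_lit 624) (nat_lit 380) (nat_lit 0) (XT.nd (nat_lit 312) (nat_lit 152) (nat_lit 0) (XT.nd (nat_lit 156) (nat_lit 76) (nat_lit 0) (XT.nd (nat_lit 78) (nat_lit 152) (nat_lit 0) (XT.lf (nat_lit 0) (nat_lit 4398001966) (nat_lit 152) (nat_lit 66826794756) (nat_lit 76) (nat_lit 83359285324) (nat_lit 20) (nat_lit 5) (nat_lit 22) (nat_lit 5) (nat_lit 21) (nat_lit 5) (nat_lit 358) (nat_lit 331) (nat_lit 211)) (XT.lf (nat_lit 0) (nat_lit 8568659333) (nat_lit 152) (nat_lit 26358245161) (nat_lit 228) (nat_lit 128230693861) (nat_lit 18) (nat_lit 5) (nat_lit 20) (nat_lit 5) (nat_lit 21) (nat_lit 5) (nat_lit 359) (nat_lit 331) (nat_lit 210))) (XT.nd (nat_lit 78) (nat_lit 76) (nat_lit 0) (XT.lf (nat_lit 0) (nat_lit 70303488540) (nat_lit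 228) (nat_lit 79054688774) (nat_lit 76) (nat_lit 22866389721) (nat_lit 18) (nat_lit 5) (nat_lit 21) (nat_lit 5) (nat_lit 19) (nat_lit 4) (nat_lit 360) (nat_lit 331) (nat_lit 209)) (XT.lf (nat_lit 0) (nat_lit 1933263551) (nat_lit 76) (nat_lit 107307411457) (nat_lit 152) (nat_lit 72717780711) (nat_lit 17) (nat_lit 5) (nat_lit 18) (nat_lit 5) (nat_lit 19) (nat_lit 4) (nat_lit 361) (nat_lit 331) (nat_lit 208)))) (XT.nd (nat_lit 156) (nat_lit 152) (nat_lit 0) (XT.nd (nat_lit 78) (nat_lit 0) (nat_lit 0) (XT.lf (nat_lit 0) (nat_lit 93895072691) (nat_lit 76) (nat_lit 59558631786) (nat_lit 152) (nat_lit 38844482098) (nat_lit 17) (nat_lit 5) (nat_lit 18) (nat_lit 5) (nat_lit 19) (nat_lit 4) (nat_lit 362) (nat_lit 331) (nat_lit 207)) (XT.lf (nat_lit 0) (nat_lit 193212817700) (nat_lit 76) (nat_lit 7990377858) (nat_lit 152) (nat_lit 2261947284) (nat_lit 17) (nat_lit 5) (nat_lit 18) (nat_lit 5) (nat_lit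 19) (nat_lit 4) (nat_lit 363) (nat_lit 331) (nat_lit 206))) (XT.nd (nat_lit 78) (nat_lit 0) (nat_lit 0) (XT.lf (nat_lit 0) (nat_lit 38737121530) (nat_lit 152) (nat_lit 128029506547) (nat_lit 76) (nat_lit 48418909363) (nat_lit 15) (nat_lit 5) (nat_lit 17) (nat_lit 5) (nat_lit 16) (nat_lit 4) (nat_lit 364) (nat_lit 331) (nat_lit 205)) (XT.lf (nat_lit 0) (nat_lit 83388508358) (nat_lit 152) (nat_lit 35155571716) (nat_lit 76) (nat_lit 109255216052) (nat_lit 15) (nat_lit 5) (nat_lit 17) (nat_lit 5) (nat_lit 16) (nat_lit 4) (nat_lit 365) (nat_lit 331) (nat_lit 204))))) (XT.nd (nat_lit 312) (nat_lit 152) (nat_lit 0) (XT.nd (nat_lit 156) (nat_lit 152) (nat_lit 0) (XT.nd (nat_lit 78) (nat_lit 0) (nat_lit 0) (XT.lf (nat_lit 0) (nat_lit 68577922819) (nat_lit 76) (nat_lit 64682880710) (nat_lit 152) (nat_lit 108029448544) (nat_lit 14) (nat_lit 5) (nat_lit 15) (nat_lit 5) (nat_lit 16) (nat_lit 4) (nat_lit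 366) (nat_lit 331) (nat_lit 203)) (XT.lf (nat_lit 0) (nat_lit 182608547706) (nat_lit 76) (nat_lit 5475063113) (nat_lit 152) (nat_lit 67700015725) (nat_lit 14) (nat_lit 5) (nat_lit 15) (nat_lit 5) (nat_lit 16) (nat_lit 4) (nat_lit 367) (nat_lit 331) (nat_lit 202))) (XT.nd (nat_lit 78) (nat_lit 76) (nat_lit 0) (XT.lf (nat_lit 0) (nat_lit 34651531146) (nat_lit 76) (nat_lit 214879811957) (nat_lit 76) (nat_lit 21726000143) (nat_lit 13) (nat_lit 4) (nat_lit 14) (nat_lit 5) (nat_lit 14) (nat_lit 4) (nat_lit 368) (nat_lit 331) (nat_lit 201)) (XT.lf (nat_lit 0) (nat_lit 28723423950) (nat_lit 152) (nat_lit 133409736395) (nat_lit 76) (nat_lit 125606511187) (nat_lit 12) (nat_lit 5) (nat_lit 14) (nat_lit 5) (nat_lit 13) (nat_lit 4) (nat_lit 369) (nat_lit 331) (nat_lit 200)))) (XT.nd (nat_lit 156) (nat_lit 76) (nat_lit 0) (XT.nd (nat_lit 78) (nat_lit 76) (nat_lit 0) (XT.lf (nat_lit 0) (nat_lit 82034610299)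 (nat_lit 152) (nat_lit 22523067308) (nat_lit 76) (nat_lit 200937797651) (nat_lit 12) (nat_lit 5) (nat_lit 14) (nat_lit 5) (nat_lit 13) (nat_lit 4) (nat_lit 370) (nat_lit 331) (nat_lit 199)) (XT.lf (nat_lit 0) (nat_lit 102353972409) (nat_lit 76) (nat_lit 39717942650) (nat_lit 152) (nat_lit 182402930567) (nat_lit 11) (nat_lit 5) (nat_lit 12) (nat_lit 5) (nat_lit 13) (nat_lit 4) (nat_lit 371) (nat_lit 331) (nat_lit 198))) (XT.nd (nat_lit 78) (nat_lit 76) (nat_lit 0) (XT.lf (nat_lit 0) (nat_lit 208272563875) (nat_lit 152) (nat_lit 107166872313) (nat_lit 0) (nat_lit 29424300868) (nat_lit 11) (nat_lit 5) (nat_lit 13) (nat_lit 4) (nat_lit 11) (nat_lit 4) (nat_lit 372) (nat_lit 331) (nat_lit 197)) (XT.lf (nat_lit 0) (nat_lit 16791098842) (nat_lit 76) (nat_lit 264413267956) (nat_lit 76) (nat_lit 85564565020) (nat_lit 10) (nat_lit 4) (nat_lit 11) (nat_lit 5) (nat_lit 11) (nat_lit 4) (nat_lit 373)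 (nat_lit 331) (nat_lit 196)))))) (XT.nd (nat_lit 624) (nat_lit 228) (nat_lit 0) (XT.nd (nat_lit 312) (nat_lit 76) (nat_lit 0) (XT.nd (nat_lit 156) (nat_lit 76) (nat_lit 0) (XT.nd (nat_lit 78) (nat_lit 76) (nat_lit 0) (XT.lf (nat_lit 0) (nat_lit 156759726019) (nat_lit 76) (nat_lit 206140771938) (nat_lit 76) (nat_lit 27291661662) (nat_lit 10) (nat_lit 4) (nat_lit 11) (nat_lit 5) (nat_lit 11) (nat_lit 4) (nat_lit 374) (nat_lit 331) (nat_lit 195)) (XT.lf (nat_lit 0) (nat_lit 33859732108) (nat_lit 152) (nat_lit 108421244657) (nat_lit 76) (nat_lit 273139718163) (nat_lit 9) (nat_lit 5) (nat_lit 11) (nat_lit 5) (nat_lit 10) (nat_lit 4) (nat_lit 375) (nat_lit 331) (nat_lit 194))) (XT.nd (nat_lit 78) (nat_lit 0) (nat_lit 0) (XT.lf (nat_lit 0) (nat_lit 27244253727) (nat_lit 76) (nat_lit 71839443580) (nat_lit 152) (nat_lit 343474712469) (nat_lit 8) (nat_lit 5) (nat_lit 9) (nat_lit 5) (nat_lit 10)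 (nat_lit 4) (nat_lit 376) (nat_lit 331) (nat_lit 193)) (XT.lf (nat_lit 0) (nat_lit 172668612978) (nat_lit 152) (nat_lit 291880473359) (nat_lit 0) (nat_lit 7066612946) (nat_lit 8) (nat_lit 5) (nat_lit 10) (nat_lit 4) (nat_lit 8) (nat_lit 4) (nat_lit 377) (nat_lit 331) (nat_lit 192)))) (XT.nd (nat_lit 156) (nat_lit 76) (nat_lit 0) (XT.nd (nat_lit 78) (nat_lit 0) (nat_lit 0) (XT.lf (nat_lit 0) (nat_lit 254006000238) (nat_lit 152) (nat_lit 160438594589) (nat_lit 0) (nat_lit 88403722977) (nat_lit 8) (nat_lit 5) (nat_lit 10) (nat_lit 4) (nat_lit 8) (nat_lit 4) (nat_lit 378) (nat_lit 331) (nat_lit 191)) (XT.lf (nat_lit 0) (nat_lit 341850118075) (nat_lit 152) (nat_lit 18481864555) (nat_lit 0) (nat_lit 176247584120) (nat_lit 8) (nat_lit 5) (nat_lit 10) (nat_lit 4) (nat_lit 8) (nat_lit 4) (nat_lit 379) (nat_lit 331) (nat_lit 190))) (XT.nd (nat_lit 78) (nat_lit 0) (nat_lit 0) (XT.lf (nat_lit 0)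 (nat_lit 141930900262) (nat_lit 76) (nat_lit 298204065528) (nat_lit 76) (nat_lit 132601293892) (nat_lit 7) (nat_lit 4) (nat_lit 8) (nat_lit 5) (nat_lit 8) (nat_lit 4) (nat_lit 380) (nat_lit 331) (nat_lit 189)) (XT.lf (nat_lit 0) (nat_lit 316227315904) (nat_lit 76) (nat_lit 230560378261) (nat_lit 76) (nat_lit 64957386552) (nat_lit 7) (nat_lit 4) (nat_lit 8) (nat_lit 5) (nat_lit 8) (nat_lit 4) (nat_lit 381) (nat_lit 331) (nat_lit 188))))) (XT.nd (nat_lit 312) (nat_lit 76) (nat_lit 0) (XT.nd (nat_lit 156) (nat_lit 0) (nat_lit 0) (XT.nd (nat_lit 78) (nat_lit 76) (nat_lit 0) (XT.lf (nat_lit 0) (nat_lit 7692714488) (nat_lit 152) (nat_lit 149602349345) (nat_lit 76) (nat_lit 496563980848) (nat_lit 6) (nat_lit 5) (nat_lit 8) (nat_lit 5) (nat_lit 7) (nat_lit 4) (nat_lit 382) (nat_lit 331) (nat_lit 187)) (XT.lf (nat_lit 0) (nat_lit 6630375713) (nat_lit 76) (nat_lit 76174316532) (nat_lit 152) (nat_lit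 616389716829) (nat_lit 5) (nat_lit 5) (nat_lit 6) (nat_lit 5) (nat_lit 7) (nat_lit 4) (nat_lit 383) (nat_lit 331) (nat_lit 186))) (XT.nd (nat_lit 78) (nat_lit 0) (nat_lit 0) (XT.lf (nat_lit 0) (nat_lit 168397099282) (nat_lit 152) (nat_lit 564341315017) (nat_lit 0) (nat_lit 15060470707) (nat_lit 5) (nat_lit 5) (nat_lit 7) (nat_lit 4) (nat_lit 5) (nat_lit 4) (nat_lit 384) (nat_lit 331) (nat_lit 185)) (XT.lf (nat_lit 0) (nat_lit 262815263179) (nat_lit 152) (nat_lit 427839701929) (nat_lit 0) (nat_lit 109478484826) (nat_lit 5) (nat_lit 5) (nat_lit 7) (nat_lit 4) (nat_lit 5) (nat_lit 4) (nat_lit 385) (nat_lit 331) (nat_lit 184)))) (XT.nd (nat_lit 156) (nat_lit 76) (nat_lit 0) (XT.nd (nat_lit 78) (nat_lit 0) (nat_lit 0) (XT.lf (nat_lit 0) (nat_lit 364786704838) (nat_lit 152) (nat_lit 280418301505) (nat_lit 0) (nat_lit 211449787801) (nat_lit 5) (nat_lit 5) (nat_lit 7) (nat_lit 4) (nat_lit 5)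 (nat_lit 4) (nat_lit 386) (nat_lit 331) (nat_lit 183)) (XT.lf (nat_lit 0) (nat_lit 474915699469) (nat_lit 152) (nat_lit 121203505446) (nat_lit 0) (nat_lit 321578654021) (nat_lit 5) (nat_lit 5) (nat_lit 7) (nat_lit 4) (nat_lit 5) (nat_lit 4) (nat_lit 387) (nat_lit 331) (nat_lit 182))) (XT.nd (nat_lit 78) (nat_lit 0) (nat_lit 0) (XT.lf (nat_lit 0) (nat_lit 53420490629) (nat_lit 76) (nat_lit 541719136791) (nat_lit 76) (nat_lit 388381972444) (nat_lit 4) (nat_lit 4) (nat_lit 5) (nat_lit 5) (nat_lit 5) (nat_lit 4) (nat_lit 388) (nat_lit 331) (nat_lit 181)) (XT.nd (nat_lit 78) (nat_lit 0) (nat_lit 0) (XT.lf (nat_lit 0) (nat_lit 248907071596) (nat_lit 76) (nat_lit 479388170576) (nat_lit 76) (nat_lit 326050896138) (nat_lit 4) (nat_lit 4) (nat_lit 5) (nat_lit 5) (nat_lit 5) (nat_lit 4) (nat_lit 389) (nat_lit 331) (nat_lit 180)) (XT.lf (nat_lit 0) (nat_lit 460032314647) (nat_lit 76) (nat_lit 412070856212)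 (nat_lit 76) (nat_lit 258733479836) (nat_lit 4) (nat_lit 4) (nat_lit 5) (nat_lit 5) (nat_lit 5) (nat_lit 4) (nat_lit 390) (nat_lit 331) (nat_lit 179))))))))
noncomputable def xc186 : XT := (XT.nd (nat_lit 42276) (nat_lit 0) (nat_lit 2508) (XT.nd (nat_lit 624) (nat_lit 76) (nat_lit 0) (XT.nd (nat_lit 312) (nat_lit 76) (nat_lit 0) (XT.nd (nat_lit 156) (nat_lit 76) (nat_lit 0) (XT.nd (nat_lit 78) (nat_lit 0) (nat_lit 0) (XT.lf (nat_lit 0) (nat_lit 688047332333) (nat_lit 76) (nat_lit 339368276280) (nat_lit 76) (nat_lit 186030805518) (nat_lit 4) (nat_lit 4) (nat_lit 5) (nat_lit 5) (nat_lit 5) (nat_lit 4) (nat_lit 391) (nat_lit 331) (nat_lit 178)) (XT.lf (nat_lit 0) (nat_lit 934303324758) (nat_lit 76) (nat_lit 260849600677) (nat_lit 76) (nat_lit 107512042521) (nat_lit 4) (nat_lit 4) (nat_lit 5) (nat_lit 5) (nat_lit 5) (nat_lit 4) (nat_lit 392) (nat_lit 331) (nat_lit 177))) (XT.nd (nat_lit 78)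 (nat_lit 76) (nat_lit 0) (XT.lf (nat_lit 0) (nat_lit 1200259586692) (nat_lit 76) (nat_lit 176049533547) (nat_lit 76) (nat_lit 22711894471) (nat_lit 4) (nat_lit 4) (nat_lit 5) (nat_lit 5) (nat_lit 5) (nat_lit 4) (nat_lit 393) (nat_lit 331) (nat_lit 176)) (XT.lf (nat_lit 0) (nat_lit 65426893748) (nat_lit 152) (nat_lit 17249775005) (nat_lit 76) (nat_lit 1420276374274) (nat_lit 3) (nat_lit 5) (nat_lit 5) (nat_lit 5) (nat_lit 4) (nat_lit 4) (nat_lit 394) (nat_lit 331) (nat_lit 175)))) (XT.nd (nat_lit 156) (nat_lit 0) (nat_lit 0) (XT.nd (nat_lit 78) (nat_lit 0) (nat_lit 0) (XT.lf (nat_lit 0) (nat_lit 164470254060) (nat_lit 152) (nat_lit 1427784920924) (nat_lit 0) (nat_lit 22490825005) (nat_lit 2) (nat_lit 5) (nat_lit 4) (nat_lit 4) (nat_lit 2) (nat_lit 4) (nat_lit 395) (nat_lit 331) (nat_lit 174)) (XT.lf (nat_lit 0) (nat_lit 274068325000) (nat_lit 152) (nat_lit 1329114732725) (nat_lit 0) (nat_lit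 132088836466) (nat_lit 2) (nat_lit 5) (nat_lit 4) (nat_lit 4) (nat_lit 2) (nat_lit 4) (nat_lit 396) (nat_lit 331) (nat_lit 173))) (XT.nd (nat_lit 78) (nat_lit 0) (nat_lit 0) (XT.lf (nat_lit 0) (nat_lit 392434154642) (nat_lit 152) (nat_lit 1222551101234) (nat_lit 0) (nat_lit 250454611035) (nat_lit 2) (nat_lit 5) (nat_lit 4) (nat_lit 4) (nat_lit 2) (nat_lit 4) (nat_lit 397) (nat_lit 331) (nat_lit 172)) (XT.lf (nat_lit 0) (nat_lit 520269170124) (nat_lit 152) (nat_lit 1107462538265) (nat_lit 0) (nat_lit 378289575523) (nat_lit 2) (nat_lit 5) (nat_lit 4) (nat_lit 4) (nat_lit 2) (nat_lit 4) (nat_lit 398) (nat_lit 331) (nat_lit 171))))) (XT.nd (nat_lit 312) (nat_lit 76) (nat_lit 0) (XT.nd (nat_lit 156) (nat_lit 0) (nat_lit 0) (XT.nd (nat_lit 78) (nat_lit 0) (nat_lit 0) (XT.lf (nat_lit 0) (nat_lit 658330912280) (nat_lit 152) (nat_lit 983167037518) (nat_lit 0) (nat_lit 516351270462) (nat_lit 2)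 (nat_lit 5) (nat_lit 4) (nat_lit 4) (nat_lit 2) (nat_lit 4) (nat_lit 399) (nat_lit 331) (nat_lit 170)) (XT.lf (nat_lit 0) (nat_lit 807437524766) (nat_lit 152) (nat_lit 848928033064) (nat_lit 0) (nat_lit 665457839229) (nat_lit 2) (nat_lit 5) (nat_lit 4) (nat_lit 4) (nat_lit 2) (nat_lit 4) (nat_lit 400) (nat_lit 331) (nat_lit 169))) (XT.nd (nat_lit 78) (nat_lit 0) (nat_lit 0) (XT.lf (nat_lit 0) (nat_lit 968472602322) (nat_lit 152) (nat_lit 703950034505) (nat_lit 0) (nat_lit 826492876306) (nat_lit 2) (nat_lit 5) (nat_lit 4) (nat_lit 4) (nat_lit 2) (nat_lit 4) (nat_lit 401) (nat_lit 331) (nat_lit 168)) (XT.lf (nat_lit 0) (nat_lit 1142390426891) (nat_lit 152) (nat_lit 547373912961) (nat_lit 0) (nat_lit 1000410663392) (nat_lit 2) (nat_lit 5) (nat_lit 4) (nat_lit 4) (nat_lit 2) (nat_lit 4) (nat_lit 402) (nat_lit 331) (nat_lit 167)))) (XT.nd (nat_lit 156) (nat_lit 76) (nat_lit 0) (XT.nd (nat_lit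 78) (nat_lit 0) (nat_lit 0) (XT.lf (nat_lit 0) (nat_lit 1330221622617) (nat_lit 152) (nat_lit 378271809935) (nat_lit 0) (nat_lit 1188241824413) (nat_lit 2) (nat_lit 5) (nat_lit 4) (nat_lit 4) (nat_lit 2) (nat_lit 4) (nat_lit 403) (nat_lit 331) (nat_lit 166)) (XT.lf (nat_lit 0) (nat_lit 1533079263254) (nat_lit 152) (nat_lit 195641638889) (nat_lit 0) (nat_lit 1391099432915) (nat_lit 2) (nat_lit 5) (nat_lit 4) (nat_lit 4) (nat_lit 2) (nat_lit 4) (nat_lit 404) (nat_lit 331) (nat_lit 165))) (XT.nd (nat_lit 78) (nat_lit 0) (nat_lit 0) (XT.lf (nat_lit 0) (nat_lit 1683045809) (nat_lit 76) (nat_lit 1750522899635) (nat_lit 76) (nat_lit 1608543039542) (nat_lit 1) (nat_lit 4) (nat_lit 2) (nat_lit 5) (nat_lit 2) (nat_lit 4) (nat_lit 405) (nat_lit 331) (nat_lit 164)) (XT.lf (nat_lit 0) (nat_lit 225919928190) (nat_lit 76) (nat_lit 1768291977450) (nat_lit 76) (nat_lit 1626312089806) (nat_lit 1) (nat_lit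 4) (nat_lit 2) (nat_lit 5) (nat_lit 2) (nat_lit 4) (nat_lit 406) (nat_lit 331) (nat_lit 163)))))) (XT.nd (nat_lit 624) (nat_lit 988) (nat_lit 0) (XT.nd (nat_lit 312) (nat_lit 304) (nat_lit 0) (XT.nd (nat_lit 156) (nat_lit 0) (nat_lit 76) (XT.nd (nat_lit 78) (nat_lit 0) (nat_lit 0) (XT.lf (nat_lit 0) (nat_lit 17374774407) (nat_lit 532) (nat_lit 3281857799) (nat_lit 532) (nat_lit 3281857799) (nat_lit 51) (nat_lit 3) (nat_lit 58) (nat_lit 3) (nat_lit 58) (nat_lit 5) (nat_lit 332) (nat_lit 332) (nat_lit 236)) (XT.lf (nat_lit 76) (nat_lit 16718563407) (nat_lit 0) (nat_lit 19849415712) (nat_lit 532) (nat_lit 13189747342) (nat_lit 52) (nat_lit 5) (nat_lit 51) (nat_lit 3) (nat_lit 58) (nat_lit 5) (nat_lit 333) (nat_lit 332) (nat_lit 235))) (XT.nd (nat_lit 78) (nat_lit 0) (nat_lit 0) (XT.lf (nat_lit 0) (nat_lit 38793486619) (nat_lit 456) (nat_lit 9624401787) (nat_lit 532) (nat_lit 3350121690)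 (nat_lit 52) (nat_lit 5) (nat_lit 58) (nat_lit 5) (nat_lit 59) (nat_lit 5) (nat_lit 334) (nat_lit 332) (nat_lit 234)) (XT.lf (nat_lit 76) (nat_lit 15943930495) (nat_lit 0) (nat_lit 26149675488) (nat_lit 532) (nat_lit 11773790008) (nat_lit 53) (nat_lit 5) (nat_lit 52) (nat_lit 5) (nat_lit 59) (nat_lit 5) (nat_lit 335) (nat_lit 332) (nat_lit 233)))) (XT.nd (nat_lit 156) (nat_lit 380) (nat_lit 0) (XT.nd (nat_lit 78) (nat_lit 0) (nat_lit 76) (XT.lf (nat_lit 76) (nat_lit 44103498023) (nat_lit 0) (nat_lit 1815078673) (nat_lit 532) (nat_lit 10195293596) (nat_lit 53) (nat_lit 5) (nat_lit 52) (nat_lit 5) (nat_lit 59) (nat_lit 5) (nat_lit 336) (nat_lit 332) (nat_lit 232)) (XT.lf (nat_lit 76) (nat_lit 16195883187) (nat_lit 0) (nat_lit 34829468651) (nat_lit 532) (nat_lit 7436650676) (nat_lit 54) (nat_lit 5) (nat_lit 53) (nat_lit 5) (nat_lit 60) (nat_lit 5) (nat_lit 337) (nat_lit 332) (nat_lit 231)))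 (XT.nd (nat_lit 78) (nat_lit 456) (nat_lit 0) (XT.lf (nat_lit 76) (nat_lit 47290439868) (nat_lit 0) (nat_lit 9622564187) (nat_lit 532) (nat_lit 4055198636) (nat_lit 54) (nat_lit 5) (nat_lit 53) (nat_lit 5) (nat_lit 60) (nat_lit 5) (nat_lit 338) (nat_lit 332) (nat_lit 230)) (XT.lf (nat_lit 0) (nat_lit 484996406) (nat_lit 532) (nat_lit 45963566773) (nat_lit 76) (nat_lit 17157670655) (nat_lit 47) (nat_lit 5) (nat_lit 54) (nat_lit 5) (nat_lit 48) (nat_lit 5) (nat_lit 339) (nat_lit 332) (nat_lit 229))))) (XT.nd (nat_lit 312) (nat_lit 456) (nat_lit 0) (XT.nd (nat_lit 156) (nat_lit 228) (nat_lit 0) (XT.nd (nat_lit 78) (nat_lit 304) (nat_lit 0) (XT.lf (nat_lit 0) (nat_lit 5801150439) (nat_lit 532) (nat_lit 14545481471) (nat_lit 76) (nat_lit 46049706137) (nat_lit 47) (nat_lit 5) (nat_lit 54) (nat_lit 5) (nat_lit 48) (nat_lit 5) (nat_lit 340) (nat_lit 332) (nat_lit 228)) (XT.lf (nat_lit 0) (nat_lit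 12233064418) (nat_lit 380) (nat_lit 49166691358) (nat_lit 76) (nat_lit 7954660487) (nat_lit 43) (nat_lit 5) (nat_lit 48) (nat_lit 5) (nat_lit 44) (nat_lit 5) (nat_lit 341) (nat_lit 332) (nat_lit 227))) (XT.nd (nat_lit 78) (nat_lit 228) (nat_lit 0) (XT.lf (nat_lit 0) (nat_lit 20114469168) (nat_lit 380) (nat_lit 14531008999) (nat_lit 76) (nat_lit 37828870404) (nat_lit 43) (nat_lit 5) (nat_lit 48) (nat_lit 5) (nat_lit 44) (nat_lit 5) (nat_lit 342) (nat_lit 332) (nat_lit 226)) (XT.lf (nat_lit 0) (nat_lit 24078482436) (nat_lit 228) (nat_lit 5125533254) (nat_lit 304) (nat_lit 46593652057) (nat_lit 40) (nat_lit 5) (nat_lit 43) (nat_lit 5) (nat_lit 44) (nat_lit 5) (nat_lit 343) (nat_lit 332) (nat_lit 225)))) (XT.nd (nat_lit 156) (nat_lit 228) (nat_lit 0) (XT.nd (nat_lit 78) (nat_lit 228) (nat_lit 0) (XT.lf (nat_lit 0) (nat_lit 40070441773) (nat_lit 304) (nat_lit 13407365783) (nat_lit 76) (nat_lit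 25825070076) (nat_lit 40) (nat_lit 5) (nat_lit 44) (nat_lit 5) (nat_lit 41) (nat_lit 5) (nat_lit 344) (nat_lit 332) (nat_lit 224)) (XT.lf (nat_lit 0) (nat_lit 29300498196) (nat_lit 228) (nat_lit 23342205232) (nat_lit 304) (nat_lit 30378881420) (nat_lit 37) (nat_lit 5) (nat_lit 40) (nat_lit 5) (nat_lit 41) (nat_lit 5) (nat_lit 345) (nat_lit 332) (nat_lit 223))) (XT.nd (nat_lit 78) (nat_lit 228) (nat_lit 0) (XT.lf (nat_lit 0) (nat_lit 66816978641) (nat_lit 304) (nat_lit 11053422560) (nat_lit 76) (nat_lit 9119690924) (nat_lit 37) (nat_lit 5) (nat_lit 41) (nat_lit 5) (nat_lit 38) (nat_lit 5) (nat_lit 346) (nat_lit 332) (nat_lit 222)) (XT.nd (nat_lit 78) (nat_lit 76) (nat_lit 0) (XT.lf (nat_lit 0) (nat_lit 36232414462) (nat_lit 152) (nat_lit 47369321759) (nat_lit 228) (nat_lit 7556222472) (nat_lit 35) (nat_lit 5) (nat_lit 37) (nat_lit 5) (nat_lit 38) (nat_lit 5) (nat_lit 347) (nat_lit 332)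 (nat_lit 221)) (XT.lf (nat_lit 0) (nat_lit 6075322464) (nat_lit 228) (nat_lit 7860640027) (nat_lit 76) (nat_lit 81686899056) (nat_lit 34) (nat_lit 5) (nat_lit 37) (nat_lit 5) (nat_lit 35) (nat_lit 5) (nat_lit 348) (nat_lit 332) (nat_lit 220))))))))
noncomputable def xc187 : XT := (XT.nd (nat_lit 1248) (nat_lit 760) (nat_lit 0) (XT.nd (nat_lit 624) (nat_lit 380) (nat_lit 0) (XT.nd (nat_lit 312) (nat_lit 380) (nat_lit 0) (XT.nd (nat_lit 156) (nat_lit 304) (nat_lit 0) (XT.nd (nat_lit 78) (nat_lit 0) (nat_lit 0) (XT.lf (nat_lit 0) (nat_lit 22037406857) (nat_lit 304) (nat_lit 55885044650) (nat_lit 76) (nat_lit 22374945570) (nat_lit 31) (nat_lit 5) (nat_lit 35) (nat_lit 5) (nat_lit 32) (nat_lit 5) (nat_lit 349) (nat_lit 332) (nat_lit 219)) (XT.lf (nat_lit 0) (nat_lit 39857936995) (nat_lit 304) (nat_lit 4383426598) (nat_lit 76) (nat_lit 61058014959) (nat_lit 31) (nat_lit 5) (nat_lit 35) (nat_lit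 5) (nat_lit 32) (nat_lit 5) (nat_lit 350) (nat_lit 332) (nat_lit 218))) (XT.nd (nat_lit 78) (nat_lit 152) (nat_lit 0) (XT.lf (nat_lit 0) (nat_lit 53935079989) (nat_lit 152) (nat_lit 6465243300) (nat_lit 228) (nat_lit 50197499476) (nat_lit 29) (nat_lit 5) (nat_lit 31) (nat_lit 5) (nat_lit 32) (nat_lit 5) (nat_lit 351) (nat_lit 332) (nat_lit 217)) (XT.lf (nat_lit 0) (nat_lit 29114064) (nat_lit 152) (nat_lit 83505462109) (nat_lit 228) (nat_lit 32709689508) (nat_lit 27) (nat_lit 5) (nat_lit 29) (nat_lit 5) (nat_lit 30) (nat_lit 5) (nat_lit 352) (nat_lit 332) (nat_lit 216)))) (XT.nd (nat_lit 156) (nat_lit 152) (nat_lit 0) (XT.nd (nat_lit 78) (nat_lit 228) (nat_lit 0) (XT.lf (nat_lit 0) (nat_lit 64300719462) (nat_lit 152) (nat_lit 45930925266) (nat_lit 228) (nat_lit 11973814398) (nat_lit 27) (nat_lit 5) (nat_lit 29) (nat_lit 5) (nat_lit 30) (nat_lit 5) (nat_lit 353) (nat_lit 332) (nat_lit 215))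 (XT.lf (nat_lit 0) (nat_lit 5072385062) (nat_lit 152) (nat_lit 4948420169) (nat_lit 228) (nat_lit 118593000161) (nat_lit 24) (nat_lit 5) (nat_lit 26) (nat_lit 5) (nat_lit 27) (nat_lit 5) (nat_lit 354) (nat_lit 332) (nat_lit 214))) (XT.nd (nat_lit 78) (nat_lit 152) (nat_lit 0) (XT.lf (nat_lit 0) (nat_lit 35697111513) (nat_lit 228) (nat_lit 60326250316) (nat_lit 76) (nat_lit 39281056647) (nat_lit 24) (nat_lit 5) (nat_lit 27) (nat_lit 5) (nat_lit 25) (nat_lit 5) (nat_lit 355) (nat_lit 332) (nat_lit 213)) (XT.lf (nat_lit 0) (nat_lit 8228035635) (nat_lit 152) (nat_lit 55525162891) (nat_lit 228) (nat_lit 78751028815) (nat_lit 22) (nat_lit 5) (nat_lit 24) (nat_lit 5) (nat_lit 25) (nat_lit 5) (nat_lit 356) (nat_lit 332) (nat_lit 212))))) (XT.nd (nat_lit 312) (nat_lit 76) (nat_lit 0) (XT.nd (nat_lit 156) (nat_lit 228) (nat_lit 0) (XT.nd (nat_lit 78) (nat_lit 76) (nat_lit 0) (XT.lf (nat_lit 0)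 (nat_lit 85696334379) (nat_lit 152) (nat_lit 10006153449) (nat_lit 228) (nat_lit 54445636629) (nat_lit 22) (nat_lit 5) (nat_lit 24) (nat_lit 5) (nat_lit 25) (nat_lit 5) (nat_lit 357) (nat_lit 332) (nat_lit 211)) (XT.lf (nat_lit 0) (nat_lit 10543217358) (nat_lit 76) (nat_lit 120859063186) (nat_lit 152) (nat_lit 26905688690) (nat_lit 21) (nat_lit 5) (nat_lit 22) (nat_lit 5) (nat_lit 23) (nat_lit 4) (nat_lit 358) (nat_lit 332) (nat_lit 210))) (XT.nd (nat_lit 78) (nat_lit 152) (nat_lit 0) (XT.lf (nat_lit 0) (nat_lit 4762750787) (nat_lit 152) (nat_lit 72151385490) (nat_lit 76) (nat_lit 90035627722) (nat_lit 20) (nat_lit 5) (nat_lit 22) (nat_lit 5) (nat_lit 21) (nat_lit 5) (nat_lit 359) (nat_lit 332) (nat_lit 209)) (XT.lf (nat_lit 0) (nat_lit 9275159284) (nat_lit 152) (nat_lit 28458355261) (nat_lit 228) (nat_lit 138475684030) (nat_lit 18) (nat_lit 5) (nat_lit 20) (nat_lit 5) (nat_lit 21) (nat_lit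 5) (nat_lit 360) (nat_lit 332) (nat_lit 208)))) (XT.nd (nat_lit 156) (nat_lit 0) (nat_lit 0) (XT.nd (nat_lit 78) (nat_lit 76) (nat_lit 0) (XT.lf (nat_lit 0) (nat_lit 75939492907) (nat_lit 228) (nat_lit 85358870137) (nat_lit 76) (nat_lit 24703221114) (nat_lit 18) (nat_lit 5) (nat_lit 21) (nat_lit 5) (nat_lit 19) (nat_lit 4) (nat_lit 361) (nat_lit 332) (nat_lit 207)) (XT.lf (nat_lit 0) (nat_lit 2107607139) (nat_lit 76) (nat_lit 115883651978) (nat_lit 152) (nat_lit 78522957190) (nat_lit 17) (nat_lit 5) (nat_lit 18) (nat_lit 5) (nat_lit 19) (nat_lit 4) (nat_lit 362) (nat_lit 332) (nat_lit 206))) (XT.nd (nat_lit 78) (nat_lit 0) (nat_lit 0) (XT.lf (nat_lit 0) (nat_lit 101424903047) (nat_lit 76) (nat_lit 64315588629) (nat_lit 152) (nat_lit 41940701797) (nat_lit 17) (nat_lit 5) (nat_lit 18) (nat_lit 5) (nat_lit 19) (nat_lit 4) (nat_lit 363) (nat_lit 332) (nat_lit 205)) (XT.lf (nat_lit 0) (nat_lit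 208686717691) (nat_lit 76) (nat_lit 8622447254) (nat_lit 152) (nat_lit 2432404115) (nat_lit 17) (nat_lit 5) (nat_lit 18) (nat_lit 5) (nat_lit 19) (nat_lit 4) (nat_lit 364) (nat_lit 332) (nat_lit 204)))))) (XT.nd (nat_lit 624) (nat_lit 304) (nat_lit 0) (XT.nd (nat_lit 312) (nat_lit 228) (nat_lit 0) (XT.nd (nat_lit 156) (nat_lit 76) (nat_lit 0) (XT.nd (nat_lit 78) (nat_lit 0) (nat_lit 0) (XT.lf (nat_lit 0) (nat_lit 41845910387) (nat_lit 152) (nat_lit 138254298216) (nat_lit 76) (nat_lit 52299379348) (nat_lit 15) (nat_lit 5) (nat_lit 17) (nat_lit 5) (nat_lit 16) (nat_lit 4) (nat_lit 365) (nat_lit 332) (nat_lit 203)) (XT.lf (nat_lit 0) (nat_lit 90068680819) (nat_lit 152) (nat_lit 37951749995) (nat_lit 76) (nat_lit 118002075221) (nat_lit 15) (nat_lit 5) (nat_lit 17) (nat_lit 5) (nat_lit 16) (nat_lit 4) (nat_lit 366) (nat_lit 332) (nat_lit 202))) (XT.nd (nat_lit 78) (nat_lit 0) (nat_lit 0) (XT.lf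 (nat_lit 0) (nat_lit 74080012268) (nat_lit 76) (nat_lit 69850455197) (nat_lit 152) (nat_lit 116662294840) (nat_lit 14) (nat_lit 5) (nat_lit 15) (nat_lit 5) (nat_lit 16) (nat_lit 4) (nat_lit 367) (nat_lit 332) (nat_lit 201)) (XT.lf (nat_lit 0) (nat_lit 197231912656) (nat_lit 76) (nat_lit 5906534856) (nat_lit 152) (nat_lit 73107211810) (nat_lit 14) (nat_lit 5) (nat_lit 15) (nat_lit 5) (nat_lit 16) (nat_lit 4) (nat_lit 368) (nat_lit 332) (nat_lit 200)))) (XT.nd (nat_lit 156) (nat_lit 76) (nat_lit 0) (XT.nd (nat_lit 78) (nat_lit 76) (nat_lit 0) (XT.lf (nat_lit 0) (nat_lit 37438450653) (nat_lit 76) (nat_lit 232063445540) (nat_lit 76) (nat_lit 23455385752) (nat_lit 13) (nat_lit 4) (nat_lit 14) (nat_lit 5) (nat_lit 14) (nat_lit 4) (nat_lit 369) (nat_lit 332) (nat_lit 199)) (XT.lf (nat_lit 0) (nat_lit 31028945527) (nat_lit 152) (nat_lit 144068407273) (nat_lit 76) (nat_lit 135660876261) (nat_lit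 12) (nat_lit 5) (nat_lit 14) (nat_lit 5) (nat_lit 13) (nat_lit 4) (nat_lit 370) (nat_lit 332) (nat_lit 198))) (XT.nd (nat_lit 78) (nat_lit 76) (nat_lit 0) (XT.lf (nat_lit 0) (nat_lit 88604460290) (nat_lit 152) (nat_lit 24311849699) (nat_lit 76) (nat_lit 217018232739) (nat_lit 12) (nat_lit 5) (nat_lit 14) (nat_lit 5) (nat_lit 13) (nat_lit 4) (nat_lit 371) (nat_lit 332) (nat_lit 197)) (XT.lf (nat_lit 0) (nat_lit 110555022486) (nat_lit 76) (nat_lit 42889508625) (nat_lit 152) (nat_lit 196987749380) (nat_lit 11) (nat_lit 5) (nat_lit 12) (nat_lit 5) (nat_lit 13) (nat_lit 4) (nat_lit 372) (nat_lit 332) (nat_lit 196))))) (XT.nd (nat_lit 312) (nat_lit 152) (nat_lit 0) (XT.nd (nat_lit 156) (nat_lit 76) (nat_lit 0) (XT.nd (nat_lit 78) (nat_lit 76) (nat_lit 0) (XT.lf (nat_lit 0) (nat_lit 224940854178) (nat_lit 152) (nat_lit 115728051812) (nat_lit 0) (nat_lit 31783407738) (nat_lit 11) (nat_lit 5)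 (nat_lit 13) (nat_lit 4) (nat_lit 11) (nat_lit 4) (nat_lit 373) (nat_lit 332) (nat_lit 195)) (XT.lf (nat_lit 0) (nat_lit 18146248927) (nat_lit 76) (nat_lit 285560757308) (nat_lit 76) (nat_lit 92402933700) (nat_lit 10) (nat_lit 4) (nat_lit 11) (nat_lit 5) (nat_lit 11) (nat_lit 4) (nat_lit 374) (nat_lit 332) (nat_lit 194))) (XT.nd (nat_lit 78) (nat_lit 76) (nat_lit 0) (XT.lf (nat_lit 0) (nat_lit 169311487598) (nat_lit 76) (nat_lit 222626874356) (nat_lit 76) (nat_lit 29468701519) (nat_lit 10) (nat_lit 4) (nat_lit 11) (nat_lit 5) (nat_lit 11) (nat_lit 4) (nat_lit 375) (nat_lit 332) (nat_lit 193)) (XT.lf (nat_lit 0) (nat_lit 36574046113) (nat_lit 152) (nat_lit 117084480281) (nat_lit 76) (nat_lit 294995378737) (nat_lit 9) (nat_lit 5) (nat_lit 11) (nat_lit 5) (nat_lit 10) (nat_lit 4) (nat_lit 376) (nat_lit 332) (nat_lit 192)))) (XT.nd (nat_lit 156) (nat_lit 76) (nat_lit 0) (XT.nd (nat_lit 78)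 (nat_lit 0) (nat_lit 0) (XT.lf (nat_lit 0) (nat_lit 29433993064) (nat_lit 76) (nat_lit 77581770719) (nat_lit 152) (nat_lit 370946886753) (nat_lit 8) (nat_lit 5) (nat_lit 9) (nat_lit 5) (nat_lit 10) (nat_lit 4) (nat_lit 377) (nat_lit 332) (nat_lit 191)) (XT.lf (nat_lit 0) (nat_lit 186487182398) (nat_lit 152) (nat_lit 315221175173) (nat_lit 0) (nat_lit 7636189032) (nat_lit 8) (nat_lit 5) (nat_lit 10) (nat_lit 4) (nat_lit 8) (nat_lit 4) (nat_lit 378) (nat_lit 332) (nat_lit 190))) (XT.nd (nat_lit 78) (nat_lit 76) (nat_lit 0) (XT.lf (nat_lit 0) (nat_lit 274331184315) (nat_lit 152) (nat_lit 173264667290) (nat_lit 0) (nat_lit 95479953269) (nat_lit 8) (nat_lit 5) (nat_lit 10) (nat_lit 4) (nat_lit 8) (nat_lit 4) (nat_lit 379) (nat_lit 332) (nat_lit 189)) (XT.nd (nat_lit 78) (nat_lit 76) (nat_lit 0) (XT.lf (nat_lit 0) (nat_lit 369202483130) (nat_lit 152) (nat_lit 19952066622) (nat_lit 0) (nat_lit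 190351032011) (nat_lit 8) (nat_lit 5) (nat_lit 10) (nat_lit 4) (nat_lit 8) (nat_lit 4) (nat_lit 380) (nat_lit 332) (nat_lit 188)) (XT.lf (nat_lit 0) (nat_lit 153293508061) (nat_lit 76) (nat_lit 322056483628) (nat_lit 76) (nat_lit 143204828736) (nat_lit 7) (nat_lit 4) (nat_lit 8) (nat_lit 5) (nat_lit 8) (nat_lit 4) (nat_lit 381) (nat_lit 332) (nat_lit 187))))))))
noncomputable def xc188 : XT := (XT.nd (nat_lit 1248) (nat_lit 76) (nat_lit 0) (XT.nd (nat_lit 624) (nat_lit 152) (nat_lit 0) (XT.nd (nat_lit 312) (nat_lit 76) (nat_lit 0) (XT.nd (nat_lit 156) (nat_lit 76) (nat_lit 0) (XT.nd (nat_lit 78) (nat_lit 76) (nat_lit 0) (XT.lf (nat_lit 0) (nat_lit 341533034304) (nat_lit 76) (nat_lit 249001590798) (nat_lit 76) (nat_lit 70149747228) (nat_lit 7) (nat_lit 4) (nat_lit 8) (nat_lit 5) (nat_lit 8) (nat_lit 4) (nat_lit 382) (nat_lit 332) (nat_lit 186)) (XT.lf (nat_lit 0) (nat_lit 8311852604) (nat_lit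 152) (nat_lit 161563364854) (nat_lit 76) (nat_lit 536292251740) (nat_lit 6) (nat_lit 5) (nat_lit 8) (nat_lit 5) (nat_lit 7) (nat_lit 4) (nat_lit 383) (nat_lit 332) (nat_lit 185))) (XT.nd (nat_lit 78) (nat_lit 0) (nat_lit 0) (XT.lf (nat_lit 0) (nat_lit 7167796629) (nat_lit 76) (nat_lit 82264884457) (nat_lit 152) (nat_lit 665696990359) (nat_lit 5) (nat_lit 5) (nat_lit 6) (nat_lit 5) (nat_lit 7) (nat_lit 4) (nat_lit 384) (nat_lit 332) (nat_lit 184)) (XT.lf (nat_lit 0) (nat_lit 181872288231) (nat_lit 152) (nat_lit 609481953563) (nat_lit 0) (nat_lit 16268279147) (nat_lit 5) (nat_lit 5) (nat_lit 7) (nat_lit 4) (nat_lit 5) (nat_lit 4) (nat_lit 385) (nat_lit 332) (nat_lit 183)))) (XT.nd (nat_lit 156) (nat_lit 76) (nat_lit 0) (XT.nd (nat_lit 78) (nat_lit 0) (nat_lit 0) (XT.lf (nat_lit 0) (nat_lit 283843651832) (nat_lit 152) (nat_lit 462060705254) (nat_lit 0) (nat_lit 118239514338) (nat_lit 5)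 (nat_lit 5) (nat_lit 7) (nat_lit 4) (nat_lit 5) (nat_lit 4) (nat_lit 386) (nat_lit 332) (nat_lit 182)) (XT.lf (nat_lit 0) (nat_lit 393972574187) (nat_lit 152) (nat_lit 302846050043) (nat_lit 0) (nat_lit 228368317794) (nat_lit 5) (nat_lit 5) (nat_lit 7) (nat_lit 4) (nat_lit 5) (nat_lit 4) (nat_lit 387) (nat_lit 332) (nat_lit 181))) (XT.nd (nat_lit 78) (nat_lit 76) (nat_lit 0) (XT.lf (nat_lit 0) (nat_lit 512911671132) (nat_lit 152) (nat_lit 130894493676) (nat_lit 0) (nat_lit 347307304647) (nat_lit 5) (nat_lit 5) (nat_lit 7) (nat_lit 4) (nat_lit 5) (nat_lit 4) (nat_lit 388) (nat_lit 332) (nat_lit 180)) (XT.lf (nat_lit 0) (nat_lit 57699288106) (nat_lit 76) (nat_lit 585054148106) (nat_lit 76) (nat_lit 419449679684) (nat_lit 4) (nat_lit 4) (nat_lit 5) (nat_lit 5) (nat_lit 5) (nat_lit 4) (nat_lit 389) (nat_lit 332) (nat_lit 179))))) (XT.nd (nat_lit 312) (nat_lit 152) (nat_lit 0) (XT.nd (nat_lit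 156) (nat_lit 0) (nat_lit 0) (XT.nd (nat_lit 78) (nat_lit 0) (nat_lit 0) (XT.lf (nat_lit 0) (nat_lit 268824413459) (nat_lit 76) (nat_lit 517736891233) (nat_lit 76) (nat_lit 352132328425) (nat_lit 4) (nat_lit 4) (nat_lit 5) (nat_lit 5) (nat_lit 5) (nat_lit 4) (nat_lit 390) (nat_lit 332) (nat_lit 178)) (XT.lf (nat_lit 0) (nat_lit 496839322166) (nat_lit 76) (nat_lit 445034364533) (nat_lit 76) (nat_lit 279429714331) (nat_lit 4) (nat_lit 4) (nat_lit 5) (nat_lit 5) (nat_lit 5) (nat_lit 4) (nat_lit 391) (nat_lit 332) (nat_lit 177))) (XT.nd (nat_lit 78) (nat_lit 0) (nat_lit 0) (XT.lf (nat_lit 0) (nat_lit 743095213685) (nat_lit 76) (nat_lit 366515738220) (nat_lit 76) (nat_lit 200911007097) (nat_lit 4) (nat_lit 4) (nat_lit 5) (nat_lit 5) (nat_lit 5) (nat_lit 4) (nat_lit 392) (nat_lit 332) (nat_lit 176)) (XT.lf (nat_lit 0) (nat_lit 1009051382188) (nat_lit 76) (nat_lit 281715716729) (nat_lit 76)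 (nat_lit 116110910679) (nat_lit 4) (nat_lit 4) (nat_lit 5) (nat_lit 5) (nat_lit 5) (nat_lit 4) (nat_lit 393) (nat_lit 332) (nat_lit 175)))) (XT.nd (nat_lit 156) (nat_lit 76) (nat_lit 0) (XT.nd (nat_lit 78) (nat_lit 76) (nat_lit 0) (XT.lf (nat_lit 0) (nat_lit 1296283864230) (nat_lit 76) (nat_lit 190131781414) (nat_lit 76) (nat_lit 24526905988) (nat_lit 4) (nat_lit 4) (nat_lit 5) (nat_lit 5) (nat_lit 5) (nat_lit 4) (nat_lit 394) (nat_lit 332) (nat_lit 174)) (XT.lf (nat_lit 0) (nat_lit 70662751722) (nat_lit 152) (nat_lit 18626416081) (nat_lit 76) (nat_lit 1533899981641) (nat_lit 3) (nat_lit 5) (nat_lit 5) (nat_lit 5) (nat_lit 4) (nat_lit 4) (nat_lit 395) (nat_lit 332) (nat_lit 173))) (XT.nd (nat_lit 78) (nat_lit 0) (nat_lit 0) (XT.lf (nat_lit 0) (nat_lit 177629571200) (nat_lit 152) (nat_lit 1542004363544) (nat_lit 0) (nat_lit 24291609030) (nat_lit 2) (nat_lit 5) (nat_lit 4) (nat_lit 4) (nat_lit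 2) (nat_lit 4) (nat_lit 396) (nat_lit 332) (nat_lit 172)) (XT.lf (nat_lit 0) (nat_lit 295995362125) (nat_lit 152) (nat_lit 1435440808515) (nat_lit 0) (nat_lit 142657348962) (nat_lit 2) (nat_lit 5) (nat_lit 4) (nat_lit 4) (nat_lit 2) (nat_lit 4) (nat_lit 397) (nat_lit 332) (nat_lit 171)))))) (XT.nd (nat_lit 624) (nat_lit 76) (nat_lit 0) (XT.nd (nat_lit 312) (nat_lit 0) (nat_lit 0) (XT.nd (nat_lit 156) (nat_lit 0) (nat_lit 0) (XT.nd (nat_lit 78) (nat_lit 0) (nat_lit 0) (XT.lf (nat_lit 0) (nat_lit 423830341758) (nat_lit 152) (nat_lit 1320352316344) (nat_lit 0) (nat_lit 270492281379) (nat_lit 2) (nat_lit 5) (nat_lit 4) (nat_lit 4) (nat_lit 2) (nat_lit 4) (nat_lit 398) (nat_lit 332) (nat_lit 170)) (XT.lf (nat_lit 0) (nat_lit 561892050721) (nat_lit 152) (nat_lit 1196056881151) (nat_lit 0) (nat_lit 408553946622) (nat_lit 2) (nat_lit 5) (nat_lit 4) (nat_lit 4) (nat_lit 2) (nat_lit 4) (nat_lit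 399) (nat_lit 332) (nat_lit 169))) (XT.nd (nat_lit 78) (nat_lit 0) (nat_lit 0) (XT.lf (nat_lit 0) (nat_lit 710998632472) (nat_lit 152) (nat_lit 1061817937394) (nat_lit 0) (nat_lit 557660487893) (nat_lit 2) (nat_lit 5) (nat_lit 4) (nat_lit 4) (nat_lit 2) (nat_lit 4) (nat_lit 400) (nat_lit 332) (nat_lit 168)) (XT.lf (nat_lit 0) (nat_lit 872033681570) (nat_lit 152) (nat_lit 916839995037) (nat_lit 0) (nat_lit 718695499510) (nat_lit 2) (nat_lit 5) (nat_lit 4) (nat_lit 4) (nat_lit 2) (nat_lit 4) (nat_lit 401) (nat_lit 332) (nat_lit 167)))) (XT.nd (nat_lit 156) (nat_lit 0) (nat_lit 0) (XT.nd (nat_lit 78) (nat_lit 0) (nat_lit 0) (XT.lf (nat_lit 0) (nat_lit 1045951479789) (nat_lit 152) (nat_lit 760263925533) (nat_lit 0) (nat_lit 892613263023) (nat_lit 2) (nat_lit 5) (nat_lit 4) (nat_lit 4) (nat_lit 2) (nat_lit 4) (nat_lit 402) (nat_lit 332) (nat_lit 166)) (XT.lf (nat_lit 0) (nat_lit 1233782651117)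 (nat_lit 152) (nat_lit 591161870690) (nat_lit 0) (nat_lit 1080444402217) (nat_lit 2) (nat_lit 5) (nat_lit 4) (nat_lit 4) (nat_lit 2) (nat_lit 4) (nat_lit 403) (nat_lit 332) (nat_lit 165))) (XT.nd (nat_lit 78) (nat_lit 0) (nat_lit 0) (XT.lf (nat_lit 0) (nat_lit 1436640269163) (nat_lit 152) (nat_lit 408531744259) (nat_lit 0) (nat_lit 1283301990508) (nat_lit 2) (nat_lit 5) (nat_lit 4) (nat_lit 4) (nat_lit 2) (nat_lit 4) (nat_lit 404) (nat_lit 332) (nat_lit 164)) (XT.lf (nat_lit 0) (nat_lit 1655726453144) (nat_lit 152) (nat_lit 211291293638) (nat_lit 0) (nat_lit 1502388146938) (nat_lit 2) (nat_lit 5) (nat_lit 4) (nat_lit 4) (nat_lit 2) (nat_lit 4) (nat_lit 405) (nat_lit 332) (nat_lit 163))))) (XT.nd (nat_lit 41418) (nat_lit 0) (nat_lit 3876) (XT.nd (nat_lit 41262) (nat_lit 0) (nat_lit 3800) (XT.nd (nat_lit 41184) (nat_lit 0) (nat_lit 3800) (XT.lf (nat_lit 0) (nat_lit 1819323395) (nat_lit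 76) (nat_lit 1890563922933) (nat_lit 76) (nat_lit 1737225591218) (nat_lit 1) (nat_lit 4) (nat_lit 2) (nat_lit 5) (nat_lit 2) (nat_lit 4) (nat_lit 406) (nat_lit 332) (nat_lit 162)) (XT.lf (nat_lit 0) (nat_lit 18790488745) (nat_lit 532) (nat_lit 3530483178) (nat_lit 532) (nat_lit 3530483178) (nat_lit 51) (nat_lit 3) (nat_lit 58) (nat_lit 3) (nat_lit 58) (nat_lit 5) (nat_lit 333) (nat_lit 333) (nat_lit 234))) (XT.nd (nat_lit 78) (nat_lit 0) (nat_lit 76) (XT.lf (nat_lit 76) (nat_lit 18083189995) (nat_lit 0) (nat_lit 21458532772) (nat_lit 532) (nat_lit 14192654581) (nat_lit 52) (nat_lit 5) (nat_lit 51) (nat_lit 3) (nat_lit 58) (nat_lit 5) (nat_lit 334) (nat_lit 333) (nat_lit 233)) (XT.lf (nat_lit 0) (nat_lit 41941221408) (nat_lit 456) (nat_lit 10365078250) (nat_lit 532) (nat_lit 3599515589) (nat_lit 52) (nat_lit 5) (nat_lit 58) (nat_lit 5) (nat_lit 59) (nat_lit 5) (nat_lit 335) (nat_lit 333)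 (nat_lit 232)))) (XT.nd (nat_lit 156) (nat_lit 0) (nat_lit 76) (XT.nd (nat_lit 78) (nat_lit 0) (nat_lit 0) (XT.lf (nat_lit 76) (nat_lit 17247979458) (nat_lit 0) (nat_lit 28254778908) (nat_lit 532) (nat_lit 12670608054) (nat_lit 53) (nat_lit 5) (nat_lit 52) (nat_lit 5) (nat_lit 59) (nat_lit 5) (nat_lit 336) (nat_lit 333) (nat_lit 231)) (XT.lf (nat_lit 76) (nat_lit 47658198720) (nat_lit 0) (nat_lit 1972441800) (nat_lit 532) (nat_lit 10969171571) (nat_lit 53) (nat_lit 5) (nat_lit 52) (nat_lit 5) (nat_lit 59) (nat_lit 5) (nat_lit 337) (nat_lit 333) (nat_lit 230))) (XT.nd (nat_lit 78) (nat_lit 0) (nat_lit 0) (XT.lf (nat_lit 76) (nat_lit 17520678411) (nat_lit 0) (nat_lit 37622851388) (nat_lit 532) (nat_lit 7992465367) (nat_lit 54) (nat_lit 5) (nat_lit 53) (nat_lit 5) (nat_lit 60) (nat_lit 5) (nat_lit 338) (nat_lit 333) (nat_lit 229)) (XT.lf (nat_lit 76) (nat_lit 51100642251) (nat_lit 0) (nat_lit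 10398874178) (nat_lit 532) (nat_lit 4343394746) (nat_lit 54) (nat_lit 5) (nat_lit 53) (nat_lit 5) (nat_lit 60) (nat_lit 5) (nat_lit 339) (nat_lit 333) (nat_lit 228)))))))
noncomputable def xc189 : XT := (XT.nd (nat_lit 1248) (nat_lit 912) (nat_lit 0) (XT.nd (nat_lit 624) (nat_lit 988) (nat_lit 0) (XT.nd (nat_lit 312) (nat_lit 456) (nat_lit 0) (XT.nd (nat_lit 156) (nat_lit 304) (nat_lit 0) (XT.nd (nat_lit 78) (nat_lit 0) (nat_lit 0) (XT.lf (nat_lit 0) (nat_lit 556225095) (nat_lit 532) (nat_lit 49609769348) (nat_lit 76) (nat_lit 18526083794) (nat_lit 47) (nat_lit 5) (nat_lit 54) (nat_lit 5) (nat_lit 48) (nat_lit 5) (nat_lit 340) (nat_lit 333) (nat_lit 227)) (XT.lf (nat_lit 0) (nat_lit 6295269305) (nat_lit 532) (nat_lit 15680524834) (nat_lit 76) (nat_lit 49729793264) (nat_lit 47) (nat_lit 5) (nat_lit 54) (nat_lit 5) (nat_lit 48) (nat_lit 5) (nat_lit 341) (nat_lit 333) (nat_lit 226))) (XT.nd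 (nat_lit 78) (nat_lit 0) (nat_lit 0) (XT.lf (nat_lit 0) (nat_lit 13240168025) (nat_lit 380) (nat_lit 53069811708) (nat_lit 76) (nat_lit 8590461728) (nat_lit 43) (nat_lit 5) (nat_lit 48) (nat_lit 5) (nat_lit 44) (nat_lit 5) (nat_lit 342) (nat_lit 333) (nat_lit 225)) (XT.lf (nat_lit 0) (nat_lit 21749977121) (nat_lit 380) (nat_lit 15665512905) (nat_lit 76) (nat_lit 40854650779) (nat_lit 43) (nat_lit 5) (nat_lit 48) (nat_lit 5) (nat_lit 44) (nat_lit 5) (nat_lit 343) (nat_lit 333) (nat_lit 224)))) (XT.nd (nat_lit 156) (nat_lit 228) (nat_lit 0) (XT.nd (nat_lit 78) (nat_lit 0) (nat_lit 0) (XT.lf (nat_lit 0) (nat_lit 26032029571) (nat_lit 228) (nat_lit 5533361720) (nat_lit 304) (nat_lit 50294041438) (nat_lit 40) (nat_lit 5) (nat_lit 43) (nat_lit 5) (nat_lit 44) (nat_lit 5) (nat_lit 344) (nat_lit 333) (nat_lit 223)) (XT.lf (nat_lit 0) (nat_lit 43299324890) (nat_lit 304) (nat_lit 14452859003) (nat_lit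 76) (nat_lit 27893023303) (nat_lit 40) (nat_lit 5) (nat_lit 44) (nat_lit 5) (nat_lit 41) (nat_lit 5) (nat_lit 345) (nat_lit 333) (nat_lit 222))) (XT.nd (nat_lit 78) (nat_lit 0) (nat_lit 0) (XT.lf (nat_lit 0) (nat_lit 31670948120) (nat_lit 228) (nat_lit 25205332463) (nat_lit 304) (nat_lit 32785220382) (nat_lit 37) (nat_lit 5) (nat_lit 40) (nat_lit 5) (nat_lit 41) (nat_lit 5) (nat_lit 346) (nat_lit 333) (nat_lit 221)) (XT.lf (nat_lit 0) (nat_lit 72182950889) (nat_lit 304) (nat_lit 11911660674) (nat_lit 76) (nat_lit 9853003814) (nat_lit 37) (nat_lit 5) (nat_lit 41) (nat_lit 5) (nat_lit 38) (nat_lit 5) (nat_lit 347) (nat_lit 333) (nat_lit 220))))) (XT.nd (nat_lit 312) (nat_lit 532) (nat_lit 0) (XT.nd (nat_lit 156) (nat_lit 228) (nat_lit 0) (XT.nd (nat_lit 78) (nat_lit 76) (nat_lit 0) (XT.lf (nat_lit 0) (nat_lit 39156384178) (nat_lit 152) (nat_lit 51153188244) (nat_lit 228) (nat_lit 8139414774)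 (nat_lit 35) (nat_lit 5) (nat_lit 37) (nat_lit 5) (nat_lit 38) (nat_lit 5) (nat_lit 348) (nat_lit 333) (nat_lit 219)) (XT.lf (nat_lit 0) (nat_lit 6580088733) (nat_lit 228) (nat_lit 8464979791) (nat_lit 76) (nat_lit 88226094925) (nat_lit 34) (nat_lit 5) (nat_lit 37) (nat_lit 5) (nat_lit 35) (nat_lit 5) (nat_lit 349) (nat_lit 333) (nat_lit 218))) (XT.nd (nat_lit 78) (nat_lit 0) (nat_lit 0) (XT.lf (nat_lit 0) (nat_lit 23818469706) (nat_lit 304) (nat_lit 60330640885) (nat_lit 76) (nat_lit 24170606902) (nat_lit 31) (nat_lit 5) (nat_lit 35) (nat_lit 5) (nat_lit 32) (nat_lit 5) (nat_lit 350) (nat_lit 333) (nat_lit 217)) (XT.lf (nat_lit 0) (nat_lit 43063303714) (nat_lit 304) (nat_lit 4710760599) (nat_lit 76) (nat_lit 65947902162) (nat_lit 31) (nat_lit 5) (nat_lit 35) (nat_lit 5) (nat_lit 32) (nat_lit 5) (nat_lit 351) (nat_lit 333) (nat_lit 216)))) (XT.nd (nat_lit 156) (nat_lit 228) (nat_lit 0)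 (XT.nd (nat_lit 78) (nat_lit 152) (nat_lit 0) (XT.lf (nat_lit 0) (nat_lit 58272635626) (nat_lit 152) (nat_lit 6975753016) (nat_lit 228) (nat_lit 54195954729) (nat_lit 29) (nat_lit 5) (nat_lit 31) (nat_lit 5) (nat_lit 32) (nat_lit 5) (nat_lit 352) (nat_lit 333) (nat_lit 215)) (XT.lf (nat_lit 0) (nat_lit 54731385) (nat_lit 152) (nat_lit 90178171760) (nat_lit 228) (nat_lit 35309638499) (nat_lit 27) (nat_lit 5) (nat_lit 29) (nat_lit 5) (nat_lit 30) (nat_lit 5) (nat_lit 353) (nat_lit 333) (nat_lit 214))) (XT.nd (nat_lit 78) (nat_lit 228) (nat_lit 0) (XT.lf (nat_lit 0) (nat_lit 69466340162) (nat_lit 152) (nat_lit 49598244364) (nat_lit 228) (nat_lit 12916139763) (nat_lit 27) (nat_lit 5) (nat_lit 29) (nat_lit 5) (nat_lit 30) (nat_lit 5) (nat_lit 354) (nat_lit 333) (nat_lit 213)) (XT.lf (nat_lit 0) (nat_lit 5499969807) (nat_lit 152) (nat_lit 5336728082) (nat_lit 228) (nat_lit 128065057462) (nat_lit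 24) (nat_lit 5) (nat_lit 26) (nat_lit 5) (nat_lit 27) (nat_lit 5) (nat_lit 355) (nat_lit 333) (nat_lit 212)))))) (XT.nd (nat_lit 624) (nat_lit 380) (nat_lit 0) (XT.nd (nat_lit 312) (nat_lit 304) (nat_lit 0) (XT.nd (nat_lit 156) (nat_lit 76) (nat_lit 0) (XT.nd (nat_lit 78) (nat_lit 152) (nat_lit 0) (XT.lf (nat_lit 0) (nat_lit 38566223207) (nat_lit 228) (nat_lit 65131270289) (nat_lit 76) (nat_lit 42430196025) (nat_lit 24) (nat_lit 5) (nat_lit 27) (nat_lit 5) (nat_lit 25) (nat_lit 5) (nat_lit 356) (nat_lit 333) (nat_lit 211)) (XT.lf (nat_lit 0) (nat_lit 8906824865) (nat_lit 152) (nat_lit 59959478103) (nat_lit 228) (nat_lit 85037220776) (nat_lit 22) (nat_lit 5) (nat_lit 24) (nat_lit 5) (nat_lit 25) (nat_lit 5) (nat_lit 357) (nat_lit 333) (nat_lit 210))) (XT.nd (nat_lit 78) (nat_lit 76) (nat_lit 0) (XT.lf (nat_lit 0) (nat_lit 92571065556) (nat_lit 152) (nat_lit 10799518115) (nat_lit 228) (nat_lit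 58788426129) (nat_lit 22) (nat_lit 5) (nat_lit 24) (nat_lit 5) (nat_lit 25) (nat_lit 5) (nat_lit 358) (nat_lit 333) (nat_lit 209)) (XT.lf (nat_lit 0) (nat_lit 11405990656) (nat_lit 76) (nat_lit 130520111171) (nat_lit 152) (nat_lit 29045561923) (nat_lit 21) (nat_lit 5) (nat_lit 22) (nat_lit 5) (nat_lit 23) (nat_lit 4) (nat_lit 359) (nat_lit 333) (nat_lit 208)))) (XT.nd (nat_lit 156) (nat_lit 76) (nat_lit 0) (XT.nd (nat_lit 78) (nat_lit 152) (nat_lit 0) (XT.lf (nat_lit 0) (nat_lit 5154837950) (nat_lit 152) (nat_lit 77905018238) (nat_lit 76) (nat_lit 97244993348) (nat_lit 20) (nat_lit 5) (nat_lit 22) (nat_lit 5) (nat_lit 21) (nat_lit 5) (nat_lit 360) (nat_lit 333) (nat_lit 207)) (XT.lf (nat_lit 0) (nat_lit 10035182319) (nat_lit 152) (nat_lit 30727693852) (nat_lit 228) (nat_lit 149542194393) (nat_lit 18) (nat_lit 5) (nat_lit 20) (nat_lit 5) (nat_lit 21) (nat_lit 5) (nat_lit 361) (nat_lit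 333) (nat_lit 206))) (XT.nd (nat_lit 78) (nat_lit 76) (nat_lit 0) (XT.lf (nat_lit 0) (nat_lit 82024704881) (nat_lit 228) (nat_lit 92170266873) (nat_lit 76) (nat_lit 26685926175) (nat_lit 18) (nat_lit 5) (nat_lit 21) (nat_lit 5) (nat_lit 19) (nat_lit 4) (nat_lit 362) (nat_lit 333) (nat_lit 205)) (XT.lf (nat_lit 0) (nat_lit 2293090286) (nat_lit 76) (nat_lit 125147183304) (nat_lit 152) (nat_lit 84794294813) (nat_lit 17) (nat_lit 5) (nat_lit 18) (nat_lit 5) (nat_lit 19) (nat_lit 4) (nat_lit 363) (nat_lit 333) (nat_lit 204))))) (XT.nd (nat_lit 312) (nat_lit 228) (nat_lit 0) (XT.nd (nat_lit 156) (nat_lit 152) (nat_lit 0) (XT.nd (nat_lit 78) (nat_lit 0) (nat_lit 0) (XT.lf (nat_lit 0) (nat_lit 109554519897) (nat_lit 76) (nat_lit 69454205319) (nat_lit 152) (nat_lit 45286236689) (nat_lit 17) (nat_lit 5) (nat_lit 18) (nat_lit 5) (nat_lit 19) (nat_lit 4) (nat_lit 364) (nat_lit 333) (nat_lit 203))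 (XT.lf (nat_lit 0) (nat_lit 225396122335) (nat_lit 76) (nat_lit 9306103774) (nat_lit 152) (nat_lit 2617995285) (nat_lit 17) (nat_lit 5) (nat_lit 18) (nat_lit 5) (nat_lit 19) (nat_lit 4) (nat_lit 365) (nat_lit 333) (nat_lit 202))) (XT.nd (nat_lit 78) (nat_lit 0) (nat_lit 0) (XT.lf (nat_lit 0) (nat_lit 45202001544) (nat_lit 152) (nat_lit 149299579612) (nat_lit 76) (nat_lit 56489294404) (nat_lit 15) (nat_lit 5) (nat_lit 17) (nat_lit 5) (nat_lit 16) (nat_lit 4) (nat_lit 366) (nat_lit 333) (nat_lit 201)) (XT.lf (nat_lit 0) (nat_lit 97281970030) (nat_lit 152) (nat_lit 40973943272) (nat_lit 76) (nat_lit 127447764116) (nat_lit 15) (nat_lit 5) (nat_lit 17) (nat_lit 5) (nat_lit 16) (nat_lit 4) (nat_lit 367) (nat_lit 333) (nat_lit 200)))) (XT.nd (nat_lit 156) (nat_lit 152) (nat_lit 0) (XT.nd (nat_lit 78) (nat_lit 0) (nat_lit 0) (XT.lf (nat_lit 0) (nat_lit 80020006891) (nat_lit 76) (nat_lit 75432442256)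 (nat_lit 152) (nat_lit 125987125489) (nat_lit 14) (nat_lit 5) (nat_lit 15) (nat_lit 5) (nat_lit 16) (nat_lit 4) (nat_lit 368) (nat_lit 333) (nat_lit 199)) (XT.lf (nat_lit 0) (nat_lit 213023052374) (nat_lit 76) (nat_lit 6373456389) (nat_lit 152) (nat_lit 78948239737) (nat_lit 14) (nat_lit 5) (nat_lit 15) (nat_lit 5) (nat_lit 16) (nat_lit 4) (nat_lit 369) (nat_lit 333) (nat_lit 198))) (XT.nd (nat_lit 78) (nat_lit 76) (nat_lit 0) (XT.lf (nat_lit 0) (nat_lit 40446212760) (nat_lit 76) (nat_lit 250622732968) (nat_lit 76) (nat_lit 25324362563) (nat_lit 13) (nat_lit 4) (nat_lit 14) (nat_lit 5) (nat_lit 14) (nat_lit 4) (nat_lit 370) (nat_lit 333) (nat_lit 197)) (XT.nd (nat_lit 78) (nat_lit 0) (nat_lit 0) (XT.lf (nat_lit 0) (nat_lit 33517817805) (nat_lit 152) (nat_lit 155581784491) (nat_lit 76) (nat_lit 146518756803) (nat_lit 12) (nat_lit 5) (nat_lit 14) (nat_lit 5) (nat_lit 13) (nat_lit 4) (nat_lit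 371) (nat_lit 333) (nat_lit 196)) (XT.lf (nat_lit 0) (nat_lit 95698888073) (nat_lit 152) (nat_lit 26245598263) (nat_lit 76) (nat_lit 234384330656) (nat_lit 12) (nat_lit 5) (nat_lit 14) (nat_lit 5) (nat_lit 13) (nat_lit 4) (nat_lit 372) (nat_lit 333) (nat_lit 195))))))))
noncomputable def xc190 : XT := (XT.nd (nat_lit 1248) (nat_lit 228) (nat_lit 0) (XT.nd (nat_lit 624) (nat_lit 228) (nat_lit 0) (XT.nd (nat_lit 312) (nat_lit 152) (nat_lit 0) (XT.nd (nat_lit 156) (nat_lit 76) (nat_lit 0) (XT.nd (nat_lit 78) (nat_lit 0) (nat_lit 0) (XT.lf (nat_lit 0) (nat_lit 119410340168) (nat_lit 76) (nat_lit 46315637219) (nat_lit 152) (nat_lit 212740411621) (nat_lit 11) (nat_lit 5) (nat_lit 12) (nat_lit 5) (nat_lit 13) (nat_lit 4) (nat_lit 373) (nat_lit 333) (nat_lit 194)) (XT.lf (nat_lit 0) (nat_lit 242941682519) (nat_lit 152) (nat_lit 124975861898) (nat_lit 0) (nat_lit 34330506626) (nat_lit 11) (nat_lit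 5) (nat_lit 13) (nat_lit 4) (nat_lit 11) (nat_lit 4) (nat_lit 374) (nat_lit 333) (nat_lit 193))) (XT.nd (nat_lit 78) (nat_lit 0) (nat_lit 0) (XT.lf (nat_lit 0) (nat_lit 19608118747) (nat_lit 76) (nat_lit 308400840729) (nat_lit 76) (nat_lit 99789341474) (nat_lit 10) (nat_lit 4) (nat_lit 11) (nat_lit 5) (nat_lit 11) (nat_lit 4) (nat_lit 375) (nat_lit 333) (nat_lit 192)) (XT.lf (nat_lit 0) (nat_lit 182865823185) (nat_lit 76) (nat_lit 240432601005) (nat_lit 76) (nat_lit 31820802342) (nat_lit 10) (nat_lit 4) (nat_lit 11) (nat_lit 5) (nat_lit 11) (nat_lit 4) (nat_lit 376) (nat_lit 333) (nat_lit 191)))) (XT.nd (nat_lit 156) (nat_lit 0) (nat_lit 0) (XT.nd (nat_lit 78) (nat_lit 76) (nat_lit 0) (XT.lf (nat_lit 0) (nat_lit 39504715546) (nat_lit 152) (nat_lit 126442267555) (nat_lit 76) (nat_lit 318598852590) (nat_lit 9) (nat_lit 5) (nat_lit 11) (nat_lit 5) (nat_lit 10) (nat_lit 4) (nat_lit 377) (nat_lit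 333) (nat_lit 190)) (XT.lf (nat_lit 0) (nat_lit 31797456540) (nat_lit 76) (nat_lit 83784172846) (nat_lit 152) (nat_lit 400617662802) (nat_lit 8) (nat_lit 5) (nat_lit 9) (nat_lit 5) (nat_lit 10) (nat_lit 4) (nat_lit 378) (nat_lit 333) (nat_lit 189))) (XT.nd (nat_lit 78) (nat_lit 0) (nat_lit 0) (XT.lf (nat_lit 0) (nat_lit 201410512598) (nat_lit 152) (nat_lit 340430522089) (nat_lit 0) (nat_lit 8250725315) (nat_lit 8) (nat_lit 5) (nat_lit 10) (nat_lit 4) (nat_lit 8) (nat_lit 4) (nat_lit 379) (nat_lit 333) (nat_lit 188)) (XT.lf (nat_lit 0) (nat_lit 296281712031) (nat_lit 152) (nat_lit 187118111879) (nat_lit 0) (nat_lit 103121720976) (nat_lit 8) (nat_lit 5) (nat_lit 10) (nat_lit 4) (nat_lit 8) (nat_lit 4) (nat_lit 380) (nat_lit 333) (nat_lit 187))))) (XT.nd (nat_lit 312) (nat_lit 76) (nat_lit 0) (XT.nd (nat_lit 156) (nat_lit 76) (nat_lit 0) (XT.nd (nat_lit 78) (nat_lit 76) (nat_lit 0) (XT.lf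 (nat_lit 0) (nat_lit 398742416013) (nat_lit 152) (nat_lit 21541075661) (nat_lit 0) (nat_lit 205582236280) (nat_lit 8) (nat_lit 5) (nat_lit 10) (nat_lit 4) (nat_lit 8) (nat_lit 4) (nat_lit 381) (nat_lit 333) (nat_lit 186)) (XT.lf (nat_lit 0) (nat_lit 165563963825) (nat_lit 76) (nat_lit 347817652574) (nat_lit 76) (nat_lit 154657298139) (nat_lit 7) (nat_lit 4) (nat_lit 8) (nat_lit 5) (nat_lit 8) (nat_lit 4) (nat_lit 382) (nat_lit 333) (nat_lit 185))) (XT.nd (nat_lit 78) (nat_lit 76) (nat_lit 0) (XT.lf (nat_lit 0) (nat_lit 368862135492) (nat_lit 76) (nat_lit 268918616446) (nat_lit 76) (nat_lit 75758100251) (nat_lit 7) (nat_lit 4) (nat_lit 8) (nat_lit 5) (nat_lit 8) (nat_lit 4) (nat_lit 383) (nat_lit 333) (nat_lit 184)) (XT.lf (nat_lit 0) (nat_lit 8979990933) (nat_lit 152) (nat_lit 174482284831) (nat_lit 76) (nat_lit 579198334575) (nat_lit 6) (nat_lit 5) (nat_lit 8) (nat_lit 5) (nat_lit 7)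 (nat_lit 4) (nat_lit 384) (nat_lit 333) (nat_lit 183)))) (XT.nd (nat_lit 156) (nat_lit 0) (nat_lit 0) (XT.nd (nat_lit 78) (nat_lit 0) (nat_lit 0) (XT.lf (nat_lit 0) (nat_lit 7747213893) (nat_lit 76) (nat_lit 88843179640) (nat_lit 152) (nat_lit 718949402694) (nat_lit 5) (nat_lit 5) (nat_lit 6) (nat_lit 5) (nat_lit 7) (nat_lit 4) (nat_lit 385) (nat_lit 333) (nat_lit 182)) (XT.lf (nat_lit 0) (nat_lit 196425004252) (nat_lit 152) (nat_lit 658234794266) (nat_lit 0) (nat_lit 17572288448) (nat_lit 5) (nat_lit 5) (nat_lit 7) (nat_lit 4) (nat_lit 5) (nat_lit 4) (nat_lit 386) (nat_lit 333) (nat_lit 181))) (XT.nd (nat_lit 78) (nat_lit 0) (nat_lit 0) (XT.lf (nat_lit 0) (nat_lit 306553859685) (nat_lit 152) (nat_lit 499020269469) (nat_lit 0) (nat_lit 127701033789) (nat_lit 5) (nat_lit 5) (nat_lit 7) (nat_lit 4) (nat_lit 5) (nat_lit 4) (nat_lit 387) (nat_lit 333) (nat_lit 180)) (XT.lf (nat_lit 0) (nat_lit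 425492894665) (nat_lit 152) (nat_lit 327068833856) (nat_lit 0) (nat_lit 246639966832) (nat_lit 5) (nat_lit 5) (nat_lit 7) (nat_lit 4) (nat_lit 5) (nat_lit 4) (nat_lit 388) (nat_lit 333) (nat_lit 179)))))) (XT.nd (nat_lit 624) (nat_lit 76) (nat_lit 0) (XT.nd (nat_lit 312) (nat_lit 76) (nat_lit 0) (XT.nd (nat_lit 156) (nat_lit 0) (nat_lit 0) (XT.nd (nat_lit 78) (nat_lit 76) (nat_lit 0) (XT.lf (nat_lit 0) (nat_lit 553946933103) (nat_lit 152) (nat_lit 141361515957) (nat_lit 0) (nat_lit 375093910884) (nat_lit 5) (nat_lit 5) (nat_lit 7) (nat_lit 4) (nat_lit 5) (nat_lit 4) (nat_lit 389) (nat_lit 333) (nat_lit 178)) (XT.lf (nat_lit 0) (nat_lit 62319653501) (nat_lit 76) (nat_lit 631856319780) (nat_lit 76) (nat_lit 453003210167) (nat_lit 4) (nat_lit 4) (nat_lit 5) (nat_lit 5) (nat_lit 5) (nat_lit 4) (nat_lit 390) (nat_lit 333) (nat_lit 177))) (XT.nd (nat_lit 78) (nat_lit 0) (nat_lit 0) (XT.lf (nat_lit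 0) (nat_lit 290334461302) (nat_lit 76) (nat_lit 559153842369) (nat_lit 76) (nat_lit 380300651836) (nat_lit 4) (nat_lit 4) (nat_lit 5) (nat_lit 5) (nat_lit 5) (nat_lit 4) (nat_lit 391) (nat_lit 333) (nat_lit 176)) (XT.lf (nat_lit 0) (nat_lit 536590259390) (nat_lit 76) (nat_lit 480635261694) (nat_lit 76) (nat_lit 301781996234) (nat_lit 4) (nat_lit 4) (nat_lit 5) (nat_lit 5) (nat_lit 5) (nat_lit 4) (nat_lit 392) (nat_lit 333) (nat_lit 175)))) (XT.nd (nat_lit 156) (nat_lit 76) (nat_lit 0) (XT.nd (nat_lit 78) (nat_lit 0) (nat_lit 0) (XT.lf (nat_lit 0) (nat_lit 802546341382) (nat_lit 76) (nat_lit 395835282461) (nat_lit 76) (nat_lit 216981947624) (nat_lit 4) (nat_lit 4) (nat_lit 5) (nat_lit 5) (nat_lit 5) (nat_lit 4) (nat_lit 393) (nat_lit 333) (nat_lit 174)) (XT.lf (nat_lit 0) (nat_lit 1089778743321) (nat_lit 76) (nat_lit 304251386274) (nat_lit 76) (nat_lit 125397987200) (nat_lit 4) (nat_lit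 4) (nat_lit 5) (nat_lit 5) (nat_lit 5) (nat_lit 4) (nat_lit 394) (nat_lit 333) (nat_lit 173))) (XT.nd (nat_lit 78) (nat_lit 76) (nat_lit 0) (XT.lf (nat_lit 0) (nat_lit 1399989583143) (nat_lit 76) (nat_lit 205340853749) (nat_lit 76) (nat_lit 26487395195) (nat_lit 4) (nat_lit 4) (nat_lit 5) (nat_lit 5) (nat_lit 5) (nat_lit 4) (nat_lit 395) (nat_lit 333) (nat_lit 172)) (XT.lf (nat_lit 0) (nat_lit 76317234886) (nat_lit 152) (nat_lit 20113665062) (nat_lit 76) (nat_lit 1656613263974) (nat_lit 3) (nat_lit 5) (nat_lit 5) (nat_lit 5) (nat_lit 4) (nat_lit 4) (nat_lit 396) (nat_lit 333) (nat_lit 171))))) (XT.nd (nat_lit 312) (nat_lit 0) (nat_lit 0) (XT.nd (nat_lit 156) (nat_lit 0) (nat_lit 0) (XT.nd (nat_lit 78) (nat_lit 0) (nat_lit 0) (XT.lf (nat_lit 0) (nat_lit 191841391641) (nat_lit 152) (nat_lit 1665361839638) (nat_lit 0) (nat_lit 26236239214) (nat_lit 2) (nat_lit 5) (nat_lit 4) (nat_lit 4)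 (nat_lit 2) (nat_lit 4) (nat_lit 397) (nat_lit 333) (nat_lit 170)) (XT.lf (nat_lit 0) (nat_lit 319676338081) (nat_lit 152) (nat_lit 1550273413021) (nat_lit 0) (nat_lit 154071141936) (nat_lit 2) (nat_lit 5) (nat_lit 4) (nat_lit 4) (nat_lit 2) (nat_lit 4) (nat_lit 398) (nat_lit 333) (nat_lit 169))) (XT.nd (nat_lit 78) (nat_lit 0) (nat_lit 0) (XT.lf (nat_lit 0) (nat_lit 457738016308) (nat_lit 152) (nat_lit 1425978038526) (nat_lit 0) (nat_lit 292132779683) (nat_lit 2) (nat_lit 5) (nat_lit 4) (nat_lit 4) (nat_lit 2) (nat_lit 4) (nat_lit 399) (nat_lit 333) (nat_lit 168)) (XT.lf (nat_lit 0) (nat_lit 606844569602) (nat_lit 152) (nat_lit 1291739150971) (nat_lit 0) (nat_lit 441239295494) (nat_lit 2) (nat_lit 5) (nat_lit 4) (nat_lit 4) (nat_lit 2) (nat_lit 4) (nat_lit 400) (nat_lit 333) (nat_lit 167)))) (XT.nd (nat_lit 156) (nat_lit 0) (nat_lit 0) (XT.nd (nat_lit 78) (nat_lit 0) (nat_lit 0) (XT.lf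 (nat_lit 0) (nat_lit 767879592350) (nat_lit 152) (nat_lit 1146761260653) (nat_lit 0) (nat_lit 602274283538) (nat_lit 2) (nat_lit 5) (nat_lit 4) (nat_lit 4) (nat_lit 2) (nat_lit 4) (nat_lit 401) (nat_lit 333) (nat_lit 166)) (XT.lf (nat_lit 0) (nat_lit 941797366171) (nat_lit 152) (nat_lit 990185239332) (nat_lit 0) (nat_lit 776192025224) (nat_lit 2) (nat_lit 5) (nat_lit 4) (nat_lit 4) (nat_lit 2) (nat_lit 4) (nat_lit 402) (nat_lit 333) (nat_lit 165))) (XT.nd (nat_lit 78) (nat_lit 0) (nat_lit 0) (XT.lf (nat_lit 0) (nat_lit 1129628514909) (nat_lit 152) (nat_lit 821083229105) (nat_lit 0) (nat_lit 964023144207) (nat_lit 2) (nat_lit 5) (nat_lit 4) (nat_lit 4) (nat_lit 2) (nat_lit 4) (nat_lit 403) (nat_lit 333) (nat_lit 164)) (XT.nd (nat_lit 78) (nat_lit 0) (nat_lit 0) (XT.lf (nat_lit 0) (nat_lit 1332486112037) (nat_lit 152) (nat_lit 638453143984) (nat_lit 0) (nat_lit 1166880713784) (nat_lit 2)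 (nat_lit 5) (nat_lit 4) (nat_lit 4) (nat_lit 2) (nat_lit 4) (nat_lit 404) (nat_lit 333) (nat_lit 163)) (XT.lf (nat_lit 0) (nat_lit 1551572276650) (nat_lit 152) (nat_lit 441212731613) (nat_lit 0) (nat_lit 1385966852888) (nat_lit 2) (nat_lit 5) (nat_lit 4) (nat_lit 4) (nat_lit 2) (nat_lit 4) (nat_lit 405) (nat_lit 333) (nat_lit 162))))))))
noncomputable def xc191 : XT := (XT.nd (nat_lit 42432) (nat_lit 0) (nat_lit 1140) (XT.nd (nat_lit 41808) (nat_lit 0) (nat_lit 2660) (XT.nd (nat_lit 41496) (nat_lit 0) (nat_lit 3800) (XT.nd (nat_lit 41340) (nat_lit 0) (nat_lit 3724) (XT.nd (nat_lit 41262) (nat_lit 0) (nat_lit 3724) (XT.lf (nat_lit 0) (nat_lit 1788185297130) (nat_lit 152) (nat_lit 228193159920) (nat_lit 0) (nat_lit 1622579849748) (nat_lit 2) (nat_lit 5) (nat_lit 4) (nat_lit 4) (nat_lit 2) (nat_lit 4) (nat_lit 406) (nat_lit 333) (nat_lit 161)) (XT.lf (nat_lit 0) (nat_lit 20315789217) (nat_lit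 532) (nat_lit 3800984894) (nat_lit 532) (nat_lit 3800984894) (nat_lit 51) (nat_lit 3) (nat_lit 58) (nat_lit 3) (nat_lit 58) (nat_lit 5) (nat_lit 334) (nat_lit 334) (nat_lit 232))) (XT.nd (nat_lit 78) (nat_lit 0) (nat_lit 76) (XT.lf (nat_lit 76) (nat_lit 19553114669) (nat_lit 0) (nat_lit 23193359944) (nat_lit 532) (nat_lit 15283251664) (nat_lit 52) (nat_lit 5) (nat_lit 51) (nat_lit 3) (nat_lit 58) (nat_lit 5) (nat_lit 335) (nat_lit 334) (nat_lit 231)) (XT.lf (nat_lit 0) (nat_lit 45334461387) (nat_lit 456) (nat_lit 11169185333) (nat_lit 532) (nat_lit 3871516756) (nat_lit 52) (nat_lit 5) (nat_lit 58) (nat_lit 5) (nat_lit 59) (nat_lit 5) (nat_lit 336) (nat_lit 334) (nat_lit 230)))) (XT.nd (nat_lit 156) (nat_lit 0) (nat_lit 76) (XT.nd (nat_lit 78) (nat_lit 0) (nat_lit 0) (XT.lf (nat_lit 76) (nat_lit 18652281570) (nat_lit 0) (nat_lit 30526417548) (nat_lit 532) (nat_lit 13645603446) (nat_lit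 53) (nat_lit 5) (nat_lit 52) (nat_lit 5) (nat_lit 59) (nat_lit 5) (nat_lit 337) (nat_lit 334) (nat_lit 229)) (XT.lf (nat_lit 76) (nat_lit 51493506243) (nat_lit 0) (nat_lit 2140659670) (nat_lit 532) (nat_lit 11810915248) (nat_lit 53) (nat_lit 5) (nat_lit 52) (nat_lit 5) (nat_lit 59) (nat_lit 5) (nat_lit 338) (nat_lit 334) (nat_lit 228))) (XT.nd (nat_lit 78) (nat_lit 0) (nat_lit 0) (XT.lf (nat_lit 76) (nat_lit 18947302308) (nat_lit 0) (nat_lit 40638702514) (nat_lit 532) (nat_lit 8598325763) (nat_lit 54) (nat_lit 5) (nat_lit 53) (nat_lit 5) (nat_lit 60) (nat_lit 5) (nat_lit 339) (nat_lit 334) (nat_lit 227)) (XT.lf (nat_lit 76) (nat_lit 55211813653) (nat_lit 0) (nat_lit 11236360978) (nat_lit 532) (nat_lit 4659813702) (nat_lit 54) (nat_lit 5) (nat_lit 53) (nat_lit 5) (nat_lit 60) (nat_lit 5) (nat_lit 340) (nat_lit 334) (nat_lit 226))))) (XT.nd (nat_lit 312) (nat_lit 456) (nat_lit 0) (XT.nd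 (nat_lit 156) (nat_lit 304) (nat_lit 0) (XT.nd (nat_lit 78) (nat_lit 0) (nat_lit 0) (XT.lf (nat_lit 0) (nat_lit 628525723) (nat_lit 532) (nat_lit 53552073902) (nat_lit 76) (nat_lit 20004569234) (nat_lit 47) (nat_lit 5) (nat_lit 54) (nat_lit 5) (nat_lit 48) (nat_lit 5) (nat_lit 341) (nat_lit 334) (nat_lit 225)) (XT.lf (nat_lit 0) (nat_lit 6824634016) (nat_lit 532) (nat_lit 16910451085) (nat_lit 76) (nat_lit 53704842223) (nat_lit 47) (nat_lit 5) (nat_lit 54) (nat_lit 5) (nat_lit 48) (nat_lit 5) (nat_lit 342) (nat_lit 334) (nat_lit 224))) (XT.nd (nat_lit 78) (nat_lit 0) (nat_lit 0) (XT.lf (nat_lit 0) (nat_lit 14323780004) (nat_lit 380) (nat_lit 57289492188) (nat_lit 76) (nat_lit 9277208613) (nat_lit 43) (nat_lit 5) (nat_lit 48) (nat_lit 5) (nat_lit 44) (nat_lit 5) (nat_lit 343) (nat_lit 334) (nat_lit 223)) (XT.lf (nat_lit 0) (nat_lit 23512566528) (nat_lit 380) (nat_lit 16894768330) (nat_lit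 76) (nat_lit 44122569088) (nat_lit 43) (nat_lit 5) (nat_lit 48) (nat_lit 5) (nat_lit 44) (nat_lit 5) (nat_lit 344) (nat_lit 334) (nat_lit 222)))) (XT.nd (nat_lit 156) (nat_lit 228) (nat_lit 0) (XT.nd (nat_lit 78) (nat_lit 0) (nat_lit 0) (XT.lf (nat_lit 0) (nat_lit 28137970314) (nat_lit 228) (nat_lit 5974132344) (nat_lit 304) (nat_lit 54294328484) (nat_lit 40) (nat_lit 5) (nat_lit 43) (nat_lit 5) (nat_lit 44) (nat_lit 5) (nat_lit 345) (nat_lit 334) (nat_lit 221)) (XT.lf (nat_lit 0) (nat_lit 46783202102) (nat_lit 304) (nat_lit 15585857233) (nat_lit 76) (nat_lit 30126134939) (nat_lit 40) (nat_lit 5) (nat_lit 44) (nat_lit 5) (nat_lit 41) (nat_lit 5) (nat_lit 346) (nat_lit 334) (nat_lit 220))) (XT.nd (nat_lit 78) (nat_lit 0) (nat_lit 0) (XT.lf (nat_lit 0) (nat_lit 34227266345) (nat_lit 228) (nat_lit 27218116067) (nat_lit 304) (nat_lit 35387486271) (nat_lit 37) (nat_lit 5) (nat_lit 40) (nat_lit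 5) (nat_lit 41) (nat_lit 5) (nat_lit 347) (nat_lit 334) (nat_lit 219)) (XT.lf (nat_lit 0) (nat_lit 77975260106) (nat_lit 304) (nat_lit 12842272120) (nat_lit 76) (nat_lit 10644448523) (nat_lit 37) (nat_lit 5) (nat_lit 41) (nat_lit 5) (nat_lit 38) (nat_lit 5) (nat_lit 348) (nat_lit 334) (nat_lit 218)))))) (XT.nd (nat_lit 624) (nat_lit 532) (nat_lit 0) (XT.nd (nat_lit 312) (nat_lit 532) (nat_lit 0) (XT.nd (nat_lit 156) (nat_lit 228) (nat_lit 0) (XT.nd (nat_lit 78) (nat_lit 76) (nat_lit 0) (XT.lf (nat_lit 0) (nat_lit 42310651221) (nat_lit 152) (nat_lit 55240574258) (nat_lit 228) (nat_lit 8772301926) (nat_lit 35) (nat_lit 5) (nat_lit 37) (nat_lit 5) (nat_lit 38) (nat_lit 5) (nat_lit 349) (nat_lit 334) (nat_lit 217)) (XT.lf (nat_lit 0) (nat_lit 7122562765) (nat_lit 228) (nat_lit 9121163567) (nat_lit 76) (nat_lit 95287821018) (nat_lit 34) (nat_lit 5) (nat_lit 37) (nat_lit 5) (nat_lit 35) (nat_lit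 5) (nat_lit 350) (nat_lit 334) (nat_lit 216))) (XT.nd (nat_lit 78) (nat_lit 0) (nat_lit 0) (XT.lf (nat_lit 0) (nat_lit 25739439652) (nat_lit 304) (nat_lit 65135480928) (nat_lit 76) (nat_lit 26109112866) (nat_lit 31) (nat_lit 5) (nat_lit 35) (nat_lit 5) (nat_lit 32) (nat_lit 5) (nat_lit 351) (nat_lit 334) (nat_lit 215)) (XT.lf (nat_lit 0) (nat_lit 46522712798) (nat_lit 304) (nat_lit 5067611051) (nat_lit 76) (nat_lit 71228231939) (nat_lit 31) (nat_lit 5) (nat_lit 35) (nat_lit 5) (nat_lit 32) (nat_lit 5) (nat_lit 352) (nat_lit 334) (nat_lit 214)))) (XT.nd (nat_lit 156) (nat_lit 228) (nat_lit 0) (XT.nd (nat_lit 78) (nat_lit 152) (nat_lit 0) (XT.lf (nat_lit 0) (nat_lit 62953950280) (nat_lit 152) (nat_lit 7528060730) (nat_lit 228) (nat_lit 58516760819) (nat_lit 29) (nat_lit 5) (nat_lit 31) (nat_lit 5) (nat_lit 32) (nat_lit 5) (nat_lit 353) (nat_lit 334) (nat_lit 213)) (XT.lf (nat_lit 0) (nat_lit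 79075769) (nat_lit 152) (nat_lit 97385800571) (nat_lit 228) (nat_lit 38119983850) (nat_lit 27) (nat_lit 5) (nat_lit 29) (nat_lit 5) (nat_lit 30) (nat_lit 5) (nat_lit 354) (nat_lit 334) (nat_lit 212))) (XT.nd (nat_lit 78) (nat_lit 228) (nat_lit 0) (XT.lf (nat_lit 0) (nat_lit 75042134295) (nat_lit 152) (nat_lit 53559969719) (nat_lit 228) (nat_lit 13936073788) (nat_lit 27) (nat_lit 5) (nat_lit 29) (nat_lit 5) (nat_lit 30) (nat_lit 5) (nat_lit 355) (nat_lit 334) (nat_lit 211)) (XT.lf (nat_lit 0) (nat_lit 5958652183) (nat_lit 152) (nat_lit 5757179960) (nat_lit 228) (nat_lit 138297073864) (nat_lit 24) (nat_lit 5) (nat_lit 26) (nat_lit 5) (nat_lit 27) (nat_lit 5) (nat_lit 356) (nat_lit 334) (nat_lit 210))))) (XT.nd (nat_lit 312) (nat_lit 304) (nat_lit 0) (XT.nd (nat_lit 156) (nat_lit 76) (nat_lit 0) (XT.nd (nat_lit 78) (nat_lit 152) (nat_lit 0) (XT.lf (nat_lit 0) (nat_lit 41662960341) (nat_lit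 228) (nat_lit 70323699166) (nat_lit 76) (nat_lit 45830317164) (nat_lit 24) (nat_lit 5) (nat_lit 27) (nat_lit 5) (nat_lit 25) (nat_lit 5) (nat_lit 357) (nat_lit 334) (nat_lit 209)) (XT.lf (nat_lit 0) (nat_lit 9636986064) (nat_lit 152) (nat_lit 64749636712) (nat_lit 228) (nat_lit 91828289706) (nat_lit 22) (nat_lit 5) (nat_lit 24) (nat_lit 5) (nat_lit 25) (nat_lit 5) (nat_lit 358) (nat_lit 334) (nat_lit 208))) (XT.nd (nat_lit 78) (nat_lit 76) (nat_lit 0) (XT.lf (nat_lit 0) (nat_lit 99993061179) (nat_lit 152) (nat_lit 11657368787) (nat_lit 228) (nat_lit 63480473616) (nat_lit 22) (nat_lit 5) (nat_lit 24) (nat_lit 5) (nat_lit 25) (nat_lit 5) (nat_lit 359) (nat_lit 334) (nat_lit 207)) (XT.lf (nat_lit 0) (nat_lit 12335030188) (nat_lit 76) (nat_lit 140955138215) (nat_lit 152) (nat_lit 31358419957) (nat_lit 21) (nat_lit 5) (nat_lit 22) (nat_lit 5) (nat_lit 23) (nat_lit 4) (nat_lit 360) (nat_lit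 334) (nat_lit 206)))) (XT.nd (nat_lit 156) (nat_lit 76) (nat_lit 0) (XT.nd (nat_lit 78) (nat_lit 152) (nat_lit 0) (XT.lf (nat_lit 0) (nat_lit 5576713240) (nat_lit 152) (nat_lit 84121577712) (nat_lit 76) (nat_lit 105030178728) (nat_lit 20) (nat_lit 5) (nat_lit 22) (nat_lit 5) (nat_lit 21) (nat_lit 5) (nat_lit 361) (nat_lit 334) (nat_lit 205)) (XT.lf (nat_lit 0) (nat_lit 10853437827) (nat_lit 152) (nat_lit 33179625212) (nat_lit 228) (nat_lit 161495672518) (nat_lit 18) (nat_lit 5) (nat_lit 20) (nat_lit 5) (nat_lit 21) (nat_lit 5) (nat_lit 362) (nat_lit 334) (nat_lit 204))) (XT.nd (nat_lit 78) (nat_lit 76) (nat_lit 0) (XT.lf (nat_lit 0) (nat_lit 88595299706) (nat_lit 228) (nat_lit 99529045222) (nat_lit 76) (nat_lit 28826327851) (nat_lit 18) (nat_lit 5) (nat_lit 21) (nat_lit 5) (nat_lit 19) (nat_lit 4) (nat_lit 363) (nat_lit 334) (nat_lit 203)) (XT.nd (nat_lit 78) (nat_lit 0) (nat_lit 0) (XT.lf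 (nat_lit 0) (nat_lit 2491004737) (nat_lit 76) (nat_lit 135152818709) (nat_lit 152) (nat_lit 91568837239) (nat_lit 17) (nat_lit 5) (nat_lit 18) (nat_lit 5) (nat_lit 19) (nat_lit 4) (nat_lit 364) (nat_lit 334) (nat_lit 202)) (XT.lf (nat_lit 0) (nat_lit 118332277071) (nat_lit 76) (nat_lit 75004857245) (nat_lit 152) (nat_lit 48900801217) (nat_lit 17) (nat_lit 5) (nat_lit 18) (nat_lit 5) (nat_lit 19) (nat_lit 4) (nat_lit 365) (nat_lit 334) (nat_lit 201))))))))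
noncomputable def xc192 : XT := (XT.nd (nat_lit 1248) (nat_lit 380) (nat_lit 0) (XT.nd (nat_lit 624) (nat_lit 304) (nat_lit 0) (XT.nd (nat_lit 312) (nat_lit 152) (nat_lit 0) (XT.nd (nat_lit 156) (nat_lit 76) (nat_lit 0) (XT.nd (nat_lit 78) (nat_lit 152) (nat_lit 0) (XT.lf (nat_lit 0) (nat_lit 243440215438) (nat_lit 76) (nat_lit 10045328651) (nat_lit 152) (nat_lit 2819717865) (nat_lit 17) (nat_lit 5) (nat_lit 18) (nat_lit 5) (nat_lit 19) (nat_lit 4) (nat_lit 366) (nat_lit 334) (nat_lit 200)) (XT.lf (nat_lit 0) (nat_lit 48825379025) (nat_lit 152) (nat_lit 161230632348) (nat_lit 76) (nat_lit 61013551732) (nat_lit 15) (nat_lit 5) (nat_lit 17) (nat_lit 5) (nat_lit 16) (nat_lit 4) (nat_lit 367) (nat_lit 334) (nat_lit 199))) (XT.nd (nat_lit 78) (nat_lit 76) (nat_lit 0) (XT.lf (nat_lit 0) (nat_lit 105071210371) (nat_lit 152) (nat_lit 44239901666) (nat_lit 76) (nat_lit 137648320223) (nat_lit 15)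 (nat_lit 5) (nat_lit 17) (nat_lit 5) (nat_lit 16) (nat_lit 4) (nat_lit 368) (nat_lit 334) (nat_lit 198)) (XT.lf (nat_lit 0) (nat_lit 86433261799) (nat_lit 76) (nat_lit 81461851288) (nat_lit 152) (nat_lit 136059105698) (nat_lit 14) (nat_lit 5) (nat_lit 15) (nat_lit 5) (nat_lit 16) (nat_lit 4) (nat_lit 369) (nat_lit 334) (nat_lit 197)))) (XT.nd (nat_lit 156) (nat_lit 76) (nat_lit 0) (XT.nd (nat_lit 78) (nat_lit 76) (nat_lit 0) (XT.lf (nat_lit 0) (nat_lit 230075687635) (nat_lit 76) (nat_lit 6878530725) (nat_lit 152) (nat_lit 85257626851) (nat_lit 14) (nat_lit 5) (nat_lit 15) (nat_lit 5) (nat_lit 16) (nat_lit 4) (nat_lit 370) (nat_lit 334) (nat_lit 196)) (XT.lf (nat_lit 0) (nat_lit 43692786028) (nat_lit 76) (nat_lit 270667589144) (nat_lit 76) (nat_lit 27343920923) (nat_lit 13) (nat_lit 4) (nat_lit 14) (nat_lit 5) (nat_lit 14) (nat_lit 4) (nat_lit 371) (nat_lit 334) (nat_lit 195))) (XT.nd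 (nat_lit 78) (nat_lit 0) (nat_lit 0) (XT.lf (nat_lit 0) (nat_lit 36204864489) (nat_lit 152) (nat_lit 168017957424) (nat_lit 76) (nat_lit 158244552992) (nat_lit 12) (nat_lit 5) (nat_lit 14) (nat_lit 5) (nat_lit 13) (nat_lit 4) (nat_lit 372) (nat_lit 334) (nat_lit 194)) (XT.lf (nat_lit 0) (nat_lit 103360003988) (nat_lit 152) (nat_lit 28335644434) (nat_lit 76) (nat_lit 253139054558) (nat_lit 12) (nat_lit 5) (nat_lit 14) (nat_lit 5) (nat_lit 13) (nat_lit 4) (nat_lit 373) (nat_lit 334) (nat_lit 193))))) (XT.nd (nat_lit 312) (nat_lit 152) (nat_lit 0) (XT.nd (nat_lit 156) (nat_lit 76) (nat_lit 0) (XT.nd (nat_lit 78) (nat_lit 0) (nat_lit 0) (XT.lf (nat_lit 0) (nat_lit 128972525991) (nat_lit 76) (nat_lit 50016573985) (nat_lit 152) (nat_lit 229754193839) (nat_lit 11) (nat_lit 5) (nat_lit 12) (nat_lit 5) (nat_lit 13) (nat_lit 4) (nat_lit 374) (nat_lit 334) (nat_lit 192)) (XT.lf (nat_lit 0) (nat_lit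 262381783931) (nat_lit 152) (nat_lit 134964985326) (nat_lit 0) (nat_lit 37080741968) (nat_lit 11) (nat_lit 5) (nat_lit 13) (nat_lit 4) (nat_lit 11) (nat_lit 4) (nat_lit 375) (nat_lit 334) (nat_lit 191))) (XT.nd (nat_lit 78) (nat_lit 0) (nat_lit 0) (XT.lf (nat_lit 0) (nat_lit 21185487302) (nat_lit 76) (nat_lit 333068812339) (nat_lit 76) (nat_lit 107767493146) (nat_lit 10) (nat_lit 4) (nat_lit 11) (nat_lit 5) (nat_lit 11) (nat_lit 4) (nat_lit 376) (nat_lit 334) (nat_lit 190)) (XT.lf (nat_lit 0) (nat_lit 197503162239) (nat_lit 76) (nat_lit 259663416818) (nat_lit 76) (nat_lit 34361840931) (nat_lit 10) (nat_lit 4) (nat_lit 11) (nat_lit 5) (nat_lit 11) (nat_lit 4) (nat_lit 377) (nat_lit 334) (nat_lit 189)))) (XT.nd (nat_lit 156) (nat_lit 0) (nat_lit 0) (XT.nd (nat_lit 78) (nat_lit 76) (nat_lit 0) (XT.lf (nat_lit 0) (nat_lit 42669161500) (nat_lit 152) (nat_lit 136549957644) (nat_lit 76) (nat_lit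 344090056025) (nat_lit 9) (nat_lit 5) (nat_lit 11) (nat_lit 5) (nat_lit 10) (nat_lit 4) (nat_lit 378) (nat_lit 334) (nat_lit 188)) (XT.lf (nat_lit 0) (nat_lit 34348749661) (nat_lit 76) (nat_lit 90483357694) (nat_lit 152) (nat_lit 432662810659) (nat_lit 8) (nat_lit 5) (nat_lit 9) (nat_lit 5) (nat_lit 10) (nat_lit 4) (nat_lit 379) (nat_lit 334) (nat_lit 187))) (XT.nd (nat_lit 78) (nat_lit 0) (nat_lit 0) (XT.lf (nat_lit 0) (nat_lit 217527087839) (nat_lit 152) (nat_lit 367657807566) (nat_lit 0) (nat_lit 8913905049) (nat_lit 8) (nat_lit 5) (nat_lit 10) (nat_lit 4) (nat_lit 8) (nat_lit 4) (nat_lit 380) (nat_lit 334) (nat_lit 186)) (XT.lf (nat_lit 0) (nat_lit 319987706616) (nat_lit 152) (nat_lit 202080934635) (nat_lit 0) (nat_lit 111374349125) (nat_lit 8) (nat_lit 5) (nat_lit 10) (nat_lit 4) (nat_lit 8) (nat_lit 4) (nat_lit 381) (nat_lit 334) (nat_lit 185)))))) (XT.nd (nat_lit 624) (nat_lit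 152) (nat_lit 0) (XT.nd (nat_lit 312) (nat_lit 76) (nat_lit 0) (XT.nd (nat_lit 156) (nat_lit 76) (nat_lit 0) (XT.nd (nat_lit 78) (nat_lit 76) (nat_lit 0) (XT.lf (nat_lit 0) (nat_lit 430645010797) (nat_lit 152) (nat_lit 23258226348) (nat_lit 0) (nat_lit 222031491545) (nat_lit 8) (nat_lit 5) (nat_lit 10) (nat_lit 4) (nat_lit 8) (nat_lit 4) (nat_lit 382) (nat_lit 334) (nat_lit 184)) (XT.lf (nat_lit 0) (nat_lit 178815060971) (nat_lit 76) (nat_lit 375640192913) (nat_lit 76) (nat_lit 167026523883) (nat_lit 7) (nat_lit 4) (nat_lit 8) (nat_lit 5) (nat_lit 8) (nat_lit 4) (nat_lit 383) (nat_lit 334) (nat_lit 183))) (XT.nd (nat_lit 78) (nat_lit 76) (nat_lit 0) (XT.lf (nat_lit 0) (nat_lit 398376643406) (nat_lit 76) (nat_lit 290429446627) (nat_lit 76) (nat_lit 81815638913) (nat_lit 7) (nat_lit 4) (nat_lit 8) (nat_lit 5) (nat_lit 8) (nat_lit 4) (nat_lit 384) (nat_lit 334) (nat_lit 182)) (XT.lf (nat_lit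 0) (nat_lit 9701125222) (nat_lit 152) (nat_lit 188435595661) (nat_lit 76) (nat_lit 625536518467) (nat_lit 6) (nat_lit 5) (nat_lit 8) (nat_lit 5) (nat_lit 7) (nat_lit 4) (nat_lit 385) (nat_lit 334) (nat_lit 181)))) (XT.nd (nat_lit 156) (nat_lit 0) (nat_lit 0) (XT.nd (nat_lit 78) (nat_lit 0) (nat_lit 0) (XT.lf (nat_lit 0) (nat_lit 8372129494) (nat_lit 76) (nat_lit 95948151523) (nat_lit 152) (nat_lit 776462485488) (nat_lit 5) (nat_lit 5) (nat_lit 6) (nat_lit 5) (nat_lit 7) (nat_lit 4) (nat_lit 386) (nat_lit 334) (nat_lit 180)) (XT.lf (nat_lit 0) (nat_lit 212141519134) (nat_lit 152) (nat_lit 710888677617) (nat_lit 0) (nat_lit 18980255138) (nat_lit 5) (nat_lit 5) (nat_lit 7) (nat_lit 4) (nat_lit 5) (nat_lit 4) (nat_lit 387) (nat_lit 334) (nat_lit 179))) (XT.nd (nat_lit 78) (nat_lit 0) (nat_lit 0) (XT.lf (nat_lit 0) (nat_lit 331080496739) (nat_lit 152) (nat_lit 538937353813) (nat_lit 0) (nat_lit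 137919138357) (nat_lit 5) (nat_lit 5) (nat_lit 7) (nat_lit 4) (nat_lit 5) (nat_lit 4) (nat_lit 388) (nat_lit 334) (nat_lit 178)) (XT.lf (nat_lit 0) (nat_lit 459534482052) (nat_lit 152) (nat_lit 353230139441) (nat_lit 0) (nat_lit 266373036276) (nat_lit 5) (nat_lit 5) (nat_lit 7) (nat_lit 4) (nat_lit 5) (nat_lit 4) (nat_lit 389) (nat_lit 334) (nat_lit 177))))) (XT.nd (nat_lit 312) (nat_lit 76) (nat_lit 0) (XT.nd (nat_lit 156) (nat_lit 0) (nat_lit 0) (XT.nd (nat_lit 78) (nat_lit 76) (nat_lit 0) (XT.lf (nat_lit 0) (nat_lit 598264683876) (nat_lit 152) (nat_lit 152666547304) (nat_lit 0) (nat_lit 405103157179) (nat_lit 5) (nat_lit 5) (nat_lit 7) (nat_lit 4) (nat_lit 5) (nat_lit 4) (nat_lit 390) (nat_lit 334) (nat_lit 176)) (XT.lf (nat_lit 0) (nat_lit 67309017232) (nat_lit 76) (nat_lit 682402973360) (nat_lit 76) (nat_lit 489241371736) (nat_lit 4) (nat_lit 4) (nat_lit 5) (nat_lit 5) (nat_lit 5)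 (nat_lit 4) (nat_lit 391) (nat_lit 334) (nat_lit 175))) (XT.nd (nat_lit 78) (nat_lit 0) (nat_lit 0) (XT.lf (nat_lit 0) (nat_lit 313564728809) (nat_lit 76) (nat_lit 603884434942) (nat_lit 76) (nat_lit 410722763942) (nat_lit 4) (nat_lit 4) (nat_lit 5) (nat_lit 5) (nat_lit 5) (nat_lit 4) (nat_lit 392) (nat_lit 334) (nat_lit 174)) (XT.lf (nat_lit 0) (nat_lit 579520730699) (nat_lit 76) (nat_lit 519084494836) (nat_lit 76) (nat_lit 325922759599) (nat_lit 4) (nat_lit 4) (nat_lit 5) (nat_lit 5) (nat_lit 5) (nat_lit 4) (nat_lit 393) (nat_lit 334) (nat_lit 173)))) (XT.nd (nat_lit 156) (nat_lit 76) (nat_lit 0) (XT.nd (nat_lit 78) (nat_lit 0) (nat_lit 0) (XT.lf (nat_lit 0) (nat_lit 866753058468) (nat_lit 76) (nat_lit 427500634879) (nat_lit 76) (nat_lit 234338840162) (nat_lit 4) (nat_lit 4) (nat_lit 5) (nat_lit 5) (nat_lit 5) (nat_lit 4) (nat_lit 394) (nat_lit 334) (nat_lit 172)) (XT.lf (nat_lit 0)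 (nat_lit 1176963829616) (nat_lit 76) (nat_lit 328590135899) (nat_lit 76) (nat_lit 135428286109) (nat_lit 4) (nat_lit 4) (nat_lit 5) (nat_lit 5) (nat_lit 5) (nat_lit 4) (nat_lit 395) (nat_lit 334) (nat_lit 171))) (XT.nd (nat_lit 78) (nat_lit 76) (nat_lit 0) (XT.lf (nat_lit 0) (nat_lit 1511991330192) (nat_lit 76) (nat_lit 221766861607) (nat_lit 76) (nat_lit 28604960824) (nat_lit 4) (nat_lit 4) (nat_lit 5) (nat_lit 5) (nat_lit 5) (nat_lit 4) (nat_lit 396) (nat_lit 334) (nat_lit 170)) (XT.lf (nat_lit 0) (nat_lit 82423867986) (nat_lit 152) (nat_lit 21720302587) (nat_lit 76) (nat_lit 1789143425744) (nat_lit 3) (nat_lit 5) (nat_lit 5) (nat_lit 5) (nat_lit 4) (nat_lit 4) (nat_lit 397) (nat_lit 334) (nat_lit 169)))))))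
noncomputable def xc193 : XT := (XT.nd (nat_lit 42588) (nat_lit 0) (nat_lit 1520) (XT.nd (nat_lit 41964) (nat_lit 0) (nat_lit 3420) (XT.nd (nat_lit 312) (nat_lit 0) (nat_lit 0) (XT.nd (nat_lit 156) (nat_lit 0) (nat_lit 0) (XT.nd (nat_lit 78) (nat_lit 0) (nat_lit 0) (XT.lf (nat_lit 0) (nat_lit 207189950181) (nat_lit 152) (nat_lit 1798588323684) (nat_lit 0) (nat_lit 28336254145) (nat_lit 2) (nat_lit 5) (nat_lit 4) (nat_lit 4) (nat_lit 2) (nat_lit 4) (nat_lit 398) (nat_lit 334) (nat_lit 168)) (XT.lf (nat_lit 0) (nat_lit 345251599951) (nat_lit 152) (nat_lit 1674293005391) (nat_lit 0) (nat_lit 166397866433) (nat_lit 2) (nat_lit 5) (nat_lit 4) (nat_lit 4) (nat_lit 2) (nat_lit 4) (nat_lit 399) (nat_lit 334) (nat_lit 167))) (XT.nd (nat_lit 78) (nat_lit 0) (nat_lit 0) (XT.lf (nat_lit 0) (nat_lit 494358126894) (nat_lit 152) (nat_lit 1540054169875) (nat_lit 0) (nat_lit 315504358671) (nat_lit 2)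 (nat_lit 5) (nat_lit 4) (nat_lit 4) (nat_lit 2) (nat_lit 4) (nat_lit 400) (nat_lit 334) (nat_lit 166)) (XT.lf (nat_lit 0) (nat_lit 655393125245) (nat_lit 152) (nat_lit 1395076327741) (nat_lit 0) (nat_lit 476539324887) (nat_lit 2) (nat_lit 5) (nat_lit 4) (nat_lit 4) (nat_lit 2) (nat_lit 4) (nat_lit 401) (nat_lit 334) (nat_lit 165)))) (XT.nd (nat_lit 156) (nat_lit 0) (nat_lit 0) (XT.nd (nat_lit 78) (nat_lit 0) (nat_lit 0) (XT.lf (nat_lit 0) (nat_lit 829310876475) (nat_lit 152) (nat_lit 1238500351035) (nat_lit 0) (nat_lit 650457046362) (nat_lit 2) (nat_lit 5) (nat_lit 4) (nat_lit 4) (nat_lit 2) (nat_lit 4) (nat_lit 402) (nat_lit 334) (nat_lit 164)) (XT.lf (nat_lit 0) (nat_lit 1017142004295) (nat_lit 152) (nat_lit 1069398382117) (nat_lit 0) (nat_lit 838288146632) (nat_lit 2) (nat_lit 5) (nat_lit 4) (nat_lit 4) (nat_lit 2) (nat_lit 4) (nat_lit 403) (nat_lit 334) (nat_lit 163))) (XT.nd (nat_lit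 78) (nat_lit 0) (nat_lit 0) (XT.lf (nat_lit 0) (nat_lit 1219999582055) (nat_lit 152) (nat_lit 886768335246) (nat_lit 0) (nat_lit 1041145698882) (nat_lit 2) (nat_lit 5) (nat_lit 4) (nat_lit 4) (nat_lit 2) (nat_lit 4) (nat_lit 404) (nat_lit 334) (nat_lit 162)) (XT.lf (nat_lit 0) (nat_lit 1439085728734) (nat_lit 152) (nat_lit 689527958292) (nat_lit 0) (nat_lit 1260231821942) (nat_lit 2) (nat_lit 5) (nat_lit 4) (nat_lit 4) (nat_lit 2) (nat_lit 4) (nat_lit 405) (nat_lit 334) (nat_lit 161))))) (XT.nd (nat_lit 312) (nat_lit 304) (nat_lit 0) (XT.nd (nat_lit 156) (nat_lit 0) (nat_lit 76) (XT.nd (nat_lit 78) (nat_lit 0) (nat_lit 0) (XT.lf (nat_lit 0) (nat_lit 21959966425) (nat_lit 532) (nat_lit 4094829685) (nat_lit 532) (nat_lit 4094829685) (nat_lit 51) (nat_lit 3) (nat_lit 58) (nat_lit 3) (nat_lit 58) (nat_lit 5) (nat_lit 335) (nat_lit 335) (nat_lit 230)) (XT.lf (nat_lit 76) (nat_lit 21137313667)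 (nat_lit 0) (nat_lit 25064384767) (nat_lit 532) (nat_lit 16467489913) (nat_lit 52) (nat_lit 5) (nat_lit 51) (nat_lit 3) (nat_lit 58) (nat_lit 5) (nat_lit 336) (nat_lit 335) (nat_lit 229))) (XT.nd (nat_lit 78) (nat_lit 0) (nat_lit 0) (XT.lf (nat_lit 0) (nat_lit 48993747676) (nat_lit 456) (nat_lit 12041201661) (nat_lit 532) (nat_lit 4167554900) (nat_lit 52) (nat_lit 5) (nat_lit 58) (nat_lit 5) (nat_lit 59) (nat_lit 5) (nat_lit 337) (nat_lit 335) (nat_lit 228)) (XT.lf (nat_lit 76) (nat_lit 20165437822) (nat_lit 0) (nat_lit 32978181438) (nat_lit 532) (nat_lit 14704112788) (nat_lit 53) (nat_lit 5) (nat_lit 52) (nat_lit 5) (nat_lit 59) (nat_lit 5) (nat_lit 338) (nat_lit 335) (nat_lit 227)))) (XT.nd (nat_lit 156) (nat_lit 380) (nat_lit 0) (XT.nd (nat_lit 78) (nat_lit 0) (nat_lit 76) (XT.lf (nat_lit 76) (nat_lit 55632406860) (nat_lit 0) (nat_lit 2320848079) (nat_lit 532) (nat_lit 12725104269)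 (nat_lit 53) (nat_lit 5) (nat_lit 52) (nat_lit 5) (nat_lit 59) (nat_lit 5) (nat_lit 339) (nat_lit 335) (nat_lit 226)) (XT.lf (nat_lit 76) (nat_lit 20484493920) (nat_lit 0) (nat_lit 43894962479) (nat_lit 532) (nat_lit 9257439394) (nat_lit 54) (nat_lit 5) (nat_lit 53) (nat_lit 5) (nat_lit 60) (nat_lit 5) (nat_lit 340) (nat_lit 335) (nat_lit 225))) (XT.nd (nat_lit 78) (nat_lit 456) (nat_lit 0) (XT.lf (nat_lit 76) (nat_lit 59648580438) (nat_lit 0) (nat_lit 12140051120) (nat_lit 532) (nat_lit 5005976178) (nat_lit 54) (nat_lit 5) (nat_lit 53) (nat_lit 5) (nat_lit 60) (nat_lit 5) (nat_lit 341) (nat_lit 335) (nat_lit 224)) (XT.lf (nat_lit 0) (nat_lit 702644047) (nat_lit 532) (nat_lit 57813540059) (nat_lit 76) (nat_lit 21601847271) (nat_lit 47) (nat_lit 5) (nat_lit 54) (nat_lit 5) (nat_lit 48) (nat_lit 5) (nat_lit 342) (nat_lit 335) (nat_lit 223)))))) (XT.nd (nat_lit 624) (nat_lit 988) (nat_lit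 0) (XT.nd (nat_lit 312) (nat_lit 380) (nat_lit 0) (XT.nd (nat_lit 156) (nat_lit 228) (nat_lit 0) (XT.nd (nat_lit 78) (nat_lit 304) (nat_lit 0) (XT.lf (nat_lit 0) (nat_lit 7392675354) (nat_lit 532) (nat_lit 18242268880) (nat_lit 76) (nat_lit 57998370802) (nat_lit 47) (nat_lit 5) (nat_lit 54) (nat_lit 5) (nat_lit 48) (nat_lit 5) (nat_lit 343) (nat_lit 335) (nat_lit 222)) (XT.lf (nat_lit 0) (nat_lit 15490600217) (nat_lit 380) (nat_lit 61850442666) (nat_lit 76) (nat_lit 10018965160) (nat_lit 43) (nat_lit 5) (nat_lit 48) (nat_lit 5) (nat_lit 44) (nat_lit 5) (nat_lit 344) (nat_lit 335) (nat_lit 221))) (XT.nd (nat_lit 78) (nat_lit 228) (nat_lit 0) (XT.lf (nat_lit 0) (nat_lit 25412940196) (nat_lit 380) (nat_lit 18225786003) (nat_lit 76) (nat_lit 47651985594) (nat_lit 43) (nat_lit 5) (nat_lit 48) (nat_lit 5) (nat_lit 44) (nat_lit 5) (nat_lit 345) (nat_lit 335) (nat_lit 220)) (XT.lf (nat_lit 0)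 (nat_lit 30409051130) (nat_lit 228) (nat_lit 6450435432) (nat_lit 304) (nat_lit 58617953407) (nat_lit 40) (nat_lit 5) (nat_lit 43) (nat_lit 5) (nat_lit 44) (nat_lit 5) (nat_lit 346) (nat_lit 335) (nat_lit 219)))) (XT.nd (nat_lit 156) (nat_lit 152) (nat_lit 0) (XT.nd (nat_lit 78) (nat_lit 228) (nat_lit 0) (XT.lf (nat_lit 0) (nat_lit 50542946079) (nat_lit 304) (nat_lit 16812809411) (nat_lit 76) (nat_lit 32537657293) (nat_lit 40) (nat_lit 5) (nat_lit 44) (nat_lit 5) (nat_lit 41) (nat_lit 5) (nat_lit 347) (nat_lit 335) (nat_lit 218)) (XT.lf (nat_lit 0) (nat_lit 36984859841) (nat_lit 228) (nat_lit 29392442074) (nat_lit 304) (nat_lit 38200865367) (nat_lit 37) (nat_lit 5) (nat_lit 40) (nat_lit 5) (nat_lit 41) (nat_lit 5) (nat_lit 348) (nat_lit 335) (nat_lit 217))) (XT.nd (nat_lit 78) (nat_lit 152) (nat_lit 0) (XT.lf (nat_lit 0) (nat_lit 84228432788) (nat_lit 304) (nat_lit 13850516880) (nat_lit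 76) (nat_lit 11498751664) (nat_lit 37) (nat_lit 5) (nat_lit 41) (nat_lit 5) (nat_lit 38) (nat_lit 5) (nat_lit 349) (nat_lit 335) (nat_lit 216)) (XT.lf (nat_lit 0) (nat_lit 45714155847) (nat_lit 152) (nat_lit 59655645777) (nat_lit 228) (nat_lit 9458425905) (nat_lit 35) (nat_lit 5) (nat_lit 37) (nat_lit 5) (nat_lit 38) (nat_lit 5) (nat_lit 350) (nat_lit 335) (nat_lit 215))))) (XT.nd (nat_lit 312) (nat_lit 532) (nat_lit 0) (XT.nd (nat_lit 156) (nat_lit 152) (nat_lit 0) (XT.nd (nat_lit 78) (nat_lit 228) (nat_lit 0) (XT.lf (nat_lit 0) (nat_lit 7706142593) (nat_lit 228) (nat_lit 9832840013) (nat_lit 76) (nat_lit 102913966125) (nat_lit 34) (nat_lit 5) (nat_lit 37) (nat_lit 5) (nat_lit 35) (nat_lit 5) (nat_lit 351) (nat_lit 335) (nat_lit 214)) (XT.lf (nat_lit 0) (nat_lit 27811877034) (nat_lit 304) (nat_lit 70327791257) (nat_lit 76) (nat_lit 28202006344) (nat_lit 31) (nat_lit 5) (nat_lit 35) (nat_lit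 5) (nat_lit 32) (nat_lit 5) (nat_lit 352) (nat_lit 335) (nat_lit 213))) (XT.nd (nat_lit 78) (nat_lit 152) (nat_lit 0) (XT.lf (nat_lit 0) (nat_lit 50256828164) (nat_lit 304) (nat_lit 5455864245) (nat_lit 76) (nat_lit 76930346464) (nat_lit 31) (nat_lit 5) (nat_lit 35) (nat_lit 5) (nat_lit 32) (nat_lit 5) (nat_lit 353) (nat_lit 335) (nat_lit 212)) (XT.lf (nat_lit 0) (nat_lit 68006987671) (nat_lit 152) (nat_lit 8125373724) (nat_lit 228) (nat_lit 63185352808) (nat_lit 29) (nat_lit 5) (nat_lit 31) (nat_lit 5) (nat_lit 32) (nat_lit 5) (nat_lit 354) (nat_lit 335) (nat_lit 211)))) (XT.nd (nat_lit 156) (nat_lit 380) (nat_lit 0) (XT.nd (nat_lit 78) (nat_lit 0) (nat_lit 0) (XT.lf (nat_lit 0) (nat_lit 102519349) (nat_lit 152) (nat_lit 105170984808) (nat_lit 228) (nat_lit 41157214821) (nat_lit 27) (nat_lit 5) (nat_lit 29) (nat_lit 5) (nat_lit 30) (nat_lit 5) (nat_lit 355) (nat_lit 335) (nat_lit 210))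 (XT.lf (nat_lit 0) (nat_lit 81061354593) (nat_lit 152) (nat_lit 57839508214) (nat_lit 228) (nat_lit 15039508083) (nat_lit 27) (nat_lit 5) (nat_lit 29) (nat_lit 5) (nat_lit 30) (nat_lit 5) (nat_lit 356) (nat_lit 335) (nat_lit 209))) (XT.nd (nat_lit 78) (nat_lit 152) (nat_lit 0) (XT.lf (nat_lit 0) (nat_lit 6451363554) (nat_lit 152) (nat_lit 6212193341) (nat_lit 228) (nat_lit 149349533021) (nat_lit 24) (nat_lit 5) (nat_lit 26) (nat_lit 5) (nat_lit 27) (nat_lit 5) (nat_lit 357) (nat_lit 335) (nat_lit 208)) (XT.nd (nat_lit 78) (nat_lit 152) (nat_lit 0) (XT.lf (nat_lit 0) (nat_lit 45005804506) (nat_lit 228) (nat_lit 75934100631) (nat_lit 76) (nat_lit 49501634048) (nat_lit 24) (nat_lit 5) (nat_lit 27) (nat_lit 5) (nat_lit 25) (nat_lit 5) (nat_lit 358) (nat_lit 335) (nat_lit 207)) (XT.lf (nat_lit 0) (nat_lit 10423047151) (nat_lit 152) (nat_lit 69923949522) (nat_lit 228) (nat_lit 99164343064)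 (nat_lit 22) (nat_lit 5) (nat_lit 24) (nat_lit 5) (nat_lit 25) (nat_lit 5) (nat_lit 359) (nat_lit 335) (nat_lit 206))))))))
noncomputable def xc194 : XT := (XT.nd (nat_lit 1248) (nat_lit 456) (nat_lit 0) (XT.nd (nat_lit 624) (nat_lit 456) (nat_lit 0) (XT.nd (nat_lit 312) (nat_lit 76) (nat_lit 0) (XT.nd (nat_lit 156) (nat_lit 228) (nat_lit 0) (XT.nd (nat_lit 78) (nat_lit 76) (nat_lit 0) (XT.lf (nat_lit 0) (nat_lit 108006489594) (nat_lit 152) (nat_lit 12584719284) (nat_lit 228) (nat_lit 68549457970) (nat_lit 22) (nat_lit 5) (nat_lit 24) (nat_lit 5) (nat_lit 25) (nat_lit 5) (nat_lit 360) (nat_lit 335) (nat_lit 205)) (XT.lf (nat_lit 0) (nat_lit 13336030373) (nat_lit 76) (nat_lit 152225906396) (nat_lit 152) (nat_lit 33857845509) (nat_lit 21) (nat_lit 5) (nat_lit 22) (nat_lit 5) (nat_lit 23) (nat_lit 4) (nat_lit 361) (nat_lit 335) (nat_lit 204))) (XT.nd (nat_lit 78) (nat_lit 152) (nat_lit 0)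 (XT.lf (nat_lit 0) (nat_lit 6030984947) (nat_lit 152) (nat_lit 90837721980) (nat_lit 76) (nat_lit 113437382046) (nat_lit 20) (nat_lit 5) (nat_lit 22) (nat_lit 5) (nat_lit 21) (nat_lit 5) (nat_lit 362) (nat_lit 335) (nat_lit 203)) (XT.lf (nat_lit 0) (nat_lit 11734950955) (nat_lit 152) (nat_lit 35828607586) (nat_lit 228) (nat_lit 174406840871) (nat_lit 18) (nat_lit 5) (nat_lit 20) (nat_lit 5) (nat_lit 21) (nat_lit 5) (nat_lit 363) (nat_lit 335) (nat_lit 202)))) (XT.nd (nat_lit 156) (nat_lit 0) (nat_lit 0) (XT.nd (nat_lit 78) (nat_lit 76) (nat_lit 0) (XT.lf (nat_lit 0) (nat_lit 95690312601) (nat_lit 228) (nat_lit 107478643359) (nat_lit 76) (nat_lit 31137173091) (nat_lit 18) (nat_lit 5) (nat_lit 21) (nat_lit 5) (nat_lit 19) (nat_lit 4) (nat_lit 364) (nat_lit 335) (nat_lit 201)) (XT.lf (nat_lit 0) (nat_lit 2702688432) (nat_lit 76) (nat_lit 145959780780) (nat_lit 152) (nat_lit 98886627175)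 (nat_lit 17) (nat_lit 5) (nat_lit 18) (nat_lit 5) (nat_lit 19) (nat_lit 4) (nat_lit 365) (nat_lit 335) (nat_lit 200))) (XT.nd (nat_lit 78) (nat_lit 0) (nat_lit 0) (XT.lf (nat_lit 0) (nat_lit 127810343789) (nat_lit 76) (nat_lit 81000372283) (nat_lit 152) (nat_lit 52805719904) (nat_lit 17) (nat_lit 5) (nat_lit 18) (nat_lit 5) (nat_lit 19) (nat_lit 4) (nat_lit 366) (nat_lit 335) (nat_lit 199)) (XT.lf (nat_lit 0) (nat_lit 262926066518) (nat_lit 76) (nat_lit 10844442404) (nat_lit 152) (nat_lit 3038679173) (nat_lit 17) (nat_lit 5) (nat_lit 18) (nat_lit 5) (nat_lit 19) (nat_lit 4) (nat_lit 367) (nat_lit 335) (nat_lit 198))))) (XT.nd (nat_lit 312) (nat_lit 228) (nat_lit 0) (XT.nd (nat_lit 156) (nat_lit 76) (nat_lit 0) (XT.nd (nat_lit 78) (nat_lit 0) (nat_lit 0) (XT.lf (nat_lit 0) (nat_lit 52737597068) (nat_lit 152) (nat_lit 174118011578) (nat_lit 76) (nat_lit 65899020109) (nat_lit 15) (nat_lit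 5) (nat_lit 17) (nat_lit 5) (nat_lit 16) (nat_lit 4) (nat_lit 368) (nat_lit 335) (nat_lit 197)) (XT.lf (nat_lit 0) (nat_lit 113482636572) (nat_lit 152) (nat_lit 47768842542) (nat_lit 76) (nat_lit 148664245321) (nat_lit 15) (nat_lit 5) (nat_lit 17) (nat_lit 5) (nat_lit 16) (nat_lit 4) (nat_lit 369) (nat_lit 335) (nat_lit 196))) (XT.nd (nat_lit 78) (nat_lit 0) (nat_lit 0) (XT.lf (nat_lit 0) (nat_lit 93357914475) (nat_lit 76) (nat_lit 87974352933) (nat_lit 152) (nat_lit 146937841501) (nat_lit 14) (nat_lit 5) (nat_lit 15) (nat_lit 5) (nat_lit 16) (nat_lit 4) (nat_lit 370) (nat_lit 335) (nat_lit 195)) (XT.lf (nat_lit 0) (nat_lit 248490994249) (nat_lit 76) (nat_lit 7424696093) (nat_lit 152) (nat_lit 92072688246) (nat_lit 14) (nat_lit 5) (nat_lit 15) (nat_lit 5) (nat_lit 16) (nat_lit 4) (nat_lit 371) (nat_lit 335) (nat_lit 194)))) (XT.nd (nat_lit 156) (nat_lit 76) (nat_lit 0) (XT.nd (nat_lit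 78) (nat_lit 76) (nat_lit 0) (XT.lf (nat_lit 0) (nat_lit 47197533540) (nat_lit 76) (nat_lit 292316741765) (nat_lit 76) (nat_lit 29525955648) (nat_lit 13) (nat_lit 4) (nat_lit 14) (nat_lit 5) (nat_lit 14) (nat_lit 4) (nat_lit 372) (nat_lit 335) (nat_lit 193)) (XT.lf (nat_lit 0) (nat_lit 39106072971) (nat_lit 152) (nat_lit 181450503564) (nat_lit 76) (nat_lit 170907800056) (nat_lit 12) (nat_lit 5) (nat_lit 14) (nat_lit 5) (nat_lit 13) (nat_lit 4) (nat_lit 373) (nat_lit 335) (nat_lit 192))) (XT.nd (nat_lit 78) (nat_lit 76) (nat_lit 0) (XT.lf (nat_lit 0) (nat_lit 111633266643) (nat_lit 152) (nat_lit 30594264087) (nat_lit 76) (nat_lit 273393588944) (nat_lit 12) (nat_lit 5) (nat_lit 14) (nat_lit 5) (nat_lit 13) (nat_lit 4) (nat_lit 374) (nat_lit 335) (nat_lit 191)) (XT.lf (nat_lit 0) (nat_lit 139298351569) (nat_lit 76) (nat_lit 54014201162) (nat_lit 152) (nat_lit 248129856240) (nat_lit 11) (nat_lit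 5) (nat_lit 12) (nat_lit 5) (nat_lit 13) (nat_lit 4) (nat_lit 375) (nat_lit 335) (nat_lit 190)))))) (XT.nd (nat_lit 624) (nat_lit 228) (nat_lit 0) (XT.nd (nat_lit 312) (nat_lit 76) (nat_lit 0) (XT.nd (nat_lit 156) (nat_lit 76) (nat_lit 0) (XT.nd (nat_lit 78) (nat_lit 76) (nat_lit 0) (XT.lf (nat_lit 0) (nat_lit 283376413417) (nat_lit 152) (nat_lit 145754514807) (nat_lit 0) (nat_lit 40050454765) (nat_lit 11) (nat_lit 5) (nat_lit 13) (nat_lit 4) (nat_lit 11) (nat_lit 4) (nat_lit 376) (nat_lit 335) (nat_lit 189)) (XT.lf (nat_lit 0) (nat_lit 22887801470) (nat_lit 76) (nat_lit 359710805968) (nat_lit 76) (nat_lit 116384609636) (nat_lit 10) (nat_lit 4) (nat_lit 11) (nat_lit 5) (nat_lit 11) (nat_lit 4) (nat_lit 377) (nat_lit 335) (nat_lit 188))) (XT.nd (nat_lit 78) (nat_lit 76) (nat_lit 0) (XT.lf (nat_lit 0) (nat_lit 213310336685) (nat_lit 76) (nat_lit 280433238906) (nat_lit 76) (nat_lit 37106822501)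 (nat_lit 10) (nat_lit 4) (nat_lit 11) (nat_lit 5) (nat_lit 11) (nat_lit 4) (nat_lit 378) (nat_lit 335) (nat_lit 187)) (XT.lf (nat_lit 0) (nat_lit 46086182684) (nat_lit 152) (nat_lit 147467360193) (nat_lit 76) (nat_lit 371620085634) (nat_lit 9) (nat_lit 5) (nat_lit 11) (nat_lit 5) (nat_lit 10) (nat_lit 4) (nat_lit 379) (nat_lit 335) (nat_lit 186)))) (XT.nd (nat_lit 156) (nat_lit 0) (nat_lit 0) (XT.nd (nat_lit 78) (nat_lit 0) (nat_lit 0) (XT.lf (nat_lit 0) (nat_lit 37103076759) (nat_lit 76) (nat_lit 97718983632) (nat_lit 152) (nat_lit 467272178819) (nat_lit 8) (nat_lit 5) (nat_lit 9) (nat_lit 5) (nat_lit 10) (nat_lit 4) (nat_lit 380) (nat_lit 335) (nat_lit 185)) (XT.lf (nat_lit 0) (nat_lit 234932456368) (nat_lit 152) (nat_lit 397064296805) (nat_lit 0) (nat_lit 9629693815) (nat_lit 8) (nat_lit 5) (nat_lit 10) (nat_lit 4) (nat_lit 8) (nat_lit 4) (nat_lit 381) (nat_lit 335) (nat_lit 184)))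 (XT.nd (nat_lit 78) (nat_lit 0) (nat_lit 0) (XT.lf (nat_lit 0) (nat_lit 345589687499) (nat_lit 152) (nat_lit 218241728511) (nat_lit 0) (nat_lit 120286775168) (nat_lit 8) (nat_lit 5) (nat_lit 10) (nat_lit 4) (nat_lit 8) (nat_lit 4) (nat_lit 382) (nat_lit 335) (nat_lit 183)) (XT.lf (nat_lit 0) (nat_lit 465099356433) (nat_lit 152) (nat_lit 25113624368) (nat_lit 0) (nat_lit 239796305418) (nat_lit 8) (nat_lit 5) (nat_lit 10) (nat_lit 4) (nat_lit 8) (nat_lit 4) (nat_lit 383) (nat_lit 335) (nat_lit 182))))) (XT.nd (nat_lit 312) (nat_lit 0) (nat_lit 0) (XT.nd (nat_lit 156) (nat_lit 152) (nat_lit 0) (XT.nd (nat_lit 78) (nat_lit 0) (nat_lit 0) (XT.lf (nat_lit 0) (nat_lit 193125392770) (nat_lit 76) (nat_lit 405688946184) (nat_lit 76) (nat_lit 180385766758) (nat_lit 7) (nat_lit 4) (nat_lit 8) (nat_lit 5) (nat_lit 8) (nat_lit 4) (nat_lit 384) (nat_lit 335) (nat_lit 181)) (XT.lf (nat_lit 0) (nat_lit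 430251522027) (nat_lit 76) (nat_lit 313661522577) (nat_lit 76) (nat_lit 88358224252) (nat_lit 7) (nat_lit 4) (nat_lit 8) (nat_lit 5) (nat_lit 8) (nat_lit 4) (nat_lit 385) (nat_lit 335) (nat_lit 180))) (XT.nd (nat_lit 78) (nat_lit 76) (nat_lit 0) (XT.lf (nat_lit 0) (nat_lit 10479560074) (nat_lit 152) (nat_lit 203505923461) (nat_lit 76) (nat_lit 675581426507) (nat_lit 6) (nat_lit 5) (nat_lit 8) (nat_lit 5) (nat_lit 7) (nat_lit 4) (nat_lit 386) (nat_lit 335) (nat_lit 179)) (XT.lf (nat_lit 0) (nat_lit 9046305281) (nat_lit 76) (nat_lit 103621875312) (nat_lit 152) (nat_lit 838577024260) (nat_lit 5) (nat_lit 5) (nat_lit 6) (nat_lit 5) (nat_lit 7) (nat_lit 4) (nat_lit 387) (nat_lit 335) (nat_lit 178)))) (XT.nd (nat_lit 156) (nat_lit 0) (nat_lit 0) (XT.nd (nat_lit 78) (nat_lit 0) (nat_lit 0) (XT.lf (nat_lit 0) (nat_lit 229114996480) (nat_lit 152) (nat_lit 767755570702) (nat_lit 0) (nat_lit 20500547647)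 (nat_lit 5) (nat_lit 5) (nat_lit 7) (nat_lit 4) (nat_lit 5) (nat_lit 4) (nat_lit 388) (nat_lit 335) (nat_lit 177)) (XT.lf (nat_lit 0) (nat_lit 357568932603) (nat_lit 152) (nat_lit 582048452188) (nat_lit 0) (nat_lit 148954402850) (nat_lit 5) (nat_lit 5) (nat_lit 7) (nat_lit 4) (nat_lit 5) (nat_lit 4) (nat_lit 389) (nat_lit 335) (nat_lit 176))) (XT.nd (nat_lit 78) (nat_lit 0) (nat_lit 0) (XT.lf (nat_lit 0) (nat_lit 496299088880) (nat_lit 152) (nat_lit 381484948809) (nat_lit 0) (nat_lit 287684484200) (nat_lit 5) (nat_lit 5) (nat_lit 7) (nat_lit 4) (nat_lit 5) (nat_lit 4) (nat_lit 390) (nat_lit 335) (nat_lit 175)) (XT.lf (nat_lit 0) (nat_lit 646127569941) (nat_lit 152) (nat_lit 164876536101) (nat_lit 0) (nat_lit 437512895885) (nat_lit 5) (nat_lit 5) (nat_lit 7) (nat_lit 4) (nat_lit 5) (nat_lit 4) (nat_lit 391) (nat_lit 335) (nat_lit 174)))))))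
noncomputable def xc195 : XT := (XT.nd (nat_lit 42666) (nat_lit 0) (nat_lit 2204) (XT.nd (nat_lit 624) (nat_lit 0) (nat_lit 0) (XT.nd (nat_lit 312) (nat_lit 152) (nat_lit 0) (XT.nd (nat_lit 156) (nat_lit 0) (nat_lit 0) (XT.nd (nat_lit 78) (nat_lit 0) (nat_lit 0) (XT.lf (nat_lit 0) (nat_lit 72696989168) (nat_lit 76) (nat_lit 736993623435) (nat_lit 76) (nat_lit 528378885142) (nat_lit 4) (nat_lit 4) (nat_lit 5) (nat_lit 5) (nat_lit 5) (nat_lit 4) (nat_lit 392) (nat_lit 335) (nat_lit 173)) (XT.lf (nat_lit 0) (nat_lit 338652916889) (nat_lit 76) (nat_lit 652193719559) (nat_lit 76) (nat_lit 443578921786) (nat_lit 4) (nat_lit 4) (nat_lit 5) (nat_lit 5) (nat_lit 5) (nat_lit 4) (nat_lit 393) (nat_lit 335) (nat_lit 172))) (XT.nd (nat_lit 78) (nat_lit 0) (nat_lit 0) (XT.lf (nat_lit 0) (nat_lit 625885175984) (nat_lit 76) (nat_lit 560609893146) (nat_lit 76) (nat_lit 351995040300) (nat_lit 4) (nat_lit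 4) (nat_lit 5) (nat_lit 5) (nat_lit 5) (nat_lit 4) (nat_lit 394) (nat_lit 335) (nat_lit 171)) (XT.lf (nat_lit 0) (nat_lit 936095883543) (nat_lit 76) (nat_lit 461699425227) (nat_lit 76) (nat_lit 253084521387) (nat_lit 4) (nat_lit 4) (nat_lit 5) (nat_lit 5) (nat_lit 5) (nat_lit 4) (nat_lit 395) (nat_lit 335) (nat_lit 170)))) (XT.nd (nat_lit 156) (nat_lit 152) (nat_lit 0) (XT.nd (nat_lit 78) (nat_lit 0) (nat_lit 0) (XT.lf (nat_lit 0) (nat_lit 1271123325242) (nat_lit 76) (nat_lit 354876179695) (nat_lit 76) (nat_lit 146261228639) (nat_lit 4) (nat_lit 4) (nat_lit 5) (nat_lit 5) (nat_lit 5) (nat_lit 4) (nat_lit 396) (nat_lit 335) (nat_lit 169)) (XT.lf (nat_lit 0) (nat_lit 1632952848882) (nat_lit 76) (nat_lit 239507129910) (nat_lit 76) (nat_lit 30892135135) (nat_lit 4) (nat_lit 4) (nat_lit 5) (nat_lit 5) (nat_lit 5) (nat_lit 4) (nat_lit 397) (nat_lit 335) (nat_lit 168))) (XT.nd (nat_lit 78) (nat_lit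 76) (nat_lit 0) (XT.lf (nat_lit 0) (nat_lit 89018852793) (nat_lit 152) (nat_lit 23455821445) (nat_lit 76) (nat_lit 1932275843436) (nat_lit 3) (nat_lit 5) (nat_lit 5) (nat_lit 5) (nat_lit 4) (nat_lit 4) (nat_lit 398) (nat_lit 335) (nat_lit 167)) (XT.lf (nat_lit 0) (nat_lit 223766215477) (nat_lit 152) (nat_lit 1942473277845) (nat_lit 0) (nat_lit 30604111090) (nat_lit 2) (nat_lit 5) (nat_lit 4) (nat_lit 4) (nat_lit 2) (nat_lit 4) (nat_lit 399) (nat_lit 335) (nat_lit 166))))) (XT.nd (nat_lit 312) (nat_lit 0) (nat_lit 0) (XT.nd (nat_lit 156) (nat_lit 0) (nat_lit 0) (XT.nd (nat_lit 78) (nat_lit 0) (nat_lit 0) (XT.lf (nat_lit 0) (nat_lit 372872718022) (nat_lit 152) (nat_lit 1808234490514) (nat_lit 0) (nat_lit 179710581500) (nat_lit 2) (nat_lit 5) (nat_lit 4) (nat_lit 4) (nat_lit 2) (nat_lit 4) (nat_lit 400) (nat_lit 335) (nat_lit 165)) (XT.lf (nat_lit 0) (nat_lit 533907693782) (nat_lit 152)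 (nat_lit 1663256692994) (nat_lit 0) (nat_lit 340745527506) (nat_lit 2) (nat_lit 5) (nat_lit 4) (nat_lit 4) (nat_lit 2) (nat_lit 4) (nat_lit 401) (nat_lit 335) (nat_lit 164))) (XT.nd (nat_lit 78) (nat_lit 0) (nat_lit 0) (XT.lf (nat_lit 0) (nat_lit 707825424094) (nat_lit 152) (nat_lit 1506680757598) (nat_lit 0) (nat_lit 514663230268) (nat_lit 2) (nat_lit 5) (nat_lit 4) (nat_lit 4) (nat_lit 2) (nat_lit 4) (nat_lit 402) (nat_lit 335) (nat_lit 163)) (XT.lf (nat_lit 0) (nat_lit 895656532546) (nat_lit 152) (nat_lit 1337578826931) (nat_lit 0) (nat_lit 702494313210) (nat_lit 2) (nat_lit 5) (nat_lit 4) (nat_lit 4) (nat_lit 2) (nat_lit 4) (nat_lit 403) (nat_lit 335) (nat_lit 162)))) (XT.nd (nat_lit 41574) (nat_lit 0) (nat_lit 3724) (XT.nd (nat_lit 78) (nat_lit 0) (nat_lit 0) (XT.lf (nat_lit 0) (nat_lit 1098514092373) (nat_lit 152) (nat_lit 1154948815477) (nat_lit 0) (nat_lit 905351849417) (nat_lit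 2) (nat_lit 5) (nat_lit 4) (nat_lit 4) (nat_lit 2) (nat_lit 4) (nat_lit 404) (nat_lit 335) (nat_lit 161)) (XT.lf (nat_lit 0) (nat_lit 1317600222448) (nat_lit 152) (nat_lit 957708471316) (nat_lit 0) (nat_lit 1124437957621) (nat_lit 2) (nat_lit 5) (nat_lit 4) (nat_lit 4) (nat_lit 2) (nat_lit 4) (nat_lit 405) (nat_lit 335) (nat_lit 160))) (XT.nd (nat_lit 78) (nat_lit 0) (nat_lit 0) (XT.lf (nat_lit 0) (nat_lit 23732979506) (nat_lit 532) (nat_lit 4413642053) (nat_lit 532) (nat_lit 4413642053) (nat_lit 51) (nat_lit 3) (nat_lit 58) (nat_lit 3) (nat_lit 58) (nat_lit 5) (nat_lit 336) (nat_lit 336) (nat_lit 228)) (XT.lf (nat_lit 76) (nat_lit 22845402518) (nat_lit 0) (nat_lit 27082872334) (nat_lit 532) (nat_lit 17751948535) (nat_lit 52) (nat_lit 5) (nat_lit 51) (nat_lit 3) (nat_lit 58) (nat_lit 5) (nat_lit 337) (nat_lit 336) (nat_lit 227)))))) (XT.nd (nat_lit 624) (nat_lit 912) (nat_lit 0) (XT.nd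 (nat_lit 312) (nat_lit 684) (nat_lit 0) (XT.nd (nat_lit 156) (nat_lit 0) (nat_lit 0) (XT.nd (nat_lit 78) (nat_lit 0) (nat_lit 0) (XT.lf (nat_lit 0) (nat_lit 52941136189) (nat_lit 456) (nat_lit 12986049149) (nat_lit 532) (nat_lit 4489228157) (nat_lit 52) (nat_lit 5) (nat_lit 58) (nat_lit 5) (nat_lit 59) (nat_lit 5) (nat_lit 338) (nat_lit 336) (nat_lit 226)) (XT.lf (nat_lit 76) (nat_lit 21796654438) (nat_lit 0) (nat_lit 35624709690) (nat_lit 532) (nat_lit 15852030516) (nat_lit 53) (nat_lit 5) (nat_lit 52) (nat_lit 5) (nat_lit 59) (nat_lit 5) (nat_lit 339) (nat_lit 336) (nat_lit 225))) (XT.nd (nat_lit 78) (nat_lit 0) (nat_lit 76) (XT.lf (nat_lit 76) (nat_lit 60099649029) (nat_lit 0) (nat_lit 2514176792) (nat_lit 532) (nat_lit 13716805857) (nat_lit 53) (nat_lit 5) (nat_lit 52) (nat_lit 5) (nat_lit 59) (nat_lit 5) (nat_lit 340) (nat_lit 336) (nat_lit 224)) (XT.lf (nat_lit 76) (nat_lit 22141606853)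 (nat_lit 0) (nat_lit 47410986573) (nat_lit 532) (nat_lit 9973383972) (nat_lit 54) (nat_lit 5) (nat_lit 53) (nat_lit 5) (nat_lit 60) (nat_lit 5) (nat_lit 341) (nat_lit 336) (nat_lit 223)))) (XT.nd (nat_lit 156) (nat_lit 304) (nat_lit 0) (XT.nd (nat_lit 78) (nat_lit 456) (nat_lit 0) (XT.lf (nat_lit 76) (nat_lit 64437460779) (nat_lit 0) (nat_lit 13115354372) (nat_lit 532) (nat_lit 5383629667) (nat_lit 54) (nat_lit 5) (nat_lit 53) (nat_lit 5) (nat_lit 60) (nat_lit 5) (nat_lit 342) (nat_lit 336) (nat_lit 222)) (XT.lf (nat_lit 0) (nat_lit 779291327) (nat_lit 532) (nat_lit 62419161882) (nat_lit 76) (nat_lit 23327348017) (nat_lit 47) (nat_lit 5) (nat_lit 54) (nat_lit 5) (nat_lit 48) (nat_lit 5) (nat_lit 343) (nat_lit 336) (nat_lit 221))) (XT.nd (nat_lit 78) (nat_lit 304) (nat_lit 0) (XT.lf (nat_lit 0) (nat_lit 8003011379) (nat_lit 532) (nat_lit 19683630593) (nat_lit 76) (nat_lit 62635789507)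 (nat_lit 47) (nat_lit 5) (nat_lit 54) (nat_lit 5) (nat_lit 48) (nat_lit 5) (nat_lit 344) (nat_lit 336) (nat_lit 220)) (XT.lf (nat_lit 0) (nat_lit 16747781887) (nat_lit 380) (nat_lit 66779437530) (nat_lit 76) (nat_lit 10820122168) (nat_lit 43) (nat_lit 5) (nat_lit 48) (nat_lit 5) (nat_lit 44) (nat_lit 5) (nat_lit 345) (nat_lit 336) (nat_lit 219))))) (XT.nd (nat_lit 312) (nat_lit 456) (nat_lit 0) (XT.nd (nat_lit 156) (nat_lit 228) (nat_lit 0) (XT.nd (nat_lit 78) (nat_lit 228) (nat_lit 0) (XT.lf (nat_lit 0) (nat_lit 27462580646) (nat_lit 380) (nat_lit 19666218745) (nat_lit 76) (nat_lit 51463810920) (nat_lit 43) (nat_lit 5) (nat_lit 48) (nat_lit 5) (nat_lit 44) (nat_lit 5) (nat_lit 346) (nat_lit 336) (nat_lit 218)) (XT.lf (nat_lit 0) (nat_lit 32858959026) (nat_lit 228) (nat_lit 6965074949) (nat_lit 304) (nat_lit 63290310328) (nat_lit 40) (nat_lit 5) (nat_lit 43) (nat_lit 5) (nat_lit 44) (nat_lit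 5) (nat_lit 347) (nat_lit 336) (nat_lit 217))) (XT.nd (nat_lit 78) (nat_lit 228) (nat_lit 0) (XT.lf (nat_lit 0) (nat_lit 54601031807) (nat_lit 304) (nat_lit 18140759060) (nat_lit 76) (nat_lit 35141897209) (nat_lit 40) (nat_lit 5) (nat_lit 44) (nat_lit 5) (nat_lit 41) (nat_lit 5) (nat_lit 348) (nat_lit 336) (nat_lit 216)) (XT.lf (nat_lit 0) (nat_lit 39960291451) (nat_lit 228) (nat_lit 31741159731) (nat_lit 304) (nat_lit 41241828452) (nat_lit 37) (nat_lit 5) (nat_lit 40) (nat_lit 5) (nat_lit 41) (nat_lit 5) (nat_lit 349) (nat_lit 336) (nat_lit 215)))) (XT.nd (nat_lit 156) (nat_lit 304) (nat_lit 0) (XT.nd (nat_lit 78) (nat_lit 152) (nat_lit 0) (XT.lf (nat_lit 0) (nat_lit 90979697701) (nat_lit 304) (nat_lit 14942151329) (nat_lit 76) (nat_lit 12421007129) (nat_lit 37) (nat_lit 5) (nat_lit 41) (nat_lit 5) (nat_lit 38) (nat_lit 5) (nat_lit 350) (nat_lit 336) (nat_lit 214)) (XT.lf (nat_lit 0)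 (nat_lit 49387279852) (nat_lit 152) (nat_lit 64424518545) (nat_lit 228) (nat_lit 10201673900) (nat_lit 35) (nat_lit 5) (nat_lit 37) (nat_lit 5) (nat_lit 38) (nat_lit 5) (nat_lit 351) (nat_lit 336) (nat_lit 213))) (XT.nd (nat_lit 78) (nat_lit 228) (nat_lit 0) (XT.lf (nat_lit 0) (nat_lit 8334443676) (nat_lit 228) (nat_lit 10604020850) (nat_lit 76) (nat_lit 111149757820) (nat_lit 34) (nat_lit 5) (nat_lit 37) (nat_lit 5) (nat_lit 35) (nat_lit 5) (nat_lit 352) (nat_lit 336) (nat_lit 212)) (XT.nd (nat_lit 78) (nat_lit 0) (nat_lit 0) (XT.lf (nat_lit 0) (nat_lit 30048214551) (nat_lit 304) (nat_lit 75938129660) (nat_lit 76) (nat_lit 30461737194) (nat_lit 31) (nat_lit 5) (nat_lit 35) (nat_lit 5) (nat_lit 32) (nat_lit 5) (nat_lit 353) (nat_lit 336) (nat_lit 211)) (XT.lf (nat_lit 0) (nat_lit 54287918264) (nat_lit 304) (nat_lit 5877625146) (nat_lit 76) (nat_lit 83088080055) (nat_lit 31) (nat_lit 5)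 (nat_lit 35) (nat_lit 5) (nat_lit 32) (nat_lit 5) (nat_lit 354) (nat_lit 336) (nat_lit 210))))))))
noncomputable def xc196 : XT := (XT.nd (nat_lit 1248) (nat_lit 608) (nat_lit 0) (XT.nd (nat_lit 624) (nat_lit 456) (nat_lit 0) (XT.nd (nat_lit 312) (nat_lit 228) (nat_lit 0) (XT.nd (nat_lit 156) (nat_lit 228) (nat_lit 0) (XT.nd (nat_lit 78) (nat_lit 152) (nat_lit 0) (XT.lf (nat_lit 0) (nat_lit 73461882563) (nat_lit 152) (nat_lit 8771175343) (nat_lit 228) (nat_lit 68229250926) (nat_lit 29) (nat_lit 5) (nat_lit 31) (nat_lit 5) (nat_lit 32) (nat_lit 5) (nat_lit 355) (nat_lit 336) (nat_lit 209)) (XT.lf (nat_lit 0) (nat_lit 125396410) (nat_lit 152) (nat_lit 113579794071) (nat_lit 228) (nat_lit 44439188666) (nat_lit 27) (nat_lit 5) (nat_lit 29) (nat_lit 5) (nat_lit 30) (nat_lit 5) (nat_lit 356) (nat_lit 336) (nat_lit 208))) (XT.nd (nat_lit 78) (nat_lit 228) (nat_lit 0) (XT.lf (nat_lit 0) (nat_lit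 87559851398) (nat_lit 152) (nat_lit 62462160055) (nat_lit 228) (nat_lit 16232850821) (nat_lit 27) (nat_lit 5) (nat_lit 29) (nat_lit 5) (nat_lit 30) (nat_lit 5) (nat_lit 357) (nat_lit 336) (nat_lit 207)) (XT.lf (nat_lit 0) (nat_lit 6981206517) (nat_lit 152) (nat_lit 6704401134) (nat_lit 228) (nat_lit 161287801945) (nat_lit 24) (nat_lit 5) (nat_lit 26) (nat_lit 5) (nat_lit 27) (nat_lit 5) (nat_lit 358) (nat_lit 336) (nat_lit 206)))) (XT.nd (nat_lit 156) (nat_lit 76) (nat_lit 0) (XT.nd (nat_lit 78) (nat_lit 152) (nat_lit 0) (XT.lf (nat_lit 0) (nat_lit 48614677077) (nat_lit 228) (nat_lit 81995544673) (nat_lit 76) (nat_lit 53465958453) (nat_lit 24) (nat_lit 5) (nat_lit 27) (nat_lit 5) (nat_lit 25) (nat_lit 5) (nat_lit 359) (nat_lit 336) (nat_lit 205)) (XT.lf (nat_lit 0) (nat_lit 11269838628) (nat_lit 152) (nat_lit 75513014552) (nat_lit 228) (nat_lit 107088737236) (nat_lit 22) (nat_lit 5) (nat_lit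 24) (nat_lit 5) (nat_lit 25) (nat_lit 5) (nat_lit 360) (nat_lit 336) (nat_lit 204))) (XT.nd (nat_lit 78) (nat_lit 76) (nat_lit 0) (XT.lf (nat_lit 0) (nat_lit 116658997377) (nat_lit 152) (nat_lit 13587005223) (nat_lit 228) (nat_lit 74025309725) (nat_lit 22) (nat_lit 5) (nat_lit 24) (nat_lit 5) (nat_lit 25) (nat_lit 5) (nat_lit 361) (nat_lit 336) (nat_lit 203)) (XT.lf (nat_lit 0) (nat_lit 14415085102) (nat_lit 76) (nat_lit 164399141052) (nat_lit 152) (nat_lit 36558544441) (nat_lit 21) (nat_lit 5) (nat_lit 22) (nat_lit 5) (nat_lit 23) (nat_lit 4) (nat_lit 362) (nat_lit 336) (nat_lit 202))))) (XT.nd (nat_lit 312) (nat_lit 152) (nat_lit 0) (XT.nd (nat_lit 156) (nat_lit 76) (nat_lit 0) (XT.nd (nat_lit 78) (nat_lit 152) (nat_lit 0) (XT.lf (nat_lit 0) (nat_lit 6520437893) (nat_lit 152) (nat_lit 98093095406) (nat_lit 76) (nat_lit 122516478422) (nat_lit 20) (nat_lit 5) (nat_lit 22) (nat_lit 5)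 (nat_lit 21) (nat_lit 5) (nat_lit 363) (nat_lit 336) (nat_lit 201)) (XT.lf (nat_lit 0) (nat_lit 12685096570) (nat_lit 152) (nat_lit 38690277157) (nat_lit 228) (nat_lit 188352113237) (nat_lit 18) (nat_lit 5) (nat_lit 20) (nat_lit 5) (nat_lit 21) (nat_lit 5) (nat_lit 364) (nat_lit 336) (nat_lit 200))) (XT.nd (nat_lit 78) (nat_lit 76) (nat_lit 0) (XT.lf (nat_lit 0) (nat_lit 103351872415) (nat_lit 228) (nat_lit 116066024780) (nat_lit 76) (nat_lit 33632209876) (nat_lit 18) (nat_lit 5) (nat_lit 21) (nat_lit 5) (nat_lit 19) (nat_lit 4) (nat_lit 365) (nat_lit 336) (nat_lit 199)) (XT.lf (nat_lit 0) (nat_lit 2929537352) (nat_lit 76) (nat_lit 157632050703) (nat_lit 152) (nat_lit 106790941228) (nat_lit 17) (nat_lit 5) (nat_lit 18) (nat_lit 5) (nat_lit 19) (nat_lit 4) (nat_lit 366) (nat_lit 336) (nat_lit 198)))) (XT.nd (nat_lit 156) (nat_lit 152) (nat_lit 0) (XT.nd (nat_lit 78) (nat_lit 0) (nat_lit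 0) (XT.lf (nat_lit 0) (nat_lit 138045017445) (nat_lit 76) (nat_lit 87476223788) (nat_lit 152) (nat_lit 57024051459) (nat_lit 17) (nat_lit 5) (nat_lit 18) (nat_lit 5) (nat_lit 19) (nat_lit 4) (nat_lit 367) (nat_lit 336) (nat_lit 197)) (XT.lf (nat_lit 0) (nat_lit 283969268647) (nat_lit 76) (nat_lit 11708129021) (nat_lit 152) (nat_lit 3276101250) (nat_lit 17) (nat_lit 5) (nat_lit 18) (nat_lit 5) (nat_lit 19) (nat_lit 4) (nat_lit 368) (nat_lit 336) (nat_lit 196))) (XT.nd (nat_lit 78) (nat_lit 0) (nat_lit 0) (XT.lf (nat_lit 0) (nat_lit 56961909807) (nat_lit 152) (nat_lit 188037960598) (nat_lit 76) (nat_lit 71174700496) (nat_lit 15) (nat_lit 5) (nat_lit 17) (nat_lit 5) (nat_lit 16) (nat_lit 4) (nat_lit 369) (nat_lit 336) (nat_lit 195)) (XT.lf (nat_lit 0) (nat_lit 122566159510) (nat_lit 152) (nat_lit 51581561144) (nat_lit 76) (nat_lit 160560865297) (nat_lit 15) (nat_lit 5) (nat_lit 17) (nat_lit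 5) (nat_lit 16) (nat_lit 4) (nat_lit 370) (nat_lit 336) (nat_lit 194)))))) (XT.nd (nat_lit 624) (nat_lit 228) (nat_lit 0) (XT.nd (nat_lit 312) (nat_lit 152) (nat_lit 0) (XT.nd (nat_lit 156) (nat_lit 152) (nat_lit 0) (XT.nd (nat_lit 78) (nat_lit 0) (nat_lit 0) (XT.lf (nat_lit 0) (nat_lit 100835113933) (nat_lit 76) (nat_lit 95008489047) (nat_lit 152) (nat_lit 158687731087) (nat_lit 14) (nat_lit 5) (nat_lit 15) (nat_lit 5) (nat_lit 16) (nat_lit 4) (nat_lit 371) (nat_lit 336) (nat_lit 193)) (XT.lf (nat_lit 0) (nat_lit 268378205549) (nat_lit 76) (nat_lit 8015142039) (nat_lit 152) (nat_lit 99433746145) (nat_lit 14) (nat_lit 5) (nat_lit 15) (nat_lit 5) (nat_lit 16) (nat_lit 4) (nat_lit 372) (nat_lit 336) (nat_lit 192))) (XT.nd (nat_lit 78) (nat_lit 76) (nat_lit 0) (XT.lf (nat_lit 0) (nat_lit 50981330589) (nat_lit 76) (nat_lit 315698433548) (nat_lit 76) (nat_lit 31883334785) (nat_lit 13) (nat_lit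 4) (nat_lit 14) (nat_lit 5) (nat_lit 14) (nat_lit 4) (nat_lit 373) (nat_lit 336) (nat_lit 191)) (XT.lf (nat_lit 0) (nat_lit 42238690602) (nat_lit 152) (nat_lit 195958921718) (nat_lit 76) (nat_lit 184583581488) (nat_lit 12) (nat_lit 5) (nat_lit 14) (nat_lit 5) (nat_lit 13) (nat_lit 4) (nat_lit 374) (nat_lit 336) (nat_lit 190)))) (XT.nd (nat_lit 156) (nat_lit 76) (nat_lit 0) (XT.nd (nat_lit 78) (nat_lit 76) (nat_lit 0) (XT.lf (nat_lit 0) (nat_lit 120567753709) (nat_lit 152) (nat_lit 33034747684) (nat_lit 76) (nat_lit 295267999604) (nat_lit 12) (nat_lit 5) (nat_lit 14) (nat_lit 5) (nat_lit 13) (nat_lit 4) (nat_lit 375) (nat_lit 336) (nat_lit 189)) (XT.lf (nat_lit 0) (nat_lit 150449098553) (nat_lit 76) (nat_lit 58332166181) (nat_lit 152) (nat_lit 267976238304) (nat_lit 11) (nat_lit 5) (nat_lit 12) (nat_lit 5) (nat_lit 13) (nat_lit 4) (nat_lit 376) (nat_lit 336) (nat_lit 188))) (XT.nd (nat_lit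 78) (nat_lit 76) (nat_lit 0) (XT.lf (nat_lit 0) (nat_lit 306050030238) (nat_lit 152) (nat_lit 157408300765) (nat_lit 0) (nat_lit 43257280447) (nat_lit 11) (nat_lit 5) (nat_lit 13) (nat_lit 4) (nat_lit 11) (nat_lit 4) (nat_lit 377) (nat_lit 336) (nat_lit 187)) (XT.lf (nat_lit 0) (nat_lit 24725234353) (nat_lit 76) (nat_lit 388484660021) (nat_lit 76) (nat_lit 125691706458) (nat_lit 10) (nat_lit 4) (nat_lit 11) (nat_lit 5) (nat_lit 11) (nat_lit 4) (nat_lit 378) (nat_lit 336) (nat_lit 186))))) (XT.nd (nat_lit 312) (nat_lit 76) (nat_lit 0) (XT.nd (nat_lit 156) (nat_lit 76) (nat_lit 0) (XT.nd (nat_lit 78) (nat_lit 76) (nat_lit 0) (XT.lf (nat_lit 0) (nat_lit 230381097662) (nat_lit 76) (nat_lit 302865110589) (nat_lit 76) (nat_lit 40071968348) (nat_lit 10) (nat_lit 4) (nat_lit 11) (nat_lit 5) (nat_lit 11) (nat_lit 4) (nat_lit 379) (nat_lit 336) (nat_lit 185)) (XT.lf (nat_lit 0) (nat_lit 49776067922)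 (nat_lit 152) (nat_lit 159259095663) (nat_lit 76) (nat_lit 401352114576) (nat_lit 9) (nat_lit 5) (nat_lit 11) (nat_lit 5) (nat_lit 10) (nat_lit 4) (nat_lit 380) (nat_lit 336) (nat_lit 184))) (XT.nd (nat_lit 78) (nat_lit 0) (nat_lit 0) (XT.lf (nat_lit 0) (nat_lit 40076833122) (nat_lit 76) (nat_lit 105533893716) (nat_lit 152) (nat_lit 504650818099) (nat_lit 8) (nat_lit 5) (nat_lit 9) (nat_lit 5) (nat_lit 10) (nat_lit 4) (nat_lit 381) (nat_lit 336) (nat_lit 183)) (XT.lf (nat_lit 0) (nat_lit 253729797650) (nat_lit 152) (nat_lit 428824180462) (nat_lit 0) (nat_lit 10402363870) (nat_lit 8) (nat_lit 5) (nat_lit 10) (nat_lit 4) (nat_lit 8) (nat_lit 4) (nat_lit 382) (nat_lit 336) (nat_lit 182)))) (XT.nd (nat_lit 156) (nat_lit 76) (nat_lit 0) (XT.nd (nat_lit 78) (nat_lit 0) (nat_lit 0) (XT.lf (nat_lit 0) (nat_lit 373239403955) (nat_lit 152) (nat_lit 235696196341) (nat_lit 0) (nat_lit 129911841764)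 (nat_lit 8) (nat_lit 5) (nat_lit 10) (nat_lit 4) (nat_lit 8) (nat_lit 4) (nat_lit 383) (nat_lit 336) (nat_lit 181)) (XT.lf (nat_lit 0) (nat_lit 502309658147) (nat_lit 152) (nat_lit 27118204641) (nat_lit 0) (nat_lit 258981977057) (nat_lit 8) (nat_lit 5) (nat_lit 10) (nat_lit 4) (nat_lit 8) (nat_lit 4) (nat_lit 384) (nat_lit 336) (nat_lit 180))) (XT.nd (nat_lit 78) (nat_lit 0) (nat_lit 0) (XT.lf (nat_lit 0) (nat_lit 208579819699) (nat_lit 76) (nat_lit 438141950972) (nat_lit 76) (nat_lit 194814159790) (nat_lit 7) (nat_lit 4) (nat_lit 8) (nat_lit 5) (nat_lit 8) (nat_lit 4) (nat_lit 385) (nat_lit 336) (nat_lit 179)) (XT.lf (nat_lit 0) (nat_lit 464675713704) (nat_lit 76) (nat_lit 338752489839) (nat_lit 76) (nat_lit 95424596721) (nat_lit 7) (nat_lit 4) (nat_lit 8) (nat_lit 5) (nat_lit 8) (nat_lit 4) (nat_lit 386) (nat_lit 336) (nat_lit 178)))))))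
noncomputable def xc197 : XT := (XT.nd (nat_lit 1248) (nat_lit 0) (nat_lit 0) (XT.nd (nat_lit 624) (nat_lit 152) (nat_lit 0) (XT.nd (nat_lit 312) (nat_lit 76) (nat_lit 0) (XT.nd (nat_lit 156) (nat_lit 0) (nat_lit 0) (XT.nd (nat_lit 78) (nat_lit 76) (nat_lit 0) (XT.lf (nat_lit 0) (nat_lit 11319935198) (nat_lit 152) (nat_lit 219782522292) (nat_lit 76) (nat_lit 729629643784) (nat_lit 6) (nat_lit 5) (nat_lit 8) (nat_lit 5) (nat_lit 7) (nat_lit 4) (nat_lit 387) (nat_lit 336) (nat_lit 177)) (XT.lf (nat_lit 0) (nat_lit 9773786646) (nat_lit 76) (nat_lit 111909800634) (nat_lit 152) (nat_lit 905661077090) (nat_lit 5) (nat_lit 5) (nat_lit 6) (nat_lit 5) (nat_lit 7) (nat_lit 4) (nat_lit 388) (nat_lit 336) (nat_lit 176))) (XT.nd (nat_lit 78) (nat_lit 0) (nat_lit 0) (XT.lf (nat_lit 0) (nat_lit 247446044462) (nat_lit 152) (nat_lit 829172414572) (nat_lit 0) (nat_lit 22142196481) (nat_lit 5) (nat_lit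 5) (nat_lit 7) (nat_lit 4) (nat_lit 5) (nat_lit 4) (nat_lit 389) (nat_lit 336) (nat_lit 175)) (XT.lf (nat_lit 0) (nat_lit 386176158566) (nat_lit 152) (nat_lit 628608993376) (nat_lit 0) (nat_lit 160872241209) (nat_lit 5) (nat_lit 5) (nat_lit 7) (nat_lit 4) (nat_lit 5) (nat_lit 4) (nat_lit 390) (nat_lit 336) (nat_lit 174)))) (XT.nd (nat_lit 156) (nat_lit 76) (nat_lit 0) (XT.nd (nat_lit 78) (nat_lit 0) (nat_lit 0) (XT.lf (nat_lit 0) (nat_lit 536004600579) (nat_lit 152) (nat_lit 412000656763) (nat_lit 0) (nat_lit 310700618984) (nat_lit 5) (nat_lit 5) (nat_lit 7) (nat_lit 4) (nat_lit 5) (nat_lit 4) (nat_lit 391) (nat_lit 336) (nat_lit 173)) (XT.lf (nat_lit 0) (nat_lit 697819242748) (nat_lit 152) (nat_lit 178063799775) (nat_lit 0) (nat_lit 472515201674) (nat_lit 5) (nat_lit 5) (nat_lit 7) (nat_lit 4) (nat_lit 5) (nat_lit 4) (nat_lit 392) (nat_lit 336) (nat_lit 172))) (XT.nd (nat_lit 78) (nat_lit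 0) (nat_lit 0) (XT.lf (nat_lit 0) (nat_lit 78515535130) (nat_lit 76) (nat_lit 795951752033) (nat_lit 76) (nat_lit 570647655886) (nat_lit 4) (nat_lit 4) (nat_lit 5) (nat_lit 5) (nat_lit 5) (nat_lit 4) (nat_lit 393) (nat_lit 336) (nat_lit 171)) (XT.lf (nat_lit 0) (nat_lit 365747730637) (nat_lit 76) (nat_lit 704367956682) (nat_lit 76) (nat_lit 479063809541) (nat_lit 4) (nat_lit 4) (nat_lit 5) (nat_lit 5) (nat_lit 5) (nat_lit 4) (nat_lit 394) (nat_lit 336) (nat_lit 170))))) (XT.nd (nat_lit 312) (nat_lit 152) (nat_lit 0) (XT.nd (nat_lit 156) (nat_lit 0) (nat_lit 0) (XT.nd (nat_lit 78) (nat_lit 0) (nat_lit 0) (XT.lf (nat_lit 0) (nat_lit 675958379319) (nat_lit 76) (nat_lit 605457517523) (nat_lit 76) (nat_lit 380153323165) (nat_lit 4) (nat_lit 4) (nat_lit 5) (nat_lit 5) (nat_lit 5) (nat_lit 4) (nat_lit 395) (nat_lit 336) (nat_lit 169)) (XT.lf (nat_lit 0) (nat_lit 1010985766501) (nat_lit 76) (nat_lit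 498634298620) (nat_lit 76) (nat_lit 273330060544) (nat_lit 4) (nat_lit 4) (nat_lit 5) (nat_lit 5) (nat_lit 5) (nat_lit 4) (nat_lit 396) (nat_lit 336) (nat_lit 168))) (XT.nd (nat_lit 78) (nat_lit 0) (nat_lit 0) (XT.lf (nat_lit 0) (nat_lit 1372815239664) (nat_lit 76) (nat_lit 383265273492) (nat_lit 76) (nat_lit 157960994935) (nat_lit 4) (nat_lit 4) (nat_lit 5) (nat_lit 5) (nat_lit 5) (nat_lit 4) (nat_lit 397) (nat_lit 336) (nat_lit 167)) (XT.lf (nat_lit 0) (nat_lit 1763590973462) (nat_lit 76) (nat_lit 258666773841) (nat_lit 76) (nat_lit 33362457802) (nat_lit 4) (nat_lit 4) (nat_lit 5) (nat_lit 5) (nat_lit 5) (nat_lit 4) (nat_lit 398) (nat_lit 336) (nat_lit 166)))) (XT.nd (nat_lit 156) (nat_lit 0) (nat_lit 0) (XT.nd (nat_lit 78) (nat_lit 76) (nat_lit 0) (XT.lf (nat_lit 0) (nat_lit 96141282971) (nat_lit 152) (nat_lit 25330482163) (nat_lit 76) (nat_lit 2086858719923) (nat_lit 3) (nat_lit 5)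 (nat_lit 5) (nat_lit 5) (nat_lit 4) (nat_lit 4) (nat_lit 399) (nat_lit 336) (nat_lit 165)) (XT.lf (nat_lit 0) (nat_lit 241668429451) (nat_lit 152) (nat_lit 2097869329603) (nat_lit 0) (nat_lit 33053260119) (nat_lit 2) (nat_lit 5) (nat_lit 4) (nat_lit 4) (nat_lit 2) (nat_lit 4) (nat_lit 400) (nat_lit 336) (nat_lit 164))) (XT.nd (nat_lit 78) (nat_lit 0) (nat_lit 0) (XT.lf (nat_lit 0) (nat_lit 402703384293) (nat_lit 152) (nat_lit 1952891573393) (nat_lit 0) (nat_lit 194088187411) (nat_lit 2) (nat_lit 5) (nat_lit 4) (nat_lit 4) (nat_lit 2) (nat_lit 4) (nat_lit 401) (nat_lit 336) (nat_lit 163)) (XT.lf (nat_lit 0) (nat_lit 576621095238) (nat_lit 152) (nat_lit 1796315676247) (nat_lit 0) (nat_lit 368005872846) (nat_lit 2) (nat_lit 5) (nat_lit 4) (nat_lit 4) (nat_lit 2) (nat_lit 4) (nat_lit 402) (nat_lit 336) (nat_lit 162)))))) (XT.nd (nat_lit 42120) (nat_lit 0) (nat_lit 2660) (XT.nd (nat_lit 41808)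 (nat_lit 0) (nat_lit 3724) (XT.nd (nat_lit 156) (nat_lit 0) (nat_lit 0) (XT.nd (nat_lit 78) (nat_lit 0) (nat_lit 0) (XT.lf (nat_lit 0) (nat_lit 764452185756) (nat_lit 152) (nat_lit 1627213780996) (nat_lit 0) (nat_lit 555836939744) (nat_lit 2) (nat_lit 5) (nat_lit 4) (nat_lit 4) (nat_lit 2) (nat_lit 4) (nat_lit 403) (nat_lit 336) (nat_lit 161)) (XT.lf (nat_lit 0) (nat_lit 967309728978) (nat_lit 152) (nat_lit 1444583802335) (nat_lit 0) (nat_lit 758694461096) (nat_lit 2) (nat_lit 5) (nat_lit 4) (nat_lit 4) (nat_lit 2) (nat_lit 4) (nat_lit 404) (nat_lit 336) (nat_lit 160))) (XT.nd (nat_lit 41574) (nat_lit 0) (nat_lit 3724) (XT.lf (nat_lit 0) (nat_lit 1186395843678) (nat_lit 152) (nat_lit 1247343488539) (nat_lit 0) (nat_lit 977780555545) (nat_lit 2) (nat_lit 5) (nat_lit 4) (nat_lit 4) (nat_lit 2) (nat_lit 4) (nat_lit 405) (nat_lit 336) (nat_lit 159)) (XT.lf (nat_lit 0) (nat_lit 25645520274)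 (nat_lit 532) (nat_lit 4759211122) (nat_lit 532) (nat_lit 4759211122) (nat_lit 51) (nat_lit 3) (nat_lit 58) (nat_lit 3) (nat_lit 58) (nat_lit 5) (nat_lit 337) (nat_lit 337) (nat_lit 226)))) (XT.nd (nat_lit 156) (nat_lit 0) (nat_lit 76) (XT.nd (nat_lit 78) (nat_lit 0) (nat_lit 76) (XT.lf (nat_lit 76) (nat_lit 24687698436) (nat_lit 0) (nat_lit 29260936265) (nat_lit 532) (nat_lit 19143863186) (nat_lit 52) (nat_lit 5) (nat_lit 51) (nat_lit 3) (nat_lit 58) (nat_lit 5) (nat_lit 338) (nat_lit 337) (nat_lit 225)) (XT.lf (nat_lit 0) (nat_lit 57200337148) (nat_lit 456) (nat_lit 14009116342) (nat_lit 532) (nat_lit 4838308852) (nat_lit 52) (nat_lit 5) (nat_lit 58) (nat_lit 5) (nat_lit 59) (nat_lit 5) (nat_lit 339) (nat_lit 337) (nat_lit 224))) (XT.nd (nat_lit 78) (nat_lit 0) (nat_lit 0) (XT.lf (nat_lit 76) (nat_lit 23555803108) (nat_lit 0) (nat_lit 38481779860) (nat_lit 532) (nat_lit 17095834852)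 (nat_lit 53) (nat_lit 5) (nat_lit 52) (nat_lit 5) (nat_lit 59) (nat_lit 5) (nat_lit 340) (nat_lit 337) (nat_lit 223)) (XT.lf (nat_lit 76) (nat_lit 64921895317) (nat_lit 0) (nat_lit 2721878895) (nat_lit 532) (nat_lit 14791596524) (nat_lit 53) (nat_lit 5) (nat_lit 52) (nat_lit 5) (nat_lit 59) (nat_lit 5) (nat_lit 341) (nat_lit 337) (nat_lit 222))))) (XT.nd (nat_lit 312) (nat_lit 760) (nat_lit 0) (XT.nd (nat_lit 156) (nat_lit 456) (nat_lit 0) (XT.nd (nat_lit 78) (nat_lit 0) (nat_lit 0) (XT.lf (nat_lit 76) (nat_lit 23928670499) (nat_lit 0) (nat_lit 51207661021) (nat_lit 532) (nat_lit 10750120796) (nat_lit 54) (nat_lit 5) (nat_lit 53) (nat_lit 5) (nat_lit 60) (nat_lit 5) (nat_lit 342) (nat_lit 337) (nat_lit 221)) (XT.lf (nat_lit 76) (nat_lit 69607027177) (nat_lit 0) (nat_lit 14168097093) (nat_lit 532) (nat_lit 5794751620) (nat_lit 54) (nat_lit 5) (nat_lit 53) (nat_lit 5) (nat_lit 60) (nat_lit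 5) (nat_lit 343) (nat_lit 337) (nat_lit 220))) (XT.nd (nat_lit 78) (nat_lit 0) (nat_lit 0) (XT.lf (nat_lit 0) (nat_lit 859155000) (nat_lit 532) (nat_lit 67396009835) (nat_lit 76) (nat_lit 25191266451) (nat_lit 47) (nat_lit 5) (nat_lit 54) (nat_lit 5) (nat_lit 48) (nat_lit 5) (nat_lit 344) (nat_lit 337) (nat_lit 219)) (XT.lf (nat_lit 0) (nat_lit 8659474851) (nat_lit 532) (nat_lit 21242871969) (nat_lit 76) (nat_lit 67644551365) (nat_lit 47) (nat_lit 5) (nat_lit 54) (nat_lit 5) (nat_lit 48) (nat_lit 5) (nat_lit 345) (nat_lit 337) (nat_lit 218)))) (XT.nd (nat_lit 156) (nat_lit 456) (nat_lit 0) (XT.nd (nat_lit 78) (nat_lit 0) (nat_lit 0) (XT.lf (nat_lit 0) (nat_lit 18102979655) (nat_lit 380) (nat_lit 72105468331) (nat_lit 76) (nat_lit 11685423125) (nat_lit 43) (nat_lit 5) (nat_lit 48) (nat_lit 5) (nat_lit 44) (nat_lit 5) (nat_lit 346) (nat_lit 337) (nat_lit 217)) (XT.lf (nat_lit 0) (nat_lit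 29673823409) (nat_lit 380) (nat_lit 21224401243) (nat_lit 76) (nat_lit 55580629852) (nat_lit 43) (nat_lit 5) (nat_lit 48) (nat_lit 5) (nat_lit 44) (nat_lit 5) (nat_lit 347) (nat_lit 337) (nat_lit 216))) (XT.nd (nat_lit 78) (nat_lit 228) (nat_lit 0) (XT.lf (nat_lit 0) (nat_lit 35502408092) (nat_lit 228) (nat_lit 7521084685) (nat_lit 304) (nat_lit 68338892364) (nat_lit 40) (nat_lit 5) (nat_lit 43) (nat_lit 5) (nat_lit 44) (nat_lit 5) (nat_lit 348) (nat_lit 337) (nat_lit 215)) (XT.nd (nat_lit 78) (nat_lit 228) (nat_lit 0) (XT.lf (nat_lit 0) (nat_lit 58981674401) (nat_lit 304) (nat_lit 19577380636) (nat_lit 76) (nat_lit 37954301225) (nat_lit 40) (nat_lit 5) (nat_lit 44) (nat_lit 5) (nat_lit 41) (nat_lit 5) (nat_lit 349) (nat_lit 337) (nat_lit 214)) (XT.lf (nat_lit 0) (nat_lit 43171383304) (nat_lit 228) (nat_lit 34278156806) (nat_lit 304) (nat_lit 44528223645) (nat_lit 37) (nat_lit 5) (nat_lit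 40) (nat_lit 5) (nat_lit 41) (nat_lit 5) (nat_lit 350) (nat_lit 337) (nat_lit 213))))))))
noncomputable def xc198 : XT := (XT.nd (nat_lit 1248) (nat_lit 760) (nat_lit 0) (XT.nd (nat_lit 624) (nat_lit 684) (nat_lit 0) (XT.nd (nat_lit 312) (nat_lit 304) (nat_lit 0) (XT.nd (nat_lit 156) (nat_lit 304) (nat_lit 0) (XT.nd (nat_lit 78) (nat_lit 152) (nat_lit 0) (XT.lf (nat_lit 0) (nat_lit 98269210596) (nat_lit 304) (nat_lit 16123457162) (nat_lit 76) (nat_lit 13416707018) (nat_lit 37) (nat_lit 5) (nat_lit 41) (nat_lit 5) (nat_lit 38) (nat_lit 5) (nat_lit 351) (nat_lit 337) (nat_lit 212)) (XT.lf (nat_lit 0) (nat_lit 53351972405) (nat_lit 152) (nat_lit 69575411704) (nat_lit 228) (nat_lit 11006297115) (nat_lit 35) (nat_lit 5) (nat_lit 37) (nat_lit 5) (nat_lit 38) (nat_lit 5) (nat_lit 352) (nat_lit 337) (nat_lit 211))) (XT.nd (nat_lit 78) (nat_lit 228) (nat_lit 0) (XT.lf (nat_lit 0) (nat_lit 9011324064)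 (nat_lit 228) (nat_lit 11439099750) (nat_lit 76) (nat_lit 120044031317) (nat_lit 34) (nat_lit 5) (nat_lit 37) (nat_lit 5) (nat_lit 35) (nat_lit 5) (nat_lit 353) (nat_lit 337) (nat_lit 210)) (XT.lf (nat_lit 0) (nat_lit 32461834536) (nat_lit 304) (nat_lit 81999561293) (nat_lit 76) (nat_lit 32901737164) (nat_lit 31) (nat_lit 5) (nat_lit 35) (nat_lit 5) (nat_lit 32) (nat_lit 5) (nat_lit 354) (nat_lit 337) (nat_lit 209)))) (XT.nd (nat_lit 156) (nat_lit 152) (nat_lit 0) (XT.nd (nat_lit 78) (nat_lit 152) (nat_lit 0) (XT.lf (nat_lit 0) (nat_lit 58639991374) (nat_lit 304) (nat_lit 6335225214) (nat_lit 76) (nat_lit 89737960713) (nat_lit 31) (nat_lit 5) (nat_lit 35) (nat_lit 5) (nat_lit 32) (nat_lit 5) (nat_lit 355) (nat_lit 337) (nat_lit 208)) (XT.lf (nat_lit 0) (nat_lit 79351123873) (nat_lit 152) (nat_lit 9469244302) (nat_lit 228) (nat_lit 73678220196) (nat_lit 29) (nat_lit 5) (nat_lit 31) (nat_lit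 5) (nat_lit 32) (nat_lit 5) (nat_lit 356) (nat_lit 337) (nat_lit 207))) (XT.nd (nat_lit 78) (nat_lit 0) (nat_lit 0) (XT.lf (nat_lit 0) (nat_lit 148010010) (nat_lit 152) (nat_lit 122662002768) (nat_lit 228) (nat_lit 47985233103) (nat_lit 27) (nat_lit 5) (nat_lit 29) (nat_lit 5) (nat_lit 30) (nat_lit 5) (nat_lit 357) (nat_lit 337) (nat_lit 206)) (XT.lf (nat_lit 0) (nat_lit 94576289406) (nat_lit 152) (nat_lit 67455267277) (nat_lit 228) (nat_lit 17523061612) (nat_lit 27) (nat_lit 5) (nat_lit 29) (nat_lit 5) (nat_lit 30) (nat_lit 5) (nat_lit 358) (nat_lit 337) (nat_lit 205))))) (XT.nd (nat_lit 312) (nat_lit 304) (nat_lit 0) (XT.nd (nat_lit 156) (nat_lit 152) (nat_lit 0) (XT.nd (nat_lit 78) (nat_lit 0) (nat_lit 0) (XT.lf (nat_lit 0) (nat_lit 7551477627) (nat_lit 152) (nat_lit 7236665713) (nat_lit 228) (nat_lit 174182515300) (nat_lit 24) (nat_lit 5) (nat_lit 26) (nat_lit 5) (nat_lit 27) (nat_lit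 5) (nat_lit 359) (nat_lit 337) (nat_lit 204)) (XT.lf (nat_lit 0) (nat_lit 52511059928) (nat_lit 228) (nat_lit 88543799351) (nat_lit 76) (nat_lit 57746830535) (nat_lit 24) (nat_lit 5) (nat_lit 27) (nat_lit 5) (nat_lit 25) (nat_lit 5) (nat_lit 360) (nat_lit 337) (nat_lit 203))) (XT.nd (nat_lit 78) (nat_lit 0) (nat_lit 0) (XT.lf (nat_lit 0) (nat_lit 12182526288) (nat_lit 152) (nat_lit 81549896824) (nat_lit 228) (nat_lit 115648331694) (nat_lit 22) (nat_lit 5) (nat_lit 24) (nat_lit 5) (nat_lit 25) (nat_lit 5) (nat_lit 361) (nat_lit 337) (nat_lit 202)) (XT.lf (nat_lit 0) (nat_lit 126001995472) (nat_lit 152) (nat_lit 14670114815) (nat_lit 228) (nat_lit 79940385872) (nat_lit 22) (nat_lit 5) (nat_lit 24) (nat_lit 5) (nat_lit 25) (nat_lit 5) (nat_lit 362) (nat_lit 337) (nat_lit 201)))) (XT.nd (nat_lit 156) (nat_lit 152) (nat_lit 0) (XT.nd (nat_lit 78) (nat_lit 76) (nat_lit 0) (XT.lf (nat_lit 0)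 (nat_lit 15578727696) (nat_lit 76) (nat_lit 177546924654) (nat_lit 152) (nat_lit 39476430408) (nat_lit 21) (nat_lit 5) (nat_lit 22) (nat_lit 5) (nat_lit 23) (nat_lit 4) (nat_lit 363) (nat_lit 337) (nat_lit 200)) (XT.lf (nat_lit 0) (nat_lit 7048052134) (nat_lit 152) (nat_lit 105930559901) (nat_lit 76) (nat_lit 132321316768) (nat_lit 20) (nat_lit 5) (nat_lit 22) (nat_lit 5) (nat_lit 21) (nat_lit 5) (nat_lit 364) (nat_lit 337) (nat_lit 199))) (XT.nd (nat_lit 78) (nat_lit 0) (nat_lit 0) (XT.lf (nat_lit 0) (nat_lit 13709634696) (nat_lit 152) (nat_lit 41781539250) (nat_lit 228) (nat_lit 203414045238) (nat_lit 18) (nat_lit 5) (nat_lit 20) (nat_lit 5) (nat_lit 21) (nat_lit 5) (nat_lit 365) (nat_lit 337) (nat_lit 198)) (XT.lf (nat_lit 0) (nat_lit 111625453284) (nat_lit 228) (nat_lit 125341953154) (nat_lit 76) (nat_lit 36326269981) (nat_lit 18) (nat_lit 5) (nat_lit 21) (nat_lit 5) (nat_lit 19)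 (nat_lit 4) (nat_lit 366) (nat_lit 337) (nat_lit 197)))))) (XT.nd (nat_lit 624) (nat_lit 380) (nat_lit 0) (XT.nd (nat_lit 312) (nat_lit 152) (nat_lit 0) (XT.nd (nat_lit 156) (nat_lit 152) (nat_lit 0) (XT.nd (nat_lit 78) (nat_lit 0) (nat_lit 0) (XT.lf (nat_lit 0) (nat_lit 3173017148) (nat_lit 76) (nat_lit 170238745984) (nat_lit 152) (nat_lit 115328544270) (nat_lit 17) (nat_lit 5) (nat_lit 18) (nat_lit 5) (nat_lit 19) (nat_lit 4) (nat_lit 367) (nat_lit 337) (nat_lit 196)) (XT.lf (nat_lit 0) (nat_lit 149097060329) (nat_lit 76) (nat_lit 94470739492) (nat_lit 152) (nat_lit 61580723486) (nat_lit 17) (nat_lit 5) (nat_lit 18) (nat_lit 5) (nat_lit 19) (nat_lit 4) (nat_lit 368) (nat_lit 337) (nat_lit 195))) (XT.nd (nat_lit 78) (nat_lit 152) (nat_lit 0) (XT.lf (nat_lit 0) (nat_lit 306694626333) (nat_lit 76) (nat_lit 12641462492) (nat_lit 152) (nat_lit 3533326303) (nat_lit 17) (nat_lit 5) (nat_lit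 18) (nat_lit 5) (nat_lit 19) (nat_lit 4) (nat_lit 369) (nat_lit 337) (nat_lit 194)) (XT.lf (nat_lit 0) (nat_lit 61523410751) (nat_lit 152) (nat_lit 203072859667) (nat_lit 76) (nat_lit 76871899082) (nat_lit 15) (nat_lit 5) (nat_lit 17) (nat_lit 5) (nat_lit 16) (nat_lit 4) (nat_lit 370) (nat_lit 337) (nat_lit 193)))) (XT.nd (nat_lit 156) (nat_lit 76) (nat_lit 0) (XT.nd (nat_lit 78) (nat_lit 76) (nat_lit 0) (XT.lf (nat_lit 0) (nat_lit 132375663530) (nat_lit 152) (nat_lit 55700551055) (nat_lit 76) (nat_lit 173408718360) (nat_lit 15) (nat_lit 5) (nat_lit 17) (nat_lit 5) (nat_lit 16) (nat_lit 4) (nat_lit 371) (nat_lit 337) (nat_lit 192)) (XT.lf (nat_lit 0) (nat_lit 108909267270) (nat_lit 76) (nat_lit 102605899892) (nat_lit 152) (nat_lit 171378344795) (nat_lit 14) (nat_lit 5) (nat_lit 15) (nat_lit 5) (nat_lit 16) (nat_lit 4) (nat_lit 372) (nat_lit 337) (nat_lit 191))) (XT.nd (nat_lit 78) (nat_lit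 76) (nat_lit 0) (XT.lf (nat_lit 0) (nat_lit 289855262198) (nat_lit 76) (nat_lit 8653327218) (nat_lit 152) (nat_lit 107384367337) (nat_lit 14) (nat_lit 5) (nat_lit 15) (nat_lit 5) (nat_lit 16) (nat_lit 4) (nat_lit 373) (nat_lit 337) (nat_lit 190)) (XT.lf (nat_lit 0) (nat_lit 55066690917) (nat_lit 76) (nat_lit 340951181040) (nat_lit 76) (nat_lit 34429974377) (nat_lit 13) (nat_lit 4) (nat_lit 14) (nat_lit 5) (nat_lit 14) (nat_lit 4) (nat_lit 374) (nat_lit 337) (nat_lit 189))))) (XT.nd (nat_lit 312) (nat_lit 228) (nat_lit 0) (XT.nd (nat_lit 156) (nat_lit 76) (nat_lit 0) (XT.nd (nat_lit 78) (nat_lit 0) (nat_lit 0) (XT.lf (nat_lit 0) (nat_lit 45621328197) (nat_lit 152) (nat_lit 211629100706) (nat_lit 76) (nat_lit 199352974992) (nat_lit 12) (nat_lit 5) (nat_lit 14) (nat_lit 5) (nat_lit 13) (nat_lit 4) (nat_lit 375) (nat_lit 337) (nat_lit 188)) (XT.lf (nat_lit 0) (nat_lit 130216453956) (nat_lit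 152) (nat_lit 35671476806) (nat_lit 76) (nat_lit 318891946041) (nat_lit 12) (nat_lit 5) (nat_lit 14) (nat_lit 5) (nat_lit 13) (nat_lit 4) (nat_lit 376) (nat_lit 337) (nat_lit 187))) (XT.nd (nat_lit 78) (nat_lit 0) (nat_lit 0) (XT.lf (nat_lit 0) (nat_lit 162490923948) (nat_lit 76) (nat_lit 62996020791) (nat_lit 152) (nat_lit 289410902496) (nat_lit 11) (nat_lit 5) (nat_lit 12) (nat_lit 5) (nat_lit 13) (nat_lit 4) (nat_lit 377) (nat_lit 337) (nat_lit 186)) (XT.lf (nat_lit 0) (nat_lit 330537036556) (nat_lit 152) (nat_lit 169995327629) (nat_lit 0) (nat_lit 46720254258) (nat_lit 11) (nat_lit 5) (nat_lit 13) (nat_lit 4) (nat_lit 11) (nat_lit 4) (nat_lit 378) (nat_lit 337) (nat_lit 185)))) (XT.nd (nat_lit 156) (nat_lit 152) (nat_lit 0) (XT.nd (nat_lit 78) (nat_lit 0) (nat_lit 0) (XT.lf (nat_lit 0) (nat_lit 26708747585) (nat_lit 76) (nat_lit 419560851870) (nat_lit 76) (nat_lit 135743894870) (nat_lit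 10) (nat_lit 4) (nat_lit 11) (nat_lit 5) (nat_lit 11) (nat_lit 4) (nat_lit 379) (nat_lit 337) (nat_lit 184)) (XT.lf (nat_lit 0) (nat_lit 248816672960) (nat_lit 76) (nat_lit 327091929665) (nat_lit 76) (nat_lit 43274810904) (nat_lit 10) (nat_lit 4) (nat_lit 11) (nat_lit 5) (nat_lit 11) (nat_lit 4) (nat_lit 380) (nat_lit 337) (nat_lit 183))) (XT.nd (nat_lit 78) (nat_lit 76) (nat_lit 0) (XT.lf (nat_lit 0) (nat_lit 53760717334) (nat_lit 152) (nat_lit 171994976483) (nat_lit 76) (nat_lit 433462360295) (nat_lit 9) (nat_lit 5) (nat_lit 11) (nat_lit 5) (nat_lit 10) (nat_lit 4) (nat_lit 381) (nat_lit 337) (nat_lit 182)) (XT.nd (nat_lit 78) (nat_lit 0) (nat_lit 0) (XT.lf (nat_lit 0) (nat_lit 43287703900) (nat_lit 76) (nat_lit 113974368754) (nat_lit 152) (nat_lit 545020195768) (nat_lit 8) (nat_lit 5) (nat_lit 9) (nat_lit 5) (nat_lit 10) (nat_lit 4) (nat_lit 382) (nat_lit 337) (nat_lit 181)) (XT.lf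 (nat_lit 0) (nat_lit 274030534662) (nat_lit 152) (nat_lit 463125605222) (nat_lit 0) (nat_lit 11236520185) (nat_lit 8) (nat_lit 5) (nat_lit 10) (nat_lit 4) (nat_lit 8) (nat_lit 4) (nat_lit 383) (nat_lit 337) (nat_lit 180))))))))
noncomputable def xc199 : XT := (XT.nd (nat_lit 1248) (nat_lit 152) (nat_lit 0) (XT.nd (nat_lit 624) (nat_lit 76) (nat_lit 0) (XT.nd (nat_lit 312) (nat_lit 152) (nat_lit 0) (XT.nd (nat_lit 156) (nat_lit 76) (nat_lit 0) (XT.nd (nat_lit 78) (nat_lit 0) (nat_lit 0) (XT.lf (nat_lit 0) (nat_lit 403100735160) (nat_lit 152) (nat_lit 254547716421) (nat_lit 0) (nat_lit 140306610592) (nat_lit 8) (nat_lit 5) (nat_lit 10) (nat_lit 4) (nat_lit 8) (nat_lit 4) (nat_lit 384) (nat_lit 337) (nat_lit 179)) (XT.lf (nat_lit 0) (nat_lit 542496448288) (nat_lit 152) (nat_lit 29283794691) (nat_lit 0) (nat_lit 279702221784) (nat_lit 8) (nat_lit 5) (nat_lit 10) (nat_lit 4) (nat_lit 8) (nat_lit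 4) (nat_lit 385) (nat_lit 337) (nat_lit 178))) (XT.nd (nat_lit 78) (nat_lit 0) (nat_lit 0) (XT.lf (nat_lit 0) (nat_lit 225269973715) (nat_lit 76) (nat_lit 473191497287) (nat_lit 76) (nat_lit 210397176396) (nat_lit 7) (nat_lit 4) (nat_lit 8) (nat_lit 5) (nat_lit 8) (nat_lit 4) (nat_lit 386) (nat_lit 337) (nat_lit 177)) (XT.lf (nat_lit 0) (nat_lit 501853260096) (nat_lit 76) (nat_lit 365851013320) (nat_lit 76) (nat_lit 103056605035) (nat_lit 7) (nat_lit 4) (nat_lit 8) (nat_lit 5) (nat_lit 8) (nat_lit 4) (nat_lit 387) (nat_lit 337) (nat_lit 176)))) (XT.nd (nat_lit 156) (nat_lit 0) (nat_lit 0) (XT.nd (nat_lit 78) (nat_lit 76) (nat_lit 0) (XT.lf (nat_lit 0) (nat_lit 12227253537) (nat_lit 152) (nat_lit 237361801848) (nat_lit 76) (nat_lit 788001475469) (nat_lit 6) (nat_lit 5) (nat_lit 8) (nat_lit 5) (nat_lit 7) (nat_lit 4) (nat_lit 388) (nat_lit 337) (nat_lit 175)) (XT.lf (nat_lit 0) (nat_lit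 10558927698) (nat_lit 76) (nat_lit 120861020296) (nat_lit 152) (nat_lit 978112155035) (nat_lit 5) (nat_lit 5) (nat_lit 6) (nat_lit 5) (nat_lit 7) (nat_lit 4) (nat_lit 389) (nat_lit 337) (nat_lit 174))) (XT.nd (nat_lit 78) (nat_lit 0) (nat_lit 0) (XT.lf (nat_lit 0) (nat_lit 267243312607) (nat_lit 152) (nat_lit 895503119786) (nat_lit 0) (nat_lit 23914948247) (nat_lit 5) (nat_lit 5) (nat_lit 7) (nat_lit 4) (nat_lit 5) (nat_lit 4) (nat_lit 390) (nat_lit 337) (nat_lit 173)) (XT.lf (nat_lit 0) (nat_lit 417071718463) (nat_lit 152) (nat_lit 678894853632) (nat_lit 0) (nat_lit 173743294624) (nat_lit 5) (nat_lit 5) (nat_lit 7) (nat_lit 4) (nat_lit 5) (nat_lit 4) (nat_lit 391) (nat_lit 337) (nat_lit 172))))) (XT.nd (nat_lit 312) (nat_lit 0) (nat_lit 0) (XT.nd (nat_lit 156) (nat_lit 76) (nat_lit 0) (XT.nd (nat_lit 78) (nat_lit 0) (nat_lit 0) (XT.lf (nat_lit 0) (nat_lit 578886327154) (nat_lit 152)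 (nat_lit 444958061883) (nat_lit 0) (nat_lit 335557848242) (nat_lit 5) (nat_lit 5) (nat_lit 7) (nat_lit 4) (nat_lit 5) (nat_lit 4) (nat_lit 392) (nat_lit 337) (nat_lit 171)) (XT.lf (nat_lit 0) (nat_lit 753646040065) (nat_lit 152) (nat_lit 192306452441) (nat_lit 0) (nat_lit 510317510159) (nat_lit 5) (nat_lit 5) (nat_lit 7) (nat_lit 4) (nat_lit 5) (nat_lit 4) (nat_lit 393) (nat_lit 337) (nat_lit 170))) (XT.nd (nat_lit 78) (nat_lit 0) (nat_lit 0) (XT.lf (nat_lit 0) (nat_lit 84799167197) (nat_lit 76) (nat_lit 859626725121) (nat_lit 76) (nat_lit 616298147998) (nat_lit 4) (nat_lit 4) (nat_lit 5) (nat_lit 5) (nat_lit 5) (nat_lit 4) (nat_lit 394) (nat_lit 337) (nat_lit 169)) (XT.lf (nat_lit 0) (nat_lit 395009761363) (nat_lit 76) (nat_lit 760716312591) (nat_lit 76) (nat_lit 517387691750) (nat_lit 4) (nat_lit 4) (nat_lit 5) (nat_lit 5) (nat_lit 5) (nat_lit 4) (nat_lit 395) (nat_lit 337) (nat_lit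 168)))) (XT.nd (nat_lit 156) (nat_lit 0) (nat_lit 0) (XT.nd (nat_lit 78) (nat_lit 0) (nat_lit 0) (XT.lf (nat_lit 0) (nat_lit 730037098067) (nat_lit 76) (nat_lit 653893118346) (nat_lit 76) (nat_lit 410564457024) (nat_lit 4) (nat_lit 4) (nat_lit 5) (nat_lit 5) (nat_lit 5) (nat_lit 4) (nat_lit 396) (nat_lit 337) (nat_lit 167)) (XT.lf (nat_lit 0) (nat_lit 1091866524490) (nat_lit 76) (nat_lit 538524116048) (nat_lit 76) (nat_lit 295195417244) (nat_lit 4) (nat_lit 4) (nat_lit 5) (nat_lit 5) (nat_lit 5) (nat_lit 4) (nat_lit 397) (nat_lit 337) (nat_lit 166))) (XT.nd (nat_lit 78) (nat_lit 0) (nat_lit 0) (XT.lf (nat_lit 0) (nat_lit 1482642215012) (nat_lit 76) (nat_lit 413925637536) (nat_lit 76) (nat_lit 170596904027) (nat_lit 4) (nat_lit 4) (nat_lit 5) (nat_lit 5) (nat_lit 5) (nat_lit 4) (nat_lit 398) (nat_lit 337) (nat_lit 165)) (XT.lf (nat_lit 0) (nat_lit 1904679877427) (nat_lit 76) (nat_lit 279359321456)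 (nat_lit 76) (nat_lit 36030555812) (nat_lit 4) (nat_lit 4) (nat_lit 5) (nat_lit 5) (nat_lit 5) (nat_lit 4) (nat_lit 399) (nat_lit 337) (nat_lit 164)))))) (XT.nd (nat_lit 42198) (nat_lit 0) (nat_lit 3116) (XT.nd (nat_lit 312) (nat_lit 0) (nat_lit 0) (XT.nd (nat_lit 156) (nat_lit 0) (nat_lit 0) (XT.nd (nat_lit 78) (nat_lit 76) (nat_lit 0) (XT.lf (nat_lit 0) (nat_lit 103833376037) (nat_lit 152) (nat_lit 27355373241) (nat_lit 76) (nat_lit 2253808111115) (nat_lit 3) (nat_lit 5) (nat_lit 5) (nat_lit 5) (nat_lit 4) (nat_lit 4) (nat_lit 400) (nat_lit 337) (nat_lit 163)) (XT.lf (nat_lit 0) (nat_lit 261002689761) (nat_lit 152) (nat_lit 2265697323784) (nat_lit 0) (nat_lit 35698224067) (nat_lit 2) (nat_lit 5) (nat_lit 4) (nat_lit 4) (nat_lit 2) (nat_lit 4) (nat_lit 401) (nat_lit 337) (nat_lit 162))) (XT.nd (nat_lit 78) (nat_lit 0) (nat_lit 0) (XT.lf (nat_lit 0) (nat_lit 434920382772) (nat_lit 152)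 (nat_lit 2109121462055) (nat_lit 0) (nat_lit 209615893458) (nat_lit 2) (nat_lit 5) (nat_lit 4) (nat_lit 4) (nat_lit 2) (nat_lit 4) (nat_lit 402) (nat_lit 337) (nat_lit 161)) (XT.lf (nat_lit 0) (nat_lit 622751456685) (nat_lit 152) (nat_lit 1940019599597) (nat_lit 0) (nat_lit 397446945502) (nat_lit 2) (nat_lit 5) (nat_lit 4) (nat_lit 4) (nat_lit 2) (nat_lit 4) (nat_lit 403) (nat_lit 337) (nat_lit 160)))) (XT.nd (nat_lit 41730) (nat_lit 0) (nat_lit 3724) (XT.nd (nat_lit 78) (nat_lit 0) (nat_lit 0) (XT.lf (nat_lit 0) (nat_lit 825608984532) (nat_lit 152) (nat_lit 1757389651300) (nat_lit 0) (nat_lit 600304453098) (nat_lit 2) (nat_lit 5) (nat_lit 4) (nat_lit 4) (nat_lit 2) (nat_lit 4) (nat_lit 404) (nat_lit 337) (nat_lit 159)) (XT.lf (nat_lit 0) (nat_lit 1044695084996) (nat_lit 152) (nat_lit 1560149365619) (nat_lit 0) (nat_lit 819390534812) (nat_lit 2) (nat_lit 5) (nat_lit 4) (nat_lit 4) (nat_lit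 2) (nat_lit 4) (nat_lit 405) (nat_lit 337) (nat_lit 158))) (XT.nd (nat_lit 78) (nat_lit 0) (nat_lit 0) (XT.lf (nat_lit 0) (nat_lit 27709080969) (nat_lit 532) (nat_lit 5133498855) (nat_lit 532) (nat_lit 5133498855) (nat_lit 51) (nat_lit 3) (nat_lit 58) (nat_lit 3) (nat_lit 58) (nat_lit 5) (nat_lit 338) (nat_lit 338) (nat_lit 224)) (XT.lf (nat_lit 76) (nat_lit 26675286084) (nat_lit 0) (nat_lit 31611614102) (nat_lit 532) (nat_lit 20651159938) (nat_lit 52) (nat_lit 5) (nat_lit 51) (nat_lit 3) (nat_lit 58) (nat_lit 5) (nat_lit 339) (nat_lit 338) (nat_lit 223))))) (XT.nd (nat_lit 312) (nat_lit 684) (nat_lit 0) (XT.nd (nat_lit 156) (nat_lit 0) (nat_lit 0) (XT.nd (nat_lit 78) (nat_lit 0) (nat_lit 0) (XT.lf (nat_lit 0) (nat_lit 61796863146) (nat_lit 456) (nat_lit 15116285345) (nat_lit 532) (nat_lit 5216750826) (nat_lit 52) (nat_lit 5) (nat_lit 58) (nat_lit 5) (nat_lit 59) (nat_lit 5) (nat_lit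 340) (nat_lit 338) (nat_lit 222)) (XT.lf (nat_lit 76) (nat_lit 25453484363) (nat_lit 0) (nat_lit 41566403693) (nat_lit 532) (nat_lit 18442618490) (nat_lit 53) (nat_lit 5) (nat_lit 52) (nat_lit 5) (nat_lit 59) (nat_lit 5) (nat_lit 341) (nat_lit 338) (nat_lit 221))) (XT.nd (nat_lit 78) (nat_lit 0) (nat_lit 76) (XT.lf (nat_lit 76) (nat_lit 70127884911) (nat_lit 0) (nat_lit 2945260173) (nat_lit 532) (nat_lit 15955587996) (nat_lit 53) (nat_lit 5) (nat_lit 52) (nat_lit 5) (nat_lit 59) (nat_lit 5) (nat_lit 342) (nat_lit 338) (nat_lit 220)) (XT.lf (nat_lit 76) (nat_lit 25856454450) (nat_lit 0) (nat_lit 55307527950) (nat_lit 532) (nat_lit 11592011552) (nat_lit 54) (nat_lit 5) (nat_lit 53) (nat_lit 5) (nat_lit 60) (nat_lit 5) (nat_lit 343) (nat_lit 338) (nat_lit 219)))) (XT.nd (nat_lit 156) (nat_lit 304) (nat_lit 0) (XT.nd (nat_lit 78) (nat_lit 456) (nat_lit 0) (XT.lf (nat_lit 76) (nat_lit 75188080380)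 (nat_lit 0) (nat_lit 15304557868) (nat_lit 532) (nat_lit 6241554983) (nat_lit 54) (nat_lit 5) (nat_lit 53) (nat_lit 5) (nat_lit 60) (nat_lit 5) (nat_lit 344) (nat_lit 338) (nat_lit 218)) (XT.lf (nat_lit 0) (nat_lit 942908291) (nat_lit 532) (nat_lit 72773385925) (nat_lit 76) (nat_lit 27204622117) (nat_lit 47) (nat_lit 5) (nat_lit 54) (nat_lit 5) (nat_lit 48) (nat_lit 5) (nat_lit 345) (nat_lit 338) (nat_lit 217))) (XT.nd (nat_lit 78) (nat_lit 304) (nat_lit 0) (XT.lf (nat_lit 0) (nat_lit 9366141071) (nat_lit 532) (nat_lit 22929056637) (nat_lit 76) (nat_lit 73054313947) (nat_lit 47) (nat_lit 5) (nat_lit 54) (nat_lit 5) (nat_lit 48) (nat_lit 5) (nat_lit 346) (nat_lit 338) (nat_lit 216)) (XT.nd (nat_lit 78) (nat_lit 0) (nat_lit 0) (XT.lf (nat_lit 0) (nat_lit 19564399797) (nat_lit 380) (nat_lit 77859910425) (nat_lit 76) (nat_lit 12619992215) (nat_lit 43) (nat_lit 5) (nat_lit 48) (nat_lit 5)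 (nat_lit 44) (nat_lit 5) (nat_lit 347) (nat_lit 338) (nat_lit 215)) (XT.lf (nat_lit 0) (nat_lit 32059934625) (nat_lit 380) (nat_lit 22909394665) (nat_lit 76) (nat_lit 60026835091) (nat_lit 43) (nat_lit 5) (nat_lit 48) (nat_lit 5) (nat_lit 44) (nat_lit 5) (nat_lit 348) (nat_lit 338) (nat_lit 214))))))))
noncomputable def xc200 : XT := (XT.nd (nat_lit 1248) (nat_lit 836) (nat_lit 0) (XT.nd (nat_lit 624) (nat_lit 760) (nat_lit 0) (XT.nd (nat_lit 312) (nat_lit 456) (nat_lit 0) (XT.nd (nat_lit 156) (nat_lit 228) (nat_lit 0) (XT.nd (nat_lit 78) (nat_lit 0) (nat_lit 0) (XT.lf (nat_lit 0) (nat_lit 38355231349) (nat_lit 228) (nat_lit 8121745860) (nat_lit 304) (nat_lit 73793449919) (nat_lit 40) (nat_lit 5) (nat_lit 43) (nat_lit 5) (nat_lit 44) (nat_lit 5) (nat_lit 349) (nat_lit 338) (nat_lit 213)) (XT.lf (nat_lit 0) (nat_lit 63710976571) (nat_lit 304) (nat_lit 21131020376) (nat_lit 76) (nat_lit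 40991547448) (nat_lit 40) (nat_lit 5) (nat_lit 44) (nat_lit 5) (nat_lit 41) (nat_lit 5) (nat_lit 350) (nat_lit 338) (nat_lit 212))) (XT.nd (nat_lit 78) (nat_lit 0) (nat_lit 0) (XT.lf (nat_lit 0) (nat_lit 46637326940) (nat_lit 228) (nat_lit 37018441155) (nat_lit 304) (nat_lit 48079378070) (nat_lit 37) (nat_lit 5) (nat_lit 40) (nat_lit 5) (nat_lit 41) (nat_lit 5) (nat_lit 351) (nat_lit 338) (nat_lit 211)) (XT.lf (nat_lit 0) (nat_lit 106140295695) (nat_lit 304) (nat_lit 17401274173) (nat_lit 76) (nat_lit 14491774818) (nat_lit 37) (nat_lit 5) (nat_lit 41) (nat_lit 5) (nat_lit 38) (nat_lit 5) (nat_lit 352) (nat_lit 338) (nat_lit 210)))) (XT.nd (nat_lit 156) (nat_lit 228) (nat_lit 0) (XT.nd (nat_lit 78) (nat_lit 76) (nat_lit 0) (XT.lf (nat_lit 0) (nat_lit 57631884455) (nat_lit 152) (nat_lit 75138814047) (nat_lit 228) (nat_lit 11876932317) (nat_lit 35) (nat_lit 5) (nat_lit 37) (nat_lit 5) (nat_lit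 38) (nat_lit 5) (nat_lit 353) (nat_lit 338) (nat_lit 209)) (XT.lf (nat_lit 0) (nat_lit 9740910453) (nat_lit 228) (nat_lit 12342874191) (nat_lit 76) (nat_lit 129649519590) (nat_lit 34) (nat_lit 5) (nat_lit 37) (nat_lit 5) (nat_lit 35) (nat_lit 5) (nat_lit 354) (nat_lit 338) (nat_lit 208))) (XT.nd (nat_lit 78) (nat_lit 0) (nat_lit 0) (XT.lf (nat_lit 0) (nat_lit 35067151344) (nat_lit 304) (nat_lit 88547850322) (nat_lit 76) (nat_lit 35536500446) (nat_lit 31) (nat_lit 5) (nat_lit 35) (nat_lit 5) (nat_lit 32) (nat_lit 5) (nat_lit 355) (nat_lit 338) (nat_lit 207)) (XT.lf (nat_lit 0) (nat_lit 63338940726) (nat_lit 304) (nat_lit 6831232237) (nat_lit 76) (nat_lit 96919427485) (nat_lit 31) (nat_lit 5) (nat_lit 35) (nat_lit 5) (nat_lit 32) (nat_lit 5) (nat_lit 356) (nat_lit 338) (nat_lit 206))))) (XT.nd (nat_lit 312) (nat_lit 228) (nat_lit 0) (XT.nd (nat_lit 156) (nat_lit 228) (nat_lit 0) (XT.nd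 (nat_lit 78) (nat_lit 152) (nat_lit 0) (XT.lf (nat_lit 0) (nat_lit 85709751081) (nat_lit 152) (nat_lit 10223675935) (nat_lit 228) (nat_lit 79564443857) (nat_lit 29) (nat_lit 5) (nat_lit 31) (nat_lit 5) (nat_lit 32) (nat_lit 5) (nat_lit 357) (nat_lit 338) (nat_lit 205)) (XT.lf (nat_lit 0) (nat_lit 170637751) (nat_lit 152) (nat_lit 132471383746) (nat_lit 228) (nat_lit 51816257979) (nat_lit 27) (nat_lit 5) (nat_lit 29) (nat_lit 5) (nat_lit 30) (nat_lit 5) (nat_lit 358) (nat_lit 338) (nat_lit 204))) (XT.nd (nat_lit 78) (nat_lit 228) (nat_lit 0) (XT.lf (nat_lit 0) (nat_lit 102152380466) (nat_lit 152) (nat_lit 72848374545) (nat_lit 228) (nat_lit 18917690086) (nat_lit 27) (nat_lit 5) (nat_lit 29) (nat_lit 5) (nat_lit 30) (nat_lit 5) (nat_lit 359) (nat_lit 338) (nat_lit 203)) (XT.lf (nat_lit 0) (nat_lit 8165690648) (nat_lit 152) (nat_lit 7812094587) (nat_lit 228) (nat_lit 188109991353) (nat_lit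 24) (nat_lit 5) (nat_lit 26) (nat_lit 5) (nat_lit 27) (nat_lit 5) (nat_lit 360) (nat_lit 338) (nat_lit 202)))) (XT.nd (nat_lit 156) (nat_lit 76) (nat_lit 0) (XT.nd (nat_lit 78) (nat_lit 152) (nat_lit 0) (XT.lf (nat_lit 0) (nat_lit 56718125008) (nat_lit 228) (nat_lit 95617539156) (nat_lit 76) (nat_lit 62369659459) (nat_lit 24) (nat_lit 5) (nat_lit 27) (nat_lit 5) (nat_lit 25) (nat_lit 5) (nat_lit 361) (nat_lit 338) (nat_lit 201)) (XT.lf (nat_lit 0) (nat_lit 13166645341) (nat_lit 152) (nat_lit 88070322990) (nat_lit 228) (nat_lit 124893764312) (nat_lit 22) (nat_lit 5) (nat_lit 24) (nat_lit 5) (nat_lit 25) (nat_lit 5) (nat_lit 362) (nat_lit 338) (nat_lit 200))) (XT.nd (nat_lit 78) (nat_lit 76) (nat_lit 0) (XT.lf (nat_lit 0) (nat_lit 136090967100) (nat_lit 152) (nat_lit 15840422538) (nat_lit 228) (nat_lit 86329659411) (nat_lit 22) (nat_lit 5) (nat_lit 24) (nat_lit 5) (nat_lit 25) (nat_lit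 5) (nat_lit 363) (nat_lit 338) (nat_lit 199)) (XT.lf (nat_lit 0) (nat_lit 16833972915) (nat_lit 76) (nat_lit 191747122657) (nat_lit 152) (nat_lit 42628717003) (nat_lit 21) (nat_lit 5) (nat_lit 22) (nat_lit 5) (nat_lit 23) (nat_lit 4) (nat_lit 364) (nat_lit 338) (nat_lit 198)))))) (XT.nd (nat_lit 624) (nat_lit 380) (nat_lit 0) (XT.nd (nat_lit 312) (nat_lit 152) (nat_lit 0) (XT.nd (nat_lit 156) (nat_lit 76) (nat_lit 0) (XT.nd (nat_lit 78) (nat_lit 152) (nat_lit 0) (XT.lf (nat_lit 0) (nat_lit 7617022513) (nat_lit 152) (nat_lit 114396445761) (nat_lit 76) (nat_lit 142910040004) (nat_lit 20) (nat_lit 5) (nat_lit 22) (nat_lit 5) (nat_lit 21) (nat_lit 5) (nat_lit 365) (nat_lit 338) (nat_lit 197)) (XT.lf (nat_lit 0) (nat_lit 14814747722) (nat_lit 152) (nat_lit 45120667261) (nat_lit 228) (nat_lit 219681821585) (nat_lit 18) (nat_lit 5) (nat_lit 20) (nat_lit 5) (nat_lit 21) (nat_lit 5) (nat_lit 366)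 (nat_lit 338) (nat_lit 196))) (XT.nd (nat_lit 78) (nat_lit 76) (nat_lit 0) (XT.lf (nat_lit 0) (nat_lit 120560145818) (nat_lit 228) (nat_lit 135361290195) (nat_lit 76) (nat_lit 39235357960) (nat_lit 18) (nat_lit 5) (nat_lit 21) (nat_lit 5) (nat_lit 19) (nat_lit 4) (nat_lit 367) (nat_lit 338) (nat_lit 195)) (XT.lf (nat_lit 0) (nat_lit 3434674713) (nat_lit 76) (nat_lit 183854528812) (nat_lit 152) (nat_lit 124549964765) (nat_lit 17) (nat_lit 5) (nat_lit 18) (nat_lit 5) (nat_lit 19) (nat_lit 4) (nat_lit 368) (nat_lit 338) (nat_lit 194)))) (XT.nd (nat_lit 156) (nat_lit 152) (nat_lit 0) (XT.nd (nat_lit 78) (nat_lit 0) (nat_lit 0) (XT.lf (nat_lit 0) (nat_lit 161032062372) (nat_lit 76) (nat_lit 102025327493) (nat_lit 152) (nat_lit 66502678544) (nat_lit 17) (nat_lit 5) (nat_lit 18) (nat_lit 5) (nat_lit 19) (nat_lit 4) (nat_lit 369) (nat_lit 338) (nat_lit 193)) (XT.lf (nat_lit 0) (nat_lit 331236897565)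 (nat_lit 76) (nat_lit 13649935826) (nat_lit 152) (nat_lit 3811823129) (nat_lit 17) (nat_lit 5) (nat_lit 18) (nat_lit 5) (nat_lit 19) (nat_lit 4) (nat_lit 370) (nat_lit 338) (nat_lit 192))) (XT.nd (nat_lit 78) (nat_lit 0) (nat_lit 0) (XT.lf (nat_lit 0) (nat_lit 66449182924) (nat_lit 152) (nat_lit 219311711607) (nat_lit 76) (nat_lit 83024413822) (nat_lit 15) (nat_lit 5) (nat_lit 17) (nat_lit 5) (nat_lit 16) (nat_lit 4) (nat_lit 371) (nat_lit 338) (nat_lit 191)) (XT.lf (nat_lit 0) (nat_lit 142969327088) (nat_lit 152) (nat_lit 60150135108) (nat_lit 76) (nat_lit 187283973990) (nat_lit 15) (nat_lit 5) (nat_lit 17) (nat_lit 5) (nat_lit 16) (nat_lit 4) (nat_lit 372) (nat_lit 338) (nat_lit 190))))) (XT.nd (nat_lit 312) (nat_lit 152) (nat_lit 0) (XT.nd (nat_lit 156) (nat_lit 152) (nat_lit 0) (XT.nd (nat_lit 78) (nat_lit 0) (nat_lit 0) (XT.lf (nat_lit 0) (nat_lit 117628305138) (nat_lit 76) (nat_lit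 110811569860) (nat_lit 152) (nat_lit 185084835990) (nat_lit 14) (nat_lit 5) (nat_lit 15) (nat_lit 5) (nat_lit 16) (nat_lit 4) (nat_lit 373) (nat_lit 338) (nat_lit 189)) (XT.lf (nat_lit 0) (nat_lit 313049513254) (nat_lit 76) (nat_lit 9342998930) (nat_lit 152) (nat_lit 115971620069) (nat_lit 14) (nat_lit 5) (nat_lit 15) (nat_lit 5) (nat_lit 16) (nat_lit 4) (nat_lit 374) (nat_lit 338) (nat_lit 188))) (XT.nd (nat_lit 78) (nat_lit 76) (nat_lit 0) (XT.lf (nat_lit 0) (nat_lit 59477902289) (nat_lit 76) (nat_lit 368224594460) (nat_lit 76) (nat_lit 37180919660) (nat_lit 13) (nat_lit 4) (nat_lit 14) (nat_lit 5) (nat_lit 14) (nat_lit 4) (nat_lit 375) (nat_lit 338) (nat_lit 187)) (XT.lf (nat_lit 0) (nat_lit 49274071444) (nat_lit 152) (nat_lit 228553826269) (nat_lit 76) (nat_lit 215303533795) (nat_lit 12) (nat_lit 5) (nat_lit 14) (nat_lit 5) (nat_lit 13) (nat_lit 4) (nat_lit 376) (nat_lit 338) (nat_lit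 186)))) (XT.nd (nat_lit 156) (nat_lit 76) (nat_lit 0) (XT.nd (nat_lit 78) (nat_lit 76) (nat_lit 0) (XT.lf (nat_lit 0) (nat_lit 140636582302) (nat_lit 152) (nat_lit 38520007456) (nat_lit 76) (nat_lit 344405450616) (nat_lit 12) (nat_lit 5) (nat_lit 14) (nat_lit 5) (nat_lit 13) (nat_lit 4) (nat_lit 377) (nat_lit 338) (nat_lit 185)) (XT.lf (nat_lit 0) (nat_lit 175495254030) (nat_lit 76) (nat_lit 68033371620) (nat_lit 152) (nat_lit 312560829846) (nat_lit 11) (nat_lit 5) (nat_lit 12) (nat_lit 5) (nat_lit 13) (nat_lit 4) (nat_lit 378) (nat_lit 338) (nat_lit 184))) (XT.nd (nat_lit 78) (nat_lit 76) (nat_lit 0) (XT.lf (nat_lit 0) (nat_lit 356982574840) (nat_lit 152) (nat_lit 183590120851) (nat_lit 0) (nat_lit 50459924817) (nat_lit 11) (nat_lit 5) (nat_lit 13) (nat_lit 4) (nat_lit 11) (nat_lit 4) (nat_lit 379) (nat_lit 338) (nat_lit 183)) (XT.lf (nat_lit 0) (nat_lit 28850158026) (nat_lit 76) (nat_lit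 453123507268) (nat_lit 76) (nat_lit 146600707467) (nat_lit 10) (nat_lit 4) (nat_lit 11) (nat_lit 5) (nat_lit 11) (nat_lit 4) (nat_lit 380) (nat_lit 338) (nat_lit 182)))))))
noncomputable def xc201 : XT := (XT.nd (nat_lit 1248) (nat_lit 152) (nat_lit 0) (XT.nd (nat_lit 624) (nat_lit 228) (nat_lit 0) (XT.nd (nat_lit 312) (nat_lit 76) (nat_lit 0) (XT.nd (nat_lit 156) (nat_lit 76) (nat_lit 0) (XT.nd (nat_lit 78) (nat_lit 76) (nat_lit 0) (XT.lf (nat_lit 0) (nat_lit 268726368495) (nat_lit 76) (nat_lit 353257235194) (nat_lit 76) (nat_lit 46734296709) (nat_lit 10) (nat_lit 4) (nat_lit 11) (nat_lit 5) (nat_lit 11) (nat_lit 4) (nat_lit 381) (nat_lit 338) (nat_lit 181)) (XT.lf (nat_lit 0) (nat_lit 58063772918) (nat_lit 152) (nat_lit 185750419224) (nat_lit 76) (nat_lit 468141129428) (nat_lit 9) (nat_lit 5) (nat_lit 11) (nat_lit 5) (nat_lit 10) (nat_lit 4) (nat_lit 382) (nat_lit 338) (nat_lit 180)))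 (XT.nd (nat_lit 78) (nat_lit 0) (nat_lit 0) (XT.lf (nat_lit 0) (nat_lit 46754770391) (nat_lit 76) (nat_lit 123090400852) (nat_lit 152) (nat_lit 588619507092) (nat_lit 8) (nat_lit 5) (nat_lit 9) (nat_lit 5) (nat_lit 10) (nat_lit 4) (nat_lit 383) (nat_lit 338) (nat_lit 179)) (XT.lf (nat_lit 0) (nat_lit 295954994924) (nat_lit 152) (nat_lit 500171787319) (nat_lit 0) (nat_lit 12137128362) (nat_lit 8) (nat_lit 5) (nat_lit 10) (nat_lit 4) (nat_lit 8) (nat_lit 4) (nat_lit 384) (nat_lit 338) (nat_lit 178)))) (XT.nd (nat_lit 156) (nat_lit 76) (nat_lit 0) (XT.nd (nat_lit 78) (nat_lit 0) (nat_lit 0) (XT.lf (nat_lit 0) (nat_lit 435350662019) (nat_lit 152) (nat_lit 274907953807) (nat_lit 0) (nat_lit 151532701071) (nat_lit 8) (nat_lit 5) (nat_lit 10) (nat_lit 4) (nat_lit 8) (nat_lit 4) (nat_lit 385) (nat_lit 338) (nat_lit 177)) (XT.lf (nat_lit 0) (nat_lit 585897893824) (nat_lit 152) (nat_lit 31623183519)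 (nat_lit 0) (nat_lit 302079845482) (nat_lit 8) (nat_lit 5) (nat_lit 10) (nat_lit 4) (nat_lit 8) (nat_lit 4) (nat_lit 386) (nat_lit 338) (nat_lit 176))) (XT.nd (nat_lit 78) (nat_lit 0) (nat_lit 0) (XT.lf (nat_lit 0) (nat_lit 243294802442) (nat_lit 76) (nat_lit 511045265490) (nat_lit 76) (nat_lit 227227136227) (nat_lit 7) (nat_lit 4) (nat_lit 8) (nat_lit 5) (nat_lit 8) (nat_lit 4) (nat_lit 387) (nat_lit 338) (nat_lit 175)) (XT.lf (nat_lit 0) (nat_lit 542004512413) (nat_lit 76) (nat_lit 395117657738) (nat_lit 76) (nat_lit 111299453549) (nat_lit 7) (nat_lit 4) (nat_lit 8) (nat_lit 5) (nat_lit 8) (nat_lit 4) (nat_lit 388) (nat_lit 338) (nat_lit 174))))) (XT.nd (nat_lit 312) (nat_lit 76) (nat_lit 0) (XT.nd (nat_lit 156) (nat_lit 0) (nat_lit 0) (XT.nd (nat_lit 78) (nat_lit 76) (nat_lit 0) (XT.lf (nat_lit 0) (nat_lit 13206911463) (nat_lit 152) (nat_lit 256347897722) (nat_lit 76) (nat_lit 851042845378)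 (nat_lit 6) (nat_lit 5) (nat_lit 8) (nat_lit 5) (nat_lit 7) (nat_lit 4) (nat_lit 389) (nat_lit 338) (nat_lit 173)) (XT.lf (nat_lit 0) (nat_lit 11406418080) (nat_lit 76) (nat_lit 130528560709) (nat_lit 152) (nat_lit 1056359577178) (nat_lit 5) (nat_lit 5) (nat_lit 6) (nat_lit 5) (nat_lit 7) (nat_lit 4) (nat_lit 390) (nat_lit 338) (nat_lit 172))) (XT.nd (nat_lit 78) (nat_lit 0) (nat_lit 0) (XT.lf (nat_lit 0) (nat_lit 288624136144) (nat_lit 152) (nat_lit 967140721949) (nat_lit 0) (nat_lit 25829323846) (nat_lit 5) (nat_lit 5) (nat_lit 7) (nat_lit 4) (nat_lit 5) (nat_lit 4) (nat_lit 391) (nat_lit 338) (nat_lit 171)) (XT.lf (nat_lit 0) (nat_lit 450438713837) (nat_lit 152) (nat_lit 733203990607) (nat_lit 0) (nat_lit 187643850545) (nat_lit 5) (nat_lit 5) (nat_lit 7) (nat_lit 4) (nat_lit 5) (nat_lit 4) (nat_lit 392) (nat_lit 338) (nat_lit 170)))) (XT.nd (nat_lit 156) (nat_lit 76) (nat_lit 0) (XT.nd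 (nat_lit 78) (nat_lit 0) (nat_lit 0) (XT.lf (nat_lit 0) (nat_lit 625198398046) (nat_lit 152) (nat_lit 480552437098) (nat_lit 0) (nat_lit 362403487537) (nat_lit 5) (nat_lit 5) (nat_lit 7) (nat_lit 4) (nat_lit 5) (nat_lit 4) (nat_lit 393) (nat_lit 338) (nat_lit 169)) (XT.lf (nat_lit 0) (nat_lit 813938801714) (nat_lit 152) (nat_lit 207688867029) (nat_lit 0) (nat_lit 551143847486) (nat_lit 5) (nat_lit 5) (nat_lit 7) (nat_lit 4) (nat_lit 5) (nat_lit 4) (nat_lit 394) (nat_lit 338) (nat_lit 168))) (XT.nd (nat_lit 78) (nat_lit 0) (nat_lit 0) (XT.lf (nat_lit 0) (nat_lit 91585148976) (nat_lit 76) (nat_lit 928395862551) (nat_lit 76) (nat_lit 665600867843) (nat_lit 4) (nat_lit 4) (nat_lit 5) (nat_lit 5) (nat_lit 5) (nat_lit 4) (nat_lit 395) (nat_lit 338) (nat_lit 167)) (XT.lf (nat_lit 0) (nat_lit 426612438941) (nat_lit 76) (nat_lit 821572691136) (nat_lit 76) (nat_lit 558777658946) (nat_lit 4) (nat_lit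 4) (nat_lit 5) (nat_lit 5) (nat_lit 5) (nat_lit 4) (nat_lit 396) (nat_lit 338) (nat_lit 166)))))) (XT.nd (nat_lit 624) (nat_lit 0) (nat_lit 0) (XT.nd (nat_lit 312) (nat_lit 152) (nat_lit 0) (XT.nd (nat_lit 156) (nat_lit 0) (nat_lit 0) (XT.nd (nat_lit 78) (nat_lit 0) (nat_lit 0) (XT.lf (nat_lit 0) (nat_lit 788441822088) (nat_lit 76) (nat_lit 706203709978) (nat_lit 76) (nat_lit 443408643082) (nat_lit 4) (nat_lit 4) (nat_lit 5) (nat_lit 5) (nat_lit 5) (nat_lit 4) (nat_lit 397) (nat_lit 338) (nat_lit 165)) (XT.lf (nat_lit 0) (nat_lit 1179217472538) (nat_lit 76) (nat_lit 581605251040) (nat_lit 76) (nat_lit 318810152009) (nat_lit 4) (nat_lit 4) (nat_lit 5) (nat_lit 5) (nat_lit 5) (nat_lit 4) (nat_lit 398) (nat_lit 338) (nat_lit 164))) (XT.nd (nat_lit 78) (nat_lit 0) (nat_lit 0) (XT.lf (nat_lit 0) (nat_lit 1601255097850) (nat_lit 76) (nat_lit 447038953083) (nat_lit 76) (nat_lit 184243824299)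 (nat_lit 4) (nat_lit 4) (nat_lit 5) (nat_lit 5) (nat_lit 5) (nat_lit 4) (nat_lit 399) (nat_lit 338) (nat_lit 163)) (XT.lf (nat_lit 0) (nat_lit 2057055661729) (nat_lit 76) (nat_lit 301707386196) (nat_lit 76) (nat_lit 38912229861) (nat_lit 4) (nat_lit 4) (nat_lit 5) (nat_lit 5) (nat_lit 5) (nat_lit 4) (nat_lit 400) (nat_lit 338) (nat_lit 162)))) (XT.nd (nat_lit 156) (nat_lit 0) (nat_lit 0) (XT.nd (nat_lit 78) (nat_lit 76) (nat_lit 0) (XT.lf (nat_lit 0) (nat_lit 112140723784) (nat_lit 152) (nat_lit 29542476373) (nat_lit 76) (nat_lit 2434113354652) (nat_lit 3) (nat_lit 5) (nat_lit 5) (nat_lit 5) (nat_lit 4) (nat_lit 4) (nat_lit 401) (nat_lit 338) (nat_lit 161)) (XT.lf (nat_lit 0) (nat_lit 281883578770) (nat_lit 152) (nat_lit 2446951778937) (nat_lit 0) (nat_lit 38554684821) (nat_lit 2) (nat_lit 5) (nat_lit 4) (nat_lit 4) (nat_lit 2) (nat_lit 4) (nat_lit 402) (nat_lit 338) (nat_lit 160))) (XT.nd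 (nat_lit 78) (nat_lit 0) (nat_lit 0) (XT.lf (nat_lit 0) (nat_lit 469714637309) (nat_lit 152) (nat_lit 2277849946843) (nat_lit 0) (nat_lit 226385723110) (nat_lit 2) (nat_lit 5) (nat_lit 4) (nat_lit 4) (nat_lit 2) (nat_lit 4) (nat_lit 403) (nat_lit 338) (nat_lit 159)) (XT.lf (nat_lit 0) (nat_lit 672572150919) (nat_lit 152) (nat_lit 2095220026661) (nat_lit 0) (nat_lit 429243217970) (nat_lit 2) (nat_lit 5) (nat_lit 4) (nat_lit 4) (nat_lit 2) (nat_lit 4) (nat_lit 404) (nat_lit 338) (nat_lit 158))))) (XT.nd (nat_lit 41964) (nat_lit 0) (nat_lit 3420) (XT.nd (nat_lit 41808) (nat_lit 0) (nat_lit 3724) (XT.nd (nat_lit 41730) (nat_lit 0) (nat_lit 3724) (XT.lf (nat_lit 0) (nat_lit 891658238202) (nat_lit 152) (nat_lit 1897979767012) (nat_lit 0) (nat_lit 648329287891) (nat_lit 2) (nat_lit 5) (nat_lit 4) (nat_lit 4) (nat_lit 2) (nat_lit 4) (nat_lit 405) (nat_lit 338) (nat_lit 157)) (XT.lf (nat_lit 0)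 (nat_lit 29936026130) (nat_lit 532) (nat_lit 5538649652) (nat_lit 532) (nat_lit 5538649652) (nat_lit 51) (nat_lit 3) (nat_lit 58) (nat_lit 3) (nat_lit 58) (nat_lit 5) (nat_lit 339) (nat_lit 339) (nat_lit 222))) (XT.nd (nat_lit 78) (nat_lit 0) (nat_lit 76) (XT.lf (nat_lit 76) (nat_lit 28820087240) (nat_lit 0) (nat_lit 34148947668) (nat_lit 532) (nat_lit 22282494585) (nat_lit 52) (nat_lit 5) (nat_lit 51) (nat_lit 3) (nat_lit 58) (nat_lit 5) (nat_lit 340) (nat_lit 339) (nat_lit 221)) (XT.lf (nat_lit 0) (nat_lit 66758186809) (nat_lit 456) (nat_lit 16313962397) (nat_lit 532) (nat_lit 5626698287) (nat_lit 52) (nat_lit 5) (nat_lit 58) (nat_lit 5) (nat_lit 59) (nat_lit 5) (nat_lit 341) (nat_lit 339) (nat_lit 220)))) (XT.nd (nat_lit 156) (nat_lit 380) (nat_lit 0) (XT.nd (nat_lit 78) (nat_lit 0) (nat_lit 0) (XT.lf (nat_lit 76) (nat_lit 27501094564) (nat_lit 0) (nat_lit 44896929846) (nat_lit 532)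 (nat_lit 19900124034) (nat_lit 53) (nat_lit 5) (nat_lit 52) (nat_lit 5) (nat_lit 59) (nat_lit 5) (nat_lit 342) (nat_lit 339) (nat_lit 219)) (XT.lf (nat_lit 76) (nat_lit 75748607789) (nat_lit 0) (nat_lit 3185708632) (nat_lit 532) (nat_lit 17215457318) (nat_lit 53) (nat_lit 5) (nat_lit 52) (nat_lit 5) (nat_lit 59) (nat_lit 5) (nat_lit 343) (nat_lit 339) (nat_lit 218))) (XT.nd (nat_lit 78) (nat_lit 456) (nat_lit 0) (XT.lf (nat_lit 76) (nat_lit 27936536573) (nat_lit 0) (nat_lit 59734920007) (nat_lit 532) (nat_lit 12503838433) (nat_lit 54) (nat_lit 5) (nat_lit 53) (nat_lit 5) (nat_lit 60) (nat_lit 5) (nat_lit 344) (nat_lit 339) (nat_lit 217)) (XT.nd (nat_lit 78) (nat_lit 456) (nat_lit 0) (XT.lf (nat_lit 76) (nat_lit 81213835854) (nat_lit 0) (nat_lit 16531505665) (nat_lit 532) (nat_lit 6726496009) (nat_lit 54) (nat_lit 5) (nat_lit 53) (nat_lit 5) (nat_lit 60) (nat_lit 5) (nat_lit 345) (nat_lit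 339) (nat_lit 216)) (XT.lf (nat_lit 0) (nat_lit 1031218947) (nat_lit 532) (nat_lit 78582992828) (nat_lit 76) (nat_lit 29379323805) (nat_lit 47) (nat_lit 5) (nat_lit 54) (nat_lit 5) (nat_lit 48) (nat_lit 5) (nat_lit 346) (nat_lit 339) (nat_lit 215))))))))
noncomputable def xc202 : XT := (XT.nd (nat_lit 1248) (nat_lit 988) (nat_lit 0) (XT.nd (nat_lit 624) (nat_lit 836) (nat_lit 0) (XT.nd (nat_lit 312) (nat_lit 380) (nat_lit 0) (XT.nd (nat_lit 156) (nat_lit 228) (nat_lit 0) (XT.nd (nat_lit 78) (nat_lit 304) (nat_lit 0) (XT.lf (nat_lit 0) (nat_lit 10127356424) (nat_lit 532) (nat_lit 24752025639) (nat_lit 76) (nat_lit 78897114542) (nat_lit 47) (nat_lit 5) (nat_lit 54) (nat_lit 5) (nat_lit 48) (nat_lit 5) (nat_lit 347) (nat_lit 339) (nat_lit 214)) (XT.lf (nat_lit 0) (nat_lit 21140853024) (nat_lit 380) (nat_lit 84076704484) (nat_lit 76) (nat_lit 13629364602) (nat_lit 43) (nat_lit 5) (nat_lit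 48) (nat_lit 5) (nat_lit 44) (nat_lit 5) (nat_lit 348) (nat_lit 339) (nat_lit 213))) (XT.nd (nat_lit 78) (nat_lit 228) (nat_lit 0) (XT.lf (nat_lit 0) (nat_lit 34635193509) (nat_lit 380) (nat_lit 24731036260) (nat_lit 76) (nat_lit 64828771723) (nat_lit 43) (nat_lit 5) (nat_lit 48) (nat_lit 5) (nat_lit 44) (nat_lit 5) (nat_lit 349) (nat_lit 339) (nat_lit 212)) (XT.lf (nat_lit 0) (nat_lit 41434478569) (nat_lit 228) (nat_lit 8770606242) (nat_lit 304) (nat_lit 79686163025) (nat_lit 40) (nat_lit 5) (nat_lit 43) (nat_lit 5) (nat_lit 44) (nat_lit 5) (nat_lit 350) (nat_lit 339) (nat_lit 211)))) (XT.nd (nat_lit 156) (nat_lit 152) (nat_lit 0) (XT.nd (nat_lit 78) (nat_lit 228) (nat_lit 0) (XT.lf (nat_lit 0) (nat_lit 68817086708) (nat_lit 304) (nat_lit 22810741795) (nat_lit 76) (nat_lit 44271644671) (nat_lit 40) (nat_lit 5) (nat_lit 44) (nat_lit 5) (nat_lit 41) (nat_lit 5) (nat_lit 351) (nat_lit 339)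 (nat_lit 210)) (XT.lf (nat_lit 0) (nat_lit 50378800897) (nat_lit 228) (nat_lit 39978229036) (nat_lit 304) (nat_lit 51916208883) (nat_lit 37) (nat_lit 5) (nat_lit 40) (nat_lit 5) (nat_lit 41) (nat_lit 5) (nat_lit 352) (nat_lit 339) (nat_lit 209))) (XT.nd (nat_lit 78) (nat_lit 152) (nat_lit 0) (XT.lf (nat_lit 0) (nat_lit 114639705436) (nat_lit 304) (nat_lit 18783036976) (nat_lit 76) (nat_lit 15652601063) (nat_lit 37) (nat_lit 5) (nat_lit 41) (nat_lit 5) (nat_lit 38) (nat_lit 5) (nat_lit 353) (nat_lit 339) (nat_lit 208)) (XT.lf (nat_lit 0) (nat_lit 62252512592) (nat_lit 152) (nat_lit 81147663860) (nat_lit 228) (nat_lit 12818626197) (nat_lit 35) (nat_lit 5) (nat_lit 37) (nat_lit 5) (nat_lit 38) (nat_lit 5) (nat_lit 354) (nat_lit 339) (nat_lit 207))))) (XT.nd (nat_lit 312) (nat_lit 380) (nat_lit 0) (XT.nd (nat_lit 156) (nat_lit 152) (nat_lit 0) (XT.nd (nat_lit 78) (nat_lit 228) (nat_lit 0)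 (XT.lf (nat_lit 0) (nat_lit 10527625389) (nat_lit 228) (nat_lit 13320570297) (nat_lit 76) (nat_lit 140023166486) (nat_lit 34) (nat_lit 5) (nat_lit 37) (nat_lit 5) (nat_lit 35) (nat_lit 5) (nat_lit 355) (nat_lit 339) (nat_lit 206)) (XT.lf (nat_lit 0) (nat_lit 37879699417) (nat_lit 304) (nat_lit 95621668168) (nat_lit 76) (nat_lit 38381670403) (nat_lit 31) (nat_lit 5) (nat_lit 35) (nat_lit 5) (nat_lit 32) (nat_lit 5) (nat_lit 356) (nat_lit 339) (nat_lit 205))) (XT.nd (nat_lit 78) (nat_lit 152) (nat_lit 0) (XT.lf (nat_lit 0) (nat_lit 68412700396) (nat_lit 304) (nat_lit 7368462130) (nat_lit 76) (nat_lit 104675064945) (nat_lit 31) (nat_lit 5) (nat_lit 35) (nat_lit 5) (nat_lit 32) (nat_lit 5) (nat_lit 357) (nat_lit 339) (nat_lit 204)) (XT.lf (nat_lit 0) (nat_lit 92575565203) (nat_lit 152) (nat_lit 11038905477) (nat_lit 228) (nat_lit 85922711545) (nat_lit 29) (nat_lit 5) (nat_lit 31) (nat_lit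 5) (nat_lit 32) (nat_lit 5) (nat_lit 358) (nat_lit 339) (nat_lit 203)))) (XT.nd (nat_lit 156) (nat_lit 228) (nat_lit 0) (XT.nd (nat_lit 78) (nat_lit 0) (nat_lit 0) (XT.lf (nat_lit 0) (nat_lit 193536834) (nat_lit 152) (nat_lit 143066025821) (nat_lit 228) (nat_lit 55954876714) (nat_lit 27) (nat_lit 5) (nat_lit 29) (nat_lit 5) (nat_lit 30) (nat_lit 5) (nat_lit 359) (nat_lit 339) (nat_lit 202)) (XT.lf (nat_lit 0) (nat_lit 110333133924) (nat_lit 152) (nat_lit 78673403190) (nat_lit 228) (nat_lit 20424918345) (nat_lit 27) (nat_lit 5) (nat_lit 29) (nat_lit 5) (nat_lit 30) (nat_lit 5) (nat_lit 360) (nat_lit 339) (nat_lit 201))) (XT.nd (nat_lit 78) (nat_lit 0) (nat_lit 0) (XT.lf (nat_lit 0) (nat_lit 8827600573) (nat_lit 152) (nat_lit 8434057710) (nat_lit 228) (nat_lit 203152681975) (nat_lit 24) (nat_lit 5) (nat_lit 26) (nat_lit 5) (nat_lit 27) (nat_lit 5) (nat_lit 361) (nat_lit 339) (nat_lit 200))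 (XT.lf (nat_lit 0) (nat_lit 61260873608) (nat_lit 228) (nat_lit 103258571110) (nat_lit 76) (nat_lit 67361874947) (nat_lit 24) (nat_lit 5) (nat_lit 27) (nat_lit 5) (nat_lit 25) (nat_lit 5) (nat_lit 362) (nat_lit 339) (nat_lit 199)))))) (XT.nd (nat_lit 624) (nat_lit 456) (nat_lit 0) (XT.nd (nat_lit 312) (nat_lit 228) (nat_lit 0) (XT.nd (nat_lit 156) (nat_lit 152) (nat_lit 0) (XT.nd (nat_lit 78) (nat_lit 0) (nat_lit 0) (XT.lf (nat_lit 0) (nat_lit 14228136218) (nat_lit 152) (nat_lit 95112891920) (nat_lit 228) (nat_lit 134879749410) (nat_lit 22) (nat_lit 5) (nat_lit 24) (nat_lit 5) (nat_lit 25) (nat_lit 5) (nat_lit 363) (nat_lit 339) (nat_lit 198)) (XT.lf (nat_lit 0) (nat_lit 146985799330) (nat_lit 152) (nat_lit 17104825868) (nat_lit 228) (nat_lit 93230924713) (nat_lit 22) (nat_lit 5) (nat_lit 24) (nat_lit 5) (nat_lit 25) (nat_lit 5) (nat_lit 364) (nat_lit 339) (nat_lit 197))) (XT.nd (nat_lit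 78) (nat_lit 76) (nat_lit 0) (XT.lf (nat_lit 0) (nat_lit 18188361362) (nat_lit 76) (nat_lit 207083843800) (nat_lit 152) (nat_lit 46034017933) (nat_lit 21) (nat_lit 5) (nat_lit 22) (nat_lit 5) (nat_lit 23) (nat_lit 4) (nat_lit 365) (nat_lit 339) (nat_lit 196)) (XT.lf (nat_lit 0) (nat_lit 8230779212) (nat_lit 152) (nat_lit 123540823517) (nat_lit 76) (nat_lit 154345430562) (nat_lit 20) (nat_lit 5) (nat_lit 22) (nat_lit 5) (nat_lit 21) (nat_lit 5) (nat_lit 366) (nat_lit 339) (nat_lit 195)))) (XT.nd (nat_lit 156) (nat_lit 76) (nat_lit 0) (XT.nd (nat_lit 78) (nat_lit 0) (nat_lit 0) (XT.lf (nat_lit 0) (nat_lit 16007079675) (nat_lit 152) (nat_lit 48727409866) (nat_lit 228) (nat_lit 237251782888) (nat_lit 18) (nat_lit 5) (nat_lit 20) (nat_lit 5) (nat_lit 21) (nat_lit 5) (nat_lit 367) (nat_lit 339) (nat_lit 194)) (XT.lf (nat_lit 0) (nat_lit 130208949486) (nat_lit 228) (nat_lit 146183318229) (nat_lit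 76) (nat_lit 42376746937) (nat_lit 18) (nat_lit 5) (nat_lit 21) (nat_lit 5) (nat_lit 19) (nat_lit 4) (nat_lit 368) (nat_lit 339) (nat_lit 193))) (XT.nd (nat_lit 78) (nat_lit 0) (nat_lit 0) (XT.lf (nat_lit 0) (nat_lit 3716149816) (nat_lit 76) (nat_lit 198560047452) (nat_lit 152) (nat_lit 134509792668) (nat_lit 17) (nat_lit 5) (nat_lit 18) (nat_lit 5) (nat_lit 19) (nat_lit 4) (nat_lit 369) (nat_lit 339) (nat_lit 192)) (XT.lf (nat_lit 0) (nat_lit 173920832108) (nat_lit 76) (nat_lit 110184720670) (nat_lit 152) (nat_lit 71819032385) (nat_lit 17) (nat_lit 5) (nat_lit 18) (nat_lit 5) (nat_lit 19) (nat_lit 4) (nat_lit 370) (nat_lit 339) (nat_lit 191))))) (XT.nd (nat_lit 312) (nat_lit 228) (nat_lit 0) (XT.nd (nat_lit 156) (nat_lit 76) (nat_lit 0) (XT.nd (nat_lit 78) (nat_lit 152) (nat_lit 0) (XT.lf (nat_lit 0) (nat_lit 357741594506) (nat_lit 76) (nat_lit 14739492708) (nat_lit 152) (nat_lit 4113194496)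 (nat_lit 17) (nat_lit 5) (nat_lit 18) (nat_lit 5) (nat_lit 19) (nat_lit 4) (nat_lit 371) (nat_lit 339) (nat_lit 190)) (XT.lf (nat_lit 0) (nat_lit 71768460591) (nat_lit 152) (nat_lit 236850667025) (nat_lit 76) (nat_lit 89668735595) (nat_lit 15) (nat_lit 5) (nat_lit 17) (nat_lit 5) (nat_lit 16) (nat_lit 4) (nat_lit 372) (nat_lit 339) (nat_lit 189))) (XT.nd (nat_lit 78) (nat_lit 76) (nat_lit 0) (XT.lf (nat_lit 0) (nat_lit 154409968656) (nat_lit 152) (nat_lit 64956607481) (nat_lit 76) (nat_lit 202268885120) (nat_lit 15) (nat_lit 5) (nat_lit 17) (nat_lit 5) (nat_lit 16) (nat_lit 4) (nat_lit 373) (nat_lit 339) (nat_lit 188)) (XT.lf (nat_lit 0) (nat_lit 127043967771) (nat_lit 76) (nat_lit 119674093166) (nat_lit 152) (nat_lit 199888385225) (nat_lit 14) (nat_lit 5) (nat_lit 15) (nat_lit 5) (nat_lit 16) (nat_lit 4) (nat_lit 374) (nat_lit 339) (nat_lit 187)))) (XT.nd (nat_lit 156) (nat_lit 152)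 (nat_lit 0) (XT.nd (nat_lit 78) (nat_lit 76) (nat_lit 0) (XT.lf (nat_lit 0) (nat_lit 338098472668) (nat_lit 76) (nat_lit 10088214508) (nat_lit 152) (nat_lit 125246351856) (nat_lit 14) (nat_lit 5) (nat_lit 15) (nat_lit 5) (nat_lit 16) (nat_lit 4) (nat_lit 375) (nat_lit 339) (nat_lit 186)) (XT.lf (nat_lit 0) (nat_lit 64241172279) (nat_lit 76) (nat_lit 397680263437) (nat_lit 76) (nat_lit 40152433128) (nat_lit 13) (nat_lit 4) (nat_lit 14) (nat_lit 5) (nat_lit 14) (nat_lit 4) (nat_lit 376) (nat_lit 339) (nat_lit 185))) (XT.nd (nat_lit 78) (nat_lit 76) (nat_lit 0) (XT.lf (nat_lit 0) (nat_lit 53218600890) (nat_lit 152) (nat_lit 246833329134) (nat_lit 76) (nat_lit 232529806214) (nat_lit 12) (nat_lit 5) (nat_lit 14) (nat_lit 5) (nat_lit 13) (nat_lit 4) (nat_lit 377) (nat_lit 339) (nat_lit 184)) (XT.nd (nat_lit 78) (nat_lit 76) (nat_lit 0) (XT.lf (nat_lit 0) (nat_lit 151889919748) (nat_lit 152)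 (nat_lit 41597160612) (nat_lit 76) (nat_lit 371959728994) (nat_lit 12) (nat_lit 5) (nat_lit 14) (nat_lit 5) (nat_lit 13) (nat_lit 4) (nat_lit 378) (nat_lit 339) (nat_lit 183)) (XT.lf (nat_lit 0) (nat_lit 189539209199) (nat_lit 76) (nat_lit 73474043035) (nat_lit 152) (nat_lit 337563171500) (nat_lit 11) (nat_lit 5) (nat_lit 12) (nat_lit 5) (nat_lit 13) (nat_lit 4) (nat_lit 379) (nat_lit 339) (nat_lit 182))))))))
noncomputable def xc203 : XT := (XT.nd (nat_lit 1248) (nat_lit 228) (nat_lit 0) (XT.nd (nat_lit 624) (nat_lit 228) (nat_lit 0) (XT.nd (nat_lit 312) (nat_lit 76) (nat_lit 0) (XT.nd (nat_lit 156) (nat_lit 76) (nat_lit 0) (XT.nd (nat_lit 78) (nat_lit 76) (nat_lit 0) (XT.lf (nat_lit 0) (nat_lit 385543388783) (nat_lit 152) (nat_lit 198273187011) (nat_lit 0) (nat_lit 54498476535) (nat_lit 11) (nat_lit 5) (nat_lit 13) (nat_lit 4) (nat_lit 11) (nat_lit 4) (nat_lit 380) (nat_lit 339) (nat_lit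 181)) (XT.lf (nat_lit 0) (nat_lit 31162209278) (nat_lit 76) (nat_lit 489371490772) (nat_lit 76) (nat_lit 158326450113) (nat_lit 10) (nat_lit 4) (nat_lit 11) (nat_lit 5) (nat_lit 11) (nat_lit 4) (nat_lit 381) (nat_lit 339) (nat_lit 180))) (XT.nd (nat_lit 78) (nat_lit 76) (nat_lit 0) (XT.lf (nat_lit 0) (nat_lit 290228217428) (nat_lit 76) (nat_lit 381516057457) (nat_lit 76) (nat_lit 50470897899) (nat_lit 10) (nat_lit 4) (nat_lit 11) (nat_lit 5) (nat_lit 11) (nat_lit 4) (nat_lit 382) (nat_lit 339) (nat_lit 179)) (XT.lf (nat_lit 0) (nat_lit 62710759352) (nat_lit 152) (nat_lit 200606890195) (nat_lit 76) (nat_lit 505593946110) (nat_lit 9) (nat_lit 5) (nat_lit 11) (nat_lit 5) (nat_lit 10) (nat_lit 4) (nat_lit 383) (nat_lit 339) (nat_lit 178)))) (XT.nd (nat_lit 156) (nat_lit 0) (nat_lit 0) (XT.nd (nat_lit 78) (nat_lit 0) (nat_lit 0) (XT.lf (nat_lit 0) (nat_lit 50498624398) (nat_lit 76) (nat_lit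 132935989055) (nat_lit 152) (nat_lit 635707092062) (nat_lit 8) (nat_lit 5) (nat_lit 9) (nat_lit 5) (nat_lit 10) (nat_lit 4) (nat_lit 384) (nat_lit 339) (nat_lit 177)) (XT.lf (nat_lit 0) (nat_lit 319633124190) (nat_lit 152) (nat_lit 540182215557) (nat_lit 0) (nat_lit 13109544587) (nat_lit 8) (nat_lit 5) (nat_lit 10) (nat_lit 4) (nat_lit 8) (nat_lit 4) (nat_lit 385) (nat_lit 339) (nat_lit 176))) (XT.nd (nat_lit 78) (nat_lit 0) (nat_lit 0) (XT.lf (nat_lit 0) (nat_lit 470180316529) (nat_lit 152) (nat_lit 296897520902) (nat_lit 0) (nat_lit 163656656004) (nat_lit 8) (nat_lit 5) (nat_lit 10) (nat_lit 4) (nat_lit 8) (nat_lit 4) (nat_lit 386) (nat_lit 339) (nat_lit 175)) (XT.lf (nat_lit 0) (nat_lit 632771208245) (nat_lit 152) (nat_lit 34150196339) (nat_lit 0) (nat_lit 326247472794) (nat_lit 8) (nat_lit 5) (nat_lit 10) (nat_lit 4) (nat_lit 8) (nat_lit 4) (nat_lit 387) (nat_lit 339) (nat_lit 174)))))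 (XT.nd (nat_lit 312) (nat_lit 0) (nat_lit 0) (XT.nd (nat_lit 156) (nat_lit 152) (nat_lit 0) (XT.nd (nat_lit 78) (nat_lit 0) (nat_lit 0) (XT.lf (nat_lit 0) (nat_lit 262761156553) (nat_lit 76) (nat_lit 551927556500) (nat_lit 76) (nat_lit 245403751672) (nat_lit 7) (nat_lit 4) (nat_lit 8) (nat_lit 5) (nat_lit 8) (nat_lit 4) (nat_lit 388) (nat_lit 339) (nat_lit 173)) (XT.lf (nat_lit 0) (nat_lit 585367438143) (nat_lit 76) (nat_lit 426725838663) (nat_lit 76) (nat_lit 120201969598) (nat_lit 7) (nat_lit 4) (nat_lit 8) (nat_lit 5) (nat_lit 8) (nat_lit 4) (nat_lit 389) (nat_lit 339) (nat_lit 172))) (XT.nd (nat_lit 78) (nat_lit 76) (nat_lit 0) (XT.lf (nat_lit 0) (nat_lit 14264731221) (nat_lit 152) (nat_lit 276853287603) (nat_lit 76) (nat_lit 919127346286) (nat_lit 6) (nat_lit 5) (nat_lit 8) (nat_lit 5) (nat_lit 7) (nat_lit 4) (nat_lit 390) (nat_lit 339) (nat_lit 171)) (XT.lf (nat_lit 0) (nat_lit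 12321311642) (nat_lit 76) (nat_lit 140969695694) (nat_lit 152) (nat_lit 1140867014255) (nat_lit 5) (nat_lit 5) (nat_lit 6) (nat_lit 5) (nat_lit 7) (nat_lit 4) (nat_lit 391) (nat_lit 339) (nat_lit 170)))) (XT.nd (nat_lit 156) (nat_lit 0) (nat_lit 0) (XT.nd (nat_lit 78) (nat_lit 0) (nat_lit 0) (XT.lf (nat_lit 0) (nat_lit 311715231755) (nat_lit 152) (nat_lit 1044509709968) (nat_lit 0) (nat_lit 27896681189) (nat_lit 5) (nat_lit 5) (nat_lit 7) (nat_lit 4) (nat_lit 5) (nat_lit 4) (nat_lit 392) (nat_lit 339) (nat_lit 169)) (XT.lf (nat_lit 0) (nat_lit 486474889388) (nat_lit 152) (nat_lit 791858208248) (nat_lit 0) (nat_lit 202656295104) (nat_lit 5) (nat_lit 5) (nat_lit 7) (nat_lit 4) (nat_lit 5) (nat_lit 4) (nat_lit 393) (nat_lit 339) (nat_lit 168))) (XT.nd (nat_lit 78) (nat_lit 0) (nat_lit 0) (XT.lf (nat_lit 0) (nat_lit 675215268449) (nat_lit 152) (nat_lit 518994686132) (nat_lit 0) (nat_lit 391396633684)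 (nat_lit 5) (nat_lit 5) (nat_lit 7) (nat_lit 4) (nat_lit 5) (nat_lit 4) (nat_lit 394) (nat_lit 339) (nat_lit 167)) (XT.lf (nat_lit 0) (nat_lit 879054830443) (nat_lit 152) (nat_lit 224302174601) (nat_lit 0) (nat_lit 595236158196) (nat_lit 5) (nat_lit 5) (nat_lit 7) (nat_lit 4) (nat_lit 5) (nat_lit 4) (nat_lit 395) (nat_lit 339) (nat_lit 166)))))) (XT.nd (nat_lit 624) (nat_lit 0) (nat_lit 0) (XT.nd (nat_lit 312) (nat_lit 152) (nat_lit 0) (XT.nd (nat_lit 156) (nat_lit 0) (nat_lit 0) (XT.nd (nat_lit 78) (nat_lit 0) (nat_lit 0) (XT.lf (nat_lit 0) (nat_lit 98913717069) (nat_lit 76) (nat_lit 1002666673720) (nat_lit 76) (nat_lit 718847966768) (nat_lit 4) (nat_lit 4) (nat_lit 5) (nat_lit 5) (nat_lit 5) (nat_lit 4) (nat_lit 396) (nat_lit 339) (nat_lit 165)) (XT.lf (nat_lit 0) (nat_lit 460743060144) (nat_lit 76) (nat_lit 887297712135) (nat_lit 76) (nat_lit 603478973048) (nat_lit 4) (nat_lit 4) (nat_lit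 5) (nat_lit 5) (nat_lit 5) (nat_lit 4) (nat_lit 397) (nat_lit 339) (nat_lit 164))) (XT.nd (nat_lit 78) (nat_lit 0) (nat_lit 0) (XT.lf (nat_lit 0) (nat_lit 851518673492) (nat_lit 76) (nat_lit 762699271321) (nat_lit 76) (nat_lit 478880502479) (nat_lit 4) (nat_lit 4) (nat_lit 5) (nat_lit 5) (nat_lit 5) (nat_lit 4) (nat_lit 398) (nat_lit 339) (nat_lit 163)) (XT.lf (nat_lit 0) (nat_lit 1273556264449) (nat_lit 76) (nat_lit 628132990146) (nat_lit 76) (nat_lit 344314193754) (nat_lit 4) (nat_lit 4) (nat_lit 5) (nat_lit 5) (nat_lit 5) (nat_lit 4) (nat_lit 399) (nat_lit 339) (nat_lit 162)))) (XT.nd (nat_lit 156) (nat_lit 152) (nat_lit 0) (XT.nd (nat_lit 78) (nat_lit 0) (nat_lit 0) (XT.lf (nat_lit 0) (nat_lit 1729356796519) (nat_lit 76) (nat_lit 482801438796) (nat_lit 76) (nat_lit 198982616894) (nat_lit 4) (nat_lit 4) (nat_lit 5) (nat_lit 5) (nat_lit 5) (nat_lit 4) (nat_lit 400) (nat_lit 339) (nat_lit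 161)) (XT.lf (nat_lit 0) (nat_lit 2221621309891) (nat_lit 76) (nat_lit 325843393263) (nat_lit 76) (nat_lit 42024547741) (nat_lit 4) (nat_lit 4) (nat_lit 5) (nat_lit 5) (nat_lit 5) (nat_lit 4) (nat_lit 401) (nat_lit 339) (nat_lit 160))) (XT.nd (nat_lit 78) (nat_lit 76) (nat_lit 0) (XT.lf (nat_lit 0) (nat_lit 121112562674) (nat_lit 152) (nat_lit 31904737028) (nat_lit 76) (nat_lit 2628842932839) (nat_lit 3) (nat_lit 5) (nat_lit 5) (nat_lit 5) (nat_lit 4) (nat_lit 4) (nat_lit 402) (nat_lit 339) (nat_lit 159)) (XT.lf (nat_lit 0) (nat_lit 304434842771) (nat_lit 152) (nat_lit 2642706780348) (nat_lit 0) (nat_lit 41639576435) (nat_lit 2) (nat_lit 5) (nat_lit 4) (nat_lit 4) (nat_lit 2) (nat_lit 4) (nat_lit 403) (nat_lit 339) (nat_lit 158))))) (XT.nd (nat_lit 42042) (nat_lit 0) (nat_lit 3800) (XT.nd (nat_lit 41886) (nat_lit 0) (nat_lit 3724) (XT.nd (nat_lit 78) (nat_lit 0) (nat_lit 0) (XT.lf (nat_lit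 0) (nat_lit 507292343200) (nat_lit 152) (nat_lit 2460076886199) (nat_lit 0) (nat_lit 244497059503) (nat_lit 2) (nat_lit 5) (nat_lit 4) (nat_lit 4) (nat_lit 2) (nat_lit 4) (nat_lit 404) (nat_lit 339) (nat_lit 157)) (XT.lf (nat_lit 0) (nat_lit 726378418277) (nat_lit 152) (nat_lit 2262836650653) (nat_lit 0) (nat_lit 463583118505) (nat_lit 2) (nat_lit 5) (nat_lit 4) (nat_lit 4) (nat_lit 2) (nat_lit 4) (nat_lit 405) (nat_lit 339) (nat_lit 156))) (XT.nd (nat_lit 78) (nat_lit 0) (nat_lit 0) (XT.lf (nat_lit 0) (nat_lit 32339669095) (nat_lit 532) (nat_lit 5977001301) (nat_lit 532) (nat_lit 5977001301) (nat_lit 51) (nat_lit 3) (nat_lit 58) (nat_lit 3) (nat_lit 58) (nat_lit 5) (nat_lit 340) (nat_lit 340) (nat_lit 220)) (XT.lf (nat_lit 76) (nat_lit 31134934848) (nat_lit 0) (nat_lit 36888068932) (nat_lit 532) (nat_lit 24047297385) (nat_lit 52) (nat_lit 5) (nat_lit 51) (nat_lit 3) (nat_lit 58) (nat_lit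 5) (nat_lit 341) (nat_lit 340) (nat_lit 219)))) (XT.nd (nat_lit 156) (nat_lit 0) (nat_lit 0) (XT.nd (nat_lit 78) (nat_lit 0) (nat_lit 0) (XT.lf (nat_lit 0) (nat_lit 72113909150) (nat_lit 456) (nat_lit 17609112161) (nat_lit 532) (nat_lit 6070496183) (nat_lit 52) (nat_lit 5) (nat_lit 58) (nat_lit 5) (nat_lit 59) (nat_lit 5) (nat_lit 342) (nat_lit 340) (nat_lit 218)) (XT.lf (nat_lit 76) (nat_lit 29710897022) (nat_lit 0) (nat_lit 48493154276) (nat_lit 532) (nat_lit 21476784219) (nat_lit 53) (nat_lit 5) (nat_lit 52) (nat_lit 5) (nat_lit 59) (nat_lit 5) (nat_lit 343) (nat_lit 340) (nat_lit 217))) (XT.nd (nat_lit 78) (nat_lit 0) (nat_lit 76) (XT.lf (nat_lit 76) (nat_lit 81817491684) (nat_lit 0) (nat_lit 3444704251) (nat_lit 532) (nat_lit 18578481183) (nat_lit 53) (nat_lit 5) (nat_lit 52) (nat_lit 5) (nat_lit 59) (nat_lit 5) (nat_lit 344) (nat_lit 340) (nat_lit 216)) (XT.nd (nat_lit 78) (nat_lit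 0) (nat_lit 0) (XT.lf (nat_lit 76) (nat_lit 30181375280) (nat_lit 0) (nat_lit 64516105430) (nat_lit 532) (nat_lit 13490827569) (nat_lit 54) (nat_lit 5) (nat_lit 53) (nat_lit 5) (nat_lit 60) (nat_lit 5) (nat_lit 345) (nat_lit 340) (nat_lit 215)) (XT.lf (nat_lit 76) (nat_lit 87720124001) (nat_lit 0) (nat_lit 17856240768) (nat_lit 532) (nat_lit 7252284265) (nat_lit 54) (nat_lit 5) (nat_lit 53) (nat_lit 5) (nat_lit 60) (nat_lit 5) (nat_lit 346) (nat_lit 340) (nat_lit 214))))))))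
noncomputable def xc204 : XT := (XT.nd (nat_lit 1248) (nat_lit 912) (nat_lit 0) (XT.nd (nat_lit 624) (nat_lit 988) (nat_lit 0) (XT.nd (nat_lit 312) (nat_lit 456) (nat_lit 0) (XT.nd (nat_lit 156) (nat_lit 304) (nat_lit 0) (XT.nd (nat_lit 78) (nat_lit 0) (nat_lit 0) (XT.lf (nat_lit 0) (nat_lit 1124757266) (nat_lit 532) (nat_lit 84859117875) (nat_lit 76) (nat_lit 31728239599) (nat_lit 47) (nat_lit 5) (nat_lit 54) (nat_lit 5) (nat_lit 48) (nat_lit 5) (nat_lit 347) (nat_lit 340) (nat_lit 213)) (XT.lf (nat_lit 0) (nat_lit 10947767904) (nat_lit 532) (nat_lit 26722452154) (nat_lit 76) (nat_lit 85207559529) (nat_lit 47) (nat_lit 5) (nat_lit 54) (nat_lit 5) (nat_lit 48) (nat_lit 5) (nat_lit 348) (nat_lit 340) (nat_lit 212))) (XT.nd (nat_lit 78) (nat_lit 0) (nat_lit 0) (XT.lf (nat_lit 0) (nat_lit 22841810261) (nat_lit 380) (nat_lit 90792553826) (nat_lit 76) (nat_lit 14719519163) (nat_lit 43) (nat_lit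 5) (nat_lit 48) (nat_lit 5) (nat_lit 44) (nat_lit 5) (nat_lit 349) (nat_lit 340) (nat_lit 211)) (XT.lf (nat_lit 0) (nat_lit 37414980281) (nat_lit 380) (nat_lit 26699994146) (nat_lit 76) (nat_lit 70014893269) (nat_lit 43) (nat_lit 5) (nat_lit 48) (nat_lit 5) (nat_lit 44) (nat_lit 5) (nat_lit 350) (nat_lit 340) (nat_lit 210)))) (XT.nd (nat_lit 156) (nat_lit 228) (nat_lit 0) (XT.nd (nat_lit 78) (nat_lit 0) (nat_lit 0) (XT.lf (nat_lit 0) (nat_lit 44758520730) (nat_lit 228) (nat_lit 9471500894) (nat_lit 304) (nat_lit 86051828624) (nat_lit 40) (nat_lit 5) (nat_lit 43) (nat_lit 5) (nat_lit 44) (nat_lit 5) (nat_lit 351) (nat_lit 340) (nat_lit 209)) (XT.lf (nat_lit 0) (nat_lit 74330368607) (nat_lit 304) (nat_lit 24626375991) (nat_lit 76) (nat_lit 47814039334) (nat_lit 40) (nat_lit 5) (nat_lit 44) (nat_lit 5) (nat_lit 41) (nat_lit 5) (nat_lit 352) (nat_lit 340) (nat_lit 208))) (XT.nd (nat_lit 78)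 (nat_lit 0) (nat_lit 0) (XT.lf (nat_lit 0) (nat_lit 54418096567) (nat_lit 228) (nat_lit 43175040677) (nat_lit 304) (nat_lit 56061344214) (nat_lit 37) (nat_lit 5) (nat_lit 40) (nat_lit 5) (nat_lit 41) (nat_lit 5) (nat_lit 353) (nat_lit 340) (nat_lit 207)) (XT.lf (nat_lit 0) (nat_lit 123817900121) (nat_lit 304) (nat_lit 20276815796) (nat_lit 76) (nat_lit 16906081660) (nat_lit 37) (nat_lit 5) (nat_lit 41) (nat_lit 5) (nat_lit 38) (nat_lit 5) (nat_lit 354) (nat_lit 340) (nat_lit 206))))) (XT.nd (nat_lit 312) (nat_lit 532) (nat_lit 0) (XT.nd (nat_lit 156) (nat_lit 228) (nat_lit 0) (XT.nd (nat_lit 78) (nat_lit 76) (nat_lit 0) (XT.lf (nat_lit 0) (nat_lit 67241353329) (nat_lit 152) (nat_lit 87637543404) (nat_lit 228) (nat_lit 13836862601) (nat_lit 35) (nat_lit 5) (nat_lit 37) (nat_lit 5) (nat_lit 38) (nat_lit 5) (nat_lit 355) (nat_lit 340) (nat_lit 205)) (XT.lf (nat_lit 0) (nat_lit 11376215820)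 (nat_lit 228) (nat_lit 14377870731) (nat_lit 76) (nat_lit 151226464703) (nat_lit 34) (nat_lit 5) (nat_lit 37) (nat_lit 5) (nat_lit 35) (nat_lit 5) (nat_lit 356) (nat_lit 340) (nat_lit 204))) (XT.nd (nat_lit 78) (nat_lit 0) (nat_lit 0) (XT.lf (nat_lit 0) (nat_lit 40916227604) (nat_lit 304) (nat_lit 103262819505) (nat_lit 76) (nat_lit 41454132981) (nat_lit 31) (nat_lit 5) (nat_lit 35) (nat_lit 5) (nat_lit 32) (nat_lit 5) (nat_lit 357) (nat_lit 340) (nat_lit 203)) (XT.lf (nat_lit 0) (nat_lit 73891412940) (nat_lit 304) (nat_lit 7949992697) (nat_lit 76) (nat_lit 113050856201) (nat_lit 31) (nat_lit 5) (nat_lit 35) (nat_lit 5) (nat_lit 32) (nat_lit 5) (nat_lit 358) (nat_lit 340) (nat_lit 202)))) (XT.nd (nat_lit 156) (nat_lit 228) (nat_lit 0) (XT.nd (nat_lit 78) (nat_lit 152) (nat_lit 0) (XT.lf (nat_lit 0) (nat_lit 99989355648) (nat_lit 152) (nat_lit 11919733508) (nat_lit 228) (nat_lit 92790623272)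 (nat_lit 29) (nat_lit 5) (nat_lit 31) (nat_lit 5) (nat_lit 32) (nat_lit 5) (nat_lit 359) (nat_lit 340) (nat_lit 201)) (XT.lf (nat_lit 0) (nat_lit 216948504) (nat_lit 152) (nat_lit 154508677036) (nat_lit 228) (nat_lit 60425538195) (nat_lit 27) (nat_lit 5) (nat_lit 29) (nat_lit 5) (nat_lit 30) (nat_lit 5) (nat_lit 360) (nat_lit 340) (nat_lit 200))) (XT.nd (nat_lit 78) (nat_lit 228) (nat_lit 0) (XT.lf (nat_lit 0) (nat_lit 119167126048) (nat_lit 152) (nat_lit 84964839472) (nat_lit 228) (nat_lit 22053607502) (nat_lit 27) (nat_lit 5) (nat_lit 29) (nat_lit 5) (nat_lit 30) (nat_lit 5) (nat_lit 361) (nat_lit 340) (nat_lit 199)) (XT.lf (nat_lit 0) (nat_lit 9541228607) (nat_lit 152) (nat_lit 9106206501) (nat_lit 228) (nat_lit 219399659319) (nat_lit 24) (nat_lit 5) (nat_lit 26) (nat_lit 5) (nat_lit 27) (nat_lit 5) (nat_lit 362) (nat_lit 340) (nat_lit 198)))))) (XT.nd (nat_lit 624) (nat_lit 380) (nat_lit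 0) (XT.nd (nat_lit 312) (nat_lit 304) (nat_lit 0) (XT.nd (nat_lit 156) (nat_lit 76) (nat_lit 0) (XT.nd (nat_lit 78) (nat_lit 152) (nat_lit 0) (XT.lf (nat_lit 0) (nat_lit 66166286191) (nat_lit 228) (nat_lit 111512079862) (nat_lit 76) (nat_lit 72753090658) (nat_lit 24) (nat_lit 5) (nat_lit 27) (nat_lit 5) (nat_lit 25) (nat_lit 5) (nat_lit 363) (nat_lit 340) (nat_lit 197)) (XT.lf (nat_lit 0) (nat_lit 15373382357) (nat_lit 152) (nat_lit 102719302466) (nat_lit 228) (nat_lit 145665400242) (nat_lit 22) (nat_lit 5) (nat_lit 24) (nat_lit 5) (nat_lit 25) (nat_lit 5) (nat_lit 364) (nat_lit 340) (nat_lit 196))) (XT.nd (nat_lit 78) (nat_lit 76) (nat_lit 0) (XT.lf (nat_lit 0) (nat_lit 158751140352) (nat_lit 152) (nat_lit 18470785264) (nat_lit 228) (nat_lit 100685019874) (nat_lit 22) (nat_lit 5) (nat_lit 24) (nat_lit 5) (nat_lit 25) (nat_lit 5) (nat_lit 365) (nat_lit 340) (nat_lit 195)) (XT.lf (nat_lit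 0) (nat_lit 19650006585) (nat_lit 76) (nat_lit 223647937561) (nat_lit 152) (nat_lit 49712455733) (nat_lit 21) (nat_lit 5) (nat_lit 22) (nat_lit 5) (nat_lit 23) (nat_lit 4) (nat_lit 366) (nat_lit 340) (nat_lit 194)))) (XT.nd (nat_lit 156) (nat_lit 76) (nat_lit 0) (XT.nd (nat_lit 78) (nat_lit 152) (nat_lit 0) (XT.lf (nat_lit 0) (nat_lit 8893009465) (nat_lit 152) (nat_lit 133417798329) (nat_lit 76) (nat_lit 166695283250) (nat_lit 20) (nat_lit 5) (nat_lit 22) (nat_lit 5) (nat_lit 21) (nat_lit 5) (nat_lit 367) (nat_lit 340) (nat_lit 193)) (XT.lf (nat_lit 0) (nat_lit 17293777851) (nat_lit 152) (nat_lit 52623107134) (nat_lit 228) (nat_lit 256227995115) (nat_lit 18) (nat_lit 5) (nat_lit 20) (nat_lit 5) (nat_lit 21) (nat_lit 5) (nat_lit 368) (nat_lit 340) (nat_lit 192))) (XT.nd (nat_lit 78) (nat_lit 76) (nat_lit 0) (XT.lf (nat_lit 0) (nat_lit 140629087944) (nat_lit 228) (nat_lit 157872089328)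 (nat_lit 76) (nat_lit 45769081771) (nat_lit 18) (nat_lit 5) (nat_lit 21) (nat_lit 5) (nat_lit 19) (nat_lit 4) (nat_lit 369) (nat_lit 340) (nat_lit 191)) (XT.lf (nat_lit 0) (nat_lit 4019186937) (nat_lit 76) (nat_lit 214442413264) (nat_lit 152) (nat_lit 145267001597) (nat_lit 17) (nat_lit 5) (nat_lit 18) (nat_lit 5) (nat_lit 19) (nat_lit 4) (nat_lit 370) (nat_lit 340) (nat_lit 190))))) (XT.nd (nat_lit 312) (nat_lit 228) (nat_lit 0) (XT.nd (nat_lit 156) (nat_lit 152) (nat_lit 0) (XT.nd (nat_lit 78) (nat_lit 0) (nat_lit 0) (XT.lf (nat_lit 0) (nat_lit 187839818246) (nat_lit 76) (nat_lit 118997240930) (nat_lit 152) (nat_lit 77561245268) (nat_lit 17) (nat_lit 5) (nat_lit 18) (nat_lit 5) (nat_lit 19) (nat_lit 4) (nat_lit 371) (nat_lit 340) (nat_lit 189)) (XT.lf (nat_lit 0) (nat_lit 386365847594) (nat_lit 76) (nat_lit 15916561946) (nat_lit 152) (nat_lit 4439185511) (nat_lit 17) (nat_lit 5) (nat_lit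 18) (nat_lit 5) (nat_lit 19) (nat_lit 4) (nat_lit 372) (nat_lit 340) (nat_lit 188))) (XT.nd (nat_lit 78) (nat_lit 0) (nat_lit 0) (XT.lf (nat_lit 0) (nat_lit 77512803551) (nat_lit 152) (nat_lit 255793592206) (nat_lit 76) (nat_lit 96844265194) (nat_lit 15) (nat_lit 5) (nat_lit 17) (nat_lit 5) (nat_lit 16) (nat_lit 4) (nat_lit 373) (nat_lit 340) (nat_lit 187)) (XT.lf (nat_lit 0) (nat_lit 166765419955) (nat_lit 152) (nat_lit 70148387763) (nat_lit 76) (nat_lit 218452276254) (nat_lit 15) (nat_lit 5) (nat_lit 17) (nat_lit 5) (nat_lit 16) (nat_lit 4) (nat_lit 374) (nat_lit 340) (nat_lit 186)))) (XT.nd (nat_lit 156) (nat_lit 152) (nat_lit 0) (XT.nd (nat_lit 78) (nat_lit 0) (nat_lit 0) (XT.lf (nat_lit 0) (nat_lit 137212113298) (nat_lit 76) (nat_lit 129245961049) (nat_lit 152) (nat_lit 215876680286) (nat_lit 14) (nat_lit 5) (nat_lit 15) (nat_lit 5) (nat_lit 16) (nat_lit 4) (nat_lit 375) (nat_lit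 340) (nat_lit 185)) (XT.lf (nat_lit 0) (nat_lit 365150635764) (nat_lit 76) (nat_lit 10893364659) (nat_lit 152) (nat_lit 135263489858) (nat_lit 14) (nat_lit 5) (nat_lit 15) (nat_lit 5) (nat_lit 16) (nat_lit 4) (nat_lit 376) (nat_lit 340) (nat_lit 184))) (XT.nd (nat_lit 78) (nat_lit 76) (nat_lit 0) (XT.lf (nat_lit 0) (nat_lit 69384785169) (nat_lit 76) (nat_lit 429492713850) (nat_lit 76) (nat_lit 43362089965) (nat_lit 13) (nat_lit 4) (nat_lit 14) (nat_lit 5) (nat_lit 14) (nat_lit 4) (nat_lit 377) (nat_lit 340) (nat_lit 183)) (XT.lf (nat_lit 0) (nat_lit 57478321240) (nat_lit 152) (nat_lit 266575877465) (nat_lit 76) (nat_lit 251133896571) (nat_lit 12) (nat_lit 5) (nat_lit 14) (nat_lit 5) (nat_lit 13) (nat_lit 4) (nat_lit 378) (nat_lit 340) (nat_lit 182)))))))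
noncomputable def xc205 : XT := (XT.nd (nat_lit 1248) (nat_lit 228) (nat_lit 0) (XT.nd (nat_lit 624) (nat_lit 228) (nat_lit 0) (XT.nd (nat_lit 312) (nat_lit 152) (nat_lit 0) (XT.nd (nat_lit 156) (nat_lit 76) (nat_lit 0) (XT.nd (nat_lit 78) (nat_lit 76) (nat_lit 0) (XT.lf (nat_lit 0) (nat_lit 164043180253) (nat_lit 152) (nat_lit 44921120497) (nat_lit 76) (nat_lit 401718086814) (nat_lit 12) (nat_lit 5) (nat_lit 14) (nat_lit 5) (nat_lit 13) (nat_lit 4) (nat_lit 379) (nat_lit 340) (nat_lit 181)) (XT.lf (nat_lit 0) (nat_lit 204706062368) (nat_lit 76) (nat_lit 79350253245) (nat_lit 152) (nat_lit 364566060667) (nat_lit 11) (nat_lit 5) (nat_lit 12) (nat_lit 5) (nat_lit 13) (nat_lit 4) (nat_lit 380) (nat_lit 340) (nat_lit 180))) (XT.nd (nat_lit 78) (nat_lit 76) (nat_lit 0) (XT.lf (nat_lit 0) (nat_lit 416388752851) (nat_lit 152) (nat_lit 214131489581) (nat_lit 0) (nat_lit 58859861630) (nat_lit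 11) (nat_lit 5) (nat_lit 13) (nat_lit 4) (nat_lit 11) (nat_lit 4) (nat_lit 381) (nat_lit 340) (nat_lit 179)) (XT.lf (nat_lit 0) (nat_lit 33658648477) (nat_lit 76) (nat_lit 528519583596) (nat_lit 76) (nat_lit 170990582283) (nat_lit 10) (nat_lit 4) (nat_lit 11) (nat_lit 5) (nat_lit 11) (nat_lit 4) (nat_lit 382) (nat_lit 340) (nat_lit 178)))) (XT.nd (nat_lit 156) (nat_lit 76) (nat_lit 0) (XT.nd (nat_lit 78) (nat_lit 76) (nat_lit 0) (XT.lf (nat_lit 0) (nat_lit 313449680801) (nat_lit 76) (nat_lit 412035836092) (nat_lit 76) (nat_lit 54506732842) (nat_lit 10) (nat_lit 4) (nat_lit 11) (nat_lit 5) (nat_lit 11) (nat_lit 4) (nat_lit 383) (nat_lit 340) (nat_lit 177)) (XT.lf (nat_lit 0) (nat_lit 67729235841) (nat_lit 152) (nat_lit 216652387084) (nat_lit 76) (nat_lit 546042770379) (nat_lit 9) (nat_lit 5) (nat_lit 11) (nat_lit 5) (nat_lit 10) (nat_lit 4) (nat_lit 384) (nat_lit 340) (nat_lit 176))) (XT.nd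 (nat_lit 78) (nat_lit 0) (nat_lit 0) (XT.lf (nat_lit 0) (nat_lit 54541491352) (nat_lit 76) (nat_lit 143569458831) (nat_lit 152) (nat_lit 686561965670) (nat_lit 8) (nat_lit 5) (nat_lit 9) (nat_lit 5) (nat_lit 10) (nat_lit 4) (nat_lit 385) (nat_lit 340) (nat_lit 175)) (XT.lf (nat_lit 0) (nat_lit 345205257041) (nat_lit 152) (nat_lit 583393950940) (nat_lit 0) (nat_lit 14159547827) (nat_lit 8) (nat_lit 5) (nat_lit 10) (nat_lit 4) (nat_lit 8) (nat_lit 4) (nat_lit 386) (nat_lit 340) (nat_lit 174))))) (XT.nd (nat_lit 312) (nat_lit 152) (nat_lit 0) (XT.nd (nat_lit 156) (nat_lit 76) (nat_lit 0) (XT.nd (nat_lit 78) (nat_lit 0) (nat_lit 0) (XT.lf (nat_lit 0) (nat_lit 507796114921) (nat_lit 152) (nat_lit 320646691221) (nat_lit 0) (nat_lit 176750336331) (nat_lit 8) (nat_lit 5) (nat_lit 10) (nat_lit 4) (nat_lit 8) (nat_lit 4) (nat_lit 387) (nat_lit 340) (nat_lit 173)) (XT.lf (nat_lit 0) (nat_lit 683394176265)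 (nat_lit 152) (nat_lit 36879775608) (nat_lit 0) (nat_lit 352348333437) (nat_lit 8) (nat_lit 5) (nat_lit 10) (nat_lit 4) (nat_lit 8) (nat_lit 4) (nat_lit 388) (nat_lit 340) (nat_lit 172))) (XT.nd (nat_lit 78) (nat_lit 0) (nat_lit 0) (XT.lf (nat_lit 0) (nat_lit 283784423834) (nat_lit 76) (nat_lit 596080620562) (nat_lit 76) (nat_lit 265034718255) (nat_lit 7) (nat_lit 4) (nat_lit 8) (nat_lit 5) (nat_lit 8) (nat_lit 4) (nat_lit 389) (nat_lit 340) (nat_lit 171)) (XT.lf (nat_lit 0) (nat_lit 632199032043) (nat_lit 76) (nat_lit 460862849777) (nat_lit 76) (nat_lit 129816892397) (nat_lit 7) (nat_lit 4) (nat_lit 8) (nat_lit 5) (nat_lit 8) (nat_lit 4) (nat_lit 390) (nat_lit 340) (nat_lit 170)))) (XT.nd (nat_lit 156) (nat_lit 0) (nat_lit 0) (XT.nd (nat_lit 78) (nat_lit 76) (nat_lit 0) (XT.lf (nat_lit 0) (nat_lit 15406995830) (nat_lit 152) (nat_lit 298999457045) (nat_lit 76) (nat_lit 992658454151) (nat_lit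 6) (nat_lit 5) (nat_lit 8) (nat_lit 5) (nat_lit 7) (nat_lit 4) (nat_lit 391) (nat_lit 340) (nat_lit 169)) (XT.lf (nat_lit 0) (nat_lit 13309057138) (nat_lit 76) (nat_lit 152246285519) (nat_lit 152) (nat_lit 1232135235909) (nat_lit 5) (nat_lit 5) (nat_lit 6) (nat_lit 5) (nat_lit 7) (nat_lit 4) (nat_lit 392) (nat_lit 340) (nat_lit 168))) (XT.nd (nat_lit 78) (nat_lit 0) (nat_lit 0) (XT.lf (nat_lit 0) (nat_lit 336653448855) (nat_lit 152) (nat_lit 1128068540833) (nat_lit 0) (nat_lit 30129282828) (nat_lit 5) (nat_lit 5) (nat_lit 7) (nat_lit 4) (nat_lit 5) (nat_lit 4) (nat_lit 393) (nat_lit 340) (nat_lit 167)) (XT.lf (nat_lit 0) (nat_lit 525393805131) (nat_lit 152) (nat_lit 855205063118) (nat_lit 0) (nat_lit 218869601622) (nat_lit 5) (nat_lit 5) (nat_lit 7) (nat_lit 4) (nat_lit 5) (nat_lit 4) (nat_lit 394) (nat_lit 340) (nat_lit 166)))))) (XT.nd (nat_lit 624) (nat_lit 152) (nat_lit 0) (XT.nd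 (nat_lit 312) (nat_lit 0) (nat_lit 0) (XT.nd (nat_lit 156) (nat_lit 76) (nat_lit 0) (XT.nd (nat_lit 78) (nat_lit 0) (nat_lit 0) (XT.lf (nat_lit 0) (nat_lit 729233346028) (nat_lit 152) (nat_lit 560512592699) (nat_lit 0) (nat_lit 422709107814) (nat_lit 5) (nat_lit 5) (nat_lit 7) (nat_lit 4) (nat_lit 5) (nat_lit 4) (nat_lit 395) (nat_lit 340) (nat_lit 165)) (XT.lf (nat_lit 0) (nat_lit 949380009567) (nat_lit 152) (nat_lit 242244803825) (nat_lit 0) (nat_lit 642855739218) (nat_lit 5) (nat_lit 5) (nat_lit 7) (nat_lit 4) (nat_lit 5) (nat_lit 4) (nat_lit 396) (nat_lit 340) (nat_lit 164))) (XT.nd (nat_lit 78) (nat_lit 0) (nat_lit 0) (XT.lf (nat_lit 0) (nat_lit 106828320072) (nat_lit 76) (nat_lit 1082879272162) (nat_lit 76) (nat_lit 776354972059) (nat_lit 4) (nat_lit 4) (nat_lit 5) (nat_lit 5) (nat_lit 5) (nat_lit 4) (nat_lit 397) (nat_lit 340) (nat_lit 163)) (XT.lf (nat_lit 0) (nat_lit 497603899064)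 (nat_lit 76) (nat_lit 958280848129) (nat_lit 76) (nat_lit 651756520475) (nat_lit 4) (nat_lit 4) (nat_lit 5) (nat_lit 5) (nat_lit 5) (nat_lit 4) (nat_lit 398) (nat_lit 340) (nat_lit 162)))) (XT.nd (nat_lit 156) (nat_lit 0) (nat_lit 0) (XT.nd (nat_lit 78) (nat_lit 0) (nat_lit 0) (XT.lf (nat_lit 0) (nat_lit 919641458212) (nat_lit 76) (nat_lit 823714582492) (nat_lit 76) (nat_lit 517190229328) (nat_lit 4) (nat_lit 4) (nat_lit 5) (nat_lit 5) (nat_lit 5) (nat_lit 4) (nat_lit 399) (nat_lit 340) (nat_lit 161)) (XT.lf (nat_lit 0) (nat_lit 1375441960828) (nat_lit 76) (nat_lit 678383045529) (nat_lit 76) (nat_lit 371858668746) (nat_lit 4) (nat_lit 4) (nat_lit 5) (nat_lit 5) (nat_lit 5) (nat_lit 4) (nat_lit 400) (nat_lit 340) (nat_lit 160))) (XT.nd (nat_lit 78) (nat_lit 0) (nat_lit 0) (XT.lf (nat_lit 0) (nat_lit 1867706446929) (nat_lit 76) (nat_lit 521425013318) (nat_lit 76) (nat_lit 214900614664)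 (nat_lit 4) (nat_lit 4) (nat_lit 5) (nat_lit 5) (nat_lit 5) (nat_lit 4) (nat_lit 401) (nat_lit 340) (nat_lit 159)) (XT.lf (nat_lit 0) (nat_lit 2399352039394) (nat_lit 76) (nat_lit 351910364185) (nat_lit 76) (nat_lit 45385945281) (nat_lit 4) (nat_lit 4) (nat_lit 5) (nat_lit 5) (nat_lit 5) (nat_lit 4) (nat_lit 402) (nat_lit 340) (nat_lit 158))))) (XT.nd (nat_lit 42198) (nat_lit 0) (nat_lit 3800) (XT.nd (nat_lit 42042) (nat_lit 0) (nat_lit 3724) (XT.nd (nat_lit 78) (nat_lit 76) (nat_lit 0) (XT.lf (nat_lit 0) (nat_lit 130802065792) (nat_lit 152) (nat_lit 34456140806) (nat_lit 76) (nat_lit 2839150804551) (nat_lit 3) (nat_lit 5) (nat_lit 5) (nat_lit 5) (nat_lit 4) (nat_lit 4) (nat_lit 403) (nat_lit 340) (nat_lit 157)) (XT.lf (nat_lit 0) (nat_lit 328790125476) (nat_lit 152) (nat_lit 2854122344635) (nat_lit 0) (nat_lit 44971185647) (nat_lit 2) (nat_lit 5) (nat_lit 4) (nat_lit 4) (nat_lit 2) (nat_lit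 4) (nat_lit 404) (nat_lit 340) (nat_lit 156))) (XT.nd (nat_lit 78) (nat_lit 0) (nat_lit 0) (XT.lf (nat_lit 0) (nat_lit 34934353661) (nat_lit 532) (nat_lit 6451097343) (nat_lit 532) (nat_lit 6451097343) (nat_lit 51) (nat_lit 3) (nat_lit 58) (nat_lit 3) (nat_lit 58) (nat_lit 5) (nat_lit 341) (nat_lit 341) (nat_lit 218)) (XT.lf (nat_lit 76) (nat_lit 33633651985) (nat_lit 0) (nat_lit 39845291959) (nat_lit 532) (nat_lit 25955823318) (nat_lit 52) (nat_lit 5) (nat_lit 51) (nat_lit 3) (nat_lit 58) (nat_lit 5) (nat_lit 342) (nat_lit 341) (nat_lit 217)))) (XT.nd (nat_lit 156) (nat_lit 0) (nat_lit 0) (XT.nd (nat_lit 78) (nat_lit 0) (nat_lit 0) (XT.lf (nat_lit 0) (nat_lit 77895939745) (nat_lit 456) (nat_lit 19009295842) (nat_lit 532) (nat_lit 6550702092) (nat_lit 52) (nat_lit 5) (nat_lit 58) (nat_lit 5) (nat_lit 59) (nat_lit 5) (nat_lit 343) (nat_lit 341) (nat_lit 216)) (XT.lf (nat_lit 76) (nat_lit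 32096097740) (nat_lit 0) (nat_lit 52376438959) (nat_lit 532) (nat_lit 23181767029) (nat_lit 53) (nat_lit 5) (nat_lit 52) (nat_lit 5) (nat_lit 59) (nat_lit 5) (nat_lit 344) (nat_lit 341) (nat_lit 215))) (XT.nd (nat_lit 78) (nat_lit 0) (nat_lit 76) (XT.lf (nat_lit 76) (nat_lit 88370603014) (nat_lit 0) (nat_lit 3723829055) (nat_lit 532) (nat_lit 20052574560) (nat_lit 53) (nat_lit 5) (nat_lit 52) (nat_lit 5) (nat_lit 59) (nat_lit 5) (nat_lit 345) (nat_lit 341) (nat_lit 214)) (XT.nd (nat_lit 78) (nat_lit 0) (nat_lit 0) (XT.lf (nat_lit 76) (nat_lit 32604386487) (nat_lit 0) (nat_lit 69679444466) (nat_lit 532) (nat_lit 14558675789) (nat_lit 54) (nat_lit 5) (nat_lit 53) (nat_lit 5) (nat_lit 60) (nat_lit 5) (nat_lit 346) (nat_lit 341) (nat_lit 213)) (XT.lf (nat_lit 76) (nat_lit 94745605388) (nat_lit 0) (nat_lit 19286638735) (nat_lit 532) (nat_lit 7821894798) (nat_lit 54) (nat_lit 5) (nat_lit 53)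 (nat_lit 5) (nat_lit 60) (nat_lit 5) (nat_lit 347) (nat_lit 341) (nat_lit 212))))))))
noncomputable def xc206 : XT := (XT.nd (nat_lit 1248) (nat_lit 912) (nat_lit 0) (XT.nd (nat_lit 624) (nat_lit 988) (nat_lit 0) (XT.nd (nat_lit 312) (nat_lit 456) (nat_lit 0) (XT.nd (nat_lit 156) (nat_lit 304) (nat_lit 0) (XT.nd (nat_lit 78) (nat_lit 0) (nat_lit 0) (XT.lf (nat_lit 0) (nat_lit 1224203556) (nat_lit 532) (nat_lit 91638832920) (nat_lit 76) (nat_lit 34265272677) (nat_lit 47) (nat_lit 5) (nat_lit 54) (nat_lit 5) (nat_lit 48) (nat_lit 5) (nat_lit 348) (nat_lit 341) (nat_lit 211)) (XT.lf (nat_lit 0) (nat_lit 11832353882) (nat_lit 532) (nat_lit 28851901673) (nat_lit 76) (nat_lit 92023029023) (nat_lit 47) (nat_lit 5) (nat_lit 54) (nat_lit 5) (nat_lit 48) (nat_lit 5) (nat_lit 349) (nat_lit 341) (nat_lit 210))) (XT.nd (nat_lit 78) (nat_lit 0) (nat_lit 0) (XT.lf (nat_lit 0) (nat_lit 24677461833) (nat_lit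 380) (nat_lit 98047138674) (nat_lit 76) (nat_lit 15896913852) (nat_lit 43) (nat_lit 5) (nat_lit 48) (nat_lit 5) (nat_lit 44) (nat_lit 5) (nat_lit 350) (nat_lit 341) (nat_lit 209)) (XT.lf (nat_lit 0) (nat_lit 40415870140) (nat_lit 380) (nat_lit 28827827513) (nat_lit 76) (nat_lit 75615930245) (nat_lit 43) (nat_lit 5) (nat_lit 48) (nat_lit 5) (nat_lit 44) (nat_lit 5) (nat_lit 351) (nat_lit 341) (nat_lit 208)))) (XT.nd (nat_lit 156) (nat_lit 228) (nat_lit 0) (XT.nd (nat_lit 78) (nat_lit 0) (nat_lit 0) (XT.lf (nat_lit 0) (nat_lit 48347161816) (nat_lit 228) (nat_lit 10228574664) (nat_lit 304) (nat_lit 92928063870) (nat_lit 40) (nat_lit 5) (nat_lit 43) (nat_lit 5) (nat_lit 44) (nat_lit 5) (nat_lit 352) (nat_lit 341) (nat_lit 207)) (XT.lf (nat_lit 0) (nat_lit 80283583899) (nat_lit 304) (nat_lit 26588576994) (nat_lit 76) (nat_lit 51639730973) (nat_lit 40) (nat_lit 5) (nat_lit 44) (nat_lit 5) (nat_lit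 41) (nat_lit 5) (nat_lit 353) (nat_lit 341) (nat_lit 206))) (XT.nd (nat_lit 78) (nat_lit 0) (nat_lit 0) (XT.lf (nat_lit 0) (nat_lit 58779253140) (nat_lit 228) (nat_lit 46627803634) (nat_lit 304) (nat_lit 60539254684) (nat_lit 37) (nat_lit 5) (nat_lit 40) (nat_lit 5) (nat_lit 41) (nat_lit 5) (nat_lit 354) (nat_lit 341) (nat_lit 205)) (XT.lf (nat_lit 0) (nat_lit 133729349148) (nat_lit 304) (nat_lit 21891361490) (nat_lit 76) (nat_lit 18259659168) (nat_lit 37) (nat_lit 5) (nat_lit 41) (nat_lit 5) (nat_lit 38) (nat_lit 5) (nat_lit 355) (nat_lit 341) (nat_lit 204))))) (XT.nd (nat_lit 312) (nat_lit 532) (nat_lit 0) (XT.nd (nat_lit 156) (nat_lit 228) (nat_lit 0) (XT.nd (nat_lit 78) (nat_lit 76) (nat_lit 0) (XT.lf (nat_lit 0) (nat_lit 72628068771) (nat_lit 152) (nat_lit 94646889156) (nat_lit 228) (nat_lit 14937592738) (nat_lit 35) (nat_lit 5) (nat_lit 37) (nat_lit 5) (nat_lit 38) (nat_lit 5) (nat_lit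 356) (nat_lit 341) (nat_lit 203)) (XT.lf (nat_lit 0) (nat_lit 12291783251) (nat_lit 228) (nat_lit 15520945734) (nat_lit 76) (nat_lit 163325820646) (nat_lit 34) (nat_lit 5) (nat_lit 37) (nat_lit 5) (nat_lit 35) (nat_lit 5) (nat_lit 357) (nat_lit 341) (nat_lit 202))) (XT.nd (nat_lit 78) (nat_lit 0) (nat_lit 0) (XT.lf (nat_lit 0) (nat_lit 44194800360) (nat_lit 304) (nat_lit 111516487285) (nat_lit 76) (nat_lit 44772117379) (nat_lit 31) (nat_lit 5) (nat_lit 35) (nat_lit 5) (nat_lit 32) (nat_lit 5) (nat_lit 358) (nat_lit 341) (nat_lit 201)) (XT.lf (nat_lit 0) (nat_lit 79807609817) (nat_lit 304) (nat_lit 8579179352) (nat_lit 76) (nat_lit 122096455956) (nat_lit 31) (nat_lit 5) (nat_lit 35) (nat_lit 5) (nat_lit 32) (nat_lit 5) (nat_lit 359) (nat_lit 341) (nat_lit 200)))) (XT.nd (nat_lit 156) (nat_lit 228) (nat_lit 0) (XT.nd (nat_lit 78) (nat_lit 152) (nat_lit 0) (XT.lf (nat_lit 0) (nat_lit 107995144385)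 (nat_lit 152) (nat_lit 12871353677) (nat_lit 228) (nat_lit 100208810380) (nat_lit 29) (nat_lit 5) (nat_lit 31) (nat_lit 5) (nat_lit 32) (nat_lit 5) (nat_lit 360) (nat_lit 341) (nat_lit 199)) (XT.lf (nat_lit 0) (nat_lit 241101986) (nat_lit 152) (nat_lit 166867115669) (nat_lit 228) (nat_lit 65254669852) (nat_lit 27) (nat_lit 5) (nat_lit 29) (nat_lit 5) (nat_lit 30) (nat_lit 5) (nat_lit 361) (nat_lit 341) (nat_lit 198))) (XT.nd (nat_lit 78) (nat_lit 228) (nat_lit 0) (XT.lf (nat_lit 0) (nat_lit 128706790208) (nat_lit 152) (nat_lit 91759938176) (nat_lit 228) (nat_lit 23813348511) (nat_lit 27) (nat_lit 5) (nat_lit 29) (nat_lit 5) (nat_lit 30) (nat_lit 5) (nat_lit 362) (nat_lit 341) (nat_lit 197)) (XT.lf (nat_lit 0) (nat_lit 10310888339) (nat_lit 152) (nat_lit 9832494665) (nat_lit 228) (nat_lit 236947141997) (nat_lit 24) (nat_lit 5) (nat_lit 26) (nat_lit 5) (nat_lit 27) (nat_lit 5) (nat_lit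 363) (nat_lit 341) (nat_lit 196)))))) (XT.nd (nat_lit 624) (nat_lit 380) (nat_lit 0) (XT.nd (nat_lit 312) (nat_lit 304) (nat_lit 0) (XT.nd (nat_lit 156) (nat_lit 76) (nat_lit 0) (XT.nd (nat_lit 78) (nat_lit 152) (nat_lit 0) (XT.lf (nat_lit 0) (nat_lit 71463483715) (nat_lit 228) (nat_lit 120426893185) (nat_lit 76) (nat_lit 78575280397) (nat_lit 24) (nat_lit 5) (nat_lit 27) (nat_lit 5) (nat_lit 25) (nat_lit 5) (nat_lit 364) (nat_lit 341) (nat_lit 195)) (XT.lf (nat_lit 0) (nat_lit 16609250238) (nat_lit 152) (nat_lit 110934599743) (nat_lit 228) (nat_lit 157314577802) (nat_lit 22) (nat_lit 5) (nat_lit 24) (nat_lit 5) (nat_lit 25) (nat_lit 5) (nat_lit 365) (nat_lit 341) (nat_lit 194))) (XT.nd (nat_lit 78) (nat_lit 76) (nat_lit 0) (XT.lf (nat_lit 0) (nat_lit 171456784629) (nat_lit 152) (nat_lit 19946367604) (nat_lit 228) (nat_lit 108736067335) (nat_lit 22) (nat_lit 5) (nat_lit 24) (nat_lit 5)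 (nat_lit 25) (nat_lit 5) (nat_lit 366) (nat_lit 341) (nat_lit 193)) (XT.lf (nat_lit 0) (nat_lit 21227645242) (nat_lit 76) (nat_lit 241537531702) (nat_lit 152) (nat_lit 53685779666) (nat_lit 21) (nat_lit 5) (nat_lit 22) (nat_lit 5) (nat_lit 23) (nat_lit 4) (nat_lit 367) (nat_lit 341) (nat_lit 192)))) (XT.nd (nat_lit 156) (nat_lit 76) (nat_lit 0) (XT.nd (nat_lit 78) (nat_lit 152) (nat_lit 0) (XT.lf (nat_lit 0) (nat_lit 9607680603) (nat_lit 152) (nat_lit 144085828616) (nat_lit 76) (nat_lit 180032807695) (nat_lit 20) (nat_lit 5) (nat_lit 22) (nat_lit 5) (nat_lit 21) (nat_lit 5) (nat_lit 368) (nat_lit 341) (nat_lit 191)) (XT.lf (nat_lit 0) (nat_lit 18682537112) (nat_lit 152) (nat_lit 56830816197) (nat_lit 228) (nat_lit 276722865036) (nat_lit 18) (nat_lit 5) (nat_lit 20) (nat_lit 5) (nat_lit 21) (nat_lit 5) (nat_lit 369) (nat_lit 341) (nat_lit 190))) (XT.nd (nat_lit 78) (nat_lit 76) (nat_lit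 0) (XT.lf (nat_lit 0) (nat_lit 151882349220) (nat_lit 228) (nat_lit 170496803011) (nat_lit 76) (nat_lit 49432490239) (nat_lit 18) (nat_lit 5) (nat_lit 21) (nat_lit 5) (nat_lit 19) (nat_lit 4) (nat_lit 370) (nat_lit 341) (nat_lit 189)) (XT.lf (nat_lit 0) (nat_lit 4345647419) (nat_lit 76) (nat_lit 231595716146) (nat_lit 152) (nat_lit 156885297181) (nat_lit 17) (nat_lit 5) (nat_lit 18) (nat_lit 5) (nat_lit 19) (nat_lit 4) (nat_lit 371) (nat_lit 341) (nat_lit 188))))) (XT.nd (nat_lit 312) (nat_lit 228) (nat_lit 0) (XT.nd (nat_lit 156) (nat_lit 152) (nat_lit 0) (XT.nd (nat_lit 78) (nat_lit 0) (nat_lit 0) (XT.lf (nat_lit 0) (nat_lit 202871564380) (nat_lit 76) (nat_lit 128515084854) (nat_lit 152) (nat_lit 83763307349) (nat_lit 17) (nat_lit 5) (nat_lit 18) (nat_lit 5) (nat_lit 19) (nat_lit 4) (nat_lit 372) (nat_lit 341) (nat_lit 187)) (XT.lf (nat_lit 0) (nat_lit 417279338248) (nat_lit 76) (nat_lit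 17188094910) (nat_lit 152) (nat_lit 4791693000) (nat_lit 17) (nat_lit 5) (nat_lit 18) (nat_lit 5) (nat_lit 19) (nat_lit 4) (nat_lit 373) (nat_lit 341) (nat_lit 186))) (XT.nd (nat_lit 78) (nat_lit 0) (nat_lit 0) (XT.lf (nat_lit 0) (nat_lit 83716285064) (nat_lit 152) (nat_lit 276252682993) (nat_lit 76) (nat_lit 104593547451) (nat_lit 15) (nat_lit 5) (nat_lit 17) (nat_lit 5) (nat_lit 16) (nat_lit 4) (nat_lit 374) (nat_lit 341) (nat_lit 185)) (XT.lf (nat_lit 0) (nat_lit 180108928764) (nat_lit 152) (nat_lit 75756187869) (nat_lit 76) (nat_lit 235930070430) (nat_lit 15) (nat_lit 5) (nat_lit 17) (nat_lit 5) (nat_lit 16) (nat_lit 4) (nat_lit 375) (nat_lit 341) (nat_lit 184)))) (XT.nd (nat_lit 156) (nat_lit 152) (nat_lit 0) (XT.nd (nat_lit 78) (nat_lit 0) (nat_lit 0) (XT.lf (nat_lit 0) (nat_lit 148193050216) (nat_lit 76) (nat_lit 139583872184) (nat_lit 152) (nat_lit 233144434944) (nat_lit 14) (nat_lit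 5) (nat_lit 15) (nat_lit 5) (nat_lit 16) (nat_lit 4) (nat_lit 376) (nat_lit 341) (nat_lit 183)) (XT.lf (nat_lit 0) (nat_lit 394366360565) (nat_lit 76) (nat_lit 11763198879) (nat_lit 152) (nat_lit 146082365561) (nat_lit 14) (nat_lit 5) (nat_lit 15) (nat_lit 5) (nat_lit 16) (nat_lit 4) (nat_lit 377) (nat_lit 341) (nat_lit 182))) (XT.nd (nat_lit 78) (nat_lit 76) (nat_lit 0) (XT.lf (nat_lit 0) (nat_lit 74939270921) (nat_lit 76) (nat_lit 463850441433) (nat_lit 76) (nat_lit 46828881396) (nat_lit 13) (nat_lit 4) (nat_lit 14) (nat_lit 5) (nat_lit 14) (nat_lit 4) (nat_lit 378) (nat_lit 341) (nat_lit 181)) (XT.nd (nat_lit 78) (nat_lit 0) (nat_lit 0) (XT.lf (nat_lit 0) (nat_lit 62078500759) (nat_lit 152) (nat_lit 287898417140) (nat_lit 76) (nat_lit 271226070797) (nat_lit 12) (nat_lit 5) (nat_lit 14) (nat_lit 5) (nat_lit 13) (nat_lit 4) (nat_lit 379) (nat_lit 341) (nat_lit 180)) (XT.lf (nat_lit 0)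 (nat_lit 177168406728) (nat_lit 152) (nat_lit 48511541135) (nat_lit 76) (nat_lit 433856887925) (nat_lit 12) (nat_lit 5) (nat_lit 14) (nat_lit 5) (nat_lit 13) (nat_lit 4) (nat_lit 380) (nat_lit 341) (nat_lit 179))))))))
noncomputable def xc207 : XT := (XT.nd (nat_lit 1248) (nat_lit 152) (nat_lit 0) (XT.nd (nat_lit 624) (nat_lit 228) (nat_lit 0) (XT.nd (nat_lit 312) (nat_lit 152) (nat_lit 0) (XT.nd (nat_lit 156) (nat_lit 76) (nat_lit 0) (XT.nd (nat_lit 78) (nat_lit 0) (nat_lit 0) (XT.lf (nat_lit 0) (nat_lit 221085733599) (nat_lit 76) (nat_lit 85696804684) (nat_lit 152) (nat_lit 393729489766) (nat_lit 11) (nat_lit 5) (nat_lit 12) (nat_lit 5) (nat_lit 13) (nat_lit 4) (nat_lit 381) (nat_lit 341) (nat_lit 178)) (XT.lf (nat_lit 0) (nat_lit 449701475993) (nat_lit 152) (nat_lit 231258963145) (nat_lit 0) (nat_lit 63569942546) (nat_lit 11) (nat_lit 5) (nat_lit 13) (nat_lit 4) (nat_lit 11) (nat_lit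 4) (nat_lit 382) (nat_lit 341) (nat_lit 177))) (XT.nd (nat_lit 78) (nat_lit 0) (nat_lit 0) (XT.lf (nat_lit 0) (nat_lit 36354308853) (nat_lit 76) (nat_lit 570799755875) (nat_lit 76) (nat_lit 184668128042) (nat_lit 10) (nat_lit 4) (nat_lit 11) (nat_lit 5) (nat_lit 11) (nat_lit 4) (nat_lit 383) (nat_lit 341) (nat_lit 176)) (XT.lf (nat_lit 0) (nat_lit 338528403875) (nat_lit 76) (nat_lit 444997411860) (nat_lit 76) (nat_lit 58865696633) (nat_lit 10) (nat_lit 4) (nat_lit 11) (nat_lit 5) (nat_lit 11) (nat_lit 4) (nat_lit 384) (nat_lit 341) (nat_lit 175)))) (XT.nd (nat_lit 156) (nat_lit 0) (nat_lit 0) (XT.nd (nat_lit 78) (nat_lit 76) (nat_lit 0) (XT.lf (nat_lit 0) (nat_lit 73148959946) (nat_lit 152) (nat_lit 233981959458) (nat_lit 76) (nat_lit 589727313906) (nat_lit 9) (nat_lit 5) (nat_lit 11) (nat_lit 5) (nat_lit 10) (nat_lit 4) (nat_lit 385) (nat_lit 341) (nat_lit 174)) (XT.lf (nat_lit 0) (nat_lit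 58907362959) (nat_lit 76) (nat_lit 155053807248) (nat_lit 152) (nat_lit 741485470800) (nat_lit 8) (nat_lit 5) (nat_lit 9) (nat_lit 5) (nat_lit 10) (nat_lit 4) (nat_lit 386) (nat_lit 341) (nat_lit 173))) (XT.nd (nat_lit 78) (nat_lit 0) (nat_lit 0) (XT.lf (nat_lit 0) (nat_lit 372822948965) (nat_lit 152) (nat_lit 630063030577) (nat_lit 0) (nat_lit 15293374474) (nat_lit 8) (nat_lit 5) (nat_lit 10) (nat_lit 4) (nat_lit 8) (nat_lit 4) (nat_lit 387) (nat_lit 341) (nat_lit 172)) (XT.lf (nat_lit 0) (nat_lit 548420981300) (nat_lit 152) (nat_lit 346296170557) (nat_lit 0) (nat_lit 190891347330) (nat_lit 8) (nat_lit 5) (nat_lit 10) (nat_lit 4) (nat_lit 8) (nat_lit 4) (nat_lit 388) (nat_lit 341) (nat_lit 171))))) (XT.nd (nat_lit 312) (nat_lit 76) (nat_lit 0) (XT.nd (nat_lit 156) (nat_lit 76) (nat_lit 0) (XT.nd (nat_lit 78) (nat_lit 76) (nat_lit 0) (XT.lf (nat_lit 0) (nat_lit 738066800353) (nat_lit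 152) (nat_lit 39828068803) (nat_lit 0) (nat_lit 380537111309) (nat_lit 8) (nat_lit 5) (nat_lit 10) (nat_lit 4) (nat_lit 8) (nat_lit 4) (nat_lit 389) (nat_lit 341) (nat_lit 170)) (XT.lf (nat_lit 0) (nat_lit 306489213711) (nat_lit 76) (nat_lit 643766092449) (nat_lit 76) (nat_lit 286236352411) (nat_lit 7) (nat_lit 4) (nat_lit 8) (nat_lit 5) (nat_lit 8) (nat_lit 4) (nat_lit 390) (nat_lit 341) (nat_lit 169))) (XT.nd (nat_lit 78) (nat_lit 76) (nat_lit 0) (XT.lf (nat_lit 0) (nat_lit 682776839764) (nat_lit 76) (nat_lit 497730972427) (nat_lit 76) (nat_lit 140201185173) (nat_lit 7) (nat_lit 4) (nat_lit 8) (nat_lit 5) (nat_lit 8) (nat_lit 4) (nat_lit 391) (nat_lit 341) (nat_lit 168)) (XT.lf (nat_lit 0) (nat_lit 16640486663) (nat_lit 152) (nat_lit 322917618713) (nat_lit 76) (nat_lit 1072071919374) (nat_lit 6) (nat_lit 5) (nat_lit 8) (nat_lit 5) (nat_lit 7) (nat_lit 4) (nat_lit 392) (nat_lit 341)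 (nat_lit 167)))) (XT.nd (nat_lit 156) (nat_lit 0) (nat_lit 0) (XT.nd (nat_lit 78) (nat_lit 0) (nat_lit 0) (XT.lf (nat_lit 0) (nat_lit 14375531164) (nat_lit 76) (nat_lit 164425143170) (nat_lit 152) (nat_lit 1330705077855) (nat_lit 5) (nat_lit 5) (nat_lit 6) (nat_lit 5) (nat_lit 7) (nat_lit 4) (nat_lit 393) (nat_lit 341) (nat_lit 166)) (XT.lf (nat_lit 0) (nat_lit 363586580867) (nat_lit 152) (nat_lit 1218312355775) (nat_lit 0) (nat_lit 32540368890) (nat_lit 5) (nat_lit 5) (nat_lit 7) (nat_lit 4) (nat_lit 5) (nat_lit 4) (nat_lit 394) (nat_lit 341) (nat_lit 165))) (XT.nd (nat_lit 78) (nat_lit 0) (nat_lit 0) (XT.lf (nat_lit 0) (nat_lit 567426102230) (nat_lit 152) (nat_lit 923619923423) (nat_lit 0) (nat_lit 236379858119) (nat_lit 5) (nat_lit 5) (nat_lit 7) (nat_lit 4) (nat_lit 5) (nat_lit 4) (nat_lit 395) (nat_lit 341) (nat_lit 164)) (XT.lf (nat_lit 0) (nat_lit 787572747682) (nat_lit 152) (nat_lit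 605352169796) (nat_lit 0) (nat_lit 456526473816) (nat_lit 5) (nat_lit 5) (nat_lit 7) (nat_lit 4) (nat_lit 5) (nat_lit 4) (nat_lit 396) (nat_lit 341) (nat_lit 163)))))) (XT.nd (nat_lit 42588) (nat_lit 0) (nat_lit 3344) (XT.nd (nat_lit 312) (nat_lit 76) (nat_lit 0) (XT.nd (nat_lit 156) (nat_lit 0) (nat_lit 0) (XT.nd (nat_lit 78) (nat_lit 76) (nat_lit 0) (XT.lf (nat_lit 0) (nat_lit 1025331089935) (nat_lit 152) (nat_lit 261623063762) (nat_lit 0) (nat_lit 694284788519) (nat_lit 5) (nat_lit 5) (nat_lit 7) (nat_lit 4) (nat_lit 5) (nat_lit 4) (nat_lit 397) (nat_lit 341) (nat_lit 162)) (XT.lf (nat_lit 0) (nat_lit 115375876518) (nat_lit 76) (nat_lit 1169508983401) (nat_lit 76) (nat_lit 838462656475) (nat_lit 4) (nat_lit 4) (nat_lit 5) (nat_lit 5) (nat_lit 5) (nat_lit 4) (nat_lit 398) (nat_lit 341) (nat_lit 161))) (XT.nd (nat_lit 78) (nat_lit 0) (nat_lit 0) (XT.lf (nat_lit 0) (nat_lit 537413406213)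 (nat_lit 76) (nat_lit 1034942732151) (nat_lit 76) (nat_lit 703896381605) (nat_lit 4) (nat_lit 4) (nat_lit 5) (nat_lit 5) (nat_lit 5) (nat_lit 4) (nat_lit 399) (nat_lit 341) (nat_lit 160)) (XT.lf (nat_lit 0) (nat_lit 993213881557) (nat_lit 76) (nat_lit 889611208509) (nat_lit 76) (nat_lit 558564836093) (nat_lit 4) (nat_lit 4) (nat_lit 5) (nat_lit 5) (nat_lit 5) (nat_lit 4) (nat_lit 400) (nat_lit 341) (nat_lit 159)))) (XT.nd (nat_lit 156) (nat_lit 76) (nat_lit 0) (XT.nd (nat_lit 78) (nat_lit 0) (nat_lit 0) (XT.lf (nat_lit 0) (nat_lit 1485478342406) (nat_lit 76) (nat_lit 732653188633) (nat_lit 76) (nat_lit 401606795966) (nat_lit 4) (nat_lit 4) (nat_lit 5) (nat_lit 5) (nat_lit 5) (nat_lit 4) (nat_lit 401) (nat_lit 341) (nat_lit 158)) (XT.lf (nat_lit 0) (nat_lit 2017123911490) (nat_lit 76) (nat_lit 563138550921) (nat_lit 76) (nat_lit 232092139504) (nat_lit 4) (nat_lit 4) (nat_lit 5) (nat_lit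 5) (nat_lit 5) (nat_lit 4) (nat_lit 402) (nat_lit 341) (nat_lit 157))) (XT.nd (nat_lit 78) (nat_lit 76) (nat_lit 0) (XT.lf (nat_lit 0) (nat_lit 2591301081070) (nat_lit 76) (nat_lit 380062764189) (nat_lit 76) (nat_lit 49016335411) (nat_lit 4) (nat_lit 4) (nat_lit 5) (nat_lit 5) (nat_lit 5) (nat_lit 4) (nat_lit 403) (nat_lit 341) (nat_lit 156)) (XT.lf (nat_lit 0) (nat_lit 141266658099) (nat_lit 152) (nat_lit 37211796007) (nat_lit 76) (nat_lit 3066283243644) (nat_lit 3) (nat_lit 5) (nat_lit 5) (nat_lit 5) (nat_lit 4) (nat_lit 4) (nat_lit 404) (nat_lit 341) (nat_lit 155))))) (XT.nd (nat_lit 312) (nat_lit 304) (nat_lit 0) (XT.nd (nat_lit 156) (nat_lit 0) (nat_lit 76) (XT.nd (nat_lit 78) (nat_lit 0) (nat_lit 0) (XT.lf (nat_lit 0) (nat_lit 37735541458) (nat_lit 532) (nat_lit 6963700852) (nat_lit 532) (nat_lit 6963700852) (nat_lit 51) (nat_lit 3) (nat_lit 58) (nat_lit 3) (nat_lit 58) (nat_lit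 5) (nat_lit 342) (nat_lit 342) (nat_lit 216)) (XT.lf (nat_lit 76) (nat_lit 36331136282) (nat_lit 0) (nat_lit 43038211537) (nat_lit 532) (nat_lit 28019208029) (nat_lit 52) (nat_lit 5) (nat_lit 51) (nat_lit 3) (nat_lit 58) (nat_lit 5) (nat_lit 343) (nat_lit 342) (nat_lit 215))) (XT.nd (nat_lit 78) (nat_lit 0) (nat_lit 0) (XT.lf (nat_lit 0) (nat_lit 84138689911) (nat_lit 456) (nat_lit 20522713298) (nat_lit 532) (nat_lit 7070099664) (nat_lit 52) (nat_lit 5) (nat_lit 58) (nat_lit 5) (nat_lit 59) (nat_lit 5) (nat_lit 344) (nat_lit 342) (nat_lit 214)) (XT.lf (nat_lit 76) (nat_lit 34670926296) (nat_lit 0) (nat_lit 56569839690) (nat_lit 532) (nat_lit 25025025876) (nat_lit 53) (nat_lit 5) (nat_lit 52) (nat_lit 5) (nat_lit 59) (nat_lit 5) (nat_lit 345) (nat_lit 342) (nat_lit 213)))) (XT.nd (nat_lit 156) (nat_lit 380) (nat_lit 0) (XT.nd (nat_lit 78) (nat_lit 0) (nat_lit 76) (XT.lf (nat_lit 76) (nat_lit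 95446863049) (nat_lit 0) (nat_lit 4024777615) (nat_lit 532) (nat_lit 21646333751) (nat_lit 53) (nat_lit 5) (nat_lit 52) (nat_lit 5) (nat_lit 59) (nat_lit 5) (nat_lit 346) (nat_lit 342) (nat_lit 212)) (XT.lf (nat_lit 76) (nat_lit 35220025801) (nat_lit 0) (nat_lit 75255558084) (nat_lit 532) (nat_lit 15713580771) (nat_lit 54) (nat_lit 5) (nat_lit 53) (nat_lit 5) (nat_lit 60) (nat_lit 5) (nat_lit 347) (nat_lit 342) (nat_lit 211))) (XT.nd (nat_lit 78) (nat_lit 456) (nat_lit 0) (XT.lf (nat_lit 76) (nat_lit 102332002333) (nat_lit 0) (nat_lit 20831197668) (nat_lit 532) (nat_lit 8438582417) (nat_lit 54) (nat_lit 5) (nat_lit 53) (nat_lit 5) (nat_lit 60) (nat_lit 5) (nat_lit 348) (nat_lit 342) (nat_lit 210)) (XT.nd (nat_lit 78) (nat_lit 0) (nat_lit 0) (XT.lf (nat_lit 0) (nat_lit 1330255160) (nat_lit 532) (nat_lit 98962211171) (nat_lit 76) (nat_lit 37005443317) (nat_lit 47) (nat_lit 5) (nat_lit 54)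 (nat_lit 5) (nat_lit 48) (nat_lit 5) (nat_lit 349) (nat_lit 342) (nat_lit 209)) (XT.lf (nat_lit 0) (nat_lit 12786456378) (nat_lit 532) (nat_lit 31152897898) (nat_lit 76) (nat_lit 99383898035) (nat_lit 47) (nat_lit 5) (nat_lit 54) (nat_lit 5) (nat_lit 48) (nat_lit 5) (nat_lit 350) (nat_lit 342) (nat_lit 208))))))))
noncomputable def xc208 : XT := (XT.nd (nat_lit 1248) (nat_lit 836) (nat_lit 0) (XT.nd (nat_lit 624) (nat_lit 912) (nat_lit 0) (XT.nd (nat_lit 312) (nat_lit 456) (nat_lit 0) (XT.nd (nat_lit 156) (nat_lit 228) (nat_lit 0) (XT.nd (nat_lit 78) (nat_lit 0) (nat_lit 0) (XT.lf (nat_lit 0) (nat_lit 26658780480) (nat_lit 380) (nat_lit 105883348504) (nat_lit 76) (nat_lit 17168523918) (nat_lit 43) (nat_lit 5) (nat_lit 48) (nat_lit 5) (nat_lit 44) (nat_lit 5) (nat_lit 351) (nat_lit 342) (nat_lit 207)) (XT.lf (nat_lit 0) (nat_lit 43655733918) (nat_lit 380) (nat_lit 31127052543) (nat_lit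 76) (nat_lit 81665072219) (nat_lit 43) (nat_lit 5) (nat_lit 48) (nat_lit 5) (nat_lit 44) (nat_lit 5) (nat_lit 352) (nat_lit 342) (nat_lit 206))) (XT.nd (nat_lit 78) (nat_lit 0) (nat_lit 0) (XT.lf (nat_lit 0) (nat_lit 52221758686) (nat_lit 228) (nat_lit 11046306537) (nat_lit 304) (nat_lit 100355526534) (nat_lit 40) (nat_lit 5) (nat_lit 43) (nat_lit 5) (nat_lit 44) (nat_lit 5) (nat_lit 353) (nat_lit 342) (nat_lit 205)) (XT.lf (nat_lit 0) (nat_lit 86712088345) (nat_lit 304) (nat_lit 28708882395) (nat_lit 76) (nat_lit 55771396841) (nat_lit 40) (nat_lit 5) (nat_lit 44) (nat_lit 5) (nat_lit 41) (nat_lit 5) (nat_lit 354) (nat_lit 342) (nat_lit 204)))) (XT.nd (nat_lit 156) (nat_lit 228) (nat_lit 0) (XT.nd (nat_lit 78) (nat_lit 0) (nat_lit 0) (XT.lf (nat_lit 0) (nat_lit 63488202485) (nat_lit 228) (nat_lit 50356964570) (nat_lit 304) (nat_lit 65376396201) (nat_lit 37) (nat_lit 5) (nat_lit 40) (nat_lit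 5) (nat_lit 41) (nat_lit 5) (nat_lit 355) (nat_lit 342) (nat_lit 203)) (XT.lf (nat_lit 0) (nat_lit 144432855702) (nat_lit 304) (nat_lit 23636155003) (nat_lit 76) (nat_lit 19721367236) (nat_lit 37) (nat_lit 5) (nat_lit 41) (nat_lit 5) (nat_lit 38) (nat_lit 5) (nat_lit 356) (nat_lit 342) (nat_lit 202))) (XT.nd (nat_lit 78) (nat_lit 76) (nat_lit 0) (XT.lf (nat_lit 0) (nat_lit 78444664732) (nat_lit 152) (nat_lit 102217219060) (nat_lit 228) (nat_lit 16127268478) (nat_lit 35) (nat_lit 5) (nat_lit 37) (nat_lit 5) (nat_lit 38) (nat_lit 5) (nat_lit 357) (nat_lit 342) (nat_lit 201)) (XT.lf (nat_lit 0) (nat_lit 13279815696) (nat_lit 228) (nat_lit 16756487430) (nat_lit 76) (nat_lit 176392948341) (nat_lit 34) (nat_lit 5) (nat_lit 37) (nat_lit 5) (nat_lit 35) (nat_lit 5) (nat_lit 358) (nat_lit 342) (nat_lit 200))))) (XT.nd (nat_lit 312) (nat_lit 380) (nat_lit 0) (XT.nd (nat_lit 156) (nat_lit 304) (nat_lit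 0) (XT.nd (nat_lit 78) (nat_lit 0) (nat_lit 0) (XT.lf (nat_lit 0) (nat_lit 47734906464) (nat_lit 304) (nat_lit 120431498156) (nat_lit 76) (nat_lit 48355304602) (nat_lit 31) (nat_lit 5) (nat_lit 35) (nat_lit 5) (nat_lit 32) (nat_lit 5) (nat_lit 359) (nat_lit 342) (nat_lit 199)) (XT.lf (nat_lit 0) (nat_lit 86196405709) (nat_lit 304) (nat_lit 9259672857) (nat_lit 76) (nat_lit 131865485240) (nat_lit 31) (nat_lit 5) (nat_lit 35) (nat_lit 5) (nat_lit 32) (nat_lit 5) (nat_lit 360) (nat_lit 342) (nat_lit 198))) (XT.nd (nat_lit 78) (nat_lit 152) (nat_lit 0) (XT.lf (nat_lit 0) (nat_lit 116640448911) (nat_lit 152) (nat_lit 13899382863) (nat_lit 228) (nat_lit 108221174715) (nat_lit 29) (nat_lit 5) (nat_lit 31) (nat_lit 5) (nat_lit 32) (nat_lit 5) (nat_lit 361) (nat_lit 342) (nat_lit 197)) (XT.lf (nat_lit 0) (nat_lit 266217993) (nat_lit 152) (nat_lit 180214551169) (nat_lit 228) (nat_lit 70470832708)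 (nat_lit 27) (nat_lit 5) (nat_lit 29) (nat_lit 5) (nat_lit 30) (nat_lit 5) (nat_lit 362) (nat_lit 342) (nat_lit 196)))) (XT.nd (nat_lit 156) (nat_lit 152) (nat_lit 0) (XT.nd (nat_lit 78) (nat_lit 228) (nat_lit 0) (XT.lf (nat_lit 0) (nat_lit 139008729581) (nat_lit 152) (nat_lit 99098942717) (nat_lit 228) (nat_lit 25714517565) (nat_lit 27) (nat_lit 5) (nat_lit 29) (nat_lit 5) (nat_lit 30) (nat_lit 5) (nat_lit 363) (nat_lit 342) (nat_lit 195)) (XT.lf (nat_lit 0) (nat_lit 11141213318) (nat_lit 152) (nat_lit 10617200929) (nat_lit 228) (nat_lit 255899063849) (nat_lit 24) (nat_lit 5) (nat_lit 26) (nat_lit 5) (nat_lit 27) (nat_lit 5) (nat_lit 364) (nat_lit 342) (nat_lit 194))) (XT.nd (nat_lit 78) (nat_lit 152) (nat_lit 0) (XT.lf (nat_lit 0) (nat_lit 77183901428) (nat_lit 228) (nat_lit 130055769378) (nat_lit 76) (nat_lit 84862968197) (nat_lit 24) (nat_lit 5) (nat_lit 27) (nat_lit 5) (nat_lit 25)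 (nat_lit 5) (nat_lit 365) (nat_lit 342) (nat_lit 193)) (XT.lf (nat_lit 0) (nat_lit 17943131969) (nat_lit 152) (nat_lit 119807441351) (nat_lit 228) (nat_lit 169896267981) (nat_lit 22) (nat_lit 5) (nat_lit 24) (nat_lit 5) (nat_lit 25) (nat_lit 5) (nat_lit 366) (nat_lit 342) (nat_lit 192)))))) (XT.nd (nat_lit 624) (nat_lit 456) (nat_lit 0) (XT.nd (nat_lit 312) (nat_lit 76) (nat_lit 0) (XT.nd (nat_lit 156) (nat_lit 228) (nat_lit 0) (XT.nd (nat_lit 78) (nat_lit 76) (nat_lit 0) (XT.lf (nat_lit 0) (nat_lit 185178088243) (nat_lit 152) (nat_lit 21540293335) (nat_lit 228) (nat_lit 117431734161) (nat_lit 22) (nat_lit 5) (nat_lit 24) (nat_lit 5) (nat_lit 25) (nat_lit 5) (nat_lit 367) (nat_lit 342) (nat_lit 191)) (XT.lf (nat_lit 0) (nat_lit 22930690649) (nat_lit 76) (nat_lit 260858613059) (nat_lit 152) (nat_lit 57977493440) (nat_lit 21) (nat_lit 5) (nat_lit 22) (nat_lit 5) (nat_lit 23) (nat_lit 4)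 (nat_lit 368) (nat_lit 342) (nat_lit 190))) (XT.nd (nat_lit 78) (nat_lit 152) (nat_lit 0) (XT.lf (nat_lit 0) (nat_lit 10379064582) (nat_lit 152) (nat_lit 155608070781) (nat_lit 76) (nat_lit 194437062785) (nat_lit 20) (nat_lit 5) (nat_lit 22) (nat_lit 5) (nat_lit 21) (nat_lit 5) (nat_lit 369) (nat_lit 342) (nat_lit 189)) (XT.lf (nat_lit 0) (nat_lit 20181647139) (nat_lit 152) (nat_lit 61375447210) (nat_lit 228) (nat_lit 298857805274) (nat_lit 18) (nat_lit 5) (nat_lit 20) (nat_lit 5) (nat_lit 21) (nat_lit 5) (nat_lit 370) (nat_lit 342) (nat_lit 188)))) (XT.nd (nat_lit 156) (nat_lit 0) (nat_lit 0) (XT.nd (nat_lit 78) (nat_lit 76) (nat_lit 0) (XT.lf (nat_lit 0) (nat_lit 164035452797) (nat_lit 228) (nat_lit 184132214721) (nat_lit 76) (nat_lit 53388702907) (nat_lit 18) (nat_lit 5) (nat_lit 21) (nat_lit 5) (nat_lit 19) (nat_lit 4) (nat_lit 371) (nat_lit 342) (nat_lit 187)) (XT.lf (nat_lit 0)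 (nat_lit 4697522059) (nat_lit 76) (nat_lit 250121581446) (nat_lit 152) (nat_lit 169433493603) (nat_lit 17) (nat_lit 5) (nat_lit 18) (nat_lit 5) (nat_lit 19) (nat_lit 4) (nat_lit 372) (nat_lit 342) (nat_lit 186))) (XT.nd (nat_lit 78) (nat_lit 0) (nat_lit 0) (XT.lf (nat_lit 0) (nat_lit 219105199573) (nat_lit 76) (nat_lit 138794632391) (nat_lit 152) (nat_lit 90461939203) (nat_lit 17) (nat_lit 5) (nat_lit 18) (nat_lit 5) (nat_lit 19) (nat_lit 4) (nat_lit 373) (nat_lit 342) (nat_lit 185)) (XT.lf (nat_lit 0) (nat_lit 450665305717) (nat_lit 76) (nat_lit 18561606159) (nat_lit 152) (nat_lit 5172775908) (nat_lit 17) (nat_lit 5) (nat_lit 18) (nat_lit 5) (nat_lit 19) (nat_lit 4) (nat_lit 374) (nat_lit 342) (nat_lit 184))))) (XT.nd (nat_lit 312) (nat_lit 228) (nat_lit 0) (XT.nd (nat_lit 156) (nat_lit 76) (nat_lit 0) (XT.nd (nat_lit 78) (nat_lit 0) (nat_lit 0) (XT.lf (nat_lit 0) (nat_lit 90415694547)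 (nat_lit 152) (nat_lit 298349128267) (nat_lit 76) (nat_lit 112962523909) (nat_lit 15) (nat_lit 5) (nat_lit 17) (nat_lit 5) (nat_lit 16) (nat_lit 4) (nat_lit 375) (nat_lit 342) (nat_lit 183)) (XT.lf (nat_lit 0) (nat_lit 194519593693) (nat_lit 152) (nat_lit 81813192745) (nat_lit 76) (nat_lit 254805858159) (nat_lit 15) (nat_lit 5) (nat_lit 17) (nat_lit 5) (nat_lit 16) (nat_lit 4) (nat_lit 376) (nat_lit 342) (nat_lit 182))) (XT.nd (nat_lit 78) (nat_lit 0) (nat_lit 0) (XT.lf (nat_lit 0) (nat_lit 160051896029) (nat_lit 76) (nat_lit 150749068113) (nat_lit 152) (nat_lit 251793949474) (nat_lit 14) (nat_lit 5) (nat_lit 15) (nat_lit 5) (nat_lit 16) (nat_lit 4) (nat_lit 377) (nat_lit 342) (nat_lit 181)) (XT.lf (nat_lit 0) (nat_lit 425918819220) (nat_lit 76) (nat_lit 12702853080) (nat_lit 152) (nat_lit 157767065671) (nat_lit 14) (nat_lit 5) (nat_lit 15) (nat_lit 5) (nat_lit 16) (nat_lit 4) (nat_lit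 378) (nat_lit 342) (nat_lit 180)))) (XT.nd (nat_lit 156) (nat_lit 76) (nat_lit 0) (XT.nd (nat_lit 78) (nat_lit 76) (nat_lit 0) (XT.lf (nat_lit 0) (nat_lit 80937587267) (nat_lit 76) (nat_lit 500957028253) (nat_lit 76) (nat_lit 50573326540) (nat_lit 13) (nat_lit 4) (nat_lit 14) (nat_lit 5) (nat_lit 14) (nat_lit 4) (nat_lit 379) (nat_lit 342) (nat_lit 179)) (XT.lf (nat_lit 0) (nat_lit 67046421612) (nat_lit 152) (nat_lit 310927263658) (nat_lit 76) (nat_lit 292925410318) (nat_lit 12) (nat_lit 5) (nat_lit 14) (nat_lit 5) (nat_lit 13) (nat_lit 4) (nat_lit 380) (nat_lit 342) (nat_lit 178))) (XT.nd (nat_lit 78) (nat_lit 76) (nat_lit 0) (XT.lf (nat_lit 0) (nat_lit 191343398518) (nat_lit 152) (nat_lit 52389661784) (nat_lit 76) (nat_lit 468566599939) (nat_lit 12) (nat_lit 5) (nat_lit 14) (nat_lit 5) (nat_lit 13) (nat_lit 4) (nat_lit 381) (nat_lit 342) (nat_lit 177)) (XT.lf (nat_lit 0) (nat_lit 238775323976)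 (nat_lit 76) (nat_lit 92551289781) (nat_lit 152) (nat_lit 425226257937) (nat_lit 11) (nat_lit 5) (nat_lit 12) (nat_lit 5) (nat_lit 13) (nat_lit 4) (nat_lit 382) (nat_lit 342) (nat_lit 176)))))))
noncomputable def xc209 : XT := (XT.nd (nat_lit 1248) (nat_lit 76) (nat_lit 0) (XT.nd (nat_lit 624) (nat_lit 228) (nat_lit 0) (XT.nd (nat_lit 312) (nat_lit 76) (nat_lit 0) (XT.nd (nat_lit 156) (nat_lit 76) (nat_lit 0) (XT.nd (nat_lit 78) (nat_lit 76) (nat_lit 0) (XT.lf (nat_lit 0) (nat_lit 485678985459) (nat_lit 152) (nat_lit 249757069084) (nat_lit 0) (nat_lit 68656645619) (nat_lit 11) (nat_lit 5) (nat_lit 13) (nat_lit 4) (nat_lit 11) (nat_lit 4) (nat_lit 383) (nat_lit 342) (nat_lit 175)) (XT.lf (nat_lit 0) (nat_lit 39265198571) (nat_lit 76) (nat_lit 616462540864) (nat_lit 76) (nat_lit 199440120104) (nat_lit 10) (nat_lit 4) (nat_lit 11) (nat_lit 5) (nat_lit 11) (nat_lit 4) (nat_lit 384) (nat_lit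 342) (nat_lit 174))) (XT.nd (nat_lit 78) (nat_lit 76) (nat_lit 0) (XT.lf (nat_lit 0) (nat_lit 365613032674) (nat_lit 76) (nat_lit 480596097882) (nat_lit 76) (nat_lit 63573602196) (nat_lit 10) (nat_lit 4) (nat_lit 11) (nat_lit 5) (nat_lit 11) (nat_lit 4) (nat_lit 385) (nat_lit 342) (nat_lit 173)) (XT.lf (nat_lit 0) (nat_lit 79002064360) (nat_lit 152) (nat_lit 252698271193) (nat_lit 76) (nat_lit 636906460864) (nat_lit 9) (nat_lit 5) (nat_lit 11) (nat_lit 5) (nat_lit 10) (nat_lit 4) (nat_lit 386) (nat_lit 342) (nat_lit 172)))) (XT.nd (nat_lit 156) (nat_lit 0) (nat_lit 0) (XT.nd (nat_lit 78) (nat_lit 0) (nat_lit 0) (XT.lf (nat_lit 0) (nat_lit 63622140181) (nat_lit 76) (nat_lit 167457075915) (nat_lit 152) (nat_lit 800803063503) (nat_lit 8) (nat_lit 5) (nat_lit 9) (nat_lit 5) (nat_lit 10) (nat_lit 4) (nat_lit 387) (nat_lit 342) (nat_lit 171)) (XT.lf (nat_lit 0) (nat_lit 402649874869) (nat_lit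 152) (nat_lit 680465984170) (nat_lit 0) (nat_lit 16517755628) (nat_lit 8) (nat_lit 5) (nat_lit 10) (nat_lit 4) (nat_lit 8) (nat_lit 4) (nat_lit 388) (nat_lit 342) (nat_lit 170))) (XT.nd (nat_lit 78) (nat_lit 0) (nat_lit 0) (XT.lf (nat_lit 0) (nat_lit 592295669051) (nat_lit 152) (nat_lit 373997930078) (nat_lit 0) (nat_lit 206163498817) (nat_lit 8) (nat_lit 5) (nat_lit 10) (nat_lit 4) (nat_lit 8) (nat_lit 4) (nat_lit 389) (nat_lit 342) (nat_lit 169)) (XT.lf (nat_lit 0) (nat_lit 797113078869) (nat_lit 152) (nat_lit 43012523453) (nat_lit 0) (nat_lit 410980861419) (nat_lit 8) (nat_lit 5) (nat_lit 10) (nat_lit 4) (nat_lit 8) (nat_lit 4) (nat_lit 390) (nat_lit 342) (nat_lit 168))))) (XT.nd (nat_lit 312) (nat_lit 0) (nat_lit 0) (XT.nd (nat_lit 156) (nat_lit 152) (nat_lit 0) (XT.nd (nat_lit 78) (nat_lit 0) (nat_lit 0) (XT.lf (nat_lit 0) (nat_lit 331010096325) (nat_lit 76) (nat_lit 695266541574)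 (nat_lit 76) (nat_lit 309134280405) (nat_lit 7) (nat_lit 4) (nat_lit 8) (nat_lit 5) (nat_lit 8) (nat_lit 4) (nat_lit 391) (nat_lit 342) (nat_lit 167)) (XT.lf (nat_lit 0) (nat_lit 737400603165) (nat_lit 76) (nat_lit 537548674045) (nat_lit 76) (nat_lit 151416372395) (nat_lit 7) (nat_lit 4) (nat_lit 8) (nat_lit 5) (nat_lit 8) (nat_lit 4) (nat_lit 392) (nat_lit 342) (nat_lit 166))) (XT.nd (nat_lit 78) (nat_lit 76) (nat_lit 0) (XT.lf (nat_lit 0) (nat_lit 17972523920) (nat_lit 152) (nat_lit 348749489376) (nat_lit 76) (nat_lit 1157838349271) (nat_lit 6) (nat_lit 5) (nat_lit 8) (nat_lit 5) (nat_lit 7) (nat_lit 4) (nat_lit 393) (nat_lit 342) (nat_lit 165)) (XT.lf (nat_lit 0) (nat_lit 15527073534) (nat_lit 76) (nat_lit 177578430009) (nat_lit 152) (nat_lit 1437160646527) (nat_lit 5) (nat_lit 5) (nat_lit 6) (nat_lit 5) (nat_lit 7) (nat_lit 4) (nat_lit 394) (nat_lit 342) (nat_lit 164)))) (XT.nd (nat_lit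 156) (nat_lit 0) (nat_lit 0) (XT.nd (nat_lit 78) (nat_lit 0) (nat_lit 0) (XT.lf (nat_lit 0) (nat_lit 392674241307) (nat_lit 152) (nat_lit 1315775913918) (nat_lit 0) (nat_lit 35144235778) (nat_lit 5) (nat_lit 5) (nat_lit 7) (nat_lit 4) (nat_lit 5) (nat_lit 4) (nat_lit 395) (nat_lit 342) (nat_lit 163)) (XT.lf (nat_lit 0) (nat_lit 612820870011) (nat_lit 152) (nat_lit 997508192927) (nat_lit 0) (nat_lit 255290836931) (nat_lit 5) (nat_lit 5) (nat_lit 7) (nat_lit 4) (nat_lit 5) (nat_lit 4) (nat_lit 396) (nat_lit 342) (nat_lit 162))) (XT.nd (nat_lit 78) (nat_lit 0) (nat_lit 0) (XT.lf (nat_lit 0) (nat_lit 850579196758) (nat_lit 152) (nat_lit 653779117112) (nat_lit 0) (nat_lit 493049138168) (nat_lit 5) (nat_lit 5) (nat_lit 7) (nat_lit 4) (nat_lit 5) (nat_lit 4) (nat_lit 397) (nat_lit 342) (nat_lit 161)) (XT.lf (nat_lit 0) (nat_lit 1107358159780) (nat_lit 152) (nat_lit 282551773429) (nat_lit 0)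 (nat_lit 749828077570) (nat_lit 5) (nat_lit 5) (nat_lit 7) (nat_lit 4) (nat_lit 5) (nat_lit 4) (nat_lit 398) (nat_lit 342) (nat_lit 160)))))) (XT.nd (nat_lit 42666) (nat_lit 0) (nat_lit 2964) (XT.nd (nat_lit 312) (nat_lit 0) (nat_lit 0) (XT.nd (nat_lit 156) (nat_lit 0) (nat_lit 0) (XT.nd (nat_lit 78) (nat_lit 0) (nat_lit 0) (XT.lf (nat_lit 0) (nat_lit 124607053328) (nat_lit 76) (nat_lit 1263069161491) (nat_lit 76) (nat_lit 905539057411) (nat_lit 4) (nat_lit 4) (nat_lit 5) (nat_lit 5) (nat_lit 5) (nat_lit 4) (nat_lit 399) (nat_lit 342) (nat_lit 159)) (XT.lf (nat_lit 0) (nat_lit 580407503421) (nat_lit 76) (nat_lit 1117737650184) (nat_lit 76) (nat_lit 760207525854) (nat_lit 4) (nat_lit 4) (nat_lit 5) (nat_lit 5) (nat_lit 5) (nat_lit 4) (nat_lit 400) (nat_lit 342) (nat_lit 158))) (XT.nd (nat_lit 78) (nat_lit 0) (nat_lit 0) (XT.lf (nat_lit 0) (nat_lit 1072671940889) (nat_lit 76) (nat_lit 960779641728)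 (nat_lit 76) (nat_lit 603249498648) (nat_lit 4) (nat_lit 4) (nat_lit 5) (nat_lit 5) (nat_lit 5) (nat_lit 4) (nat_lit 401) (nat_lit 342) (nat_lit 157)) (XT.lf (nat_lit 0) (nat_lit 1604317488323) (nat_lit 76) (nat_lit 791265014592) (nat_lit 76) (nat_lit 433734854150) (nat_lit 4) (nat_lit 4) (nat_lit 5) (nat_lit 5) (nat_lit 5) (nat_lit 4) (nat_lit 402) (nat_lit 342) (nat_lit 156)))) (XT.nd (nat_lit 42198) (nat_lit 0) (nat_lit 3572) (XT.nd (nat_lit 78) (nat_lit 0) (nat_lit 0) (XT.lf (nat_lit 0) (nat_lit 2178494637858) (nat_lit 76) (nat_lit 608189237651) (nat_lit 76) (nat_lit 250659061134) (nat_lit 4) (nat_lit 4) (nat_lit 5) (nat_lit 5) (nat_lit 5) (nat_lit 4) (nat_lit 403) (nat_lit 342) (nat_lit 155)) (XT.lf (nat_lit 0) (nat_lit 2798605920749) (nat_lit 76) (nat_lit 410467417413) (nat_lit 76) (nat_lit 52937226011) (nat_lit 4) (nat_lit 4) (nat_lit 5) (nat_lit 5) (nat_lit 5) (nat_lit 4) (nat_lit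 404) (nat_lit 342) (nat_lit 154))) (XT.nd (nat_lit 78) (nat_lit 0) (nat_lit 0) (XT.lf (nat_lit 0) (nat_lit 40759905612) (nat_lit 532) (nat_lit 7517809713) (nat_lit 532) (nat_lit 7517809713) (nat_lit 51) (nat_lit 3) (nat_lit 58) (nat_lit 3) (nat_lit 58) (nat_lit 5) (nat_lit 343) (nat_lit 343) (nat_lit 214)) (XT.lf (nat_lit 76) (nat_lit 39243450348) (nat_lit 0) (nat_lit 46485809116) (nat_lit 532) (nat_lit 30249529690) (nat_lit 52) (nat_lit 5) (nat_lit 51) (nat_lit 3) (nat_lit 58) (nat_lit 5) (nat_lit 344) (nat_lit 343) (nat_lit 213))))) (XT.nd (nat_lit 312) (nat_lit 684) (nat_lit 0) (XT.nd (nat_lit 156) (nat_lit 0) (nat_lit 0) (XT.nd (nat_lit 78) (nat_lit 0) (nat_lit 0) (XT.lf (nat_lit 0) (nat_lit 90879280119) (nat_lit 456) (nat_lit 22158249318) (nat_lit 532) (nat_lit 7631713643) (nat_lit 52) (nat_lit 5) (nat_lit 58) (nat_lit 5) (nat_lit 59) (nat_lit 5) (nat_lit 345) (nat_lit 343) (nat_lit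 212)) (XT.lf (nat_lit 76) (nat_lit 37450722430) (nat_lit 0) (nat_lit 61098243751) (nat_lit 532) (nat_lit 27017355007) (nat_lit 53) (nat_lit 5) (nat_lit 52) (nat_lit 5) (nat_lit 59) (nat_lit 5) (nat_lit 346) (nat_lit 343) (nat_lit 211))) (XT.nd (nat_lit 78) (nat_lit 0) (nat_lit 76) (XT.lf (nat_lit 76) (nat_lit 103088280640) (nat_lit 0) (nat_lit 4349368051) (nat_lit 532) (nat_lit 23369084026) (nat_lit 53) (nat_lit 5) (nat_lit 52) (nat_lit 5) (nat_lit 59) (nat_lit 5) (nat_lit 347) (nat_lit 343) (nat_lit 210)) (XT.lf (nat_lit 76) (nat_lit 38043876489) (nat_lit 0) (nat_lit 81277509985) (nat_lit 532) (nat_lit 16962274672) (nat_lit 54) (nat_lit 5) (nat_lit 53) (nat_lit 5) (nat_lit 60) (nat_lit 5) (nat_lit 348) (nat_lit 343) (nat_lit 209)))) (XT.nd (nat_lit 156) (nat_lit 304) (nat_lit 0) (XT.nd (nat_lit 78) (nat_lit 456) (nat_lit 0) (XT.lf (nat_lit 76) (nat_lit 110524348283) (nat_lit 0) (nat_lit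 22499089087) (nat_lit 532) (nat_lit 9105898122) (nat_lit 54) (nat_lit 5) (nat_lit 53) (nat_lit 5) (nat_lit 60) (nat_lit 5) (nat_lit 349) (nat_lit 343) (nat_lit 208)) (XT.lf (nat_lit 0) (nat_lit 1443633152) (nat_lit 532) (nat_lit 106872562223) (nat_lit 76) (nat_lit 39964977569) (nat_lit 47) (nat_lit 5) (nat_lit 54) (nat_lit 5) (nat_lit 48) (nat_lit 5) (nat_lit 350) (nat_lit 343) (nat_lit 207))) (XT.nd (nat_lit 78) (nat_lit 304) (nat_lit 0) (XT.lf (nat_lit 0) (nat_lit 13815815090) (nat_lit 532) (nat_lit 33638994690) (nat_lit 76) (nat_lit 107333775422) (nat_lit 47) (nat_lit 5) (nat_lit 54) (nat_lit 5) (nat_lit 48) (nat_lit 5) (nat_lit 351) (nat_lit 343) (nat_lit 206)) (XT.nd (nat_lit 78) (nat_lit 0) (nat_lit 0) (XT.lf (nat_lit 0) (nat_lit 28797588629) (nat_lit 380) (nat_lit 114347533819) (nat_lit 76) (nat_lit 18541883197) (nat_lit 43) (nat_lit 5) (nat_lit 48) (nat_lit 5) (nat_lit 44) (nat_lit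 5) (nat_lit 352) (nat_lit 343) (nat_lit 205)) (XT.lf (nat_lit 0) (nat_lit 47153846067) (nat_lit 380) (nat_lit 33611214372) (nat_lit 76) (nat_lit 88198164445) (nat_lit 43) (nat_lit 5) (nat_lit 48) (nat_lit 5) (nat_lit 44) (nat_lit 5) (nat_lit 353) (nat_lit 343) (nat_lit 204))))))))
noncomputable def xc210 : XT := (XT.nd (nat_lit 1248) (nat_lit 836) (nat_lit 0) (XT.nd (nat_lit 624) (nat_lit 760) (nat_lit 0) (XT.nd (nat_lit 312) (nat_lit 456) (nat_lit 0) (XT.nd (nat_lit 156) (nat_lit 228) (nat_lit 0) (XT.nd (nat_lit 78) (nat_lit 0) (nat_lit 0) (XT.lf (nat_lit 0) (nat_lit 56405349798) (nat_lit 228) (nat_lit 11929536009) (nat_lit 304) (nat_lit 108378153803) (nat_lit 40) (nat_lit 5) (nat_lit 43) (nat_lit 5) (nat_lit 44) (nat_lit 5) (nat_lit 354) (nat_lit 343) (nat_lit 203)) (XT.lf (nat_lit 0) (nat_lit 93654043181) (nat_lit 304) (nat_lit 30999779579) (nat_lit 76) (nat_lit 60233526447) (nat_lit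 40) (nat_lit 5) (nat_lit 44) (nat_lit 5) (nat_lit 41) (nat_lit 5) (nat_lit 355) (nat_lit 343) (nat_lit 202))) (XT.nd (nat_lit 78) (nat_lit 0) (nat_lit 0) (XT.lf (nat_lit 0) (nat_lit 68572924916) (nat_lit 228) (nat_lit 54384610080) (nat_lit 304) (nat_lit 70601364843) (nat_lit 37) (nat_lit 5) (nat_lit 40) (nat_lit 5) (nat_lit 41) (nat_lit 5) (nat_lit 356) (nat_lit 343) (nat_lit 201)) (XT.lf (nat_lit 0) (nat_lit 155991906846) (nat_lit 304) (nat_lit 25521461492) (nat_lit 76) (nat_lit 21299878514) (nat_lit 37) (nat_lit 5) (nat_lit 41) (nat_lit 5) (nat_lit 38) (nat_lit 5) (nat_lit 357) (nat_lit 343) (nat_lit 200)))) (XT.nd (nat_lit 156) (nat_lit 228) (nat_lit 0) (XT.nd (nat_lit 78) (nat_lit 76) (nat_lit 0) (XT.lf (nat_lit 0) (nat_lit 84725682406) (nat_lit 152) (nat_lit 110393378111) (nat_lit 228) (nat_lit 17412878900) (nat_lit 35) (nat_lit 5) (nat_lit 37) (nat_lit 5) (nat_lit 38) (nat_lit 5)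 (nat_lit 358) (nat_lit 343) (nat_lit 199)) (XT.lf (nat_lit 0) (nat_lit 14346221686) (nat_lit 228) (nat_lit 18091747539) (nat_lit 76) (nat_lit 190505294739) (nat_lit 34) (nat_lit 5) (nat_lit 37) (nat_lit 5) (nat_lit 35) (nat_lit 5) (nat_lit 359) (nat_lit 343) (nat_lit 198))) (XT.nd (nat_lit 78) (nat_lit 0) (nat_lit 0) (XT.lf (nat_lit 0) (nat_lit 51557575932) (nat_lit 304) (nat_lit 130060609820) (nat_lit 76) (nat_lit 52224944532) (nat_lit 31) (nat_lit 5) (nat_lit 35) (nat_lit 5) (nat_lit 32) (nat_lit 5) (nat_lit 360) (nat_lit 343) (nat_lit 197)) (XT.lf (nat_lit 0) (nat_lit 93095707934) (nat_lit 304) (nat_lit 9995439103) (nat_lit 76) (nat_lit 142415849581) (nat_lit 31) (nat_lit 5) (nat_lit 35) (nat_lit 5) (nat_lit 32) (nat_lit 5) (nat_lit 361) (nat_lit 343) (nat_lit 196))))) (XT.nd (nat_lit 312) (nat_lit 228) (nat_lit 0) (XT.nd (nat_lit 156) (nat_lit 228) (nat_lit 0) (XT.nd (nat_lit 78)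 (nat_lit 152) (nat_lit 0) (XT.lf (nat_lit 0) (nat_lit 125976565632) (nat_lit 152) (nat_lit 15009893928) (nat_lit 228) (nat_lit 116875147417) (nat_lit 29) (nat_lit 5) (nat_lit 31) (nat_lit 5) (nat_lit 32) (nat_lit 5) (nat_lit 362) (nat_lit 343) (nat_lit 195)) (XT.lf (nat_lit 0) (nat_lit 292511873) (nat_lit 152) (nat_lit 194630057380) (nat_lit 228) (nat_lit 76104889300) (nat_lit 27) (nat_lit 5) (nat_lit 29) (nat_lit 5) (nat_lit 30) (nat_lit 5) (nat_lit 363) (nat_lit 343) (nat_lit 194))) (XT.nd (nat_lit 78) (nat_lit 228) (nat_lit 0) (XT.lf (nat_lit 0) (nat_lit 150134054281) (nat_lit 152) (nat_lit 107025323059) (nat_lit 228) (nat_lit 27768336355) (nat_lit 27) (nat_lit 5) (nat_lit 29) (nat_lit 5) (nat_lit 30) (nat_lit 5) (nat_lit 364) (nat_lit 343) (nat_lit 193)) (XT.lf (nat_lit 0) (nat_lit 12037186235) (nat_lit 152) (nat_lit 11464953796) (nat_lit 228) (nat_lit 276367688624) (nat_lit 24) (nat_lit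 5) (nat_lit 26) (nat_lit 5) (nat_lit 27) (nat_lit 5) (nat_lit 365) (nat_lit 343) (nat_lit 192)))) (XT.nd (nat_lit 156) (nat_lit 76) (nat_lit 0) (XT.nd (nat_lit 78) (nat_lit 152) (nat_lit 0) (XT.lf (nat_lit 0) (nat_lit 83361476210) (nat_lit 228) (nat_lit 140455708240) (nat_lit 76) (nat_lit 91653433438) (nat_lit 24) (nat_lit 5) (nat_lit 27) (nat_lit 5) (nat_lit 25) (nat_lit 5) (nat_lit 366) (nat_lit 343) (nat_lit 191)) (XT.lf (nat_lit 0) (nat_lit 19382990716) (nat_lit 152) (nat_lit 129390385106) (nat_lit 228) (nat_lit 183484989271) (nat_lit 22) (nat_lit 5) (nat_lit 24) (nat_lit 5) (nat_lit 25) (nat_lit 5) (nat_lit 367) (nat_lit 343) (nat_lit 190))) (XT.nd (nat_lit 78) (nat_lit 76) (nat_lit 0) (XT.lf (nat_lit 0) (nat_lit 199996416959) (nat_lit 152) (nat_lit 23261987586) (nat_lit 228) (nat_lit 126823513497) (nat_lit 22) (nat_lit 5) (nat_lit 24) (nat_lit 5) (nat_lit 25) (nat_lit 5) (nat_lit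 368) (nat_lit 343) (nat_lit 189)) (XT.lf (nat_lit 0) (nat_lit 24769290095) (nat_lit 76) (nat_lit 281725655002) (nat_lit 152) (nat_lit 62612993499) (nat_lit 21) (nat_lit 5) (nat_lit 22) (nat_lit 5) (nat_lit 23) (nat_lit 4) (nat_lit 369) (nat_lit 343) (nat_lit 188)))))) (XT.nd (nat_lit 624) (nat_lit 380) (nat_lit 0) (XT.nd (nat_lit 312) (nat_lit 152) (nat_lit 0) (XT.nd (nat_lit 156) (nat_lit 76) (nat_lit 0) (XT.nd (nat_lit 78) (nat_lit 152) (nat_lit 0) (XT.lf (nat_lit 0) (nat_lit 11211764175) (nat_lit 152) (nat_lit 168052752002) (nat_lit 76) (nat_lit 209993425677) (nat_lit 20) (nat_lit 5) (nat_lit 22) (nat_lit 5) (nat_lit 21) (nat_lit 5) (nat_lit 370) (nat_lit 343) (nat_lit 187)) (XT.lf (nat_lit 0) (nat_lit 21800042986) (nat_lit 152) (nat_lit 66283910385) (nat_lit 228) (nat_lit 322763952875) (nat_lit 18) (nat_lit 5) (nat_lit 20) (nat_lit 5) (nat_lit 21) (nat_lit 5) (nat_lit 371) (nat_lit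 343) (nat_lit 186))) (XT.nd (nat_lit 78) (nat_lit 76) (nat_lit 0) (XT.lf (nat_lit 0) (nat_lit 177160445775) (nat_lit 228) (nat_lit 198859077453) (nat_lit 76) (nat_lit 57661182412) (nat_lit 18) (nat_lit 5) (nat_lit 21) (nat_lit 5) (nat_lit 19) (nat_lit 4) (nat_lit 372) (nat_lit 343) (nat_lit 185)) (XT.lf (nat_lit 0) (nat_lit 5076944234) (nat_lit 76) (nat_lit 270129771618) (nat_lit 152) (nat_lit 182985920560) (nat_lit 17) (nat_lit 5) (nat_lit 18) (nat_lit 5) (nat_lit 19) (nat_lit 4) (nat_lit 373) (nat_lit 343) (nat_lit 184)))) (XT.nd (nat_lit 156) (nat_lit 152) (nat_lit 0) (XT.nd (nat_lit 78) (nat_lit 0) (nat_lit 0) (XT.lf (nat_lit 0) (nat_lit 236636967770) (nat_lit 76) (nat_lit 149896780442) (nat_lit 152) (nat_lit 97696808662) (nat_lit 17) (nat_lit 5) (nat_lit 18) (nat_lit 5) (nat_lit 19) (nat_lit 4) (nat_lit 374) (nat_lit 343) (nat_lit 183)) (XT.lf (nat_lit 0) (nat_lit 486721634093) (nat_lit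 76) (nat_lit 20045217485) (nat_lit 152) (nat_lit 5584666798) (nat_lit 17) (nat_lit 5) (nat_lit 18) (nat_lit 5) (nat_lit 19) (nat_lit 4) (nat_lit 375) (nat_lit 343) (nat_lit 182))) (XT.nd (nat_lit 78) (nat_lit 0) (nat_lit 0) (XT.lf (nat_lit 0) (nat_lit 97650756247) (nat_lit 152) (nat_lit 322213826904) (nat_lit 76) (nat_lit 122000805540) (nat_lit 15) (nat_lit 5) (nat_lit 17) (nat_lit 5) (nat_lit 16) (nat_lit 4) (nat_lit 376) (nat_lit 343) (nat_lit 181)) (XT.lf (nat_lit 0) (nat_lit 210082833537) (nat_lit 152) (nat_lit 88355255920) (nat_lit 76) (nat_lit 275191511736) (nat_lit 15) (nat_lit 5) (nat_lit 17) (nat_lit 5) (nat_lit 16) (nat_lit 4) (nat_lit 377) (nat_lit 343) (nat_lit 180))))) (XT.nd (nat_lit 312) (nat_lit 152) (nat_lit 0) (XT.nd (nat_lit 156) (nat_lit 152) (nat_lit 0) (XT.nd (nat_lit 78) (nat_lit 0) (nat_lit 0) (XT.lf (nat_lit 0) (nat_lit 172858964203) (nat_lit 76) (nat_lit 162807695683)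 (nat_lit 152) (nat_lit 271935716234) (nat_lit 14) (nat_lit 5) (nat_lit 15) (nat_lit 5) (nat_lit 16) (nat_lit 4) (nat_lit 378) (nat_lit 343) (nat_lit 179)) (XT.lf (nat_lit 0) (nat_lit 459995025213) (nat_lit 76) (nat_lit 13717879587) (nat_lit 152) (nat_lit 170386811297) (nat_lit 14) (nat_lit 5) (nat_lit 15) (nat_lit 5) (nat_lit 16) (nat_lit 4) (nat_lit 379) (nat_lit 343) (nat_lit 178))) (XT.nd (nat_lit 78) (nat_lit 76) (nat_lit 0) (XT.lf (nat_lit 0) (nat_lit 87415316019) (nat_lit 76) (nat_lit 541032348662) (nat_lit 76) (nat_lit 54617593410) (nat_lit 13) (nat_lit 4) (nat_lit 14) (nat_lit 5) (nat_lit 14) (nat_lit 4) (nat_lit 380) (nat_lit 343) (nat_lit 177)) (XT.lf (nat_lit 0) (nat_lit 72411542055) (nat_lit 152) (nat_lit 335798849712) (nat_lit 76) (nat_lit 316360518125) (nat_lit 12) (nat_lit 5) (nat_lit 14) (nat_lit 5) (nat_lit 13) (nat_lit 4) (nat_lit 381) (nat_lit 343) (nat_lit 176))))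 (XT.nd (nat_lit 156) (nat_lit 76) (nat_lit 0) (XT.nd (nat_lit 78) (nat_lit 76) (nat_lit 0) (XT.lf (nat_lit 0) (nat_lit 206652172913) (nat_lit 152) (nat_lit 56578431913) (nat_lit 76) (nat_lit 506052923287) (nat_lit 12) (nat_lit 5) (nat_lit 14) (nat_lit 5) (nat_lit 13) (nat_lit 4) (nat_lit 382) (nat_lit 343) (nat_lit 175)) (XT.lf (nat_lit 0) (nat_lit 257879691877) (nat_lit 76) (nat_lit 99954313336) (nat_lit 152) (nat_lit 459242994537) (nat_lit 11) (nat_lit 5) (nat_lit 12) (nat_lit 5) (nat_lit 13) (nat_lit 4) (nat_lit 383) (nat_lit 343) (nat_lit 174))) (XT.nd (nat_lit 78) (nat_lit 76) (nat_lit 0) (XT.lf (nat_lit 0) (nat_lit 524534497185) (nat_lit 152) (nat_lit 269735396002) (nat_lit 0) (nat_lit 74150126917) (nat_lit 11) (nat_lit 5) (nat_lit 13) (nat_lit 4) (nat_lit 11) (nat_lit 4) (nat_lit 384) (nat_lit 343) (nat_lit 173)) (XT.lf (nat_lit 0) (nat_lit 42408596391) (nat_lit 76) (nat_lit 665778519201)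 (nat_lit 76) (nat_lit 215394079557) (nat_lit 10) (nat_lit 4) (nat_lit 11) (nat_lit 5) (nat_lit 11) (nat_lit 4) (nat_lit 385) (nat_lit 343) (nat_lit 172)))))))
noncomputable def xc211 : XT := (XT.nd (nat_lit 1248) (nat_lit 0) (nat_lit 0) (XT.nd (nat_lit 624) (nat_lit 228) (nat_lit 0) (XT.nd (nat_lit 312) (nat_lit 76) (nat_lit 0) (XT.nd (nat_lit 156) (nat_lit 76) (nat_lit 0) (XT.nd (nat_lit 78) (nat_lit 76) (nat_lit 0) (XT.lf (nat_lit 0) (nat_lit 394864095599) (nat_lit 76) (nat_lit 519042836702) (nat_lit 76) (nat_lit 68658332820) (nat_lit 10) (nat_lit 4) (nat_lit 11) (nat_lit 5) (nat_lit 11) (nat_lit 4) (nat_lit 386) (nat_lit 343) (nat_lit 171)) (XT.lf (nat_lit 0) (nat_lit 85323247699) (nat_lit 152) (nat_lit 272912208145) (nat_lit 76) (nat_lit 687859802361) (nat_lit 9) (nat_lit 5) (nat_lit 11) (nat_lit 5) (nat_lit 10) (nat_lit 4) (nat_lit 387) (nat_lit 343) (nat_lit 170))) (XT.nd (nat_lit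 78) (nat_lit 0) (nat_lit 0) (XT.lf (nat_lit 0) (nat_lit 68713787412) (nat_lit 76) (nat_lit 180852753859) (nat_lit 152) (nat_lit 864866241229) (nat_lit 8) (nat_lit 5) (nat_lit 9) (nat_lit 5) (nat_lit 10) (nat_lit 4) (nat_lit 388) (nat_lit 343) (nat_lit 169)) (XT.lf (nat_lit 0) (nat_lit 434862799346) (nat_lit 152) (nat_lit 734901472049) (nat_lit 0) (nat_lit 17839957283) (nat_lit 8) (nat_lit 5) (nat_lit 10) (nat_lit 4) (nat_lit 8) (nat_lit 4) (nat_lit 389) (nat_lit 343) (nat_lit 168)))) (XT.nd (nat_lit 156) (nat_lit 76) (nat_lit 0) (XT.nd (nat_lit 78) (nat_lit 0) (nat_lit 0) (XT.lf (nat_lit 0) (nat_lit 639680187842) (nat_lit 152) (nat_lit 403916106286) (nat_lit 0) (nat_lit 222657302060) (nat_lit 8) (nat_lit 5) (nat_lit 10) (nat_lit 4) (nat_lit 8) (nat_lit 4) (nat_lit 390) (nat_lit 343) (nat_lit 167)) (XT.lf (nat_lit 0) (nat_lit 860882926352) (nat_lit 152) (nat_lit 46451989960) (nat_lit 0)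 (nat_lit 443860000089) (nat_lit 8) (nat_lit 5) (nat_lit 10) (nat_lit 4) (nat_lit 8) (nat_lit 4) (nat_lit 391) (nat_lit 343) (nat_lit 166))) (XT.nd (nat_lit 78) (nat_lit 0) (nat_lit 0) (XT.lf (nat_lit 0) (nat_lit 357492400530) (nat_lit 76) (nat_lit 750887146218) (nat_lit 76) (nat_lit 333864182474) (nat_lit 7) (nat_lit 4) (nat_lit 8) (nat_lit 5) (nat_lit 8) (nat_lit 4) (nat_lit 392) (nat_lit 343) (nat_lit 165)) (XT.lf (nat_lit 0) (nat_lit 796394037066) (nat_lit 76) (nat_lit 580551902523) (nat_lit 76) (nat_lit 163528904073) (nat_lit 7) (nat_lit 4) (nat_lit 8) (nat_lit 5) (nat_lit 8) (nat_lit 4) (nat_lit 393) (nat_lit 343) (nat_lit 164))))) (XT.nd (nat_lit 312) (nat_lit 76) (nat_lit 0) (XT.nd (nat_lit 156) (nat_lit 0) (nat_lit 0) (XT.nd (nat_lit 78) (nat_lit 76) (nat_lit 0) (XT.lf (nat_lit 0) (nat_lit 19411010269) (nat_lit 152) (nat_lit 376648129224) (nat_lit 76) (nat_lit 1250465997072) (nat_lit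 6) (nat_lit 5) (nat_lit 8) (nat_lit 5) (nat_lit 7) (nat_lit 4) (nat_lit 394) (nat_lit 343) (nat_lit 163)) (XT.lf (nat_lit 0) (nat_lit 16770525319) (nat_lit 76) (nat_lit 191784083170) (nat_lit 152) (nat_lit 1552132780179) (nat_lit 5) (nat_lit 5) (nat_lit 6) (nat_lit 5) (nat_lit 7) (nat_lit 4) (nat_lit 395) (nat_lit 343) (nat_lit 162))) (XT.nd (nat_lit 78) (nat_lit 0) (nat_lit 0) (XT.lf (nat_lit 0) (nat_lit 424088809874) (nat_lit 152) (nat_lit 1421036760764) (nat_lit 0) (nat_lit 37956321087) (nat_lit 5) (nat_lit 5) (nat_lit 7) (nat_lit 4) (nat_lit 5) (nat_lit 4) (nat_lit 396) (nat_lit 343) (nat_lit 161)) (XT.lf (nat_lit 0) (nat_lit 661847122262) (nat_lit 152) (nat_lit 1077307712928) (nat_lit 0) (nat_lit 275714609856) (nat_lit 5) (nat_lit 5) (nat_lit 7) (nat_lit 4) (nat_lit 5) (nat_lit 4) (nat_lit 397) (nat_lit 343) (nat_lit 160)))) (XT.nd (nat_lit 156) (nat_lit 76) (nat_lit 0) (XT.nd (nat_lit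 78) (nat_lit 0) (nat_lit 0) (XT.lf (nat_lit 0) (nat_lit 918626071989) (nat_lit 152) (nat_lit 706080395153) (nat_lit 0) (nat_lit 532493537713) (nat_lit 5) (nat_lit 5) (nat_lit 7) (nat_lit 4) (nat_lit 5) (nat_lit 4) (nat_lit 398) (nat_lit 343) (nat_lit 159)) (XT.lf (nat_lit 0) (nat_lit 1195947312090) (nat_lit 152) (nat_lit 305154941853) (nat_lit 0) (nat_lit 809814757563) (nat_lit 5) (nat_lit 5) (nat_lit 7) (nat_lit 4) (nat_lit 5) (nat_lit 4) (nat_lit 399) (nat_lit 343) (nat_lit 158))) (XT.nd (nat_lit 78) (nat_lit 0) (nat_lit 0) (XT.lf (nat_lit 0) (nat_lit 134576566401) (nat_lit 76) (nat_lit 1364114230949) (nat_lit 76) (nat_lit 977981657671) (nat_lit 4) (nat_lit 4) (nat_lit 5) (nat_lit 5) (nat_lit 5) (nat_lit 4) (nat_lit 400) (nat_lit 343) (nat_lit 157)) (XT.lf (nat_lit 0) (nat_lit 626840982219) (nat_lit 76) (nat_lit 1207156233068) (nat_lit 76) (nat_lit 821023642429) (nat_lit 4) (nat_lit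 4) (nat_lit 5) (nat_lit 5) (nat_lit 5) (nat_lit 4) (nat_lit 401) (nat_lit 343) (nat_lit 156)))))) (XT.nd (nat_lit 42744) (nat_lit 0) (nat_lit 2508) (XT.nd (nat_lit 42432) (nat_lit 0) (nat_lit 3572) (XT.nd (nat_lit 156) (nat_lit 0) (nat_lit 0) (XT.nd (nat_lit 78) (nat_lit 0) (nat_lit 0) (XT.lf (nat_lit 0) (nat_lit 1158486509608) (nat_lit 76) (nat_lit 1037641615723) (nat_lit 76) (nat_lit 651509009009) (nat_lit 4) (nat_lit 4) (nat_lit 5) (nat_lit 5) (nat_lit 5) (nat_lit 4) (nat_lit 402) (nat_lit 343) (nat_lit 155)) (XT.lf (nat_lit 0) (nat_lit 1732663640582) (nat_lit 76) (nat_lit 854565847849) (nat_lit 76) (nat_lit 468433226250) (nat_lit 4) (nat_lit 4) (nat_lit 5) (nat_lit 5) (nat_lit 5) (nat_lit 4) (nat_lit 403) (nat_lit 343) (nat_lit 154))) (XT.nd (nat_lit 42198) (nat_lit 0) (nat_lit 3572) (XT.lf (nat_lit 0) (nat_lit 2352774906288) (nat_lit 76) (nat_lit 656844036005) (nat_lit 76) (nat_lit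 270711400625) (nat_lit 4) (nat_lit 4) (nat_lit 5) (nat_lit 5) (nat_lit 5) (nat_lit 4) (nat_lit 404) (nat_lit 343) (nat_lit 153)) (XT.lf (nat_lit 0) (nat_lit 44025431288) (nat_lit 532) (nat_lit 8116673441) (nat_lit 532) (nat_lit 8116673441) (nat_lit 51) (nat_lit 3) (nat_lit 58) (nat_lit 3) (nat_lit 58) (nat_lit 5) (nat_lit 344) (nat_lit 344) (nat_lit 212)))) (XT.nd (nat_lit 156) (nat_lit 0) (nat_lit 76) (XT.nd (nat_lit 78) (nat_lit 0) (nat_lit 76) (XT.lf (nat_lit 76) (nat_lit 42387918800) (nat_lit 0) (nat_lit 50208566726) (nat_lit 532) (nat_lit 32659877026) (nat_lit 52) (nat_lit 5) (nat_lit 51) (nat_lit 3) (nat_lit 58) (nat_lit 5) (nat_lit 345) (nat_lit 344) (nat_lit 211)) (XT.lf (nat_lit 0) (nat_lit 98157762974) (nat_lit 456) (nat_lit 23925524280) (nat_lit 532) (nat_lit 8238826528) (nat_lit 52) (nat_lit 5) (nat_lit 58) (nat_lit 5) (nat_lit 59) (nat_lit 5) (nat_lit 346) (nat_lit 344) (nat_lit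 210))) (XT.nd (nat_lit 78) (nat_lit 0) (nat_lit 0) (XT.lf (nat_lit 76) (nat_lit 40452028879) (nat_lit 0) (nat_lit 65988518276) (nat_lit 532) (nat_lit 29170450422) (nat_lit 53) (nat_lit 5) (nat_lit 52) (nat_lit 5) (nat_lit 59) (nat_lit 5) (nat_lit 347) (nat_lit 344) (nat_lit 209)) (XT.lf (nat_lit 76) (nat_lit 111340202957) (nat_lit 0) (nat_lit 4699553630) (nat_lit 532) (nat_lit 25230932057) (nat_lit 53) (nat_lit 5) (nat_lit 52) (nat_lit 5) (nat_lit 59) (nat_lit 5) (nat_lit 348) (nat_lit 344) (nat_lit 208))))) (XT.nd (nat_lit 312) (nat_lit 760) (nat_lit 0) (XT.nd (nat_lit 156) (nat_lit 456) (nat_lit 0) (XT.nd (nat_lit 78) (nat_lit 0) (nat_lit 0) (XT.lf (nat_lit 76) (nat_lit 41092743796) (nat_lit 0) (nat_lit 87781003011) (nat_lit 532) (nat_lit 18312061378) (nat_lit 54) (nat_lit 5) (nat_lit 53) (nat_lit 5) (nat_lit 60) (nat_lit 5) (nat_lit 349) (nat_lit 344) (nat_lit 207)) (XT.lf (nat_lit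 76) (nat_lit 119371256505) (nat_lit 0) (nat_lit 24300212721) (nat_lit 532) (nat_lit 9827707687) (nat_lit 54) (nat_lit 5) (nat_lit 53) (nat_lit 5) (nat_lit 60) (nat_lit 5) (nat_lit 350) (nat_lit 344) (nat_lit 206))) (XT.nd (nat_lit 78) (nat_lit 0) (nat_lit 0) (XT.lf (nat_lit 0) (nat_lit 1565088807) (nat_lit 532) (nat_lit 115416686609) (nat_lit 76) (nat_lit 43161403131) (nat_lit 47) (nat_lit 5) (nat_lit 54) (nat_lit 5) (nat_lit 48) (nat_lit 5) (nat_lit 351) (nat_lit 344) (nat_lit 205)) (XT.lf (nat_lit 0) (nat_lit 14926603448) (nat_lit 532) (nat_lit 36324854458) (nat_lit 76) (nat_lit 115919762044) (nat_lit 47) (nat_lit 5) (nat_lit 54) (nat_lit 5) (nat_lit 48) (nat_lit 5) (nat_lit 352) (nat_lit 344) (nat_lit 204)))) (XT.nd (nat_lit 156) (nat_lit 456) (nat_lit 0) (XT.nd (nat_lit 78) (nat_lit 0) (nat_lit 0) (XT.lf (nat_lit 0) (nat_lit 31106630381) (nat_lit 380) (nat_lit 123489778770) (nat_lit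 76) (nat_lit 20025128712) (nat_lit 43) (nat_lit 5) (nat_lit 48) (nat_lit 5) (nat_lit 44) (nat_lit 5) (nat_lit 353) (nat_lit 344) (nat_lit 203)) (XT.lf (nat_lit 0) (nat_lit 50931000662) (nat_lit 380) (nat_lit 36294965452) (nat_lit 76) (nat_lit 95253920249) (nat_lit 43) (nat_lit 5) (nat_lit 48) (nat_lit 5) (nat_lit 44) (nat_lit 5) (nat_lit 354) (nat_lit 344) (nat_lit 202))) (XT.nd (nat_lit 78) (nat_lit 228) (nat_lit 0) (XT.lf (nat_lit 0) (nat_lit 60922793571) (nat_lit 228) (nat_lit 12883491610) (nat_lit 304) (nat_lit 117043420808) (nat_lit 40) (nat_lit 5) (nat_lit 43) (nat_lit 5) (nat_lit 44) (nat_lit 5) (nat_lit 355) (nat_lit 344) (nat_lit 201)) (XT.nd (nat_lit 78) (nat_lit 228) (nat_lit 0) (XT.lf (nat_lit 0) (nat_lit 101150642843) (nat_lit 304) (nat_lit 33474777885) (nat_lit 76) (nat_lit 65052566809) (nat_lit 40) (nat_lit 5) (nat_lit 44) (nat_lit 5) (nat_lit 41) (nat_lit 5) (nat_lit 356)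 (nat_lit 344) (nat_lit 200)) (XT.lf (nat_lit 0) (nat_lit 74063616791) (nat_lit 228) (nat_lit 58734597289) (nat_lit 304) (nat_lit 76245064692) (nat_lit 37) (nat_lit 5) (nat_lit 40) (nat_lit 5) (nat_lit 41) (nat_lit 5) (nat_lit 357) (nat_lit 344) (nat_lit 199))))))))
noncomputable def xc212 : XT := (XT.nd (nat_lit 1248) (nat_lit 760) (nat_lit 0) (XT.nd (nat_lit 624) (nat_lit 684) (nat_lit 0) (XT.nd (nat_lit 312) (nat_lit 304) (nat_lit 0) (XT.nd (nat_lit 156) (nat_lit 304) (nat_lit 0) (XT.nd (nat_lit 78) (nat_lit 152) (nat_lit 0) (XT.lf (nat_lit 0) (nat_lit 168475051136) (nat_lit 304) (nat_lit 27558389393) (nat_lit 76) (nat_lit 23004556294) (nat_lit 37) (nat_lit 5) (nat_lit 41) (nat_lit 5) (nat_lit 38) (nat_lit 5) (nat_lit 358) (nat_lit 344) (nat_lit 198)) (XT.lf (nat_lit 0) (nat_lit 91508404776) (nat_lit 152) (nat_lit 119223803715) (nat_lit 228) (nat_lit 18801990268) (nat_lit 35) (nat_lit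 5) (nat_lit 37) (nat_lit 5) (nat_lit 38) (nat_lit 5) (nat_lit 359) (nat_lit 344) (nat_lit 197))) (XT.nd (nat_lit 78) (nat_lit 228) (nat_lit 0) (XT.lf (nat_lit 0) (nat_lit 15497366553) (nat_lit 228) (nat_lit 19534578695) (nat_lit 76) (nat_lit 205746498951) (nat_lit 34) (nat_lit 5) (nat_lit 37) (nat_lit 5) (nat_lit 35) (nat_lit 5) (nat_lit 360) (nat_lit 344) (nat_lit 196)) (XT.lf (nat_lit 0) (nat_lit 55685505867) (nat_lit 304) (nat_lit 140460821955) (nat_lit 76) (nat_lit 56403982244) (nat_lit 31) (nat_lit 5) (nat_lit 35) (nat_lit 5) (nat_lit 32) (nat_lit 5) (nat_lit 361) (nat_lit 344) (nat_lit 195)))) (XT.nd (nat_lit 156) (nat_lit 152) (nat_lit 0) (XT.nd (nat_lit 78) (nat_lit 152) (nat_lit 0) (XT.lf (nat_lit 0) (nat_lit 100546442218) (nat_lit 304) (nat_lit 10790781036) (nat_lit 76) (nat_lit 153810082500) (nat_lit 31) (nat_lit 5) (nat_lit 35) (nat_lit 5) (nat_lit 32) (nat_lit 5) (nat_lit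 362) (nat_lit 344) (nat_lit 194)) (XT.lf (nat_lit 0) (nat_lit 136058875388) (nat_lit 152) (nat_lit 16209451248) (nat_lit 228) (nat_lit 126221968816) (nat_lit 29) (nat_lit 5) (nat_lit 31) (nat_lit 5) (nat_lit 32) (nat_lit 5) (nat_lit 363) (nat_lit 344) (nat_lit 193))) (XT.nd (nat_lit 78) (nat_lit 0) (nat_lit 0) (XT.lf (nat_lit 0) (nat_lit 320196465) (nat_lit 152) (nat_lit 210199040604) (nat_lit 228) (nat_lit 82190185430) (nat_lit 27) (nat_lit 5) (nat_lit 29) (nat_lit 5) (nat_lit 30) (nat_lit 5) (nat_lit 364) (nat_lit 344) (nat_lit 192)) (XT.lf (nat_lit 0) (nat_lit 162148744959) (nat_lit 152) (nat_lit 115586032823) (nat_lit 228) (nat_lit 29986937510) (nat_lit 27) (nat_lit 5) (nat_lit 29) (nat_lit 5) (nat_lit 30) (nat_lit 5) (nat_lit 365) (nat_lit 344) (nat_lit 191))))) (XT.nd (nat_lit 312) (nat_lit 304) (nat_lit 0) (XT.nd (nat_lit 156) (nat_lit 152) (nat_lit 0) (XT.nd (nat_lit 78) (nat_lit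 0) (nat_lit 0) (XT.lf (nat_lit 0) (nat_lit 13004169922) (nat_lit 152) (nat_lit 12380758461) (nat_lit 228) (nat_lit 298474274210) (nat_lit 24) (nat_lit 5) (nat_lit 26) (nat_lit 5) (nat_lit 27) (nat_lit 5) (nat_lit 366) (nat_lit 344) (nat_lit 190)) (XT.lf (nat_lit 0) (nat_lit 90032848584) (nat_lit 228) (nat_lit 151688287424) (nat_lit 76) (nat_lit 98986932209) (nat_lit 24) (nat_lit 5) (nat_lit 27) (nat_lit 5) (nat_lit 25) (nat_lit 5) (nat_lit 367) (nat_lit 344) (nat_lit 189))) (XT.nd (nat_lit 78) (nat_lit 0) (nat_lit 0) (XT.lf (nat_lit 0) (nat_lit 20937409285) (nat_lit 152) (nat_lit 139740199974) (nat_lit 228) (nat_lit 198161233415) (nat_lit 22) (nat_lit 5) (nat_lit 24) (nat_lit 5) (nat_lit 25) (nat_lit 5) (nat_lit 368) (nat_lit 344) (nat_lit 188)) (XT.lf (nat_lit 0) (nat_lit 215999629678) (nat_lit 152) (nat_lit 25121635536) (nat_lit 228) (nat_lit 136967028839) (nat_lit 22) (nat_lit 5) (nat_lit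 24) (nat_lit 5) (nat_lit 25) (nat_lit 5) (nat_lit 369) (nat_lit 344) (nat_lit 187)))) (XT.nd (nat_lit 156) (nat_lit 152) (nat_lit 0) (XT.nd (nat_lit 78) (nat_lit 76) (nat_lit 0) (XT.lf (nat_lit 0) (nat_lit 26754386280) (nat_lit 76) (nat_lit 304262295278) (nat_lit 152) (nat_lit 67619718665) (nat_lit 21) (nat_lit 5) (nat_lit 22) (nat_lit 5) (nat_lit 23) (nat_lit 4) (nat_lit 370) (nat_lit 344) (nat_lit 186)) (XT.lf (nat_lit 0) (nat_lit 12110740997) (nat_lit 152) (nat_lit 181493573293) (nat_lit 76) (nat_lit 226794098179) (nat_lit 20) (nat_lit 5) (nat_lit 22) (nat_lit 5) (nat_lit 21) (nat_lit 5) (nat_lit 371) (nat_lit 344) (nat_lit 185))) (XT.nd (nat_lit 78) (nat_lit 0) (nat_lit 0) (XT.lf (nat_lit 0) (nat_lit 23547359247) (nat_lit 152) (nat_lit 71585274963) (nat_lit 228) (nat_lit 348582945630) (nat_lit 18) (nat_lit 5) (nat_lit 20) (nat_lit 5) (nat_lit 21) (nat_lit 5) (nat_lit 372) (nat_lit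 344) (nat_lit 184)) (XT.lf (nat_lit 0) (nat_lit 191335130507) (nat_lit 228) (nat_lit 214764619110) (nat_lit 76) (nat_lit 62275262938) (nat_lit 18) (nat_lit 5) (nat_lit 21) (nat_lit 5) (nat_lit 19) (nat_lit 4) (nat_lit 373) (nat_lit 344) (nat_lit 183)))))) (XT.nd (nat_lit 624) (nat_lit 380) (nat_lit 0) (XT.nd (nat_lit 312) (nat_lit 152) (nat_lit 0) (XT.nd (nat_lit 156) (nat_lit 152) (nat_lit 0) (XT.nd (nat_lit 78) (nat_lit 0) (nat_lit 0) (XT.lf (nat_lit 0) (nat_lit 5486203690) (nat_lit 76) (nat_lit 291738836181) (nat_lit 152) (nat_lit 197622863022) (nat_lit 17) (nat_lit 5) (nat_lit 18) (nat_lit 5) (nat_lit 19) (nat_lit 4) (nat_lit 374) (nat_lit 344) (nat_lit 182)) (XT.lf (nat_lit 0) (nat_lit 255570799190) (nat_lit 76) (nat_lit 161887303278) (nat_lit 152) (nat_lit 105510765223) (nat_lit 17) (nat_lit 5) (nat_lit 18) (nat_lit 5) (nat_lit 19) (nat_lit 4) (nat_lit 375) (nat_lit 344) (nat_lit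 181))) (XT.nd (nat_lit 78) (nat_lit 152) (nat_lit 0) (XT.lf (nat_lit 0) (nat_lit 525662025929) (nat_lit 76) (nat_lit 21647705625) (nat_lit 152) (nat_lit 6029784465) (nat_lit 17) (nat_lit 5) (nat_lit 18) (nat_lit 5) (nat_lit 19) (nat_lit 4) (nat_lit 376) (nat_lit 344) (nat_lit 180)) (XT.lf (nat_lit 0) (nat_lit 105464365218) (nat_lit 152) (nat_lit 347988162460) (nat_lit 76) (nat_lit 131761967134) (nat_lit 15) (nat_lit 5) (nat_lit 17) (nat_lit 5) (nat_lit 16) (nat_lit 4) (nat_lit 377) (nat_lit 344) (nat_lit 179)))) (XT.nd (nat_lit 156) (nat_lit 76) (nat_lit 0) (XT.nd (nat_lit 78) (nat_lit 76) (nat_lit 0) (XT.lf (nat_lit 0) (nat_lit 226890893989) (nat_lit 152) (nat_lit 95421111026) (nat_lit 76) (nat_lit 297207848555) (nat_lit 15) (nat_lit 5) (nat_lit 17) (nat_lit 5) (nat_lit 16) (nat_lit 4) (nat_lit 378) (nat_lit 344) (nat_lit 178)) (XT.lf (nat_lit 0) (nat_lit 186690181760) (nat_lit 76) (nat_lit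 175831198616) (nat_lit 152) (nat_lit 293689073877) (nat_lit 14) (nat_lit 5) (nat_lit 15) (nat_lit 5) (nat_lit 16) (nat_lit 4) (nat_lit 379) (nat_lit 344) (nat_lit 177))) (XT.nd (nat_lit 78) (nat_lit 76) (nat_lit 0) (XT.lf (nat_lit 0) (nat_lit 496796942435) (nat_lit 76) (nat_lit 14814279656) (nat_lit 152) (nat_lit 184016367631) (nat_lit 14) (nat_lit 5) (nat_lit 15) (nat_lit 5) (nat_lit 16) (nat_lit 4) (nat_lit 380) (nat_lit 344) (nat_lit 176)) (XT.lf (nat_lit 0) (nat_lit 94410874780) (nat_lit 76) (nat_lit 584313871868) (nat_lit 76) (nat_lit 58985629781) (nat_lit 13) (nat_lit 4) (nat_lit 14) (nat_lit 5) (nat_lit 14) (nat_lit 4) (nat_lit 381) (nat_lit 344) (nat_lit 175))))) (XT.nd (nat_lit 312) (nat_lit 228) (nat_lit 0) (XT.nd (nat_lit 156) (nat_lit 76) (nat_lit 0) (XT.nd (nat_lit 78) (nat_lit 0) (nat_lit 0) (XT.lf (nat_lit 0) (nat_lit 78205671451) (nat_lit 152) (nat_lit 362660532862) (nat_lit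 76) (nat_lit 341670281198) (nat_lit 12) (nat_lit 5) (nat_lit 14) (nat_lit 5) (nat_lit 13) (nat_lit 4) (nat_lit 382) (nat_lit 344) (nat_lit 174)) (XT.lf (nat_lit 0) (nat_lit 223185463442) (nat_lit 152) (nat_lit 61102646441) (nat_lit 76) (nat_lit 546538010505) (nat_lit 12) (nat_lit 5) (nat_lit 14) (nat_lit 5) (nat_lit 13) (nat_lit 4) (nat_lit 383) (nat_lit 344) (nat_lit 173))) (XT.nd (nat_lit 78) (nat_lit 0) (nat_lit 0) (XT.lf (nat_lit 0) (nat_lit 278512075100) (nat_lit 76) (nat_lit 107949732797) (nat_lit 152) (nat_lit 495981264659) (nat_lit 11) (nat_lit 5) (nat_lit 12) (nat_lit 5) (nat_lit 13) (nat_lit 4) (nat_lit 384) (nat_lit 344) (nat_lit 172)) (XT.lf (nat_lit 0) (nat_lit 566498279670) (nat_lit 152) (nat_lit 291312308436) (nat_lit 0) (nat_lit 80082951241) (nat_lit 11) (nat_lit 5) (nat_lit 13) (nat_lit 4) (nat_lit 11) (nat_lit 4) (nat_lit 385) (nat_lit 344) (nat_lit 171)))) (XT.nd (nat_lit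 156) (nat_lit 152) (nat_lit 0) (XT.nd (nat_lit 78) (nat_lit 0) (nat_lit 0) (XT.lf (nat_lit 0) (nat_lit 45803154760) (nat_lit 76) (nat_lit 719039922023) (nat_lit 76) (nat_lit 232624534114) (nat_lit 10) (nat_lit 4) (nat_lit 11) (nat_lit 5) (nat_lit 11) (nat_lit 4) (nat_lit 386) (nat_lit 344) (nat_lit 170)) (XT.lf (nat_lit 0) (nat_lit 426454955337) (nat_lit 76) (nat_lit 560565450014) (nat_lit 76) (nat_lit 74150007032) (nat_lit 10) (nat_lit 4) (nat_lit 11) (nat_lit 5) (nat_lit 11) (nat_lit 4) (nat_lit 387) (nat_lit 344) (nat_lit 169))) (XT.nd (nat_lit 78) (nat_lit 76) (nat_lit 0) (XT.lf (nat_lit 0) (nat_lit 92149980450) (nat_lit 152) (nat_lit 294743534639) (nat_lit 76) (nat_lit 742889293535) (nat_lit 9) (nat_lit 5) (nat_lit 11) (nat_lit 5) (nat_lit 10) (nat_lit 4) (nat_lit 388) (nat_lit 344) (nat_lit 168)) (XT.lf (nat_lit 0) (nat_lit 74212498787) (nat_lit 76) (nat_lit 195320212741) (nat_lit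 152) (nat_lit 934054625443) (nat_lit 8) (nat_lit 5) (nat_lit 9) (nat_lit 5) (nat_lit 10) (nat_lit 4) (nat_lit 389) (nat_lit 344) (nat_lit 167)))))))
noncomputable def xc213 : XT := (XT.nd (nat_lit 43446) (nat_lit 0) (nat_lit 2052) (XT.nd (nat_lit 624) (nat_lit 76) (nat_lit 0) (XT.nd (nat_lit 312) (nat_lit 152) (nat_lit 0) (XT.nd (nat_lit 156) (nat_lit 76) (nat_lit 0) (XT.nd (nat_lit 78) (nat_lit 0) (nat_lit 0) (XT.lf (nat_lit 0) (nat_lit 469652624467) (nat_lit 152) (nat_lit 793692054443) (nat_lit 0) (nat_lit 19267823623) (nat_lit 8) (nat_lit 5) (nat_lit 10) (nat_lit 4) (nat_lit 8) (nat_lit 4) (nat_lit 390) (nat_lit 344) (nat_lit 166)) (XT.lf (nat_lit 0) (nat_lit 690855344696) (nat_lit 152) (nat_lit 436227973150) (nat_lit 0) (nat_lit 240470506370) (nat_lit 8) (nat_lit 5) (nat_lit 10) (nat_lit 4) (nat_lit 8) (nat_lit 4) (nat_lit 391) (nat_lit 344) (nat_lit 165))) (XT.nd (nat_lit 78) (nat_lit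 76) (nat_lit 0) (XT.lf (nat_lit 0) (nat_lit 929754247337) (nat_lit 152) (nat_lit 50166832825) (nat_lit 0) (nat_lit 479369374305) (nat_lit 8) (nat_lit 5) (nat_lit 10) (nat_lit 4) (nat_lit 8) (nat_lit 4) (nat_lit 392) (nat_lit 344) (nat_lit 164)) (XT.lf (nat_lit 0) (nat_lit 386093075580) (nat_lit 76) (nat_lit 810957501762) (nat_lit 76) (nat_lit 360572596596) (nat_lit 7) (nat_lit 4) (nat_lit 8) (nat_lit 5) (nat_lit 8) (nat_lit 4) (nat_lit 393) (nat_lit 344) (nat_lit 163)))) (XT.nd (nat_lit 156) (nat_lit 76) (nat_lit 0) (XT.nd (nat_lit 78) (nat_lit 76) (nat_lit 0) (XT.lf (nat_lit 0) (nat_lit 860106748000) (nat_lit 76) (nat_lit 626995484212) (nat_lit 76) (nat_lit 176610549291) (nat_lit 7) (nat_lit 4) (nat_lit 8) (nat_lit 5) (nat_lit 8) (nat_lit 4) (nat_lit 394) (nat_lit 344) (nat_lit 162)) (XT.lf (nat_lit 0) (nat_lit 20964477883) (nat_lit 152) (nat_lit 406778848473) (nat_lit 76) (nat_lit 1350503773973)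 (nat_lit 6) (nat_lit 5) (nat_lit 8) (nat_lit 5) (nat_lit 7) (nat_lit 4) (nat_lit 395) (nat_lit 344) (nat_lit 161))) (XT.nd (nat_lit 78) (nat_lit 0) (nat_lit 0) (XT.lf (nat_lit 0) (nat_lit 18113269798) (nat_lit 76) (nat_lit 207126277210) (nat_lit 152) (nat_lit 1676302786964) (nat_lit 5) (nat_lit 5) (nat_lit 6) (nat_lit 5) (nat_lit 7) (nat_lit 4) (nat_lit 396) (nat_lit 344) (nat_lit 160)) (XT.lf (nat_lit 0) (nat_lit 458016454154) (nat_lit 152) (nat_lit 1534718650298) (nat_lit 0) (nat_lit 40993295265) (nat_lit 5) (nat_lit 5) (nat_lit 7) (nat_lit 4) (nat_lit 5) (nat_lit 4) (nat_lit 397) (nat_lit 344) (nat_lit 159))))) (XT.nd (nat_lit 312) (nat_lit 0) (nat_lit 0) (XT.nd (nat_lit 156) (nat_lit 76) (nat_lit 0) (XT.nd (nat_lit 78) (nat_lit 0) (nat_lit 0) (XT.lf (nat_lit 0) (nat_lit 714795391571) (nat_lit 152) (nat_lit 1163491356512) (nat_lit 0) (nat_lit 297772212432) (nat_lit 5) (nat_lit 5) (nat_lit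 7) (nat_lit 4) (nat_lit 5) (nat_lit 4) (nat_lit 398) (nat_lit 344) (nat_lit 158)) (XT.lf (nat_lit 0) (nat_lit 992116620275) (nat_lit 152) (nat_lit 762565925422) (nat_lit 0) (nat_lit 575093422385) (nat_lit 5) (nat_lit 5) (nat_lit 7) (nat_lit 4) (nat_lit 5) (nat_lit 4) (nat_lit 399) (nat_lit 344) (nat_lit 157))) (XT.nd (nat_lit 78) (nat_lit 76) (nat_lit 0) (XT.lf (nat_lit 0) (nat_lit 1291623525322) (nat_lit 152) (nat_lit 329566502624) (nat_lit 0) (nat_lit 874600310071) (nat_lit 5) (nat_lit 5) (nat_lit 7) (nat_lit 4) (nat_lit 5) (nat_lit 4) (nat_lit 400) (nat_lit 344) (nat_lit 156)) (XT.lf (nat_lit 0) (nat_lit 145343505162) (nat_lit 76) (nat_lit 1473242972081) (nat_lit 76) (nat_lit 1056219740754) (nat_lit 4) (nat_lit 4) (nat_lit 5) (nat_lit 5) (nat_lit 5) (nat_lit 4) (nat_lit 401) (nat_lit 344) (nat_lit 155)))) (XT.nd (nat_lit 156) (nat_lit 0) (nat_lit 0) (XT.nd (nat_lit 78) (nat_lit 0)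 (nat_lit 0) (XT.lf (nat_lit 0) (nat_lit 676989013990) (nat_lit 76) (nat_lit 1303728363802) (nat_lit 76) (nat_lit 886705117591) (nat_lit 4) (nat_lit 4) (nat_lit 5) (nat_lit 5) (nat_lit 5) (nat_lit 4) (nat_lit 402) (nat_lit 344) (nat_lit 154)) (XT.lf (nat_lit 0) (nat_lit 1251166127778) (nat_lit 76) (nat_lit 1120652604323) (nat_lit 76) (nat_lit 703629344330) (nat_lit 4) (nat_lit 4) (nat_lit 5) (nat_lit 5) (nat_lit 5) (nat_lit 4) (nat_lit 403) (nat_lit 344) (nat_lit 153))) (XT.nd (nat_lit 42276) (nat_lit 0) (nat_lit 3572) (XT.lf (nat_lit 0) (nat_lit 1871277377571) (nat_lit 76) (nat_lit 922930800252) (nat_lit 76) (nat_lit 505907527498) (nat_lit 4) (nat_lit 4) (nat_lit 5) (nat_lit 5) (nat_lit 5) (nat_lit 4) (nat_lit 404) (nat_lit 344) (nat_lit 152)) (XT.lf (nat_lit 0) (nat_lit 47551523772) (nat_lit 532) (nat_lit 8763811630) (nat_lit 532) (nat_lit 8763811630) (nat_lit 51) (nat_lit 3) (nat_lit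 58) (nat_lit 3) (nat_lit 58) (nat_lit 5) (nat_lit 345) (nat_lit 345) (nat_lit 210)))))) (XT.nd (nat_lit 624) (nat_lit 1216) (nat_lit 0) (XT.nd (nat_lit 312) (nat_lit 304) (nat_lit 0) (XT.nd (nat_lit 156) (nat_lit 0) (nat_lit 76) (XT.nd (nat_lit 78) (nat_lit 0) (nat_lit 76) (XT.lf (nat_lit 76) (nat_lit 45783232503) (nat_lit 0) (nat_lit 54228589582) (nat_lit 532) (nat_lit 35264423842) (nat_lit 52) (nat_lit 5) (nat_lit 51) (nat_lit 3) (nat_lit 58) (nat_lit 5) (nat_lit 346) (nat_lit 345) (nat_lit 209)) (XT.lf (nat_lit 0) (nat_lit 106017363132) (nat_lit 456) (nat_lit 25834949467) (nat_lit 532) (nat_lit 8894996945) (nat_lit 52) (nat_lit 5) (nat_lit 58) (nat_lit 5) (nat_lit 59) (nat_lit 5) (nat_lit 347) (nat_lit 345) (nat_lit 208))) (XT.nd (nat_lit 78) (nat_lit 0) (nat_lit 0) (XT.lf (nat_lit 76) (nat_lit 43692691065) (nat_lit 0) (nat_lit 71269670232) (nat_lit 532) (nat_lit 31496976556) (nat_lit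 53) (nat_lit 5) (nat_lit 52) (nat_lit 5) (nat_lit 59) (nat_lit 5) (nat_lit 348) (nat_lit 345) (nat_lit 207)) (XT.lf (nat_lit 76) (nat_lit 120251585745) (nat_lit 0) (nat_lit 5077435045) (nat_lit 532) (nat_lit 27242823382) (nat_lit 53) (nat_lit 5) (nat_lit 52) (nat_lit 5) (nat_lit 59) (nat_lit 5) (nat_lit 349) (nat_lit 345) (nat_lit 206)))) (XT.nd (nat_lit 156) (nat_lit 456) (nat_lit 0) (XT.nd (nat_lit 78) (nat_lit 0) (nat_lit 0) (XT.lf (nat_lit 76) (nat_lit 44384756225) (nat_lit 0) (nat_lit 94804591128) (nat_lit 532) (nat_lit 19770857507) (nat_lit 54) (nat_lit 5) (nat_lit 53) (nat_lit 5) (nat_lit 60) (nat_lit 5) (nat_lit 350) (nat_lit 345) (nat_lit 205)) (XT.lf (nat_lit 76) (nat_lit 128925209734) (nat_lit 0) (nat_lit 26245255550) (nat_lit 532) (nat_lit 10608212466) (nat_lit 54) (nat_lit 5) (nat_lit 53) (nat_lit 5) (nat_lit 60) (nat_lit 5) (nat_lit 351) (nat_lit 345) (nat_lit 204))) (XT.nd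 (nat_lit 78) (nat_lit 0) (nat_lit 0) (XT.lf (nat_lit 0) (nat_lit 1695409939) (nat_lit 532) (nat_lit 124645151346) (nat_lit 76) (nat_lit 46613652963) (nat_lit 47) (nat_lit 5) (nat_lit 54) (nat_lit 5) (nat_lit 48) (nat_lit 5) (nat_lit 352) (nat_lit 345) (nat_lit 203)) (XT.lf (nat_lit 0) (nat_lit 16125466935) (nat_lit 532) (nat_lit 39226333378) (nat_lit 76) (nat_lit 125192729658) (nat_lit 47) (nat_lit 5) (nat_lit 54) (nat_lit 5) (nat_lit 48) (nat_lit 5) (nat_lit 353) (nat_lit 345) (nat_lit 202))))) (XT.nd (nat_lit 312) (nat_lit 684) (nat_lit 0) (XT.nd (nat_lit 156) (nat_lit 228) (nat_lit 0) (XT.nd (nat_lit 78) (nat_lit 0) (nat_lit 0) (XT.lf (nat_lit 0) (nat_lit 33599648691) (nat_lit 380) (nat_lit 133364196192) (nat_lit 76) (nat_lit 21627048869) (nat_lit 43) (nat_lit 5) (nat_lit 48) (nat_lit 5) (nat_lit 44) (nat_lit 5) (nat_lit 354) (nat_lit 345) (nat_lit 201)) (XT.lf (nat_lit 0) (nat_lit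 55009636158) (nat_lit 380) (nat_lit 39194150764) (nat_lit 76) (nat_lit 102874150405) (nat_lit 43) (nat_lit 5) (nat_lit 48) (nat_lit 5) (nat_lit 44) (nat_lit 5) (nat_lit 355) (nat_lit 345) (nat_lit 200))) (XT.nd (nat_lit 78) (nat_lit 0) (nat_lit 0) (XT.lf (nat_lit 0) (nat_lit 65800917287) (nat_lit 228) (nat_lit 13913821762) (nat_lit 304) (nat_lit 126402620381) (nat_lit 40) (nat_lit 5) (nat_lit 43) (nat_lit 5) (nat_lit 44) (nat_lit 5) (nat_lit 356) (nat_lit 345) (nat_lit 199)) (XT.lf (nat_lit 0) (nat_lit 109246360429) (nat_lit 304) (nat_lit 36148487088) (nat_lit 76) (nat_lit 70257079293) (nat_lit 40) (nat_lit 5) (nat_lit 44) (nat_lit 5) (nat_lit 41) (nat_lit 5) (nat_lit 357) (nat_lit 345) (nat_lit 198)))) (XT.nd (nat_lit 156) (nat_lit 456) (nat_lit 0) (XT.nd (nat_lit 78) (nat_lit 0) (nat_lit 0) (XT.lf (nat_lit 0) (nat_lit 79992870984) (nat_lit 228) (nat_lit 63432694978) (nat_lit 304) (nat_lit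 82340889569) (nat_lit 37) (nat_lit 5) (nat_lit 40) (nat_lit 5) (nat_lit 41) (nat_lit 5) (nat_lit 358) (nat_lit 345) (nat_lit 197)) (XT.lf (nat_lit 0) (nat_lit 181956306034) (nat_lit 304) (nat_lit 29758954734) (nat_lit 76) (nat_lit 24845510217) (nat_lit 37) (nat_lit 5) (nat_lit 41) (nat_lit 5) (nat_lit 38) (nat_lit 5) (nat_lit 359) (nat_lit 345) (nat_lit 196))) (XT.nd (nat_lit 78) (nat_lit 304) (nat_lit 0) (XT.lf (nat_lit 0) (nat_lit 98833079024) (nat_lit 152) (nat_lit 128760812397) (nat_lit 228) (nat_lit 20302789627) (nat_lit 35) (nat_lit 5) (nat_lit 37) (nat_lit 5) (nat_lit 38) (nat_lit 5) (nat_lit 360) (nat_lit 345) (nat_lit 195)) (XT.nd (nat_lit 78) (nat_lit 228) (nat_lit 0) (XT.lf (nat_lit 0) (nat_lit 16740111237) (nat_lit 228) (nat_lit 21093479553) (nat_lit 76) (nat_lit 222206888135) (nat_lit 34) (nat_lit 5) (nat_lit 37) (nat_lit 5) (nat_lit 35) (nat_lit 5) (nat_lit 361) (nat_lit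 345) (nat_lit 194)) (XT.lf (nat_lit 0) (nat_lit 60143196010) (nat_lit 304) (nat_lit 151693712531) (nat_lit 76) (nat_lit 60917194299) (nat_lit 31) (nat_lit 5) (nat_lit 35) (nat_lit 5) (nat_lit 32) (nat_lit 5) (nat_lit 362) (nat_lit 345) (nat_lit 193))))))))
noncomputable def xc214 : XT := (XT.nd (nat_lit 1248) (nat_lit 608) (nat_lit 0) (XT.nd (nat_lit 624) (nat_lit 532) (nat_lit 0) (XT.nd (nat_lit 312) (nat_lit 380) (nat_lit 0) (XT.nd (nat_lit 156) (nat_lit 152) (nat_lit 0) (XT.nd (nat_lit 78) (nat_lit 152) (nat_lit 0) (XT.lf (nat_lit 0) (nat_lit 108592796182) (nat_lit 304) (nat_lit 11650362797) (nat_lit 76) (nat_lit 166115716392) (nat_lit 31) (nat_lit 5) (nat_lit 35) (nat_lit 5) (nat_lit 32) (nat_lit 5) (nat_lit 363) (nat_lit 345) (nat_lit 192)) (XT.lf (nat_lit 0) (nat_lit 146947172959) (nat_lit 152) (nat_lit 17505149225) (nat_lit 228) (nat_lit 136316991073) (nat_lit 29) (nat_lit 5) (nat_lit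 31) (nat_lit 5) (nat_lit 32) (nat_lit 5) (nat_lit 364) (nat_lit 345) (nat_lit 191))) (XT.nd (nat_lit 78) (nat_lit 0) (nat_lit 0) (XT.lf (nat_lit 0) (nat_lit 349484716) (nat_lit 152) (nat_lit 227013745259) (nat_lit 228) (nat_lit 88762746789) (nat_lit 27) (nat_lit 5) (nat_lit 29) (nat_lit 5) (nat_lit 30) (nat_lit 5) (nat_lit 365) (nat_lit 345) (nat_lit 190)) (XT.lf (nat_lit 0) (nat_lit 175124045049) (nat_lit 152) (nat_lit 124831787122) (nat_lit 228) (nat_lit 32383435588) (nat_lit 27) (nat_lit 5) (nat_lit 29) (nat_lit 5) (nat_lit 30) (nat_lit 5) (nat_lit 366) (nat_lit 345) (nat_lit 189)))) (XT.nd (nat_lit 156) (nat_lit 152) (nat_lit 0) (XT.nd (nat_lit 78) (nat_lit 0) (nat_lit 0) (XT.lf (nat_lit 0) (nat_lit 14047940405) (nat_lit 152) (nat_lit 13370026032) (nat_lit 228) (nat_lit 322349790303) (nat_lit 24) (nat_lit 5) (nat_lit 26) (nat_lit 5) (nat_lit 27) (nat_lit 5) (nat_lit 367) (nat_lit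 345) (nat_lit 188)) (XT.lf (nat_lit 0) (nat_lit 97237580617) (nat_lit 228) (nat_lit 163820026108) (nat_lit 76) (nat_lit 106906936250) (nat_lit 24) (nat_lit 5) (nat_lit 27) (nat_lit 5) (nat_lit 25) (nat_lit 5) (nat_lit 368) (nat_lit 345) (nat_lit 187))) (XT.nd (nat_lit 78) (nat_lit 0) (nat_lit 0) (XT.lf (nat_lit 0) (nat_lit 22615642178) (nat_lit 152) (nat_lit 150918202031) (nat_lit 228) (nat_lit 214011941590) (nat_lit 22) (nat_lit 5) (nat_lit 24) (nat_lit 5) (nat_lit 25) (nat_lit 5) (nat_lit 369) (nat_lit 345) (nat_lit 186)) (XT.lf (nat_lit 0) (nat_lit 233282600192) (nat_lit 152) (nat_lit 27130242360) (nat_lit 228) (nat_lit 147922362907) (nat_lit 22) (nat_lit 5) (nat_lit 24) (nat_lit 5) (nat_lit 25) (nat_lit 5) (nat_lit 370) (nat_lit 345) (nat_lit 185))))) (XT.nd (nat_lit 312) (nat_lit 228) (nat_lit 0) (XT.nd (nat_lit 156) (nat_lit 152) (nat_lit 0) (XT.nd (nat_lit 78) (nat_lit 76) (nat_lit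 0) (XT.lf (nat_lit 0) (nat_lit 28897783289) (nat_lit 76) (nat_lit 328602068231) (nat_lit 152) (nat_lit 73027312007) (nat_lit 21) (nat_lit 5) (nat_lit 22) (nat_lit 5) (nat_lit 23) (nat_lit 4) (nat_lit 371) (nat_lit 345) (nat_lit 184)) (XT.lf (nat_lit 0) (nat_lit 13081345551) (nat_lit 152) (nat_lit 196010145173) (nat_lit 76) (nat_lit 244938653509) (nat_lit 20) (nat_lit 5) (nat_lit 22) (nat_lit 5) (nat_lit 21) (nat_lit 5) (nat_lit 372) (nat_lit 345) (nat_lit 183))) (XT.nd (nat_lit 78) (nat_lit 0) (nat_lit 0) (XT.lf (nat_lit 0) (nat_lit 25433988198) (nat_lit 152) (nat_lit 77310941051) (nat_lit 228) (nat_lit 376467760742) (nat_lit 18) (nat_lit 5) (nat_lit 20) (nat_lit 5) (nat_lit 21) (nat_lit 5) (nat_lit 373) (nat_lit 345) (nat_lit 182)) (XT.lf (nat_lit 0) (nat_lit 206643526226) (nat_lit 228) (nat_lit 231943058409) (nat_lit 76) (nat_lit 67258300719) (nat_lit 18) (nat_lit 5) (nat_lit 21) (nat_lit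 5) (nat_lit 19) (nat_lit 4) (nat_lit 374) (nat_lit 345) (nat_lit 181)))) (XT.nd (nat_lit 156) (nat_lit 152) (nat_lit 0) (XT.nd (nat_lit 78) (nat_lit 0) (nat_lit 0) (XT.lf (nat_lit 0) (nat_lit 5927761095) (nat_lit 76) (nat_lit 315076813817) (nat_lit 152) (nat_lit 213431036386) (nat_lit 17) (nat_lit 5) (nat_lit 18) (nat_lit 5) (nat_lit 19) (nat_lit 4) (nat_lit 375) (nat_lit 345) (nat_lit 180)) (XT.lf (nat_lit 0) (nat_lit 276018927115) (nat_lit 76) (nat_lit 174837241930) (nat_lit 152) (nat_lit 113950093406) (nat_lit 17) (nat_lit 5) (nat_lit 18) (nat_lit 5) (nat_lit 19) (nat_lit 4) (nat_lit 376) (nat_lit 345) (nat_lit 179))) (XT.nd (nat_lit 78) (nat_lit 152) (nat_lit 0) (XT.lf (nat_lit 0) (nat_lit 567717269476) (nat_lit 76) (nat_lit 23378553918) (nat_lit 152) (nat_lit 6510747745) (nat_lit 17) (nat_lit 5) (nat_lit 18) (nat_lit 5) (nat_lit 19) (nat_lit 4) (nat_lit 377) (nat_lit 345) (nat_lit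 178)) (XT.lf (nat_lit 0) (nat_lit 113902842000) (nat_lit 152) (nat_lit 375824840116) (nat_lit 76) (nat_lit 142303865136) (nat_lit 15) (nat_lit 5) (nat_lit 17) (nat_lit 5) (nat_lit 16) (nat_lit 4) (nat_lit 378) (nat_lit 345) (nat_lit 177)))))) (XT.nd (nat_lit 624) (nat_lit 304) (nat_lit 0) (XT.nd (nat_lit 312) (nat_lit 152) (nat_lit 0) (XT.nd (nat_lit 156) (nat_lit 76) (nat_lit 0) (XT.nd (nat_lit 78) (nat_lit 76) (nat_lit 0) (XT.lf (nat_lit 0) (nat_lit 245043394735) (nat_lit 152) (nat_lit 103052600519) (nat_lit 76) (nat_lit 320985347394) (nat_lit 15) (nat_lit 5) (nat_lit 17) (nat_lit 5) (nat_lit 16) (nat_lit 4) (nat_lit 379) (nat_lit 345) (nat_lit 176)) (XT.lf (nat_lit 0) (nat_lit 201627540010) (nat_lit 76) (nat_lit 189896740526) (nat_lit 152) (nat_lit 317182914074) (nat_lit 14) (nat_lit 5) (nat_lit 15) (nat_lit 5) (nat_lit 16) (nat_lit 4) (nat_lit 380) (nat_lit 345) (nat_lit 175))) (XT.nd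 (nat_lit 78) (nat_lit 76) (nat_lit 0) (XT.lf (nat_lit 0) (nat_lit 536542682745) (nat_lit 76) (nat_lit 15998538714) (nat_lit 152) (nat_lit 198736486566) (nat_lit 14) (nat_lit 5) (nat_lit 15) (nat_lit 5) (nat_lit 16) (nat_lit 4) (nat_lit 381) (nat_lit 345) (nat_lit 174)) (XT.lf (nat_lit 0) (nat_lit 101965745345) (nat_lit 76) (nat_lit 631058068819) (nat_lit 76) (nat_lit 63703304665) (nat_lit 13) (nat_lit 4) (nat_lit 14) (nat_lit 5) (nat_lit 14) (nat_lit 4) (nat_lit 382) (nat_lit 345) (nat_lit 173)))) (XT.nd (nat_lit 156) (nat_lit 76) (nat_lit 0) (XT.nd (nat_lit 78) (nat_lit 0) (nat_lit 0) (XT.lf (nat_lit 0) (nat_lit 84463159144) (nat_lit 152) (nat_lit 391671468060) (nat_lit 76) (nat_lit 369004693837) (nat_lit 12) (nat_lit 5) (nat_lit 14) (nat_lit 5) (nat_lit 13) (nat_lit 4) (nat_lit 383) (nat_lit 345) (nat_lit 172)) (XT.lf (nat_lit 0) (nat_lit 241041257903) (nat_lit 152) (nat_lit 65989092017)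 (nat_lit 76) (nat_lit 590261782959) (nat_lit 12) (nat_lit 5) (nat_lit 14) (nat_lit 5) (nat_lit 13) (nat_lit 4) (nat_lit 384) (nat_lit 345) (nat_lit 171))) (XT.nd (nat_lit 78) (nat_lit 0) (nat_lit 0) (XT.lf (nat_lit 0) (nat_lit 300794762536) (nat_lit 76) (nat_lit 116584917863) (nat_lit 152) (nat_lit 535658763225) (nat_lit 11) (nat_lit 5) (nat_lit 12) (nat_lit 5) (nat_lit 13) (nat_lit 4) (nat_lit 385) (nat_lit 345) (nat_lit 170)) (XT.lf (nat_lit 0) (nat_lit 611819018854) (nat_lit 152) (nat_lit 314615647666) (nat_lit 0) (nat_lit 86490285360) (nat_lit 11) (nat_lit 5) (nat_lit 13) (nat_lit 4) (nat_lit 11) (nat_lit 4) (nat_lit 386) (nat_lit 345) (nat_lit 169))))) (XT.nd (nat_lit 312) (nat_lit 76) (nat_lit 0) (XT.nd (nat_lit 156) (nat_lit 152) (nat_lit 0) (XT.nd (nat_lit 78) (nat_lit 0) (nat_lit 0) (XT.lf (nat_lit 0) (nat_lit 49469010928) (nat_lit 76) (nat_lit 776562362430) (nat_lit 76) (nat_lit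 251233577942) (nat_lit 10) (nat_lit 4) (nat_lit 11) (nat_lit 5) (nat_lit 11) (nat_lit 4) (nat_lit 387) (nat_lit 345) (nat_lit 168)) (XT.lf (nat_lit 0) (nat_lit 460572836752) (nat_lit 76) (nat_lit 605409988464) (nat_lit 76) (nat_lit 80081156759) (nat_lit 10) (nat_lit 4) (nat_lit 11) (nat_lit 5) (nat_lit 11) (nat_lit 4) (nat_lit 388) (nat_lit 345) (nat_lit 167))) (XT.nd (nat_lit 78) (nat_lit 76) (nat_lit 0) (XT.lf (nat_lit 0) (nat_lit 99522727286) (nat_lit 152) (nat_lit 318321602666) (nat_lit 76) (nat_lit 802321043144) (nat_lit 9) (nat_lit 5) (nat_lit 11) (nat_lit 5) (nat_lit 10) (nat_lit 4) (nat_lit 389) (nat_lit 345) (nat_lit 166)) (XT.lf (nat_lit 0) (nat_lit 80150877618) (nat_lit 76) (nat_lit 210945176959) (nat_lit 152) (nat_lit 1008778210942) (nat_lit 8) (nat_lit 5) (nat_lit 9) (nat_lit 5) (nat_lit 10) (nat_lit 4) (nat_lit 390) (nat_lit 345) (nat_lit 165)))) (XT.nd (nat_lit 156) (nat_lit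 76) (nat_lit 0) (XT.nd (nat_lit 78) (nat_lit 0) (nat_lit 0) (XT.lf (nat_lit 0) (nat_lit 507225521301) (nat_lit 152) (nat_lit 857186102467) (nat_lit 0) (nat_lit 20809823722) (nat_lit 8) (nat_lit 5) (nat_lit 10) (nat_lit 4) (nat_lit 8) (nat_lit 4) (nat_lit 391) (nat_lit 345) (nat_lit 164)) (XT.lf (nat_lit 0) (nat_lit 746124408269) (nat_lit 152) (nat_lit 471124992177) (nat_lit 0) (nat_lit 259708678555) (nat_lit 8) (nat_lit 5) (nat_lit 10) (nat_lit 4) (nat_lit 8) (nat_lit 4) (nat_lit 392) (nat_lit 345) (nat_lit 163))) (XT.nd (nat_lit 78) (nat_lit 76) (nat_lit 0) (XT.lf (nat_lit 0) (nat_lit 1004135176010) (nat_lit 152) (nat_lit 54179050908) (nat_lit 0) (nat_lit 517719416541) (nat_lit 8) (nat_lit 5) (nat_lit 10) (nat_lit 4) (nat_lit 8) (nat_lit 4) (nat_lit 393) (nat_lit 345) (nat_lit 162)) (XT.nd (nat_lit 78) (nat_lit 0) (nat_lit 0) (XT.lf (nat_lit 0) (nat_lit 416981621598) (nat_lit 76) (nat_lit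 875833573651) (nat_lit 76) (nat_lit 389417786632) (nat_lit 7) (nat_lit 4) (nat_lit 8) (nat_lit 5) (nat_lit 8) (nat_lit 4) (nat_lit 394) (nat_lit 345) (nat_lit 161)) (XT.lf (nat_lit 0) (nat_lit 928916306332) (nat_lit 76) (nat_lit 677154633826) (nat_lit 76) (nat_lit 190738821298) (nat_lit 7) (nat_lit 4) (nat_lit 8) (nat_lit 5) (nat_lit 8) (nat_lit 4) (nat_lit 395) (nat_lit 345) (nat_lit 160))))))))
noncomputable def xc215 : XT := (XT.nd (nat_lit 43602) (nat_lit 0) (nat_lit 1368) (XT.nd (nat_lit 42978) (nat_lit 0) (nat_lit 3268) (XT.nd (nat_lit 312) (nat_lit 76) (nat_lit 0) (XT.nd (nat_lit 156) (nat_lit 0) (nat_lit 0) (XT.nd (nat_lit 78) (nat_lit 76) (nat_lit 0) (XT.lf (nat_lit 0) (nat_lit 22642139193) (nat_lit 152) (nat_lit 439320186624) (nat_lit 76) (nat_lit 1458544502104) (nat_lit 6) (nat_lit 5) (nat_lit 8) (nat_lit 5) (nat_lit 7) (nat_lit 4) (nat_lit 396) (nat_lit 345) (nat_lit 159))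 (XT.lf (nat_lit 0) (nat_lit 19563276558) (nat_lit 76) (nat_lit 223695922757) (nat_lit 152) (nat_lit 1810406482118) (nat_lit 5) (nat_lit 5) (nat_lit 6) (nat_lit 5) (nat_lit 7) (nat_lit 4) (nat_lit 397) (nat_lit 345) (nat_lit 158))) (XT.nd (nat_lit 78) (nat_lit 0) (nat_lit 0) (XT.lf (nat_lit 0) (nat_lit 494658233013) (nat_lit 152) (nat_lit 1657495240978) (nat_lit 0) (nat_lit 44273160541) (nat_lit 5) (nat_lit 5) (nat_lit 7) (nat_lit 4) (nat_lit 5) (nat_lit 4) (nat_lit 398) (nat_lit 345) (nat_lit 157)) (XT.lf (nat_lit 0) (nat_lit 771979451162) (nat_lit 152) (nat_lit 1256569830455) (nat_lit 0) (nat_lit 321594361330) (nat_lit 5) (nat_lit 5) (nat_lit 7) (nat_lit 4) (nat_lit 5) (nat_lit 4) (nat_lit 399) (nat_lit 345) (nat_lit 156)))) (XT.nd (nat_lit 156) (nat_lit 76) (nat_lit 0) (XT.nd (nat_lit 78) (nat_lit 0) (nat_lit 0) (XT.lf (nat_lit 0) (nat_lit 1071486346438) (nat_lit 152) (nat_lit 823570426699)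 (nat_lit 0) (nat_lit 621101240530) (nat_lit 5) (nat_lit 5) (nat_lit 7) (nat_lit 4) (nat_lit 5) (nat_lit 4) (nat_lit 400) (nat_lit 345) (nat_lit 155)) (XT.lf (nat_lit 0) (nat_lit 1394953774516) (nat_lit 152) (nat_lit 355931107318) (nat_lit 0) (nat_lit 944568653724) (nat_lit 5) (nat_lit 5) (nat_lit 7) (nat_lit 4) (nat_lit 5) (nat_lit 4) (nat_lit 401) (nat_lit 345) (nat_lit 154))) (XT.nd (nat_lit 78) (nat_lit 0) (nat_lit 0) (XT.lf (nat_lit 0) (nat_lit 156971682976) (nat_lit 76) (nat_lit 1591102069189) (nat_lit 76) (nat_lit 1140716934615) (nat_lit 4) (nat_lit 4) (nat_lit 5) (nat_lit 5) (nat_lit 5) (nat_lit 4) (nat_lit 402) (nat_lit 345) (nat_lit 153)) (XT.lf (nat_lit 0) (nat_lit 731148780852) (nat_lit 76) (nat_lit 1408026317482) (nat_lit 76) (nat_lit 957641170147) (nat_lit 4) (nat_lit 4) (nat_lit 5) (nat_lit 5) (nat_lit 5) (nat_lit 4) (nat_lit 403) (nat_lit 345) (nat_lit 152))))) (XT.nd (nat_lit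 312) (nat_lit 304) (nat_lit 0) (XT.nd (nat_lit 156) (nat_lit 0) (nat_lit 76) (XT.nd (nat_lit 78) (nat_lit 0) (nat_lit 0) (XT.lf (nat_lit 0) (nat_lit 51359124737) (nat_lit 532) (nat_lit 9463034114) (nat_lit 532) (nat_lit 9463034114) (nat_lit 51) (nat_lit 3) (nat_lit 58) (nat_lit 3) (nat_lit 58) (nat_lit 5) (nat_lit 346) (nat_lit 346) (nat_lit 208)) (XT.lf (nat_lit 76) (nat_lit 49449560684) (nat_lit 0) (nat_lit 58569738132) (nat_lit 532) (nat_lit 38078510409) (nat_lit 52) (nat_lit 5) (nat_lit 51) (nat_lit 3) (nat_lit 58) (nat_lit 5) (nat_lit 347) (nat_lit 346) (nat_lit 207))) (XT.nd (nat_lit 78) (nat_lit 0) (nat_lit 0) (XT.lf (nat_lit 0) (nat_lit 114504735652) (nat_lit 456) (nat_lit 27897787300) (nat_lit 532) (nat_lit 9604079806) (nat_lit 52) (nat_lit 5) (nat_lit 58) (nat_lit 5) (nat_lit 59) (nat_lit 5) (nat_lit 348) (nat_lit 346) (nat_lit 206)) (XT.lf (nat_lit 76) (nat_lit 47191964268)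 (nat_lit 0) (nat_lit 76973018966) (nat_lit 532) (nat_lit 34010639089) (nat_lit 53) (nat_lit 5) (nat_lit 52) (nat_lit 5) (nat_lit 59) (nat_lit 5) (nat_lit 349) (nat_lit 346) (nat_lit 205)))) (XT.nd (nat_lit 156) (nat_lit 380) (nat_lit 0) (XT.nd (nat_lit 78) (nat_lit 0) (nat_lit 76) (XT.lf (nat_lit 76) (nat_lit 129875284750) (nat_lit 0) (nat_lit 5485273474) (nat_lit 532) (nat_lit 29416605186) (nat_lit 53) (nat_lit 5) (nat_lit 52) (nat_lit 5) (nat_lit 59) (nat_lit 5) (nat_lit 350) (nat_lit 346) (nat_lit 204)) (XT.lf (nat_lit 76) (nat_lit 47939474417) (nat_lit 0) (nat_lit 102389908244) (nat_lit 532) (nat_lit 21347237371) (nat_lit 54) (nat_lit 5) (nat_lit 53) (nat_lit 5) (nat_lit 60) (nat_lit 5) (nat_lit 351) (nat_lit 346) (nat_lit 203))) (XT.nd (nat_lit 78) (nat_lit 456) (nat_lit 0) (XT.lf (nat_lit 76) (nat_lit 139242872525) (nat_lit 0) (nat_lit 28345755462) (nat_lit 532) (nat_lit 11451972485)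 (nat_lit 54) (nat_lit 5) (nat_lit 53) (nat_lit 5) (nat_lit 60) (nat_lit 5) (nat_lit 352) (nat_lit 346) (nat_lit 202)) (XT.lf (nat_lit 0) (nat_lit 1835427189) (nat_lit 532) (nat_lit 134612588049) (nat_lit 76) (nat_lit 50342177283) (nat_lit 47) (nat_lit 5) (nat_lit 54) (nat_lit 5) (nat_lit 48) (nat_lit 5) (nat_lit 353) (nat_lit 346) (nat_lit 201)))))) (XT.nd (nat_lit 624) (nat_lit 988) (nat_lit 0) (XT.nd (nat_lit 312) (nat_lit 380) (nat_lit 0) (XT.nd (nat_lit 156) (nat_lit 228) (nat_lit 0) (XT.nd (nat_lit 78) (nat_lit 304) (nat_lit 0) (XT.lf (nat_lit 0) (nat_lit 17419563970) (nat_lit 532) (nat_lit 42360573933) (nat_lit 76) (nat_lit 135207622182) (nat_lit 47) (nat_lit 5) (nat_lit 54) (nat_lit 5) (nat_lit 48) (nat_lit 5) (nat_lit 354) (nat_lit 346) (nat_lit 200)) (XT.lf (nat_lit 0) (nat_lit 36291468220) (nat_lit 380) (nat_lit 144029246772) (nat_lit 76) (nat_lit 23357135497) (nat_lit 43) (nat_lit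 5) (nat_lit 48) (nat_lit 5) (nat_lit 44) (nat_lit 5) (nat_lit 355) (nat_lit 346) (nat_lit 199))) (XT.nd (nat_lit 78) (nat_lit 228) (nat_lit 0) (XT.lf (nat_lit 0) (nat_lit 59413969674) (nat_lit 380) (nat_lit 42325900310) (nat_lit 76) (nat_lit 111104010881) (nat_lit 43) (nat_lit 5) (nat_lit 48) (nat_lit 5) (nat_lit 44) (nat_lit 5) (nat_lit 356) (nat_lit 346) (nat_lit 198)) (XT.lf (nat_lit 0) (nat_lit 71068677424) (nat_lit 228) (nat_lit 15026628140) (nat_lit 304) (nat_lit 136511165668) (nat_lit 40) (nat_lit 5) (nat_lit 43) (nat_lit 5) (nat_lit 44) (nat_lit 5) (nat_lit 357) (nat_lit 346) (nat_lit 197)))) (XT.nd (nat_lit 156) (nat_lit 152) (nat_lit 0) (XT.nd (nat_lit 78) (nat_lit 228) (nat_lit 0) (XT.lf (nat_lit 0) (nat_lit 117989212404) (nat_lit 304) (nat_lit 39036702622) (nat_lit 76) (nat_lit 75877908958) (nat_lit 40) (nat_lit 5) (nat_lit 44) (nat_lit 5) (nat_lit 41) (nat_lit 5) (nat_lit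 358) (nat_lit 346) (nat_lit 196)) (XT.lf (nat_lit 0) (nat_lit 86395871351) (nat_lit 228) (nat_lit 68506736078) (nat_lit 304) (nat_lit 88924919739) (nat_lit 37) (nat_lit 5) (nat_lit 40) (nat_lit 5) (nat_lit 41) (nat_lit 5) (nat_lit 359) (nat_lit 346) (nat_lit 195))) (XT.nd (nat_lit 78) (nat_lit 152) (nat_lit 0) (XT.lf (nat_lit 0) (nat_lit 196515597560) (nat_lit 304) (nat_lit 32136151041) (nat_lit 76) (nat_lit 26833656367) (nat_lit 37) (nat_lit 5) (nat_lit 41) (nat_lit 5) (nat_lit 38) (nat_lit 5) (nat_lit 360) (nat_lit 346) (nat_lit 194)) (XT.lf (nat_lit 0) (nat_lit 106743156302) (nat_lit 152) (nat_lit 139060909544) (nat_lit 228) (nat_lit 21924132256) (nat_lit 35) (nat_lit 5) (nat_lit 37) (nat_lit 5) (nat_lit 38) (nat_lit 5) (nat_lit 361) (nat_lit 346) (nat_lit 193))))) (XT.nd (nat_lit 312) (nat_lit 532) (nat_lit 0) (XT.nd (nat_lit 156) (nat_lit 152) (nat_lit 0) (XT.nd (nat_lit 78) (nat_lit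 228) (nat_lit 0) (XT.lf (nat_lit 0) (nat_lit 18081853881) (nat_lit 228) (nat_lit 22777643928) (nat_lit 76) (nat_lit 239984012974) (nat_lit 34) (nat_lit 5) (nat_lit 37) (nat_lit 5) (nat_lit 35) (nat_lit 5) (nat_lit 362) (nat_lit 346) (nat_lit 192)) (XT.lf (nat_lit 0) (nat_lit 64957094828) (nat_lit 304) (nat_lit 163825801457) (nat_lit 76) (nat_lit 65791335853) (nat_lit 31) (nat_lit 5) (nat_lit 35) (nat_lit 5) (nat_lit 32) (nat_lit 5) (nat_lit 363) (nat_lit 346) (nat_lit 191))) (XT.nd (nat_lit 78) (nat_lit 152) (nat_lit 0) (XT.lf (nat_lit 0) (nat_lit 117282482040) (nat_lit 304) (nat_lit 12579236194) (nat_lit 76) (nat_lit 179405682972) (nat_lit 31) (nat_lit 5) (nat_lit 35) (nat_lit 5) (nat_lit 32) (nat_lit 5) (nat_lit 364) (nat_lit 346) (nat_lit 190)) (XT.lf (nat_lit 0) (nat_lit 158706022533) (nat_lit 152) (nat_lit 18904653993) (nat_lit 228) (nat_lit 147220005324) (nat_lit 29) (nat_lit 5)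 (nat_lit 31) (nat_lit 5) (nat_lit 32) (nat_lit 5) (nat_lit 365) (nat_lit 346) (nat_lit 189)))) (XT.nd (nat_lit 156) (nat_lit 380) (nat_lit 0) (XT.nd (nat_lit 78) (nat_lit 0) (nat_lit 0) (XT.lf (nat_lit 0) (nat_lit 380592098) (nat_lit 152) (nat_lit 245173800133) (nat_lit 228) (nat_lit 95861491604) (nat_lit 27) (nat_lit 5) (nat_lit 29) (nat_lit 5) (nat_lit 30) (nat_lit 5) (nat_lit 366) (nat_lit 346) (nat_lit 188)) (XT.lf (nat_lit 0) (nat_lit 189136884028) (nat_lit 152) (nat_lit 134817362734) (nat_lit 228) (nat_lit 34972004021) (nat_lit 27) (nat_lit 5) (nat_lit 29) (nat_lit 5) (nat_lit 30) (nat_lit 5) (nat_lit 367) (nat_lit 346) (nat_lit 187))) (XT.nd (nat_lit 78) (nat_lit 152) (nat_lit 0) (XT.lf (nat_lit 0) (nat_lit 15174722217) (nat_lit 152) (nat_lit 14438605219) (nat_lit 228) (nat_lit 348135693758) (nat_lit 24) (nat_lit 5) (nat_lit 26) (nat_lit 5) (nat_lit 27) (nat_lit 5) (nat_lit 368)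 (nat_lit 346) (nat_lit 186)) (XT.nd (nat_lit 78) (nat_lit 152) (nat_lit 0) (XT.lf (nat_lit 0) (nat_lit 105018391033) (nat_lit 228) (nat_lit 176922778136) (nat_lit 76) (nat_lit 115460390897) (nat_lit 24) (nat_lit 5) (nat_lit 27) (nat_lit 5) (nat_lit 25) (nat_lit 5) (nat_lit 369) (nat_lit 346) (nat_lit 185)) (XT.lf (nat_lit 0) (nat_lit 24427671459) (nat_lit 152) (nat_lit 162990617434) (nat_lit 228) (nat_lit 231131018918) (nat_lit 22) (nat_lit 5) (nat_lit 24) (nat_lit 5) (nat_lit 25) (nat_lit 5) (nat_lit 370) (nat_lit 346) (nat_lit 184))))))))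
noncomputable def xc216 : XT := (XT.nd (nat_lit 1248) (nat_lit 456) (nat_lit 0) (XT.nd (nat_lit 624) (nat_lit 456) (nat_lit 0) (XT.nd (nat_lit 312) (nat_lit 76) (nat_lit 0) (XT.nd (nat_lit 156) (nat_lit 228) (nat_lit 0) (XT.nd (nat_lit 78) (nat_lit 76) (nat_lit 0) (XT.lf (nat_lit 0) (nat_lit 251947780343) (nat_lit 152) (nat_lit 29299698083) (nat_lit 228) (nat_lit 159754413052) (nat_lit 22) (nat_lit 5) (nat_lit 24) (nat_lit 5) (nat_lit 25) (nat_lit 5) (nat_lit 371) (nat_lit 346) (nat_lit 183)) (XT.lf (nat_lit 0) (nat_lit 31212217497) (nat_lit 76) (nat_lit 354889195737) (nat_lit 152) (nat_lit 78867795877) (nat_lit 21) (nat_lit 5) (nat_lit 22) (nat_lit 5) (nat_lit 23) (nat_lit 4) (nat_lit 372) (nat_lit 346) (nat_lit 182))) (XT.nd (nat_lit 78) (nat_lit 152) (nat_lit 0) (XT.lf (nat_lit 0) (nat_lit 14129349486) (nat_lit 152) (nat_lit 211688458517) (nat_lit 76) (nat_lit 264534626684) (nat_lit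 20) (nat_lit 5) (nat_lit 22) (nat_lit 5) (nat_lit 21) (nat_lit 5) (nat_lit 373) (nat_lit 346) (nat_lit 181)) (XT.lf (nat_lit 0) (nat_lit 27471142277) (nat_lit 152) (nat_lit 83494825329) (nat_lit 228) (nat_lit 406583620784) (nat_lit 18) (nat_lit 5) (nat_lit 20) (nat_lit 5) (nat_lit 21) (nat_lit 5) (nat_lit 374) (nat_lit 346) (nat_lit 180)))) (XT.nd (nat_lit 156) (nat_lit 0) (nat_lit 0) (XT.nd (nat_lit 78) (nat_lit 76) (nat_lit 0) (XT.lf (nat_lit 0) (nat_lit 223176367446) (nat_lit 228) (nat_lit 250496162351) (nat_lit 76) (nat_lit 72639836473) (nat_lit 18) (nat_lit 5) (nat_lit 21) (nat_lit 5) (nat_lit 19) (nat_lit 4) (nat_lit 375) (nat_lit 346) (nat_lit 179)) (XT.lf (nat_lit 0) (nat_lit 6404263455) (nat_lit 76) (nat_lit 340281990765) (nat_lit 152) (nat_lit 230504099820) (nat_lit 17) (nat_lit 5) (nat_lit 18) (nat_lit 5) (nat_lit 19) (nat_lit 4) (nat_lit 376) (nat_lit 346) (nat_lit 178)))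 (XT.nd (nat_lit 78) (nat_lit 0) (nat_lit 0) (XT.lf (nat_lit 0) (nat_lit 298102553759) (nat_lit 76) (nat_lit 188823324843) (nat_lit 152) (nat_lit 123064786548) (nat_lit 17) (nat_lit 5) (nat_lit 18) (nat_lit 5) (nat_lit 19) (nat_lit 4) (nat_lit 377) (nat_lit 346) (nat_lit 177)) (XT.lf (nat_lit 0) (nat_lit 613136607029) (nat_lit 76) (nat_lit 25248008193) (nat_lit 152) (nat_lit 7030390592) (nat_lit 17) (nat_lit 5) (nat_lit 18) (nat_lit 5) (nat_lit 19) (nat_lit 4) (nat_lit 378) (nat_lit 346) (nat_lit 176))))) (XT.nd (nat_lit 312) (nat_lit 228) (nat_lit 0) (XT.nd (nat_lit 156) (nat_lit 76) (nat_lit 0) (XT.nd (nat_lit 78) (nat_lit 0) (nat_lit 0) (XT.lf (nat_lit 0) (nat_lit 123016207532) (nat_lit 152) (nat_lit 405888790854) (nat_lit 76) (nat_lit 153688980786) (nat_lit 15) (nat_lit 5) (nat_lit 17) (nat_lit 5) (nat_lit 16) (nat_lit 4) (nat_lit 379) (nat_lit 346) (nat_lit 175)) (XT.lf (nat_lit 0)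 (nat_lit 264647920177) (nat_lit 152) (nat_lit 111294922939) (nat_lit 76) (nat_lit 346664921889) (nat_lit 15) (nat_lit 5) (nat_lit 17) (nat_lit 5) (nat_lit 16) (nat_lit 4) (nat_lit 380) (nat_lit 346) (nat_lit 174))) (XT.nd (nat_lit 78) (nat_lit 0) (nat_lit 0) (XT.lf (nat_lit 0) (nat_lit 217759581095) (nat_lit 76) (nat_lit 205087661885) (nat_lit 152) (nat_lit 342556444909) (nat_lit 14) (nat_lit 5) (nat_lit 15) (nat_lit 5) (nat_lit 16) (nat_lit 4) (nat_lit 381) (nat_lit 346) (nat_lit 173)) (XT.lf (nat_lit 0) (nat_lit 579467799110) (nat_lit 76) (nat_lit 17277664512) (nat_lit 152) (nat_lit 214634384851) (nat_lit 14) (nat_lit 5) (nat_lit 15) (nat_lit 5) (nat_lit 16) (nat_lit 4) (nat_lit 382) (nat_lit 346) (nat_lit 172)))) (XT.nd (nat_lit 156) (nat_lit 76) (nat_lit 0) (XT.nd (nat_lit 78) (nat_lit 76) (nat_lit 0) (XT.lf (nat_lit 0) (nat_lit 110124720150) (nat_lit 76) (nat_lit 681541931748) (nat_lit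 76) (nat_lit 68798561238) (nat_lit 13) (nat_lit 4) (nat_lit 14) (nat_lit 5) (nat_lit 14) (nat_lit 4) (nat_lit 383) (nat_lit 346) (nat_lit 171)) (XT.lf (nat_lit 0) (nat_lit 91221098344) (nat_lit 152) (nat_lit 423003550190) (nat_lit 76) (nat_lit 398525746765) (nat_lit 12) (nat_lit 5) (nat_lit 14) (nat_lit 5) (nat_lit 13) (nat_lit 4) (nat_lit 384) (nat_lit 346) (nat_lit 170))) (XT.nd (nat_lit 78) (nat_lit 76) (nat_lit 0) (XT.lf (nat_lit 0) (nat_lit 260325379340) (nat_lit 152) (nat_lit 71266705198) (nat_lit 76) (nat_lit 637483352837) (nat_lit 12) (nat_lit 5) (nat_lit 14) (nat_lit 5) (nat_lit 13) (nat_lit 4) (nat_lit 385) (nat_lit 346) (nat_lit 169)) (XT.lf (nat_lit 0) (nat_lit 324859819385) (nat_lit 76) (nat_lit 125911030943) (nat_lit 152) (nat_lit 578510604710) (nat_lit 11) (nat_lit 5) (nat_lit 12) (nat_lit 5) (nat_lit 13) (nat_lit 4) (nat_lit 386) (nat_lit 346) (nat_lit 168)))))) (XT.nd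 (nat_lit 624) (nat_lit 228) (nat_lit 0) (XT.nd (nat_lit 312) (nat_lit 76) (nat_lit 0) (XT.nd (nat_lit 156) (nat_lit 76) (nat_lit 0) (XT.nd (nat_lit 78) (nat_lit 76) (nat_lit 0) (XT.lf (nat_lit 0) (nat_lit 660765292085) (nat_lit 152) (nat_lit 339783488777) (nat_lit 0) (nat_lit 93410106628) (nat_lit 11) (nat_lit 5) (nat_lit 13) (nat_lit 4) (nat_lit 11) (nat_lit 4) (nat_lit 387) (nat_lit 346) (nat_lit 167)) (XT.lf (nat_lit 0) (nat_lit 53427906792) (nat_lit 76) (nat_lit 838686705543) (nat_lit 76) (nat_lit 271331476367) (nat_lit 10) (nat_lit 4) (nat_lit 11) (nat_lit 5) (nat_lit 11) (nat_lit 4) (nat_lit 388) (nat_lit 346) (nat_lit 166))) (XT.nd (nat_lit 78) (nat_lit 76) (nat_lit 0) (XT.lf (nat_lit 0) (nat_lit 497419936831) (nat_lit 76) (nat_lit 653842189503) (nat_lit 76) (nat_lit 86486919846) (nat_lit 10) (nat_lit 4) (nat_lit 11) (nat_lit 5) (nat_lit 11) (nat_lit 4) (nat_lit 389) (nat_lit 346)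 (nat_lit 165)) (XT.lf (nat_lit 0) (nat_lit 107485187102) (nat_lit 152) (nat_lit 343786117964) (nat_lit 76) (nat_lit 866507246251) (nat_lit 9) (nat_lit 5) (nat_lit 11) (nat_lit 5) (nat_lit 10) (nat_lit 4) (nat_lit 390) (nat_lit 346) (nat_lit 164)))) (XT.nd (nat_lit 156) (nat_lit 0) (nat_lit 0) (XT.nd (nat_lit 78) (nat_lit 0) (nat_lit 0) (XT.lf (nat_lit 0) (nat_lit 86564130036) (nat_lit 76) (nat_lit 227820231444) (nat_lit 152) (nat_lit 1089479795203) (nat_lit 8) (nat_lit 5) (nat_lit 9) (nat_lit 5) (nat_lit 10) (nat_lit 4) (nat_lit 391) (nat_lit 346) (nat_lit 163)) (XT.lf (nat_lit 0) (nat_lit 547804151891) (nat_lit 152) (nat_lit 925759862122) (nat_lit 0) (nat_lit 22475101911) (nat_lit 8) (nat_lit 5) (nat_lit 10) (nat_lit 4) (nat_lit 8) (nat_lit 4) (nat_lit 392) (nat_lit 346) (nat_lit 162))) (XT.nd (nat_lit 78) (nat_lit 0) (nat_lit 0) (XT.lf (nat_lit 0) (nat_lit 805814906195) (nat_lit 152)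 (nat_lit 508813946604) (nat_lit 0) (nat_lit 280485828665) (nat_lit 8) (nat_lit 5) (nat_lit 10) (nat_lit 4) (nat_lit 8) (nat_lit 4) (nat_lit 393) (nat_lit 346) (nat_lit 161)) (XT.lf (nat_lit 0) (nat_lit 1084466494965) (nat_lit 152) (nat_lit 58512407438) (nat_lit 0) (nat_lit 559137391925) (nat_lit 8) (nat_lit 5) (nat_lit 10) (nat_lit 4) (nat_lit 8) (nat_lit 4) (nat_lit 394) (nat_lit 346) (nat_lit 160))))) (XT.nd (nat_lit 312) (nat_lit 0) (nat_lit 0) (XT.nd (nat_lit 156) (nat_lit 152) (nat_lit 0) (XT.nd (nat_lit 78) (nat_lit 0) (nat_lit 0) (XT.lf (nat_lit 0) (nat_lit 450341094374) (nat_lit 76) (nat_lit 945899806652) (nat_lit 76) (nat_lit 420570679992) (nat_lit 7) (nat_lit 4) (nat_lit 8) (nat_lit 5) (nat_lit 8) (nat_lit 4) (nat_lit 395) (nat_lit 346) (nat_lit 159)) (XT.lf (nat_lit 0) (nat_lit 1003230484032) (nat_lit 76) (nat_lit 731326585188) (nat_lit 76) (nat_lit 205997436658) (nat_lit 7)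 (nat_lit 4) (nat_lit 8) (nat_lit 5) (nat_lit 8) (nat_lit 4) (nat_lit 396) (nat_lit 346) (nat_lit 158))) (XT.nd (nat_lit 78) (nat_lit 76) (nat_lit 0) (XT.lf (nat_lit 0) (nat_lit 24453941639) (nat_lit 152) (nat_lit 474464970170) (nat_lit 76) (nat_lit 1575228427681) (nat_lit 6) (nat_lit 5) (nat_lit 8) (nat_lit 5) (nat_lit 7) (nat_lit 4) (nat_lit 397) (nat_lit 346) (nat_lit 157)) (XT.lf (nat_lit 0) (nat_lit 21129149019) (nat_lit 76) (nat_lit 241591205091) (nat_lit 152) (nat_lit 1955238548182) (nat_lit 5) (nat_lit 5) (nat_lit 6) (nat_lit 5) (nat_lit 7) (nat_lit 4) (nat_lit 398) (nat_lit 346) (nat_lit 156)))) (XT.nd (nat_lit 156) (nat_lit 0) (nat_lit 0) (XT.nd (nat_lit 78) (nat_lit 0) (nat_lit 0) (XT.lf (nat_lit 0) (nat_lit 534231288195) (nat_lit 152) (nat_lit 1790094087500) (nat_lit 0) (nat_lit 47815357739) (nat_lit 5) (nat_lit 5) (nat_lit 7) (nat_lit 4) (nat_lit 5) (nat_lit 4) (nat_lit 399)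 (nat_lit 346) (nat_lit 155)) (XT.lf (nat_lit 0) (nat_lit 833738174423) (nat_lit 152) (nat_lit 1357094701376) (nat_lit 0) (nat_lit 347322229083) (nat_lit 5) (nat_lit 5) (nat_lit 7) (nat_lit 4) (nat_lit 5) (nat_lit 4) (nat_lit 400) (nat_lit 346) (nat_lit 154))) (XT.nd (nat_lit 78) (nat_lit 0) (nat_lit 0) (XT.lf (nat_lit 0) (nat_lit 1157205594124) (nat_lit 152) (nat_lit 889455398321) (nat_lit 0) (nat_lit 670789635001) (nat_lit 5) (nat_lit 5) (nat_lit 7) (nat_lit 4) (nat_lit 5) (nat_lit 4) (nat_lit 401) (nat_lit 346) (nat_lit 153)) (XT.lf (nat_lit 0) (nat_lit 1506550391265) (nat_lit 152) (nat_lit 384404982464) (nat_lit 0) (nat_lit 1020134419382) (nat_lit 5) (nat_lit 5) (nat_lit 7) (nat_lit 4) (nat_lit 5) (nat_lit 4) (nat_lit 402) (nat_lit 346) (nat_lit 152)))))))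
noncomputable def xc217 : XT := (XT.nd (nat_lit 43680) (nat_lit 0) (nat_lit 988) (XT.nd (nat_lit 43056) (nat_lit 0) (nat_lit 2508) (XT.nd (nat_lit 42744) (nat_lit 0) (nat_lit 3648) (XT.nd (nat_lit 42588) (nat_lit 0) (nat_lit 3572) (XT.nd (nat_lit 42510) (nat_lit 0) (nat_lit 3572) (XT.lf (nat_lit 0) (nat_lit 169530015524) (nat_lit 76) (nat_lit 1718389942665) (nat_lit 76) (nat_lit 1231973958965) (nat_lit 4) (nat_lit 4) (nat_lit 5) (nat_lit 5) (nat_lit 5) (nat_lit 4) (nat_lit 403) (nat_lit 346) (nat_lit 151)) (XT.lf (nat_lit 0) (nat_lit 55470837453) (nat_lit 532) (nat_lit 10218462948) (nat_lit 532) (nat_lit 10218462948) (nat_lit 51) (nat_lit 3) (nat_lit 58) (nat_lit 3) (nat_lit 58) (nat_lit 5) (nat_lit 347) (nat_lit 347) (nat_lit 206))) (XT.nd (nat_lit 78) (nat_lit 0) (nat_lit 76) (XT.lf (nat_lit 76) (nat_lit 53408671613) (nat_lit 0) (nat_lit 63257770358) (nat_lit 532) (nat_lit 41118732136)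 (nat_lit 52) (nat_lit 5) (nat_lit 51) (nat_lit 3) (nat_lit 58) (nat_lit 5) (nat_lit 348) (nat_lit 347) (nat_lit 205)) (XT.lf (nat_lit 0) (nat_lit 123670244366) (nat_lit 456) (nat_lit 30126216831) (nat_lit 532) (nat_lit 10370248360) (nat_lit 52) (nat_lit 5) (nat_lit 58) (nat_lit 5) (nat_lit 59) (nat_lit 5) (nat_lit 349) (nat_lit 347) (nat_lit 204)))) (XT.nd (nat_lit 156) (nat_lit 0) (nat_lit 76) (XT.nd (nat_lit 78) (nat_lit 0) (nat_lit 0) (XT.lf (nat_lit 76) (nat_lit 50970628953) (nat_lit 0) (nat_lit 83132382359) (nat_lit 532) (nat_lit 36726264228) (nat_lit 53) (nat_lit 5) (nat_lit 52) (nat_lit 5) (nat_lit 59) (nat_lit 5) (nat_lit 350) (nat_lit 347) (nat_lit 203)) (XT.lf (nat_lit 76) (nat_lit 140268370070) (nat_lit 0) (nat_lit 5925504495) (nat_lit 532) (nat_lit 31765094723) (nat_lit 53) (nat_lit 5) (nat_lit 52) (nat_lit 5) (nat_lit 59) (nat_lit 5) (nat_lit 351) (nat_lit 347) (nat_lit 202)))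 (XT.nd (nat_lit 78) (nat_lit 0) (nat_lit 0) (XT.lf (nat_lit 76) (nat_lit 51778008307) (nat_lit 0) (nat_lit 110581915225) (nat_lit 532) (nat_lit 23050482121) (nat_lit 54) (nat_lit 5) (nat_lit 53) (nat_lit 5) (nat_lit 60) (nat_lit 5) (nat_lit 352) (nat_lit 347) (nat_lit 201)) (XT.lf (nat_lit 76) (nat_lit 150385428195) (nat_lit 0) (nat_lit 30614169901) (nat_lit 532) (nat_lit 12363931915) (nat_lit 54) (nat_lit 5) (nat_lit 53) (nat_lit 5) (nat_lit 60) (nat_lit 5) (nat_lit 353) (nat_lit 347) (nat_lit 200))))) (XT.nd (nat_lit 312) (nat_lit 456) (nat_lit 0) (XT.nd (nat_lit 156) (nat_lit 304) (nat_lit 0) (XT.nd (nat_lit 78) (nat_lit 0) (nat_lit 0) (XT.lf (nat_lit 0) (nat_lit 1986020328) (nat_lit 532) (nat_lit 145378015357) (nat_lit 76) (nat_lit 54369064569) (nat_lit 47) (nat_lit 5) (nat_lit 54) (nat_lit 5) (nat_lit 48) (nat_lit 5) (nat_lit 354) (nat_lit 347) (nat_lit 199)) (XT.lf (nat_lit 0) (nat_lit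 18816609610) (nat_lit 532) (nat_lit 45746105277) (nat_lit 76) (nat_lit 146023781126) (nat_lit 47) (nat_lit 5) (nat_lit 54) (nat_lit 5) (nat_lit 48) (nat_lit 5) (nat_lit 355) (nat_lit 347) (nat_lit 198))) (XT.nd (nat_lit 78) (nat_lit 0) (nat_lit 0) (XT.lf (nat_lit 0) (nat_lit 39198084402) (nat_lit 380) (nat_lit 155548084186) (nat_lit 76) (nat_lit 25225640081) (nat_lit 43) (nat_lit 5) (nat_lit 48) (nat_lit 5) (nat_lit 44) (nat_lit 5) (nat_lit 356) (nat_lit 347) (nat_lit 197)) (XT.lf (nat_lit 0) (nat_lit 64170141623) (nat_lit 380) (nat_lit 45708729438) (nat_lit 76) (nat_lit 119992270403) (nat_lit 43) (nat_lit 5) (nat_lit 48) (nat_lit 5) (nat_lit 44) (nat_lit 5) (nat_lit 357) (nat_lit 347) (nat_lit 196)))) (XT.nd (nat_lit 156) (nat_lit 228) (nat_lit 0) (XT.nd (nat_lit 78) (nat_lit 0) (nat_lit 0) (XT.lf (nat_lit 0) (nat_lit 76757332416) (nat_lit 228) (nat_lit 16228501735) (nat_lit 304) (nat_lit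 147428917336) (nat_lit 40) (nat_lit 5) (nat_lit 43) (nat_lit 5) (nat_lit 44) (nat_lit 5) (nat_lit 358) (nat_lit 347) (nat_lit 195)) (XT.lf (nat_lit 0) (nat_lit 127431044132) (nat_lit 304) (nat_lit 42156498029) (nat_lit 76) (nat_lit 81948367431) (nat_lit 40) (nat_lit 5) (nat_lit 44) (nat_lit 5) (nat_lit 41) (nat_lit 5) (nat_lit 359) (nat_lit 347) (nat_lit 194))) (XT.nd (nat_lit 78) (nat_lit 0) (nat_lit 0) (XT.lf (nat_lit 0) (nat_lit 93310602348) (nat_lit 228) (nat_lit 73986782426) (nat_lit 304) (nat_lit 96036134686) (nat_lit 37) (nat_lit 5) (nat_lit 40) (nat_lit 5) (nat_lit 41) (nat_lit 5) (nat_lit 360) (nat_lit 347) (nat_lit 193)) (XT.lf (nat_lit 0) (nat_lit 212239234805) (nat_lit 304) (nat_lit 34704025231) (nat_lit 76) (nat_lit 28980782117) (nat_lit 37) (nat_lit 5) (nat_lit 41) (nat_lit 5) (nat_lit 38) (nat_lit 5) (nat_lit 361) (nat_lit 347) (nat_lit 192)))))) (XT.nd (nat_lit 624) (nat_lit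 532) (nat_lit 0) (XT.nd (nat_lit 312) (nat_lit 532) (nat_lit 0) (XT.nd (nat_lit 156) (nat_lit 228) (nat_lit 0) (XT.nd (nat_lit 78) (nat_lit 76) (nat_lit 0) (XT.lf (nat_lit 0) (nat_lit 115285550297) (nat_lit 152) (nat_lit 150185124004) (nat_lit 228) (nat_lit 23675593237) (nat_lit 35) (nat_lit 5) (nat_lit 37) (nat_lit 5) (nat_lit 38) (nat_lit 5) (nat_lit 362) (nat_lit 347) (nat_lit 191)) (XT.lf (nat_lit 0) (nat_lit 19530574469) (nat_lit 228) (nat_lit 24597014230) (nat_lit 76) (nat_lit 259183225944) (nat_lit 34) (nat_lit 5) (nat_lit 37) (nat_lit 5) (nat_lit 35) (nat_lit 5) (nat_lit 363) (nat_lit 347) (nat_lit 190))) (XT.nd (nat_lit 78) (nat_lit 0) (nat_lit 0) (XT.lf (nat_lit 0) (nat_lit 70155757010) (nat_lit 304) (nat_lit 176928943698) (nat_lit 76) (nat_lit 71055299452) (nat_lit 31) (nat_lit 5) (nat_lit 35) (nat_lit 5) (nat_lit 32) (nat_lit 5) (nat_lit 364) (nat_lit 347) (nat_lit 189)) (XT.lf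 (nat_lit 0) (nat_lit 126667020044) (nat_lit 304) (nat_lit 13582869649) (nat_lit 76) (nat_lit 193758745694) (nat_lit 31) (nat_lit 5) (nat_lit 35) (nat_lit 5) (nat_lit 32) (nat_lit 5) (nat_lit 365) (nat_lit 347) (nat_lit 188)))) (XT.nd (nat_lit 156) (nat_lit 228) (nat_lit 0) (XT.nd (nat_lit 78) (nat_lit 152) (nat_lit 0) (XT.lf (nat_lit 0) (nat_lit 171405141284) (nat_lit 152) (nat_lit 20416248561) (nat_lit 228) (nat_lit 158995595261) (nat_lit 29) (nat_lit 5) (nat_lit 31) (nat_lit 5) (nat_lit 32) (nat_lit 5) (nat_lit 366) (nat_lit 347) (nat_lit 187)) (XT.lf (nat_lit 0) (nat_lit 413738887) (nat_lit 152) (nat_lit 264786808441) (nat_lit 228) (nat_lit 103528460548) (nat_lit 27) (nat_lit 5) (nat_lit 29) (nat_lit 5) (nat_lit 30) (nat_lit 5) (nat_lit 367) (nat_lit 347) (nat_lit 186))) (XT.nd (nat_lit 78) (nat_lit 228) (nat_lit 0) (XT.lf (nat_lit 0) (nat_lit 204270334215) (nat_lit 152) (nat_lit 145601922398)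 (nat_lit 228) (nat_lit 37767958431) (nat_lit 27) (nat_lit 5) (nat_lit 29) (nat_lit 5) (nat_lit 30) (nat_lit 5) (nat_lit 368) (nat_lit 347) (nat_lit 185)) (XT.lf (nat_lit 0) (nat_lit 16391226211) (nat_lit 152) (nat_lit 15592816668) (nat_lit 228) (nat_lit 375984766191) (nat_lit 24) (nat_lit 5) (nat_lit 26) (nat_lit 5) (nat_lit 27) (nat_lit 5) (nat_lit 369) (nat_lit 347) (nat_lit 184))))) (XT.nd (nat_lit 312) (nat_lit 304) (nat_lit 0) (XT.nd (nat_lit 156) (nat_lit 76) (nat_lit 0) (XT.nd (nat_lit 78) (nat_lit 152) (nat_lit 0) (XT.lf (nat_lit 0) (nat_lit 113421408926) (nat_lit 228) (nat_lit 191074156920) (nat_lit 76) (nat_lit 124697993557) (nat_lit 24) (nat_lit 5) (nat_lit 27) (nat_lit 5) (nat_lit 25) (nat_lit 5) (nat_lit 370) (nat_lit 347) (nat_lit 183)) (XT.lf (nat_lit 0) (nat_lit 26384266783) (nat_lit 152) (nat_lit 176028974546) (nat_lit 228) (nat_lit 249619890350) (nat_lit 22) (nat_lit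 5) (nat_lit 24) (nat_lit 5) (nat_lit 25) (nat_lit 5) (nat_lit 371) (nat_lit 347) (nat_lit 182))) (XT.nd (nat_lit 78) (nat_lit 76) (nat_lit 0) (XT.lf (nat_lit 0) (nat_lit 272105807963) (nat_lit 152) (nat_lit 31642847742) (nat_lit 228) (nat_lit 172533275279) (nat_lit 22) (nat_lit 5) (nat_lit 24) (nat_lit 5) (nat_lit 25) (nat_lit 5) (nat_lit 372) (nat_lit 347) (nat_lit 181)) (XT.lf (nat_lit 0) (nat_lit 33711433876) (nat_lit 76) (nat_lit 383279441518) (nat_lit 152) (nat_lit 85175761137) (nat_lit 21) (nat_lit 5) (nat_lit 22) (nat_lit 5) (nat_lit 23) (nat_lit 4) (nat_lit 373) (nat_lit 347) (nat_lit 180)))) (XT.nd (nat_lit 156) (nat_lit 76) (nat_lit 0) (XT.nd (nat_lit 78) (nat_lit 152) (nat_lit 0) (XT.lf (nat_lit 0) (nat_lit 15260980274) (nat_lit 152) (nat_lit 228621393334) (nat_lit 76) (nat_lit 285698152044) (nat_lit 20) (nat_lit 5) (nat_lit 22) (nat_lit 5) (nat_lit 21) (nat_lit 5) (nat_lit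 374) (nat_lit 347) (nat_lit 179)) (XT.lf (nat_lit 0) (nat_lit 29670921299) (nat_lit 152) (nat_lit 90173561728) (nat_lit 228) (nat_lit 439108972297) (nat_lit 18) (nat_lit 5) (nat_lit 20) (nat_lit 5) (nat_lit 21) (nat_lit 5) (nat_lit 375) (nat_lit 347) (nat_lit 178))) (XT.nd (nat_lit 78) (nat_lit 76) (nat_lit 0) (XT.lf (nat_lit 0) (nat_lit 241031642069) (nat_lit 228) (nat_lit 270533848539) (nat_lit 76) (nat_lit 78451770730) (nat_lit 18) (nat_lit 5) (nat_lit 21) (nat_lit 5) (nat_lit 19) (nat_lit 4) (nat_lit 376) (nat_lit 347) (nat_lit 177)) (XT.nd (nat_lit 78) (nat_lit 0) (nat_lit 0) (XT.lf (nat_lit 0) (nat_lit 6918560526) (nat_lit 76) (nat_lit 367503719987) (nat_lit 152) (nat_lit 248943210833) (nat_lit 17) (nat_lit 5) (nat_lit 18) (nat_lit 5) (nat_lit 19) (nat_lit 4) (nat_lit 377) (nat_lit 347) (nat_lit 176)) (XT.lf (nat_lit 0) (nat_lit 321952569166) (nat_lit 76) (nat_lit 203928422276)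 (nat_lit 152) (nat_lit 132908842645) (nat_lit 17) (nat_lit 5) (nat_lit 18) (nat_lit 5) (nat_lit 19) (nat_lit 4) (nat_lit 378) (nat_lit 347) (nat_lit 175))))))))
noncomputable def xc218 : XT := (XT.nd (nat_lit 1248) (nat_lit 228) (nat_lit 0) (XT.nd (nat_lit 624) (nat_lit 304) (nat_lit 0) (XT.nd (nat_lit 312) (nat_lit 152) (nat_lit 0) (XT.nd (nat_lit 156) (nat_lit 76) (nat_lit 0) (XT.nd (nat_lit 78) (nat_lit 152) (nat_lit 0) (XT.lf (nat_lit 0) (nat_lit 662189212542) (nat_lit 76) (nat_lit 27267137224) (nat_lit 152) (nat_lit 7591778481) (nat_lit 17) (nat_lit 5) (nat_lit 18) (nat_lit 5) (nat_lit 19) (nat_lit 4) (nat_lit 379) (nat_lit 347) (nat_lit 174)) (XT.lf (nat_lit 0) (nat_lit 132858479935) (nat_lit 152) (nat_lit 438358148177) (nat_lit 76) (nat_lit 165984790640) (nat_lit 15) (nat_lit 5) (nat_lit 17) (nat_lit 5) (nat_lit 16) (nat_lit 4) (nat_lit 380) (nat_lit 347) (nat_lit 173))) (XT.nd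 (nat_lit 78) (nat_lit 76) (nat_lit 0) (XT.lf (nat_lit 0) (nat_lit 285820657309) (nat_lit 152) (nat_lit 120196900158) (nat_lit 76) (nat_lit 374398755817) (nat_lit 15) (nat_lit 5) (nat_lit 17) (nat_lit 5) (nat_lit 16) (nat_lit 4) (nat_lit 381) (nat_lit 347) (nat_lit 172)) (XT.lf (nat_lit 0) (nat_lit 235181923272) (nat_lit 76) (nat_lit 221493973632) (nat_lit 152) (nat_lit 369960015464) (nat_lit 14) (nat_lit 5) (nat_lit 15) (nat_lit 5) (nat_lit 16) (nat_lit 4) (nat_lit 382) (nat_lit 347) (nat_lit 171)))) (XT.nd (nat_lit 156) (nat_lit 76) (nat_lit 0) (XT.nd (nat_lit 78) (nat_lit 76) (nat_lit 0) (XT.lf (nat_lit 0) (nat_lit 625826682010) (nat_lit 76) (nat_lit 18659228410) (nat_lit 152) (nat_lit 231804260605) (nat_lit 14) (nat_lit 5) (nat_lit 15) (nat_lit 5) (nat_lit 16) (nat_lit 4) (nat_lit 383) (nat_lit 347) (nat_lit 170)) (XT.lf (nat_lit 0) (nat_lit 118936168250) (nat_lit 76) (nat_lit 736064615355)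 (nat_lit 76) (nat_lit 74301582111) (nat_lit 13) (nat_lit 4) (nat_lit 14) (nat_lit 5) (nat_lit 14) (nat_lit 4) (nat_lit 384) (nat_lit 347) (nat_lit 169))) (XT.nd (nat_lit 78) (nat_lit 0) (nat_lit 0) (XT.lf (nat_lit 0) (nat_lit 98519546216) (nat_lit 152) (nat_lit 456842432186) (nat_lit 76) (nat_lit 430408387285) (nat_lit 12) (nat_lit 5) (nat_lit 14) (nat_lit 5) (nat_lit 13) (nat_lit 4) (nat_lit 385) (nat_lit 347) (nat_lit 168)) (XT.lf (nat_lit 0) (nat_lit 281152113395) (nat_lit 152) (nat_lit 76966743448) (nat_lit 76) (nat_lit 688482558822) (nat_lit 12) (nat_lit 5) (nat_lit 14) (nat_lit 5) (nat_lit 13) (nat_lit 4) (nat_lit 386) (nat_lit 347) (nat_lit 167))))) (XT.nd (nat_lit 312) (nat_lit 152) (nat_lit 0) (XT.nd (nat_lit 156) (nat_lit 76) (nat_lit 0) (XT.nd (nat_lit 78) (nat_lit 0) (nat_lit 0) (XT.lf (nat_lit 0) (nat_lit 350849870237) (nat_lit 76) (nat_lit 135983330130) (nat_lit 152) (nat_lit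 624790716141) (nat_lit 11) (nat_lit 5) (nat_lit 12) (nat_lit 5) (nat_lit 13) (nat_lit 4) (nat_lit 387) (nat_lit 347) (nat_lit 166)) (XT.lf (nat_lit 0) (nat_lit 713627159933) (nat_lit 152) (nat_lit 366964958428) (nat_lit 0) (nat_lit 100883428223) (nat_lit 11) (nat_lit 5) (nat_lit 13) (nat_lit 4) (nat_lit 11) (nat_lit 4) (nat_lit 388) (nat_lit 347) (nat_lit 165))) (XT.nd (nat_lit 78) (nat_lit 0) (nat_lit 0) (XT.lf (nat_lit 0) (nat_lit 57703318167) (nat_lit 76) (nat_lit 905781088248) (nat_lit 76) (nat_lit 293037319056) (nat_lit 10) (nat_lit 4) (nat_lit 11) (nat_lit 5) (nat_lit 11) (nat_lit 4) (nat_lit 389) (nat_lit 347) (nat_lit 164)) (XT.lf (nat_lit 0) (nat_lit 537214623288) (nat_lit 76) (nat_lit 706149051942) (nat_lit 76) (nat_lit 93405248045) (nat_lit 10) (nat_lit 4) (nat_lit 11) (nat_lit 5) (nat_lit 11) (nat_lit 4) (nat_lit 390) (nat_lit 347) (nat_lit 163)))) (XT.nd (nat_lit 156) (nat_lit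 0) (nat_lit 0) (XT.nd (nat_lit 78) (nat_lit 76) (nat_lit 0) (XT.lf (nat_lit 0) (nat_lit 116084552167) (nat_lit 152) (nat_lit 371287967522) (nat_lit 76) (nat_lit 935828271472) (nat_lit 9) (nat_lit 5) (nat_lit 11) (nat_lit 5) (nat_lit 10) (nat_lit 4) (nat_lit 391) (nat_lit 347) (nat_lit 162)) (XT.lf (nat_lit 0) (nat_lit 93490273992) (nat_lit 76) (nat_lit 246045370131) (nat_lit 152) (nat_lit 1176637602161) (nat_lit 8) (nat_lit 5) (nat_lit 9) (nat_lit 5) (nat_lit 10) (nat_lit 4) (nat_lit 392) (nat_lit 347) (nat_lit 161))) (XT.nd (nat_lit 78) (nat_lit 0) (nat_lit 0) (XT.lf (nat_lit 0) (nat_lit 591628988917) (nat_lit 152) (nat_lit 999819683549) (nat_lit 0) (nat_lit 24273532124) (nat_lit 8) (nat_lit 5) (nat_lit 10) (nat_lit 4) (nat_lit 8) (nat_lit 4) (nat_lit 393) (nat_lit 347) (nat_lit 160)) (XT.lf (nat_lit 0) (nat_lit 870280566167) (nat_lit 152) (nat_lit 549518166459) (nat_lit 0) (nat_lit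 302925085755) (nat_lit 8) (nat_lit 5) (nat_lit 10) (nat_lit 4) (nat_lit 8) (nat_lit 4) (nat_lit 394) (nat_lit 347) (nat_lit 159)))))) (XT.nd (nat_lit 624) (nat_lit 0) (nat_lit 0) (XT.nd (nat_lit 312) (nat_lit 76) (nat_lit 0) (XT.nd (nat_lit 156) (nat_lit 76) (nat_lit 0) (XT.nd (nat_lit 78) (nat_lit 76) (nat_lit 0) (XT.lf (nat_lit 0) (nat_lit 1171224247411) (nat_lit 152) (nat_lit 63192570521) (nat_lit 0) (nat_lit 603868745128) (nat_lit 8) (nat_lit 5) (nat_lit 10) (nat_lit 4) (nat_lit 8) (nat_lit 4) (nat_lit 395) (nat_lit 347) (nat_lit 158)) (XT.lf (nat_lit 0) (nat_lit 486369190436) (nat_lit 76) (nat_lit 1021571402902) (nat_lit 76) (nat_lit 454215880369) (nat_lit 7) (nat_lit 4) (nat_lit 8) (nat_lit 5) (nat_lit 8) (nat_lit 4) (nat_lit 396) (nat_lit 347) (nat_lit 157))) (XT.nd (nat_lit 78) (nat_lit 76) (nat_lit 0) (XT.lf (nat_lit 0) (nat_lit 1083489671377) (nat_lit 76) (nat_lit 789832352484)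 (nat_lit 76) (nat_lit 222476811200) (nat_lit 7) (nat_lit 4) (nat_lit 8) (nat_lit 5) (nat_lit 8) (nat_lit 4) (nat_lit 397) (nat_lit 347) (nat_lit 156)) (XT.lf (nat_lit 0) (nat_lit 26410626749) (nat_lit 152) (nat_lit 512421455006) (nat_lit 76) (nat_lit 1701247015175) (nat_lit 6) (nat_lit 5) (nat_lit 8) (nat_lit 5) (nat_lit 7) (nat_lit 4) (nat_lit 398) (nat_lit 347) (nat_lit 155)))) (XT.nd (nat_lit 156) (nat_lit 0) (nat_lit 0) (XT.nd (nat_lit 78) (nat_lit 0) (nat_lit 0) (XT.lf (nat_lit 0) (nat_lit 22820175674) (nat_lit 76) (nat_lit 260918165861) (nat_lit 152) (nat_lit 2111657244085) (nat_lit 5) (nat_lit 5) (nat_lit 6) (nat_lit 5) (nat_lit 7) (nat_lit 4) (nat_lit 399) (nat_lit 347) (nat_lit 154)) (XT.lf (nat_lit 0) (nat_lit 576970131222) (nat_lit 152) (nat_lit 1933300951985) (nat_lit 0) (nat_lit 51640881587) (nat_lit 5) (nat_lit 5) (nat_lit 7) (nat_lit 4) (nat_lit 5) (nat_lit 4) (nat_lit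 400) (nat_lit 347) (nat_lit 153))) (XT.nd (nat_lit 78) (nat_lit 0) (nat_lit 0) (XT.lf (nat_lit 0) (nat_lit 900437543165) (nat_lit 152) (nat_lit 1465661664047) (nat_lit 0) (nat_lit 375108280769) (nat_lit 5) (nat_lit 5) (nat_lit 7) (nat_lit 4) (nat_lit 5) (nat_lit 4) (nat_lit 401) (nat_lit 347) (nat_lit 152)) (XT.lf (nat_lit 0) (nat_lit 1249782333124) (nat_lit 152) (nat_lit 960611262187) (nat_lit 0) (nat_lit 724453058912) (nat_lit 5) (nat_lit 5) (nat_lit 7) (nat_lit 4) (nat_lit 5) (nat_lit 4) (nat_lit 402) (nat_lit 347) (nat_lit 151))))) (XT.nd (nat_lit 42822) (nat_lit 0) (nat_lit 3192) (XT.nd (nat_lit 42666) (nat_lit 0) (nat_lit 3496) (XT.nd (nat_lit 42588) (nat_lit 0) (nat_lit 3496) (XT.lf (nat_lit 0) (nat_lit 1627074692446) (nat_lit 152) (nat_lit 415156855136) (nat_lit 0) (nat_lit 1101745407294) (nat_lit 5) (nat_lit 5) (nat_lit 7) (nat_lit 4) (nat_lit 5) (nat_lit 4) (nat_lit 403) (nat_lit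 347) (nat_lit 150)) (XT.lf (nat_lit 0) (nat_lit 59911061665) (nat_lit 532) (nat_lit 11034556329) (nat_lit 532) (nat_lit 11034556329) (nat_lit 51) (nat_lit 3) (nat_lit 58) (nat_lit 3) (nat_lit 58) (nat_lit 5) (nat_lit 348) (nat_lit 348) (nat_lit 204))) (XT.nd (nat_lit 78) (nat_lit 0) (nat_lit 76) (XT.lf (nat_lit 76) (nat_lit 57684062593) (nat_lit 0) (nat_lit 68320495189) (nat_lit 532) (nat_lit 44403036001) (nat_lit 52) (nat_lit 5) (nat_lit 51) (nat_lit 3) (nat_lit 58) (nat_lit 5) (nat_lit 349) (nat_lit 348) (nat_lit 203)) (XT.lf (nat_lit 0) (nat_lit 133568261945) (nat_lit 456) (nat_lit 32533404839) (nat_lit 532) (nat_lit 11198018237) (nat_lit 52) (nat_lit 5) (nat_lit 58) (nat_lit 5) (nat_lit 59) (nat_lit 5) (nat_lit 350) (nat_lit 348) (nat_lit 202)))) (XT.nd (nat_lit 156) (nat_lit 380) (nat_lit 0) (XT.nd (nat_lit 78) (nat_lit 0) (nat_lit 0) (XT.lf (nat_lit 76) (nat_lit 55051114954) (nat_lit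 0) (nat_lit 89784277710) (nat_lit 532) (nat_lit 39659884924) (nat_lit 53) (nat_lit 5) (nat_lit 52) (nat_lit 5) (nat_lit 59) (nat_lit 5) (nat_lit 351) (nat_lit 348) (nat_lit 201)) (XT.lf (nat_lit 76) (nat_lit 151492465310) (nat_lit 0) (nat_lit 6400752969) (nat_lit 532) (nat_lit 34302153743) (nat_lit 53) (nat_lit 5) (nat_lit 52) (nat_lit 5) (nat_lit 59) (nat_lit 5) (nat_lit 352) (nat_lit 348) (nat_lit 200))) (XT.nd (nat_lit 78) (nat_lit 456) (nat_lit 0) (XT.lf (nat_lit 76) (nat_lit 55923143294) (nat_lit 0) (nat_lit 119429166594) (nat_lit 532) (nat_lit 24890633312) (nat_lit 54) (nat_lit 5) (nat_lit 53) (nat_lit 5) (nat_lit 60) (nat_lit 5) (nat_lit 353) (nat_lit 348) (nat_lit 199)) (XT.nd (nat_lit 78) (nat_lit 456) (nat_lit 0) (XT.lf (nat_lit 76) (nat_lit 162418942378) (nat_lit 0) (nat_lit 33063949928) (nat_lit 532) (nat_lit 13349447043) (nat_lit 54) (nat_lit 5) (nat_lit 53) (nat_lit 5) (nat_lit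 60) (nat_lit 5) (nat_lit 354) (nat_lit 348) (nat_lit 198)) (XT.lf (nat_lit 0) (nat_lit 2148124659) (nat_lit 532) (nat_lit 157005187538) (nat_lit 76) (nat_lit 58718172299) (nat_lit 47) (nat_lit 5) (nat_lit 54) (nat_lit 5) (nat_lit 48) (nat_lit 5) (nat_lit 355) (nat_lit 348) (nat_lit 197))))))))
noncomputable def xc219 : XT := (XT.nd (nat_lit 1248) (nat_lit 988) (nat_lit 0) (XT.nd (nat_lit 624) (nat_lit 836) (nat_lit 0) (XT.nd (nat_lit 312) (nat_lit 380) (nat_lit 0) (XT.nd (nat_lit 156) (nat_lit 228) (nat_lit 0) (XT.nd (nat_lit 78) (nat_lit 304) (nat_lit 0) (XT.lf (nat_lit 0) (nat_lit 20324922365) (nat_lit 532) (nat_lit 49402951989) (nat_lit 76) (nat_lit 157705297101) (nat_lit 47) (nat_lit 5) (nat_lit 54) (nat_lit 5) (nat_lit 48) (nat_lit 5) (nat_lit 356) (nat_lit 348) (nat_lit 196)) (XT.lf (nat_lit 0) (nat_lit 42336759280) (nat_lit 380) (nat_lit 167988928239) (nat_lit 76) (nat_lit 27243634483)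 (nat_lit 43) (nat_lit 5) (nat_lit 48) (nat_lit 5) (nat_lit 44) (nat_lit 5) (nat_lit 357) (nat_lit 348) (nat_lit 195))) (XT.nd (nat_lit 78) (nat_lit 228) (nat_lit 0) (XT.lf (nat_lit 0) (nat_lit 69306371588) (nat_lit 380) (nat_lit 49362647532) (nat_lit 76) (nat_lit 129591599439) (nat_lit 43) (nat_lit 5) (nat_lit 48) (nat_lit 5) (nat_lit 44) (nat_lit 5) (nat_lit 358) (nat_lit 348) (nat_lit 194)) (XT.lf (nat_lit 0) (nat_lit 82900628884) (nat_lit 228) (nat_lit 17526561834) (nat_lit 304) (nat_lit 159220537321) (nat_lit 40) (nat_lit 5) (nat_lit 43) (nat_lit 5) (nat_lit 44) (nat_lit 5) (nat_lit 359) (nat_lit 348) (nat_lit 193)))) (XT.nd (nat_lit 156) (nat_lit 152) (nat_lit 0) (XT.nd (nat_lit 78) (nat_lit 228) (nat_lit 0) (XT.lf (nat_lit 0) (nat_lit 137627837964) (nat_lit 304) (nat_lit 45526325139) (nat_lit 76) (nat_lit 88504430375) (nat_lit 40) (nat_lit 5) (nat_lit 44) (nat_lit 5) (nat_lit 41)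 (nat_lit 5) (nat_lit 360) (nat_lit 348) (nat_lit 192)) (XT.lf (nat_lit 0) (nat_lit 100778075098) (nat_lit 228) (nat_lit 79905302747) (nat_lit 304) (nat_lit 103716643232) (nat_lit 37) (nat_lit 5) (nat_lit 40) (nat_lit 5) (nat_lit 41) (nat_lit 5) (nat_lit 361) (nat_lit 348) (nat_lit 191))) (XT.nd (nat_lit 78) (nat_lit 152) (nat_lit 0) (XT.lf (nat_lit 0) (nat_lit 229220422150) (nat_lit 304) (nat_lit 37477759892) (nat_lit 76) (nat_lit 31299616121) (nat_lit 37) (nat_lit 5) (nat_lit 41) (nat_lit 5) (nat_lit 38) (nat_lit 5) (nat_lit 362) (nat_lit 348) (nat_lit 190)) (XT.lf (nat_lit 0) (nat_lit 124510916176) (nat_lit 152) (nat_lit 162199369535) (nat_lit 228) (nat_lit 25567523413) (nat_lit 35) (nat_lit 5) (nat_lit 37) (nat_lit 5) (nat_lit 38) (nat_lit 5) (nat_lit 363) (nat_lit 348) (nat_lit 189))))) (XT.nd (nat_lit 312) (nat_lit 380) (nat_lit 0) (XT.nd (nat_lit 156) (nat_lit 152) (nat_lit 0) (XT.nd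 (nat_lit 78) (nat_lit 228) (nat_lit 0) (XT.lf (nat_lit 0) (nat_lit 21094882805) (nat_lit 228) (nat_lit 26562339487) (nat_lit 76) (nat_lit 279918305771) (nat_lit 34) (nat_lit 5) (nat_lit 37) (nat_lit 5) (nat_lit 35) (nat_lit 5) (nat_lit 364) (nat_lit 348) (nat_lit 188)) (XT.lf (nat_lit 0) (nat_lit 75770013349) (nat_lit 304) (nat_lit 191080754156) (nat_lit 76) (nat_lit 76740286449) (nat_lit 31) (nat_lit 5) (nat_lit 35) (nat_lit 5) (nat_lit 32) (nat_lit 5) (nat_lit 365) (nat_lit 348) (nat_lit 187))) (XT.nd (nat_lit 78) (nat_lit 152) (nat_lit 0) (XT.lf (nat_lit 0) (nat_lit 136802044405) (nat_lit 304) (nat_lit 14667179742) (nat_lit 76) (nat_lit 209259966684) (nat_lit 31) (nat_lit 5) (nat_lit 35) (nat_lit 5) (nat_lit 32) (nat_lit 5) (nat_lit 366) (nat_lit 348) (nat_lit 186)) (XT.lf (nat_lit 0) (nat_lit 185119813346) (nat_lit 152) (nat_lit 22048881649) (nat_lit 228) (nat_lit 171713519212) (nat_lit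 29) (nat_lit 5) (nat_lit 31) (nat_lit 5) (nat_lit 32) (nat_lit 5) (nat_lit 367) (nat_lit 348) (nat_lit 185)))) (XT.nd (nat_lit 156) (nat_lit 228) (nat_lit 0) (XT.nd (nat_lit 78) (nat_lit 0) (nat_lit 0) (XT.lf (nat_lit 0) (nat_lit 449152317) (nat_lit 152) (nat_lit 285968985196) (nat_lit 228) (nat_lit 111809065252) (nat_lit 27) (nat_lit 5) (nat_lit 29) (nat_lit 5) (nat_lit 30) (nat_lit 5) (nat_lit 368) (nat_lit 348) (nat_lit 184)) (XT.lf (nat_lit 0) (nat_lit 220614103839) (nat_lit 152) (nat_lit 157249365153) (nat_lit 228) (nat_lit 40787846828) (nat_lit 27) (nat_lit 5) (nat_lit 29) (nat_lit 5) (nat_lit 30) (nat_lit 5) (nat_lit 369) (nat_lit 348) (nat_lit 183))) (XT.nd (nat_lit 78) (nat_lit 0) (nat_lit 0) (XT.lf (nat_lit 0) (nat_lit 17704690132) (nat_lit 152) (nat_lit 16839490143) (nat_lit 228) (nat_lit 406062018794) (nat_lit 24) (nat_lit 5) (nat_lit 26) (nat_lit 5) (nat_lit 27) (nat_lit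 5) (nat_lit 370) (nat_lit 348) (nat_lit 182)) (XT.lf (nat_lit 0) (nat_lit 122496447609) (nat_lit 228) (nat_lit 206357994594) (nat_lit 76) (nat_lit 134674494383) (nat_lit 24) (nat_lit 5) (nat_lit 27) (nat_lit 5) (nat_lit 25) (nat_lit 5) (nat_lit 371) (nat_lit 348) (nat_lit 181)))))) (XT.nd (nat_lit 624) (nat_lit 456) (nat_lit 0) (XT.nd (nat_lit 312) (nat_lit 228) (nat_lit 0) (XT.nd (nat_lit 156) (nat_lit 152) (nat_lit 0) (XT.nd (nat_lit 78) (nat_lit 0) (nat_lit 0) (XT.lf (nat_lit 0) (nat_lit 28497049970) (nat_lit 152) (nat_lit 190110527521) (nat_lit 228) (nat_lit 269588101193) (nat_lit 22) (nat_lit 5) (nat_lit 24) (nat_lit 5) (nat_lit 25) (nat_lit 5) (nat_lit 372) (nat_lit 348) (nat_lit 180)) (XT.lf (nat_lit 0) (nat_lit 293876163196) (nat_lit 152) (nat_lit 34173567239) (nat_lit 228) (nat_lit 186334659167) (nat_lit 22) (nat_lit 5) (nat_lit 24) (nat_lit 5) (nat_lit 25) (nat_lit 5) (nat_lit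 373) (nat_lit 348) (nat_lit 179))) (XT.nd (nat_lit 78) (nat_lit 76) (nat_lit 0) (XT.lf (nat_lit 0) (nat_lit 36410268150) (nat_lit 76) (nat_lit 413941033912) (nat_lit 152) (nat_lit 91988571676) (nat_lit 21) (nat_lit 5) (nat_lit 22) (nat_lit 5) (nat_lit 23) (nat_lit 4) (nat_lit 374) (nat_lit 348) (nat_lit 178)) (XT.lf (nat_lit 0) (nat_lit 16482958515) (nat_lit 152) (nat_lit 246909268497) (nat_lit 76) (nat_lit 308554651692) (nat_lit 20) (nat_lit 5) (nat_lit 22) (nat_lit 5) (nat_lit 21) (nat_lit 5) (nat_lit 375) (nat_lit 348) (nat_lit 177)))) (XT.nd (nat_lit 156) (nat_lit 76) (nat_lit 0) (XT.nd (nat_lit 78) (nat_lit 0) (nat_lit 0) (XT.lf (nat_lit 0) (nat_lit 32046384818) (nat_lit 152) (nat_lit 97386718247) (nat_lit 228) (nat_lit 474236542834) (nat_lit 18) (nat_lit 5) (nat_lit 20) (nat_lit 5) (nat_lit 21) (nat_lit 5) (nat_lit 376) (nat_lit 348) (nat_lit 176)) (XT.lf (nat_lit 0) (nat_lit 260315172429)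 (nat_lit 228) (nat_lit 292174835915) (nat_lit 76) (nat_lit 84728553111) (nat_lit 18) (nat_lit 5) (nat_lit 21) (nat_lit 5) (nat_lit 19) (nat_lit 4) (nat_lit 377) (nat_lit 348) (nat_lit 175))) (XT.nd (nat_lit 78) (nat_lit 0) (nat_lit 0) (XT.lf (nat_lit 0) (nat_lit 7473722318) (nat_lit 76) (nat_lit 396903305962) (nat_lit 152) (nat_lit 268857624342) (nat_lit 17) (nat_lit 5) (nat_lit 18) (nat_lit 5) (nat_lit 19) (nat_lit 4) (nat_lit 378) (nat_lit 348) (nat_lit 174)) (XT.lf (nat_lit 0) (nat_lit 347710327431) (nat_lit 76) (nat_lit 220242037147) (nat_lit 152) (nat_lit 143540583985) (nat_lit 17) (nat_lit 5) (nat_lit 18) (nat_lit 5) (nat_lit 19) (nat_lit 4) (nat_lit 379) (nat_lit 348) (nat_lit 173))))) (XT.nd (nat_lit 312) (nat_lit 228) (nat_lit 0) (XT.nd (nat_lit 156) (nat_lit 76) (nat_lit 0) (XT.nd (nat_lit 78) (nat_lit 152) (nat_lit 0) (XT.lf (nat_lit 0) (nat_lit 715165787260) (nat_lit 76) (nat_lit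 29447898098) (nat_lit 152) (nat_lit 8198226249) (nat_lit 17) (nat_lit 5) (nat_lit 18) (nat_lit 5) (nat_lit 19) (nat_lit 4) (nat_lit 380) (nat_lit 348) (nat_lit 172)) (XT.lf (nat_lit 0) (nat_lit 143487994920) (nat_lit 152) (nat_lit 473425303164) (nat_lit 76) (nat_lit 179264166648) (nat_lit 15) (nat_lit 5) (nat_lit 17) (nat_lit 5) (nat_lit 16) (nat_lit 4) (nat_lit 381) (nat_lit 348) (nat_lit 171))) (XT.nd (nat_lit 78) (nat_lit 76) (nat_lit 0) (XT.lf (nat_lit 0) (nat_lit 308687084515) (nat_lit 152) (nat_lit 129811266182) (nat_lit 76) (nat_lit 404351205131) (nat_lit 15) (nat_lit 5) (nat_lit 17) (nat_lit 5) (nat_lit 16) (nat_lit 4) (nat_lit 382) (nat_lit 348) (nat_lit 170)) (XT.lf (nat_lit 0) (nat_lit 253997828033) (nat_lit 76) (nat_lit 239212890354) (nat_lit 152) (nat_lit 399556006484) (nat_lit 14) (nat_lit 5) (nat_lit 15) (nat_lit 5) (nat_lit 16) (nat_lit 4) (nat_lit 383) (nat_lit 348) (nat_lit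 169)))) (XT.nd (nat_lit 156) (nat_lit 152) (nat_lit 0) (XT.nd (nat_lit 78) (nat_lit 76) (nat_lit 0) (XT.lf (nat_lit 0) (nat_lit 675894067404) (nat_lit 76) (nat_lit 20151410045) (nat_lit 152) (nat_lit 250347851252) (nat_lit 14) (nat_lit 5) (nat_lit 15) (nat_lit 5) (nat_lit 16) (nat_lit 4) (nat_lit 384) (nat_lit 348) (nat_lit 168)) (XT.lf (nat_lit 0) (nat_lit 128452322416) (nat_lit 76) (nat_lit 794949209366) (nat_lit 76) (nat_lit 80244967916) (nat_lit 13) (nat_lit 4) (nat_lit 14) (nat_lit 5) (nat_lit 14) (nat_lit 4) (nat_lit 385) (nat_lit 348) (nat_lit 167))) (XT.nd (nat_lit 78) (nat_lit 76) (nat_lit 0) (XT.lf (nat_lit 0) (nat_lit 106401761494) (nat_lit 152) (nat_lit 493388624756) (nat_lit 76) (nat_lit 464841556192) (nat_lit 12) (nat_lit 5) (nat_lit 14) (nat_lit 5) (nat_lit 13) (nat_lit 4) (nat_lit 386) (nat_lit 348) (nat_lit 166)) (XT.nd (nat_lit 78) (nat_lit 76) (nat_lit 0) (XT.lf (nat_lit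 0) (nat_lit 303644885782) (nat_lit 152) (nat_lit 83122969956) (nat_lit 76) (nat_lit 743561624569) (nat_lit 12) (nat_lit 5) (nat_lit 14) (nat_lit 5) (nat_lit 13) (nat_lit 4) (nat_lit 387) (nat_lit 348) (nat_lit 165)) (XT.lf (nat_lit 0) (nat_lit 378918944647) (nat_lit 76) (nat_lit 146861496464) (nat_lit 152) (nat_lit 674773341620) (nat_lit 11) (nat_lit 5) (nat_lit 12) (nat_lit 5) (nat_lit 13) (nat_lit 4) (nat_lit 388) (nat_lit 348) (nat_lit 164))))))))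
noncomputable def xc220 : XT := (XT.nd (nat_lit 43836) (nat_lit 0) (nat_lit 2204) (XT.nd (nat_lit 624) (nat_lit 228) (nat_lit 0) (XT.nd (nat_lit 312) (nat_lit 76) (nat_lit 0) (XT.nd (nat_lit 156) (nat_lit 76) (nat_lit 0) (XT.nd (nat_lit 78) (nat_lit 76) (nat_lit 0) (XT.lf (nat_lit 0) (nat_lit 770717885266) (nat_lit 152) (nat_lit 396321118193) (nat_lit 0) (nat_lit 108954542352) (nat_lit 11) (nat_lit 5) (nat_lit 13) (nat_lit 4) (nat_lit 11) (nat_lit 4) (nat_lit 389) (nat_lit 348) (nat_lit 163)) (XT.lf (nat_lit 0) (nat_lit 62320594278) (nat_lit 76) (nat_lit 978243100566) (nat_lit 76) (nat_lit 316479725517) (nat_lit 10) (nat_lit 4) (nat_lit 11) (nat_lit 5) (nat_lit 11) (nat_lit 4) (nat_lit 390) (nat_lit 348) (nat_lit 162))) (XT.nd (nat_lit 78) (nat_lit 76) (nat_lit 0) (XT.lf (nat_lit 0) (nat_lit 580192728945) (nat_lit 76) (nat_lit 762640536522) (nat_lit 76) (nat_lit 100877131718) (nat_lit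 10) (nat_lit 4) (nat_lit 11) (nat_lit 5) (nat_lit 11) (nat_lit 4) (nat_lit 391) (nat_lit 348) (nat_lit 161)) (XT.lf (nat_lit 0) (nat_lit 125371787960) (nat_lit 152) (nat_lit 400990113395) (nat_lit 76) (nat_lit 1010694915152) (nat_lit 9) (nat_lit 5) (nat_lit 11) (nat_lit 5) (nat_lit 10) (nat_lit 4) (nat_lit 392) (nat_lit 348) (nat_lit 160)))) (XT.nd (nat_lit 156) (nat_lit 0) (nat_lit 0) (XT.nd (nat_lit 78) (nat_lit 0) (nat_lit 0) (XT.lf (nat_lit 0) (nat_lit 100970364870) (nat_lit 76) (nat_lit 265728588366) (nat_lit 152) (nat_lit 1270768115943) (nat_lit 8) (nat_lit 5) (nat_lit 9) (nat_lit 5) (nat_lit 10) (nat_lit 4) (nat_lit 393) (nat_lit 348) (nat_lit 159)) (XT.lf (nat_lit 0) (nat_lit 638959740879) (nat_lit 152) (nat_lit 1079804428720) (nat_lit 0) (nat_lit 26215776543) (nat_lit 8) (nat_lit 5) (nat_lit 10) (nat_lit 4) (nat_lit 8) (nat_lit 4) (nat_lit 394) (nat_lit 348) (nat_lit 158))) (XT.nd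 (nat_lit 78) (nat_lit 0) (nat_lit 0) (XT.lf (nat_lit 0) (nat_lit 939903412247) (nat_lit 152) (nat_lit 593478851709) (nat_lit 0) (nat_lit 327159427660) (nat_lit 8) (nat_lit 5) (nat_lit 10) (nat_lit 4) (nat_lit 8) (nat_lit 4) (nat_lit 395) (nat_lit 348) (nat_lit 157)) (XT.lf (nat_lit 0) (nat_lit 1264922558302) (nat_lit 152) (nat_lit 68247264989) (nat_lit 0) (nat_lit 652178554965) (nat_lit 8) (nat_lit 5) (nat_lit 10) (nat_lit 4) (nat_lit 8) (nat_lit 4) (nat_lit 396) (nat_lit 348) (nat_lit 156))))) (XT.nd (nat_lit 312) (nat_lit 0) (nat_lit 0) (XT.nd (nat_lit 156) (nat_lit 152) (nat_lit 0) (XT.nd (nat_lit 78) (nat_lit 0) (nat_lit 0) (XT.lf (nat_lit 0) (nat_lit 525279418839) (nat_lit 76) (nat_lit 1103296782246) (nat_lit 76) (nat_lit 490552761548) (nat_lit 7) (nat_lit 4) (nat_lit 8) (nat_lit 5) (nat_lit 8) (nat_lit 4) (nat_lit 397) (nat_lit 348) (nat_lit 155)) (XT.lf (nat_lit 0) (nat_lit 1170169486910)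 (nat_lit 76) (nat_lit 853018632452) (nat_lit 76) (nat_lit 240274595679) (nat_lit 7) (nat_lit 4) (nat_lit 8) (nat_lit 5) (nat_lit 8) (nat_lit 4) (nat_lit 398) (nat_lit 348) (nat_lit 154))) (XT.nd (nat_lit 78) (nat_lit 76) (nat_lit 0) (XT.lf (nat_lit 0) (nat_lit 28523793915) (nat_lit 152) (nat_lit 553414560314) (nat_lit 76) (nat_lit 1837347044976) (nat_lit 6) (nat_lit 5) (nat_lit 8) (nat_lit 5) (nat_lit 7) (nat_lit 4) (nat_lit 399) (nat_lit 348) (nat_lit 153)) (XT.lf (nat_lit 0) (nat_lit 24646385349) (nat_lit 76) (nat_lit 281791331376) (nat_lit 152) (nat_lit 2280589491007) (nat_lit 5) (nat_lit 5) (nat_lit 6) (nat_lit 5) (nat_lit 7) (nat_lit 4) (nat_lit 400) (nat_lit 348) (nat_lit 152)))) (XT.nd (nat_lit 156) (nat_lit 0) (nat_lit 0) (XT.nd (nat_lit 78) (nat_lit 0) (nat_lit 0) (XT.lf (nat_lit 0) (nat_lit 623128033189) (nat_lit 152) (nat_lit 2087964460145) (nat_lit 0) (nat_lit 55772405225)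 (nat_lit 5) (nat_lit 5) (nat_lit 7) (nat_lit 4) (nat_lit 5) (nat_lit 4) (nat_lit 401) (nat_lit 348) (nat_lit 151)) (XT.lf (nat_lit 0) (nat_lit 972472816498) (nat_lit 152) (nat_lit 1582914071245) (nat_lit 0) (nat_lit 405117177593) (nat_lit 5) (nat_lit 5) (nat_lit 7) (nat_lit 4) (nat_lit 5) (nat_lit 4) (nat_lit 402) (nat_lit 348) (nat_lit 150))) (XT.nd (nat_lit 42666) (nat_lit 0) (nat_lit 3496) (XT.lf (nat_lit 0) (nat_lit 1349765169662) (nat_lit 152) (nat_lit 1037459676194) (nat_lit 0) (nat_lit 782409520627) (nat_lit 5) (nat_lit 5) (nat_lit 7) (nat_lit 4) (nat_lit 5) (nat_lit 4) (nat_lit 403) (nat_lit 348) (nat_lit 149)) (XT.lf (nat_lit 0) (nat_lit 64706138998) (nat_lit 532) (nat_lit 11916134574) (nat_lit 532) (nat_lit 11916134574) (nat_lit 51) (nat_lit 3) (nat_lit 58) (nat_lit 3) (nat_lit 58) (nat_lit 5) (nat_lit 349) (nat_lit 349) (nat_lit 202)))))) (XT.nd (nat_lit 624) (nat_lit 988)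 (nat_lit 0) (XT.nd (nat_lit 312) (nat_lit 304) (nat_lit 0) (XT.nd (nat_lit 156) (nat_lit 0) (nat_lit 76) (XT.nd (nat_lit 78) (nat_lit 0) (nat_lit 76) (XT.lf (nat_lit 76) (nat_lit 62301100059) (nat_lit 0) (nat_lit 73787937961) (nat_lit 532) (nat_lit 47950825257) (nat_lit 52) (nat_lit 5) (nat_lit 51) (nat_lit 3) (nat_lit 58) (nat_lit 5) (nat_lit 350) (nat_lit 349) (nat_lit 201)) (XT.lf (nat_lit 0) (nat_lit 144257493502) (nat_lit 456) (nat_lit 35133582937) (nat_lit 532) (nat_lit 12092273625) (nat_lit 52) (nat_lit 5) (nat_lit 58) (nat_lit 5) (nat_lit 59) (nat_lit 5) (nat_lit 351) (nat_lit 349) (nat_lit 200))) (XT.nd (nat_lit 78) (nat_lit 0) (nat_lit 0) (XT.lf (nat_lit 76) (nat_lit 59457635293) (nat_lit 0) (nat_lit 96968138551) (nat_lit 532) (nat_lit 42828834460) (nat_lit 53) (nat_lit 5) (nat_lit 52) (nat_lit 5) (nat_lit 59) (nat_lit 5) (nat_lit 352) (nat_lit 349) (nat_lit 199)) (XT.lf (nat_lit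 76) (nat_lit 163614113593) (nat_lit 0) (nat_lit 6913848969) (nat_lit 532) (nat_lit 37042769323) (nat_lit 53) (nat_lit 5) (nat_lit 52) (nat_lit 5) (nat_lit 59) (nat_lit 5) (nat_lit 353) (nat_lit 349) (nat_lit 198)))) (XT.nd (nat_lit 156) (nat_lit 456) (nat_lit 0) (XT.nd (nat_lit 78) (nat_lit 0) (nat_lit 0) (XT.lf (nat_lit 76) (nat_lit 60399476172) (nat_lit 0) (nat_lit 128984098472) (nat_lit 532) (nat_lit 26878551176) (nat_lit 54) (nat_lit 5) (nat_lit 53) (nat_lit 5) (nat_lit 60) (nat_lit 5) (nat_lit 354) (nat_lit 349) (nat_lit 197)) (XT.lf (nat_lit 76) (nat_lit 175414755374) (nat_lit 0) (nat_lit 35709620137) (nat_lit 532) (nat_lit 14414316879) (nat_lit 54) (nat_lit 5) (nat_lit 53) (nat_lit 5) (nat_lit 60) (nat_lit 5) (nat_lit 355) (nat_lit 349) (nat_lit 196))) (XT.nd (nat_lit 78) (nat_lit 0) (nat_lit 0) (XT.lf (nat_lit 0) (nat_lit 2322737582) (nat_lit 532) (nat_lit 169562971328) (nat_lit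 76) (nat_lit 63415268199) (nat_lit 47) (nat_lit 5) (nat_lit 54) (nat_lit 5) (nat_lit 48) (nat_lit 5) (nat_lit 356) (nat_lit 349) (nat_lit 195)) (XT.lf (nat_lit 0) (nat_lit 21953474441) (nat_lit 532) (nat_lit 53352751840) (nat_lit 76) (nat_lit 170321389495) (nat_lit 47) (nat_lit 5) (nat_lit 54) (nat_lit 5) (nat_lit 48) (nat_lit 5) (nat_lit 357) (nat_lit 349) (nat_lit 194))))) (XT.nd (nat_lit 312) (nat_lit 456) (nat_lit 0) (XT.nd (nat_lit 156) (nat_lit 228) (nat_lit 0) (XT.nd (nat_lit 78) (nat_lit 0) (nat_lit 0) (XT.lf (nat_lit 0) (nat_lit 45726124684) (nat_lit 380) (nat_lit 181425468182) (nat_lit 76) (nat_lit 29423076542) (nat_lit 43) (nat_lit 5) (nat_lit 48) (nat_lit 5) (nat_lit 44) (nat_lit 5) (nat_lit 358) (nat_lit 349) (nat_lit 193)) (XT.lf (nat_lit 0) (nat_lit 74853126372) (nat_lit 380) (nat_lit 53309275709) (nat_lit 76) (nat_lit 139958882301) (nat_lit 43) (nat_lit 5) (nat_lit 48)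 (nat_lit 5) (nat_lit 44) (nat_lit 5) (nat_lit 359) (nat_lit 349) (nat_lit 192))) (XT.nd (nat_lit 78) (nat_lit 0) (nat_lit 0) (XT.lf (nat_lit 0) (nat_lit 89535002476) (nat_lit 228) (nat_lit 18928498131) (nat_lit 304) (nat_lit 171955871148) (nat_lit 40) (nat_lit 5) (nat_lit 43) (nat_lit 5) (nat_lit 44) (nat_lit 5) (nat_lit 360) (nat_lit 349) (nat_lit 191)) (XT.lf (nat_lit 0) (nat_lit 148640045713) (nat_lit 304) (nat_lit 49166122566) (nat_lit 76) (nat_lit 95584950742) (nat_lit 40) (nat_lit 5) (nat_lit 44) (nat_lit 5) (nat_lit 41) (nat_lit 5) (nat_lit 361) (nat_lit 349) (nat_lit 190)))) (XT.nd (nat_lit 156) (nat_lit 228) (nat_lit 0) (XT.nd (nat_lit 78) (nat_lit 0) (nat_lit 0) (XT.lf (nat_lit 0) (nat_lit 108842571245) (nat_lit 228) (nat_lit 86297364936) (nat_lit 304) (nat_lit 112011932313) (nat_lit 37) (nat_lit 5) (nat_lit 40) (nat_lit 5) (nat_lit 41) (nat_lit 5) (nat_lit 362) (nat_lit 349)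 (nat_lit 189)) (XT.lf (nat_lit 0) (nat_lit 247559812232) (nat_lit 304) (nat_lit 40473762441) (nat_lit 76) (nat_lit 33803903856) (nat_lit 37) (nat_lit 5) (nat_lit 41) (nat_lit 5) (nat_lit 38) (nat_lit 5) (nat_lit 363) (nat_lit 349) (nat_lit 188))) (XT.nd (nat_lit 78) (nat_lit 76) (nat_lit 0) (XT.lf (nat_lit 0) (nat_lit 134473951554) (nat_lit 152) (nat_lit 175174835225) (nat_lit 228) (nat_lit 27611110057) (nat_lit 35) (nat_lit 5) (nat_lit 37) (nat_lit 5) (nat_lit 38) (nat_lit 5) (nat_lit 364) (nat_lit 349) (nat_lit 187)) (XT.lf (nat_lit 0) (nat_lit 22784070118) (nat_lit 228) (nat_lit 28685238271) (nat_lit 76) (nat_lit 302312131817) (nat_lit 34) (nat_lit 5) (nat_lit 37) (nat_lit 5) (nat_lit 35) (nat_lit 5) (nat_lit 365) (nat_lit 349) (nat_lit 186)))))))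
noncomputable def xc221 : XT := (XT.nd (nat_lit 1248) (nat_lit 760) (nat_lit 0) (XT.nd (nat_lit 624) (nat_lit 380) (nat_lit 0) (XT.nd (nat_lit 312) (nat_lit 380) (nat_lit 0) (XT.nd (nat_lit 156) (nat_lit 304) (nat_lit 0) (XT.nd (nat_lit 78) (nat_lit 0) (nat_lit 0) (XT.lf (nat_lit 0) (nat_lit 81833154007) (nat_lit 304) (nat_lit 206365066822) (nat_lit 76) (nat_lit 82879992082) (nat_lit 31) (nat_lit 5) (nat_lit 35) (nat_lit 5) (nat_lit 32) (nat_lit 5) (nat_lit 366) (nat_lit 349) (nat_lit 185)) (XT.lf (nat_lit 0) (nat_lit 147747633504) (nat_lit 304) (nat_lit 15838565541) (nat_lit 76) (nat_lit 226001210978) (nat_lit 31) (nat_lit 5) (nat_lit 35) (nat_lit 5) (nat_lit 32) (nat_lit 5) (nat_lit 367) (nat_lit 349) (nat_lit 184))) (XT.nd (nat_lit 78) (nat_lit 152) (nat_lit 0) (XT.lf (nat_lit 0) (nat_lit 199931336649) (nat_lit 152) (nat_lit 23812220510) (nat_lit 228) (nat_lit 185449122979) (nat_lit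 29) (nat_lit 5) (nat_lit 31) (nat_lit 5) (nat_lit 32) (nat_lit 5) (nat_lit 368) (nat_lit 349) (nat_lit 183)) (XT.lf (nat_lit 0) (nat_lit 487068657) (nat_lit 152) (nat_lit 308845845644) (nat_lit 228) (nat_lit 120752356882) (nat_lit 27) (nat_lit 5) (nat_lit 29) (nat_lit 5) (nat_lit 30) (nat_lit 5) (nat_lit 369) (nat_lit 349) (nat_lit 182)))) (XT.nd (nat_lit 156) (nat_lit 152) (nat_lit 0) (XT.nd (nat_lit 78) (nat_lit 228) (nat_lit 0) (XT.lf (nat_lit 0) (nat_lit 238265069327) (nat_lit 152) (nat_lit 169828704766) (nat_lit 228) (nat_lit 44049547176) (nat_lit 27) (nat_lit 5) (nat_lit 29) (nat_lit 5) (nat_lit 30) (nat_lit 5) (nat_lit 370) (nat_lit 349) (nat_lit 181)) (XT.lf (nat_lit 0) (nat_lit 19122922187) (nat_lit 152) (nat_lit 18186004756) (nat_lit 228) (nat_lit 438545669689) (nat_lit 24) (nat_lit 5) (nat_lit 26) (nat_lit 5) (nat_lit 27) (nat_lit 5) (nat_lit 371) (nat_lit 349) (nat_lit 180)))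 (XT.nd (nat_lit 78) (nat_lit 152) (nat_lit 0) (XT.lf (nat_lit 0) (nat_lit 132297300223) (nat_lit 228) (nat_lit 222864838141) (nat_lit 76) (nat_lit 145449020926) (nat_lit 24) (nat_lit 5) (nat_lit 27) (nat_lit 5) (nat_lit 25) (nat_lit 5) (nat_lit 372) (nat_lit 349) (nat_lit 179)) (XT.lf (nat_lit 0) (nat_lit 30778564520) (nat_lit 152) (nat_lit 205318713869) (nat_lit 228) (nat_lit 291153965830) (nat_lit 22) (nat_lit 5) (nat_lit 24) (nat_lit 5) (nat_lit 25) (nat_lit 5) (nat_lit 373) (nat_lit 349) (nat_lit 178))))) (XT.nd (nat_lit 312) (nat_lit 76) (nat_lit 0) (XT.nd (nat_lit 156) (nat_lit 228) (nat_lit 0) (XT.nd (nat_lit 78) (nat_lit 76) (nat_lit 0) (XT.lf (nat_lit 0) (nat_lit 317387877134) (nat_lit 152) (nat_lit 36906845345) (nat_lit 228) (nat_lit 201240336106) (nat_lit 22) (nat_lit 5) (nat_lit 24) (nat_lit 5) (nat_lit 25) (nat_lit 5) (nat_lit 374) (nat_lit 349) (nat_lit 177)) (XT.lf (nat_lit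 0) (nat_lit 39324735318) (nat_lit 76) (nat_lit 447055662539) (nat_lit 152) (nat_lit 99346585435) (nat_lit 21) (nat_lit 5) (nat_lit 22) (nat_lit 5) (nat_lit 23) (nat_lit 4) (nat_lit 375) (nat_lit 349) (nat_lit 176))) (XT.nd (nat_lit 78) (nat_lit 152) (nat_lit 0) (XT.lf (nat_lit 0) (nat_lit 17802538113) (nat_lit 152) (nat_lit 266660435642) (nat_lit 76) (nat_lit 333239578940) (nat_lit 20) (nat_lit 5) (nat_lit 22) (nat_lit 5) (nat_lit 21) (nat_lit 5) (nat_lit 376) (nat_lit 349) (nat_lit 175)) (XT.lf (nat_lit 0) (nat_lit 34611630081) (nat_lit 152) (nat_lit 105177031205) (nat_lit 228) (nat_lit 512174482680) (nat_lit 18) (nat_lit 5) (nat_lit 20) (nat_lit 5) (nat_lit 21) (nat_lit 5) (nat_lit 377) (nat_lit 349) (nat_lit 174)))) (XT.nd (nat_lit 156) (nat_lit 0) (nat_lit 0) (XT.nd (nat_lit 78) (nat_lit 76) (nat_lit 0) (XT.lf (nat_lit 0) (nat_lit 281141242701) (nat_lit 228) (nat_lit 315547347730)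 (nat_lit 76) (nat_lit 91507386676) (nat_lit 18) (nat_lit 5) (nat_lit 21) (nat_lit 5) (nat_lit 19) (nat_lit 4) (nat_lit 378) (nat_lit 349) (nat_lit 173)) (XT.lf (nat_lit 0) (nat_lit 8073057818) (nat_lit 76) (nat_lit 428654960336) (nat_lit 152) (nat_lit 290365339778) (nat_lit 17) (nat_lit 5) (nat_lit 18) (nat_lit 5) (nat_lit 19) (nat_lit 4) (nat_lit 379) (nat_lit 349) (nat_lit 172))) (XT.nd (nat_lit 78) (nat_lit 0) (nat_lit 0) (XT.lf (nat_lit 0) (nat_lit 375528484842) (nat_lit 76) (nat_lit 237860835208) (nat_lit 152) (nat_lit 155023002452) (nat_lit 17) (nat_lit 5) (nat_lit 18) (nat_lit 5) (nat_lit 19) (nat_lit 4) (nat_lit 380) (nat_lit 349) (nat_lit 171)) (XT.lf (nat_lit 0) (nat_lit 772380282849) (nat_lit 76) (nat_lit 31803206881) (nat_lit 152) (nat_lit 8853317450) (nat_lit 17) (nat_lit 5) (nat_lit 18) (nat_lit 5) (nat_lit 19) (nat_lit 4) (nat_lit 381) (nat_lit 349) (nat_lit 170)))))) (XT.nd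 (nat_lit 624) (nat_lit 304) (nat_lit 0) (XT.nd (nat_lit 312) (nat_lit 228) (nat_lit 0) (XT.nd (nat_lit 156) (nat_lit 76) (nat_lit 0) (XT.nd (nat_lit 78) (nat_lit 0) (nat_lit 0) (XT.lf (nat_lit 0) (nat_lit 154967751756) (nat_lit 152) (nat_lit 511298044095) (nat_lit 76) (nat_lit 193605808173) (nat_lit 15) (nat_lit 5) (nat_lit 17) (nat_lit 5) (nat_lit 16) (nat_lit 4) (nat_lit 382) (nat_lit 349) (nat_lit 169)) (XT.lf (nat_lit 0) (nat_lit 333382715389) (nat_lit 152) (nat_lit 140194979215) (nat_lit 76) (nat_lit 436699772091) (nat_lit 15) (nat_lit 5) (nat_lit 17) (nat_lit 5) (nat_lit 16) (nat_lit 4) (nat_lit 383) (nat_lit 349) (nat_lit 168))) (XT.nd (nat_lit 78) (nat_lit 0) (nat_lit 0) (XT.lf (nat_lit 0) (nat_lit 274318812455) (nat_lit 76) (nat_lit 258349406176) (nat_lit 152) (nat_lit 431519792372) (nat_lit 14) (nat_lit 5) (nat_lit 15) (nat_lit 5) (nat_lit 16) (nat_lit 4) (nat_lit 384) (nat_lit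 349) (nat_lit 167)) (XT.lf (nat_lit 0) (nat_lit 729966665184) (nat_lit 76) (nat_lit 21763045622) (nat_lit 152) (nat_lit 270375036176) (nat_lit 14) (nat_lit 5) (nat_lit 15) (nat_lit 5) (nat_lit 16) (nat_lit 4) (nat_lit 385) (nat_lit 349) (nat_lit 166)))) (XT.nd (nat_lit 156) (nat_lit 76) (nat_lit 0) (XT.nd (nat_lit 78) (nat_lit 76) (nat_lit 0) (XT.lf (nat_lit 0) (nat_lit 138729589062) (nat_lit 76) (nat_lit 858544652959) (nat_lit 76) (nat_lit 86663930264) (nat_lit 13) (nat_lit 4) (nat_lit 14) (nat_lit 5) (nat_lit 14) (nat_lit 4) (nat_lit 386) (nat_lit 349) (nat_lit 165)) (XT.lf (nat_lit 0) (nat_lit 114914461040) (nat_lit 152) (nat_lit 532858684211) (nat_lit 76) (nat_lit 502029307577) (nat_lit 12) (nat_lit 5) (nat_lit 14) (nat_lit 5) (nat_lit 13) (nat_lit 4) (nat_lit 387) (nat_lit 349) (nat_lit 164))) (XT.nd (nat_lit 78) (nat_lit 76) (nat_lit 0) (XT.lf (nat_lit 0) (nat_lit 327936993891)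 (nat_lit 152) (nat_lit 89771853363) (nat_lit 76) (nat_lit 803046949803) (nat_lit 12) (nat_lit 5) (nat_lit 14) (nat_lit 5) (nat_lit 13) (nat_lit 4) (nat_lit 388) (nat_lit 349) (nat_lit 163)) (XT.lf (nat_lit 0) (nat_lit 409233390253) (nat_lit 76) (nat_lit 158609987446) (nat_lit 152) (nat_lit 728754667273) (nat_lit 11) (nat_lit 5) (nat_lit 12) (nat_lit 5) (nat_lit 13) (nat_lit 4) (nat_lit 389) (nat_lit 349) (nat_lit 162))))) (XT.nd (nat_lit 312) (nat_lit 152) (nat_lit 0) (XT.nd (nat_lit 156) (nat_lit 76) (nat_lit 0) (XT.nd (nat_lit 78) (nat_lit 76) (nat_lit 0) (XT.lf (nat_lit 0) (nat_lit 832375789800) (nat_lit 152) (nat_lit 428025918667) (nat_lit 0) (nat_lit 117671282858) (nat_lit 11) (nat_lit 5) (nat_lit 13) (nat_lit 4) (nat_lit 11) (nat_lit 4) (nat_lit 390) (nat_lit 349) (nat_lit 161)) (XT.lf (nat_lit 0) (nat_lit 67307108297) (nat_lit 76) (nat_lit 1056502141596) (nat_lit 76) (nat_lit 341797607104)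 (nat_lit 10) (nat_lit 4) (nat_lit 11) (nat_lit 5) (nat_lit 11) (nat_lit 4) (nat_lit 391) (nat_lit 349) (nat_lit 160))) (XT.nd (nat_lit 78) (nat_lit 76) (nat_lit 0) (XT.lf (nat_lit 0) (nat_lit 626608949554) (nat_lit 76) (nat_lit 823651402578) (nat_lit 76) (nat_lit 108946842576) (nat_lit 10) (nat_lit 4) (nat_lit 11) (nat_lit 5) (nat_lit 11) (nat_lit 4) (nat_lit 392) (nat_lit 349) (nat_lit 159)) (XT.lf (nat_lit 0) (nat_lit 135401935335) (nat_lit 152) (nat_lit 433068558124) (nat_lit 76) (nat_lit 1091550835835) (nat_lit 9) (nat_lit 5) (nat_lit 11) (nat_lit 5) (nat_lit 10) (nat_lit 4) (nat_lit 393) (nat_lit 349) (nat_lit 158)))) (XT.nd (nat_lit 156) (nat_lit 76) (nat_lit 0) (XT.nd (nat_lit 78) (nat_lit 0) (nat_lit 0) (XT.lf (nat_lit 0) (nat_lit 109048739051) (nat_lit 76) (nat_lit 286986522748) (nat_lit 152) (nat_lit 1372429141357) (nat_lit 8) (nat_lit 5) (nat_lit 9) (nat_lit 5) (nat_lit 10)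 (nat_lit 4) (nat_lit 394) (nat_lit 349) (nat_lit 157)) (XT.lf (nat_lit 0) (nat_lit 690076891248) (nat_lit 152) (nat_lit 1166188071845) (nat_lit 0) (nat_lit 28313348894) (nat_lit 8) (nat_lit 5) (nat_lit 10) (nat_lit 4) (nat_lit 8) (nat_lit 4) (nat_lit 395) (nat_lit 349) (nat_lit 156))) (XT.nd (nat_lit 78) (nat_lit 76) (nat_lit 0) (XT.lf (nat_lit 0) (nat_lit 1015096028836) (nat_lit 152) (nat_lit 640956501352) (nat_lit 0) (nat_lit 353332469120) (nat_lit 8) (nat_lit 5) (nat_lit 10) (nat_lit 4) (nat_lit 8) (nat_lit 4) (nat_lit 396) (nat_lit 349) (nat_lit 155)) (XT.nd (nat_lit 78) (nat_lit 76) (nat_lit 0) (XT.lf (nat_lit 0) (nat_lit 1366116681123) (nat_lit 152) (nat_lit 73706436472) (nat_lit 0) (nat_lit 704353105332) (nat_lit 8) (nat_lit 5) (nat_lit 10) (nat_lit 4) (nat_lit 8) (nat_lit 4) (nat_lit 397) (nat_lit 349) (nat_lit 154)) (XT.lf (nat_lit 0) (nat_lit 567302366627) (nat_lit 76) (nat_lit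 1191560239427) (nat_lit 76) (nat_lit 529796648752) (nat_lit 7) (nat_lit 4) (nat_lit 8) (nat_lit 5) (nat_lit 8) (nat_lit 4) (nat_lit 398) (nat_lit 349) (nat_lit 153))))))))
noncomputable def xc222 : XT := (XT.nd (nat_lit 43914) (nat_lit 0) (nat_lit 1140) (XT.nd (nat_lit 43290) (nat_lit 0) (nat_lit 2888) (XT.nd (nat_lit 312) (nat_lit 0) (nat_lit 0) (XT.nd (nat_lit 156) (nat_lit 76) (nat_lit 0) (XT.nd (nat_lit 78) (nat_lit 76) (nat_lit 0) (XT.lf (nat_lit 0) (nat_lit 1263783596122) (nat_lit 76) (nat_lit 921259858791) (nat_lit 76) (nat_lit 259496254333) (nat_lit 7) (nat_lit 4) (nat_lit 8) (nat_lit 5) (nat_lit 8) (nat_lit 4) (nat_lit 399) (nat_lit 349) (nat_lit 152)) (XT.lf (nat_lit 0) (nat_lit 30805969226) (nat_lit 152) (nat_lit 597687201227) (nat_lit 76) (nat_lit 1984335038844) (nat_lit 6) (nat_lit 5) (nat_lit 8) (nat_lit 5) (nat_lit 7) (nat_lit 4) (nat_lit 400) (nat_lit 349) (nat_lit 151)))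 (XT.nd (nat_lit 78) (nat_lit 0) (nat_lit 0) (XT.lf (nat_lit 0) (nat_lit 26618606826) (nat_lit 76) (nat_lit 304334391183) (nat_lit 152) (nat_lit 2463036365132) (nat_lit 5) (nat_lit 5) (nat_lit 6) (nat_lit 5) (nat_lit 7) (nat_lit 4) (nat_lit 401) (nat_lit 349) (nat_lit 150)) (XT.lf (nat_lit 0) (nat_lit 672978525733) (nat_lit 152) (nat_lit 2255001129989) (nat_lit 0) (nat_lit 60234414645) (nat_lit 5) (nat_lit 5) (nat_lit 7) (nat_lit 4) (nat_lit 5) (nat_lit 4) (nat_lit 402) (nat_lit 349) (nat_lit 149)))) (XT.nd (nat_lit 42822) (nat_lit 0) (nat_lit 3496) (XT.nd (nat_lit 42744) (nat_lit 0) (nat_lit 3496) (XT.lf (nat_lit 0) (nat_lit 1050270873196) (nat_lit 152) (nat_lit 1709546746049) (nat_lit 0) (nat_lit 437526752728) (nat_lit 5) (nat_lit 5) (nat_lit 7) (nat_lit 4) (nat_lit 5) (nat_lit 4) (nat_lit 403) (nat_lit 349) (nat_lit 148)) (XT.lf (nat_lit 0) (nat_lit 69884509748) (nat_lit 532) (nat_lit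 12868408312) (nat_lit 532) (nat_lit 12868408312) (nat_lit 51) (nat_lit 3) (nat_lit 58) (nat_lit 3) (nat_lit 58) (nat_lit 5) (nat_lit 350) (nat_lit 350) (nat_lit 200))) (XT.nd (nat_lit 78) (nat_lit 0) (nat_lit 76) (XT.lf (nat_lit 76) (nat_lit 67287170624) (nat_lit 0) (nat_lit 79692518915) (nat_lit 532) (nat_lit 51783073014) (nat_lit 52) (nat_lit 5) (nat_lit 51) (nat_lit 3) (nat_lit 58) (nat_lit 5) (nat_lit 351) (nat_lit 350) (nat_lit 199)) (XT.lf (nat_lit 0) (nat_lit 155801325665) (nat_lit 456) (nat_lit 37942131121) (nat_lit 532) (nat_lit 13058295716) (nat_lit 52) (nat_lit 5) (nat_lit 58) (nat_lit 5) (nat_lit 59) (nat_lit 5) (nat_lit 352) (nat_lit 350) (nat_lit 198))))) (XT.nd (nat_lit 312) (nat_lit 684) (nat_lit 0) (XT.nd (nat_lit 156) (nat_lit 0) (nat_lit 76) (XT.nd (nat_lit 78) (nat_lit 0) (nat_lit 0) (XT.lf (nat_lit 76) (nat_lit 64216330429) (nat_lit 0) (nat_lit 104726548675) (nat_lit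 532) (nat_lit 46251847958) (nat_lit 53) (nat_lit 5) (nat_lit 52) (nat_lit 5) (nat_lit 59) (nat_lit 5) (nat_lit 353) (nat_lit 350) (nat_lit 197)) (XT.lf (nat_lit 76) (nat_lit 176705172600) (nat_lit 0) (nat_lit 7467844886) (nat_lit 532) (nat_lit 40003141555) (nat_lit 53) (nat_lit 5) (nat_lit 52) (nat_lit 5) (nat_lit 59) (nat_lit 5) (nat_lit 354) (nat_lit 350) (nat_lit 196))) (XT.nd (nat_lit 78) (nat_lit 0) (nat_lit 0) (XT.lf (nat_lit 76) (nat_lit 65233561679) (nat_lit 0) (nat_lit 139303339511) (nat_lit 532) (nat_lit 29025977930) (nat_lit 54) (nat_lit 5) (nat_lit 53) (nat_lit 5) (nat_lit 60) (nat_lit 5) (nat_lit 355) (nat_lit 350) (nat_lit 195)) (XT.lf (nat_lit 76) (nat_lit 189449905631) (nat_lit 0) (nat_lit 38566864897) (nat_lit 532) (nat_lit 15564816545) (nat_lit 54) (nat_lit 5) (nat_lit 53) (nat_lit 5) (nat_lit 60) (nat_lit 5) (nat_lit 356) (nat_lit 350) (nat_lit 194)))) (XT.nd (nat_lit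 156) (nat_lit 304) (nat_lit 0) (XT.nd (nat_lit 78) (nat_lit 0) (nat_lit 0) (XT.lf (nat_lit 0) (nat_lit 2510925373) (nat_lit 532) (nat_lit 183125753193) (nat_lit 76) (nat_lit 68488182827) (nat_lit 47) (nat_lit 5) (nat_lit 54) (nat_lit 5) (nat_lit 48) (nat_lit 5) (nat_lit 357) (nat_lit 350) (nat_lit 193)) (XT.lf (nat_lit 0) (nat_lit 23711945716) (nat_lit 532) (nat_lit 57618883246) (nat_lit 76) (nat_lit 183946816555) (nat_lit 47) (nat_lit 5) (nat_lit 54) (nat_lit 5) (nat_lit 48) (nat_lit 5) (nat_lit 358) (nat_lit 350) (nat_lit 192))) (XT.nd (nat_lit 78) (nat_lit 0) (nat_lit 0) (XT.lf (nat_lit 0) (nat_lit 49386293415) (nat_lit 380) (nat_lit 195937298576) (nat_lit 76) (nat_lit 31776880912) (nat_lit 43) (nat_lit 5) (nat_lit 48) (nat_lit 5) (nat_lit 44) (nat_lit 5) (nat_lit 359) (nat_lit 350) (nat_lit 191)) (XT.lf (nat_lit 0) (nat_lit 80843301256) (nat_lit 380) (nat_lit 57571974191) (nat_lit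 76) (nat_lit 151155554226) (nat_lit 43) (nat_lit 5) (nat_lit 48) (nat_lit 5) (nat_lit 44) (nat_lit 5) (nat_lit 360) (nat_lit 350) (nat_lit 190)))))) (XT.nd (nat_lit 624) (nat_lit 836) (nat_lit 0) (XT.nd (nat_lit 312) (nat_lit 456) (nat_lit 0) (XT.nd (nat_lit 156) (nat_lit 228) (nat_lit 0) (XT.nd (nat_lit 78) (nat_lit 0) (nat_lit 0) (XT.lf (nat_lit 0) (nat_lit 96699794513) (nat_lit 228) (nat_lit 20442616245) (nat_lit 304) (nat_lit 185710361109) (nat_lit 40) (nat_lit 5) (nat_lit 43) (nat_lit 5) (nat_lit 44) (nat_lit 5) (nat_lit 361) (nat_lit 350) (nat_lit 189)) (XT.lf (nat_lit 0) (nat_lit 160532947511) (nat_lit 304) (nat_lit 53097433133) (nat_lit 76) (nat_lit 103231889066) (nat_lit 40) (nat_lit 5) (nat_lit 44) (nat_lit 5) (nat_lit 41) (nat_lit 5) (nat_lit 362) (nat_lit 350) (nat_lit 188))) (XT.nd (nat_lit 78) (nat_lit 0) (nat_lit 0) (XT.lf (nat_lit 0) (nat_lit 117551906076) (nat_lit 228)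 (nat_lit 93200843747) (nat_lit 304) (nat_lit 120971135889) (nat_lit 37) (nat_lit 5) (nat_lit 40) (nat_lit 5) (nat_lit 41) (nat_lit 5) (nat_lit 363) (nat_lit 350) (nat_lit 187)) (XT.lf (nat_lit 0) (nat_lit 267366102963) (nat_lit 304) (nat_lit 43709761652) (nat_lit 76) (nat_lit 36508489180) (nat_lit 37) (nat_lit 5) (nat_lit 41) (nat_lit 5) (nat_lit 38) (nat_lit 5) (nat_lit 364) (nat_lit 350) (nat_lit 186)))) (XT.nd (nat_lit 156) (nat_lit 228) (nat_lit 0) (XT.nd (nat_lit 78) (nat_lit 76) (nat_lit 0) (XT.lf (nat_lit 0) (nat_lit 145233721317) (nat_lit 152) (nat_lit 189188407200) (nat_lit 228) (nat_lit 29818442595) (nat_lit 35) (nat_lit 5) (nat_lit 37) (nat_lit 5) (nat_lit 38) (nat_lit 5) (nat_lit 365) (nat_lit 350) (nat_lit 185)) (XT.lf (nat_lit 0) (nat_lit 24608164631) (nat_lit 228) (nat_lit 30978266887) (nat_lit 76) (nat_lit 326497412363) (nat_lit 34) (nat_lit 5) (nat_lit 37) (nat_lit 5)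 (nat_lit 35) (nat_lit 5) (nat_lit 366) (nat_lit 350) (nat_lit 184))) (XT.nd (nat_lit 78) (nat_lit 0) (nat_lit 0) (XT.lf (nat_lit 0) (nat_lit 88381126278) (nat_lit 304) (nat_lit 222872430890) (nat_lit 76) (nat_lit 89510805300) (nat_lit 31) (nat_lit 5) (nat_lit 35) (nat_lit 5) (nat_lit 32) (nat_lit 5) (nat_lit 367) (nat_lit 350) (nat_lit 183)) (XT.lf (nat_lit 0) (nat_lit 159568666361) (nat_lit 304) (nat_lit 17103945898) (nat_lit 76) (nat_lit 244081691053) (nat_lit 31) (nat_lit 5) (nat_lit 35) (nat_lit 5) (nat_lit 32) (nat_lit 5) (nat_lit 368) (nat_lit 350) (nat_lit 182))))) (XT.nd (nat_lit 312) (nat_lit 304) (nat_lit 0) (XT.nd (nat_lit 156) (nat_lit 228) (nat_lit 0) (XT.nd (nat_lit 78) (nat_lit 152) (nat_lit 0) (XT.lf (nat_lit 0) (nat_lit 215927505306) (nat_lit 152) (nat_lit 25716708036) (nat_lit 228) (nat_lit 200283785868) (nat_lit 29) (nat_lit 5) (nat_lit 31) (nat_lit 5) (nat_lit 32)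 (nat_lit 5) (nat_lit 369) (nat_lit 350) (nat_lit 181)) (XT.lf (nat_lit 0) (nat_lit 527735243) (nat_lit 152) (nat_lit 333552948852) (nat_lit 228) (nat_lit 130411316360) (nat_lit 27) (nat_lit 5) (nat_lit 29) (nat_lit 5) (nat_lit 30) (nat_lit 5) (nat_lit 370) (nat_lit 350) (nat_lit 180))) (XT.nd (nat_lit 78) (nat_lit 228) (nat_lit 0) (XT.lf (nat_lit 0) (nat_lit 257327849960) (nat_lit 152) (nat_lit 183414478513) (nat_lit 228) (nat_lit 47572372920) (nat_lit 27) (nat_lit 5) (nat_lit 29) (nat_lit 5) (nat_lit 30) (nat_lit 5) (nat_lit 371) (nat_lit 350) (nat_lit 179)) (XT.lf (nat_lit 0) (nat_lit 20654347907) (nat_lit 152) (nat_lit 19640332498) (nat_lit 228) (nat_lit 473628199630) (nat_lit 24) (nat_lit 5) (nat_lit 26) (nat_lit 5) (nat_lit 27) (nat_lit 5) (nat_lit 372) (nat_lit 350) (nat_lit 178)))) (XT.nd (nat_lit 156) (nat_lit 152) (nat_lit 0) (XT.nd (nat_lit 78) (nat_lit 152) (nat_lit 0) (XT.lf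 (nat_lit 0) (nat_lit 142882058868) (nat_lit 228) (nat_lit 240692485393) (nat_lit 76) (nat_lit 157085428706) (nat_lit 24) (nat_lit 5) (nat_lit 27) (nat_lit 5) (nat_lit 25) (nat_lit 5) (nat_lit 373) (nat_lit 350) (nat_lit 177)) (XT.lf (nat_lit 0) (nat_lit 33242350498) (nat_lit 152) (nat_lit 221743648689) (nat_lit 228) (nat_lit 314445268472) (nat_lit 22) (nat_lit 5) (nat_lit 24) (nat_lit 5) (nat_lit 25) (nat_lit 5) (nat_lit 374) (nat_lit 350) (nat_lit 176))) (XT.nd (nat_lit 78) (nat_lit 152) (nat_lit 0) (XT.lf (nat_lit 0) (nat_lit 342780296950) (nat_lit 152) (nat_lit 39858872334) (nat_lit 228) (nat_lit 217338623528) (nat_lit 22) (nat_lit 5) (nat_lit 24) (nat_lit 5) (nat_lit 25) (nat_lit 5) (nat_lit 375) (nat_lit 350) (nat_lit 175)) (XT.nd (nat_lit 78) (nat_lit 76) (nat_lit 0) (XT.lf (nat_lit 0) (nat_lit 42472125080) (nat_lit 76) (nat_lit 482819554768) (nat_lit 152) (nat_lit 107293393224)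 (nat_lit 21) (nat_lit 5) (nat_lit 22) (nat_lit 5) (nat_lit 23) (nat_lit 4) (nat_lit 376) (nat_lit 350) (nat_lit 174)) (XT.lf (nat_lit 0) (nat_lit 19227549562) (nat_lit 152) (nat_lit 287991920756) (nat_lit 76) (nat_lit 359899221175) (nat_lit 20) (nat_lit 5) (nat_lit 22) (nat_lit 5) (nat_lit 21) (nat_lit 5) (nat_lit 377) (nat_lit 350) (nat_lit 173))))))))
noncomputable def xc223 : XT := (XT.nd (nat_lit 1248) (nat_lit 380) (nat_lit 0) (XT.nd (nat_lit 624) (nat_lit 304) (nat_lit 0) (XT.nd (nat_lit 312) (nat_lit 228) (nat_lit 0) (XT.nd (nat_lit 156) (nat_lit 76) (nat_lit 0) (XT.nd (nat_lit 78) (nat_lit 0) (nat_lit 0) (XT.lf (nat_lit 0) (nat_lit 37381876055) (nat_lit 152) (nat_lit 113590658292) (nat_lit 228) (nat_lit 553147598034) (nat_lit 18) (nat_lit 5) (nat_lit 20) (nat_lit 5) (nat_lit 21) (nat_lit 5) (nat_lit 378) (nat_lit 350) (nat_lit 172)) (XT.lf (nat_lit 0) (nat_lit 303633276408) (nat_lit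 228) (nat_lit 340789870924) (nat_lit 76) (nat_lit 98828448560) (nat_lit 18) (nat_lit 5) (nat_lit 21) (nat_lit 5) (nat_lit 19) (nat_lit 4) (nat_lit 379) (nat_lit 350) (nat_lit 171))) (XT.nd (nat_lit 78) (nat_lit 0) (nat_lit 0) (XT.lf (nat_lit 0) (nat_lit 8720135052) (nat_lit 76) (nat_lit 462946834097) (nat_lit 152) (nat_lit 313593800061) (nat_lit 17) (nat_lit 5) (nat_lit 18) (nat_lit 5) (nat_lit 19) (nat_lit 4) (nat_lit 380) (nat_lit 350) (nat_lit 170)) (XT.lf (nat_lit 0) (nat_lit 405571904934) (nat_lit 76) (nat_lit 256889217705) (nat_lit 152) (nat_lit 167424132557) (nat_lit 17) (nat_lit 5) (nat_lit 18) (nat_lit 5) (nat_lit 19) (nat_lit 4) (nat_lit 381) (nat_lit 350) (nat_lit 169)))) (XT.nd (nat_lit 156) (nat_lit 76) (nat_lit 0) (XT.nd (nat_lit 78) (nat_lit 152) (nat_lit 0) (XT.lf (nat_lit 0) (nat_lit 834171762240) (nat_lit 76) (nat_lit 34347014987) (nat_lit 152) (nat_lit 9560925353) (nat_lit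 17) (nat_lit 5) (nat_lit 18) (nat_lit 5) (nat_lit 19) (nat_lit 4) (nat_lit 382) (nat_lit 350) (nat_lit 168)) (XT.lf (nat_lit 0) (nat_lit 167365786815) (nat_lit 152) (nat_lit 552200787380) (nat_lit 76) (nat_lit 209094708521) (nat_lit 15) (nat_lit 5) (nat_lit 17) (nat_lit 5) (nat_lit 16) (nat_lit 4) (nat_lit 383) (nat_lit 350) (nat_lit 167))) (XT.nd (nat_lit 78) (nat_lit 76) (nat_lit 0) (XT.lf (nat_lit 0) (nat_lit 360053901990) (nat_lit 152) (nat_lit 151409558810) (nat_lit 76) (nat_lit 471636157279) (nat_lit 15) (nat_lit 5) (nat_lit 17) (nat_lit 5) (nat_lit 16) (nat_lit 4) (nat_lit 384) (nat_lit 350) (nat_lit 166)) (XT.lf (nat_lit 0) (nat_lit 296265310403) (nat_lit 76) (nat_lit 279016916793) (nat_lit 152) (nat_lit 466040780228) (nat_lit 14) (nat_lit 5) (nat_lit 15) (nat_lit 5) (nat_lit 16) (nat_lit 4) (nat_lit 385) (nat_lit 350) (nat_lit 165))))) (XT.nd (nat_lit 312) (nat_lit 152) (nat_lit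 0) (XT.nd (nat_lit 156) (nat_lit 76) (nat_lit 0) (XT.nd (nat_lit 78) (nat_lit 76) (nat_lit 0) (XT.lf (nat_lit 0) (nat_lit 788364917799) (nat_lit 76) (nat_lit 23503680126) (nat_lit 152) (nat_lit 292004487650) (nat_lit 14) (nat_lit 5) (nat_lit 15) (nat_lit 5) (nat_lit 16) (nat_lit 4) (nat_lit 386) (nat_lit 350) (nat_lit 164)) (XT.lf (nat_lit 0) (nat_lit 149828882844) (nat_lit 76) (nat_lit 927227802393) (nat_lit 76) (nat_lit 93596500202) (nat_lit 13) (nat_lit 4) (nat_lit 14) (nat_lit 5) (nat_lit 14) (nat_lit 4) (nat_lit 387) (nat_lit 350) (nat_lit 163))) (XT.nd (nat_lit 78) (nat_lit 0) (nat_lit 0) (XT.lf (nat_lit 0) (nat_lit 124108096854) (nat_lit 152) (nat_lit 575486495439) (nat_lit 76) (nat_lit 542192018172) (nat_lit 12) (nat_lit 5) (nat_lit 14) (nat_lit 5) (nat_lit 13) (nat_lit 4) (nat_lit 388) (nat_lit 350) (nat_lit 162)) (XT.lf (nat_lit 0) (nat_lit 354172396857) (nat_lit 152) (nat_lit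 96952783567) (nat_lit 76) (nat_lit 867291044666) (nat_lit 12) (nat_lit 5) (nat_lit 14) (nat_lit 5) (nat_lit 13) (nat_lit 4) (nat_lit 389) (nat_lit 350) (nat_lit 161)))) (XT.nd (nat_lit 156) (nat_lit 76) (nat_lit 0) (XT.nd (nat_lit 78) (nat_lit 0) (nat_lit 0) (XT.lf (nat_lit 0) (nat_lit 441972858827) (nat_lit 76) (nat_lit 171298418871) (nat_lit 152) (nat_lit 787054576254) (nat_lit 11) (nat_lit 5) (nat_lit 12) (nat_lit 5) (nat_lit 13) (nat_lit 4) (nat_lit 390) (nat_lit 350) (nat_lit 160)) (XT.lf (nat_lit 0) (nat_lit 898966259117) (nat_lit 152) (nat_lit 462267230001) (nat_lit 0) (nat_lit 127085308805) (nat_lit 11) (nat_lit 5) (nat_lit 13) (nat_lit 4) (nat_lit 11) (nat_lit 4) (nat_lit 391) (nat_lit 350) (nat_lit 159))) (XT.nd (nat_lit 78) (nat_lit 0) (nat_lit 0) (XT.lf (nat_lit 0) (nat_lit 72692419825) (nat_lit 76) (nat_lit 1141021963975) (nat_lit 76) (nat_lit 369140990043) (nat_lit 10) (nat_lit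 4) (nat_lit 11) (nat_lit 5) (nat_lit 11) (nat_lit 4) (nat_lit 392) (nat_lit 350) (nat_lit 158)) (XT.lf (nat_lit 0) (nat_lit 676738353355) (nat_lit 76) (nat_lit 889543191683) (nat_lit 76) (nat_lit 117662195881) (nat_lit 10) (nat_lit 4) (nat_lit 11) (nat_lit 5) (nat_lit 11) (nat_lit 4) (nat_lit 393) (nat_lit 350) (nat_lit 157)))))) (XT.nd (nat_lit 624) (nat_lit 76) (nat_lit 0) (XT.nd (nat_lit 312) (nat_lit 152) (nat_lit 0) (XT.nd (nat_lit 156) (nat_lit 0) (nat_lit 0) (XT.nd (nat_lit 78) (nat_lit 76) (nat_lit 0) (XT.lf (nat_lit 0) (nat_lit 146234436816) (nat_lit 152) (nat_lit 467713387473) (nat_lit 76) (nat_lit 1178875183455) (nat_lit 9) (nat_lit 5) (nat_lit 11) (nat_lit 5) (nat_lit 10) (nat_lit 4) (nat_lit 394) (nat_lit 350) (nat_lit 156)) (XT.lf (nat_lit 0) (nat_lit 117773276886) (nat_lit 76) (nat_lit 309945142194) (nat_lit 152) (nat_lit 1482223109273) (nat_lit 8) (nat_lit 5) (nat_lit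 9) (nat_lit 5) (nat_lit 10) (nat_lit 4) (nat_lit 395) (nat_lit 350) (nat_lit 155))) (XT.nd (nat_lit 78) (nat_lit 0) (nat_lit 0) (XT.lf (nat_lit 0) (nat_lit 745283360704) (nat_lit 152) (nat_lit 1259482507876) (nat_lit 0) (nat_lit 30578682775) (nat_lit 8) (nat_lit 5) (nat_lit 10) (nat_lit 4) (nat_lit 8) (nat_lit 4) (nat_lit 396) (nat_lit 350) (nat_lit 154)) (XT.lf (nat_lit 0) (nat_lit 1096304005732) (nat_lit 152) (nat_lit 692232456908) (nat_lit 0) (nat_lit 381599312918) (nat_lit 8) (nat_lit 5) (nat_lit 10) (nat_lit 4) (nat_lit 8) (nat_lit 4) (nat_lit 397) (nat_lit 350) (nat_lit 153)))) (XT.nd (nat_lit 156) (nat_lit 76) (nat_lit 0) (XT.nd (nat_lit 78) (nat_lit 76) (nat_lit 0) (XT.lf (nat_lit 0) (nat_lit 1475406288381) (nat_lit 152) (nat_lit 79602428657) (nat_lit 0) (nat_lit 760701581785) (nat_lit 8) (nat_lit 5) (nat_lit 10) (nat_lit 4) (nat_lit 8) (nat_lit 4) (nat_lit 398) (nat_lit 350)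 (nat_lit 152)) (XT.lf (nat_lit 0) (nat_lit 612687065457) (nat_lit 76) (nat_lit 1286884813898) (nat_lit 76) (nat_lit 572180094541) (nat_lit 7) (nat_lit 4) (nat_lit 8) (nat_lit 5) (nat_lit 8) (nat_lit 4) (nat_lit 399) (nat_lit 350) (nat_lit 151))) (XT.nd (nat_lit 78) (nat_lit 76) (nat_lit 0) (XT.lf (nat_lit 0) (nat_lit 1364886755571) (nat_lit 76) (nat_lit 994960420935) (nat_lit 76) (nat_lit 280255689762) (nat_lit 7) (nat_lit 4) (nat_lit 8) (nat_lit 5) (nat_lit 8) (nat_lit 4) (nat_lit 400) (nat_lit 350) (nat_lit 150)) (XT.lf (nat_lit 0) (nat_lit 33270679788) (nat_lit 152) (nat_lit 645501728154) (nat_lit 76) (nat_lit 2143082039371) (nat_lit 6) (nat_lit 5) (nat_lit 8) (nat_lit 5) (nat_lit 7) (nat_lit 4) (nat_lit 401) (nat_lit 350) (nat_lit 149))))) (XT.nd (nat_lit 43056) (nat_lit 0) (nat_lit 3572) (XT.nd (nat_lit 42900) (nat_lit 0) (nat_lit 3496) (XT.nd (nat_lit 78) (nat_lit 0) (nat_lit 0)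 (XT.lf (nat_lit 0) (nat_lit 28748533172) (nat_lit 76) (nat_lit 328680930969) (nat_lit 152) (nat_lit 2660079029868) (nat_lit 5) (nat_lit 5) (nat_lit 6) (nat_lit 5) (nat_lit 7) (nat_lit 4) (nat_lit 402) (nat_lit 350) (nat_lit 148)) (XT.lf (nat_lit 0) (nat_lit 726817022031) (nat_lit 152) (nat_lit 2435400802891) (nat_lit 0) (nat_lit 65053353861) (nat_lit 5) (nat_lit 5) (nat_lit 7) (nat_lit 4) (nat_lit 5) (nat_lit 4) (nat_lit 403) (nat_lit 350) (nat_lit 147))) (XT.nd (nat_lit 78) (nat_lit 0) (nat_lit 0) (XT.lf (nat_lit 0) (nat_lit 75476882008) (nat_lit 532) (nat_lit 13897009040) (nat_lit 532) (nat_lit 13897009040) (nat_lit 51) (nat_lit 3) (nat_lit 58) (nat_lit 3) (nat_lit 58) (nat_lit 5) (nat_lit 351) (nat_lit 351) (nat_lit 198)) (XT.lf (nat_lit 76) (nat_lit 72671844000) (nat_lit 0) (nat_lit 86069245802) (nat_lit 532) (nat_lit 55922445309) (nat_lit 52) (nat_lit 5) (nat_lit 51) (nat_lit 3)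 (nat_lit 58) (nat_lit 5) (nat_lit 352) (nat_lit 351) (nat_lit 197)))) (XT.nd (nat_lit 156) (nat_lit 0) (nat_lit 0) (XT.nd (nat_lit 78) (nat_lit 0) (nat_lit 0) (XT.lf (nat_lit 0) (nat_lit 168268203222) (nat_lit 456) (nat_lit 40975668234) (nat_lit 532) (nat_lit 14101793564) (nat_lit 52) (nat_lit 5) (nat_lit 58) (nat_lit 5) (nat_lit 59) (nat_lit 5) (nat_lit 353) (nat_lit 351) (nat_lit 196)) (XT.lf (nat_lit 76) (nat_lit 69355423826) (nat_lit 0) (nat_lit 113105494791) (nat_lit 532) (nat_lit 49949172357) (nat_lit 53) (nat_lit 5) (nat_lit 52) (nat_lit 5) (nat_lit 59) (nat_lit 5) (nat_lit 354) (nat_lit 351) (nat_lit 195))) (XT.nd (nat_lit 78) (nat_lit 0) (nat_lit 76) (XT.lf (nat_lit 76) (nat_lit 190843241003) (nat_lit 0) (nat_lit 8066033794) (nat_lit 532) (nat_lit 43200778584) (nat_lit 53) (nat_lit 5) (nat_lit 52) (nat_lit 5) (nat_lit 59) (nat_lit 5) (nat_lit 355) (nat_lit 351) (nat_lit 194))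 (XT.nd (nat_lit 78) (nat_lit 0) (nat_lit 0) (XT.lf (nat_lit 76) (nat_lit 70454070527) (nat_lit 0) (nat_lit 150448046625) (nat_lit 532) (nat_lit 31345606456) (nat_lit 54) (nat_lit 5) (nat_lit 53) (nat_lit 5) (nat_lit 60) (nat_lit 5) (nat_lit 356) (nat_lit 351) (nat_lit 193)) (XT.lf (nat_lit 76) (nat_lit 204607586891) (nat_lit 0) (nat_lit 41652621453) (nat_lit 532) (nat_lit 16807733620) (nat_lit 54) (nat_lit 5) (nat_lit 53) (nat_lit 5) (nat_lit 60) (nat_lit 5) (nat_lit 357) (nat_lit 351) (nat_lit 192))))))))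
noncomputable def xc224 : XT := (XT.nd (nat_lit 1248) (nat_lit 912) (nat_lit 0) (XT.nd (nat_lit 624) (nat_lit 988) (nat_lit 0) (XT.nd (nat_lit 312) (nat_lit 456) (nat_lit 0) (XT.nd (nat_lit 156) (nat_lit 304) (nat_lit 0) (XT.nd (nat_lit 78) (nat_lit 0) (nat_lit 0) (XT.lf (nat_lit 0) (nat_lit 2713830254) (nat_lit 532) (nat_lit 197773879429) (nat_lit 76) (nat_lit 73966974398) (nat_lit 47) (nat_lit 5) (nat_lit 54) (nat_lit 5) (nat_lit 48) (nat_lit 5) (nat_lit 358) (nat_lit 351) (nat_lit 191)) (XT.lf (nat_lit 0) (nat_lit 25610781790) (nat_lit 532) (nat_lit 62226603146) (nat_lit 76) (nat_lit 198662318310) (nat_lit 47) (nat_lit 5) (nat_lit 54) (nat_lit 5) (nat_lit 48) (nat_lit 5) (nat_lit 359) (nat_lit 351) (nat_lit 190))) (XT.nd (nat_lit 78) (nat_lit 0) (nat_lit 0) (XT.lf (nat_lit 0) (nat_lit 53338979087) (nat_lit 380) (nat_lit 211610390263) (nat_lit 76) (nat_lit 34318995589) (nat_lit 43)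 (nat_lit 5) (nat_lit 48) (nat_lit 5) (nat_lit 44) (nat_lit 5) (nat_lit 360) (nat_lit 351) (nat_lit 189)) (XT.lf (nat_lit 0) (nat_lit 87312415540) (nat_lit 380) (nat_lit 62175980090) (nat_lit 76) (nat_lit 163247965419) (nat_lit 43) (nat_lit 5) (nat_lit 48) (nat_lit 5) (nat_lit 44) (nat_lit 5) (nat_lit 361) (nat_lit 351) (nat_lit 188)))) (XT.nd (nat_lit 156) (nat_lit 228) (nat_lit 0) (XT.nd (nat_lit 78) (nat_lit 0) (nat_lit 0) (XT.lf (nat_lit 0) (nat_lit 104437485755) (nat_lit 228) (nat_lit 22077886882) (nat_lit 304) (nat_lit 200565492697) (nat_lit 40) (nat_lit 5) (nat_lit 43) (nat_lit 5) (nat_lit 44) (nat_lit 5) (nat_lit 362) (nat_lit 351) (nat_lit 187)) (XT.lf (nat_lit 0) (nat_lit 173377039194) (nat_lit 304) (nat_lit 57343530905) (nat_lit 76) (nat_lit 111490562161) (nat_lit 40) (nat_lit 5) (nat_lit 44) (nat_lit 5) (nat_lit 41) (nat_lit 5) (nat_lit 363) (nat_lit 351) (nat_lit 186))) (XT.nd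 (nat_lit 78) (nat_lit 0) (nat_lit 0) (XT.lf (nat_lit 0) (nat_lit 126957712481) (nat_lit 228) (nat_lit 100656645144) (nat_lit 304) (nat_lit 130647325552) (nat_lit 37) (nat_lit 5) (nat_lit 40) (nat_lit 5) (nat_lit 41) (nat_lit 5) (nat_lit 364) (nat_lit 351) (nat_lit 185)) (XT.lf (nat_lit 0) (nat_lit 288756682141) (nat_lit 304) (nat_lit 47204912110) (nat_lit 76) (nat_lit 39429402381) (nat_lit 37) (nat_lit 5) (nat_lit 41) (nat_lit 5) (nat_lit 38) (nat_lit 5) (nat_lit 365) (nat_lit 351) (nat_lit 184))))) (XT.nd (nat_lit 312) (nat_lit 532) (nat_lit 0) (XT.nd (nat_lit 156) (nat_lit 228) (nat_lit 0) (XT.nd (nat_lit 78) (nat_lit 76) (nat_lit 0) (XT.lf (nat_lit 0) (nat_lit 156854008218) (nat_lit 152) (nat_lit 204323124116) (nat_lit 228) (nat_lit 32202583755) (nat_lit 35) (nat_lit 5) (nat_lit 37) (nat_lit 5) (nat_lit 38) (nat_lit 5) (nat_lit 366) (nat_lit 351) (nat_lit 183)) (XT.lf (nat_lit 0) (nat_lit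 26577991416) (nat_lit 228) (nat_lit 33454993219) (nat_lit 76) (nat_lit 352617471127) (nat_lit 34) (nat_lit 5) (nat_lit 37) (nat_lit 5) (nat_lit 35) (nat_lit 5) (nat_lit 367) (nat_lit 351) (nat_lit 182))) (XT.nd (nat_lit 78) (nat_lit 0) (nat_lit 0) (XT.lf (nat_lit 0) (nat_lit 95452748025) (nat_lit 304) (nat_lit 240700646763) (nat_lit 76) (nat_lit 96672024536) (nat_lit 31) (nat_lit 5) (nat_lit 35) (nat_lit 5) (nat_lit 32) (nat_lit 5) (nat_lit 368) (nat_lit 351) (nat_lit 181)) (XT.lf (nat_lit 0) (nat_lit 172335207490) (nat_lit 304) (nat_lit 18470799904) (nat_lit 76) (nat_lit 263608554866) (nat_lit 31) (nat_lit 5) (nat_lit 35) (nat_lit 5) (nat_lit 32) (nat_lit 5) (nat_lit 369) (nat_lit 351) (nat_lit 180)))) (XT.nd (nat_lit 156) (nat_lit 228) (nat_lit 0) (XT.nd (nat_lit 78) (nat_lit 152) (nat_lit 0) (XT.lf (nat_lit 0) (nat_lit 233203130392) (nat_lit 152) (nat_lit 27773624483) (nat_lit 228)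 (nat_lit 216305402533) (nat_lit 29) (nat_lit 5) (nat_lit 31) (nat_lit 5) (nat_lit 32) (nat_lit 5) (nat_lit 370) (nat_lit 351) (nat_lit 179)) (XT.lf (nat_lit 0) (nat_lit 571412476) (nat_lit 152) (nat_lit 360236700840) (nat_lit 228) (nat_lit 140843167937) (nat_lit 27) (nat_lit 5) (nat_lit 29) (nat_lit 5) (nat_lit 30) (nat_lit 5) (nat_lit 371) (nat_lit 351) (nat_lit 178))) (XT.nd (nat_lit 78) (nat_lit 228) (nat_lit 0) (XT.lf (nat_lit 0) (nat_lit 277915428340) (nat_lit 152) (nat_lit 198087188720) (nat_lit 228) (nat_lit 51377187076) (nat_lit 27) (nat_lit 5) (nat_lit 29) (nat_lit 5) (nat_lit 30) (nat_lit 5) (nat_lit 372) (nat_lit 351) (nat_lit 177)) (XT.lf (nat_lit 0) (nat_lit 22308060576) (nat_lit 152) (nat_lit 21211085299) (nat_lit 228) (nat_lit 511517492264) (nat_lit 24) (nat_lit 5) (nat_lit 26) (nat_lit 5) (nat_lit 27) (nat_lit 5) (nat_lit 373) (nat_lit 351) (nat_lit 176)))))) (XT.nd (nat_lit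 624) (nat_lit 380) (nat_lit 0) (XT.nd (nat_lit 312) (nat_lit 304) (nat_lit 0) (XT.nd (nat_lit 156) (nat_lit 76) (nat_lit 0) (XT.nd (nat_lit 78) (nat_lit 152) (nat_lit 0) (XT.lf (nat_lit 0) (nat_lit 154313459163) (nat_lit 228) (nat_lit 259946564095) (nat_lit 76) (nat_lit 169652679759) (nat_lit 24) (nat_lit 5) (nat_lit 27) (nat_lit 5) (nat_lit 25) (nat_lit 5) (nat_lit 374) (nat_lit 351) (nat_lit 175)) (XT.lf (nat_lit 0) (nat_lit 35903025247) (nat_lit 152) (nat_lit 239482658511) (nat_lit 228) (nat_lit 339600020073) (nat_lit 22) (nat_lit 5) (nat_lit 24) (nat_lit 5) (nat_lit 25) (nat_lit 5) (nat_lit 375) (nat_lit 351) (nat_lit 174))) (XT.nd (nat_lit 78) (nat_lit 76) (nat_lit 0) (XT.lf (nat_lit 0) (nat_lit 370203912102) (nat_lit 152) (nat_lit 43047135757) (nat_lit 228) (nat_lit 234724907968) (nat_lit 22) (nat_lit 5) (nat_lit 24) (nat_lit 5) (nat_lit 25) (nat_lit 5) (nat_lit 376) (nat_lit 351)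 (nat_lit 173)) (XT.lf (nat_lit 0) (nat_lit 45871104737) (nat_lit 76) (nat_lit 521444638376) (nat_lit 152) (nat_lit 115876076748) (nat_lit 21) (nat_lit 5) (nat_lit 22) (nat_lit 5) (nat_lit 23) (nat_lit 4) (nat_lit 377) (nat_lit 351) (nat_lit 172)))) (XT.nd (nat_lit 156) (nat_lit 76) (nat_lit 0) (XT.nd (nat_lit 78) (nat_lit 152) (nat_lit 0) (XT.lf (nat_lit 0) (nat_lit 20766446599) (nat_lit 152) (nat_lit 311030117234) (nat_lit 76) (nat_lit 388691566894) (nat_lit 20) (nat_lit 5) (nat_lit 22) (nat_lit 5) (nat_lit 21) (nat_lit 5) (nat_lit 378) (nat_lit 351) (nat_lit 171)) (XT.lf (nat_lit 0) (nat_lit 40373554026) (nat_lit 152) (nat_lit 122677451928) (nat_lit 228) (nat_lit 597398682916) (nat_lit 18) (nat_lit 5) (nat_lit 20) (nat_lit 5) (nat_lit 21) (nat_lit 5) (nat_lit 379) (nat_lit 351) (nat_lit 170))) (XT.nd (nat_lit 78) (nat_lit 76) (nat_lit 0) (XT.lf (nat_lit 0) (nat_lit 327924568057) (nat_lit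 228) (nat_lit 368051976387) (nat_lit 76) (nat_lit 106735128209) (nat_lit 18) (nat_lit 5) (nat_lit 21) (nat_lit 5) (nat_lit 19) (nat_lit 4) (nat_lit 380) (nat_lit 351) (nat_lit 169)) (XT.lf (nat_lit 0) (nat_lit 9418802620) (nat_lit 76) (nat_lit 499982132381) (nat_lit 152) (nat_lit 338680646573) (nat_lit 17) (nat_lit 5) (nat_lit 18) (nat_lit 5) (nat_lit 19) (nat_lit 4) (nat_lit 381) (nat_lit 351) (nat_lit 168))))) (XT.nd (nat_lit 312) (nat_lit 228) (nat_lit 0) (XT.nd (nat_lit 156) (nat_lit 152) (nat_lit 0) (XT.nd (nat_lit 78) (nat_lit 0) (nat_lit 0) (XT.lf (nat_lit 0) (nat_lit 438018635813) (nat_lit 76) (nat_lit 277439939896) (nat_lit 152) (nat_lit 180817454372) (nat_lit 17) (nat_lit 5) (nat_lit 18) (nat_lit 5) (nat_lit 19) (nat_lit 4) (nat_lit 382) (nat_lit 351) (nat_lit 167)) (XT.lf (nat_lit 0) (nat_lit 900906409223) (nat_lit 76) (nat_lit 37094391718) (nat_lit 152) (nat_lit 10325235688)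 (nat_lit 17) (nat_lit 5) (nat_lit 18) (nat_lit 5) (nat_lit 19) (nat_lit 4) (nat_lit 383) (nat_lit 351) (nat_lit 166))) (XT.nd (nat_lit 78) (nat_lit 0) (nat_lit 0) (XT.lf (nat_lit 0) (nat_lit 180755576955) (nat_lit 152) (nat_lit 596375907090) (nat_lit 76) (nat_lit 225822658740) (nat_lit 15) (nat_lit 5) (nat_lit 17) (nat_lit 5) (nat_lit 16) (nat_lit 4) (nat_lit 384) (nat_lit 351) (nat_lit 165)) (XT.lf (nat_lit 0) (nat_lit 388858702292) (nat_lit 152) (nat_lit 163521450107) (nat_lit 76) (nat_lit 509367395729) (nat_lit 15) (nat_lit 5) (nat_lit 17) (nat_lit 5) (nat_lit 16) (nat_lit 4) (nat_lit 385) (nat_lit 351) (nat_lit 164)))) (XT.nd (nat_lit 156) (nat_lit 152) (nat_lit 0) (XT.nd (nat_lit 78) (nat_lit 0) (nat_lit 0) (XT.lf (nat_lit 0) (nat_lit 319967386532) (nat_lit 76) (nat_lit 301337891299) (nat_lit 152) (nat_lit 503323532072) (nat_lit 14) (nat_lit 5) (nat_lit 15) (nat_lit 5) (nat_lit 16)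 (nat_lit 4) (nat_lit 386) (nat_lit 351) (nat_lit 163)) (XT.lf (nat_lit 0) (nat_lit 851434899460) (nat_lit 76) (nat_lit 25383623760) (nat_lit 152) (nat_lit 315364373908) (nat_lit 14) (nat_lit 5) (nat_lit 15) (nat_lit 5) (nat_lit 16) (nat_lit 4) (nat_lit 387) (nat_lit 351) (nat_lit 162))) (XT.nd (nat_lit 78) (nat_lit 76) (nat_lit 0) (XT.lf (nat_lit 0) (nat_lit 161815987930) (nat_lit 76) (nat_lit 1001405664100) (nat_lit 76) (nat_lit 101083753412) (nat_lit 13) (nat_lit 4) (nat_lit 14) (nat_lit 5) (nat_lit 14) (nat_lit 4) (nat_lit 388) (nat_lit 351) (nat_lit 161)) (XT.lf (nat_lit 0) (nat_lit 134037155209) (nat_lit 152) (nat_lit 621524657607) (nat_lit 76) (nat_lit 585567693403) (nat_lit 12) (nat_lit 5) (nat_lit 14) (nat_lit 5) (nat_lit 13) (nat_lit 4) (nat_lit 389) (nat_lit 351) (nat_lit 160)))))))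
noncomputable def xc225 : XT := (XT.nd (nat_lit 44148) (nat_lit 0) (nat_lit 1748) (XT.nd (nat_lit 624) (nat_lit 152) (nat_lit 0) (XT.nd (nat_lit 312) (nat_lit 152) (nat_lit 0) (XT.nd (nat_lit 156) (nat_lit 76) (nat_lit 0) (XT.nd (nat_lit 78) (nat_lit 76) (nat_lit 0) (XT.lf (nat_lit 0) (nat_lit 382506568797) (nat_lit 152) (nat_lit 104708304894) (nat_lit 76) (nat_lit 936674618774) (nat_lit 12) (nat_lit 5) (nat_lit 14) (nat_lit 5) (nat_lit 13) (nat_lit 4) (nat_lit 390) (nat_lit 351) (nat_lit 159)) (XT.lf (nat_lit 0) (nat_lit 477331371135) (nat_lit 76) (nat_lit 185001977248) (nat_lit 152) (nat_lit 850018544205) (nat_lit 11) (nat_lit 5) (nat_lit 12) (nat_lit 5) (nat_lit 13) (nat_lit 4) (nat_lit 391) (nat_lit 351) (nat_lit 158))) (XT.nd (nat_lit 78) (nat_lit 76) (nat_lit 0) (XT.lf (nat_lit 0) (nat_lit 970883908039) (nat_lit 152) (nat_lit 499247954973) (nat_lit 0) (nat_lit 137252410703) (nat_lit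 11) (nat_lit 5) (nat_lit 13) (nat_lit 4) (nat_lit 11) (nat_lit 4) (nat_lit 392) (nat_lit 351) (nat_lit 157)) (XT.lf (nat_lit 0) (nat_lit 78508450297) (nat_lit 76) (nat_lit 1232303421925) (nat_lit 76) (nat_lit 398671904338) (nat_lit 10) (nat_lit 4) (nat_lit 11) (nat_lit 5) (nat_lit 11) (nat_lit 4) (nat_lit 393) (nat_lit 351) (nat_lit 156)))) (XT.nd (nat_lit 156) (nat_lit 76) (nat_lit 0) (XT.nd (nat_lit 78) (nat_lit 76) (nat_lit 0) (XT.lf (nat_lit 0) (nat_lit 730878011333) (nat_lit 76) (nat_lit 960706370010) (nat_lit 76) (nat_lit 127074833673) (nat_lit 10) (nat_lit 4) (nat_lit 11) (nat_lit 5) (nat_lit 11) (nat_lit 4) (nat_lit 394) (nat_lit 351) (nat_lit 155)) (XT.lf (nat_lit 0) (nat_lit 157933488961) (nat_lit 152) (nat_lit 505129896657) (nat_lit 76) (nat_lit 1273185438832) (nat_lit 9) (nat_lit 5) (nat_lit 11) (nat_lit 5) (nat_lit 10) (nat_lit 4) (nat_lit 395) (nat_lit 351) (nat_lit 154)))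 (XT.nd (nat_lit 78) (nat_lit 0) (nat_lit 0) (XT.lf (nat_lit 0) (nat_lit 127195686628) (nat_lit 76) (nat_lit 334740494334) (nat_lit 152) (nat_lit 1600800646465) (nat_lit 8) (nat_lit 5) (nat_lit 9) (nat_lit 5) (nat_lit 10) (nat_lit 4) (nat_lit 396) (nat_lit 351) (nat_lit 153)) (XT.lf (nat_lit 0) (nat_lit 804906302329) (nat_lit 152) (nat_lit 1360240585773) (nat_lit 0) (nat_lit 33025205423) (nat_lit 8) (nat_lit 5) (nat_lit 10) (nat_lit 4) (nat_lit 8) (nat_lit 4) (nat_lit 397) (nat_lit 351) (nat_lit 152))))) (XT.nd (nat_lit 312) (nat_lit 76) (nat_lit 0) (XT.nd (nat_lit 156) (nat_lit 76) (nat_lit 0) (XT.nd (nat_lit 78) (nat_lit 0) (nat_lit 0) (XT.lf (nat_lit 0) (nat_lit 1184008578754) (nat_lit 152) (nat_lit 747610569449) (nat_lit 0) (nat_lit 412127469087) (nat_lit 8) (nat_lit 5) (nat_lit 10) (nat_lit 4) (nat_lit 8) (nat_lit 4) (nat_lit 398) (nat_lit 351) (nat_lit 151)) (XT.lf (nat_lit 0) (nat_lit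 1593439025306) (nat_lit 152) (nat_lit 85970174790) (nat_lit 0) (nat_lit 821557903824) (nat_lit 8) (nat_lit 5) (nat_lit 10) (nat_lit 4) (nat_lit 8) (nat_lit 4) (nat_lit 399) (nat_lit 351) (nat_lit 150))) (XT.nd (nat_lit 78) (nat_lit 0) (nat_lit 0) (XT.lf (nat_lit 0) (nat_lit 661702467507) (nat_lit 76) (nat_lit 1389835389234) (nat_lit 76) (nat_lit 617954256811) (nat_lit 7) (nat_lit 4) (nat_lit 8) (nat_lit 5) (nat_lit 8) (nat_lit 4) (nat_lit 400) (nat_lit 351) (nat_lit 149)) (XT.lf (nat_lit 0) (nat_lit 1474078100474) (nat_lit 76) (nat_lit 1074557060373) (nat_lit 76) (nat_lit 302675917819) (nat_lit 7) (nat_lit 4) (nat_lit 8) (nat_lit 5) (nat_lit 8) (nat_lit 4) (nat_lit 401) (nat_lit 351) (nat_lit 148)))) (XT.nd (nat_lit 43056) (nat_lit 0) (nat_lit 3420) (XT.nd (nat_lit 42978) (nat_lit 0) (nat_lit 3420) (XT.lf (nat_lit 0) (nat_lit 35932533951) (nat_lit 152) (nat_lit 697141481314) (nat_lit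 76) (nat_lit 2314528771776) (nat_lit 6) (nat_lit 5) (nat_lit 8) (nat_lit 5) (nat_lit 7) (nat_lit 4) (nat_lit 402) (nat_lit 351) (nat_lit 147)) (XT.lf (nat_lit 0) (nat_lit 81516414152) (nat_lit 532) (nat_lit 15008022217) (nat_lit 532) (nat_lit 15008022217) (nat_lit 51) (nat_lit 3) (nat_lit 58) (nat_lit 3) (nat_lit 58) (nat_lit 5) (nat_lit 352) (nat_lit 352) (nat_lit 196))) (XT.nd (nat_lit 78) (nat_lit 0) (nat_lit 76) (XT.lf (nat_lit 76) (nat_lit 78487048761) (nat_lit 0) (nat_lit 92955921761) (nat_lit 532) (nat_lit 60393434395) (nat_lit 52) (nat_lit 5) (nat_lit 51) (nat_lit 3) (nat_lit 58) (nat_lit 5) (nat_lit 353) (nat_lit 352) (nat_lit 195)) (XT.lf (nat_lit 0) (nat_lit 181732035598) (nat_lit 456) (nat_lit 44252149867) (nat_lit 532) (nat_lit 15228937556) (nat_lit 52) (nat_lit 5) (nat_lit 58) (nat_lit 5) (nat_lit 59) (nat_lit 5) (nat_lit 354) (nat_lit 352) (nat_lit 194)))))) (XT.nd (nat_lit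 624) (nat_lit 1064) (nat_lit 0) (XT.nd (nat_lit 312) (nat_lit 684) (nat_lit 0) (XT.nd (nat_lit 156) (nat_lit 0) (nat_lit 76) (XT.nd (nat_lit 78) (nat_lit 0) (nat_lit 0) (XT.lf (nat_lit 76) (nat_lit 74905389765) (nat_lit 0) (nat_lit 122154639297) (nat_lit 532) (nat_lit 53942685502) (nat_lit 53) (nat_lit 5) (nat_lit 52) (nat_lit 5) (nat_lit 59) (nat_lit 5) (nat_lit 355) (nat_lit 352) (nat_lit 193)) (XT.lf (nat_lit 76) (nat_lit 206112118831) (nat_lit 0) (nat_lit 8711969203) (nat_lit 532) (nat_lit 46654599534) (nat_lit 53) (nat_lit 5) (nat_lit 52) (nat_lit 5) (nat_lit 59) (nat_lit 5) (nat_lit 356) (nat_lit 352) (nat_lit 192))) (XT.nd (nat_lit 78) (nat_lit 0) (nat_lit 0) (XT.lf (nat_lit 76) (nat_lit 76091959881) (nat_lit 0) (nat_lit 162484267544) (nat_lit 532) (nat_lit 33851154743) (nat_lit 54) (nat_lit 5) (nat_lit 53) (nat_lit 5) (nat_lit 60) (nat_lit 5) (nat_lit 357) (nat_lit 352) (nat_lit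 191)) (XT.lf (nat_lit 76) (nat_lit 220977641724) (nat_lit 0) (nat_lit 44985180418) (nat_lit 532) (nat_lit 18150407652) (nat_lit 54) (nat_lit 5) (nat_lit 53) (nat_lit 5) (nat_lit 60) (nat_lit 5) (nat_lit 358) (nat_lit 352) (nat_lit 190)))) (XT.nd (nat_lit 156) (nat_lit 304) (nat_lit 0) (XT.nd (nat_lit 78) (nat_lit 0) (nat_lit 0) (XT.lf (nat_lit 0) (nat_lit 2932677802) (nat_lit 532) (nat_lit 213594131672) (nat_lit 76) (nat_lit 79884106822) (nat_lit 47) (nat_lit 5) (nat_lit 54) (nat_lit 5) (nat_lit 48) (nat_lit 5) (nat_lit 359) (nat_lit 352) (nat_lit 189)) (XT.lf (nat_lit 0) (nat_lit 27661256489) (nat_lit 532) (nat_lit 67203196110) (nat_lit 76) (nat_lit 214555094953) (nat_lit 47) (nat_lit 5) (nat_lit 54) (nat_lit 5) (nat_lit 48) (nat_lit 5) (nat_lit 360) (nat_lit 352) (nat_lit 188))) (XT.nd (nat_lit 78) (nat_lit 0) (nat_lit 0) (XT.lf (nat_lit 0) (nat_lit 57607625362) (nat_lit 380) (nat_lit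 228537599228) (nat_lit 76) (nat_lit 37064484547) (nat_lit 43) (nat_lit 5) (nat_lit 48) (nat_lit 5) (nat_lit 44) (nat_lit 5) (nat_lit 361) (nat_lit 352) (nat_lit 187)) (XT.lf (nat_lit 0) (nat_lit 94298823550) (nat_lit 380) (nat_lit 67148556409) (nat_lit 76) (nat_lit 176307774237) (nat_lit 43) (nat_lit 5) (nat_lit 48) (nat_lit 5) (nat_lit 44) (nat_lit 5) (nat_lit 362) (nat_lit 352) (nat_lit 186))))) (XT.nd (nat_lit 312) (nat_lit 608) (nat_lit 0) (XT.nd (nat_lit 156) (nat_lit 228) (nat_lit 0) (XT.nd (nat_lit 78) (nat_lit 0) (nat_lit 0) (XT.lf (nat_lit 0) (nat_lit 112793948676) (nat_lit 228) (nat_lit 23843998951) (nat_lit 304) (nat_lit 216609276952) (nat_lit 40) (nat_lit 5) (nat_lit 43) (nat_lit 5) (nat_lit 44) (nat_lit 5) (nat_lit 363) (nat_lit 352) (nat_lit 185)) (XT.lf (nat_lit 0) (nat_lit 187248450514) (nat_lit 304) (nat_lit 61929558578) (nat_lit 76) (nat_lit 120409911702) (nat_lit 40)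 (nat_lit 5) (nat_lit 44) (nat_lit 5) (nat_lit 41) (nat_lit 5) (nat_lit 364) (nat_lit 352) (nat_lit 184))) (XT.nd (nat_lit 78) (nat_lit 0) (nat_lit 0) (XT.lf (nat_lit 0) (nat_lit 137115747449) (nat_lit 228) (nat_lit 108708948614) (nat_lit 304) (nat_lit 141097824552) (nat_lit 37) (nat_lit 5) (nat_lit 40) (nat_lit 5) (nat_lit 41) (nat_lit 5) (nat_lit 365) (nat_lit 352) (nat_lit 183)) (XT.lf (nat_lit 0) (nat_lit 311858323485) (nat_lit 304) (nat_lit 50979907210) (nat_lit 76) (nat_lit 42583955246) (nat_lit 37) (nat_lit 5) (nat_lit 41) (nat_lit 5) (nat_lit 38) (nat_lit 5) (nat_lit 366) (nat_lit 352) (nat_lit 182)))) (XT.nd (nat_lit 156) (nat_lit 380) (nat_lit 0) (XT.nd (nat_lit 78) (nat_lit 76) (nat_lit 0) (XT.lf (nat_lit 0) (nat_lit 169403691355) (nat_lit 152) (nat_lit 220668669123) (nat_lit 228) (nat_lit 34777646553) (nat_lit 35) (nat_lit 5) (nat_lit 37) (nat_lit 5) (nat_lit 38) (nat_lit 5)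 (nat_lit 367) (nat_lit 352) (nat_lit 181)) (XT.lf (nat_lit 0) (nat_lit 28705236914) (nat_lit 228) (nat_lit 36130076646) (nat_lit 76) (nat_lit 380827096677) (nat_lit 34) (nat_lit 5) (nat_lit 37) (nat_lit 5) (nat_lit 35) (nat_lit 5) (nat_lit 368) (nat_lit 352) (nat_lit 180))) (XT.nd (nat_lit 78) (nat_lit 152) (nat_lit 0) (XT.lf (nat_lit 0) (nat_lit 103089938070) (nat_lit 304) (nat_lit 259955345110) (nat_lit 76) (nat_lit 104406090692) (nat_lit 31) (nat_lit 5) (nat_lit 35) (nat_lit 5) (nat_lit 32) (nat_lit 5) (nat_lit 369) (nat_lit 352) (nat_lit 179)) (XT.nd (nat_lit 78) (nat_lit 152) (nat_lit 0) (XT.lf (nat_lit 0) (nat_lit 186122922425) (nat_lit 304) (nat_lit 19947210754) (nat_lit 76) (nat_lit 284697520916) (nat_lit 31) (nat_lit 5) (nat_lit 35) (nat_lit 5) (nat_lit 32) (nat_lit 5) (nat_lit 370) (nat_lit 352) (nat_lit 178)) (XT.lf (nat_lit 0) (nat_lit 251860602241) (nat_lit 152) (nat_lit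 29995154192) (nat_lit 228) (nat_lit 233608903490) (nat_lit 29) (nat_lit 5) (nat_lit 31) (nat_lit 5) (nat_lit 32) (nat_lit 5) (nat_lit 371) (nat_lit 352) (nat_lit 177))))))))
noncomputable def xc226 : XT := (XT.nd (nat_lit 1248) (nat_lit 532) (nat_lit 0) (XT.nd (nat_lit 624) (nat_lit 456) (nat_lit 0) (XT.nd (nat_lit 312) (nat_lit 304) (nat_lit 0) (XT.nd (nat_lit 156) (nat_lit 228) (nat_lit 0) (XT.nd (nat_lit 78) (nat_lit 0) (nat_lit 0) (XT.lf (nat_lit 0) (nat_lit 618375829) (nat_lit 152) (nat_lit 389055222024) (nat_lit 228) (nat_lit 152109717967) (nat_lit 27) (nat_lit 5) (nat_lit 29) (nat_lit 5) (nat_lit 30) (nat_lit 5) (nat_lit 372) (nat_lit 352) (nat_lit 176)) (XT.lf (nat_lit 0) (nat_lit 300149820342) (nat_lit 152) (nat_lit 213933779667) (nat_lit 228) (nat_lit 55486525556) (nat_lit 27) (nat_lit 5) (nat_lit 29) (nat_lit 5) (nat_lit 30) (nat_lit 5) (nat_lit 373) (nat_lit 352) (nat_lit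 175))) (XT.nd (nat_lit 78) (nat_lit 0) (nat_lit 0) (XT.lf (nat_lit 0) (nat_lit 24093875549) (nat_lit 152) (nat_lit 22907565917) (nat_lit 228) (nat_lit 552438065740) (nat_lit 24) (nat_lit 5) (nat_lit 26) (nat_lit 5) (nat_lit 27) (nat_lit 5) (nat_lit 374) (nat_lit 352) (nat_lit 174)) (XT.lf (nat_lit 0) (nat_lit 166659252276) (nat_lit 228) (nat_lit 280741157425) (nat_lit 76) (nat_lit 183225251442) (nat_lit 24) (nat_lit 5) (nat_lit 27) (nat_lit 5) (nat_lit 25) (nat_lit 5) (nat_lit 375) (nat_lit 352) (nat_lit 173)))) (XT.nd (nat_lit 156) (nat_lit 152) (nat_lit 0) (XT.nd (nat_lit 78) (nat_lit 0) (nat_lit 0) (XT.lf (nat_lit 0) (nat_lit 38776370411) (nat_lit 152) (nat_lit 258640857892) (nat_lit 228) (nat_lit 366767275900) (nat_lit 22) (nat_lit 5) (nat_lit 24) (nat_lit 5) (nat_lit 25) (nat_lit 5) (nat_lit 376) (nat_lit 352) (nat_lit 172)) (XT.lf (nat_lit 0) (nat_lit 399821246501) (nat_lit 152)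 (nat_lit 46490523933) (nat_lit 228) (nat_lit 253502210069) (nat_lit 22) (nat_lit 5) (nat_lit 24) (nat_lit 5) (nat_lit 25) (nat_lit 5) (nat_lit 377) (nat_lit 352) (nat_lit 171))) (XT.nd (nat_lit 78) (nat_lit 76) (nat_lit 0) (XT.lf (nat_lit 0) (nat_lit 49541830197) (nat_lit 76) (nat_lit 563159797261) (nat_lit 152) (nat_lit 125145487361) (nat_lit 21) (nat_lit 5) (nat_lit 22) (nat_lit 5) (nat_lit 23) (nat_lit 4) (nat_lit 378) (nat_lit 352) (nat_lit 170)) (XT.lf (nat_lit 0) (nat_lit 22428356525) (nat_lit 152) (nat_lit 335911534515) (nat_lit 76) (nat_lit 419787242061) (nat_lit 20) (nat_lit 5) (nat_lit 22) (nat_lit 5) (nat_lit 21) (nat_lit 5) (nat_lit 379) (nat_lit 352) (nat_lit 169))))) (XT.nd (nat_lit 312) (nat_lit 228) (nat_lit 0) (XT.nd (nat_lit 156) (nat_lit 76) (nat_lit 0) (XT.nd (nat_lit 78) (nat_lit 0) (nat_lit 0) (XT.lf (nat_lit 0) (nat_lit 43604405330) (nat_lit 152) (nat_lit 132491254540)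 (nat_lit 228) (nat_lit 645189957727) (nat_lit 18) (nat_lit 5) (nat_lit 20) (nat_lit 5) (nat_lit 21) (nat_lit 5) (nat_lit 380) (nat_lit 352) (nat_lit 168)) (XT.lf (nat_lit 0) (nat_lit 354159073227) (nat_lit 228) (nat_lit 397495204961) (nat_lit 76) (nat_lit 115274284628) (nat_lit 18) (nat_lit 5) (nat_lit 21) (nat_lit 5) (nat_lit 19) (nat_lit 4) (nat_lit 381) (nat_lit 352) (nat_lit 167))) (XT.nd (nat_lit 78) (nat_lit 0) (nat_lit 0) (XT.lf (nat_lit 0) (nat_lit 10173212833) (nat_lit 76) (nat_lit 539980318503) (nat_lit 152) (nat_lit 365774534605) (nat_lit 17) (nat_lit 5) (nat_lit 18) (nat_lit 5) (nat_lit 19) (nat_lit 4) (nat_lit 382) (nat_lit 352) (nat_lit 166)) (XT.lf (nat_lit 0) (nat_lit 473060965571) (nat_lit 76) (nat_lit 299634779098) (nat_lit 152) (nat_lit 195282328783) (nat_lit 17) (nat_lit 5) (nat_lit 18) (nat_lit 5) (nat_lit 19) (nat_lit 4) (nat_lit 383) (nat_lit 352) (nat_lit 165))))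 (XT.nd (nat_lit 156) (nat_lit 76) (nat_lit 0) (XT.nd (nat_lit 78) (nat_lit 152) (nat_lit 0) (XT.lf (nat_lit 0) (nat_lit 972979698714) (nat_lit 76) (nat_lit 40061613436) (nat_lit 152) (nat_lit 11150771266) (nat_lit 17) (nat_lit 5) (nat_lit 18) (nat_lit 5) (nat_lit 19) (nat_lit 4) (nat_lit 384) (nat_lit 352) (nat_lit 164)) (XT.lf (nat_lit 0) (nat_lit 195216475095) (nat_lit 152) (nat_lit 644085170947) (nat_lit 76) (nat_lit 243888791687) (nat_lit 15) (nat_lit 5) (nat_lit 17) (nat_lit 5) (nat_lit 16) (nat_lit 4) (nat_lit 385) (nat_lit 352) (nat_lit 163))) (XT.nd (nat_lit 78) (nat_lit 76) (nat_lit 0) (XT.lf (nat_lit 0) (nat_lit 419967816979) (nat_lit 152) (nat_lit 176602417310) (nat_lit 76) (nat_lit 550117083913) (nat_lit 15) (nat_lit 5) (nat_lit 17) (nat_lit 5) (nat_lit 16) (nat_lit 4) (nat_lit 386) (nat_lit 352) (nat_lit 162)) (XT.lf (nat_lit 0) (nat_lit 345565507303) (nat_lit 76) (nat_lit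 325444597810) (nat_lit 152) (nat_lit 543588976902) (nat_lit 14) (nat_lit 5) (nat_lit 15) (nat_lit 5) (nat_lit 16) (nat_lit 4) (nat_lit 387) (nat_lit 352) (nat_lit 161)))))) (XT.nd (nat_lit 624) (nat_lit 228) (nat_lit 0) (XT.nd (nat_lit 312) (nat_lit 152) (nat_lit 0) (XT.nd (nat_lit 156) (nat_lit 76) (nat_lit 0) (XT.nd (nat_lit 78) (nat_lit 76) (nat_lit 0) (XT.lf (nat_lit 0) (nat_lit 919550367203) (nat_lit 76) (nat_lit 27414012926) (nat_lit 152) (nat_lit 340593118510) (nat_lit 14) (nat_lit 5) (nat_lit 15) (nat_lit 5) (nat_lit 16) (nat_lit 4) (nat_lit 388) (nat_lit 352) (nat_lit 160)) (XT.lf (nat_lit 0) (nat_lit 174761948085) (nat_lit 76) (nat_lit 1081517806456) (nat_lit 76) (nat_lit 109170053473) (nat_lit 13) (nat_lit 4) (nat_lit 14) (nat_lit 5) (nat_lit 14) (nat_lit 4) (nat_lit 389) (nat_lit 352) (nat_lit 159))) (XT.nd (nat_lit 78) (nat_lit 0) (nat_lit 0) (XT.lf (nat_lit 0) (nat_lit 144760479655)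 (nat_lit 152) (nat_lit 671245980809) (nat_lit 76) (nat_lit 632413377888) (nat_lit 12) (nat_lit 5) (nat_lit 14) (nat_lit 5) (nat_lit 13) (nat_lit 4) (nat_lit 390) (nat_lit 352) (nat_lit 158)) (XT.lf (nat_lit 0) (nat_lit 413107420254) (nat_lit 152) (nat_lit 113084367984) (nat_lit 76) (nat_lit 1011608837362) (nat_lit 12) (nat_lit 5) (nat_lit 14) (nat_lit 5) (nat_lit 13) (nat_lit 4) (nat_lit 391) (nat_lit 352) (nat_lit 157)))) (XT.nd (nat_lit 156) (nat_lit 76) (nat_lit 0) (XT.nd (nat_lit 78) (nat_lit 0) (nat_lit 0) (XT.lf (nat_lit 0) (nat_lit 515518466905) (nat_lit 76) (nat_lit 199801865252) (nat_lit 152) (nat_lit 918019686393) (nat_lit 11) (nat_lit 5) (nat_lit 12) (nat_lit 5) (nat_lit 13) (nat_lit 4) (nat_lit 392) (nat_lit 352) (nat_lit 156)) (XT.lf (nat_lit 0) (nat_lit 1048554919202) (nat_lit 152) (nat_lit 539187231161) (nat_lit 0) (nat_lit 148232841208) (nat_lit 11) (nat_lit 5) (nat_lit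 13) (nat_lit 4) (nat_lit 11) (nat_lit 4) (nat_lit 393) (nat_lit 352) (nat_lit 155))) (XT.nd (nat_lit 78) (nat_lit 0) (nat_lit 0) (XT.lf (nat_lit 0) (nat_lit 84789672348) (nat_lit 76) (nat_lit 1330887439191) (nat_lit 76) (nat_lit 430565343835) (nat_lit 10) (nat_lit 4) (nat_lit 11) (nat_lit 5) (nat_lit 11) (nat_lit 4) (nat_lit 394) (nat_lit 352) (nat_lit 154)) (XT.lf (nat_lit 0) (nat_lit 789348757820) (nat_lit 76) (nat_lit 1037562642122) (nat_lit 76) (nat_lit 137240530691) (nat_lit 10) (nat_lit 4) (nat_lit 11) (nat_lit 5) (nat_lit 11) (nat_lit 4) (nat_lit 395) (nat_lit 352) (nat_lit 153))))) (XT.nd (nat_lit 312) (nat_lit 76) (nat_lit 0) (XT.nd (nat_lit 156) (nat_lit 0) (nat_lit 0) (XT.nd (nat_lit 78) (nat_lit 76) (nat_lit 0) (XT.lf (nat_lit 0) (nat_lit 170568422880) (nat_lit 152) (nat_lit 545539806724) (nat_lit 76) (nat_lit 1375040480301) (nat_lit 9) (nat_lit 5) (nat_lit 11) (nat_lit 5)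 (nat_lit 10) (nat_lit 4) (nat_lit 396) (nat_lit 352) (nat_lit 152)) (XT.lf (nat_lit 0) (nat_lit 137371811030) (nat_lit 76) (nat_lit 361519511627) (nat_lit 152) (nat_lit 1728864431078) (nat_lit 8) (nat_lit 5) (nat_lit 9) (nat_lit 5) (nat_lit 10) (nat_lit 4) (nat_lit 397) (nat_lit 352) (nat_lit 151))) (XT.nd (nat_lit 78) (nat_lit 0) (nat_lit 0) (XT.lf (nat_lit 0) (nat_lit 869299040370) (nat_lit 152) (nat_lit 1469059384475) (nat_lit 0) (nat_lit 35667417353) (nat_lit 8) (nat_lit 5) (nat_lit 10) (nat_lit 4) (nat_lit 8) (nat_lit 4) (nat_lit 398) (nat_lit 352) (nat_lit 150)) (XT.lf (nat_lit 0) (nat_lit 1278729481587) (nat_lit 152) (nat_lit 807419000042) (nat_lit 0) (nat_lit 445097847629) (nat_lit 8) (nat_lit 5) (nat_lit 10) (nat_lit 4) (nat_lit 8) (nat_lit 4) (nat_lit 399) (nat_lit 352) (nat_lit 149)))) (XT.nd (nat_lit 156) (nat_lit 0) (nat_lit 0) (XT.nd (nat_lit 78) (nat_lit 76) (nat_lit 0)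 (XT.lf (nat_lit 0) (nat_lit 1720914347824) (nat_lit 152) (nat_lit 92847404548) (nat_lit 0) (nat_lit 887282703736) (nat_lit 8) (nat_lit 5) (nat_lit 10) (nat_lit 4) (nat_lit 8) (nat_lit 4) (nat_lit 400) (nat_lit 352) (nat_lit 148)) (XT.lf (nat_lit 0) (nat_lit 714639039405) (nat_lit 76) (nat_lit 1501022040523) (nat_lit 76) (nat_lit 667390387055) (nat_lit 7) (nat_lit 4) (nat_lit 8) (nat_lit 5) (nat_lit 8) (nat_lit 4) (nat_lit 401) (nat_lit 352) (nat_lit 147))) (XT.nd (nat_lit 43056) (nat_lit 0) (nat_lit 3344) (XT.lf (nat_lit 0) (nat_lit 1592004695269) (nat_lit 76) (nat_lit 1160521458676) (nat_lit 76) (nat_lit 326889796523) (nat_lit 7) (nat_lit 4) (nat_lit 8) (nat_lit 5) (nat_lit 8) (nat_lit 4) (nat_lit 402) (nat_lit 352) (nat_lit 146)) (XT.lf (nat_lit 0) (nat_lit 88038911770) (nat_lit 532) (nat_lit 16208023095) (nat_lit 532) (nat_lit 16208023095) (nat_lit 51) (nat_lit 3) (nat_lit 58) (nat_lit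 3) (nat_lit 58) (nat_lit 5) (nat_lit 353) (nat_lit 353) (nat_lit 194)))))))
noncomputable def xc227 : XT := (XT.nd (nat_lit 1248) (nat_lit 1444) (nat_lit 0) (XT.nd (nat_lit 624) (nat_lit 988) (nat_lit 0) (XT.nd (nat_lit 312) (nat_lit 304) (nat_lit 0) (XT.nd (nat_lit 156) (nat_lit 0) (nat_lit 76) (XT.nd (nat_lit 78) (nat_lit 0) (nat_lit 76) (XT.lf (nat_lit 76) (nat_lit 84767262011) (nat_lit 0) (nat_lit 100393369692) (nat_lit 532) (nat_lit 65222502993) (nat_lit 52) (nat_lit 5) (nat_lit 51) (nat_lit 3) (nat_lit 58) (nat_lit 5) (nat_lit 354) (nat_lit 353) (nat_lit 193)) (XT.lf (nat_lit 0) (nat_lit 196272635585) (nat_lit 456) (nat_lit 47790974269) (nat_lit 532) (nat_lit 16446395656) (nat_lit 52) (nat_lit 5) (nat_lit 58) (nat_lit 5) (nat_lit 59) (nat_lit 5) (nat_lit 355) (nat_lit 353) (nat_lit 192))) (XT.nd (nat_lit 78) (nat_lit 0) (nat_lit 0) (XT.lf (nat_lit 76) (nat_lit 80899134417) (nat_lit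 0) (nat_lit 131927614798) (nat_lit 532) (nat_lit 58256025030) (nat_lit 53) (nat_lit 5) (nat_lit 52) (nat_lit 5) (nat_lit 59) (nat_lit 5) (nat_lit 356) (nat_lit 353) (nat_lit 191)) (XT.lf (nat_lit 76) (nat_lit 222602304514) (nat_lit 0) (nat_lit 9409486330) (nat_lit 532) (nat_lit 50385045912) (nat_lit 53) (nat_lit 5) (nat_lit 52) (nat_lit 5) (nat_lit 59) (nat_lit 5) (nat_lit 357) (nat_lit 353) (nat_lit 190)))) (XT.nd (nat_lit 156) (nat_lit 456) (nat_lit 0) (XT.nd (nat_lit 78) (nat_lit 0) (nat_lit 0) (XT.lf (nat_lit 76) (nat_lit 82180657303) (nat_lit 0) (nat_lit 175483332326) (nat_lit 532) (nat_lit 36557446514) (nat_lit 54) (nat_lit 5) (nat_lit 53) (nat_lit 5) (nat_lit 60) (nat_lit 5) (nat_lit 358) (nat_lit 353) (nat_lit 189)) (XT.lf (nat_lit 76) (nat_lit 238657094387) (nat_lit 0) (nat_lit 48584294276) (nat_lit 532) (nat_lit 19600773034) (nat_lit 54) (nat_lit 5) (nat_lit 53) (nat_lit 5)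 (nat_lit 60) (nat_lit 5) (nat_lit 359) (nat_lit 353) (nat_lit 188))) (XT.nd (nat_lit 78) (nat_lit 0) (nat_lit 0) (XT.lf (nat_lit 0) (nat_lit 3168784762) (nat_lit 532) (nat_lit 230680240644) (nat_lit 76) (nat_lit 86274642014) (nat_lit 47) (nat_lit 5) (nat_lit 54) (nat_lit 5) (nat_lit 48) (nat_lit 5) (nat_lit 360) (nat_lit 353) (nat_lit 187)) (XT.lf (nat_lit 0) (nat_lit 29875539171) (nat_lit 532) (nat_lit 72578135537) (nat_lit 76) (nat_lit 231719323518) (nat_lit 47) (nat_lit 5) (nat_lit 54) (nat_lit 5) (nat_lit 48) (nat_lit 5) (nat_lit 361) (nat_lit 353) (nat_lit 186))))) (XT.nd (nat_lit 312) (nat_lit 456) (nat_lit 0) (XT.nd (nat_lit 156) (nat_lit 228) (nat_lit 0) (XT.nd (nat_lit 78) (nat_lit 0) (nat_lit 0) (XT.lf (nat_lit 0) (nat_lit 62217545360) (nat_lit 380) (nat_lit 246819216344) (nat_lit 76) (nat_lit 40029617000) (nat_lit 43) (nat_lit 5) (nat_lit 48) (nat_lit 5) (nat_lit 44) (nat_lit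 5) (nat_lit 362) (nat_lit 353) (nat_lit 185)) (XT.lf (nat_lit 0) (nat_lit 101843942369) (nat_lit 380) (nat_lit 72519153123) (nat_lit 76) (nat_lit 190412371813) (nat_lit 43) (nat_lit 5) (nat_lit 48) (nat_lit 5) (nat_lit 44) (nat_lit 5) (nat_lit 363) (nat_lit 353) (nat_lit 184))) (XT.nd (nat_lit 78) (nat_lit 0) (nat_lit 0) (XT.lf (nat_lit 0) (nat_lit 121818719767) (nat_lit 228) (nat_lit 25751416946) (nat_lit 304) (nat_lit 233936771541) (nat_lit 40) (nat_lit 5) (nat_lit 43) (nat_lit 5) (nat_lit 44) (nat_lit 5) (nat_lit 364) (nat_lit 353) (nat_lit 183)) (XT.lf (nat_lit 0) (nat_lit 202229396672) (nat_lit 304) (nat_lit 66882676008) (nat_lit 76) (nat_lit 130042794289) (nat_lit 40) (nat_lit 5) (nat_lit 44) (nat_lit 5) (nat_lit 41) (nat_lit 5) (nat_lit 365) (nat_lit 353) (nat_lit 182)))) (XT.nd (nat_lit 156) (nat_lit 228) (nat_lit 0) (XT.nd (nat_lit 78) (nat_lit 0) (nat_lit 0) (XT.lf (nat_lit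 0) (nat_lit 148086222925) (nat_lit 228) (nat_lit 117405468909) (nat_lit 304) (nat_lit 152384547083) (nat_lit 37) (nat_lit 5) (nat_lit 40) (nat_lit 5) (nat_lit 41) (nat_lit 5) (nat_lit 366) (nat_lit 353) (nat_lit 181)) (XT.lf (nat_lit 0) (nat_lit 336807938244) (nat_lit 304) (nat_lit 55057101340) (nat_lit 76) (nat_lit 45990843711) (nat_lit 37) (nat_lit 5) (nat_lit 41) (nat_lit 5) (nat_lit 38) (nat_lit 5) (nat_lit 367) (nat_lit 353) (nat_lit 180))) (XT.nd (nat_lit 78) (nat_lit 76) (nat_lit 0) (XT.lf (nat_lit 0) (nat_lit 182957154771) (nat_lit 152) (nat_lit 238321901231) (nat_lit 228) (nat_lit 37558877565) (nat_lit 35) (nat_lit 5) (nat_lit 37) (nat_lit 5) (nat_lit 38) (nat_lit 5) (nat_lit 368) (nat_lit 353) (nat_lit 179)) (XT.lf (nat_lit 0) (nat_lit 31002518509) (nat_lit 228) (nat_lit 39019354493) (nat_lit 76) (nat_lit 411293459764) (nat_lit 34) (nat_lit 5) (nat_lit 37) (nat_lit 5) (nat_lit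 35) (nat_lit 5) (nat_lit 369) (nat_lit 353) (nat_lit 178)))))) (XT.nd (nat_lit 624) (nat_lit 532) (nat_lit 0) (XT.nd (nat_lit 312) (nat_lit 380) (nat_lit 0) (XT.nd (nat_lit 156) (nat_lit 304) (nat_lit 0) (XT.nd (nat_lit 78) (nat_lit 0) (nat_lit 0) (XT.lf (nat_lit 0) (nat_lit 111337964909) (nat_lit 304) (nat_lit 280750612401) (nat_lit 76) (nat_lit 112758838744) (nat_lit 31) (nat_lit 5) (nat_lit 35) (nat_lit 5) (nat_lit 32) (nat_lit 5) (nat_lit 370) (nat_lit 353) (nat_lit 177)) (XT.lf (nat_lit 0) (nat_lit 201013526397) (nat_lit 304) (nat_lit 21541913246) (nat_lit 76) (nat_lit 307473564068) (nat_lit 31) (nat_lit 5) (nat_lit 35) (nat_lit 5) (nat_lit 32) (nat_lit 5) (nat_lit 371) (nat_lit 353) (nat_lit 176))) (XT.nd (nat_lit 78) (nat_lit 152) (nat_lit 0) (XT.lf (nat_lit 0) (nat_lit 272010497589) (nat_lit 152) (nat_lit 32394457672) (nat_lit 228) (nat_lit 252296817376) (nat_lit 29) (nat_lit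 5) (nat_lit 31) (nat_lit 5) (nat_lit 32) (nat_lit 5) (nat_lit 372) (nat_lit 353) (nat_lit 175)) (XT.lf (nat_lit 0) (nat_lit 668917872) (nat_lit 152) (nat_lit 420179284090) (nat_lit 228) (nat_lit 164277720880) (nat_lit 27) (nat_lit 5) (nat_lit 29) (nat_lit 5) (nat_lit 30) (nat_lit 5) (nat_lit 373) (nat_lit 353) (nat_lit 174)))) (XT.nd (nat_lit 156) (nat_lit 152) (nat_lit 0) (XT.nd (nat_lit 78) (nat_lit 228) (nat_lit 0) (XT.lf (nat_lit 0) (nat_lit 324162798541) (nat_lit 152) (nat_lit 231048152692) (nat_lit 228) (nat_lit 59924730448) (nat_lit 27) (nat_lit 5) (nat_lit 29) (nat_lit 5) (nat_lit 30) (nat_lit 5) (nat_lit 374) (nat_lit 353) (nat_lit 173)) (XT.lf (nat_lit 0) (nat_lit 26022388789) (nat_lit 152) (nat_lit 24739822934) (nat_lit 228) (nat_lit 596632402919) (nat_lit 24) (nat_lit 5) (nat_lit 26) (nat_lit 5) (nat_lit 27) (nat_lit 5) (nat_lit 375) (nat_lit 353) (nat_lit 172))) (XT.nd (nat_lit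 78) (nat_lit 152) (nat_lit 0) (XT.lf (nat_lit 0) (nat_lit 179992606638) (nat_lit 228) (nat_lit 303199479684) (nat_lit 76) (nat_lit 197883577886) (nat_lit 24) (nat_lit 5) (nat_lit 27) (nat_lit 5) (nat_lit 25) (nat_lit 5) (nat_lit 376) (nat_lit 353) (nat_lit 171)) (XT.lf (nat_lit 0) (nat_lit 41879425813) (nat_lit 152) (nat_lit 279331772186) (nat_lit 228) (nat_lit 396108018586) (nat_lit 22) (nat_lit 5) (nat_lit 24) (nat_lit 5) (nat_lit 25) (nat_lit 5) (nat_lit 377) (nat_lit 353) (nat_lit 170))))) (XT.nd (nat_lit 312) (nat_lit 228) (nat_lit 0) (XT.nd (nat_lit 156) (nat_lit 228) (nat_lit 0) (XT.nd (nat_lit 78) (nat_lit 76) (nat_lit 0) (XT.lf (nat_lit 0) (nat_lit 431807821933) (nat_lit 152) (nat_lit 50209437757) (nat_lit 228) (nat_lit 273781794851) (nat_lit 22) (nat_lit 5) (nat_lit 24) (nat_lit 5) (nat_lit 25) (nat_lit 5) (nat_lit 378) (nat_lit 353) (nat_lit 169)) (XT.lf (nat_lit 0) (nat_lit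 53506065742) (nat_lit 76) (nat_lit 608212227659) (nat_lit 152) (nat_lit 135156547195) (nat_lit 21) (nat_lit 5) (nat_lit 22) (nat_lit 5) (nat_lit 23) (nat_lit 4) (nat_lit 379) (nat_lit 353) (nat_lit 168))) (XT.nd (nat_lit 78) (nat_lit 152) (nat_lit 0) (XT.lf (nat_lit 0) (nat_lit 24223134476) (nat_lit 152) (nat_lit 362783606712) (nat_lit 76) (nat_lit 453370521336) (nat_lit 20) (nat_lit 5) (nat_lit 22) (nat_lit 5) (nat_lit 21) (nat_lit 5) (nat_lit 380) (nat_lit 353) (nat_lit 167)) (XT.lf (nat_lit 0) (nat_lit 47093586787) (nat_lit 152) (nat_lit 143090217504) (nat_lit 228) (nat_lit 696804622948) (nat_lit 18) (nat_lit 5) (nat_lit 20) (nat_lit 5) (nat_lit 21) (nat_lit 5) (nat_lit 381) (nat_lit 353) (nat_lit 166)))) (XT.nd (nat_lit 156) (nat_lit 152) (nat_lit 0) (XT.nd (nat_lit 78) (nat_lit 76) (nat_lit 0) (XT.lf (nat_lit 0) (nat_lit 382492261813) (nat_lit 228) (nat_lit 429294024430) (nat_lit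 76) (nat_lit 124496524177) (nat_lit 18) (nat_lit 5) (nat_lit 21) (nat_lit 5) (nat_lit 19) (nat_lit 4) (nat_lit 382) (nat_lit 353) (nat_lit 165)) (XT.lf (nat_lit 0) (nat_lit 10987846613) (nat_lit 76) (nat_lit 583178414364) (nat_lit 152) (nat_lit 395036014097) (nat_lit 17) (nat_lit 5) (nat_lit 18) (nat_lit 5) (nat_lit 19) (nat_lit 4) (nat_lit 383) (nat_lit 353) (nat_lit 164))) (XT.nd (nat_lit 78) (nat_lit 152) (nat_lit 0) (XT.lf (nat_lit 0) (nat_lit 510906562032) (nat_lit 76) (nat_lit 323605256222) (nat_lit 152) (nat_lit 210904467607) (nat_lit 17) (nat_lit 5) (nat_lit 18) (nat_lit 5) (nat_lit 19) (nat_lit 4) (nat_lit 384) (nat_lit 353) (nat_lit 163)) (XT.nd (nat_lit 78) (nat_lit 152) (nat_lit 0) (XT.lf (nat_lit 0) (nat_lit 1050818740551) (nat_lit 76) (nat_lit 43266259915) (nat_lit 152) (nat_lit 12042418636) (nat_lit 17) (nat_lit 5) (nat_lit 18) (nat_lit 5) (nat_lit 19) (nat_lit 4) (nat_lit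 385) (nat_lit 353) (nat_lit 162)) (XT.lf (nat_lit 0) (nat_lit 210834180606) (nat_lit 152) (nat_lit 695611291283) (nat_lit 76) (nat_lit 263400169584) (nat_lit 15) (nat_lit 5) (nat_lit 17) (nat_lit 5) (nat_lit 16) (nat_lit 4) (nat_lit 386) (nat_lit 353) (nat_lit 161))))))))
noncomputable def xc228 : XT := (XT.nd (nat_lit 44304) (nat_lit 0) (nat_lit 2128) (XT.nd (nat_lit 624) (nat_lit 304) (nat_lit 0) (XT.nd (nat_lit 312) (nat_lit 152) (nat_lit 0) (XT.nd (nat_lit 156) (nat_lit 76) (nat_lit 0) (XT.nd (nat_lit 78) (nat_lit 76) (nat_lit 0) (XT.lf (nat_lit 0) (nat_lit 453565601137) (nat_lit 152) (nat_lit 190729968714) (nat_lit 76) (nat_lit 594126704850) (nat_lit 15) (nat_lit 5) (nat_lit 17) (nat_lit 5) (nat_lit 16) (nat_lit 4) (nat_lit 387) (nat_lit 353) (nat_lit 160)) (XT.lf (nat_lit 0) (nat_lit 373211373616) (nat_lit 76) (nat_lit 351479887177) (nat_lit 152) (nat_lit 587075719767) (nat_lit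 14) (nat_lit 5) (nat_lit 15) (nat_lit 5) (nat_lit 16) (nat_lit 4) (nat_lit 388) (nat_lit 353) (nat_lit 159))) (XT.nd (nat_lit 78) (nat_lit 76) (nat_lit 0) (XT.lf (nat_lit 0) (nat_lit 993114975957) (nat_lit 76) (nat_lit 29606876129) (nat_lit 152) (nat_lit 367840220502) (nat_lit 14) (nat_lit 5) (nat_lit 15) (nat_lit 5) (nat_lit 16) (nat_lit 4) (nat_lit 389) (nat_lit 353) (nat_lit 158)) (XT.lf (nat_lit 0) (nat_lit 188743487883) (nat_lit 76) (nat_lit 1168038964536) (nat_lit 76) (nat_lit 117903314634) (nat_lit 13) (nat_lit 4) (nat_lit 14) (nat_lit 5) (nat_lit 14) (nat_lit 4) (nat_lit 390) (nat_lit 353) (nat_lit 157)))) (XT.nd (nat_lit 156) (nat_lit 76) (nat_lit 0) (XT.nd (nat_lit 78) (nat_lit 0) (nat_lit 0) (XT.lf (nat_lit 0) (nat_lit 156341619835) (nat_lit 152) (nat_lit 724945102513) (nat_lit 76) (nat_lit 683006678755) (nat_lit 12) (nat_lit 5) (nat_lit 14) (nat_lit 5) (nat_lit 13) (nat_lit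 4) (nat_lit 391) (nat_lit 353) (nat_lit 156)) (XT.lf (nat_lit 0) (nat_lit 446156293326) (nat_lit 152) (nat_lit 122130601903) (nat_lit 76) (nat_lit 1092537757902) (nat_lit 12) (nat_lit 5) (nat_lit 14) (nat_lit 5) (nat_lit 13) (nat_lit 4) (nat_lit 392) (nat_lit 353) (nat_lit 155))) (XT.nd (nat_lit 78) (nat_lit 0) (nat_lit 0) (XT.lf (nat_lit 0) (nat_lit 556760446726) (nat_lit 76) (nat_lit 215785782840) (nat_lit 152) (nat_lit 991460968653) (nat_lit 11) (nat_lit 5) (nat_lit 12) (nat_lit 5) (nat_lit 13) (nat_lit 4) (nat_lit 393) (nat_lit 353) (nat_lit 154)) (XT.lf (nat_lit 0) (nat_lit 1132439568671) (nat_lit 152) (nat_lit 582321729364) (nat_lit 0) (nat_lit 160091672250) (nat_lit 11) (nat_lit 5) (nat_lit 13) (nat_lit 4) (nat_lit 11) (nat_lit 4) (nat_lit 394) (nat_lit 353) (nat_lit 153))))) (XT.nd (nat_lit 312) (nat_lit 76) (nat_lit 0) (XT.nd (nat_lit 156) (nat_lit 152) (nat_lit 0) (XT.nd (nat_lit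 78) (nat_lit 0) (nat_lit 0) (XT.lf (nat_lit 0) (nat_lit 91573314266) (nat_lit 76) (nat_lit 1437358214429) (nat_lit 76) (nat_lit 465010303123) (nat_lit 10) (nat_lit 4) (nat_lit 11) (nat_lit 5) (nat_lit 11) (nat_lit 4) (nat_lit 395) (nat_lit 353) (nat_lit 152)) (XT.lf (nat_lit 0) (nat_lit 852497091900) (nat_lit 76) (nat_lit 1120567449883) (nat_lit 76) (nat_lit 148219524796) (nat_lit 10) (nat_lit 4) (nat_lit 11) (nat_lit 5) (nat_lit 11) (nat_lit 4) (nat_lit 396) (nat_lit 353) (nat_lit 151))) (XT.nd (nat_lit 78) (nat_lit 76) (nat_lit 0) (XT.lf (nat_lit 0) (nat_lit 184214115161) (nat_lit 152) (nat_lit 589182578312) (nat_lit 76) (nat_lit 1485043895648) (nat_lit 9) (nat_lit 5) (nat_lit 11) (nat_lit 5) (nat_lit 10) (nat_lit 4) (nat_lit 397) (nat_lit 353) (nat_lit 150)) (XT.lf (nat_lit 0) (nat_lit 148361958408) (nat_lit 76) (nat_lit 390440882011) (nat_lit 152) (nat_lit 1867173356565) (nat_lit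 8) (nat_lit 5) (nat_lit 9) (nat_lit 5) (nat_lit 10) (nat_lit 4) (nat_lit 398) (nat_lit 353) (nat_lit 149)))) (XT.nd (nat_lit 156) (nat_lit 76) (nat_lit 0) (XT.nd (nat_lit 78) (nat_lit 0) (nat_lit 0) (XT.lf (nat_lit 0) (nat_lit 938843164092) (nat_lit 152) (nat_lit 1586583751009) (nat_lit 0) (nat_lit 38520978347) (nat_lit 8) (nat_lit 5) (nat_lit 10) (nat_lit 4) (nat_lit 8) (nat_lit 4) (nat_lit 399) (nat_lit 353) (nat_lit 148)) (XT.lf (nat_lit 0) (nat_lit 1381028025755) (nat_lit 152) (nat_lit 872012164282) (nat_lit 0) (nat_lit 480705830630) (nat_lit 8) (nat_lit 5) (nat_lit 10) (nat_lit 4) (nat_lit 8) (nat_lit 4) (nat_lit 400) (nat_lit 353) (nat_lit 147))) (XT.nd (nat_lit 78) (nat_lit 76) (nat_lit 0) (XT.lf (nat_lit 0) (nat_lit 1858587667540) (nat_lit 152) (nat_lit 100274867501) (nat_lit 0) (nat_lit 958265463730) (nat_lit 8) (nat_lit 5) (nat_lit 10) (nat_lit 4) (nat_lit 8) (nat_lit 4) (nat_lit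 401) (nat_lit 353) (nat_lit 146)) (XT.lf (nat_lit 0) (nat_lit 771810483629) (nat_lit 76) (nat_lit 1621103649573) (nat_lit 76) (nat_lit 720781437722) (nat_lit 7) (nat_lit 4) (nat_lit 8) (nat_lit 5) (nat_lit 8) (nat_lit 4) (nat_lit 402) (nat_lit 353) (nat_lit 145)))))) (XT.nd (nat_lit 624) (nat_lit 912) (nat_lit 0) (XT.nd (nat_lit 312) (nat_lit 304) (nat_lit 0) (XT.nd (nat_lit 156) (nat_lit 0) (nat_lit 76) (XT.nd (nat_lit 78) (nat_lit 0) (nat_lit 0) (XT.lf (nat_lit 0) (nat_lit 95083040217) (nat_lit 532) (nat_lit 17504115474) (nat_lit 532) (nat_lit 17504115474) (nat_lit 51) (nat_lit 3) (nat_lit 58) (nat_lit 3) (nat_lit 58) (nat_lit 5) (nat_lit 354) (nat_lit 354) (nat_lit 192)) (XT.lf (nat_lit 76) (nat_lit 91549714087) (nat_lit 0) (nat_lit 108425674478) (nat_lit 532) (nat_lit 70438240343) (nat_lit 52) (nat_lit 5) (nat_lit 51) (nat_lit 3) (nat_lit 58) (nat_lit 5) (nat_lit 355) (nat_lit 354)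 (nat_lit 191))) (XT.nd (nat_lit 78) (nat_lit 0) (nat_lit 0) (XT.lf (nat_lit 0) (nat_lit 211976192950) (nat_lit 456) (nat_lit 51613096872) (nat_lit 532) (nat_lit 17761372652) (nat_lit 52) (nat_lit 5) (nat_lit 58) (nat_lit 5) (nat_lit 59) (nat_lit 5) (nat_lit 356) (nat_lit 354) (nat_lit 190)) (XT.lf (nat_lit 76) (nat_lit 87372191259) (nat_lit 0) (nat_lit 142482342121) (nat_lit 532) (nat_lit 62914727787) (nat_lit 53) (nat_lit 5) (nat_lit 52) (nat_lit 5) (nat_lit 59) (nat_lit 5) (nat_lit 357) (nat_lit 354) (nat_lit 189)))) (XT.nd (nat_lit 156) (nat_lit 380) (nat_lit 0) (XT.nd (nat_lit 78) (nat_lit 0) (nat_lit 76) (XT.lf (nat_lit 76) (nat_lit 240411531551) (nat_lit 0) (nat_lit 10162724995) (nat_lit 532) (nat_lit 54414202136) (nat_lit 53) (nat_lit 5) (nat_lit 52) (nat_lit 5) (nat_lit 59) (nat_lit 5) (nat_lit 358) (nat_lit 354) (nat_lit 188)) (XT.lf (nat_lit 76) (nat_lit 88756259262) (nat_lit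 0) (nat_lit 189522276157) (nat_lit 532) (nat_lit 39480498503) (nat_lit 54) (nat_lit 5) (nat_lit 53) (nat_lit 5) (nat_lit 60) (nat_lit 5) (nat_lit 359) (nat_lit 354) (nat_lit 187))) (XT.nd (nat_lit 78) (nat_lit 456) (nat_lit 0) (XT.lf (nat_lit 76) (nat_lit 257750726174) (nat_lit 0) (nat_lit 52471294526) (nat_lit 532) (nat_lit 21167405495) (nat_lit 54) (nat_lit 5) (nat_lit 53) (nat_lit 5) (nat_lit 60) (nat_lit 5) (nat_lit 360) (nat_lit 354) (nat_lit 186)) (XT.lf (nat_lit 0) (nat_lit 3423567324) (nat_lit 532) (nat_lit 249133441134) (nat_lit 76) (nat_lit 93176447606) (nat_lit 47) (nat_lit 5) (nat_lit 54) (nat_lit 5) (nat_lit 48) (nat_lit 5) (nat_lit 361) (nat_lit 354) (nat_lit 185))))) (XT.nd (nat_lit 312) (nat_lit 380) (nat_lit 0) (XT.nd (nat_lit 156) (nat_lit 228) (nat_lit 0) (XT.nd (nat_lit 78) (nat_lit 304) (nat_lit 0) (XT.lf (nat_lit 0) (nat_lit 32266767286) (nat_lit 532) (nat_lit 78383257898)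 (nat_lit 76) (nat_lit 250256715909) (nat_lit 47) (nat_lit 5) (nat_lit 54) (nat_lit 5) (nat_lit 48) (nat_lit 5) (nat_lit 362) (nat_lit 354) (nat_lit 184)) (XT.lf (nat_lit 0) (nat_lit 67196072076) (nat_lit 380) (nat_lit 266563561245) (nat_lit 76) (nat_lit 43231963802) (nat_lit 43) (nat_lit 5) (nat_lit 48) (nat_lit 5) (nat_lit 44) (nat_lit 5) (nat_lit 363) (nat_lit 354) (nat_lit 183))) (XT.nd (nat_lit 78) (nat_lit 228) (nat_lit 0) (XT.lf (nat_lit 0) (nat_lit 109992497654) (nat_lit 380) (nat_lit 78319581293) (nat_lit 76) (nat_lit 205645340672) (nat_lit 43) (nat_lit 5) (nat_lit 48) (nat_lit 5) (nat_lit 44) (nat_lit 5) (nat_lit 364) (nat_lit 354) (nat_lit 182)) (XT.lf (nat_lit 0) (nat_lit 131565293477) (nat_lit 228) (nat_lit 27811442920) (nat_lit 304) (nat_lit 252650643678) (nat_lit 40) (nat_lit 5) (nat_lit 43) (nat_lit 5) (nat_lit 44) (nat_lit 5) (nat_lit 365) (nat_lit 354) (nat_lit 181))))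 (XT.nd (nat_lit 156) (nat_lit 152) (nat_lit 0) (XT.nd (nat_lit 78) (nat_lit 228) (nat_lit 0) (XT.lf (nat_lit 0) (nat_lit 218408665858) (nat_lit 304) (nat_lit 72232220768) (nat_lit 76) (nat_lit 140446294694) (nat_lit 40) (nat_lit 5) (nat_lit 44) (nat_lit 5) (nat_lit 41) (nat_lit 5) (nat_lit 366) (nat_lit 354) (nat_lit 180)) (XT.lf (nat_lit 0) (nat_lit 159934163009) (nat_lit 228) (nat_lit 126797738732) (nat_lit 304) (nat_lit 164574364834) (nat_lit 37) (nat_lit 5) (nat_lit 40) (nat_lit 5) (nat_lit 41) (nat_lit 5) (nat_lit 367) (nat_lit 354) (nat_lit 179))) (XT.nd (nat_lit 78) (nat_lit 152) (nat_lit 0) (XT.lf (nat_lit 0) (nat_lit 363753386815) (nat_lit 304) (nat_lit 59460641972) (nat_lit 76) (nat_lit 49670258710) (nat_lit 37) (nat_lit 5) (nat_lit 41) (nat_lit 5) (nat_lit 38) (nat_lit 5) (nat_lit 368) (nat_lit 354) (nat_lit 178)) (XT.lf (nat_lit 0) (nat_lit 197594728616) (nat_lit 152) (nat_lit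 257387429203) (nat_lit 228) (nat_lit 40562746968) (nat_lit 35) (nat_lit 5) (nat_lit 37) (nat_lit 5) (nat_lit 38) (nat_lit 5) (nat_lit 369) (nat_lit 354) (nat_lit 177)))))))
noncomputable def xc229 : XT := (XT.nd (nat_lit 1248) (nat_lit 684) (nat_lit 0) (XT.nd (nat_lit 624) (nat_lit 532) (nat_lit 0) (XT.nd (nat_lit 312) (nat_lit 380) (nat_lit 0) (XT.nd (nat_lit 156) (nat_lit 152) (nat_lit 0) (XT.nd (nat_lit 78) (nat_lit 228) (nat_lit 0) (XT.lf (nat_lit 0) (nat_lit 33483459566) (nat_lit 228) (nat_lit 42139935531) (nat_lit 76) (nat_lit 444197104029) (nat_lit 34) (nat_lit 5) (nat_lit 37) (nat_lit 5) (nat_lit 35) (nat_lit 5) (nat_lit 370) (nat_lit 354) (nat_lit 176)) (XT.lf (nat_lit 0) (nat_lit 120245715230) (nat_lit 304) (nat_lit 303209666608) (nat_lit 76) (nat_lit 121779769435) (nat_lit 31) (nat_lit 5) (nat_lit 35) (nat_lit 5) (nat_lit 32) (nat_lit 5) (nat_lit 371) (nat_lit 354) (nat_lit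 175))) (XT.nd (nat_lit 78) (nat_lit 152) (nat_lit 0) (XT.lf (nat_lit 0) (nat_lit 217095268813) (nat_lit 304) (nat_lit 23264345209) (nat_lit 76) (nat_lit 332071656222) (nat_lit 31) (nat_lit 5) (nat_lit 35) (nat_lit 5) (nat_lit 32) (nat_lit 5) (nat_lit 372) (nat_lit 354) (nat_lit 174)) (XT.lf (nat_lit 0) (nat_lit 293772235174) (nat_lit 152) (nat_lit 34985749492) (nat_lit 228) (nat_lit 272479878273) (nat_lit 29) (nat_lit 5) (nat_lit 31) (nat_lit 5) (nat_lit 32) (nat_lit 5) (nat_lit 373) (nat_lit 354) (nat_lit 173)))) (XT.nd (nat_lit 156) (nat_lit 228) (nat_lit 0) (XT.nd (nat_lit 78) (nat_lit 0) (nat_lit 0) (XT.lf (nat_lit 0) (nat_lit 723350350) (nat_lit 152) (nat_lit 453793321865) (nat_lit 228) (nat_lit 177419274521) (nat_lit 27) (nat_lit 5) (nat_lit 29) (nat_lit 5) (nat_lit 30) (nat_lit 5) (nat_lit 374) (nat_lit 354) (nat_lit 172)) (XT.lf (nat_lit 0) (nat_lit 350096673395) (nat_lit 152)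 (nat_lit 249531722545) (nat_lit 228) (nat_lit 64718094042) (nat_lit 27) (nat_lit 5) (nat_lit 29) (nat_lit 5) (nat_lit 30) (nat_lit 5) (nat_lit 375) (nat_lit 354) (nat_lit 171))) (XT.nd (nat_lit 78) (nat_lit 0) (nat_lit 0) (XT.lf (nat_lit 0) (nat_lit 28105039970) (nat_lit 152) (nat_lit 26718710195) (nat_lit 228) (nat_lit 644362388088) (nat_lit 24) (nat_lit 5) (nat_lit 26) (nat_lit 5) (nat_lit 27) (nat_lit 5) (nat_lit 376) (nat_lit 354) (nat_lit 170)) (XT.lf (nat_lit 0) (nat_lit 194392541730) (nat_lit 228) (nat_lit 327454606154) (nat_lit 76) (nat_lit 213714526744) (nat_lit 24) (nat_lit 5) (nat_lit 27) (nat_lit 5) (nat_lit 25) (nat_lit 5) (nat_lit 377) (nat_lit 354) (nat_lit 169))))) (XT.nd (nat_lit 312) (nat_lit 228) (nat_lit 0) (XT.nd (nat_lit 156) (nat_lit 152) (nat_lit 0) (XT.nd (nat_lit 78) (nat_lit 0) (nat_lit 0) (XT.lf (nat_lit 0) (nat_lit 45230590723) (nat_lit 152) (nat_lit 301678010173)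 (nat_lit 228) (nat_lit 427796111903) (nat_lit 22) (nat_lit 5) (nat_lit 24) (nat_lit 5) (nat_lit 25) (nat_lit 5) (nat_lit 378) (nat_lit 354) (nat_lit 168)) (XT.lf (nat_lit 0) (nat_lit 466353198470) (nat_lit 152) (nat_lit 54225911493) (nat_lit 228) (nat_lit 295683830875) (nat_lit 22) (nat_lit 5) (nat_lit 24) (nat_lit 5) (nat_lit 25) (nat_lit 5) (nat_lit 379) (nat_lit 354) (nat_lit 167))) (XT.nd (nat_lit 78) (nat_lit 76) (nat_lit 0) (XT.lf (nat_lit 0) (nat_lit 57787313286) (nat_lit 76) (nat_lit 656868902903) (nat_lit 152) (nat_lit 145968574439) (nat_lit 21) (nat_lit 5) (nat_lit 22) (nat_lit 5) (nat_lit 23) (nat_lit 4) (nat_lit 380) (nat_lit 354) (nat_lit 166)) (XT.lf (nat_lit 0) (nat_lit 26161421987) (nat_lit 152) (nat_lit 391805566028) (nat_lit 76) (nat_lit 489640420168) (nat_lit 20) (nat_lit 5) (nat_lit 22) (nat_lit 5) (nat_lit 21) (nat_lit 5) (nat_lit 381) (nat_lit 354) (nat_lit 165))))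 (XT.nd (nat_lit 156) (nat_lit 76) (nat_lit 0) (XT.nd (nat_lit 78) (nat_lit 0) (nat_lit 0) (XT.lf (nat_lit 0) (nat_lit 50861784490) (nat_lit 152) (nat_lit 154537145639) (nat_lit 228) (nat_lit 752548537196) (nat_lit 18) (nat_lit 5) (nat_lit 20) (nat_lit 5) (nat_lit 21) (nat_lit 5) (nat_lit 382) (nat_lit 354) (nat_lit 164)) (XT.lf (nat_lit 0) (nat_lit 413092039473) (nat_lit 228) (nat_lit 463636863148) (nat_lit 76) (nat_lit 134456500551) (nat_lit 18) (nat_lit 5) (nat_lit 21) (nat_lit 5) (nat_lit 19) (nat_lit 4) (nat_lit 383) (nat_lit 354) (nat_lit 163))) (XT.nd (nat_lit 78) (nat_lit 0) (nat_lit 0) (XT.lf (nat_lit 0) (nat_lit 11867540282) (nat_lit 76) (nat_lit 629832404917) (nat_lit 152) (nat_lit 426638480893) (nat_lit 17) (nat_lit 5) (nat_lit 18) (nat_lit 5) (nat_lit 19) (nat_lit 4) (nat_lit 384) (nat_lit 354) (nat_lit 162)) (XT.lf (nat_lit 0) (nat_lit 551779703606) (nat_lit 76) (nat_lit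 349493415057) (nat_lit 152) (nat_lit 227776441376) (nat_lit 17) (nat_lit 5) (nat_lit 18) (nat_lit 5) (nat_lit 19) (nat_lit 4) (nat_lit 385) (nat_lit 354) (nat_lit 161)))))) (XT.nd (nat_lit 624) (nat_lit 304) (nat_lit 0) (XT.nd (nat_lit 312) (nat_lit 152) (nat_lit 0) (XT.nd (nat_lit 156) (nat_lit 76) (nat_lit 0) (XT.nd (nat_lit 78) (nat_lit 152) (nat_lit 0) (XT.lf (nat_lit 0) (nat_lit 1134884810731) (nat_lit 76) (nat_lit 46727318427) (nat_lit 152) (nat_lit 13005456904) (nat_lit 17) (nat_lit 5) (nat_lit 18) (nat_lit 5) (nat_lit 19) (nat_lit 4) (nat_lit 386) (nat_lit 354) (nat_lit 160)) (XT.lf (nat_lit 0) (nat_lit 227701247276) (nat_lit 152) (nat_lit 751259600160) (nat_lit 76) (nat_lit 284472418542) (nat_lit 15) (nat_lit 5) (nat_lit 17) (nat_lit 5) (nat_lit 16) (nat_lit 4) (nat_lit 387) (nat_lit 354) (nat_lit 159))) (XT.nd (nat_lit 78) (nat_lit 76) (nat_lit 0) (XT.lf (nat_lit 0) (nat_lit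 489851156841) (nat_lit 152) (nat_lit 205987815816) (nat_lit 76) (nat_lit 641657059193) (nat_lit 15) (nat_lit 5) (nat_lit 17) (nat_lit 5) (nat_lit 16) (nat_lit 4) (nat_lit 388) (nat_lit 354) (nat_lit 158)) (XT.lf (nat_lit 0) (nat_lit 403068819966) (nat_lit 76) (nat_lit 379598039419) (nat_lit 152) (nat_lit 634041455600) (nat_lit 14) (nat_lit 5) (nat_lit 15) (nat_lit 5) (nat_lit 16) (nat_lit 4) (nat_lit 389) (nat_lit 354) (nat_lit 157)))) (XT.nd (nat_lit 156) (nat_lit 76) (nat_lit 0) (XT.nd (nat_lit 78) (nat_lit 76) (nat_lit 0) (XT.lf (nat_lit 0) (nat_lit 1072564670757) (nat_lit 76) (nat_lit 31975205171) (nat_lit 152) (nat_lit 397267140227) (nat_lit 14) (nat_lit 5) (nat_lit 15) (nat_lit 5) (nat_lit 16) (nat_lit 4) (nat_lit 390) (nat_lit 354) (nat_lit 156)) (XT.lf (nat_lit 0) (nat_lit 203843467557) (nat_lit 76) (nat_lit 1261481853272) (nat_lit 76) (nat_lit 127335285637) (nat_lit 13) (nat_lit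 4) (nat_lit 14) (nat_lit 5) (nat_lit 14) (nat_lit 4) (nat_lit 391) (nat_lit 354) (nat_lit 155))) (XT.nd (nat_lit 78) (nat_lit 0) (nat_lit 0) (XT.lf (nat_lit 0) (nat_lit 168849208174) (nat_lit 152) (nat_lit 782940233381) (nat_lit 76) (nat_lit 737647410788) (nat_lit 12) (nat_lit 5) (nat_lit 14) (nat_lit 5) (nat_lit 13) (nat_lit 4) (nat_lit 392) (nat_lit 354) (nat_lit 154)) (XT.lf (nat_lit 0) (nat_lit 481849036377) (nat_lit 152) (nat_lit 131900608081) (nat_lit 76) (nat_lit 1179940961620) (nat_lit 12) (nat_lit 5) (nat_lit 14) (nat_lit 5) (nat_lit 13) (nat_lit 4) (nat_lit 393) (nat_lit 354) (nat_lit 153))))) (XT.nd (nat_lit 312) (nat_lit 152) (nat_lit 0) (XT.nd (nat_lit 156) (nat_lit 76) (nat_lit 0) (XT.nd (nat_lit 78) (nat_lit 0) (nat_lit 0) (XT.lf (nat_lit 0) (nat_lit 601301713250) (nat_lit 76) (nat_lit 233048446880) (nat_lit 152) (nat_lit 1070777595244) (nat_lit 11) (nat_lit 5) (nat_lit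 12) (nat_lit 5) (nat_lit 13) (nat_lit 4) (nat_lit 394) (nat_lit 354) (nat_lit 152)) (XT.lf (nat_lit 0) (nat_lit 1223034953585) (nat_lit 152) (nat_lit 628907055942) (nat_lit 0) (nat_lit 172899180709) (nat_lit 11) (nat_lit 5) (nat_lit 13) (nat_lit 4) (nat_lit 11) (nat_lit 4) (nat_lit 395) (nat_lit 354) (nat_lit 151))) (XT.nd (nat_lit 78) (nat_lit 0) (nat_lit 0) (XT.lf (nat_lit 0) (nat_lit 98899580753) (nat_lit 76) (nat_lit 1552346683057) (nat_lit 76) (nat_lit 502210897419) (nat_lit 10) (nat_lit 4) (nat_lit 11) (nat_lit 5) (nat_lit 11) (nat_lit 4) (nat_lit 396) (nat_lit 354) (nat_lit 150)) (XT.lf (nat_lit 0) (nat_lit 920697230869) (nat_lit 76) (nat_lit 1210212671312) (nat_lit 76) (nat_lit 160076873859) (nat_lit 10) (nat_lit 4) (nat_lit 11) (nat_lit 5) (nat_lit 11) (nat_lit 4) (nat_lit 397) (nat_lit 354) (nat_lit 149)))) (XT.nd (nat_lit 156) (nat_lit 0) (nat_lit 0) (XT.nd (nat_lit 78) (nat_lit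 76) (nat_lit 0) (XT.lf (nat_lit 0) (nat_lit 198951431661) (nat_lit 152) (nat_lit 636316830538) (nat_lit 76) (nat_lit 1603847558982) (nat_lit 9) (nat_lit 5) (nat_lit 11) (nat_lit 5) (nat_lit 10) (nat_lit 4) (nat_lit 398) (nat_lit 354) (nat_lit 148)) (XT.lf (nat_lit 0) (nat_lit 160231260156) (nat_lit 76) (nat_lit 421675989209) (nat_lit 152) (nat_lit 2016547028760) (nat_lit 8) (nat_lit 5) (nat_lit 9) (nat_lit 5) (nat_lit 10) (nat_lit 4) (nat_lit 399) (nat_lit 354) (nat_lit 147))) (XT.nd (nat_lit 78) (nat_lit 0) (nat_lit 0) (XT.lf (nat_lit 0) (nat_lit 1013950789110) (nat_lit 152) (nat_lit 1713510121679) (nat_lit 0) (nat_lit 41602800310) (nat_lit 8) (nat_lit 5) (nat_lit 10) (nat_lit 4) (nat_lit 8) (nat_lit 4) (nat_lit 400) (nat_lit 354) (nat_lit 146)) (XT.nd (nat_lit 78) (nat_lit 0) (nat_lit 0) (XT.lf (nat_lit 0) (nat_lit 1491510426973) (nat_lit 152) (nat_lit 941772832414) (nat_lit 0) (nat_lit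 519162430131) (nat_lit 8) (nat_lit 5) (nat_lit 10) (nat_lit 4) (nat_lit 8) (nat_lit 4) (nat_lit 401) (nat_lit 354) (nat_lit 145)) (XT.lf (nat_lit 0) (nat_lit 2007274828311) (nat_lit 152) (nat_lit 108296574485) (nat_lit 0) (nat_lit 1034926824024) (nat_lit 8) (nat_lit 5) (nat_lit 10) (nat_lit 4) (nat_lit 8) (nat_lit 4) (nat_lit 402) (nat_lit 354) (nat_lit 144))))))))
noncomputable def xc230 : XT := (XT.nd (nat_lit 1248) (nat_lit 1368) (nat_lit 0) (XT.nd (nat_lit 624) (nat_lit 912) (nat_lit 0) (XT.nd (nat_lit 312) (nat_lit 304) (nat_lit 0) (XT.nd (nat_lit 156) (nat_lit 0) (nat_lit 76) (XT.nd (nat_lit 78) (nat_lit 0) (nat_lit 0) (XT.lf (nat_lit 0) (nat_lit 102690554067) (nat_lit 532) (nat_lit 18903973631) (nat_lit 532) (nat_lit 18903973631) (nat_lit 51) (nat_lit 3) (nat_lit 58) (nat_lit 3) (nat_lit 58) (nat_lit 5) (nat_lit 355) (nat_lit 355) (nat_lit 190)) (XT.lf (nat_lit 76) (nat_lit 98874609523)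 (nat_lit 0) (nat_lit 117100444494) (nat_lit 532) (nat_lit 76071530975) (nat_lit 52) (nat_lit 5) (nat_lit 51) (nat_lit 3) (nat_lit 58) (nat_lit 5) (nat_lit 356) (nat_lit 355) (nat_lit 189))) (XT.nd (nat_lit 78) (nat_lit 0) (nat_lit 0) (XT.lf (nat_lit 0) (nat_lit 228935785743) (nat_lit 456) (nat_lit 55741154106) (nat_lit 532) (nat_lit 19181652614) (nat_lit 52) (nat_lit 5) (nat_lit 58) (nat_lit 5) (nat_lit 59) (nat_lit 5) (nat_lit 357) (nat_lit 355) (nat_lit 188)) (XT.lf (nat_lit 76) (nat_lit 94362932000) (nat_lit 0) (nat_lit 153881373712) (nat_lit 532) (nat_lit 67946380594) (nat_lit 53) (nat_lit 5) (nat_lit 52) (nat_lit 5) (nat_lit 59) (nat_lit 5) (nat_lit 358) (nat_lit 355) (nat_lit 187)))) (XT.nd (nat_lit 156) (nat_lit 380) (nat_lit 0) (XT.nd (nat_lit 78) (nat_lit 0) (nat_lit 76) (XT.lf (nat_lit 76) (nat_lit 259645348001) (nat_lit 0) (nat_lit 10976154310) (nat_lit 532) (nat_lit 58765925885)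 (nat_lit 53) (nat_lit 5) (nat_lit 52) (nat_lit 5) (nat_lit 59) (nat_lit 5) (nat_lit 359) (nat_lit 355) (nat_lit 186)) (XT.lf (nat_lit 76) (nat_lit 95857745407) (nat_lit 0) (nat_lit 204684295943) (nat_lit 532) (nat_lit 42637614882) (nat_lit 54) (nat_lit 5) (nat_lit 53) (nat_lit 5) (nat_lit 60) (nat_lit 5) (nat_lit 360) (nat_lit 355) (nat_lit 185))) (XT.nd (nat_lit 78) (nat_lit 456) (nat_lit 0) (XT.lf (nat_lit 76) (nat_lit 278371696679) (nat_lit 0) (nat_lit 56669218174) (nat_lit 532) (nat_lit 22859572471) (nat_lit 54) (nat_lit 5) (nat_lit 53) (nat_lit 5) (nat_lit 60) (nat_lit 5) (nat_lit 361) (nat_lit 355) (nat_lit 184)) (XT.lf (nat_lit 0) (nat_lit 3698549915) (nat_lit 532) (nat_lit 269063071534) (nat_lit 76) (nat_lit 100630421294) (nat_lit 47) (nat_lit 5) (nat_lit 54) (nat_lit 5) (nat_lit 48) (nat_lit 5) (nat_lit 362) (nat_lit 355) (nat_lit 183))))) (XT.nd (nat_lit 312) (nat_lit 380) (nat_lit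 0) (XT.nd (nat_lit 156) (nat_lit 228) (nat_lit 0) (XT.nd (nat_lit 78) (nat_lit 304) (nat_lit 0) (XT.lf (nat_lit 0) (nat_lit 34849124600) (nat_lit 532) (nat_lit 84652951038) (nat_lit 76) (nat_lit 270277121589) (nat_lit 47) (nat_lit 5) (nat_lit 54) (nat_lit 5) (nat_lit 48) (nat_lit 5) (nat_lit 363) (nat_lit 355) (nat_lit 182)) (XT.lf (nat_lit 0) (nat_lit 72572720709) (nat_lit 380) (nat_lit 287887623848) (nat_lit 76) (nat_lit 46690501567) (nat_lit 43) (nat_lit 5) (nat_lit 48) (nat_lit 5) (nat_lit 44) (nat_lit 5) (nat_lit 364) (nat_lit 355) (nat_lit 181))) (XT.nd (nat_lit 78) (nat_lit 228) (nat_lit 0) (XT.lf (nat_lit 0) (nat_lit 118792789010) (nat_lit 380) (nat_lit 84584201226) (nat_lit 76) (nat_lit 222096950019) (nat_lit 43) (nat_lit 5) (nat_lit 48) (nat_lit 5) (nat_lit 44) (nat_lit 5) (nat_lit 365) (nat_lit 355) (nat_lit 180)) (XT.lf (nat_lit 0) (nat_lit 142091439562) (nat_lit 228) (nat_lit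 30036283439) (nat_lit 304) (nat_lit 272861778173) (nat_lit 40) (nat_lit 5) (nat_lit 43) (nat_lit 5) (nat_lit 44) (nat_lit 5) (nat_lit 366) (nat_lit 355) (nat_lit 179)))) (XT.nd (nat_lit 156) (nat_lit 152) (nat_lit 0) (XT.nd (nat_lit 78) (nat_lit 228) (nat_lit 0) (XT.lf (nat_lit 0) (nat_lit 235882145695) (nat_lit 304) (nat_lit 78009881658) (nat_lit 76) (nat_lit 151682064165) (nat_lit 40) (nat_lit 5) (nat_lit 44) (nat_lit 5) (nat_lit 41) (nat_lit 5) (nat_lit 367) (nat_lit 355) (nat_lit 178)) (XT.lf (nat_lit 0) (nat_lit 172729789611) (nat_lit 228) (nat_lit 136941414063) (nat_lit 304) (nat_lit 177739502965) (nat_lit 37) (nat_lit 5) (nat_lit 40) (nat_lit 5) (nat_lit 41) (nat_lit 5) (nat_lit 368) (nat_lit 355) (nat_lit 177))) (XT.nd (nat_lit 78) (nat_lit 152) (nat_lit 0) (XT.lf (nat_lit 0) (nat_lit 392854355215) (nat_lit 304) (nat_lit 64216612435) (nat_lit 76) (nat_lit 53644005866) (nat_lit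 37) (nat_lit 5) (nat_lit 41) (nat_lit 5) (nat_lit 38) (nat_lit 5) (nat_lit 369) (nat_lit 355) (nat_lit 176)) (XT.lf (nat_lit 0) (nat_lit 213403165498) (nat_lit 152) (nat_lit 277978231387) (nat_lit 228) (nat_lit 43807045873) (nat_lit 35) (nat_lit 5) (nat_lit 37) (nat_lit 5) (nat_lit 38) (nat_lit 5) (nat_lit 370) (nat_lit 355) (nat_lit 175)))))) (XT.nd (nat_lit 624) (nat_lit 532) (nat_lit 0) (XT.nd (nat_lit 312) (nat_lit 380) (nat_lit 0) (XT.nd (nat_lit 156) (nat_lit 152) (nat_lit 0) (XT.nd (nat_lit 78) (nat_lit 228) (nat_lit 0) (XT.lf (nat_lit 0) (nat_lit 36162770398) (nat_lit 228) (nat_lit 45510301051) (nat_lit 76) (nat_lit 479733015941) (nat_lit 34) (nat_lit 5) (nat_lit 37) (nat_lit 5) (nat_lit 35) (nat_lit 5) (nat_lit 371) (nat_lit 355) (nat_lit 174)) (XT.lf (nat_lit 0) (nat_lit 129865983841) (nat_lit 304) (nat_lit 327465587069) (nat_lit 76) (nat_lit 131522342683) (nat_lit 31) (nat_lit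 5) (nat_lit 35) (nat_lit 5) (nat_lit 32) (nat_lit 5) (nat_lit 372) (nat_lit 355) (nat_lit 173))) (XT.nd (nat_lit 78) (nat_lit 152) (nat_lit 0) (XT.lf (nat_lit 0) (nat_lit 234463456423) (nat_lit 304) (nat_lit 25124703133) (nat_lit 76) (nat_lit 358637566214) (nat_lit 31) (nat_lit 5) (nat_lit 35) (nat_lit 5) (nat_lit 32) (nat_lit 5) (nat_lit 373) (nat_lit 355) (nat_lit 172)) (XT.lf (nat_lit 0) (nat_lit 317274783689) (nat_lit 152) (nat_lit 37784382433) (nat_lit 228) (nat_lit 294277681692) (nat_lit 29) (nat_lit 5) (nat_lit 31) (nat_lit 5) (nat_lit 32) (nat_lit 5) (nat_lit 374) (nat_lit 355) (nat_lit 171)))) (XT.nd (nat_lit 156) (nat_lit 228) (nat_lit 0) (XT.nd (nat_lit 78) (nat_lit 0) (nat_lit 0) (XT.lf (nat_lit 0) (nat_lit 782006313) (nat_lit 152) (nat_lit 490096526168) (nat_lit 228) (nat_lit 191612247184) (nat_lit 27) (nat_lit 5) (nat_lit 29) (nat_lit 5) (nat_lit 30) (nat_lit 5) (nat_lit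 375) (nat_lit 355) (nat_lit 170)) (XT.lf (nat_lit 0) (nat_lit 378105136836) (nat_lit 152) (nat_lit 269494018268) (nat_lit 228) (nat_lit 69895014437) (nat_lit 27) (nat_lit 5) (nat_lit 29) (nat_lit 5) (nat_lit 30) (nat_lit 5) (nat_lit 376) (nat_lit 355) (nat_lit 169))) (XT.nd (nat_lit 78) (nat_lit 0) (nat_lit 0) (XT.lf (nat_lit 0) (nat_lit 30354180546) (nat_lit 152) (nat_lit 28855951032) (nat_lit 228) (nat_lit 695910858674) (nat_lit 24) (nat_lit 5) (nat_lit 26) (nat_lit 5) (nat_lit 27) (nat_lit 5) (nat_lit 377) (nat_lit 355) (nat_lit 168)) (XT.lf (nat_lit 0) (nat_lit 209944396510) (nat_lit 228) (nat_lit 353650261421) (nat_lit 76) (nat_lit 230811914045) (nat_lit 24) (nat_lit 5) (nat_lit 27) (nat_lit 5) (nat_lit 25) (nat_lit 5) (nat_lit 378) (nat_lit 355) (nat_lit 167))))) (XT.nd (nat_lit 312) (nat_lit 228) (nat_lit 0) (XT.nd (nat_lit 156) (nat_lit 152) (nat_lit 0) (XT.nd (nat_lit 78) (nat_lit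 0) (nat_lit 0) (XT.lf (nat_lit 0) (nat_lit 48849733149) (nat_lit 152) (nat_lit 325811990539) (nat_lit 228) (nat_lit 462019330888) (nat_lit 22) (nat_lit 5) (nat_lit 24) (nat_lit 5) (nat_lit 25) (nat_lit 5) (nat_lit 379) (nat_lit 355) (nat_lit 166)) (XT.lf (nat_lit 0) (nat_lit 503662098022) (nat_lit 152) (nat_lit 58563743256) (nat_lit 228) (nat_lit 319338102189) (nat_lit 22) (nat_lit 5) (nat_lit 24) (nat_lit 5) (nat_lit 25) (nat_lit 5) (nat_lit 380) (nat_lit 355) (nat_lit 165))) (XT.nd (nat_lit 78) (nat_lit 76) (nat_lit 0) (XT.lf (nat_lit 0) (nat_lit 62410951886) (nat_lit 76) (nat_lit 709418155388) (nat_lit 152) (nat_lit 157645634698) (nat_lit 21) (nat_lit 5) (nat_lit 22) (nat_lit 5) (nat_lit 23) (nat_lit 4) (nat_lit 381) (nat_lit 355) (nat_lit 164)) (XT.lf (nat_lit 0) (nat_lit 28254710192) (nat_lit 152) (nat_lit 423149386120) (nat_lit 76) (nat_lit 528811874224) (nat_lit 20) (nat_lit 5)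 (nat_lit 22) (nat_lit 5) (nat_lit 21) (nat_lit 5) (nat_lit 382) (nat_lit 355) (nat_lit 163)))) (XT.nd (nat_lit 156) (nat_lit 76) (nat_lit 0) (XT.nd (nat_lit 78) (nat_lit 0) (nat_lit 0) (XT.lf (nat_lit 0) (nat_lit 54931336611) (nat_lit 152) (nat_lit 166899869292) (nat_lit 228) (nat_lit 812752029578) (nat_lit 18) (nat_lit 5) (nat_lit 20) (nat_lit 5) (nat_lit 21) (nat_lit 5) (nat_lit 383) (nat_lit 355) (nat_lit 162)) (XT.lf (nat_lit 0) (nat_lit 446139742749) (nat_lit 228) (nat_lit 500727226434) (nat_lit 76) (nat_lit 145213238737) (nat_lit 18) (nat_lit 5) (nat_lit 21) (nat_lit 5) (nat_lit 19) (nat_lit 4) (nat_lit 384) (nat_lit 355) (nat_lit 161))) (XT.nd (nat_lit 78) (nat_lit 0) (nat_lit 0) (XT.lf (nat_lit 0) (nat_lit 12817514440) (nat_lit 76) (nat_lit 680218755030) (nat_lit 152) (nat_lit 460769204142) (nat_lit 17) (nat_lit 5) (nat_lit 18) (nat_lit 5) (nat_lit 19) (nat_lit 4) (nat_lit 385)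 (nat_lit 355) (nat_lit 160)) (XT.nd (nat_lit 78) (nat_lit 0) (nat_lit 0) (XT.lf (nat_lit 0) (nat_lit 595922608539) (nat_lit 76) (nat_lit 377452663928) (nat_lit 152) (nat_lit 245998227776) (nat_lit 17) (nat_lit 5) (nat_lit 18) (nat_lit 5) (nat_lit 19) (nat_lit 4) (nat_lit 386) (nat_lit 355) (nat_lit 159)) (XT.lf (nat_lit 0) (nat_lit 1225676085075) (nat_lit 76) (nat_lit 50465296185) (nat_lit 152) (nat_lit 14045588910) (nat_lit 17) (nat_lit 5) (nat_lit 18) (nat_lit 5) (nat_lit 19) (nat_lit 4) (nat_lit 387) (nat_lit 355) (nat_lit 158))))))))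
noncomputable def xc231 : XT := (XT.nd (nat_lit 44460) (nat_lit 0) (nat_lit 1748) (XT.nd (nat_lit 624) (nat_lit 228) (nat_lit 0) (XT.nd (nat_lit 312) (nat_lit 228) (nat_lit 0) (XT.nd (nat_lit 156) (nat_lit 76) (nat_lit 0) (XT.nd (nat_lit 78) (nat_lit 0) (nat_lit 0) (XT.lf (nat_lit 0) (nat_lit 245917631885) (nat_lit 152) (nat_lit 811359858547) (nat_lit 76) (nat_lit 307230413836) (nat_lit 15) (nat_lit 5) (nat_lit 17) (nat_lit 5) (nat_lit 16) (nat_lit 4) (nat_lit 388) (nat_lit 355) (nat_lit 157)) (XT.lf (nat_lit 0) (nat_lit 529039513116) (nat_lit 152) (nat_lit 222466369206) (nat_lit 76) (nat_lit 692989810790) (nat_lit 15) (nat_lit 5) (nat_lit 17) (nat_lit 5) (nat_lit 16) (nat_lit 4) (nat_lit 389) (nat_lit 355) (nat_lit 156))) (XT.nd (nat_lit 78) (nat_lit 0) (nat_lit 0) (XT.lf (nat_lit 0) (nat_lit 435314785492) (nat_lit 76) (nat_lit 409965677898) (nat_lit 152) (nat_lit 684764496201) (nat_lit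 14) (nat_lit 5) (nat_lit 15) (nat_lit 5) (nat_lit 16) (nat_lit 4) (nat_lit 390) (nat_lit 355) (nat_lit 155)) (XT.lf (nat_lit 0) (nat_lit 1158370270277) (nat_lit 76) (nat_lit 34533032071) (nat_lit 152) (nat_lit 429048256031) (nat_lit 14) (nat_lit 5) (nat_lit 15) (nat_lit 5) (nat_lit 16) (nat_lit 4) (nat_lit 391) (nat_lit 355) (nat_lit 154)))) (XT.nd (nat_lit 156) (nat_lit 76) (nat_lit 0) (XT.nd (nat_lit 78) (nat_lit 76) (nat_lit 0) (XT.lf (nat_lit 0) (nat_lit 220151374183) (nat_lit 76) (nat_lit 1362400205695) (nat_lit 76) (nat_lit 137521856287) (nat_lit 13) (nat_lit 4) (nat_lit 14) (nat_lit 5) (nat_lit 14) (nat_lit 4) (nat_lit 392) (nat_lit 355) (nat_lit 153)) (XT.lf (nat_lit 0) (nat_lit 182357366666) (nat_lit 152) (nat_lit 845575042816) (nat_lit 76) (nat_lit 796659373175) (nat_lit 12) (nat_lit 5) (nat_lit 14) (nat_lit 5) (nat_lit 13) (nat_lit 4) (nat_lit 393) (nat_lit 355) (nat_lit 152)))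 (XT.nd (nat_lit 78) (nat_lit 76) (nat_lit 0) (XT.lf (nat_lit 0) (nat_lit 520397164693) (nat_lit 152) (nat_lit 142452277805) (nat_lit 76) (nat_lit 1274336395516) (nat_lit 12) (nat_lit 5) (nat_lit 14) (nat_lit 5) (nat_lit 13) (nat_lit 4) (nat_lit 394) (nat_lit 355) (nat_lit 151)) (XT.lf (nat_lit 0) (nat_lit 649406219639) (nat_lit 76) (nat_lit 251692152374) (nat_lit 152) (nat_lit 1156439587756) (nat_lit 11) (nat_lit 5) (nat_lit 12) (nat_lit 5) (nat_lit 13) (nat_lit 4) (nat_lit 395) (nat_lit 355) (nat_lit 150))))) (XT.nd (nat_lit 312) (nat_lit 76) (nat_lit 0) (XT.nd (nat_lit 156) (nat_lit 76) (nat_lit 0) (XT.nd (nat_lit 78) (nat_lit 76) (nat_lit 0) (XT.lf (nat_lit 0) (nat_lit 1320877937990) (nat_lit 152) (nat_lit 679219267391) (nat_lit 0) (nat_lit 186731264924) (nat_lit 11) (nat_lit 5) (nat_lit 13) (nat_lit 4) (nat_lit 11) (nat_lit 4) (nat_lit 396) (nat_lit 355) (nat_lit 149)) (XT.lf (nat_lit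 0) (nat_lit 106811891303) (nat_lit 76) (nat_lit 1676534256070) (nat_lit 76) (nat_lit 542387572064) (nat_lit 10) (nat_lit 4) (nat_lit 11) (nat_lit 5) (nat_lit 11) (nat_lit 4) (nat_lit 397) (nat_lit 355) (nat_lit 148))) (XT.nd (nat_lit 78) (nat_lit 76) (nat_lit 0) (XT.lf (nat_lit 0) (nat_lit 994353327940) (nat_lit 76) (nat_lit 1307029535359) (nat_lit 76) (nat_lit 172882841223) (nat_lit 10) (nat_lit 4) (nat_lit 11) (nat_lit 5) (nat_lit 11) (nat_lit 4) (nat_lit 398) (nat_lit 355) (nat_lit 147)) (XT.lf (nat_lit 0) (nat_lit 214867706761) (nat_lit 152) (nat_lit 687221873451) (nat_lit 76) (nat_lit 1732155493744) (nat_lit 9) (nat_lit 5) (nat_lit 11) (nat_lit 5) (nat_lit 10) (nat_lit 4) (nat_lit 399) (nat_lit 355) (nat_lit 146)))) (XT.nd (nat_lit 156) (nat_lit 0) (nat_lit 0) (XT.nd (nat_lit 78) (nat_lit 0) (nat_lit 0) (XT.lf (nat_lit 0) (nat_lit 173050056815) (nat_lit 76) (nat_lit 455409928288)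 (nat_lit 152) (nat_lit 2177870622740) (nat_lit 8) (nat_lit 5) (nat_lit 9) (nat_lit 5) (nat_lit 10) (nat_lit 4) (nat_lit 400) (nat_lit 355) (nat_lit 145)) (XT.lf (nat_lit 0) (nat_lit 1095066999607) (nat_lit 152) (nat_lit 1850590648996) (nat_lit 0) (nat_lit 44931147530) (nat_lit 8) (nat_lit 5) (nat_lit 10) (nat_lit 4) (nat_lit 8) (nat_lit 4) (nat_lit 401) (nat_lit 355) (nat_lit 144))) (XT.nd (nat_lit 43290) (nat_lit 0) (nat_lit 3268) (XT.lf (nat_lit 0) (nat_lit 1610831397583) (nat_lit 152) (nat_lit 1017114397511) (nat_lit 0) (nat_lit 560695538612) (nat_lit 8) (nat_lit 5) (nat_lit 10) (nat_lit 4) (nat_lit 8) (nat_lit 4) (nat_lit 402) (nat_lit 355) (nat_lit 143)) (XT.lf (nat_lit 0) (nat_lit 110906544820) (nat_lit 532) (nat_lit 20415887646) (nat_lit 532) (nat_lit 20415887646) (nat_lit 51) (nat_lit 3) (nat_lit 58) (nat_lit 3) (nat_lit 58) (nat_lit 5) (nat_lit 356) (nat_lit 356) (nat_lit 188))))))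 (XT.nd (nat_lit 624) (nat_lit 1216) (nat_lit 0) (XT.nd (nat_lit 312) (nat_lit 304) (nat_lit 0) (XT.nd (nat_lit 156) (nat_lit 0) (nat_lit 76) (XT.nd (nat_lit 78) (nat_lit 0) (nat_lit 76) (XT.lf (nat_lit 76) (nat_lit 106785365587) (nat_lit 0) (nat_lit 126469093959) (nat_lit 532) (nat_lit 82155737168) (nat_lit 52) (nat_lit 5) (nat_lit 51) (nat_lit 3) (nat_lit 58) (nat_lit 5) (nat_lit 357) (nat_lit 356) (nat_lit 187)) (XT.lf (nat_lit 0) (nat_lit 247251932346) (nat_lit 456) (nat_lit 60199597226) (nat_lit 532) (nat_lit 20715644828) (nat_lit 52) (nat_lit 5) (nat_lit 58) (nat_lit 5) (nat_lit 59) (nat_lit 5) (nat_lit 358) (nat_lit 356) (nat_lit 186))) (XT.nd (nat_lit 78) (nat_lit 0) (nat_lit 0) (XT.lf (nat_lit 76) (nat_lit 101912794270) (nat_lit 0) (nat_lit 166192264457) (nat_lit 532) (nat_lit 73380783243) (nat_lit 53) (nat_lit 5) (nat_lit 52) (nat_lit 5) (nat_lit 59) (nat_lit 5) (nat_lit 359)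 (nat_lit 356) (nat_lit 185)) (XT.lf (nat_lit 76) (nat_lit 280417742239) (nat_lit 0) (nat_lit 11854599292) (nat_lit 532) (nat_lit 63465989031) (nat_lit 53) (nat_lit 5) (nat_lit 52) (nat_lit 5) (nat_lit 59) (nat_lit 5) (nat_lit 360) (nat_lit 356) (nat_lit 184)))) (XT.nd (nat_lit 156) (nat_lit 456) (nat_lit 0) (XT.nd (nat_lit 78) (nat_lit 0) (nat_lit 0) (XT.lf (nat_lit 76) (nat_lit 103527209865) (nat_lit 0) (nat_lit 221059243402) (nat_lit 532) (nat_lit 46047489384) (nat_lit 54) (nat_lit 5) (nat_lit 53) (nat_lit 5) (nat_lit 60) (nat_lit 5) (nat_lit 361) (nat_lit 356) (nat_lit 183)) (XT.lf (nat_lit 76) (nat_lit 300642214659) (nat_lit 0) (nat_lit 61202944317) (nat_lit 532) (nat_lit 24687287631) (nat_lit 54) (nat_lit 5) (nat_lit 53) (nat_lit 5) (nat_lit 60) (nat_lit 5) (nat_lit 362) (nat_lit 356) (nat_lit 182))) (XT.nd (nat_lit 78) (nat_lit 0) (nat_lit 0) (XT.lf (nat_lit 0) (nat_lit 3995374586)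 (nat_lit 532) (nat_lit 290587221431) (nat_lit 76) (nat_lit 108680733152) (nat_lit 47) (nat_lit 5) (nat_lit 54) (nat_lit 5) (nat_lit 48) (nat_lit 5) (nat_lit 363) (nat_lit 356) (nat_lit 181)) (XT.lf (nat_lit 0) (nat_lit 37637925566) (nat_lit 532) (nat_lit 91424357653) (nat_lit 76) (nat_lit 291899178496) (nat_lit 47) (nat_lit 5) (nat_lit 54) (nat_lit 5) (nat_lit 48) (nat_lit 5) (nat_lit 364) (nat_lit 356) (nat_lit 180))))) (XT.nd (nat_lit 312) (nat_lit 684) (nat_lit 0) (XT.nd (nat_lit 156) (nat_lit 228) (nat_lit 0) (XT.nd (nat_lit 78) (nat_lit 0) (nat_lit 0) (XT.lf (nat_lit 0) (nat_lit 78379363868) (nat_lit 380) (nat_lit 310917757302) (nat_lit 76) (nat_lit 50425725112) (nat_lit 43) (nat_lit 5) (nat_lit 48) (nat_lit 5) (nat_lit 44) (nat_lit 5) (nat_lit 365) (nat_lit 356) (nat_lit 179)) (XT.lf (nat_lit 0) (nat_lit 128296976485) (nat_lit 380) (nat_lit 91350125792) (nat_lit 76) (nat_lit 239864690668)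 (nat_lit 43) (nat_lit 5) (nat_lit 48) (nat_lit 5) (nat_lit 44) (nat_lit 5) (nat_lit 366) (nat_lit 356) (nat_lit 178))) (XT.nd (nat_lit 78) (nat_lit 0) (nat_lit 0) (XT.lf (nat_lit 0) (nat_lit 153459545713) (nat_lit 228) (nat_lit 32439121886) (nat_lit 304) (nat_lit 294689934249) (nat_lit 40) (nat_lit 5) (nat_lit 43) (nat_lit 5) (nat_lit 44) (nat_lit 5) (nat_lit 367) (nat_lit 356) (nat_lit 177)) (XT.lf (nat_lit 0) (nat_lit 254753391705) (nat_lit 304) (nat_lit 84249886208) (nat_lit 76) (nat_lit 163816685794) (nat_lit 40) (nat_lit 5) (nat_lit 44) (nat_lit 5) (nat_lit 41) (nat_lit 5) (nat_lit 368) (nat_lit 356) (nat_lit 176)))) (XT.nd (nat_lit 156) (nat_lit 456) (nat_lit 0) (XT.nd (nat_lit 78) (nat_lit 0) (nat_lit 0) (XT.lf (nat_lit 0) (nat_lit 186548938864) (nat_lit 228) (nat_lit 147896603931) (nat_lit 304) (nat_lit 191957967852) (nat_lit 37) (nat_lit 5) (nat_lit 40) (nat_lit 5) (nat_lit 41)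 (nat_lit 5) (nat_lit 369) (nat_lit 356) (nat_lit 175)) (XT.lf (nat_lit 0) (nat_lit 424283301587) (nat_lit 304) (nat_lit 69353186205) (nat_lit 76) (nat_lit 57935634753) (nat_lit 37) (nat_lit 5) (nat_lit 41) (nat_lit 5) (nat_lit 38) (nat_lit 5) (nat_lit 370) (nat_lit 356) (nat_lit 174))) (XT.nd (nat_lit 78) (nat_lit 304) (nat_lit 0) (XT.lf (nat_lit 0) (nat_lit 230476154843) (nat_lit 152) (nat_lit 300216325158) (nat_lit 228) (nat_lit 47310991528) (nat_lit 35) (nat_lit 5) (nat_lit 37) (nat_lit 5) (nat_lit 38) (nat_lit 5) (nat_lit 371) (nat_lit 356) (nat_lit 173)) (XT.nd (nat_lit 78) (nat_lit 228) (nat_lit 0) (XT.lf (nat_lit 0) (nat_lit 39056335640) (nat_lit 228) (nat_lit 49150414124) (nat_lit 76) (nat_lit 518111780322) (nat_lit 34) (nat_lit 5) (nat_lit 37) (nat_lit 5) (nat_lit 35) (nat_lit 5) (nat_lit 372) (nat_lit 356) (nat_lit 172)) (XT.lf (nat_lit 0) (nat_lit 140255786719) (nat_lit 304)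 (nat_lit 353662102838) (nat_lit 76) (nat_lit 142044294444) (nat_lit 31) (nat_lit 5) (nat_lit 35) (nat_lit 5) (nat_lit 32) (nat_lit 5) (nat_lit 373) (nat_lit 356) (nat_lit 171))))))))
noncomputable def xc232 : XT := (XT.nd (nat_lit 1248) (nat_lit 532) (nat_lit 0) (XT.nd (nat_lit 624) (nat_lit 532) (nat_lit 0) (XT.nd (nat_lit 312) (nat_lit 380) (nat_lit 0) (XT.nd (nat_lit 156) (nat_lit 152) (nat_lit 0) (XT.nd (nat_lit 78) (nat_lit 152) (nat_lit 0) (XT.lf (nat_lit 0) (nat_lit 253221018279) (nat_lit 304) (nat_lit 27134002350) (nat_lit 76) (nat_lit 387328723683) (nat_lit 31) (nat_lit 5) (nat_lit 35) (nat_lit 5) (nat_lit 32) (nat_lit 5) (nat_lit 374) (nat_lit 356) (nat_lit 170)) (XT.lf (nat_lit 0) (nat_lit 342657426278) (nat_lit 152) (nat_lit 40806938396) (nat_lit 228) (nat_lit 317819393104) (nat_lit 29) (nat_lit 5) (nat_lit 31) (nat_lit 5) (nat_lit 32) (nat_lit 5) (nat_lit 375) (nat_lit 356)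 (nat_lit 169))) (XT.nd (nat_lit 78) (nat_lit 0) (nat_lit 0) (XT.lf (nat_lit 0) (nat_lit 845242346) (nat_lit 152) (nat_lit 529304024113) (nat_lit 228) (nat_lit 206940738877) (nat_lit 27) (nat_lit 5) (nat_lit 29) (nat_lit 5) (nat_lit 30) (nat_lit 5) (nat_lit 376) (nat_lit 356) (nat_lit 168)) (XT.lf (nat_lit 0) (nat_lit 408354173272) (nat_lit 152) (nat_lit 291053332184) (nat_lit 228) (nat_lit 75486163665) (nat_lit 27) (nat_lit 5) (nat_lit 29) (nat_lit 5) (nat_lit 30) (nat_lit 5) (nat_lit 377) (nat_lit 356) (nat_lit 167)))) (XT.nd (nat_lit 156) (nat_lit 152) (nat_lit 0) (XT.nd (nat_lit 78) (nat_lit 0) (nat_lit 0) (XT.lf (nat_lit 0) (nat_lit 32783147173) (nat_lit 152) (nat_lit 31164207654) (nat_lit 228) (nat_lit 751583281158) (nat_lit 24) (nat_lit 5) (nat_lit 26) (nat_lit 5) (nat_lit 27) (nat_lit 5) (nat_lit 378) (nat_lit 356) (nat_lit 166)) (XT.lf (nat_lit 0) (nat_lit 226740335268) (nat_lit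 228) (nat_lit 381941670860) (nat_lit 76) (nat_lit 249277060207) (nat_lit 24) (nat_lit 5) (nat_lit 27) (nat_lit 5) (nat_lit 25) (nat_lit 5) (nat_lit 379) (nat_lit 356) (nat_lit 165))) (XT.nd (nat_lit 78) (nat_lit 0) (nat_lit 0) (XT.lf (nat_lit 0) (nat_lit 52758307796) (nat_lit 152) (nat_lit 351876726489) (nat_lit 228) (nat_lit 498980474438) (nat_lit 22) (nat_lit 5) (nat_lit 24) (nat_lit 5) (nat_lit 25) (nat_lit 5) (nat_lit 380) (nat_lit 356) (nat_lit 164)) (XT.lf (nat_lit 0) (nat_lit 543955617711) (nat_lit 152) (nat_lit 63248635964) (nat_lit 228) (nat_lit 344884777289) (nat_lit 22) (nat_lit 5) (nat_lit 24) (nat_lit 5) (nat_lit 25) (nat_lit 5) (nat_lit 381) (nat_lit 356) (nat_lit 163))))) (XT.nd (nat_lit 312) (nat_lit 228) (nat_lit 0) (XT.nd (nat_lit 156) (nat_lit 152) (nat_lit 0) (XT.nd (nat_lit 78) (nat_lit 76) (nat_lit 0) (XT.lf (nat_lit 0) (nat_lit 67404388339) (nat_lit 76) (nat_lit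 766171385128) (nat_lit 152) (nat_lit 170256920508) (nat_lit 21) (nat_lit 5) (nat_lit 22) (nat_lit 5) (nat_lit 23) (nat_lit 4) (nat_lit 382) (nat_lit 356) (nat_lit 162)) (XT.lf (nat_lit 0) (nat_lit 30515408034) (nat_lit 152) (nat_lit 457000801011) (nat_lit 76) (nat_lit 571117013157) (nat_lit 20) (nat_lit 5) (nat_lit 22) (nat_lit 5) (nat_lit 21) (nat_lit 5) (nat_lit 383) (nat_lit 356) (nat_lit 161))) (XT.nd (nat_lit 78) (nat_lit 0) (nat_lit 0) (XT.lf (nat_lit 0) (nat_lit 59326365970) (nat_lit 152) (nat_lit 180251646217) (nat_lit 228) (nat_lit 877771857074) (nat_lit 18) (nat_lit 5) (nat_lit 20) (nat_lit 5) (nat_lit 21) (nat_lit 5) (nat_lit 384) (nat_lit 356) (nat_lit 160)) (XT.lf (nat_lit 0) (nat_lit 481831213766) (nat_lit 228) (nat_lit 540784902349) (nat_lit 76) (nat_lit 156830484856) (nat_lit 18) (nat_lit 5) (nat_lit 21) (nat_lit 5) (nat_lit 19) (nat_lit 4) (nat_lit 385) (nat_lit 356)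 (nat_lit 159)))) (XT.nd (nat_lit 156) (nat_lit 152) (nat_lit 0) (XT.nd (nat_lit 78) (nat_lit 0) (nat_lit 0) (XT.lf (nat_lit 0) (nat_lit 13843405081) (nat_lit 76) (nat_lit 734636047716) (nat_lit 152) (nat_lit 497630435927) (nat_lit 17) (nat_lit 5) (nat_lit 18) (nat_lit 5) (nat_lit 19) (nat_lit 4) (nat_lit 386) (nat_lit 356) (nat_lit 158)) (XT.lf (nat_lit 0) (nat_lit 643596870449) (nat_lit 76) (nat_lit 407648684713) (nat_lit 152) (nat_lit 265677804011) (nat_lit 17) (nat_lit 5) (nat_lit 18) (nat_lit 5) (nat_lit 19) (nat_lit 4) (nat_lit 387) (nat_lit 356) (nat_lit 157))) (XT.nd (nat_lit 78) (nat_lit 152) (nat_lit 0) (XT.lf (nat_lit 0) (nat_lit 1323730591537) (nat_lit 76) (nat_lit 54502341797) (nat_lit 152) (nat_lit 15168974924) (nat_lit 17) (nat_lit 5) (nat_lit 18) (nat_lit 5) (nat_lit 19) (nat_lit 4) (nat_lit 388) (nat_lit 356) (nat_lit 156)) (XT.lf (nat_lit 0) (nat_lit 265591286628) (nat_lit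 152) (nat_lit 876268210310) (nat_lit 76) (nat_lit 331809019963) (nat_lit 15) (nat_lit 5) (nat_lit 17) (nat_lit 5) (nat_lit 16) (nat_lit 4) (nat_lit 389) (nat_lit 356) (nat_lit 155)))))) (XT.nd (nat_lit 624) (nat_lit 228) (nat_lit 0) (XT.nd (nat_lit 312) (nat_lit 152) (nat_lit 0) (XT.nd (nat_lit 156) (nat_lit 76) (nat_lit 0) (XT.nd (nat_lit 78) (nat_lit 76) (nat_lit 0) (XT.lf (nat_lit 0) (nat_lit 571362900270) (nat_lit 152) (nat_lit 240263274186) (nat_lit 76) (nat_lit 748429155857) (nat_lit 15) (nat_lit 5) (nat_lit 17) (nat_lit 5) (nat_lit 16) (nat_lit 4) (nat_lit 390) (nat_lit 356) (nat_lit 154)) (XT.lf (nat_lit 0) (nat_lit 470140362646) (nat_lit 76) (nat_lit 442762756654) (nat_lit 152) (nat_lit 739545419402) (nat_lit 14) (nat_lit 5) (nat_lit 15) (nat_lit 5) (nat_lit 16) (nat_lit 4) (nat_lit 391) (nat_lit 356) (nat_lit 153))) (XT.nd (nat_lit 78) (nat_lit 76) (nat_lit 0) (XT.lf (nat_lit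 0) (nat_lit 1251040257006) (nat_lit 76) (nat_lit 37295512160) (nat_lit 152) (nat_lit 463371897537) (nat_lit 14) (nat_lit 5) (nat_lit 15) (nat_lit 5) (nat_lit 16) (nat_lit 4) (nat_lit 392) (nat_lit 356) (nat_lit 152)) (XT.lf (nat_lit 0) (nat_lit 237763852106) (nat_lit 76) (nat_lit 1471392054250) (nat_lit 76) (nat_lit 148523388569) (nat_lit 13) (nat_lit 4) (nat_lit 14) (nat_lit 5) (nat_lit 14) (nat_lit 4) (nat_lit 393) (nat_lit 356) (nat_lit 151)))) (XT.nd (nat_lit 156) (nat_lit 76) (nat_lit 0) (XT.nd (nat_lit 78) (nat_lit 0) (nat_lit 0) (XT.lf (nat_lit 0) (nat_lit 196946146190) (nat_lit 152) (nat_lit 913220695388) (nat_lit 76) (nat_lit 860392268368) (nat_lit 12) (nat_lit 5) (nat_lit 14) (nat_lit 5) (nat_lit 13) (nat_lit 4) (nat_lit 394) (nat_lit 356) (nat_lit 150)) (XT.lf (nat_lit 0) (nat_lit 562029113970) (nat_lit 152) (nat_lit 153848135165) (nat_lit 76) (nat_lit 1376283441731) (nat_lit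 12) (nat_lit 5) (nat_lit 14) (nat_lit 5) (nat_lit 13) (nat_lit 4) (nat_lit 395) (nat_lit 356) (nat_lit 149))) (XT.nd (nat_lit 78) (nat_lit 0) (nat_lit 0) (XT.lf (nat_lit 0) (nat_lit 701359033850) (nat_lit 76) (nat_lit 271827378597) (nat_lit 152) (nat_lit 1248954570357) (nat_lit 11) (nat_lit 5) (nat_lit 12) (nat_lit 5) (nat_lit 13) (nat_lit 4) (nat_lit 396) (nat_lit 356) (nat_lit 148)) (XT.lf (nat_lit 0) (nat_lit 1426548334310) (nat_lit 152) (nat_lit 733556506118) (nat_lit 0) (nat_lit 201669894512) (nat_lit 11) (nat_lit 5) (nat_lit 13) (nat_lit 4) (nat_lit 11) (nat_lit 4) (nat_lit 397) (nat_lit 356) (nat_lit 147))))) (XT.nd (nat_lit 43680) (nat_lit 0) (nat_lit 3268) (XT.nd (nat_lit 156) (nat_lit 152) (nat_lit 0) (XT.nd (nat_lit 78) (nat_lit 0) (nat_lit 0) (XT.lf (nat_lit 0) (nat_lit 115357137609) (nat_lit 76) (nat_lit 1810656857983) (nat_lit 76) (nat_lit 585778408806) (nat_lit 10) (nat_lit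 4) (nat_lit 11) (nat_lit 5) (nat_lit 11) (nat_lit 4) (nat_lit 398) (nat_lit 356) (nat_lit 146)) (XT.lf (nat_lit 0) (nat_lit 1073901867325) (nat_lit 76) (nat_lit 1411591769880) (nat_lit 76) (nat_lit 186713312017) (nat_lit 10) (nat_lit 4) (nat_lit 11) (nat_lit 5) (nat_lit 11) (nat_lit 4) (nat_lit 399) (nat_lit 356) (nat_lit 145))) (XT.nd (nat_lit 78) (nat_lit 76) (nat_lit 0) (XT.lf (nat_lit 0) (nat_lit 232057260964) (nat_lit 152) (nat_lit 742199363098) (nat_lit 76) (nat_lit 1870728044735) (nat_lit 9) (nat_lit 5) (nat_lit 11) (nat_lit 5) (nat_lit 10) (nat_lit 4) (nat_lit 400) (nat_lit 356) (nat_lit 144)) (XT.lf (nat_lit 0) (nat_lit 186894315001) (nat_lit 76) (nat_lit 491842602475) (nat_lit 152) (nat_lit 2352100128251) (nat_lit 8) (nat_lit 5) (nat_lit 9) (nat_lit 5) (nat_lit 10) (nat_lit 4) (nat_lit 401) (nat_lit 356) (nat_lit 143)))) (XT.nd (nat_lit 156) (nat_lit 0) (nat_lit 76) (XT.nd (nat_lit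 78) (nat_lit 0) (nat_lit 0) (XT.lf (nat_lit 0) (nat_lit 119779708346) (nat_lit 532) (nat_lit 22048812400) (nat_lit 532) (nat_lit 22048812400) (nat_lit 51) (nat_lit 3) (nat_lit 58) (nat_lit 3) (nat_lit 58) (nat_lit 5) (nat_lit 357) (nat_lit 357) (nat_lit 186)) (XT.lf (nat_lit 76) (nat_lit 115328869819) (nat_lit 0) (nat_lit 136587147800) (nat_lit 532) (nat_lit 88726896171) (nat_lit 52) (nat_lit 5) (nat_lit 51) (nat_lit 3) (nat_lit 58) (nat_lit 5) (nat_lit 358) (nat_lit 357) (nat_lit 185))) (XT.nd (nat_lit 78) (nat_lit 0) (nat_lit 0) (XT.lf (nat_lit 0) (nat_lit 267033187536) (nat_lit 456) (nat_lit 65014836945) (nat_lit 532) (nat_lit 22372433455) (nat_lit 52) (nat_lit 5) (nat_lit 58) (nat_lit 5) (nat_lit 59) (nat_lit 5) (nat_lit 359) (nat_lit 357) (nat_lit 184)) (XT.lf (nat_lit 76) (nat_lit 110066527439) (nat_lit 0) (nat_lit 179487972129) (nat_lit 532) (nat_lit 79250124676) (nat_lit 53) (nat_lit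 5) (nat_lit 52) (nat_lit 5) (nat_lit 59) (nat_lit 5) (nat_lit 360) (nat_lit 357) (nat_lit 183)))))))
noncomputable def xc233 : XT := (XT.nd (nat_lit 1248) (nat_lit 1140) (nat_lit 0) (XT.nd (nat_lit 624) (nat_lit 836) (nat_lit 0) (XT.nd (nat_lit 312) (nat_lit 532) (nat_lit 0) (XT.nd (nat_lit 156) (nat_lit 380) (nat_lit 0) (XT.nd (nat_lit 78) (nat_lit 0) (nat_lit 76) (XT.lf (nat_lit 76) (nat_lit 302851818681) (nat_lit 0) (nat_lit 12803269565) (nat_lit 532) (nat_lit 68542229981) (nat_lit 53) (nat_lit 5) (nat_lit 52) (nat_lit 5) (nat_lit 59) (nat_lit 5) (nat_lit 361) (nat_lit 357) (nat_lit 182)) (XT.lf (nat_lit 76) (nat_lit 111810110955) (nat_lit 0) (nat_lit 238744157585) (nat_lit 532) (nat_lit 49730315722) (nat_lit 54) (nat_lit 5) (nat_lit 53) (nat_lit 5) (nat_lit 60) (nat_lit 5) (nat_lit 362) (nat_lit 357) (nat_lit 181))) (XT.nd (nat_lit 78) (nat_lit 456) (nat_lit 0) (XT.lf (nat_lit 76)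 (nat_lit 324694262481) (nat_lit 0) (nat_lit 66099341632) (nat_lit 532) (nat_lit 26661369889) (nat_lit 54) (nat_lit 5) (nat_lit 53) (nat_lit 5) (nat_lit 60) (nat_lit 5) (nat_lit 363) (nat_lit 357) (nat_lit 180)) (XT.lf (nat_lit 0) (nat_lit 4315811031) (nat_lit 532) (nat_lit 313833431120) (nat_lit 76) (nat_lit 117375087341) (nat_lit 47) (nat_lit 5) (nat_lit 54) (nat_lit 5) (nat_lit 48) (nat_lit 5) (nat_lit 364) (nat_lit 357) (nat_lit 179)))) (XT.nd (nat_lit 156) (nat_lit 228) (nat_lit 0) (XT.nd (nat_lit 78) (nat_lit 304) (nat_lit 0) (XT.lf (nat_lit 0) (nat_lit 40649706351) (nat_lit 532) (nat_lit 98737595130) (nat_lit 76) (nat_lit 315251016051) (nat_lit 47) (nat_lit 5) (nat_lit 54) (nat_lit 5) (nat_lit 48) (nat_lit 5) (nat_lit 365) (nat_lit 357) (nat_lit 178)) (XT.lf (nat_lit 0) (nat_lit 84650420713) (nat_lit 380) (nat_lit 335790426468) (nat_lit 76) (nat_lit 54459768906) (nat_lit 43) (nat_lit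 5) (nat_lit 48) (nat_lit 5) (nat_lit 44) (nat_lit 5) (nat_lit 366) (nat_lit 357) (nat_lit 177))) (XT.nd (nat_lit 78) (nat_lit 228) (nat_lit 0) (XT.lf (nat_lit 0) (nat_lit 138561389914) (nat_lit 380) (nat_lit 98657440098) (nat_lit 76) (nat_lit 259053852759) (nat_lit 43) (nat_lit 5) (nat_lit 48) (nat_lit 5) (nat_lit 44) (nat_lit 5) (nat_lit 367) (nat_lit 357) (nat_lit 176)) (XT.lf (nat_lit 0) (nat_lit 165736987514) (nat_lit 228) (nat_lit 35034196572) (nat_lit 304) (nat_lit 318264454967) (nat_lit 40) (nat_lit 5) (nat_lit 43) (nat_lit 5) (nat_lit 44) (nat_lit 5) (nat_lit 368) (nat_lit 357) (nat_lit 175))))) (XT.nd (nat_lit 312) (nat_lit 456) (nat_lit 0) (XT.nd (nat_lit 156) (nat_lit 152) (nat_lit 0) (XT.nd (nat_lit 78) (nat_lit 228) (nat_lit 0) (XT.lf (nat_lit 0) (nat_lit 275134241193) (nat_lit 304) (nat_lit 90989203251) (nat_lit 76) (nat_lit 176922069093) (nat_lit 40) (nat_lit 5) (nat_lit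 44) (nat_lit 5) (nat_lit 41) (nat_lit 5) (nat_lit 369) (nat_lit 357) (nat_lit 174)) (XT.lf (nat_lit 0) (nat_lit 201473510768) (nat_lit 228) (nat_lit 159728226572) (nat_lit 304) (nat_lit 207314009130) (nat_lit 37) (nat_lit 5) (nat_lit 40) (nat_lit 5) (nat_lit 41) (nat_lit 5) (nat_lit 370) (nat_lit 357) (nat_lit 173))) (XT.nd (nat_lit 78) (nat_lit 152) (nat_lit 0) (XT.lf (nat_lit 0) (nat_lit 458226478364) (nat_lit 304) (nat_lit 74900793618) (nat_lit 76) (nat_lit 62570578485) (nat_lit 37) (nat_lit 5) (nat_lit 41) (nat_lit 5) (nat_lit 38) (nat_lit 5) (nat_lit 371) (nat_lit 357) (nat_lit 172)) (XT.lf (nat_lit 0) (nat_lit 248914878323) (nat_lit 152) (nat_lit 324233489933) (nat_lit 228) (nat_lit 51095341002) (nat_lit 35) (nat_lit 5) (nat_lit 37) (nat_lit 5) (nat_lit 38) (nat_lit 5) (nat_lit 372) (nat_lit 357) (nat_lit 171)))) (XT.nd (nat_lit 156) (nat_lit 152) (nat_lit 0) (XT.nd (nat_lit 78)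 (nat_lit 228) (nat_lit 0) (XT.lf (nat_lit 0) (nat_lit 42181308550) (nat_lit 228) (nat_lit 53081837677) (nat_lit 76) (nat_lit 559560828291) (nat_lit 34) (nat_lit 5) (nat_lit 37) (nat_lit 5) (nat_lit 35) (nat_lit 5) (nat_lit 373) (nat_lit 357) (nat_lit 170)) (XT.lf (nat_lit 0) (nat_lit 151476699048) (nat_lit 304) (nat_lit 381954444182) (nat_lit 76) (nat_lit 153407978900) (nat_lit 31) (nat_lit 5) (nat_lit 35) (nat_lit 5) (nat_lit 32) (nat_lit 5) (nat_lit 374) (nat_lit 357) (nat_lit 169))) (XT.nd (nat_lit 78) (nat_lit 152) (nat_lit 0) (XT.lf (nat_lit 0) (nat_lit 273479115845) (nat_lit 304) (nat_lit 29304142090) (nat_lit 76) (nat_lit 418315152041) (nat_lit 31) (nat_lit 5) (nat_lit 35) (nat_lit 5) (nat_lit 32) (nat_lit 5) (nat_lit 375) (nat_lit 357) (nat_lit 168)) (XT.lf (nat_lit 0) (nat_lit 370070586133) (nat_lit 152) (nat_lit 44071326602) (nat_lit 228) (nat_lit 343244513206) (nat_lit 29)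 (nat_lit 5) (nat_lit 31) (nat_lit 5) (nat_lit 32) (nat_lit 5) (nat_lit 376) (nat_lit 357) (nat_lit 167)))))) (XT.nd (nat_lit 624) (nat_lit 456) (nat_lit 0) (XT.nd (nat_lit 312) (nat_lit 304) (nat_lit 0) (XT.nd (nat_lit 156) (nat_lit 228) (nat_lit 0) (XT.nd (nat_lit 78) (nat_lit 0) (nat_lit 0) (XT.lf (nat_lit 0) (nat_lit 913440890) (nat_lit 152) (nat_lit 571648153870) (nat_lit 228) (nat_lit 223495579536) (nat_lit 27) (nat_lit 5) (nat_lit 29) (nat_lit 5) (nat_lit 30) (nat_lit 5) (nat_lit 377) (nat_lit 357) (nat_lit 166)) (XT.lf (nat_lit 0) (nat_lit 441023043389) (nat_lit 152) (nat_lit 314337420823) (nat_lit 228) (nat_lit 81524669303) (nat_lit 27) (nat_lit 5) (nat_lit 29) (nat_lit 5) (nat_lit 30) (nat_lit 5) (nat_lit 378) (nat_lit 357) (nat_lit 165))) (XT.nd (nat_lit 78) (nat_lit 0) (nat_lit 0) (XT.lf (nat_lit 0) (nat_lit 35406340942) (nat_lit 152) (nat_lit 33657156114) (nat_lit 228) (nat_lit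 811709561096) (nat_lit 24) (nat_lit 5) (nat_lit 26) (nat_lit 5) (nat_lit 27) (nat_lit 5) (nat_lit 379) (nat_lit 357) (nat_lit 164)) (XT.lf (nat_lit 0) (nat_lit 244879893912) (nat_lit 228) (nat_lit 412496480287) (nat_lit 76) (nat_lit 269219390524) (nat_lit 24) (nat_lit 5) (nat_lit 27) (nat_lit 5) (nat_lit 25) (nat_lit 5) (nat_lit 380) (nat_lit 357) (nat_lit 163)))) (XT.nd (nat_lit 156) (nat_lit 152) (nat_lit 0) (XT.nd (nat_lit 78) (nat_lit 0) (nat_lit 0) (XT.lf (nat_lit 0) (nat_lit 56979483390) (nat_lit 152) (nat_lit 380026673170) (nat_lit 228) (nat_lit 538898566953) (nat_lit 22) (nat_lit 5) (nat_lit 24) (nat_lit 5) (nat_lit 25) (nat_lit 5) (nat_lit 381) (nat_lit 357) (nat_lit 162)) (XT.lf (nat_lit 0) (nat_lit 587472540248) (nat_lit 152) (nat_lit 68308349584) (nat_lit 228) (nat_lit 372475239621) (nat_lit 22) (nat_lit 5) (nat_lit 24) (nat_lit 5) (nat_lit 25) (nat_lit 5) (nat_lit 382) (nat_lit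 357) (nat_lit 161))) (XT.nd (nat_lit 78) (nat_lit 76) (nat_lit 0) (XT.lf (nat_lit 0) (nat_lit 72797219775) (nat_lit 76) (nat_lit 827464905017) (nat_lit 152) (nat_lit 183877161249) (nat_lit 21) (nat_lit 5) (nat_lit 22) (nat_lit 5) (nat_lit 23) (nat_lit 4) (nat_lit 383) (nat_lit 357) (nat_lit 160)) (XT.lf (nat_lit 0) (nat_lit 32956915905) (nat_lit 152) (nat_lit 493560405558) (nat_lit 76) (nat_lit 616806536241) (nat_lit 20) (nat_lit 5) (nat_lit 22) (nat_lit 5) (nat_lit 21) (nat_lit 5) (nat_lit 384) (nat_lit 357) (nat_lit 159))))) (XT.nd (nat_lit 312) (nat_lit 228) (nat_lit 0) (XT.nd (nat_lit 156) (nat_lit 76) (nat_lit 0) (XT.nd (nat_lit 78) (nat_lit 0) (nat_lit 0) (XT.lf (nat_lit 0) (nat_lit 64072923147) (nat_lit 152) (nat_lit 194671595628) (nat_lit 228) (nat_lit 947993318542) (nat_lit 18) (nat_lit 5) (nat_lit 20) (nat_lit 5) (nat_lit 21) (nat_lit 5) (nat_lit 385) (nat_lit 357) (nat_lit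 158)) (XT.lf (nat_lit 0) (nat_lit 520377960865) (nat_lit 228) (nat_lit 584047263982) (nat_lit 76) (nat_lit 169377083985) (nat_lit 18) (nat_lit 5) (nat_lit 21) (nat_lit 5) (nat_lit 19) (nat_lit 4) (nat_lit 386) (nat_lit 357) (nat_lit 157))) (XT.nd (nat_lit 78) (nat_lit 0) (nat_lit 0) (XT.lf (nat_lit 0) (nat_lit 14951297143) (nat_lit 76) (nat_lit 793406753450) (nat_lit 152) (nat_lit 537440609702) (nat_lit 17) (nat_lit 5) (nat_lit 18) (nat_lit 5) (nat_lit 19) (nat_lit 4) (nat_lit 387) (nat_lit 357) (nat_lit 156)) (XT.lf (nat_lit 0) (nat_lit 695085008655) (nat_lit 76) (nat_lit 440260414598) (nat_lit 152) (nat_lit 286931786573) (nat_lit 17) (nat_lit 5) (nat_lit 18) (nat_lit 5) (nat_lit 19) (nat_lit 4) (nat_lit 388) (nat_lit 357) (nat_lit 155)))) (XT.nd (nat_lit 156) (nat_lit 76) (nat_lit 0) (XT.nd (nat_lit 78) (nat_lit 152) (nat_lit 0) (XT.lf (nat_lit 0) (nat_lit 1429629398646) (nat_lit 76)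 (nat_lit 58862376463) (nat_lit 152) (nat_lit 16382269067) (nat_lit 17) (nat_lit 5) (nat_lit 18) (nat_lit 5) (nat_lit 19) (nat_lit 4) (nat_lit 389) (nat_lit 357) (nat_lit 154)) (XT.lf (nat_lit 0) (nat_lit 286838798915) (nat_lit 152) (nat_lit 946369292545) (nat_lit 76) (nat_lit 358353889897) (nat_lit 15) (nat_lit 5) (nat_lit 17) (nat_lit 5) (nat_lit 16) (nat_lit 4) (nat_lit 390) (nat_lit 357) (nat_lit 153))) (XT.nd (nat_lit 78) (nat_lit 76) (nat_lit 0) (XT.lf (nat_lit 0) (nat_lit 617072126140) (nat_lit 152) (nat_lit 259483989279) (nat_lit 76) (nat_lit 808303625675) (nat_lit 15) (nat_lit 5) (nat_lit 17) (nat_lit 5) (nat_lit 16) (nat_lit 4) (nat_lit 391) (nat_lit 357) (nat_lit 152)) (XT.nd (nat_lit 78) (nat_lit 0) (nat_lit 0) (XT.lf (nat_lit 0) (nat_lit 507751929719) (nat_lit 76) (nat_lit 478183626744) (nat_lit 152) (nat_lit 798708850198) (nat_lit 14) (nat_lit 5) (nat_lit 15) (nat_lit 5)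 (nat_lit 16) (nat_lit 4) (nat_lit 392) (nat_lit 357) (nat_lit 151)) (XT.lf (nat_lit 0) (nat_lit 1351123790586) (nat_lit 76) (nat_lit 40279013835) (nat_lit 152) (nat_lit 500441461603) (nat_lit 14) (nat_lit 5) (nat_lit 15) (nat_lit 5) (nat_lit 16) (nat_lit 4) (nat_lit 393) (nat_lit 357) (nat_lit 150))))))))
noncomputable def xc234 : XT := (XT.nd (nat_lit 44694) (nat_lit 0) (nat_lit 988) (XT.nd (nat_lit 44070) (nat_lit 0) (nat_lit 2888) (XT.nd (nat_lit 312) (nat_lit 152) (nat_lit 0) (XT.nd (nat_lit 156) (nat_lit 76) (nat_lit 0) (XT.nd (nat_lit 78) (nat_lit 76) (nat_lit 0) (XT.lf (nat_lit 0) (nat_lit 256785275765) (nat_lit 76) (nat_lit 1589103274643) (nat_lit 76) (nat_lit 160405074279) (nat_lit 13) (nat_lit 4) (nat_lit 14) (nat_lit 5) (nat_lit 14) (nat_lit 4) (nat_lit 394) (nat_lit 357) (nat_lit 149)) (XT.lf (nat_lit 0) (nat_lit 212702000942) (nat_lit 152) (nat_lit 986278050218) (nat_lit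 76) (nat_lit 929223774442) (nat_lit 12) (nat_lit 5) (nat_lit 14) (nat_lit 5) (nat_lit 13) (nat_lit 4) (nat_lit 395) (nat_lit 357) (nat_lit 148))) (XT.nd (nat_lit 78) (nat_lit 76) (nat_lit 0) (XT.lf (nat_lit 0) (nat_lit 606991594067) (nat_lit 152) (nat_lit 166155707459) (nat_lit 76) (nat_lit 1486386232444) (nat_lit 12) (nat_lit 5) (nat_lit 14) (nat_lit 5) (nat_lit 13) (nat_lit 4) (nat_lit 396) (nat_lit 357) (nat_lit 147)) (XT.lf (nat_lit 0) (nat_lit 757468028026) (nat_lit 76) (nat_lit 293573443741) (nat_lit 152) (nat_lit 1348870777875) (nat_lit 11) (nat_lit 5) (nat_lit 12) (nat_lit 5) (nat_lit 13) (nat_lit 4) (nat_lit 397) (nat_lit 357) (nat_lit 146)))) (XT.nd (nat_lit 156) (nat_lit 76) (nat_lit 0) (XT.nd (nat_lit 78) (nat_lit 76) (nat_lit 0) (XT.lf (nat_lit 0) (nat_lit 1540672339327) (nat_lit 152) (nat_lit 792240767122) (nat_lit 0) (nat_lit 217803596151) (nat_lit 11) (nat_lit 5) (nat_lit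 13) (nat_lit 4) (nat_lit 11) (nat_lit 4) (nat_lit 398) (nat_lit 357) (nat_lit 145)) (XT.lf (nat_lit 0) (nat_lit 124585961534) (nat_lit 76) (nat_lit 1955509287818) (nat_lit 76) (nat_lit 632640536600) (nat_lit 10) (nat_lit 4) (nat_lit 11) (nat_lit 5) (nat_lit 11) (nat_lit 4) (nat_lit 399) (nat_lit 357) (nat_lit 144))) (XT.nd (nat_lit 78) (nat_lit 76) (nat_lit 0) (XT.lf (nat_lit 0) (nat_lit 1159814250893) (nat_lit 76) (nat_lit 1524519001467) (nat_lit 76) (nat_lit 201650242803) (nat_lit 10) (nat_lit 4) (nat_lit 11) (nat_lit 5) (nat_lit 11) (nat_lit 4) (nat_lit 400) (nat_lit 357) (nat_lit 143)) (XT.lf (nat_lit 0) (nat_lit 250621959863) (nat_lit 152) (nat_lit 801575089042) (nat_lit 76) (nat_lit 2020386383899) (nat_lit 9) (nat_lit 5) (nat_lit 11) (nat_lit 5) (nat_lit 10) (nat_lit 4) (nat_lit 401) (nat_lit 357) (nat_lit 142))))) (XT.nd (nat_lit 312) (nat_lit 304) (nat_lit 0) (XT.nd (nat_lit 156)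 (nat_lit 0) (nat_lit 76) (XT.nd (nat_lit 78) (nat_lit 0) (nat_lit 0) (XT.lf (nat_lit 0) (nat_lit 129362633660) (nat_lit 532) (nat_lit 23812420531) (nat_lit 532) (nat_lit 23812420531) (nat_lit 51) (nat_lit 3) (nat_lit 58) (nat_lit 3) (nat_lit 58) (nat_lit 5) (nat_lit 358) (nat_lit 358) (nat_lit 184)) (XT.lf (nat_lit 76) (nat_lit 124555758095) (nat_lit 0) (nat_lit 147514570862) (nat_lit 532) (nat_lit 95823933350) (nat_lit 52) (nat_lit 5) (nat_lit 51) (nat_lit 3) (nat_lit 58) (nat_lit 5) (nat_lit 359) (nat_lit 358) (nat_lit 183))) (XT.nd (nat_lit 78) (nat_lit 0) (nat_lit 0) (XT.lf (nat_lit 0) (nat_lit 288396786128) (nat_lit 456) (nat_lit 70215399707) (nat_lit 532) (nat_lit 24161831219) (nat_lit 52) (nat_lit 5) (nat_lit 58) (nat_lit 5) (nat_lit 59) (nat_lit 5) (nat_lit 360) (nat_lit 358) (nat_lit 182)) (XT.lf (nat_lit 76) (nat_lit 118872458025) (nat_lit 0) (nat_lit 193847289834) (nat_lit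 532) (nat_lit 85589173380) (nat_lit 53) (nat_lit 5) (nat_lit 52) (nat_lit 5) (nat_lit 59) (nat_lit 5) (nat_lit 361) (nat_lit 358) (nat_lit 181)))) (XT.nd (nat_lit 156) (nat_lit 380) (nat_lit 0) (XT.nd (nat_lit 78) (nat_lit 0) (nat_lit 76) (XT.lf (nat_lit 76) (nat_lit 327080527500) (nat_lit 0) (nat_lit 13827790329) (nat_lit 532) (nat_lit 74024718314) (nat_lit 53) (nat_lit 5) (nat_lit 52) (nat_lit 5) (nat_lit 59) (nat_lit 5) (nat_lit 362) (nat_lit 358) (nat_lit 180)) (XT.lf (nat_lit 76) (nat_lit 120755540803) (nat_lit 0) (nat_lit 257843839979) (nat_lit 532) (nat_lit 53707906949) (nat_lit 54) (nat_lit 5) (nat_lit 53) (nat_lit 5) (nat_lit 60) (nat_lit 5) (nat_lit 363) (nat_lit 358) (nat_lit 179))) (XT.nd (nat_lit 78) (nat_lit 456) (nat_lit 0) (XT.lf (nat_lit 76) (nat_lit 350670378453) (nat_lit 0) (nat_lit 71387427654) (nat_lit 532) (nat_lit 28793507230) (nat_lit 54) (nat_lit 5) (nat_lit 53)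 (nat_lit 5) (nat_lit 60) (nat_lit 5) (nat_lit 364) (nat_lit 358) (nat_lit 178)) (XT.lf (nat_lit 0) (nat_lit 4661767339) (nat_lit 532) (nat_lit 338939447151) (nat_lit 76) (nat_lit 126765004768) (nat_lit 47) (nat_lit 5) (nat_lit 54) (nat_lit 5) (nat_lit 48) (nat_lit 5) (nat_lit 365) (nat_lit 358) (nat_lit 177)))))) (XT.nd (nat_lit 624) (nat_lit 988) (nat_lit 0) (XT.nd (nat_lit 312) (nat_lit 380) (nat_lit 0) (XT.nd (nat_lit 156) (nat_lit 228) (nat_lit 0) (XT.nd (nat_lit 78) (nat_lit 304) (nat_lit 0) (XT.lf (nat_lit 0) (nat_lit 43902323068) (nat_lit 532) (nat_lit 106635993057) (nat_lit 76) (nat_lit 340471014409) (nat_lit 47) (nat_lit 5) (nat_lit 54) (nat_lit 5) (nat_lit 48) (nat_lit 5) (nat_lit 366) (nat_lit 358) (nat_lit 176)) (XT.lf (nat_lit 0) (nat_lit 91423061140) (nat_lit 380) (nat_lit 362653016365) (nat_lit 76) (nat_lit 58816538231) (nat_lit 43) (nat_lit 5) (nat_lit 48) (nat_lit 5)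 (nat_lit 44) (nat_lit 5) (nat_lit 367) (nat_lit 358) (nat_lit 175))) (XT.nd (nat_lit 78) (nat_lit 228) (nat_lit 0) (XT.lf (nat_lit 0) (nat_lit 149646862931) (nat_lit 380) (nat_lit 106549438806) (nat_lit 76) (nat_lit 279778149696) (nat_lit 43) (nat_lit 5) (nat_lit 48) (nat_lit 5) (nat_lit 44) (nat_lit 5) (nat_lit 368) (nat_lit 358) (nat_lit 174)) (XT.lf (nat_lit 0) (nat_lit 178996527914) (nat_lit 228) (nat_lit 37836885088) (nat_lit 304) (nat_lit 343725033500) (nat_lit 40) (nat_lit 5) (nat_lit 43) (nat_lit 5) (nat_lit 44) (nat_lit 5) (nat_lit 369) (nat_lit 358) (nat_lit 173)))) (XT.nd (nat_lit 156) (nat_lit 152) (nat_lit 0) (XT.nd (nat_lit 78) (nat_lit 228) (nat_lit 0) (XT.lf (nat_lit 0) (nat_lit 297145476159) (nat_lit 304) (nat_lit 98267761790) (nat_lit 76) (nat_lit 191075876146) (nat_lit 40) (nat_lit 5) (nat_lit 44) (nat_lit 5) (nat_lit 41) (nat_lit 5) (nat_lit 370) (nat_lit 358) (nat_lit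 172)) (XT.lf (nat_lit 0) (nat_lit 217591954724) (nat_lit 228) (nat_lit 172506394100) (nat_lit 304) (nat_lit 223898618758) (nat_lit 37) (nat_lit 5) (nat_lit 40) (nat_lit 5) (nat_lit 41) (nat_lit 5) (nat_lit 371) (nat_lit 358) (nat_lit 171))) (XT.nd (nat_lit 78) (nat_lit 152) (nat_lit 0) (XT.lf (nat_lit 0) (nat_lit 494885036148) (nat_lit 304) (nat_lit 80892301994) (nat_lit 76) (nat_lit 67576304454) (nat_lit 37) (nat_lit 5) (nat_lit 41) (nat_lit 5) (nat_lit 38) (nat_lit 5) (nat_lit 372) (nat_lit 358) (nat_lit 170)) (XT.lf (nat_lit 0) (nat_lit 268828609648) (nat_lit 152) (nat_lit 350172048039) (nat_lit 228) (nat_lit 55182514023) (nat_lit 35) (nat_lit 5) (nat_lit 37) (nat_lit 5) (nat_lit 38) (nat_lit 5) (nat_lit 373) (nat_lit 358) (nat_lit 169))))) (XT.nd (nat_lit 312) (nat_lit 532) (nat_lit 0) (XT.nd (nat_lit 156) (nat_lit 152) (nat_lit 0) (XT.nd (nat_lit 78) (nat_lit 228) (nat_lit 0) (XT.lf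 (nat_lit 0) (nat_lit 45556212804) (nat_lit 228) (nat_lit 57327862077) (nat_lit 76) (nat_lit 604325785040) (nat_lit 34) (nat_lit 5) (nat_lit 37) (nat_lit 5) (nat_lit 35) (nat_lit 5) (nat_lit 374) (nat_lit 358) (nat_lit 168)) (XT.lf (nat_lit 0) (nat_lit 163595220253) (nat_lit 304) (nat_lit 412510262265) (nat_lit 76) (nat_lit 165680738012) (nat_lit 31) (nat_lit 5) (nat_lit 35) (nat_lit 5) (nat_lit 32) (nat_lit 5) (nat_lit 375) (nat_lit 358) (nat_lit 167))) (XT.nd (nat_lit 78) (nat_lit 152) (nat_lit 0) (XT.lf (nat_lit 0) (nat_lit 295357801855) (nat_lit 304) (nat_lit 31647975818) (nat_lit 76) (nat_lit 451780476056) (nat_lit 31) (nat_lit 5) (nat_lit 35) (nat_lit 5) (nat_lit 32) (nat_lit 5) (nat_lit 376) (nat_lit 358) (nat_lit 166)) (XT.lf (nat_lit 0) (nat_lit 399676718065) (nat_lit 152) (nat_lit 47596889670) (nat_lit 228) (nat_lit 370703704452) (nat_lit 29) (nat_lit 5) (nat_lit 31) (nat_lit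 5) (nat_lit 32) (nat_lit 5) (nat_lit 377) (nat_lit 358) (nat_lit 165)))) (XT.nd (nat_lit 156) (nat_lit 380) (nat_lit 0) (XT.nd (nat_lit 78) (nat_lit 0) (nat_lit 0) (XT.lf (nat_lit 0) (nat_lit 987012694) (nat_lit 152) (nat_lit 617379841424) (nat_lit 228) (nat_lit 241374867144) (nat_lit 27) (nat_lit 5) (nat_lit 29) (nat_lit 5) (nat_lit 30) (nat_lit 5) (nat_lit 378) (nat_lit 358) (nat_lit 164)) (XT.lf (nat_lit 0) (nat_lit 476305346613) (nat_lit 152) (nat_lit 339484261937) (nat_lit 228) (nat_lit 88046310667) (nat_lit 27) (nat_lit 5) (nat_lit 29) (nat_lit 5) (nat_lit 30) (nat_lit 5) (nat_lit 379) (nat_lit 358) (nat_lit 163))) (XT.nd (nat_lit 78) (nat_lit 152) (nat_lit 0) (XT.lf (nat_lit 0) (nat_lit 38239312891) (nat_lit 152) (nat_lit 36349567293) (nat_lit 228) (nat_lit 876645998006) (nat_lit 24) (nat_lit 5) (nat_lit 26) (nat_lit 5) (nat_lit 27) (nat_lit 5) (nat_lit 380) (nat_lit 358) (nat_lit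 162)) (XT.nd (nat_lit 78) (nat_lit 152) (nat_lit 0) (XT.lf (nat_lit 0) (nat_lit 264470569909) (nat_lit 228) (nat_lit 445495749257) (nat_lit 76) (nat_lit 290757083655) (nat_lit 24) (nat_lit 5) (nat_lit 27) (nat_lit 5) (nat_lit 25) (nat_lit 5) (nat_lit 381) (nat_lit 358) (nat_lit 161)) (XT.lf (nat_lit 0) (nat_lit 61538280135) (nat_lit 152) (nat_lit 410428642897) (nat_lit 228) (nat_lit 582010156150) (nat_lit 22) (nat_lit 5) (nat_lit 24) (nat_lit 5) (nat_lit 25) (nat_lit 5) (nat_lit 382) (nat_lit 358) (nat_lit 160))))))))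
noncomputable def xc235 : XT := (XT.nd (nat_lit 1248) (nat_lit 76) (nat_lit 0) (XT.nd (nat_lit 624) (nat_lit 456) (nat_lit 0) (XT.nd (nat_lit 312) (nat_lit 76) (nat_lit 0) (XT.nd (nat_lit 156) (nat_lit 228) (nat_lit 0) (XT.nd (nat_lit 78) (nat_lit 76) (nat_lit 0) (XT.lf (nat_lit 0) (nat_lit 634470749092) (nat_lit 152) (nat_lit 73772865582) (nat_lit 228) (nat_lit 402272984569) (nat_lit 22) (nat_lit 5) (nat_lit 24) (nat_lit 5) (nat_lit 25) (nat_lit 5) (nat_lit 383) (nat_lit 358) (nat_lit 159)) (XT.lf (nat_lit 0) (nat_lit 78621409196) (nat_lit 76) (nat_lit 893661933734) (nat_lit 152) (nat_lit 198587065889) (nat_lit 21) (nat_lit 5) (nat_lit 22) (nat_lit 5) (nat_lit 23) (nat_lit 4) (nat_lit 384) (nat_lit 358) (nat_lit 158))) (XT.nd (nat_lit 78) (nat_lit 152) (nat_lit 0) (XT.lf (nat_lit 0) (nat_lit 35593705142) (nat_lit 152) (nat_lit 533044844027) (nat_lit 76) (nat_lit 666151198057) (nat_lit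 20) (nat_lit 5) (nat_lit 22) (nat_lit 5) (nat_lit 21) (nat_lit 5) (nat_lit 385) (nat_lit 358) (nat_lit 157)) (XT.lf (nat_lit 0) (nat_lit 69199141000) (nat_lit 152) (nat_lit 210245166998) (nat_lit 228) (nat_lit 1023832537886) (nat_lit 18) (nat_lit 5) (nat_lit 20) (nat_lit 5) (nat_lit 21) (nat_lit 5) (nat_lit 386) (nat_lit 358) (nat_lit 156)))) (XT.nd (nat_lit 156) (nat_lit 0) (nat_lit 0) (XT.nd (nat_lit 78) (nat_lit 76) (nat_lit 0) (XT.lf (nat_lit 0) (nat_lit 562008412067) (nat_lit 228) (nat_lit 630770675968) (nat_lit 76) (nat_lit 182927388170) (nat_lit 18) (nat_lit 5) (nat_lit 21) (nat_lit 5) (nat_lit 19) (nat_lit 4) (nat_lit 387) (nat_lit 358) (nat_lit 155)) (XT.lf (nat_lit 0) (nat_lit 16147760701) (nat_lit 76) (nat_lit 856879141048) (nat_lit 152) (nat_lit 580435634628) (nat_lit 17) (nat_lit 5) (nat_lit 18) (nat_lit 5) (nat_lit 19) (nat_lit 4) (nat_lit 388) (nat_lit 358) (nat_lit 154)))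 (XT.nd (nat_lit 78) (nat_lit 0) (nat_lit 0) (XT.lf (nat_lit 0) (nat_lit 750692142483) (nat_lit 76) (nat_lit 475481106397) (nat_lit 152) (nat_lit 309886122230) (nat_lit 17) (nat_lit 5) (nat_lit 18) (nat_lit 5) (nat_lit 19) (nat_lit 4) (nat_lit 389) (nat_lit 358) (nat_lit 153)) (XT.lf (nat_lit 0) (nat_lit 1544000058997) (nat_lit 76) (nat_lit 63571235683) (nat_lit 152) (nat_lit 17692658676) (nat_lit 17) (nat_lit 5) (nat_lit 18) (nat_lit 5) (nat_lit 19) (nat_lit 4) (nat_lit 390) (nat_lit 358) (nat_lit 152))))) (XT.nd (nat_lit 312) (nat_lit 228) (nat_lit 0) (XT.nd (nat_lit 156) (nat_lit 76) (nat_lit 0) (XT.nd (nat_lit 78) (nat_lit 0) (nat_lit 0) (XT.lf (nat_lit 0) (nat_lit 309786082317) (nat_lit 152) (nat_lit 1022078514799) (nat_lit 76) (nat_lit 387022328264) (nat_lit 15) (nat_lit 5) (nat_lit 17) (nat_lit 5) (nat_lit 16) (nat_lit 4) (nat_lit 391) (nat_lit 358) (nat_lit 151)) (XT.lf (nat_lit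 0) (nat_lit 666438062425) (nat_lit 152) (nat_lit 280242411060) (nat_lit 76) (nat_lit 872968033484) (nat_lit 15) (nat_lit 5) (nat_lit 17) (nat_lit 5) (nat_lit 16) (nat_lit 4) (nat_lit 392) (nat_lit 358) (nat_lit 150))) (XT.nd (nat_lit 78) (nat_lit 0) (nat_lit 0) (XT.lf (nat_lit 0) (nat_lit 548372373930) (nat_lit 76) (nat_lit 516438187904) (nat_lit 152) (nat_lit 862605384383) (nat_lit 14) (nat_lit 5) (nat_lit 15) (nat_lit 5) (nat_lit 16) (nat_lit 4) (nat_lit 393) (nat_lit 358) (nat_lit 149)) (XT.lf (nat_lit 0) (nat_lit 1459213962197) (nat_lit 76) (nat_lit 43501215516) (nat_lit 152) (nat_lit 540476617577) (nat_lit 14) (nat_lit 5) (nat_lit 15) (nat_lit 5) (nat_lit 16) (nat_lit 4) (nat_lit 394) (nat_lit 358) (nat_lit 148)))) (XT.nd (nat_lit 156) (nat_lit 76) (nat_lit 0) (XT.nd (nat_lit 78) (nat_lit 76) (nat_lit 0) (XT.lf (nat_lit 0) (nat_lit 277328368308) (nat_lit 76) (nat_lit 1716231413202)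 (nat_lit 76) (nat_lit 173237321292) (nat_lit 13) (nat_lit 4) (nat_lit 14) (nat_lit 5) (nat_lit 14) (nat_lit 4) (nat_lit 395) (nat_lit 358) (nat_lit 147)) (XT.lf (nat_lit 0) (nat_lit 229718300813) (nat_lit 152) (nat_lit 1065180036347) (nat_lit 76) (nat_lit 1003561783227) (nat_lit 12) (nat_lit 5) (nat_lit 14) (nat_lit 5) (nat_lit 13) (nat_lit 4) (nat_lit 396) (nat_lit 358) (nat_lit 146))) (XT.nd (nat_lit 78) (nat_lit 76) (nat_lit 0) (XT.lf (nat_lit 0) (nat_lit 655551051033) (nat_lit 152) (nat_lit 179447925271) (nat_lit 76) (nat_lit 1605297229955) (nat_lit 12) (nat_lit 5) (nat_lit 14) (nat_lit 5) (nat_lit 13) (nat_lit 4) (nat_lit 397) (nat_lit 358) (nat_lit 145)) (XT.lf (nat_lit 0) (nat_lit 818065703008) (nat_lit 76) (nat_lit 317059211949) (nat_lit 152) (nat_lit 1456780304551) (nat_lit 11) (nat_lit 5) (nat_lit 12) (nat_lit 5) (nat_lit 13) (nat_lit 4) (nat_lit 398) (nat_lit 358) (nat_lit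 144)))))) (XT.nd (nat_lit 44148) (nat_lit 0) (nat_lit 2052) (XT.nd (nat_lit 43836) (nat_lit 0) (nat_lit 3116) (XT.nd (nat_lit 156) (nat_lit 0) (nat_lit 0) (XT.nd (nat_lit 78) (nat_lit 76) (nat_lit 0) (XT.lf (nat_lit 0) (nat_lit 1663926245019) (nat_lit 152) (nat_lit 855619806025) (nat_lit 0) (nat_lit 235227978216) (nat_lit 11) (nat_lit 5) (nat_lit 13) (nat_lit 4) (nat_lit 11) (nat_lit 4) (nat_lit 399) (nat_lit 358) (nat_lit 143)) (XT.lf (nat_lit 0) (nat_lit 134553055292) (nat_lit 76) (nat_lit 2111949928989) (nat_lit 76) (nat_lit 683251655291) (nat_lit 10) (nat_lit 4) (nat_lit 11) (nat_lit 5) (nat_lit 11) (nat_lit 4) (nat_lit 400) (nat_lit 358) (nat_lit 142))) (XT.nd (nat_lit 43602) (nat_lit 0) (nat_lit 3116) (XT.lf (nat_lit 0) (nat_lit 1252599591737) (nat_lit 76) (nat_lit 1646480427274) (nat_lit 76) (nat_lit 217782147193) (nat_lit 10) (nat_lit 4) (nat_lit 11) (nat_lit 5) (nat_lit 11) (nat_lit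 4) (nat_lit 401) (nat_lit 358) (nat_lit 141)) (XT.lf (nat_lit 0) (nat_lit 139712114728) (nat_lit 532) (nat_lit 25717159663) (nat_lit 532) (nat_lit 25717159663) (nat_lit 51) (nat_lit 3) (nat_lit 58) (nat_lit 3) (nat_lit 58) (nat_lit 5) (nat_lit 359) (nat_lit 359) (nat_lit 182)))) (XT.nd (nat_lit 156) (nat_lit 0) (nat_lit 76) (XT.nd (nat_lit 78) (nat_lit 0) (nat_lit 76) (XT.lf (nat_lit 76) (nat_lit 134520714876) (nat_lit 0) (nat_lit 159316123395) (nat_lit 532) (nat_lit 103488892501) (nat_lit 52) (nat_lit 5) (nat_lit 51) (nat_lit 3) (nat_lit 58) (nat_lit 5) (nat_lit 360) (nat_lit 359) (nat_lit 181)) (XT.lf (nat_lit 0) (nat_lit 311469337994) (nat_lit 456) (nat_lit 75832096538) (nat_lit 532) (nat_lit 26094437428) (nat_lit 52) (nat_lit 5) (nat_lit 58) (nat_lit 5) (nat_lit 59) (nat_lit 5) (nat_lit 361) (nat_lit 359) (nat_lit 180))) (XT.nd (nat_lit 78) (nat_lit 0) (nat_lit 0) (XT.lf (nat_lit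 76) (nat_lit 128382776265) (nat_lit 0) (nat_lit 209355313019) (nat_lit 532) (nat_lit 92435483115) (nat_lit 53) (nat_lit 5) (nat_lit 52) (nat_lit 5) (nat_lit 59) (nat_lit 5) (nat_lit 362) (nat_lit 359) (nat_lit 179)) (XT.lf (nat_lit 76) (nat_lit 353247452661) (nat_lit 0) (nat_lit 14934235776) (nat_lit 532) (nat_lit 79945932691) (nat_lit 53) (nat_lit 5) (nat_lit 52) (nat_lit 5) (nat_lit 59) (nat_lit 5) (nat_lit 363) (nat_lit 359) (nat_lit 178))))) (XT.nd (nat_lit 312) (nat_lit 760) (nat_lit 0) (XT.nd (nat_lit 156) (nat_lit 456) (nat_lit 0) (XT.nd (nat_lit 78) (nat_lit 0) (nat_lit 0) (XT.lf (nat_lit 76) (nat_lit 130416516451) (nat_lit 0) (nat_lit 278471475595) (nat_lit 532) (nat_lit 58003824459) (nat_lit 54) (nat_lit 5) (nat_lit 53) (nat_lit 5) (nat_lit 60) (nat_lit 5) (nat_lit 364) (nat_lit 359) (nat_lit 177)) (XT.lf (nat_lit 76) (nat_lit 378724501677) (nat_lit 0) (nat_lit 77098540772)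 (nat_lit 532) (nat_lit 31096325728) (nat_lit 54) (nat_lit 5) (nat_lit 53) (nat_lit 5) (nat_lit 60) (nat_lit 5) (nat_lit 365) (nat_lit 359) (nat_lit 176))) (XT.nd (nat_lit 78) (nat_lit 0) (nat_lit 0) (XT.lf (nat_lit 0) (nat_lit 5035301513) (nat_lit 532) (nat_lit 366054038401) (nat_lit 76) (nat_lit 136906128366) (nat_lit 47) (nat_lit 5) (nat_lit 54) (nat_lit 5) (nat_lit 48) (nat_lit 5) (nat_lit 366) (nat_lit 359) (nat_lit 175)) (XT.lf (nat_lit 0) (nat_lit 47415057789) (nat_lit 532) (nat_lit 115166349796) (nat_lit 76) (nat_lit 367708624466) (nat_lit 47) (nat_lit 5) (nat_lit 54) (nat_lit 5) (nat_lit 48) (nat_lit 5) (nat_lit 367) (nat_lit 359) (nat_lit 174)))) (XT.nd (nat_lit 156) (nat_lit 456) (nat_lit 0) (XT.nd (nat_lit 78) (nat_lit 0) (nat_lit 0) (XT.lf (nat_lit 0) (nat_lit 98737426238) (nat_lit 380) (nat_lit 391664705360) (nat_lit 76) (nat_lit 63521850841) (nat_lit 43) (nat_lit 5) (nat_lit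 48) (nat_lit 5) (nat_lit 44) (nat_lit 5) (nat_lit 368) (nat_lit 359) (nat_lit 173)) (XT.lf (nat_lit 0) (nat_lit 161619093638) (nat_lit 380) (nat_lit 115072882508) (nat_lit 76) (nat_lit 302160391997) (nat_lit 43) (nat_lit 5) (nat_lit 48) (nat_lit 5) (nat_lit 44) (nat_lit 5) (nat_lit 369) (nat_lit 359) (nat_lit 172))) (XT.nd (nat_lit 78) (nat_lit 228) (nat_lit 0) (XT.lf (nat_lit 0) (nat_lit 193316748603) (nat_lit 228) (nat_lit 40863795421) (nat_lit 304) (nat_lit 371222540754) (nat_lit 40) (nat_lit 5) (nat_lit 43) (nat_lit 5) (nat_lit 44) (nat_lit 5) (nat_lit 370) (nat_lit 359) (nat_lit 171)) (XT.nd (nat_lit 78) (nat_lit 228) (nat_lit 0) (XT.lf (nat_lit 0) (nat_lit 320917539210) (nat_lit 304) (nat_lit 106128687431) (nat_lit 76) (nat_lit 206361981839) (nat_lit 40) (nat_lit 5) (nat_lit 44) (nat_lit 5) (nat_lit 41) (nat_lit 5) (nat_lit 371) (nat_lit 359) (nat_lit 170)) (XT.lf (nat_lit 0) (nat_lit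 234999793865) (nat_lit 228) (nat_lit 186306827955) (nat_lit 304) (nat_lit 241810070070) (nat_lit 37) (nat_lit 5) (nat_lit 40) (nat_lit 5) (nat_lit 41) (nat_lit 5) (nat_lit 372) (nat_lit 359) (nat_lit 169))))))))
noncomputable def xc236 : XT := (XT.nd (nat_lit 1248) (nat_lit 608) (nat_lit 0) (XT.nd (nat_lit 624) (nat_lit 684) (nat_lit 0) (XT.nd (nat_lit 312) (nat_lit 304) (nat_lit 0) (XT.nd (nat_lit 156) (nat_lit 304) (nat_lit 0) (XT.nd (nat_lit 78) (nat_lit 152) (nat_lit 0) (XT.lf (nat_lit 0) (nat_lit 534476215853) (nat_lit 304) (nat_lit 87363210234) (nat_lit 76) (nat_lit 72982477132) (nat_lit 37) (nat_lit 5) (nat_lit 41) (nat_lit 5) (nat_lit 38) (nat_lit 5) (nat_lit 373) (nat_lit 359) (nat_lit 168)) (XT.lf (nat_lit 0) (nat_lit 290335362291) (nat_lit 152) (nat_lit 378185708068) (nat_lit 228) (nat_lit 59596725691) (nat_lit 35) (nat_lit 5) (nat_lit 37) (nat_lit 5) (nat_lit 38) (nat_lit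 5) (nat_lit 374) (nat_lit 359) (nat_lit 167))) (XT.nd (nat_lit 78) (nat_lit 228) (nat_lit 0) (XT.lf (nat_lit 0) (nat_lit 49201052395) (nat_lit 228) (nat_lit 61913642986) (nat_lit 76) (nat_lit 652671925420) (nat_lit 34) (nat_lit 5) (nat_lit 37) (nat_lit 5) (nat_lit 35) (nat_lit 5) (nat_lit 375) (nat_lit 359) (nat_lit 166)) (XT.lf (nat_lit 0) (nat_lit 176683168189) (nat_lit 304) (nat_lit 445510622468) (nat_lit 76) (nat_lit 178935300619) (nat_lit 31) (nat_lit 5) (nat_lit 35) (nat_lit 5) (nat_lit 32) (nat_lit 5) (nat_lit 376) (nat_lit 359) (nat_lit 165)))) (XT.nd (nat_lit 156) (nat_lit 152) (nat_lit 0) (XT.nd (nat_lit 78) (nat_lit 152) (nat_lit 0) (XT.lf (nat_lit 0) (nat_lit 318986731852) (nat_lit 304) (nat_lit 34179387237) (nat_lit 76) (nat_lit 487923010035) (nat_lit 31) (nat_lit 5) (nat_lit 35) (nat_lit 5) (nat_lit 32) (nat_lit 5) (nat_lit 377) (nat_lit 359) (nat_lit 164)) (XT.lf (nat_lit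 0) (nat_lit 431651271355) (nat_lit 152) (nat_lit 51404518193) (nat_lit 228) (nat_lit 400359683755) (nat_lit 29) (nat_lit 5) (nat_lit 31) (nat_lit 5) (nat_lit 32) (nat_lit 5) (nat_lit 378) (nat_lit 359) (nat_lit 163))) (XT.nd (nat_lit 78) (nat_lit 0) (nat_lit 0) (XT.lf (nat_lit 0) (nat_lit 1066399407) (nat_lit 152) (nat_lit 666770087486) (nat_lit 228) (nat_lit 260684548941) (nat_lit 27) (nat_lit 5) (nat_lit 29) (nat_lit 5) (nat_lit 30) (nat_lit 5) (nat_lit 379) (nat_lit 359) (nat_lit 162)) (XT.lf (nat_lit 0) (nat_lit 514410168506) (nat_lit 152) (nat_lit 366642872103) (nat_lit 228) (nat_lit 95089730729) (nat_lit 27) (nat_lit 5) (nat_lit 29) (nat_lit 5) (nat_lit 30) (nat_lit 5) (nat_lit 380) (nat_lit 359) (nat_lit 161))))) (XT.nd (nat_lit 312) (nat_lit 304) (nat_lit 0) (XT.nd (nat_lit 156) (nat_lit 152) (nat_lit 0) (XT.nd (nat_lit 78) (nat_lit 0) (nat_lit 0) (XT.lf (nat_lit 0) (nat_lit 41298856306)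 (nat_lit 152) (nat_lit 39257394379) (nat_lit 228) (nat_lit 946777396658) (nat_lit 24) (nat_lit 5) (nat_lit 26) (nat_lit 5) (nat_lit 27) (nat_lit 5) (nat_lit 381) (nat_lit 359) (nat_lit 160)) (XT.lf (nat_lit 0) (nat_lit 285628459402) (nat_lit 228) (nat_lit 481135023865) (nat_lit 76) (nat_lit 314017771995) (nat_lit 24) (nat_lit 5) (nat_lit 27) (nat_lit 5) (nat_lit 25) (nat_lit 5) (nat_lit 382) (nat_lit 359) (nat_lit 159))) (XT.nd (nat_lit 78) (nat_lit 0) (nat_lit 0) (XT.lf (nat_lit 0) (nat_lit 66461718124) (nat_lit 152) (nat_lit 443262793616) (nat_lit 228) (nat_lit 628570714733) (nat_lit 22) (nat_lit 5) (nat_lit 24) (nat_lit 5) (nat_lit 25) (nat_lit 5) (nat_lit 383) (nat_lit 359) (nat_lit 158)) (XT.lf (nat_lit 0) (nat_lit 685228756777) (nat_lit 152) (nat_lit 79674564539) (nat_lit 228) (nat_lit 434454588234) (nat_lit 22) (nat_lit 5) (nat_lit 24) (nat_lit 5) (nat_lit 25) (nat_lit 5) (nat_lit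 384) (nat_lit 359) (nat_lit 157)))) (XT.nd (nat_lit 156) (nat_lit 152) (nat_lit 0) (XT.nd (nat_lit 78) (nat_lit 76) (nat_lit 0) (XT.lf (nat_lit 0) (nat_lit 84911475018) (nat_lit 76) (nat_lit 965154748100) (nat_lit 152) (nat_lit 214473801169) (nat_lit 21) (nat_lit 5) (nat_lit 22) (nat_lit 5) (nat_lit 23) (nat_lit 4) (nat_lit 385) (nat_lit 359) (nat_lit 156)) (XT.lf (nat_lit 0) (nat_lit 38441403854) (nat_lit 152) (nat_lit 575688093779) (nat_lit 76) (nat_lit 719443413000) (nat_lit 20) (nat_lit 5) (nat_lit 22) (nat_lit 5) (nat_lit 21) (nat_lit 5) (nat_lit 386) (nat_lit 359) (nat_lit 155))) (XT.nd (nat_lit 78) (nat_lit 0) (nat_lit 0) (XT.lf (nat_lit 0) (nat_lit 74735401500) (nat_lit 152) (nat_lit 227064646372) (nat_lit 228) (nat_lit 1105738929891) (nat_lit 18) (nat_lit 5) (nat_lit 20) (nat_lit 5) (nat_lit 21) (nat_lit 5) (nat_lit 387) (nat_lit 359) (nat_lit 154)) (XT.lf (nat_lit 0) (nat_lit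 606969268788) (nat_lit 228) (nat_lit 681232013575) (nat_lit 76) (nat_lit 197561697078) (nat_lit 18) (nat_lit 5) (nat_lit 21) (nat_lit 5) (nat_lit 19) (nat_lit 4) (nat_lit 388) (nat_lit 359) (nat_lit 153)))))) (XT.nd (nat_lit 624) (nat_lit 228) (nat_lit 0) (XT.nd (nat_lit 312) (nat_lit 152) (nat_lit 0) (XT.nd (nat_lit 156) (nat_lit 152) (nat_lit 0) (XT.nd (nat_lit 78) (nat_lit 0) (nat_lit 0) (XT.lf (nat_lit 0) (nat_lit 17439890017) (nat_lit 76) (nat_lit 925429341436) (nat_lit 152) (nat_lit 626870293482) (nat_lit 17) (nat_lit 5) (nat_lit 18) (nat_lit 5) (nat_lit 19) (nat_lit 4) (nat_lit 389) (nat_lit 359) (nat_lit 152)) (XT.lf (nat_lit 0) (nat_lit 810747799492) (nat_lit 76) (nat_lit 513519473709) (nat_lit 152) (nat_lit 334676834308) (nat_lit 17) (nat_lit 5) (nat_lit 18) (nat_lit 5) (nat_lit 19) (nat_lit 4) (nat_lit 390) (nat_lit 359) (nat_lit 151))) (XT.nd (nat_lit 78) (nat_lit 152) (nat_lit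 0) (XT.lf (nat_lit 0) (nat_lit 1667520328171) (nat_lit 76) (nat_lit 68656822315) (nat_lit 152) (nat_lit 19107906834) (nat_lit 17) (nat_lit 5) (nat_lit 18) (nat_lit 5) (nat_lit 19) (nat_lit 4) (nat_lit 391) (nat_lit 359) (nat_lit 150)) (XT.lf (nat_lit 0) (nat_lit 334569122785) (nat_lit 152) (nat_lit 1103844520648) (nat_lit 76) (nat_lit 417984223557) (nat_lit 15) (nat_lit 5) (nat_lit 17) (nat_lit 5) (nat_lit 16) (nat_lit 4) (nat_lit 392) (nat_lit 359) (nat_lit 149)))) (XT.nd (nat_lit 156) (nat_lit 76) (nat_lit 0) (XT.nd (nat_lit 78) (nat_lit 76) (nat_lit 0) (XT.lf (nat_lit 0) (nat_lit 719753249903) (nat_lit 152) (nat_lit 302661549005) (nat_lit 76) (nat_lit 942805577118) (nat_lit 15) (nat_lit 5) (nat_lit 17) (nat_lit 5) (nat_lit 16) (nat_lit 4) (nat_lit 393) (nat_lit 359) (nat_lit 148)) (XT.lf (nat_lit 0) (nat_lit 592242412329) (nat_lit 76) (nat_lit 557753132357) (nat_lit 152) (nat_lit 931613666102)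 (nat_lit 14) (nat_lit 5) (nat_lit 15) (nat_lit 5) (nat_lit 16) (nat_lit 4) (nat_lit 394) (nat_lit 359) (nat_lit 147))) (XT.nd (nat_lit 78) (nat_lit 76) (nat_lit 0) (XT.lf (nat_lit 0) (nat_lit 1575951309252) (nat_lit 76) (nat_lit 46981210369) (nat_lit 152) (nat_lit 583714608991) (nat_lit 14) (nat_lit 5) (nat_lit 15) (nat_lit 5) (nat_lit 16) (nat_lit 4) (nat_lit 395) (nat_lit 359) (nat_lit 146)) (XT.lf (nat_lit 0) (nat_lit 299514869668) (nat_lit 76) (nat_lit 1853529820453) (nat_lit 76) (nat_lit 187096170739) (nat_lit 13) (nat_lit 4) (nat_lit 14) (nat_lit 5) (nat_lit 14) (nat_lit 4) (nat_lit 396) (nat_lit 359) (nat_lit 145))))) (XT.nd (nat_lit 312) (nat_lit 76) (nat_lit 0) (XT.nd (nat_lit 156) (nat_lit 76) (nat_lit 0) (XT.nd (nat_lit 78) (nat_lit 0) (nat_lit 0) (XT.lf (nat_lit 0) (nat_lit 248095884731) (nat_lit 152) (nat_lit 1150394218158) (nat_lit 76) (nat_lit 1083846817473) (nat_lit 12)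 (nat_lit 5) (nat_lit 14) (nat_lit 5) (nat_lit 13) (nat_lit 4) (nat_lit 397) (nat_lit 359) (nat_lit 144)) (XT.lf (nat_lit 0) (nat_lit 707995246090) (nat_lit 152) (nat_lit 193803554573) (nat_lit 76) (nat_lit 1733721093156) (nat_lit 12) (nat_lit 5) (nat_lit 14) (nat_lit 5) (nat_lit 13) (nat_lit 4) (nat_lit 398) (nat_lit 359) (nat_lit 143))) (XT.nd (nat_lit 78) (nat_lit 0) (nat_lit 0) (XT.lf (nat_lit 0) (nat_lit 883511158786) (nat_lit 76) (nat_lit 342423856921) (nat_lit 152) (nat_lit 1573322612699) (nat_lit 11) (nat_lit 5) (nat_lit 12) (nat_lit 5) (nat_lit 13) (nat_lit 4) (nat_lit 399) (nat_lit 359) (nat_lit 142)) (XT.lf (nat_lit 0) (nat_lit 1797040446255) (nat_lit 152) (nat_lit 924069199778) (nat_lit 0) (nat_lit 254046297383) (nat_lit 11) (nat_lit 5) (nat_lit 13) (nat_lit 4) (nat_lit 11) (nat_lit 4) (nat_lit 400) (nat_lit 359) (nat_lit 141)))) (XT.nd (nat_lit 43758) (nat_lit 0) (nat_lit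 3116) (XT.nd (nat_lit 43680) (nat_lit 0) (nat_lit 3116) (XT.lf (nat_lit 0) (nat_lit 145317485616) (nat_lit 76) (nat_lit 2280905835983) (nat_lit 76) (nat_lit 737911681201) (nat_lit 10) (nat_lit 4) (nat_lit 11) (nat_lit 5) (nat_lit 11) (nat_lit 4) (nat_lit 401) (nat_lit 359) (nat_lit 140)) (XT.lf (nat_lit 0) (nat_lit 150889487178) (nat_lit 532) (nat_lit 27774314235) (nat_lit 532) (nat_lit 27774314235) (nat_lit 51) (nat_lit 3) (nat_lit 58) (nat_lit 3) (nat_lit 58) (nat_lit 5) (nat_lit 360) (nat_lit 360) (nat_lit 180))) (XT.nd (nat_lit 78) (nat_lit 0) (nat_lit 76) (XT.lf (nat_lit 76) (nat_lit 145282797421) (nat_lit 0) (nat_lit 172061744940) (nat_lit 532) (nat_lit 111767184699) (nat_lit 52) (nat_lit 5) (nat_lit 51) (nat_lit 3) (nat_lit 58) (nat_lit 5) (nat_lit 361) (nat_lit 360) (nat_lit 179)) (XT.lf (nat_lit 0) (nat_lit 336387578600) (nat_lit 456) (nat_lit 81898205461) (nat_lit 532) (nat_lit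 28181700680) (nat_lit 52) (nat_lit 5) (nat_lit 58) (nat_lit 5) (nat_lit 59) (nat_lit 5) (nat_lit 362) (nat_lit 360) (nat_lit 178)))))))
noncomputable def xc237 : XT := (XT.nd (nat_lit 1248) (nat_lit 1292) (nat_lit 0) (XT.nd (nat_lit 624) (nat_lit 912) (nat_lit 0) (XT.nd (nat_lit 312) (nat_lit 684) (nat_lit 0) (XT.nd (nat_lit 156) (nat_lit 0) (nat_lit 76) (XT.nd (nat_lit 78) (nat_lit 0) (nat_lit 0) (XT.lf (nat_lit 76) (nat_lit 138653845551) (nat_lit 0) (nat_lit 226103943821) (nat_lit 532) (nat_lit 99829615202) (nat_lit 53) (nat_lit 5) (nat_lit 52) (nat_lit 5) (nat_lit 59) (nat_lit 5) (nat_lit 363) (nat_lit 360) (nat_lit 177)) (XT.lf (nat_lit 76) (nat_lit 381507662934) (nat_lit 0) (nat_lit 16129165157) (nat_lit 532) (nat_lit 86340953082) (nat_lit 53) (nat_lit 5) (nat_lit 52) (nat_lit 5) (nat_lit 59) (nat_lit 5) (nat_lit 364) (nat_lit 360) (nat_lit 176))) (XT.nd (nat_lit 78) (nat_lit 0)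 (nat_lit 0) (XT.lf (nat_lit 76) (nat_lit 140850294199) (nat_lit 0) (nat_lit 300749303741) (nat_lit 532) (nat_lit 62643517378) (nat_lit 54) (nat_lit 5) (nat_lit 53) (nat_lit 5) (nat_lit 60) (nat_lit 5) (nat_lit 365) (nat_lit 360) (nat_lit 175)) (XT.lf (nat_lit 76) (nat_lit 409022884434) (nat_lit 0) (nat_lit 83266525976) (nat_lit 532) (nat_lit 33583464159) (nat_lit 54) (nat_lit 5) (nat_lit 53) (nat_lit 5) (nat_lit 60) (nat_lit 5) (nat_lit 366) (nat_lit 360) (nat_lit 174)))) (XT.nd (nat_lit 156) (nat_lit 304) (nat_lit 0) (XT.nd (nat_lit 78) (nat_lit 0) (nat_lit 0) (XT.lf (nat_lit 0) (nat_lit 5438633852) (nat_lit 532) (nat_lit 395337877487) (nat_lit 76) (nat_lit 147858552806) (nat_lit 47) (nat_lit 5) (nat_lit 54) (nat_lit 5) (nat_lit 48) (nat_lit 5) (nat_lit 367) (nat_lit 360) (nat_lit 173)) (XT.lf (nat_lit 0) (nat_lit 51208732985) (nat_lit 532) (nat_lit 124379209644) (nat_lit 76) (nat_lit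 397125253470) (nat_lit 47) (nat_lit 5) (nat_lit 54) (nat_lit 5) (nat_lit 48) (nat_lit 5) (nat_lit 368) (nat_lit 360) (nat_lit 172))) (XT.nd (nat_lit 78) (nat_lit 0) (nat_lit 0) (XT.lf (nat_lit 0) (nat_lit 106636866330) (nat_lit 380) (nat_lit 422997408268) (nat_lit 76) (nat_lit 68603589950) (nat_lit 43) (nat_lit 5) (nat_lit 48) (nat_lit 5) (nat_lit 44) (nat_lit 5) (nat_lit 369) (nat_lit 360) (nat_lit 171)) (XT.lf (nat_lit 0) (nat_lit 174549034086) (nat_lit 380) (nat_lit 124278274663) (nat_lit 76) (nat_lit 326333215062) (nat_lit 43) (nat_lit 5) (nat_lit 48) (nat_lit 5) (nat_lit 44) (nat_lit 5) (nat_lit 370) (nat_lit 360) (nat_lit 170))))) (XT.nd (nat_lit 312) (nat_lit 456) (nat_lit 0) (XT.nd (nat_lit 156) (nat_lit 228) (nat_lit 0) (XT.nd (nat_lit 78) (nat_lit 0) (nat_lit 0) (XT.lf (nat_lit 0) (nat_lit 208782515836) (nat_lit 228) (nat_lit 44132864354) (nat_lit 304) (nat_lit 400919919267)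 (nat_lit 40) (nat_lit 5) (nat_lit 43) (nat_lit 5) (nat_lit 44) (nat_lit 5) (nat_lit 371) (nat_lit 360) (nat_lit 169)) (XT.lf (nat_lit 0) (nat_lit 346591306680) (nat_lit 304) (nat_lit 114618557784) (nat_lit 76) (nat_lit 222870970909) (nat_lit 40) (nat_lit 5) (nat_lit 44) (nat_lit 5) (nat_lit 41) (nat_lit 5) (nat_lit 372) (nat_lit 360) (nat_lit 168))) (XT.nd (nat_lit 78) (nat_lit 0) (nat_lit 0) (XT.lf (nat_lit 0) (nat_lit 253800191266) (nat_lit 228) (nat_lit 201211307599) (nat_lit 304) (nat_lit 261154499999) (nat_lit 37) (nat_lit 5) (nat_lit 40) (nat_lit 5) (nat_lit 41) (nat_lit 5) (nat_lit 373) (nat_lit 360) (nat_lit 167)) (XT.lf (nat_lit 0) (nat_lit 577234636178) (nat_lit 304) (nat_lit 94351859028) (nat_lit 76) (nat_lit 78821133878) (nat_lit 37) (nat_lit 5) (nat_lit 41) (nat_lit 5) (nat_lit 38) (nat_lit 5) (nat_lit 374) (nat_lit 360) (nat_lit 166)))) (XT.nd (nat_lit 156) (nat_lit 228)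 (nat_lit 0) (XT.nd (nat_lit 78) (nat_lit 76) (nat_lit 0) (XT.lf (nat_lit 0) (nat_lit 313562588969) (nat_lit 152) (nat_lit 408440475710) (nat_lit 228) (nat_lit 64364129852) (nat_lit 35) (nat_lit 5) (nat_lit 37) (nat_lit 5) (nat_lit 38) (nat_lit 5) (nat_lit 375) (nat_lit 360) (nat_lit 165)) (XT.lf (nat_lit 0) (nat_lit 53137430282) (nat_lit 228) (nat_lit 66866350289) (nat_lit 76) (nat_lit 704885745964) (nat_lit 34) (nat_lit 5) (nat_lit 37) (nat_lit 5) (nat_lit 35) (nat_lit 5) (nat_lit 376) (nat_lit 360) (nat_lit 164))) (XT.nd (nat_lit 78) (nat_lit 0) (nat_lit 0) (XT.lf (nat_lit 0) (nat_lit 190818104838) (nat_lit 304) (nat_lit 481151077223) (nat_lit 76) (nat_lit 193250213459) (nat_lit 31) (nat_lit 5) (nat_lit 35) (nat_lit 5) (nat_lit 32) (nat_lit 5) (nat_lit 377) (nat_lit 360) (nat_lit 163)) (XT.lf (nat_lit 0) (nat_lit 344505932616) (nat_lit 304) (nat_lit 36913372435) (nat_lit 76) (nat_lit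 526956933052) (nat_lit 31) (nat_lit 5) (nat_lit 35) (nat_lit 5) (nat_lit 32) (nat_lit 5) (nat_lit 378) (nat_lit 360) (nat_lit 162)))))) (XT.nd (nat_lit 624) (nat_lit 532) (nat_lit 0) (XT.nd (nat_lit 312) (nat_lit 228) (nat_lit 0) (XT.nd (nat_lit 156) (nat_lit 228) (nat_lit 0) (XT.nd (nat_lit 78) (nat_lit 152) (nat_lit 0) (XT.lf (nat_lit 0) (nat_lit 466183729584) (nat_lit 152) (nat_lit 55516774495) (nat_lit 228) (nat_lit 432388186634) (nat_lit 29) (nat_lit 5) (nat_lit 31) (nat_lit 5) (nat_lit 32) (nat_lit 5) (nat_lit 379) (nat_lit 360) (nat_lit 161)) (XT.lf (nat_lit 0) (nat_lit 1152076326) (nat_lit 152) (nat_lit 720111573385) (nat_lit 228) (nat_lit 281539049161) (nat_lit 27) (nat_lit 5) (nat_lit 29) (nat_lit 5) (nat_lit 30) (nat_lit 5) (nat_lit 380) (nat_lit 360) (nat_lit 160))) (XT.nd (nat_lit 78) (nat_lit 228) (nat_lit 0) (XT.lf (nat_lit 0) (nat_lit 555563319918) (nat_lit 152) (nat_lit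 395974189742) (nat_lit 228) (nat_lit 102696665025) (nat_lit 27) (nat_lit 5) (nat_lit 29) (nat_lit 5) (nat_lit 30) (nat_lit 5) (nat_lit 381) (nat_lit 360) (nat_lit 159)) (XT.lf (nat_lit 0) (nat_lit 44603106359) (nat_lit 152) (nat_lit 42397867362) (nat_lit 228) (nat_lit 1022519347317) (nat_lit 24) (nat_lit 5) (nat_lit 26) (nat_lit 5) (nat_lit 27) (nat_lit 5) (nat_lit 382) (nat_lit 360) (nat_lit 158)))) (XT.nd (nat_lit 156) (nat_lit 76) (nat_lit 0) (XT.nd (nat_lit 78) (nat_lit 152) (nat_lit 0) (XT.lf (nat_lit 0) (nat_lit 308478945258) (nat_lit 228) (nat_lit 519625495413) (nat_lit 76) (nat_lit 339139298048) (nat_lit 24) (nat_lit 5) (nat_lit 27) (nat_lit 5) (nat_lit 25) (nat_lit 5) (nat_lit 383) (nat_lit 360) (nat_lit 157)) (XT.lf (nat_lit 0) (nat_lit 71778977571) (nat_lit 152) (nat_lit 478723696467) (nat_lit 228) (nat_lit 678856154226) (nat_lit 22) (nat_lit 5) (nat_lit 24) (nat_lit 5) (nat_lit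 25) (nat_lit 5) (nat_lit 384) (nat_lit 360) (nat_lit 156))) (XT.nd (nat_lit 78) (nat_lit 76) (nat_lit 0) (XT.lf (nat_lit 0) (nat_lit 740047355465) (nat_lit 152) (nat_lit 86048418000) (nat_lit 228) (nat_lit 469210753731) (nat_lit 22) (nat_lit 5) (nat_lit 24) (nat_lit 5) (nat_lit 25) (nat_lit 5) (nat_lit 385) (nat_lit 360) (nat_lit 155)) (XT.lf (nat_lit 0) (nat_lit 91704695733) (nat_lit 76) (nat_lit 1042367007635) (nat_lit 152) (nat_lit 231631508083) (nat_lit 21) (nat_lit 5) (nat_lit 22) (nat_lit 5) (nat_lit 23) (nat_lit 4) (nat_lit 386) (nat_lit 360) (nat_lit 154))))) (XT.nd (nat_lit 312) (nat_lit 228) (nat_lit 0) (XT.nd (nat_lit 156) (nat_lit 76) (nat_lit 0) (XT.nd (nat_lit 78) (nat_lit 152) (nat_lit 0) (XT.lf (nat_lit 0) (nat_lit 41516889604) (nat_lit 152) (nat_lit 621742851698) (nat_lit 76) (nat_lit 776998988148) (nat_lit 20) (nat_lit 5) (nat_lit 22) (nat_lit 5) (nat_lit 21) (nat_lit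 5) (nat_lit 387) (nat_lit 360) (nat_lit 153)) (XT.lf (nat_lit 0) (nat_lit 80714515873) (nat_lit 152) (nat_lit 245229703210) (nat_lit 228) (nat_lit 1194197863363) (nat_lit 18) (nat_lit 5) (nat_lit 20) (nat_lit 5) (nat_lit 21) (nat_lit 5) (nat_lit 388) (nat_lit 360) (nat_lit 152))) (XT.nd (nat_lit 78) (nat_lit 76) (nat_lit 0) (XT.lf (nat_lit 0) (nat_lit 655526967832) (nat_lit 228) (nat_lit 735730303338) (nat_lit 76) (nat_lit 213366733886) (nat_lit 18) (nat_lit 5) (nat_lit 21) (nat_lit 5) (nat_lit 19) (nat_lit 4) (nat_lit 389) (nat_lit 360) (nat_lit 151)) (XT.lf (nat_lit 0) (nat_lit 18835345672) (nat_lit 76) (nat_lit 999463576528) (nat_lit 152) (nat_lit 677019752424) (nat_lit 17) (nat_lit 5) (nat_lit 18) (nat_lit 5) (nat_lit 19) (nat_lit 4) (nat_lit 390) (nat_lit 360) (nat_lit 150)))) (XT.nd (nat_lit 156) (nat_lit 228) (nat_lit 0) (XT.nd (nat_lit 78) (nat_lit 0) (nat_lit 0) (XT.lf (nat_lit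 0) (nat_lit 875607868316) (nat_lit 76) (nat_lit 554600927695) (nat_lit 152) (nat_lit 361450828704) (nat_lit 17) (nat_lit 5) (nat_lit 18) (nat_lit 5) (nat_lit 19) (nat_lit 4) (nat_lit 391) (nat_lit 360) (nat_lit 149)) (XT.lf (nat_lit 0) (nat_lit 1800922181151) (nat_lit 76) (nat_lit 74149271888) (nat_lit 152) (nat_lit 20636398317) (nat_lit 17) (nat_lit 5) (nat_lit 18) (nat_lit 5) (nat_lit 19) (nat_lit 4) (nat_lit 392) (nat_lit 360) (nat_lit 148))) (XT.nd (nat_lit 78) (nat_lit 76) (nat_lit 0) (XT.lf (nat_lit 0) (nat_lit 361334784538) (nat_lit 152) (nat_lit 1192151846245) (nat_lit 76) (nat_lit 451423054919) (nat_lit 15) (nat_lit 5) (nat_lit 17) (nat_lit 5) (nat_lit 16) (nat_lit 4) (nat_lit 393) (nat_lit 360) (nat_lit 147)) (XT.nd (nat_lit 78) (nat_lit 76) (nat_lit 0) (XT.lf (nat_lit 0) (nat_lit 777333632052) (nat_lit 152) (nat_lit 326874254356) (nat_lit 76) (nat_lit 1018230109840) (nat_lit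 15) (nat_lit 5) (nat_lit 17) (nat_lit 5) (nat_lit 16) (nat_lit 4) (nat_lit 394) (nat_lit 360) (nat_lit 146)) (XT.lf (nat_lit 0) (nat_lit 639622018352) (nat_lit 76) (nat_lit 602373288142) (nat_lit 152) (nat_lit 1006142631620) (nat_lit 14) (nat_lit 5) (nat_lit 15) (nat_lit 5) (nat_lit 16) (nat_lit 4) (nat_lit 395) (nat_lit 360) (nat_lit 145))))))))
noncomputable def xc238 : XT := (XT.nd (nat_lit 45006) (nat_lit 0) (nat_lit 684) (XT.nd (nat_lit 44382) (nat_lit 0) (nat_lit 2432) (XT.nd (nat_lit 312) (nat_lit 76) (nat_lit 0) (XT.nd (nat_lit 156) (nat_lit 76) (nat_lit 0) (XT.nd (nat_lit 78) (nat_lit 76) (nat_lit 0) (XT.lf (nat_lit 0) (nat_lit 1702027611248) (nat_lit 76) (nat_lit 50739619417) (nat_lit 152) (nat_lit 630411659404) (nat_lit 14) (nat_lit 5) (nat_lit 15) (nat_lit 5) (nat_lit 16) (nat_lit 4) (nat_lit 396) (nat_lit 360) (nat_lit 144)) (XT.lf (nat_lit 0) (nat_lit 323476258054) (nat_lit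 76) (nat_lit 2001812115378) (nat_lit 76) (nat_lit 202063747580) (nat_lit 13) (nat_lit 4) (nat_lit 14) (nat_lit 5) (nat_lit 14) (nat_lit 4) (nat_lit 397) (nat_lit 360) (nat_lit 143))) (XT.nd (nat_lit 78) (nat_lit 0) (nat_lit 0) (XT.lf (nat_lit 0) (nat_lit 267943658263) (nat_lit 152) (nat_lit 1242425566055) (nat_lit 76) (nat_lit 1170554641393) (nat_lit 12) (nat_lit 5) (nat_lit 14) (nat_lit 5) (nat_lit 13) (nat_lit 4) (nat_lit 398) (nat_lit 360) (nat_lit 142)) (XT.lf (nat_lit 0) (nat_lit 764634960919) (nat_lit 152) (nat_lit 209307663424) (nat_lit 76) (nat_lit 1872418853314) (nat_lit 12) (nat_lit 5) (nat_lit 14) (nat_lit 5) (nat_lit 13) (nat_lit 4) (nat_lit 399) (nat_lit 360) (nat_lit 141)))) (XT.nd (nat_lit 43914) (nat_lit 0) (nat_lit 3040) (XT.nd (nat_lit 43836) (nat_lit 0) (nat_lit 3040) (XT.lf (nat_lit 0) (nat_lit 954192222560) (nat_lit 76) (nat_lit 369817686613) (nat_lit 152) (nat_lit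 1699188322079) (nat_lit 11) (nat_lit 5) (nat_lit 12) (nat_lit 5) (nat_lit 13) (nat_lit 4) (nat_lit 400) (nat_lit 360) (nat_lit 140)) (XT.lf (nat_lit 0) (nat_lit 162960991892) (nat_lit 532) (nat_lit 29996072301) (nat_lit 532) (nat_lit 29996072301) (nat_lit 51) (nat_lit 3) (nat_lit 58) (nat_lit 3) (nat_lit 58) (nat_lit 5) (nat_lit 361) (nat_lit 361) (nat_lit 178))) (XT.nd (nat_lit 78) (nat_lit 0) (nat_lit 76) (XT.lf (nat_lit 76) (nat_lit 156905785888) (nat_lit 0) (nat_lit 185826968892) (nat_lit 532) (nat_lit 120707857142) (nat_lit 52) (nat_lit 5) (nat_lit 51) (nat_lit 3) (nat_lit 58) (nat_lit 5) (nat_lit 362) (nat_lit 361) (nat_lit 177)) (XT.lf (nat_lit 0) (nat_lit 363299179509) (nat_lit 456) (nat_lit 88449668550) (nat_lit 532) (nat_lit 30435986612) (nat_lit 52) (nat_lit 5) (nat_lit 58) (nat_lit 5) (nat_lit 59) (nat_lit 5) (nat_lit 363) (nat_lit 361) (nat_lit 176))))) (XT.nd (nat_lit 312)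 (nat_lit 684) (nat_lit 0) (XT.nd (nat_lit 156) (nat_lit 0) (nat_lit 76) (XT.nd (nat_lit 78) (nat_lit 0) (nat_lit 0) (XT.lf (nat_lit 76) (nat_lit 149746536585) (nat_lit 0) (nat_lit 244192435733) (nat_lit 532) (nat_lit 107815378654) (nat_lit 53) (nat_lit 5) (nat_lit 52) (nat_lit 5) (nat_lit 59) (nat_lit 5) (nat_lit 364) (nat_lit 361) (nat_lit 175)) (XT.lf (nat_lit 76) (nat_lit 412028630960) (nat_lit 0) (nat_lit 17419661709) (nat_lit 532) (nat_lit 93247668436) (nat_lit 53) (nat_lit 5) (nat_lit 52) (nat_lit 5) (nat_lit 59) (nat_lit 5) (nat_lit 365) (nat_lit 361) (nat_lit 174))) (XT.nd (nat_lit 78) (nat_lit 0) (nat_lit 0) (XT.lf (nat_lit 76) (nat_lit 152118709053) (nat_lit 0) (nat_lit 324809342431) (nat_lit 532) (nat_lit 67654473188) (nat_lit 54) (nat_lit 5) (nat_lit 53) (nat_lit 5) (nat_lit 60) (nat_lit 5) (nat_lit 366) (nat_lit 361) (nat_lit 173)) (XT.lf (nat_lit 76) (nat_lit 441745077520)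 (nat_lit 0) (nat_lit 89927935453) (nat_lit 532) (nat_lit 36269654643) (nat_lit 54) (nat_lit 5) (nat_lit 53) (nat_lit 5) (nat_lit 60) (nat_lit 5) (nat_lit 367) (nat_lit 361) (nat_lit 172)))) (XT.nd (nat_lit 156) (nat_lit 304) (nat_lit 0) (XT.nd (nat_lit 78) (nat_lit 0) (nat_lit 0) (XT.lf (nat_lit 0) (nat_lit 5874160276) (nat_lit 532) (nat_lit 426964492745) (nat_lit 76) (nat_lit 159687180593) (nat_lit 47) (nat_lit 5) (nat_lit 54) (nat_lit 5) (nat_lit 48) (nat_lit 5) (nat_lit 368) (nat_lit 361) (nat_lit 171)) (XT.lf (nat_lit 0) (nat_lit 55305835064) (nat_lit 532) (nat_lit 134329162211) (nat_lit 76) (nat_lit 428895221491) (nat_lit 47) (nat_lit 5) (nat_lit 54) (nat_lit 5) (nat_lit 48) (nat_lit 5) (nat_lit 369) (nat_lit 361) (nat_lit 170))) (XT.nd (nat_lit 78) (nat_lit 0) (nat_lit 0) (XT.lf (nat_lit 0) (nat_lit 115168198004) (nat_lit 380) (nat_lit 456836794961) (nat_lit 76) (nat_lit 74091869466)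 (nat_lit 43) (nat_lit 5) (nat_lit 48) (nat_lit 5) (nat_lit 44) (nat_lit 5) (nat_lit 370) (nat_lit 361) (nat_lit 169)) (XT.lf (nat_lit 0) (nat_lit 188513310857) (nat_lit 380) (nat_lit 134220160740) (nat_lit 76) (nat_lit 352439865156) (nat_lit 43) (nat_lit 5) (nat_lit 48) (nat_lit 5) (nat_lit 44) (nat_lit 5) (nat_lit 371) (nat_lit 361) (nat_lit 168)))))) (XT.nd (nat_lit 624) (nat_lit 836) (nat_lit 0) (XT.nd (nat_lit 312) (nat_lit 456) (nat_lit 0) (XT.nd (nat_lit 156) (nat_lit 228) (nat_lit 0) (XT.nd (nat_lit 78) (nat_lit 0) (nat_lit 0) (XT.lf (nat_lit 0) (nat_lit 225485483483) (nat_lit 228) (nat_lit 47663463753) (nat_lit 304) (nat_lit 432993148655) (nat_lit 40) (nat_lit 5) (nat_lit 43) (nat_lit 5) (nat_lit 44) (nat_lit 5) (nat_lit 372) (nat_lit 361) (nat_lit 167)) (XT.lf (nat_lit 0) (nat_lit 374318923571) (nat_lit 304) (nat_lit 123787678344) (nat_lit 76) (nat_lit 240700674750) (nat_lit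 40) (nat_lit 5) (nat_lit 44) (nat_lit 5) (nat_lit 41) (nat_lit 5) (nat_lit 373) (nat_lit 361) (nat_lit 166))) (XT.nd (nat_lit 78) (nat_lit 0) (nat_lit 0) (XT.lf (nat_lit 0) (nat_lit 274104561413) (nat_lit 228) (nat_lit 217308155115) (nat_lit 304) (nat_lit 282046537918) (nat_lit 37) (nat_lit 5) (nat_lit 40) (nat_lit 5) (nat_lit 41) (nat_lit 5) (nat_lit 374) (nat_lit 361) (nat_lit 165)) (XT.lf (nat_lit 0) (nat_lit 623413684041) (nat_lit 304) (nat_lit 101899657935) (nat_lit 76) (nat_lit 85126874807) (nat_lit 37) (nat_lit 5) (nat_lit 41) (nat_lit 5) (nat_lit 38) (nat_lit 5) (nat_lit 375) (nat_lit 361) (nat_lit 164)))) (XT.nd (nat_lit 156) (nat_lit 228) (nat_lit 0) (XT.nd (nat_lit 78) (nat_lit 76) (nat_lit 0) (XT.lf (nat_lit 0) (nat_lit 338647937046) (nat_lit 152) (nat_lit 441115637460) (nat_lit 228) (nat_lit 69512973980) (nat_lit 35) (nat_lit 5) (nat_lit 37) (nat_lit 5) (nat_lit 38) (nat_lit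 5) (nat_lit 376) (nat_lit 361) (nat_lit 163)) (XT.lf (nat_lit 0) (nat_lit 57388676502) (nat_lit 228) (nat_lit 72215328976) (nat_lit 76) (nat_lit 761276662663) (nat_lit 34) (nat_lit 5) (nat_lit 37) (nat_lit 5) (nat_lit 35) (nat_lit 5) (nat_lit 377) (nat_lit 361) (nat_lit 162))) (XT.nd (nat_lit 78) (nat_lit 0) (nat_lit 0) (XT.lf (nat_lit 0) (nat_lit 206083796017) (nat_lit 304) (nat_lit 519642824716) (nat_lit 76) (nat_lit 208710306660) (nat_lit 31) (nat_lit 5) (nat_lit 35) (nat_lit 5) (nat_lit 32) (nat_lit 5) (nat_lit 378) (nat_lit 361) (nat_lit 161)) (XT.lf (nat_lit 0) (nat_lit 372066632033) (nat_lit 304) (nat_lit 39866128633) (nat_lit 76) (nat_lit 569113558181) (nat_lit 31) (nat_lit 5) (nat_lit 35) (nat_lit 5) (nat_lit 32) (nat_lit 5) (nat_lit 379) (nat_lit 361) (nat_lit 160))))) (XT.nd (nat_lit 312) (nat_lit 304) (nat_lit 0) (XT.nd (nat_lit 156) (nat_lit 228) (nat_lit 0) (XT.nd (nat_lit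 78) (nat_lit 152) (nat_lit 0) (XT.lf (nat_lit 0) (nat_lit 503478733609) (nat_lit 152) (nat_lit 59958026302) (nat_lit 228) (nat_lit 466979008522) (nat_lit 29) (nat_lit 5) (nat_lit 31) (nat_lit 5) (nat_lit 32) (nat_lit 5) (nat_lit 380) (nat_lit 361) (nat_lit 159)) (XT.lf (nat_lit 0) (nat_lit 1244555332) (nat_lit 152) (nat_lit 777720395432) (nat_lit 228) (nat_lit 304061947018) (nat_lit 27) (nat_lit 5) (nat_lit 29) (nat_lit 5) (nat_lit 30) (nat_lit 5) (nat_lit 381) (nat_lit 361) (nat_lit 158))) (XT.nd (nat_lit 78) (nat_lit 228) (nat_lit 0) (XT.lf (nat_lit 0) (nat_lit 600008675234) (nat_lit 152) (nat_lit 427652028788) (nat_lit 228) (nat_lit 110912188897) (nat_lit 27) (nat_lit 5) (nat_lit 29) (nat_lit 5) (nat_lit 30) (nat_lit 5) (nat_lit 382) (nat_lit 361) (nat_lit 157)) (XT.lf (nat_lit 0) (nat_lit 48171647691) (nat_lit 152) (nat_lit 45789595098) (nat_lit 228) (nat_lit 1104320688420) (nat_lit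 24) (nat_lit 5) (nat_lit 26) (nat_lit 5) (nat_lit 27) (nat_lit 5) (nat_lit 383) (nat_lit 361) (nat_lit 156)))) (XT.nd (nat_lit 156) (nat_lit 152) (nat_lit 0) (XT.nd (nat_lit 78) (nat_lit 152) (nat_lit 0) (XT.lf (nat_lit 0) (nat_lit 333157440152) (nat_lit 228) (nat_lit 561195251815) (nat_lit 76) (nat_lit 366270531306) (nat_lit 24) (nat_lit 5) (nat_lit 27) (nat_lit 5) (nat_lit 25) (nat_lit 5) (nat_lit 384) (nat_lit 361) (nat_lit 155)) (XT.lf (nat_lit 0) (nat_lit 77521571838) (nat_lit 152) (nat_lit 517021488757) (nat_lit 228) (nat_lit 733164459933) (nat_lit 22) (nat_lit 5) (nat_lit 24) (nat_lit 5) (nat_lit 25) (nat_lit 5) (nat_lit 385) (nat_lit 361) (nat_lit 154))) (XT.nd (nat_lit 78) (nat_lit 152) (nat_lit 0) (XT.lf (nat_lit 0) (nat_lit 799251399514) (nat_lit 152) (nat_lit 92932195674) (nat_lit 228) (nat_lit 506747441224) (nat_lit 22) (nat_lit 5) (nat_lit 24) (nat_lit 5) (nat_lit 25) (nat_lit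 5) (nat_lit 386) (nat_lit 361) (nat_lit 153)) (XT.nd (nat_lit 78) (nat_lit 76) (nat_lit 0) (XT.lf (nat_lit 0) (nat_lit 99041330920) (nat_lit 76) (nat_lit 1125756265096) (nat_lit 152) (nat_lit 250161859680) (nat_lit 21) (nat_lit 5) (nat_lit 22) (nat_lit 5) (nat_lit 23) (nat_lit 4) (nat_lit 387) (nat_lit 361) (nat_lit 152)) (XT.lf (nat_lit 0) (nat_lit 44838389469) (nat_lit 152) (nat_lit 671482031562) (nat_lit 76) (nat_lit 839158994741) (nat_lit 20) (nat_lit 5) (nat_lit 22) (nat_lit 5) (nat_lit 21) (nat_lit 5) (nat_lit 388) (nat_lit 361) (nat_lit 151))))))))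
noncomputable def xc239 : XT := (XT.nd (nat_lit 45084) (nat_lit 0) (nat_lit 1140) (XT.nd (nat_lit 624) (nat_lit 152) (nat_lit 0) (XT.nd (nat_lit 312) (nat_lit 228) (nat_lit 0) (XT.nd (nat_lit 156) (nat_lit 76) (nat_lit 0) (XT.nd (nat_lit 78) (nat_lit 0) (nat_lit 0) (XT.lf (nat_lit 0) (nat_lit 87171919129) (nat_lit 152) (nat_lit 264847980984) (nat_lit 228) (nat_lit 1289733537322) (nat_lit 18) (nat_lit 5) (nat_lit 20) (nat_lit 5) (nat_lit 21) (nat_lit 5) (nat_lit 389) (nat_lit 361) (nat_lit 150)) (XT.lf (nat_lit 0) (nat_lit 707969260324) (nat_lit 228) (nat_lit 794588494989) (nat_lit 76) (nat_lit 230436159224) (nat_lit 18) (nat_lit 5) (nat_lit 21) (nat_lit 5) (nat_lit 19) (nat_lit 4) (nat_lit 390) (nat_lit 361) (nat_lit 149))) (XT.nd (nat_lit 78) (nat_lit 0) (nat_lit 0) (XT.lf (nat_lit 0) (nat_lit 20342400052) (nat_lit 76) (nat_lit 1079420566437) (nat_lit 152) (nat_lit 731181191554) (nat_lit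 17) (nat_lit 5) (nat_lit 18) (nat_lit 5) (nat_lit 19) (nat_lit 4) (nat_lit 391) (nat_lit 361) (nat_lit 148)) (XT.lf (nat_lit 0) (nat_lit 945656707714) (nat_lit 76) (nat_lit 598968912825) (nat_lit 152) (nat_lit 390366764386) (nat_lit 17) (nat_lit 5) (nat_lit 18) (nat_lit 5) (nat_lit 19) (nat_lit 4) (nat_lit 392) (nat_lit 361) (nat_lit 147)))) (XT.nd (nat_lit 156) (nat_lit 76) (nat_lit 0) (XT.nd (nat_lit 78) (nat_lit 152) (nat_lit 0) (XT.lf (nat_lit 0) (nat_lit 1944996150025) (nat_lit 76) (nat_lit 80081131152) (nat_lit 152) (nat_lit 22287189243) (nat_lit 17) (nat_lit 5) (nat_lit 18) (nat_lit 5) (nat_lit 19) (nat_lit 4) (nat_lit 393) (nat_lit 361) (nat_lit 146)) (XT.lf (nat_lit 0) (nat_lit 390241680410) (nat_lit 152) (nat_lit 1287523791566) (nat_lit 76) (nat_lit 487536979454) (nat_lit 15) (nat_lit 5) (nat_lit 17) (nat_lit 5) (nat_lit 16) (nat_lit 4) (nat_lit 394) (nat_lit 361) (nat_lit 145)))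 (XT.nd (nat_lit 78) (nat_lit 76) (nat_lit 0) (XT.lf (nat_lit 0) (nat_lit 839520427347) (nat_lit 152) (nat_lit 353024007317) (nat_lit 76) (nat_lit 1099688592833) (nat_lit 15) (nat_lit 5) (nat_lit 17) (nat_lit 5) (nat_lit 16) (nat_lit 4) (nat_lit 395) (nat_lit 361) (nat_lit 144)) (XT.lf (nat_lit 0) (nat_lit 690791962464) (nat_lit 76) (nat_lit 650563069914) (nat_lit 152) (nat_lit 1086633932606) (nat_lit 14) (nat_lit 5) (nat_lit 15) (nat_lit 5) (nat_lit 16) (nat_lit 4) (nat_lit 396) (nat_lit 361) (nat_lit 143))))) (XT.nd (nat_lit 44148) (nat_lit 0) (nat_lit 2964) (XT.nd (nat_lit 156) (nat_lit 76) (nat_lit 0) (XT.nd (nat_lit 78) (nat_lit 76) (nat_lit 0) (XT.lf (nat_lit 0) (nat_lit 1838189989262) (nat_lit 76) (nat_lit 54798713712) (nat_lit 152) (nat_lit 680844490728) (nat_lit 14) (nat_lit 5) (nat_lit 15) (nat_lit 5) (nat_lit 16) (nat_lit 4) (nat_lit 397) (nat_lit 361) (nat_lit 142)) (XT.lf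 (nat_lit 0) (nat_lit 349354529148) (nat_lit 76) (nat_lit 2161957006837) (nat_lit 76) (nat_lit 218228747234) (nat_lit 13) (nat_lit 4) (nat_lit 14) (nat_lit 5) (nat_lit 14) (nat_lit 4) (nat_lit 398) (nat_lit 361) (nat_lit 141))) (XT.nd (nat_lit 78) (nat_lit 0) (nat_lit 0) (XT.lf (nat_lit 0) (nat_lit 289379239019) (nat_lit 152) (nat_lit 1341819448826) (nat_lit 76) (nat_lit 1264199080025) (nat_lit 12) (nat_lit 5) (nat_lit 14) (nat_lit 5) (nat_lit 13) (nat_lit 4) (nat_lit 399) (nat_lit 361) (nat_lit 140)) (XT.lf (nat_lit 0) (nat_lit 825805839362) (nat_lit 152) (nat_lit 226052126023) (nat_lit 76) (nat_lit 2022212423913) (nat_lit 12) (nat_lit 5) (nat_lit 14) (nat_lit 5) (nat_lit 13) (nat_lit 4) (nat_lit 400) (nat_lit 361) (nat_lit 139)))) (XT.nd (nat_lit 156) (nat_lit 0) (nat_lit 76) (XT.nd (nat_lit 78) (nat_lit 0) (nat_lit 0) (XT.lf (nat_lit 0) (nat_lit 175998167660) (nat_lit 532) (nat_lit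 32395597701) (nat_lit 532) (nat_lit 32395597701) (nat_lit 51) (nat_lit 3) (nat_lit 58) (nat_lit 3) (nat_lit 58) (nat_lit 5) (nat_lit 362) (nat_lit 362) (nat_lit 176)) (XT.lf (nat_lit 76) (nat_lit 169458561408) (nat_lit 0) (nat_lit 200693370194) (nat_lit 532) (nat_lit 130363883575) (nat_lit 52) (nat_lit 5) (nat_lit 51) (nat_lit 3) (nat_lit 58) (nat_lit 5) (nat_lit 363) (nat_lit 362) (nat_lit 175))) (XT.nd (nat_lit 78) (nat_lit 0) (nat_lit 0) (XT.lf (nat_lit 0) (nat_lit 392363623662) (nat_lit 456) (nat_lit 95525304801) (nat_lit 532) (nat_lit 32870651101) (nat_lit 52) (nat_lit 5) (nat_lit 58) (nat_lit 5) (nat_lit 59) (nat_lit 5) (nat_lit 364) (nat_lit 362) (nat_lit 174)) (XT.lf (nat_lit 76) (nat_lit 161726588207) (nat_lit 0) (nat_lit 263727981831) (nat_lit 532) (nat_lit 116440089602) (nat_lit 53) (nat_lit 5) (nat_lit 52) (nat_lit 5) (nat_lit 59) (nat_lit 5) (nat_lit 365) (nat_lit 362) (nat_lit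 173)))))) (XT.nd (nat_lit 624) (nat_lit 988) (nat_lit 0) (XT.nd (nat_lit 312) (nat_lit 532) (nat_lit 0) (XT.nd (nat_lit 156) (nat_lit 380) (nat_lit 0) (XT.nd (nat_lit 78) (nat_lit 0) (nat_lit 76) (XT.lf (nat_lit 76) (nat_lit 444991225783) (nat_lit 0) (nat_lit 18813374682) (nat_lit 532) (nat_lit 100707001036) (nat_lit 53) (nat_lit 5) (nat_lit 52) (nat_lit 5) (nat_lit 59) (nat_lit 5) (nat_lit 366) (nat_lit 362) (nat_lit 172)) (XT.lf (nat_lit 76) (nat_lit 164288541269) (nat_lit 0) (nat_lit 350794170751) (nat_lit 532) (nat_lit 73066380443) (nat_lit 54) (nat_lit 5) (nat_lit 53) (nat_lit 5) (nat_lit 60) (nat_lit 5) (nat_lit 367) (nat_lit 362) (nat_lit 171))) (XT.nd (nat_lit 78) (nat_lit 456) (nat_lit 0) (XT.lf (nat_lit 76) (nat_lit 477084994362) (nat_lit 0) (nat_lit 97122245220) (nat_lit 532) (nat_lit 39170809792) (nat_lit 54) (nat_lit 5) (nat_lit 53) (nat_lit 5) (nat_lit 60) (nat_lit 5) (nat_lit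 368) (nat_lit 362) (nat_lit 170)) (XT.lf (nat_lit 0) (nat_lit 6344466654) (nat_lit 532) (nat_lit 461121296420) (nat_lit 76) (nat_lit 172462106654) (nat_lit 47) (nat_lit 5) (nat_lit 54) (nat_lit 5) (nat_lit 48) (nat_lit 5) (nat_lit 369) (nat_lit 362) (nat_lit 169)))) (XT.nd (nat_lit 156) (nat_lit 228) (nat_lit 0) (XT.nd (nat_lit 78) (nat_lit 304) (nat_lit 0) (XT.lf (nat_lit 0) (nat_lit 59730647754) (nat_lit 532) (nat_lit 145075165795) (nat_lit 76) (nat_lit 463206794408) (nat_lit 47) (nat_lit 5) (nat_lit 54) (nat_lit 5) (nat_lit 48) (nat_lit 5) (nat_lit 370) (nat_lit 362) (nat_lit 168)) (XT.lf (nat_lit 0) (nat_lit 124381981663) (nat_lit 380) (nat_lit 493383390506) (nat_lit 76) (nat_lit 80019212439) (nat_lit 43) (nat_lit 5) (nat_lit 48) (nat_lit 5) (nat_lit 44) (nat_lit 5) (nat_lit 371) (nat_lit 362) (nat_lit 167))) (XT.nd (nat_lit 78) (nat_lit 228) (nat_lit 0) (XT.lf (nat_lit 0) (nat_lit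 203594679262) (nat_lit 380) (nat_lit 144957451329) (nat_lit 76) (nat_lit 380635048272) (nat_lit 43) (nat_lit 5) (nat_lit 48) (nat_lit 5) (nat_lit 44) (nat_lit 5) (nat_lit 372) (nat_lit 362) (nat_lit 166)) (XT.lf (nat_lit 0) (nat_lit 243524636274) (nat_lit 228) (nat_lit 51476515348) (nat_lit 304) (nat_lit 467632288346) (nat_lit 40) (nat_lit 5) (nat_lit 43) (nat_lit 5) (nat_lit 44) (nat_lit 5) (nat_lit 373) (nat_lit 362) (nat_lit 165))))) (XT.nd (nat_lit 312) (nat_lit 608) (nat_lit 0) (XT.nd (nat_lit 156) (nat_lit 152) (nat_lit 0) (XT.nd (nat_lit 78) (nat_lit 228) (nat_lit 0) (XT.lf (nat_lit 0) (nat_lit 404264705253) (nat_lit 304) (nat_lit 133690380487) (nat_lit 76) (nat_lit 259956751165) (nat_lit 40) (nat_lit 5) (nat_lit 44) (nat_lit 5) (nat_lit 41) (nat_lit 5) (nat_lit 374) (nat_lit 362) (nat_lit 164)) (XT.lf (nat_lit 0) (nat_lit 296033230549) (nat_lit 228) (nat_lit 234692758577) (nat_lit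 304) (nat_lit 304609984818) (nat_lit 37) (nat_lit 5) (nat_lit 40) (nat_lit 5) (nat_lit 41) (nat_lit 5) (nat_lit 375) (nat_lit 362) (nat_lit 163))) (XT.nd (nat_lit 78) (nat_lit 152) (nat_lit 0) (XT.lf (nat_lit 0) (nat_lit 673287016221) (nat_lit 304) (nat_lit 110051330660) (nat_lit 76) (nat_lit 91937067846) (nat_lit 37) (nat_lit 5) (nat_lit 41) (nat_lit 5) (nat_lit 38) (nat_lit 5) (nat_lit 376) (nat_lit 362) (nat_lit 162)) (XT.lf (nat_lit 0) (nat_lit 365740064327) (nat_lit 152) (nat_lit 476404823036) (nat_lit 228) (nat_lit 75073766476) (nat_lit 35) (nat_lit 5) (nat_lit 37) (nat_lit 5) (nat_lit 38) (nat_lit 5) (nat_lit 377) (nat_lit 362) (nat_lit 161)))) (XT.nd (nat_lit 156) (nat_lit 304) (nat_lit 0) (XT.nd (nat_lit 78) (nat_lit 228) (nat_lit 0) (XT.lf (nat_lit 0) (nat_lit 61979986497) (nat_lit 228) (nat_lit 77992272942) (nat_lit 76) (nat_lit 822178844563) (nat_lit 34) (nat_lit 5) (nat_lit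 37) (nat_lit 5) (nat_lit 35) (nat_lit 5) (nat_lit 378) (nat_lit 362) (nat_lit 160)) (XT.lf (nat_lit 0) (nat_lit 222570707854) (nat_lit 304) (nat_lit 561213960325) (nat_lit 76) (nat_lit 225407196457) (nat_lit 31) (nat_lit 5) (nat_lit 35) (nat_lit 5) (nat_lit 32) (nat_lit 5) (nat_lit 379) (nat_lit 362) (nat_lit 159))) (XT.nd (nat_lit 78) (nat_lit 304) (nat_lit 0) (XT.lf (nat_lit 0) (nat_lit 401832155332) (nat_lit 304) (nat_lit 43055150064) (nat_lit 76) (nat_lit 614642703266) (nat_lit 31) (nat_lit 5) (nat_lit 35) (nat_lit 5) (nat_lit 32) (nat_lit 5) (nat_lit 380) (nat_lit 362) (nat_lit 158)) (XT.nd (nat_lit 78) (nat_lit 152) (nat_lit 0) (XT.lf (nat_lit 0) (nat_lit 543757294351) (nat_lit 152) (nat_lit 64754591116) (nat_lit 228) (nat_lit 504337129406) (nat_lit 29) (nat_lit 5) (nat_lit 31) (nat_lit 5) (nat_lit 32) (nat_lit 5) (nat_lit 381) (nat_lit 362) (nat_lit 157)) (XT.lf (nat_lit 0) (nat_lit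 1344388020) (nat_lit 152) (nat_lit 839937938054) (nat_lit 228) (nat_lit 328386708955) (nat_lit 27) (nat_lit 5) (nat_lit 29) (nat_lit 5) (nat_lit 30) (nat_lit 5) (nat_lit 382) (nat_lit 362) (nat_lit 156))))))))
noncomputable def xc240 : XT := (XT.nd (nat_lit 1248) (nat_lit 152) (nat_lit 0) (XT.nd (nat_lit 624) (nat_lit 304) (nat_lit 0) (XT.nd (nat_lit 312) (nat_lit 304) (nat_lit 0) (XT.nd (nat_lit 156) (nat_lit 152) (nat_lit 0) (XT.nd (nat_lit 78) (nat_lit 228) (nat_lit 0) (XT.lf (nat_lit 0) (nat_lit 648009617643) (nat_lit 152) (nat_lit 461864108672) (nat_lit 228) (nat_lit 119784984543) (nat_lit 27) (nat_lit 5) (nat_lit 29) (nat_lit 5) (nat_lit 30) (nat_lit 5) (nat_lit 383) (nat_lit 362) (nat_lit 155)) (XT.lf (nat_lit 0) (nat_lit 52025630555) (nat_lit 152) (nat_lit 49452675556) (nat_lit 228) (nat_lit 1192666166297) (nat_lit 24) (nat_lit 5) (nat_lit 26) (nat_lit 5) (nat_lit 27) (nat_lit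 5) (nat_lit 384) (nat_lit 362) (nat_lit 154))) (XT.nd (nat_lit 78) (nat_lit 152) (nat_lit 0) (XT.lf (nat_lit 0) (nat_lit 359810189063) (nat_lit 228) (nat_lit 606090629135) (nat_lit 76) (nat_lit 395572250469) (nat_lit 24) (nat_lit 5) (nat_lit 27) (nat_lit 5) (nat_lit 25) (nat_lit 5) (nat_lit 385) (nat_lit 362) (nat_lit 153)) (XT.lf (nat_lit 0) (nat_lit 83723534263) (nat_lit 152) (nat_lit 558383119185) (nat_lit 228) (nat_lit 791817456723) (nat_lit 22) (nat_lit 5) (nat_lit 24) (nat_lit 5) (nat_lit 25) (nat_lit 5) (nat_lit 386) (nat_lit 362) (nat_lit 152)))) (XT.nd (nat_lit 156) (nat_lit 228) (nat_lit 0) (XT.nd (nat_lit 78) (nat_lit 76) (nat_lit 0) (XT.lf (nat_lit 0) (nat_lit 863191730622) (nat_lit 152) (nat_lit 100366689223) (nat_lit 228) (nat_lit 547287088368) (nat_lit 22) (nat_lit 5) (nat_lit 24) (nat_lit 5) (nat_lit 25) (nat_lit 5) (nat_lit 387) (nat_lit 362) (nat_lit 151)) (XT.lf (nat_lit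 0) (nat_lit 106964859897) (nat_lit 76) (nat_lit 1215816677870) (nat_lit 152) (nat_lit 270174663522) (nat_lit 21) (nat_lit 5) (nat_lit 22) (nat_lit 5) (nat_lit 23) (nat_lit 4) (nat_lit 388) (nat_lit 362) (nat_lit 150))) (XT.nd (nat_lit 78) (nat_lit 152) (nat_lit 0) (XT.lf (nat_lit 0) (nat_lit 48425588111) (nat_lit 152) (nat_lit 725200381234) (nat_lit 76) (nat_lit 906291789373) (nat_lit 20) (nat_lit 5) (nat_lit 22) (nat_lit 5) (nat_lit 21) (nat_lit 5) (nat_lit 389) (nat_lit 362) (nat_lit 149)) (XT.lf (nat_lit 0) (nat_lit 94145880123) (nat_lit 152) (nat_lit 286035735029) (nat_lit 228) (nat_lit 1392912087326) (nat_lit 18) (nat_lit 5) (nat_lit 20) (nat_lit 5) (nat_lit 21) (nat_lit 5) (nat_lit 390) (nat_lit 362) (nat_lit 148))))) (XT.nd (nat_lit 312) (nat_lit 228) (nat_lit 0) (XT.nd (nat_lit 156) (nat_lit 0) (nat_lit 0) (XT.nd (nat_lit 78) (nat_lit 76) (nat_lit 0) (XT.lf (nat_lit 0) (nat_lit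 764606916947) (nat_lit 228) (nat_lit 858155375158) (nat_lit 76) (nat_lit 248871126230) (nat_lit 18) (nat_lit 5) (nat_lit 21) (nat_lit 5) (nat_lit 19) (nat_lit 4) (nat_lit 391) (nat_lit 362) (nat_lit 147)) (XT.lf (nat_lit 0) (nat_lit 21969986438) (nat_lit 76) (nat_lit 1165774129265) (nat_lit 152) (nat_lit 789675565939) (nat_lit 17) (nat_lit 5) (nat_lit 18) (nat_lit 5) (nat_lit 19) (nat_lit 4) (nat_lit 392) (nat_lit 362) (nat_lit 146))) (XT.nd (nat_lit 78) (nat_lit 0) (nat_lit 0) (XT.lf (nat_lit 0) (nat_lit 1021309424314) (nat_lit 76) (nat_lit 646886349474) (nat_lit 152) (nat_lit 421595993556) (nat_lit 17) (nat_lit 5) (nat_lit 18) (nat_lit 5) (nat_lit 19) (nat_lit 4) (nat_lit 393) (nat_lit 362) (nat_lit 145)) (XT.lf (nat_lit 0) (nat_lit 2100596008678) (nat_lit 76) (nat_lit 86487550925) (nat_lit 152) (nat_lit 24070060696) (nat_lit 17) (nat_lit 5) (nat_lit 18) (nat_lit 5) (nat_lit 19) (nat_lit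 4) (nat_lit 394) (nat_lit 362) (nat_lit 144)))) (XT.nd (nat_lit 156) (nat_lit 76) (nat_lit 0) (XT.nd (nat_lit 78) (nat_lit 0) (nat_lit 0) (XT.lf (nat_lit 0) (nat_lit 421461111815) (nat_lit 152) (nat_lit 1390525521383) (nat_lit 76) (nat_lit 526540006519) (nat_lit 15) (nat_lit 5) (nat_lit 17) (nat_lit 5) (nat_lit 16) (nat_lit 4) (nat_lit 395) (nat_lit 362) (nat_lit 143)) (XT.lf (nat_lit 0) (nat_lit 906682151324) (nat_lit 152) (nat_lit 381265767247) (nat_lit 76) (nat_lit 1187663743879) (nat_lit 15) (nat_lit 5) (nat_lit 17) (nat_lit 5) (nat_lit 16) (nat_lit 4) (nat_lit 396) (nat_lit 362) (nat_lit 142))) (XT.nd (nat_lit 78) (nat_lit 0) (nat_lit 0) (XT.lf (nat_lit 0) (nat_lit 746055476049) (nat_lit 76) (nat_lit 702608045824) (nat_lit 152) (nat_lit 1173564553300) (nat_lit 14) (nat_lit 5) (nat_lit 15) (nat_lit 5) (nat_lit 16) (nat_lit 4) (nat_lit 397) (nat_lit 362) (nat_lit 141)) (XT.lf (nat_lit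 0) (nat_lit 1985245333392) (nat_lit 76) (nat_lit 59182546287) (nat_lit 152) (nat_lit 735311963028) (nat_lit 14) (nat_lit 5) (nat_lit 15) (nat_lit 5) (nat_lit 16) (nat_lit 4) (nat_lit 398) (nat_lit 362) (nat_lit 140)))))) (XT.nd (nat_lit 44538) (nat_lit 0) (nat_lit 1900) (XT.nd (nat_lit 44226) (nat_lit 0) (nat_lit 3040) (XT.nd (nat_lit 44070) (nat_lit 0) (nat_lit 2964) (XT.nd (nat_lit 78) (nat_lit 76) (nat_lit 0) (XT.lf (nat_lit 0) (nat_lit 377303037613) (nat_lit 76) (nat_lit 2334913500709) (nat_lit 76) (nat_lit 235686961148) (nat_lit 13) (nat_lit 4) (nat_lit 14) (nat_lit 5) (nat_lit 14) (nat_lit 4) (nat_lit 399) (nat_lit 362) (nat_lit 139)) (XT.lf (nat_lit 0) (nat_lit 312529653668) (nat_lit 152) (nat_lit 1449164865404) (nat_lit 76) (nat_lit 1365335064143) (nat_lit 12) (nat_lit 5) (nat_lit 14) (nat_lit 5) (nat_lit 13) (nat_lit 4) (nat_lit 400) (nat_lit 362) (nat_lit 138))) (XT.nd (nat_lit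 78) (nat_lit 0) (nat_lit 0) (XT.lf (nat_lit 0) (nat_lit 190078275202) (nat_lit 532) (nat_lit 34987108013) (nat_lit 532) (nat_lit 34987108013) (nat_lit 51) (nat_lit 3) (nat_lit 58) (nat_lit 3) (nat_lit 58) (nat_lit 5) (nat_lit 363) (nat_lit 363) (nat_lit 174)) (XT.lf (nat_lit 76) (nat_lit 183015514366) (nat_lit 0) (nat_lit 216749048820) (nat_lit 532) (nat_lit 140792478025) (nat_lit 52) (nat_lit 5) (nat_lit 51) (nat_lit 3) (nat_lit 58) (nat_lit 5) (nat_lit 364) (nat_lit 363) (nat_lit 173)))) (XT.nd (nat_lit 156) (nat_lit 0) (nat_lit 0) (XT.nd (nat_lit 78) (nat_lit 0) (nat_lit 0) (XT.lf (nat_lit 0) (nat_lit 423753150620) (nat_lit 456) (nat_lit 103167040063) (nat_lit 532) (nat_lit 35500119342) (nat_lit 52) (nat_lit 5) (nat_lit 58) (nat_lit 5) (nat_lit 59) (nat_lit 5) (nat_lit 365) (nat_lit 363) (nat_lit 172)) (XT.lf (nat_lit 76) (nat_lit 174664997066) (nat_lit 0) (nat_lit 284826350042) (nat_lit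 532) (nat_lit 125754851516) (nat_lit 53) (nat_lit 5) (nat_lit 52) (nat_lit 5) (nat_lit 59) (nat_lit 5) (nat_lit 366) (nat_lit 363) (nat_lit 171))) (XT.nd (nat_lit 78) (nat_lit 0) (nat_lit 76) (XT.lf (nat_lit 76) (nat_lit 480590784775) (nat_lit 0) (nat_lit 20318564716) (nat_lit 532) (nat_lit 108763148846) (nat_lit 53) (nat_lit 5) (nat_lit 52) (nat_lit 5) (nat_lit 59) (nat_lit 5) (nat_lit 367) (nat_lit 363) (nat_lit 170)) (XT.lf (nat_lit 76) (nat_lit 177431912200) (nat_lit 0) (nat_lit 378857773791) (nat_lit 532) (nat_lit 78911304561) (nat_lit 54) (nat_lit 5) (nat_lit 53) (nat_lit 5) (nat_lit 60) (nat_lit 5) (nat_lit 368) (nat_lit 363) (nat_lit 169))))) (XT.nd (nat_lit 312) (nat_lit 456) (nat_lit 0) (XT.nd (nat_lit 156) (nat_lit 304) (nat_lit 0) (XT.nd (nat_lit 78) (nat_lit 456) (nat_lit 0) (XT.lf (nat_lit 76) (nat_lit 515252060235) (nat_lit 0) (nat_lit 104892089079) (nat_lit 532) (nat_lit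 42304116874) (nat_lit 54) (nat_lit 5) (nat_lit 53) (nat_lit 5) (nat_lit 60) (nat_lit 5) (nat_lit 369) (nat_lit 363) (nat_lit 168)) (XT.lf (nat_lit 0) (nat_lit 6852344250) (nat_lit 532) (nat_lit 498010695140) (nat_lit 76) (nat_lit 186259033702) (nat_lit 47) (nat_lit 5) (nat_lit 54) (nat_lit 5) (nat_lit 48) (nat_lit 5) (nat_lit 370) (nat_lit 363) (nat_lit 167))) (XT.nd (nat_lit 78) (nat_lit 304) (nat_lit 0) (XT.lf (nat_lit 0) (nat_lit 64509396115) (nat_lit 532) (nat_lit 156680896657) (nat_lit 76) (nat_lit 500263299549) (nat_lit 47) (nat_lit 5) (nat_lit 54) (nat_lit 5) (nat_lit 48) (nat_lit 5) (nat_lit 371) (nat_lit 363) (nat_lit 166)) (XT.lf (nat_lit 0) (nat_lit 134332821248) (nat_lit 380) (nat_lit 532853763348) (nat_lit 76) (nat_lit 86420743789) (nat_lit 43) (nat_lit 5) (nat_lit 48) (nat_lit 5) (nat_lit 44) (nat_lit 5) (nat_lit 372) (nat_lit 363) (nat_lit 165)))) (XT.nd (nat_lit 156) (nat_lit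 228) (nat_lit 0) (XT.nd (nat_lit 78) (nat_lit 228) (nat_lit 0) (XT.lf (nat_lit 0) (nat_lit 219882513835) (nat_lit 380) (nat_lit 156553771140) (nat_lit 76) (nat_lit 411085846907) (nat_lit 43) (nat_lit 5) (nat_lit 48) (nat_lit 5) (nat_lit 44) (nat_lit 5) (nat_lit 373) (nat_lit 363) (nat_lit 164)) (XT.lf (nat_lit 0) (nat_lit 263006876476) (nat_lit 228) (nat_lit 55594614708) (nat_lit 304) (nat_lit 505042603750) (nat_lit 40) (nat_lit 5) (nat_lit 43) (nat_lit 5) (nat_lit 44) (nat_lit 5) (nat_lit 374) (nat_lit 363) (nat_lit 163))) (XT.nd (nat_lit 78) (nat_lit 228) (nat_lit 0) (XT.lf (nat_lit 0) (nat_lit 436606111265) (nat_lit 304) (nat_lit 144385343329) (nat_lit 76) (nat_lit 280753310493) (nat_lit 40) (nat_lit 5) (nat_lit 44) (nat_lit 5) (nat_lit 41) (nat_lit 5) (nat_lit 375) (nat_lit 363) (nat_lit 162)) (XT.lf (nat_lit 0) (nat_lit 319716149815) (nat_lit 228) (nat_lit 253468137299) (nat_lit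 304) (nat_lit 328978546864) (nat_lit 37) (nat_lit 5) (nat_lit 40) (nat_lit 5) (nat_lit 41) (nat_lit 5) (nat_lit 376) (nat_lit 363) (nat_lit 161)))))))
noncomputable def xc241 : XT := (XT.nd (nat_lit 1248) (nat_lit 304) (nat_lit 0) (XT.nd (nat_lit 624) (nat_lit 684) (nat_lit 0) (XT.nd (nat_lit 312) (nat_lit 304) (nat_lit 0) (XT.nd (nat_lit 156) (nat_lit 304) (nat_lit 0) (XT.nd (nat_lit 78) (nat_lit 152) (nat_lit 0) (XT.lf (nat_lit 0) (nat_lit 727150181099) (nat_lit 304) (nat_lit 118855179988) (nat_lit 76) (nat_lit 99292070185) (nat_lit 37) (nat_lit 5) (nat_lit 41) (nat_lit 5) (nat_lit 38) (nat_lit 5) (nat_lit 377) (nat_lit 363) (nat_lit 160)) (XT.lf (nat_lit 0) (nat_lit 394999520089) (nat_lit 152) (nat_lit 514517152792) (nat_lit 228) (nat_lit 81079457384) (nat_lit 35) (nat_lit 5) (nat_lit 37) (nat_lit 5) (nat_lit 38) (nat_lit 5) (nat_lit 378) (nat_lit 363) (nat_lit 159))) (XT.nd (nat_lit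 78) (nat_lit 228) (nat_lit 0) (XT.lf (nat_lit 0) (nat_lit 66938570495) (nat_lit 228) (nat_lit 84231412706) (nat_lit 76) (nat_lit 887953194040) (nat_lit 34) (nat_lit 5) (nat_lit 37) (nat_lit 5) (nat_lit 35) (nat_lit 5) (nat_lit 379) (nat_lit 363) (nat_lit 158)) (XT.lf (nat_lit 0) (nat_lit 240376542942) (nat_lit 304) (nat_lit 606110828207) (nat_lit 76) (nat_lit 243439828127) (nat_lit 31) (nat_lit 5) (nat_lit 35) (nat_lit 5) (nat_lit 32) (nat_lit 5) (nat_lit 380) (nat_lit 363) (nat_lit 157)))) (XT.nd (nat_lit 156) (nat_lit 152) (nat_lit 0) (XT.nd (nat_lit 78) (nat_lit 152) (nat_lit 0) (XT.lf (nat_lit 0) (nat_lit 433978892999) (nat_lit 304) (nat_lit 46499331565) (nat_lit 76) (nat_lit 663814171336) (nat_lit 31) (nat_lit 5) (nat_lit 35) (nat_lit 5) (nat_lit 32) (nat_lit 5) (nat_lit 381) (nat_lit 363) (nat_lit 156)) (XT.lf (nat_lit 0) (nat_lit 587258102567) (nat_lit 152) (nat_lit 69934892141)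 (nat_lit 228) (nat_lit 544683928465) (nat_lit 29) (nat_lit 5) (nat_lit 31) (nat_lit 5) (nat_lit 32) (nat_lit 5) (nat_lit 382) (nat_lit 363) (nat_lit 155))) (XT.nd (nat_lit 78) (nat_lit 0) (nat_lit 0) (XT.lf (nat_lit 0) (nat_lit 1452169052) (nat_lit 152) (nat_lit 907132896784) (nat_lit 228) (nat_lit 354657479499) (nat_lit 27) (nat_lit 5) (nat_lit 29) (nat_lit 5) (nat_lit 30) (nat_lit 5) (nat_lit 383) (nat_lit 363) (nat_lit 154)) (XT.lf (nat_lit 0) (nat_lit 699850600009) (nat_lit 152) (nat_lit 498813166704) (nat_lit 228) (nat_lit 129367629442) (nat_lit 27) (nat_lit 5) (nat_lit 29) (nat_lit 5) (nat_lit 30) (nat_lit 5) (nat_lit 384) (nat_lit 363) (nat_lit 153))))) (XT.nd (nat_lit 312) (nat_lit 304) (nat_lit 0) (XT.nd (nat_lit 156) (nat_lit 152) (nat_lit 0) (XT.nd (nat_lit 78) (nat_lit 0) (nat_lit 0) (XT.lf (nat_lit 0) (nat_lit 56187896233) (nat_lit 152) (nat_lit 53408814882) (nat_lit 228)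 (nat_lit 1288079307684) (nat_lit 24) (nat_lit 5) (nat_lit 26) (nat_lit 5) (nat_lit 27) (nat_lit 5) (nat_lit 385) (nat_lit 363) (nat_lit 152)) (XT.lf (nat_lit 0) (nat_lit 388595135959) (nat_lit 228) (nat_lit 654577671282) (nat_lit 76) (nat_lit 427218096229) (nat_lit 24) (nat_lit 5) (nat_lit 27) (nat_lit 5) (nat_lit 25) (nat_lit 5) (nat_lit 386) (nat_lit 363) (nat_lit 151))) (XT.nd (nat_lit 78) (nat_lit 0) (nat_lit 0) (XT.lf (nat_lit 0) (nat_lit 90421619917) (nat_lit 152) (nat_lit 603053692697) (nat_lit 228) (nat_lit 855162716081) (nat_lit 22) (nat_lit 5) (nat_lit 24) (nat_lit 5) (nat_lit 25) (nat_lit 5) (nat_lit 387) (nat_lit 363) (nat_lit 150)) (XT.lf (nat_lit 0) (nat_lit 932247256954) (nat_lit 152) (nat_lit 108395953970) (nat_lit 228) (nat_lit 591069928420) (nat_lit 22) (nat_lit 5) (nat_lit 24) (nat_lit 5) (nat_lit 25) (nat_lit 5) (nat_lit 388) (nat_lit 363) (nat_lit 149)))) (XT.nd (nat_lit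 156) (nat_lit 152) (nat_lit 0) (XT.nd (nat_lit 78) (nat_lit 76) (nat_lit 0) (XT.lf (nat_lit 0) (nat_lit 115522239450) (nat_lit 76) (nat_lit 1313081936282) (nat_lit 152) (nat_lit 291788512347) (nat_lit 21) (nat_lit 5) (nat_lit 22) (nat_lit 5) (nat_lit 23) (nat_lit 4) (nat_lit 389) (nat_lit 363) (nat_lit 148)) (XT.lf (nat_lit 0) (nat_lit 52299744457) (nat_lit 152) (nat_lit 783216229246) (nat_lit 76) (nat_lit 978795196868) (nat_lit 20) (nat_lit 5) (nat_lit 22) (nat_lit 5) (nat_lit 21) (nat_lit 5) (nat_lit 390) (nat_lit 363) (nat_lit 147))) (XT.nd (nat_lit 78) (nat_lit 0) (nat_lit 0) (XT.lf (nat_lit 0) (nat_lit 101677728400) (nat_lit 152) (nat_lit 308918521443) (nat_lit 228) (nat_lit 1504344940302) (nat_lit 18) (nat_lit 5) (nat_lit 20) (nat_lit 5) (nat_lit 21) (nat_lit 5) (nat_lit 391) (nat_lit 363) (nat_lit 146)) (XT.lf (nat_lit 0) (nat_lit 825775569581) (nat_lit 228) (nat_lit 926807634191)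 (nat_lit 76) (nat_lit 268780880002) (nat_lit 18) (nat_lit 5) (nat_lit 21) (nat_lit 5) (nat_lit 19) (nat_lit 4) (nat_lit 392) (nat_lit 363) (nat_lit 145)))))) (XT.nd (nat_lit 44694) (nat_lit 0) (nat_lit 2204) (XT.nd (nat_lit 312) (nat_lit 76) (nat_lit 0) (XT.nd (nat_lit 156) (nat_lit 152) (nat_lit 0) (XT.nd (nat_lit 78) (nat_lit 0) (nat_lit 0) (XT.lf (nat_lit 0) (nat_lit 23727752004) (nat_lit 76) (nat_lit 1259035988887) (nat_lit 152) (nat_lit 852849507528) (nat_lit 17) (nat_lit 5) (nat_lit 18) (nat_lit 5) (nat_lit 19) (nat_lit 4) (nat_lit 393) (nat_lit 363) (nat_lit 144)) (XT.lf (nat_lit 0) (nat_lit 1103014332565) (nat_lit 76) (nat_lit 698637191951) (nat_lit 152) (nat_lit 455323577034) (nat_lit 17) (nat_lit 5) (nat_lit 18) (nat_lit 5) (nat_lit 19) (nat_lit 4) (nat_lit 394) (nat_lit 363) (nat_lit 143))) (XT.nd (nat_lit 78) (nat_lit 152) (nat_lit 0) (XT.lf (nat_lit 0) (nat_lit 2268643832248)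 (nat_lit 76) (nat_lit 93406494368) (nat_lit 152) (nat_lit 25995576658) (nat_lit 17) (nat_lit 5) (nat_lit 18) (nat_lit 5) (nat_lit 19) (nat_lit 4) (nat_lit 395) (nat_lit 363) (nat_lit 142)) (XT.lf (nat_lit 0) (nat_lit 455178083898) (nat_lit 152) (nat_lit 1501767414339) (nat_lit 76) (nat_lit 568663265947) (nat_lit 15) (nat_lit 5) (nat_lit 17) (nat_lit 5) (nat_lit 16) (nat_lit 4) (nat_lit 396) (nat_lit 363) (nat_lit 141)))) (XT.nd (nat_lit 156) (nat_lit 0) (nat_lit 0) (XT.nd (nat_lit 78) (nat_lit 76) (nat_lit 0) (XT.lf (nat_lit 0) (nat_lit 979216800409) (nat_lit 152) (nat_lit 411766890891) (nat_lit 76) (nat_lit 1282676897932) (nat_lit 15) (nat_lit 5) (nat_lit 17) (nat_lit 5) (nat_lit 16) (nat_lit 4) (nat_lit 397) (nat_lit 363) (nat_lit 140)) (XT.lf (nat_lit 0) (nat_lit 805740048382) (nat_lit 76) (nat_lit 758816629747) (nat_lit 152) (nat_lit 1267449637047) (nat_lit 14) (nat_lit 5) (nat_lit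 15) (nat_lit 5) (nat_lit 16) (nat_lit 4) (nat_lit 398) (nat_lit 363) (nat_lit 139))) (XT.nd (nat_lit 44148) (nat_lit 0) (nat_lit 2812) (XT.lf (nat_lit 0) (nat_lit 2144065084368) (nat_lit 76) (nat_lit 63917094673) (nat_lit 152) (nat_lit 794136845517) (nat_lit 14) (nat_lit 5) (nat_lit 15) (nat_lit 5) (nat_lit 16) (nat_lit 4) (nat_lit 399) (nat_lit 363) (nat_lit 138)) (XT.lf (nat_lit 0) (nat_lit 205284755093) (nat_lit 532) (nat_lit 37785958766) (nat_lit 532) (nat_lit 37785958766) (nat_lit 51) (nat_lit 3) (nat_lit 58) (nat_lit 3) (nat_lit 58) (nat_lit 5) (nat_lit 364) (nat_lit 364) (nat_lit 172))))) (XT.nd (nat_lit 312) (nat_lit 608) (nat_lit 0) (XT.nd (nat_lit 156) (nat_lit 0) (nat_lit 76) (XT.nd (nat_lit 78) (nat_lit 0) (nat_lit 76) (XT.lf (nat_lit 76) (nat_lit 197656985321) (nat_lit 0) (nat_lit 234089151918) (nat_lit 532) (nat_lit 152055433678) (nat_lit 52) (nat_lit 5) (nat_lit 51) (nat_lit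 3) (nat_lit 58) (nat_lit 5) (nat_lit 365) (nat_lit 364) (nat_lit 171)) (XT.lf (nat_lit 0) (nat_lit 457653777381) (nat_lit 456) (nat_lit 111420155392) (nat_lit 532) (nat_lit 38339971270) (nat_lit 52) (nat_lit 5) (nat_lit 58) (nat_lit 5) (nat_lit 59) (nat_lit 5) (nat_lit 366) (nat_lit 364) (nat_lit 170))) (XT.nd (nat_lit 78) (nat_lit 0) (nat_lit 0) (XT.lf (nat_lit 76) (nat_lit 188638438432) (nat_lit 0) (nat_lit 307612569211) (nat_lit 532) (nat_lit 135814857903) (nat_lit 53) (nat_lit 5) (nat_lit 52) (nat_lit 5) (nat_lit 59) (nat_lit 5) (nat_lit 367) (nat_lit 364) (nat_lit 169)) (XT.lf (nat_lit 76) (nat_lit 519038271261) (nat_lit 0) (nat_lit 21944152825) (nat_lit 532) (nat_lit 117463847297) (nat_lit 53) (nat_lit 5) (nat_lit 52) (nat_lit 5) (nat_lit 59) (nat_lit 5) (nat_lit 368) (nat_lit 364) (nat_lit 168)))) (XT.nd (nat_lit 156) (nat_lit 760) (nat_lit 0) (XT.nd (nat_lit 78) (nat_lit 0) (nat_lit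 0) (XT.lf (nat_lit 76) (nat_lit 191626711773) (nat_lit 0) (nat_lit 409166455177) (nat_lit 532) (nat_lit 85223877721) (nat_lit 54) (nat_lit 5) (nat_lit 53) (nat_lit 5) (nat_lit 60) (nat_lit 5) (nat_lit 369) (nat_lit 364) (nat_lit 167)) (XT.lf (nat_lit 76) (nat_lit 556472453383) (nat_lit 0) (nat_lit 113283511282) (nat_lit 532) (nat_lit 45688139553) (nat_lit 54) (nat_lit 5) (nat_lit 53) (nat_lit 5) (nat_lit 60) (nat_lit 5) (nat_lit 370) (nat_lit 364) (nat_lit 166))) (XT.nd (nat_lit 78) (nat_lit 304) (nat_lit 0) (XT.lf (nat_lit 0) (nat_lit 7400806365) (nat_lit 532) (nat_lit 537851289268) (nat_lit 76) (nat_lit 201159720833) (nat_lit 47) (nat_lit 5) (nat_lit 54) (nat_lit 5) (nat_lit 48) (nat_lit 5) (nat_lit 371) (nat_lit 364) (nat_lit 165)) (XT.nd (nat_lit 78) (nat_lit 304) (nat_lit 0) (XT.lf (nat_lit 0) (nat_lit 69670402040) (nat_lit 532) (nat_lit 169215126276) (nat_lit 76) (nat_lit 540284330582)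 (nat_lit 47) (nat_lit 5) (nat_lit 54) (nat_lit 5) (nat_lit 48) (nat_lit 5) (nat_lit 372) (nat_lit 364) (nat_lit 164)) (XT.lf (nat_lit 0) (nat_lit 145079687904) (nat_lit 380) (nat_lit 575481808587) (nat_lit 76) (nat_lit 93334398453) (nat_lit 43) (nat_lit 5) (nat_lit 48) (nat_lit 5) (nat_lit 44) (nat_lit 5) (nat_lit 373) (nat_lit 364) (nat_lit 163))))))))
noncomputable def xc242 : XT := (XT.nd (nat_lit 1248) (nat_lit 608) (nat_lit 0) (XT.nd (nat_lit 624) (nat_lit 684) (nat_lit 0) (XT.nd (nat_lit 312) (nat_lit 456) (nat_lit 0) (XT.nd (nat_lit 156) (nat_lit 228) (nat_lit 0) (XT.nd (nat_lit 78) (nat_lit 228) (nat_lit 0) (XT.lf (nat_lit 0) (nat_lit 237473338050) (nat_lit 380) (nat_lit 169077835953) (nat_lit 76) (nat_lit 443972710178) (nat_lit 43) (nat_lit 5) (nat_lit 48) (nat_lit 5) (nat_lit 44) (nat_lit 5) (nat_lit 374) (nat_lit 364) (nat_lit 162)) (XT.lf (nat_lit 0) (nat_lit 284047657475)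 (nat_lit 228) (nat_lit 60042165138) (nat_lit 304) (nat_lit 545445782572) (nat_lit 40) (nat_lit 5) (nat_lit 43) (nat_lit 5) (nat_lit 44) (nat_lit 5) (nat_lit 375) (nat_lit 364) (nat_lit 161))) (XT.nd (nat_lit 78) (nat_lit 228) (nat_lit 0) (XT.lf (nat_lit 0) (nat_lit 471534797004) (nat_lit 304) (nat_lit 155935941375) (nat_lit 76) (nat_lit 303213591822) (nat_lit 40) (nat_lit 5) (nat_lit 44) (nat_lit 5) (nat_lit 41) (nat_lit 5) (nat_lit 376) (nat_lit 364) (nat_lit 160)) (XT.lf (nat_lit 0) (nat_lit 345293665413) (nat_lit 228) (nat_lit 273745552305) (nat_lit 304) (nat_lit 355296627648) (nat_lit 37) (nat_lit 5) (nat_lit 40) (nat_lit 5) (nat_lit 41) (nat_lit 5) (nat_lit 377) (nat_lit 364) (nat_lit 159)))) (XT.nd (nat_lit 156) (nat_lit 304) (nat_lit 0) (XT.nd (nat_lit 78) (nat_lit 152) (nat_lit 0) (XT.lf (nat_lit 0) (nat_lit 785322370125) (nat_lit 304) (nat_lit 128363373944) (nat_lit 76) (nat_lit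 107235467447) (nat_lit 37) (nat_lit 5) (nat_lit 41) (nat_lit 5) (nat_lit 38) (nat_lit 5) (nat_lit 378) (nat_lit 364) (nat_lit 158)) (XT.lf (nat_lit 0) (nat_lit 426599696558) (nat_lit 152) (nat_lit 555678476929) (nat_lit 228) (nat_lit 87565633582) (nat_lit 35) (nat_lit 5) (nat_lit 37) (nat_lit 5) (nat_lit 38) (nat_lit 5) (nat_lit 379) (nat_lit 364) (nat_lit 157))) (XT.nd (nat_lit 78) (nat_lit 228) (nat_lit 0) (XT.lf (nat_lit 0) (nat_lit 72293814809) (nat_lit 228) (nat_lit 90969718186) (nat_lit 76) (nat_lit 958989485497) (nat_lit 34) (nat_lit 5) (nat_lit 37) (nat_lit 5) (nat_lit 35) (nat_lit 5) (nat_lit 380) (nat_lit 364) (nat_lit 156)) (XT.lf (nat_lit 0) (nat_lit 259606819378) (nat_lit 304) (nat_lit 654599481034) (nat_lit 76) (nat_lit 262915062349) (nat_lit 31) (nat_lit 5) (nat_lit 35) (nat_lit 5) (nat_lit 32) (nat_lit 5) (nat_lit 381) (nat_lit 364) (nat_lit 155))))) (XT.nd (nat_lit 312)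 (nat_lit 380) (nat_lit 0) (XT.nd (nat_lit 156) (nat_lit 152) (nat_lit 0) (XT.nd (nat_lit 78) (nat_lit 152) (nat_lit 0) (XT.lf (nat_lit 0) (nat_lit 468697346106) (nat_lit 304) (nat_lit 50219080471) (nat_lit 76) (nat_lit 716919349460) (nat_lit 31) (nat_lit 5) (nat_lit 35) (nat_lit 5) (nat_lit 32) (nat_lit 5) (nat_lit 382) (nat_lit 364) (nat_lit 154)) (XT.lf (nat_lit 0) (nat_lit 634238943389) (nat_lit 152) (nat_lit 75529626701) (nat_lit 228) (nat_lit 588258495886) (nat_lit 29) (nat_lit 5) (nat_lit 31) (nat_lit 5) (nat_lit 32) (nat_lit 5) (nat_lit 383) (nat_lit 364) (nat_lit 153))) (XT.nd (nat_lit 78) (nat_lit 0) (nat_lit 0) (XT.lf (nat_lit 0) (nat_lit 1568539756) (nat_lit 152) (nat_lit 979703463100) (nat_lit 228) (nat_lit 383029935393) (nat_lit 27) (nat_lit 5) (nat_lit 29) (nat_lit 5) (nat_lit 30) (nat_lit 5) (nat_lit 384) (nat_lit 364) (nat_lit 152)) (XT.lf (nat_lit 0) (nat_lit 755838830584)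 (nat_lit 152) (nat_lit 538718159460) (nat_lit 228) (nat_lit 139716907884) (nat_lit 27) (nat_lit 5) (nat_lit 29) (nat_lit 5) (nat_lit 30) (nat_lit 5) (nat_lit 385) (nat_lit 364) (nat_lit 151)))) (XT.nd (nat_lit 156) (nat_lit 152) (nat_lit 0) (XT.nd (nat_lit 78) (nat_lit 0) (nat_lit 0) (XT.lf (nat_lit 0) (nat_lit 60683112460) (nat_lit 152) (nat_lit 57681456014) (nat_lit 228) (nat_lit 1391125522054) (nat_lit 24) (nat_lit 5) (nat_lit 26) (nat_lit 5) (nat_lit 27) (nat_lit 5) (nat_lit 386) (nat_lit 364) (nat_lit 150)) (XT.lf (nat_lit 0) (nat_lit 419682859808) (nat_lit 228) (nat_lit 706943706501) (nat_lit 76) (nat_lit 461395600273) (nat_lit 24) (nat_lit 5) (nat_lit 27) (nat_lit 5) (nat_lit 25) (nat_lit 5) (nat_lit 387) (nat_lit 364) (nat_lit 149))) (XT.nd (nat_lit 78) (nat_lit 0) (nat_lit 0) (XT.lf (nat_lit 0) (nat_lit 97655523476) (nat_lit 152) (nat_lit 651297922936) (nat_lit 228) (nat_lit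 923575615759) (nat_lit 22) (nat_lit 5) (nat_lit 24) (nat_lit 5) (nat_lit 25) (nat_lit 5) (nat_lit 388) (nat_lit 364) (nat_lit 148)) (XT.lf (nat_lit 0) (nat_lit 1006827198589) (nat_lit 152) (nat_lit 117067569938) (nat_lit 228) (nat_lit 638355413797) (nat_lit 22) (nat_lit 5) (nat_lit 24) (nat_lit 5) (nat_lit 25) (nat_lit 5) (nat_lit 389) (nat_lit 364) (nat_lit 147)))))) (XT.nd (nat_lit 624) (nat_lit 76) (nat_lit 0) (XT.nd (nat_lit 312) (nat_lit 228) (nat_lit 0) (XT.nd (nat_lit 156) (nat_lit 152) (nat_lit 0) (XT.nd (nat_lit 78) (nat_lit 76) (nat_lit 0) (XT.lf (nat_lit 0) (nat_lit 124764182153) (nat_lit 76) (nat_lit 1418128426184) (nat_lit 152) (nat_lit 315131486805) (nat_lit 21) (nat_lit 5) (nat_lit 22) (nat_lit 5) (nat_lit 23) (nat_lit 4) (nat_lit 390) (nat_lit 364) (nat_lit 146)) (XT.lf (nat_lit 0) (nat_lit 56483817718) (nat_lit 152) (nat_lit 845873371133) (nat_lit 76) (nat_lit 1057098867783)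 (nat_lit 20) (nat_lit 5) (nat_lit 22) (nat_lit 5) (nat_lit 21) (nat_lit 5) (nat_lit 391) (nat_lit 364) (nat_lit 145))) (XT.nd (nat_lit 78) (nat_lit 0) (nat_lit 0) (XT.lf (nat_lit 0) (nat_lit 109812099164) (nat_lit 152) (nat_lit 333631941097) (nat_lit 228) (nat_lit 1624692437780) (nat_lit 18) (nat_lit 5) (nat_lit 20) (nat_lit 5) (nat_lit 21) (nat_lit 5) (nat_lit 392) (nat_lit 364) (nat_lit 144)) (XT.lf (nat_lit 0) (nat_lit 891837700262) (nat_lit 228) (nat_lit 1000952098339) (nat_lit 76) (nat_lit 290283404992) (nat_lit 18) (nat_lit 5) (nat_lit 21) (nat_lit 5) (nat_lit 19) (nat_lit 4) (nat_lit 393) (nat_lit 364) (nat_lit 143)))) (XT.nd (nat_lit 156) (nat_lit 152) (nat_lit 0) (XT.nd (nat_lit 78) (nat_lit 0) (nat_lit 0) (XT.lf (nat_lit 0) (nat_lit 25626115041) (nat_lit 76) (nat_lit 1359758807368) (nat_lit 152) (nat_lit 921077379237) (nat_lit 17) (nat_lit 5) (nat_lit 18) (nat_lit 5) (nat_lit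 19) (nat_lit 4) (nat_lit 394) (nat_lit 364) (nat_lit 142)) (XT.lf (nat_lit 0) (nat_lit 1191255611463) (nat_lit 76) (nat_lit 754528111168) (nat_lit 152) (nat_lit 491749380888) (nat_lit 17) (nat_lit 5) (nat_lit 18) (nat_lit 5) (nat_lit 19) (nat_lit 4) (nat_lit 395) (nat_lit 364) (nat_lit 141))) (XT.nd (nat_lit 78) (nat_lit 152) (nat_lit 0) (XT.lf (nat_lit 0) (nat_lit 2450135461321) (nat_lit 76) (nat_lit 100878961937) (nat_lit 152) (nat_lit 28075146578) (nat_lit 17) (nat_lit 5) (nat_lit 18) (nat_lit 5) (nat_lit 19) (nat_lit 4) (nat_lit 396) (nat_lit 364) (nat_lit 140)) (XT.lf (nat_lit 0) (nat_lit 491592401888) (nat_lit 152) (nat_lit 1621908679953) (nat_lit 76) (nat_lit 614156377726) (nat_lit 15) (nat_lit 5) (nat_lit 17) (nat_lit 5) (nat_lit 16) (nat_lit 4) (nat_lit 397) (nat_lit 364) (nat_lit 139))))) (XT.nd (nat_lit 44460) (nat_lit 0) (nat_lit 2888) (XT.nd (nat_lit 44304) (nat_lit 0) (nat_lit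 2812) (XT.nd (nat_lit 78) (nat_lit 76) (nat_lit 0) (XT.lf (nat_lit 0) (nat_lit 1057554210440) (nat_lit 152) (nat_lit 444708124076) (nat_lit 76) (nat_lit 1385291096529) (nat_lit 15) (nat_lit 5) (nat_lit 17) (nat_lit 5) (nat_lit 16) (nat_lit 4) (nat_lit 398) (nat_lit 364) (nat_lit 138)) (XT.lf (nat_lit 0) (nat_lit 870199367349) (nat_lit 76) (nat_lit 819521908907) (nat_lit 152) (nat_lit 1368845538980) (nat_lit 14) (nat_lit 5) (nat_lit 15) (nat_lit 5) (nat_lit 16) (nat_lit 4) (nat_lit 399) (nat_lit 364) (nat_lit 137))) (XT.nd (nat_lit 78) (nat_lit 0) (nat_lit 0) (XT.lf (nat_lit 0) (nat_lit 221707722293) (nat_lit 532) (nat_lit 40808734398) (nat_lit 532) (nat_lit 40808734398) (nat_lit 51) (nat_lit 3) (nat_lit 58) (nat_lit 3) (nat_lit 58) (nat_lit 5) (nat_lit 365) (nat_lit 365) (nat_lit 170)) (XT.lf (nat_lit 76) (nat_lit 213469741169) (nat_lit 0) (nat_lit 252816437701) (nat_lit 532) (nat_lit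 164219488924) (nat_lit 52) (nat_lit 5) (nat_lit 51) (nat_lit 3) (nat_lit 58) (nat_lit 5) (nat_lit 366) (nat_lit 365) (nat_lit 169)))) (XT.nd (nat_lit 156) (nat_lit 0) (nat_lit 0) (XT.nd (nat_lit 78) (nat_lit 0) (nat_lit 0) (XT.lf (nat_lit 0) (nat_lit 494266400827) (nat_lit 456) (nat_lit 120333555310) (nat_lit 532) (nat_lit 41407033839) (nat_lit 52) (nat_lit 5) (nat_lit 58) (nat_lit 5) (nat_lit 59) (nat_lit 5) (nat_lit 367) (nat_lit 365) (nat_lit 168)) (XT.lf (nat_lit 76) (nat_lit 203729720640) (nat_lit 0) (nat_lit 332221670055) (nat_lit 532) (nat_lit 146679719260) (nat_lit 53) (nat_lit 5) (nat_lit 52) (nat_lit 5) (nat_lit 59) (nat_lit 5) (nat_lit 368) (nat_lit 365) (nat_lit 167))) (XT.nd (nat_lit 78) (nat_lit 0) (nat_lit 76) (XT.lf (nat_lit 76) (nat_lit 560561524752) (nat_lit 0) (nat_lit 23699773298) (nat_lit 532) (nat_lit 126860652048) (nat_lit 53) (nat_lit 5) (nat_lit 52) (nat_lit 5)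 (nat_lit 59) (nat_lit 5) (nat_lit 369) (nat_lit 365) (nat_lit 166)) (XT.nd (nat_lit 78) (nat_lit 0) (nat_lit 0) (XT.lf (nat_lit 76) (nat_lit 206957060131) (nat_lit 0) (nat_lit 441899822588) (nat_lit 532) (nat_lit 92041503983) (nat_lit 54) (nat_lit 5) (nat_lit 53) (nat_lit 5) (nat_lit 60) (nat_lit 5) (nat_lit 370) (nat_lit 365) (nat_lit 165)) (XT.lf (nat_lit 76) (nat_lit 600990445410) (nat_lit 0) (nat_lit 122346239403) (nat_lit 532) (nat_lit 49342927796) (nat_lit 54) (nat_lit 5) (nat_lit 53) (nat_lit 5) (nat_lit 60) (nat_lit 5) (nat_lit 371) (nat_lit 365) (nat_lit 164))))))))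
noncomputable def xc243 : XT := (XT.nd (nat_lit 1248) (nat_lit 684) (nat_lit 0) (XT.nd (nat_lit 624) (nat_lit 988) (nat_lit 0) (XT.nd (nat_lit 312) (nat_lit 456) (nat_lit 0) (XT.nd (nat_lit 156) (nat_lit 304) (nat_lit 0) (XT.nd (nat_lit 78) (nat_lit 0) (nat_lit 0) (XT.lf (nat_lit 0) (nat_lit 7993106277) (nat_lit 532) (nat_lit 580879168230) (nat_lit 76) (nat_lit 217252468008) (nat_lit 47) (nat_lit 5) (nat_lit 54) (nat_lit 5) (nat_lit 48) (nat_lit 5) (nat_lit 372) (nat_lit 365) (nat_lit 163)) (XT.lf (nat_lit 0) (nat_lit 75244252169) (nat_lit 532) (nat_lit 182752128804) (nat_lit 76) (nat_lit 583507048796) (nat_lit 47) (nat_lit 5) (nat_lit 54) (nat_lit 5) (nat_lit 48) (nat_lit 5) (nat_lit 373) (nat_lit 365) (nat_lit 162))) (XT.nd (nat_lit 78) (nat_lit 0) (nat_lit 0) (XT.lf (nat_lit 0) (nat_lit 156686269517) (nat_lit 380) (nat_lit 621520133943) (nat_lit 76) (nat_lit 100801146180) (nat_lit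 43) (nat_lit 5) (nat_lit 48) (nat_lit 5) (nat_lit 44) (nat_lit 5) (nat_lit 374) (nat_lit 365) (nat_lit 161)) (XT.lf (nat_lit 0) (nat_lit 256471396373) (nat_lit 380) (nat_lit 182603859745) (nat_lit 76) (nat_lit 479490523151) (nat_lit 43) (nat_lit 5) (nat_lit 48) (nat_lit 5) (nat_lit 44) (nat_lit 5) (nat_lit 375) (nat_lit 365) (nat_lit 160)))) (XT.nd (nat_lit 156) (nat_lit 228) (nat_lit 0) (XT.nd (nat_lit 78) (nat_lit 0) (nat_lit 0) (XT.lf (nat_lit 0) (nat_lit 306771668017) (nat_lit 228) (nat_lit 64845522276) (nat_lit 304) (nat_lit 589081248438) (nat_lit 40) (nat_lit 5) (nat_lit 43) (nat_lit 5) (nat_lit 44) (nat_lit 5) (nat_lit 376) (nat_lit 365) (nat_lit 159)) (XT.lf (nat_lit 0) (nat_lit 509257749521) (nat_lit 304) (nat_lit 168410619993) (nat_lit 76) (nat_lit 327470693306) (nat_lit 40) (nat_lit 5) (nat_lit 44) (nat_lit 5) (nat_lit 41) (nat_lit 5) (nat_lit 377) (nat_lit 365) (nat_lit 158)))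 (XT.nd (nat_lit 78) (nat_lit 0) (nat_lit 0) (XT.lf (nat_lit 0) (nat_lit 372917350358) (nat_lit 228) (nat_lit 295645165644) (nat_lit 304) (nat_lit 383720183849) (nat_lit 37) (nat_lit 5) (nat_lit 40) (nat_lit 5) (nat_lit 41) (nat_lit 5) (nat_lit 378) (nat_lit 365) (nat_lit 157)) (XT.lf (nat_lit 0) (nat_lit 848148309372) (nat_lit 304) (nat_lit 138632254865) (nat_lit 76) (nat_lit 115814331974) (nat_lit 37) (nat_lit 5) (nat_lit 41) (nat_lit 5) (nat_lit 38) (nat_lit 5) (nat_lit 379) (nat_lit 365) (nat_lit 156))))) (XT.nd (nat_lit 312) (nat_lit 532) (nat_lit 0) (XT.nd (nat_lit 156) (nat_lit 228) (nat_lit 0) (XT.nd (nat_lit 78) (nat_lit 76) (nat_lit 0) (XT.lf (nat_lit 0) (nat_lit 460727856492) (nat_lit 152) (nat_lit 600132713858) (nat_lit 228) (nat_lit 94570729611) (nat_lit 35) (nat_lit 5) (nat_lit 37) (nat_lit 5) (nat_lit 38) (nat_lit 5) (nat_lit 380) (nat_lit 365) (nat_lit 155)) (XT.lf (nat_lit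 0) (nat_lit 78077456032) (nat_lit 228) (nat_lit 98247117711) (nat_lit 76) (nat_lit 1035708675144) (nat_lit 34) (nat_lit 5) (nat_lit 37) (nat_lit 5) (nat_lit 35) (nat_lit 5) (nat_lit 381) (nat_lit 365) (nat_lit 154))) (XT.nd (nat_lit 78) (nat_lit 0) (nat_lit 0) (XT.lf (nat_lit 0) (nat_lit 280375496101) (nat_lit 304) (nat_lit 706967256535) (nat_lit 76) (nat_lit 283948308464) (nat_lit 31) (nat_lit 5) (nat_lit 35) (nat_lit 5) (nat_lit 32) (nat_lit 5) (nat_lit 382) (nat_lit 365) (nat_lit 153)) (XT.lf (nat_lit 0) (nat_lit 506193255251) (nat_lit 304) (nat_lit 54236437481) (nat_lit 76) (nat_lit 774272935498) (nat_lit 31) (nat_lit 5) (nat_lit 35) (nat_lit 5) (nat_lit 32) (nat_lit 5) (nat_lit 383) (nat_lit 365) (nat_lit 152)))) (XT.nd (nat_lit 156) (nat_lit 228) (nat_lit 0) (XT.nd (nat_lit 78) (nat_lit 152) (nat_lit 0) (XT.lf (nat_lit 0) (nat_lit 684978223998) (nat_lit 152) (nat_lit 81571948130)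 (nat_lit 228) (nat_lit 635319049650) (nat_lit 29) (nat_lit 5) (nat_lit 31) (nat_lit 5) (nat_lit 32) (nat_lit 5) (nat_lit 384) (nat_lit 365) (nat_lit 151)) (XT.lf (nat_lit 0) (nat_lit 1694191987) (nat_lit 152) (nat_lit 1058079684055) (nat_lit 228) (nat_lit 413672208082) (nat_lit 27) (nat_lit 5) (nat_lit 29) (nat_lit 5) (nat_lit 30) (nat_lit 5) (nat_lit 385) (nat_lit 365) (nat_lit 150))) (XT.nd (nat_lit 78) (nat_lit 228) (nat_lit 0) (XT.lf (nat_lit 0) (nat_lit 816306093558) (nat_lit 152) (nat_lit 581815560279) (nat_lit 228) (nat_lit 150894147421) (nat_lit 27) (nat_lit 5) (nat_lit 29) (nat_lit 5) (nat_lit 30) (nat_lit 5) (nat_lit 386) (nat_lit 365) (nat_lit 149)) (XT.lf (nat_lit 0) (nat_lit 65537919660) (nat_lit 152) (nat_lit 62295917576) (nat_lit 228) (nat_lit 1502415452154) (nat_lit 24) (nat_lit 5) (nat_lit 26) (nat_lit 5) (nat_lit 27) (nat_lit 5) (nat_lit 387) (nat_lit 365) (nat_lit 148))))))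 (XT.nd (nat_lit 624) (nat_lit 152) (nat_lit 0) (XT.nd (nat_lit 312) (nat_lit 304) (nat_lit 0) (XT.nd (nat_lit 156) (nat_lit 76) (nat_lit 0) (XT.nd (nat_lit 78) (nat_lit 152) (nat_lit 0) (XT.lf (nat_lit 0) (nat_lit 453257585449) (nat_lit 228) (nat_lit 763499050000) (nat_lit 76) (nat_lit 498307296603) (nat_lit 24) (nat_lit 5) (nat_lit 27) (nat_lit 5) (nat_lit 25) (nat_lit 5) (nat_lit 388) (nat_lit 365) (nat_lit 147)) (XT.lf (nat_lit 0) (nat_lit 105468114501) (nat_lit 152) (nat_lit 703401700892) (nat_lit 228) (nat_lit 997461564189) (nat_lit 22) (nat_lit 5) (nat_lit 24) (nat_lit 5) (nat_lit 25) (nat_lit 5) (nat_lit 389) (nat_lit 365) (nat_lit 146))) (XT.nd (nat_lit 78) (nat_lit 76) (nat_lit 0) (XT.lf (nat_lit 0) (nat_lit 1087373512575) (nat_lit 152) (nat_lit 126432923794) (nat_lit 228) (nat_lit 689423753539) (nat_lit 22) (nat_lit 5) (nat_lit 24) (nat_lit 5) (nat_lit 25) (nat_lit 5) (nat_lit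 390) (nat_lit 365) (nat_lit 145)) (XT.lf (nat_lit 0) (nat_lit 134745456941) (nat_lit 76) (nat_lit 1531578644550) (nat_lit 152) (nat_lit 340341914417) (nat_lit 21) (nat_lit 5) (nat_lit 22) (nat_lit 5) (nat_lit 23) (nat_lit 4) (nat_lit 391) (nat_lit 365) (nat_lit 144)))) (XT.nd (nat_lit 156) (nat_lit 76) (nat_lit 0) (XT.nd (nat_lit 78) (nat_lit 152) (nat_lit 0) (XT.lf (nat_lit 0) (nat_lit 61002603472) (nat_lit 152) (nat_lit 913543106690) (nat_lit 76) (nat_lit 1141666824501) (nat_lit 20) (nat_lit 5) (nat_lit 22) (nat_lit 5) (nat_lit 21) (nat_lit 5) (nat_lit 392) (nat_lit 365) (nat_lit 143)) (XT.lf (nat_lit 0) (nat_lit 118597197835) (nat_lit 152) (nat_lit 360322443177) (nat_lit 228) (nat_lit 1754667749002) (nat_lit 18) (nat_lit 5) (nat_lit 20) (nat_lit 5) (nat_lit 21) (nat_lit 5) (nat_lit 393) (nat_lit 365) (nat_lit 142))) (XT.nd (nat_lit 78) (nat_lit 76) (nat_lit 0) (XT.lf (nat_lit 0) (nat_lit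 963184789254) (nat_lit 228) (nat_lit 1081028140532) (nat_lit 76) (nat_lit 313506124193) (nat_lit 18) (nat_lit 5) (nat_lit 21) (nat_lit 5) (nat_lit 19) (nat_lit 4) (nat_lit 394) (nat_lit 365) (nat_lit 141)) (XT.lf (nat_lit 0) (nat_lit 27676326737) (nat_lit 76) (nat_lit 1468539459976) (nat_lit 152) (nat_lit 994763493363) (nat_lit 17) (nat_lit 5) (nat_lit 18) (nat_lit 5) (nat_lit 19) (nat_lit 4) (nat_lit 395) (nat_lit 365) (nat_lit 140))))) (XT.nd (nat_lit 44538) (nat_lit 0) (nat_lit 2736) (XT.nd (nat_lit 156) (nat_lit 152) (nat_lit 0) (XT.nd (nat_lit 78) (nat_lit 0) (nat_lit 0) (XT.lf (nat_lit 0) (nat_lit 1286556173800) (nat_lit 76) (nat_lit 814890311931) (nat_lit 152) (nat_lit 531089260792) (nat_lit 17) (nat_lit 5) (nat_lit 18) (nat_lit 5) (nat_lit 19) (nat_lit 4) (nat_lit 396) (nat_lit 365) (nat_lit 139)) (XT.lf (nat_lit 0) (nat_lit 2646146403246) (nat_lit 76) (nat_lit 108949234327) (nat_lit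 152) (nat_lit 30321092964) (nat_lit 17) (nat_lit 5) (nat_lit 18) (nat_lit 5) (nat_lit 19) (nat_lit 4) (nat_lit 397) (nat_lit 365) (nat_lit 138))) (XT.nd (nat_lit 78) (nat_lit 0) (nat_lit 0) (XT.lf (nat_lit 0) (nat_lit 530919855148) (nat_lit 152) (nat_lit 1751661265011) (nat_lit 76) (nat_lit 663288931242) (nat_lit 15) (nat_lit 5) (nat_lit 17) (nat_lit 5) (nat_lit 16) (nat_lit 4) (nat_lit 398) (nat_lit 365) (nat_lit 137)) (XT.lf (nat_lit 0) (nat_lit 1142158603857) (nat_lit 152) (nat_lit 480284672762) (nat_lit 76) (nat_lit 1496114424342) (nat_lit 15) (nat_lit 5) (nat_lit 17) (nat_lit 5) (nat_lit 16) (nat_lit 4) (nat_lit 399) (nat_lit 365) (nat_lit 136)))) (XT.nd (nat_lit 156) (nat_lit 0) (nat_lit 76) (XT.nd (nat_lit 78) (nat_lit 0) (nat_lit 0) (XT.lf (nat_lit 0) (nat_lit 239444500221) (nat_lit 532) (nat_lit 44073346499) (nat_lit 532) (nat_lit 44073346499) (nat_lit 51) (nat_lit 3) (nat_lit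 58) (nat_lit 3) (nat_lit 58) (nat_lit 5) (nat_lit 366) (nat_lit 366) (nat_lit 168)) (XT.lf (nat_lit 76) (nat_lit 230547489376) (nat_lit 0) (nat_lit 273041884429) (nat_lit 532) (nat_lit 177356722721) (nat_lit 52) (nat_lit 5) (nat_lit 51) (nat_lit 3) (nat_lit 58) (nat_lit 5) (nat_lit 367) (nat_lit 366) (nat_lit 167))) (XT.nd (nat_lit 78) (nat_lit 0) (nat_lit 0) (XT.lf (nat_lit 0) (nat_lit 533807988318) (nat_lit 456) (nat_lit 129960057539) (nat_lit 532) (nat_lit 44719480691) (nat_lit 52) (nat_lit 5) (nat_lit 58) (nat_lit 5) (nat_lit 59) (nat_lit 5) (nat_lit 368) (nat_lit 366) (nat_lit 166)) (XT.nd (nat_lit 78) (nat_lit 0) (nat_lit 0) (XT.lf (nat_lit 76) (nat_lit 220028275875) (nat_lit 0) (nat_lit 358799485369) (nat_lit 532) (nat_lit 158413816215) (nat_lit 53) (nat_lit 5) (nat_lit 52) (nat_lit 5) (nat_lit 59) (nat_lit 5) (nat_lit 369) (nat_lit 366) (nat_lit 165)) (XT.lf (nat_lit 76) (nat_lit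 605406611161) (nat_lit 0) (nat_lit 25595830819) (nat_lit 532) (nat_lit 137009244410) (nat_lit 53) (nat_lit 5) (nat_lit 52) (nat_lit 5) (nat_lit 59) (nat_lit 5) (nat_lit 370) (nat_lit 366) (nat_lit 164))))))))
noncomputable def xc244 : XT := (XT.nd (nat_lit 1248) (nat_lit 760) (nat_lit 0) (XT.nd (nat_lit 624) (nat_lit 988) (nat_lit 0) (XT.nd (nat_lit 312) (nat_lit 532) (nat_lit 0) (XT.nd (nat_lit 156) (nat_lit 456) (nat_lit 0) (XT.nd (nat_lit 78) (nat_lit 0) (nat_lit 0) (XT.lf (nat_lit 76) (nat_lit 223513806197) (nat_lit 0) (nat_lit 477251852116) (nat_lit 532) (nat_lit 99404580857) (nat_lit 54) (nat_lit 5) (nat_lit 53) (nat_lit 5) (nat_lit 60) (nat_lit 5) (nat_lit 371) (nat_lit 366) (nat_lit 163)) (XT.lf (nat_lit 76) (nat_lit 649069848872) (nat_lit 0) (nat_lit 132133979038) (nat_lit 532) (nat_lit 53290136607) (nat_lit 54) (nat_lit 5) (nat_lit 53) (nat_lit 5) (nat_lit 60) (nat_lit 5) (nat_lit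 372) (nat_lit 366) (nat_lit 162))) (XT.nd (nat_lit 78) (nat_lit 0) (nat_lit 0) (XT.lf (nat_lit 0) (nat_lit 8632756600) (nat_lit 532) (nat_lit 627349309491) (nat_lit 76) (nat_lit 234632639307) (nat_lit 47) (nat_lit 5) (nat_lit 54) (nat_lit 5) (nat_lit 48) (nat_lit 5) (nat_lit 373) (nat_lit 366) (nat_lit 161)) (XT.lf (nat_lit 0) (nat_lit 81263979214) (nat_lit 532) (nat_lit 197372121148) (nat_lit 76) (nat_lit 630187588494) (nat_lit 47) (nat_lit 5) (nat_lit 54) (nat_lit 5) (nat_lit 48) (nat_lit 5) (nat_lit 374) (nat_lit 366) (nat_lit 160)))) (XT.nd (nat_lit 156) (nat_lit 228) (nat_lit 0) (XT.nd (nat_lit 78) (nat_lit 0) (nat_lit 0) (XT.lf (nat_lit 0) (nat_lit 169221348189) (nat_lit 380) (nat_lit 671241556616) (nat_lit 76) (nat_lit 108865234317) (nat_lit 43) (nat_lit 5) (nat_lit 48) (nat_lit 5) (nat_lit 44) (nat_lit 5) (nat_lit 375) (nat_lit 366) (nat_lit 159)) (XT.lf (nat_lit 0) (nat_lit 276989272074)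 (nat_lit 380) (nat_lit 197211994411) (nat_lit 76) (nat_lit 517849761709) (nat_lit 43) (nat_lit 5) (nat_lit 48) (nat_lit 5) (nat_lit 44) (nat_lit 5) (nat_lit 376) (nat_lit 366) (nat_lit 158))) (XT.nd (nat_lit 78) (nat_lit 0) (nat_lit 0) (XT.lf (nat_lit 0) (nat_lit 331313571163) (nat_lit 228) (nat_lit 70033150278) (nat_lit 304) (nat_lit 636207579639) (nat_lit 40) (nat_lit 5) (nat_lit 43) (nat_lit 5) (nat_lit 44) (nat_lit 5) (nat_lit 377) (nat_lit 366) (nat_lit 157)) (XT.lf (nat_lit 0) (nat_lit 549998514164) (nat_lit 304) (nat_lit 181883300962) (nat_lit 76) (nat_lit 353668360892) (nat_lit 40) (nat_lit 5) (nat_lit 44) (nat_lit 5) (nat_lit 41) (nat_lit 5) (nat_lit 378) (nat_lit 366) (nat_lit 156))))) (XT.nd (nat_lit 312) (nat_lit 532) (nat_lit 0) (XT.nd (nat_lit 156) (nat_lit 228) (nat_lit 0) (XT.nd (nat_lit 78) (nat_lit 0) (nat_lit 0) (XT.lf (nat_lit 0) (nat_lit 402750902749) (nat_lit 228)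 (nat_lit 319296752451) (nat_lit 304) (nat_lit 414417649371) (nat_lit 37) (nat_lit 5) (nat_lit 40) (nat_lit 5) (nat_lit 41) (nat_lit 5) (nat_lit 379) (nat_lit 366) (nat_lit 155)) (XT.lf (nat_lit 0) (nat_lit 916000302412) (nat_lit 304) (nat_lit 149722673222) (nat_lit 76) (nat_lit 125079501793) (nat_lit 37) (nat_lit 5) (nat_lit 41) (nat_lit 5) (nat_lit 38) (nat_lit 5) (nat_lit 380) (nat_lit 366) (nat_lit 154))) (XT.nd (nat_lit 78) (nat_lit 76) (nat_lit 0) (XT.lf (nat_lit 0) (nat_lit 497586242942) (nat_lit 152) (nat_lit 648143295622) (nat_lit 228) (nat_lit 102136255386) (nat_lit 35) (nat_lit 5) (nat_lit 37) (nat_lit 5) (nat_lit 38) (nat_lit 5) (nat_lit 381) (nat_lit 366) (nat_lit 153)) (XT.lf (nat_lit 0) (nat_lit 84323769145) (nat_lit 228) (nat_lit 106106734582) (nat_lit 76) (nat_lit 1118565395567) (nat_lit 34) (nat_lit 5) (nat_lit 37) (nat_lit 5) (nat_lit 35) (nat_lit 5) (nat_lit 382) (nat_lit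 366) (nat_lit 152)))) (XT.nd (nat_lit 156) (nat_lit 304) (nat_lit 0) (XT.nd (nat_lit 78) (nat_lit 0) (nat_lit 0) (XT.lf (nat_lit 0) (nat_lit 302805648249) (nat_lit 304) (nat_lit 763524480181) (nat_lit 76) (nat_lit 306664208401) (nat_lit 31) (nat_lit 5) (nat_lit 35) (nat_lit 5) (nat_lit 32) (nat_lit 5) (nat_lit 383) (nat_lit 366) (nat_lit 151)) (XT.lf (nat_lit 0) (nat_lit 546688819800) (nat_lit 304) (nat_lit 58575207223) (nat_lit 76) (nat_lit 836214802987) (nat_lit 31) (nat_lit 5) (nat_lit 35) (nat_lit 5) (nat_lit 32) (nat_lit 5) (nat_lit 384) (nat_lit 366) (nat_lit 150))) (XT.nd (nat_lit 78) (nat_lit 152) (nat_lit 0) (XT.lf (nat_lit 0) (nat_lit 739776623497) (nat_lit 152) (nat_lit 88097662223) (nat_lit 228) (nat_lit 686144465678) (nat_lit 29) (nat_lit 5) (nat_lit 31) (nat_lit 5) (nat_lit 32) (nat_lit 5) (nat_lit 385) (nat_lit 366) (nat_lit 149)) (XT.lf (nat_lit 0) (nat_lit 1829872279)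 (nat_lit 152) (nat_lit 1142726010689) (nat_lit 228) (nat_lit 446765880012) (nat_lit 27) (nat_lit 5) (nat_lit 29) (nat_lit 5) (nat_lit 30) (nat_lit 5) (nat_lit 386) (nat_lit 366) (nat_lit 148)))))) (XT.nd (nat_lit 624) (nat_lit 76) (nat_lit 0) (XT.nd (nat_lit 312) (nat_lit 304) (nat_lit 0) (XT.nd (nat_lit 156) (nat_lit 152) (nat_lit 0) (XT.nd (nat_lit 78) (nat_lit 228) (nat_lit 0) (XT.lf (nat_lit 0) (nat_lit 881610715240) (nat_lit 152) (nat_lit 628360760573) (nat_lit 228) (nat_lit 162965582254) (nat_lit 27) (nat_lit 5) (nat_lit 29) (nat_lit 5) (nat_lit 30) (nat_lit 5) (nat_lit 387) (nat_lit 366) (nat_lit 147)) (XT.lf (nat_lit 0) (nat_lit 70781088867) (nat_lit 152) (nat_lit 67279543897) (nat_lit 228) (nat_lit 1622608592593) (nat_lit 24) (nat_lit 5) (nat_lit 26) (nat_lit 5) (nat_lit 27) (nat_lit 5) (nat_lit 388) (nat_lit 366) (nat_lit 146))) (XT.nd (nat_lit 78) (nat_lit 152) (nat_lit 0)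 (XT.lf (nat_lit 0) (nat_lit 489518275323) (nat_lit 228) (nat_lit 824578842809) (nat_lit 76) (nat_lit 538171921748) (nat_lit 24) (nat_lit 5) (nat_lit 27) (nat_lit 5) (nat_lit 25) (nat_lit 5) (nat_lit 389) (nat_lit 366) (nat_lit 145)) (XT.lf (nat_lit 0) (nat_lit 113905691530) (nat_lit 152) (nat_lit 759673789056) (nat_lit 228) (nat_lit 1077258402878) (nat_lit 22) (nat_lit 5) (nat_lit 24) (nat_lit 5) (nat_lit 25) (nat_lit 5) (nat_lit 390) (nat_lit 366) (nat_lit 144)))) (XT.nd (nat_lit 156) (nat_lit 228) (nat_lit 0) (XT.nd (nat_lit 78) (nat_lit 76) (nat_lit 0) (XT.lf (nat_lit 0) (nat_lit 1174363511979) (nat_lit 152) (nat_lit 136547513339) (nat_lit 228) (nat_lit 744577573779) (nat_lit 22) (nat_lit 5) (nat_lit 24) (nat_lit 5) (nat_lit 25) (nat_lit 5) (nat_lit 391) (nat_lit 366) (nat_lit 143)) (XT.lf (nat_lit 0) (nat_lit 145525213708) (nat_lit 76) (nat_lit 1654104888336) (nat_lit 152) (nat_lit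 367569189267) (nat_lit 21) (nat_lit 5) (nat_lit 22) (nat_lit 5) (nat_lit 23) (nat_lit 4) (nat_lit 392) (nat_lit 366) (nat_lit 142))) (XT.nd (nat_lit 78) (nat_lit 152) (nat_lit 0) (XT.lf (nat_lit 0) (nat_lit 65882880626) (nat_lit 152) (nat_lit 986626440227) (nat_lit 76) (nat_lit 1233000211010) (nat_lit 20) (nat_lit 5) (nat_lit 22) (nat_lit 5) (nat_lit 21) (nat_lit 5) (nat_lit 393) (nat_lit 366) (nat_lit 141)) (XT.lf (nat_lit 0) (nat_lit 128085085748) (nat_lit 152) (nat_lit 389148193015) (nat_lit 228) (nat_lit 1895041097076) (nat_lit 18) (nat_lit 5) (nat_lit 20) (nat_lit 5) (nat_lit 21) (nat_lit 5) (nat_lit 394) (nat_lit 366) (nat_lit 140))))) (XT.nd (nat_lit 44694) (nat_lit 0) (nat_lit 2584) (XT.nd (nat_lit 156) (nat_lit 0) (nat_lit 0) (XT.nd (nat_lit 78) (nat_lit 76) (nat_lit 0) (XT.lf (nat_lit 0) (nat_lit 1040239634956) (nat_lit 228) (nat_lit 1167510284028) (nat_lit 76) (nat_lit 338586654254)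 (nat_lit 18) (nat_lit 5) (nat_lit 21) (nat_lit 5) (nat_lit 19) (nat_lit 4) (nat_lit 395) (nat_lit 366) (nat_lit 139)) (XT.lf (nat_lit 0) (nat_lit 29890537895) (nat_lit 76) (nat_lit 1586022572209) (nat_lit 152) (nat_lit 1074344507492) (nat_lit 17) (nat_lit 5) (nat_lit 18) (nat_lit 5) (nat_lit 19) (nat_lit 4) (nat_lit 396) (nat_lit 366) (nat_lit 138))) (XT.nd (nat_lit 78) (nat_lit 0) (nat_lit 0) (XT.lf (nat_lit 0) (nat_lit 1389480764944) (nat_lit 76) (nat_lit 880081495622) (nat_lit 152) (nat_lit 573576341155) (nat_lit 17) (nat_lit 5) (nat_lit 18) (nat_lit 5) (nat_lit 19) (nat_lit 4) (nat_lit 397) (nat_lit 366) (nat_lit 137)) (XT.lf (nat_lit 0) (nat_lit 2857838205541) (nat_lit 76) (nat_lit 117665134866) (nat_lit 152) (nat_lit 32746724383) (nat_lit 17) (nat_lit 5) (nat_lit 18) (nat_lit 5) (nat_lit 19) (nat_lit 4) (nat_lit 398) (nat_lit 366) (nat_lit 136)))) (XT.nd (nat_lit 156) (nat_lit 0)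 (nat_lit 76) (XT.nd (nat_lit 78) (nat_lit 0) (nat_lit 0) (XT.lf (nat_lit 0) (nat_lit 258600197537) (nat_lit 532) (nat_lit 47599139930) (nat_lit 532) (nat_lit 47599139930) (nat_lit 51) (nat_lit 3) (nat_lit 58) (nat_lit 3) (nat_lit 58) (nat_lit 5) (nat_lit 367) (nat_lit 367) (nat_lit 166)) (XT.lf (nat_lit 76) (nat_lit 248991433343) (nat_lit 0) (nat_lit 294885348105) (nat_lit 532) (nat_lit 191544981633) (nat_lit 52) (nat_lit 5) (nat_lit 51) (nat_lit 3) (nat_lit 58) (nat_lit 5) (nat_lit 368) (nat_lit 367) (nat_lit 165))) (XT.nd (nat_lit 78) (nat_lit 0) (nat_lit 0) (XT.lf (nat_lit 0) (nat_lit 576512863516) (nat_lit 456) (nat_lit 140356705938) (nat_lit 532) (nat_lit 48296939819) (nat_lit 52) (nat_lit 5) (nat_lit 58) (nat_lit 5) (nat_lit 59) (nat_lit 5) (nat_lit 369) (nat_lit 367) (nat_lit 164)) (XT.lf (nat_lit 76) (nat_lit 237630690194) (nat_lit 0) (nat_lit 387503514252) (nat_lit 532) (nat_lit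 171086680955) (nat_lit 53) (nat_lit 5) (nat_lit 52) (nat_lit 5) (nat_lit 59) (nat_lit 5) (nat_lit 370) (nat_lit 367) (nat_lit 163)))))))
noncomputable def xc245 : XT := (XT.nd (nat_lit 1248) (nat_lit 912) (nat_lit 0) (XT.nd (nat_lit 624) (nat_lit 836) (nat_lit 0) (XT.nd (nat_lit 312) (nat_lit 532) (nat_lit 0) (XT.nd (nat_lit 156) (nat_lit 380) (nat_lit 0) (XT.nd (nat_lit 78) (nat_lit 0) (nat_lit 76) (XT.lf (nat_lit 76) (nat_lit 653839281026) (nat_lit 0) (nat_lit 27643562149) (nat_lit 532) (nat_lit 147969761225) (nat_lit 53) (nat_lit 5) (nat_lit 52) (nat_lit 5) (nat_lit 59) (nat_lit 5) (nat_lit 371) (nat_lit 367) (nat_lit 162)) (XT.lf (nat_lit 76) (nat_lit 241395066091) (nat_lit 0) (nat_lit 515432037770) (nat_lit 532) (nat_lit 107356738610) (nat_lit 54) (nat_lit 5) (nat_lit 53) (nat_lit 5) (nat_lit 60) (nat_lit 5) (nat_lit 372) (nat_lit 367) (nat_lit 161))) (XT.nd (nat_lit 78) (nat_lit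 456) (nat_lit 0) (XT.lf (nat_lit 76) (nat_lit 700995580669) (nat_lit 0) (nat_lit 142704732069) (nat_lit 532) (nat_lit 57553154281) (nat_lit 54) (nat_lit 5) (nat_lit 53) (nat_lit 5) (nat_lit 60) (nat_lit 5) (nat_lit 373) (nat_lit 367) (nat_lit 160)) (XT.lf (nat_lit 0) (nat_lit 9323550157) (nat_lit 532) (nat_lit 677537089472) (nat_lit 76) (nat_lit 253403228039) (nat_lit 47) (nat_lit 5) (nat_lit 54) (nat_lit 5) (nat_lit 48) (nat_lit 5) (nat_lit 374) (nat_lit 367) (nat_lit 159)))) (XT.nd (nat_lit 156) (nat_lit 228) (nat_lit 0) (XT.nd (nat_lit 78) (nat_lit 304) (nat_lit 0) (XT.lf (nat_lit 0) (nat_lit 87765257763) (nat_lit 532) (nat_lit 213161738267) (nat_lit 76) (nat_lit 680602574822) (nat_lit 47) (nat_lit 5) (nat_lit 54) (nat_lit 5) (nat_lit 48) (nat_lit 5) (nat_lit 375) (nat_lit 367) (nat_lit 158)) (XT.lf (nat_lit 0) (nat_lit 182759207888) (nat_lit 380) (nat_lit 724940719930) (nat_lit 76)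 (nat_lit 117574450013) (nat_lit 43) (nat_lit 5) (nat_lit 48) (nat_lit 5) (nat_lit 44) (nat_lit 5) (nat_lit 376) (nat_lit 367) (nat_lit 157))) (XT.nd (nat_lit 78) (nat_lit 228) (nat_lit 0) (XT.lf (nat_lit 0) (nat_lit 299148554436) (nat_lit 380) (nat_lit 212988804691) (nat_lit 76) (nat_lit 559277739822) (nat_lit 43) (nat_lit 5) (nat_lit 48) (nat_lit 5) (nat_lit 44) (nat_lit 5) (nat_lit 377) (nat_lit 367) (nat_lit 156)) (XT.lf (nat_lit 0) (nat_lit 357818802350) (nat_lit 228) (nat_lit 75635790486) (nat_lit 304) (nat_lit 687104041401) (nat_lit 40) (nat_lit 5) (nat_lit 43) (nat_lit 5) (nat_lit 44) (nat_lit 5) (nat_lit 378) (nat_lit 367) (nat_lit 155))))) (XT.nd (nat_lit 312) (nat_lit 456) (nat_lit 0) (XT.nd (nat_lit 156) (nat_lit 152) (nat_lit 0) (XT.nd (nat_lit 78) (nat_lit 228) (nat_lit 0) (XT.lf (nat_lit 0) (nat_lit 593998519339) (nat_lit 304) (nat_lit 196433820465) (nat_lit 76) (nat_lit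 381961840155) (nat_lit 40) (nat_lit 5) (nat_lit 44) (nat_lit 5) (nat_lit 41) (nat_lit 5) (nat_lit 379) (nat_lit 367) (nat_lit 154)) (XT.lf (nat_lit 0) (nat_lit 434971115883) (nat_lit 228) (nat_lit 344840469975) (nat_lit 304) (nat_lit 447570933417) (nat_lit 37) (nat_lit 5) (nat_lit 40) (nat_lit 5) (nat_lit 41) (nat_lit 5) (nat_lit 380) (nat_lit 367) (nat_lit 153))) (XT.nd (nat_lit 78) (nat_lit 152) (nat_lit 0) (XT.lf (nat_lit 0) (nat_lit 989280436593) (nat_lit 304) (nat_lit 161700348163) (nat_lit 76) (nat_lit 135085881879) (nat_lit 37) (nat_lit 5) (nat_lit 41) (nat_lit 5) (nat_lit 38) (nat_lit 5) (nat_lit 381) (nat_lit 367) (nat_lit 152)) (XT.lf (nat_lit 0) (nat_lit 537393277777) (nat_lit 152) (nat_lit 699994728969) (nat_lit 228) (nat_lit 110307042139) (nat_lit 35) (nat_lit 5) (nat_lit 37) (nat_lit 5) (nat_lit 38) (nat_lit 5) (nat_lit 382) (nat_lit 367) (nat_lit 151)))) (XT.nd (nat_lit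 156) (nat_lit 152) (nat_lit 0) (XT.nd (nat_lit 78) (nat_lit 228) (nat_lit 0) (XT.lf (nat_lit 0) (nat_lit 91069770669) (nat_lit 228) (nat_lit 114595142565) (nat_lit 76) (nat_lit 1208050649857) (nat_lit 34) (nat_lit 5) (nat_lit 37) (nat_lit 5) (nat_lit 35) (nat_lit 5) (nat_lit 383) (nat_lit 367) (nat_lit 150)) (XT.lf (nat_lit 0) (nat_lit 327030196525) (nat_lit 304) (nat_lit 824606304099) (nat_lit 76) (nat_lit 331197375303) (nat_lit 31) (nat_lit 5) (nat_lit 35) (nat_lit 5) (nat_lit 32) (nat_lit 5) (nat_lit 384) (nat_lit 367) (nat_lit 149))) (XT.nd (nat_lit 78) (nat_lit 152) (nat_lit 0) (XT.lf (nat_lit 0) (nat_lit 590424014659) (nat_lit 304) (nat_lit 63261099267) (nat_lit 76) (nat_lit 903112015216) (nat_lit 31) (nat_lit 5) (nat_lit 35) (nat_lit 5) (nat_lit 32) (nat_lit 5) (nat_lit 385) (nat_lit 367) (nat_lit 148)) (XT.lf (nat_lit 0) (nat_lit 798958874758) (nat_lit 152) (nat_lit 95145439400)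 (nat_lit 228) (nat_lit 741035930388) (nat_lit 29) (nat_lit 5) (nat_lit 31) (nat_lit 5) (nat_lit 32) (nat_lit 5) (nat_lit 386) (nat_lit 367) (nat_lit 147)))))) (XT.nd (nat_lit 624) (nat_lit 228) (nat_lit 0) (XT.nd (nat_lit 312) (nat_lit 304) (nat_lit 0) (XT.nd (nat_lit 156) (nat_lit 228) (nat_lit 0) (XT.nd (nat_lit 78) (nat_lit 0) (nat_lit 0) (XT.lf (nat_lit 0) (nat_lit 1976386318) (nat_lit 152) (nat_lit 1234144050314) (nat_lit 228) (nat_lit 482507060635) (nat_lit 27) (nat_lit 5) (nat_lit 29) (nat_lit 5) (nat_lit 30) (nat_lit 5) (nat_lit 387) (nat_lit 367) (nat_lit 146)) (XT.lf (nat_lit 0) (nat_lit 952139687512) (nat_lit 152) (nat_lit 678629583243) (nat_lit 228) (nat_lit 176002745707) (nat_lit 27) (nat_lit 5) (nat_lit 29) (nat_lit 5) (nat_lit 30) (nat_lit 5) (nat_lit 388) (nat_lit 367) (nat_lit 145))) (XT.nd (nat_lit 78) (nat_lit 0) (nat_lit 0) (XT.lf (nat_lit 0) (nat_lit 76443692260)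 (nat_lit 152) (nat_lit 72661867041) (nat_lit 228) (nat_lit 1752417197924) (nat_lit 24) (nat_lit 5) (nat_lit 26) (nat_lit 5) (nat_lit 27) (nat_lit 5) (nat_lit 389) (nat_lit 367) (nat_lit 144)) (XT.lf (nat_lit 0) (nat_lit 528679808541) (nat_lit 228) (nat_lit 890545037758) (nat_lit 76) (nat_lit 581225710995) (nat_lit 24) (nat_lit 5) (nat_lit 27) (nat_lit 5) (nat_lit 25) (nat_lit 5) (nat_lit 390) (nat_lit 367) (nat_lit 143)))) (XT.nd (nat_lit 156) (nat_lit 152) (nat_lit 0) (XT.nd (nat_lit 78) (nat_lit 0) (nat_lit 0) (XT.lf (nat_lit 0) (nat_lit 123018256481) (nat_lit 152) (nat_lit 820447651108) (nat_lit 228) (nat_lit 1163439000995) (nat_lit 22) (nat_lit 5) (nat_lit 24) (nat_lit 5) (nat_lit 25) (nat_lit 5) (nat_lit 391) (nat_lit 367) (nat_lit 142)) (XT.lf (nat_lit 0) (nat_lit 1268312694445) (nat_lit 152) (nat_lit 147471276376) (nat_lit 228) (nat_lit 804143711058) (nat_lit 22) (nat_lit 5) (nat_lit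 24) (nat_lit 5) (nat_lit 25) (nat_lit 5) (nat_lit 392) (nat_lit 367) (nat_lit 141))) (XT.nd (nat_lit 78) (nat_lit 76) (nat_lit 0) (XT.lf (nat_lit 0) (nat_lit 157167333867) (nat_lit 76) (nat_lit 1786433238441) (nat_lit 152) (nat_lit 396974657277) (nat_lit 21) (nat_lit 5) (nat_lit 22) (nat_lit 5) (nat_lit 23) (nat_lit 4) (nat_lit 393) (nat_lit 367) (nat_lit 140)) (XT.lf (nat_lit 0) (nat_lit 71153570126) (nat_lit 152) (nat_lit 1065556456854) (nat_lit 76) (nat_lit 1331640262654) (nat_lit 20) (nat_lit 5) (nat_lit 22) (nat_lit 5) (nat_lit 21) (nat_lit 5) (nat_lit 394) (nat_lit 367) (nat_lit 139))))) (XT.nd (nat_lit 44772) (nat_lit 0) (nat_lit 2584) (XT.nd (nat_lit 156) (nat_lit 76) (nat_lit 0) (XT.nd (nat_lit 78) (nat_lit 0) (nat_lit 0) (XT.lf (nat_lit 0) (nat_lit 138331988704) (nat_lit 152) (nat_lit 420280009347) (nat_lit 228) (nat_lit 2046644323246) (nat_lit 18) (nat_lit 5) (nat_lit 20) (nat_lit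 5) (nat_lit 21) (nat_lit 5) (nat_lit 395) (nat_lit 367) (nat_lit 138)) (XT.lf (nat_lit 0) (nat_lit 1123458859389) (nat_lit 228) (nat_lit 1260911014376) (nat_lit 76) (nat_lit 365673620995) (nat_lit 18) (nat_lit 5) (nat_lit 21) (nat_lit 5) (nat_lit 19) (nat_lit 4) (nat_lit 396) (nat_lit 367) (nat_lit 137))) (XT.nd (nat_lit 78) (nat_lit 0) (nat_lit 0) (XT.lf (nat_lit 0) (nat_lit 32281870962) (nat_lit 76) (nat_lit 1712904339779) (nat_lit 152) (nat_lit 1160292012073) (nat_lit 17) (nat_lit 5) (nat_lit 18) (nat_lit 5) (nat_lit 19) (nat_lit 4) (nat_lit 397) (nat_lit 367) (nat_lit 136)) (XT.lf (nat_lit 0) (nat_lit 1500639309506) (nat_lit 76) (nat_lit 950487979894) (nat_lit 152) (nat_lit 619462396579) (nat_lit 17) (nat_lit 5) (nat_lit 18) (nat_lit 5) (nat_lit 19) (nat_lit 4) (nat_lit 398) (nat_lit 367) (nat_lit 135)))) (XT.nd (nat_lit 156) (nat_lit 0) (nat_lit 76) (XT.nd (nat_lit 78) (nat_lit 0)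 (nat_lit 0) (XT.lf (nat_lit 0) (nat_lit 279288331051) (nat_lit 532) (nat_lit 51407007434) (nat_lit 532) (nat_lit 51407007434) (nat_lit 51) (nat_lit 3) (nat_lit 58) (nat_lit 3) (nat_lit 58) (nat_lit 5) (nat_lit 368) (nat_lit 368) (nat_lit 164)) (XT.lf (nat_lit 76) (nat_lit 268910872168) (nat_lit 0) (nat_lit 318476272766) (nat_lit 532) (nat_lit 206868341046) (nat_lit 52) (nat_lit 5) (nat_lit 51) (nat_lit 3) (nat_lit 58) (nat_lit 5) (nat_lit 369) (nat_lit 368) (nat_lit 163))) (XT.nd (nat_lit 78) (nat_lit 0) (nat_lit 0) (XT.lf (nat_lit 0) (nat_lit 622634095043) (nat_lit 456) (nat_lit 151585108494) (nat_lit 532) (nat_lit 52160609848) (nat_lit 52) (nat_lit 5) (nat_lit 58) (nat_lit 5) (nat_lit 59) (nat_lit 5) (nat_lit 370) (nat_lit 368) (nat_lit 162)) (XT.nd (nat_lit 78) (nat_lit 0) (nat_lit 0) (XT.lf (nat_lit 76) (nat_lit 256641275939) (nat_lit 0) (nat_lit 418503855452) (nat_lit 532) (nat_lit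 184773409193) (nat_lit 53) (nat_lit 5) (nat_lit 52) (nat_lit 5) (nat_lit 59) (nat_lit 5) (nat_lit 371) (nat_lit 368) (nat_lit 161)) (XT.lf (nat_lit 76) (nat_lit 706146544368) (nat_lit 0) (nat_lit 29855102732) (nat_lit 532) (nat_lit 159807151161) (nat_lit 53) (nat_lit 5) (nat_lit 52) (nat_lit 5) (nat_lit 59) (nat_lit 5) (nat_lit 372) (nat_lit 368) (nat_lit 160))))))))
noncomputable def xc246 : XT := (XT.nd (nat_lit 1248) (nat_lit 760) (nat_lit 0) (XT.nd (nat_lit 624) (nat_lit 988) (nat_lit 0) (XT.nd (nat_lit 312) (nat_lit 532) (nat_lit 0) (XT.nd (nat_lit 156) (nat_lit 456) (nat_lit 0) (XT.nd (nat_lit 78) (nat_lit 0) (nat_lit 0) (XT.lf (nat_lit 76) (nat_lit 260706804606) (nat_lit 0) (nat_lit 556666632928) (nat_lit 532) (nat_lit 115945098759) (nat_lit 54) (nat_lit 5) (nat_lit 53) (nat_lit 5) (nat_lit 60) (nat_lit 5) (nat_lit 373) (nat_lit 368) (nat_lit 159)) (XT.lf (nat_lit 76) (nat_lit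 757075350482) (nat_lit 0) (nat_lit 154121140390) (nat_lit 532) (nat_lit 62157240939) (nat_lit 54) (nat_lit 5) (nat_lit 53) (nat_lit 5) (nat_lit 60) (nat_lit 5) (nat_lit 374) (nat_lit 368) (nat_lit 158))) (XT.nd (nat_lit 78) (nat_lit 0) (nat_lit 0) (XT.lf (nat_lit 0) (nat_lit 10069582513) (nat_lit 532) (nat_lit 731739915358) (nat_lit 76) (nat_lit 273675467068) (nat_lit 47) (nat_lit 5) (nat_lit 54) (nat_lit 5) (nat_lit 48) (nat_lit 5) (nat_lit 375) (nat_lit 368) (nat_lit 157)) (XT.lf (nat_lit 0) (nat_lit 94786615739) (nat_lit 532) (nat_lit 230214546522) (nat_lit 76) (nat_lit 735050763016) (nat_lit 47) (nat_lit 5) (nat_lit 54) (nat_lit 5) (nat_lit 48) (nat_lit 5) (nat_lit 376) (nat_lit 368) (nat_lit 156)))) (XT.nd (nat_lit 156) (nat_lit 228) (nat_lit 0) (XT.nd (nat_lit 78) (nat_lit 0) (nat_lit 0) (XT.lf (nat_lit 0) (nat_lit 197380074700) (nat_lit 380) (nat_lit 782935839308) (nat_lit 76)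 (nat_lit 126980403399) (nat_lit 43) (nat_lit 5) (nat_lit 48) (nat_lit 5) (nat_lit 44) (nat_lit 5) (nat_lit 377) (nat_lit 368) (nat_lit 155)) (XT.lf (nat_lit 0) (nat_lit 323080559329) (nat_lit 380) (nat_lit 230027781088) (nat_lit 76) (nat_lit 604019956586) (nat_lit 43) (nat_lit 5) (nat_lit 48) (nat_lit 5) (nat_lit 44) (nat_lit 5) (nat_lit 378) (nat_lit 368) (nat_lit 154))) (XT.nd (nat_lit 78) (nat_lit 0) (nat_lit 0) (XT.lf (nat_lit 0) (nat_lit 386444431277) (nat_lit 228) (nat_lit 81686643596) (nat_lit 304) (nat_lit 742072240733) (nat_lit 40) (nat_lit 5) (nat_lit 43) (nat_lit 5) (nat_lit 44) (nat_lit 5) (nat_lit 379) (nat_lit 368) (nat_lit 153)) (XT.lf (nat_lit 0) (nat_lit 641518507231) (nat_lit 304) (nat_lit 212148402153) (nat_lit 76) (nat_lit 412518796276) (nat_lit 40) (nat_lit 5) (nat_lit 44) (nat_lit 5) (nat_lit 41) (nat_lit 5) (nat_lit 380) (nat_lit 368) (nat_lit 152))))) (XT.nd (nat_lit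 312) (nat_lit 532) (nat_lit 0) (XT.nd (nat_lit 156) (nat_lit 228) (nat_lit 0) (XT.nd (nat_lit 78) (nat_lit 0) (nat_lit 0) (XT.lf (nat_lit 0) (nat_lit 469768925964) (nat_lit 228) (nat_lit 372427688136) (nat_lit 304) (nat_lit 483376498434) (nat_lit 37) (nat_lit 5) (nat_lit 40) (nat_lit 5) (nat_lit 41) (nat_lit 5) (nat_lit 381) (nat_lit 368) (nat_lit 151)) (XT.lf (nat_lit 0) (nat_lit 1068422965818) (nat_lit 304) (nat_lit 174636256918) (nat_lit 76) (nat_lit 145892769526) (nat_lit 37) (nat_lit 5) (nat_lit 41) (nat_lit 5) (nat_lit 38) (nat_lit 5) (nat_lit 382) (nat_lit 368) (nat_lit 150))) (XT.nd (nat_lit 78) (nat_lit 76) (nat_lit 0) (XT.lf (nat_lit 0) (nat_lit 580384856082) (nat_lit 152) (nat_lit 755994281307) (nat_lit 228) (nat_lit 119131508050) (nat_lit 35) (nat_lit 5) (nat_lit 37) (nat_lit 5) (nat_lit 38) (nat_lit 5) (nat_lit 383) (nat_lit 368) (nat_lit 149)) (XT.lf (nat_lit 0) (nat_lit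 98355438050) (nat_lit 228) (nat_lit 123762641844) (nat_lit 76) (nat_lit 1304694721259) (nat_lit 34) (nat_lit 5) (nat_lit 37) (nat_lit 5) (nat_lit 35) (nat_lit 5) (nat_lit 384) (nat_lit 368) (nat_lit 148)))) (XT.nd (nat_lit 156) (nat_lit 304) (nat_lit 0) (XT.nd (nat_lit 78) (nat_lit 0) (nat_lit 0) (XT.lf (nat_lit 0) (nat_lit 353192694909) (nat_lit 304) (nat_lit 890574693118) (nat_lit 76) (nat_lit 357693191245) (nat_lit 31) (nat_lit 5) (nat_lit 35) (nat_lit 5) (nat_lit 32) (nat_lit 5) (nat_lit 385) (nat_lit 368) (nat_lit 147)) (XT.lf (nat_lit 0) (nat_lit 637658012370) (nat_lit 304) (nat_lit 68321880441) (nat_lit 76) (nat_lit 975361000431) (nat_lit 31) (nat_lit 5) (nat_lit 35) (nat_lit 5) (nat_lit 32) (nat_lit 5) (nat_lit 386) (nat_lit 368) (nat_lit 146))) (XT.nd (nat_lit 78) (nat_lit 152) (nat_lit 0) (XT.lf (nat_lit 0) (nat_lit 862875688803) (nat_lit 152) (nat_lit 102757043859) (nat_lit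 228) (nat_lit 800318725477) (nat_lit 29) (nat_lit 5) (nat_lit 31) (nat_lit 5) (nat_lit 32) (nat_lit 5) (nat_lit 387) (nat_lit 368) (nat_lit 145)) (XT.lf (nat_lit 0) (nat_lit 2134603754) (nat_lit 152) (nat_lit 1332875538991) (nat_lit 228) (nat_lit 521107548515) (nat_lit 27) (nat_lit 5) (nat_lit 29) (nat_lit 5) (nat_lit 30) (nat_lit 5) (nat_lit 388) (nat_lit 368) (nat_lit 144)))))) (XT.nd (nat_lit 624) (nat_lit 76) (nat_lit 0) (XT.nd (nat_lit 312) (nat_lit 304) (nat_lit 0) (XT.nd (nat_lit 156) (nat_lit 152) (nat_lit 0) (XT.nd (nat_lit 78) (nat_lit 228) (nat_lit 0) (XT.lf (nat_lit 0) (nat_lit 1028310961153) (nat_lit 152) (nat_lit 732919917173) (nat_lit 228) (nat_lit 190082894095) (nat_lit 27) (nat_lit 5) (nat_lit 29) (nat_lit 5) (nat_lit 30) (nat_lit 5) (nat_lit 389) (nat_lit 368) (nat_lit 143)) (XT.lf (nat_lit 0) (nat_lit 82559287336) (nat_lit 152) (nat_lit 78474781796) (nat_lit 228) (nat_lit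 1892610503391) (nat_lit 24) (nat_lit 5) (nat_lit 26) (nat_lit 5) (nat_lit 27) (nat_lit 5) (nat_lit 390) (nat_lit 368) (nat_lit 142))) (XT.nd (nat_lit 78) (nat_lit 152) (nat_lit 0) (XT.lf (nat_lit 0) (nat_lit 570974254260) (nat_lit 228) (nat_lit 961788544350) (nat_lit 76) (nat_lit 627723798317) (nat_lit 24) (nat_lit 5) (nat_lit 27) (nat_lit 5) (nat_lit 25) (nat_lit 5) (nat_lit 391) (nat_lit 368) (nat_lit 141)) (XT.lf (nat_lit 0) (nat_lit 132859810987) (nat_lit 152) (nat_lit 886083427984) (nat_lit 228) (nat_lit 1256514057534) (nat_lit 22) (nat_lit 5) (nat_lit 24) (nat_lit 5) (nat_lit 25) (nat_lit 5) (nat_lit 392) (nat_lit 368) (nat_lit 140)))) (XT.nd (nat_lit 156) (nat_lit 228) (nat_lit 0) (XT.nd (nat_lit 78) (nat_lit 76) (nat_lit 0) (XT.lf (nat_lit 0) (nat_lit 1369777797026) (nat_lit 152) (nat_lit 159268945881) (nat_lit 228) (nat_lit 868475149109) (nat_lit 22) (nat_lit 5) (nat_lit 24)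 (nat_lit 5) (nat_lit 25) (nat_lit 5) (nat_lit 393) (nat_lit 368) (nat_lit 139)) (XT.lf (nat_lit 0) (nat_lit 169740808935) (nat_lit 76) (nat_lit 1929347862398) (nat_lit 152) (nat_lit 428732572304) (nat_lit 21) (nat_lit 5) (nat_lit 22) (nat_lit 5) (nat_lit 23) (nat_lit 4) (nat_lit 394) (nat_lit 368) (nat_lit 138))) (XT.nd (nat_lit 78) (nat_lit 152) (nat_lit 0) (XT.lf (nat_lit 0) (nat_lit 76845906362) (nat_lit 152) (nat_lit 1150800888875) (nat_lit 76) (nat_lit 1438171513471) (nat_lit 20) (nat_lit 5) (nat_lit 22) (nat_lit 5) (nat_lit 21) (nat_lit 5) (nat_lit 395) (nat_lit 368) (nat_lit 137)) (XT.lf (nat_lit 0) (nat_lit 149398630187) (nat_lit 152) (nat_lit 453902376565) (nat_lit 228) (nat_lit 2210375816296) (nat_lit 18) (nat_lit 5) (nat_lit 20) (nat_lit 5) (nat_lit 21) (nat_lit 5) (nat_lit 396) (nat_lit 368) (nat_lit 136))))) (XT.nd (nat_lit 44850) (nat_lit 0) (nat_lit 2660) (XT.nd (nat_lit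 44694) (nat_lit 0) (nat_lit 2584) (XT.nd (nat_lit 78) (nat_lit 76) (nat_lit 0) (XT.lf (nat_lit 0) (nat_lit 1213335614125) (nat_lit 228) (nat_lit 1361783816329) (nat_lit 76) (nat_lit 394927540167) (nat_lit 18) (nat_lit 5) (nat_lit 21) (nat_lit 5) (nat_lit 19) (nat_lit 4) (nat_lit 397) (nat_lit 368) (nat_lit 135)) (XT.lf (nat_lit 0) (nat_lit 34864497831) (nat_lit 76) (nat_lit 1849936654204) (nat_lit 152) (nat_lit 1253115325013) (nat_lit 17) (nat_lit 5) (nat_lit 18) (nat_lit 5) (nat_lit 19) (nat_lit 4) (nat_lit 398) (nat_lit 368) (nat_lit 134))) (XT.nd (nat_lit 78) (nat_lit 0) (nat_lit 0) (XT.lf (nat_lit 0) (nat_lit 301631498453) (nat_lit 532) (nat_lit 55519513424) (nat_lit 532) (nat_lit 55519513424) (nat_lit 51) (nat_lit 3) (nat_lit 58) (nat_lit 3) (nat_lit 58) (nat_lit 5) (nat_lit 369) (nat_lit 369) (nat_lit 162)) (XT.lf (nat_lit 76) (nat_lit 290423848386) (nat_lit 0) (nat_lit 343954457589)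 (nat_lit 532) (nat_lit 223417603326) (nat_lit 52) (nat_lit 5) (nat_lit 51) (nat_lit 3) (nat_lit 58) (nat_lit 5) (nat_lit 370) (nat_lit 369) (nat_lit 161)))) (XT.nd (nat_lit 156) (nat_lit 0) (nat_lit 0) (XT.nd (nat_lit 78) (nat_lit 0) (nat_lit 0) (XT.lf (nat_lit 0) (nat_lit 672444996211) (nat_lit 456) (nat_lit 163711802359) (nat_lit 532) (nat_lit 56333385627) (nat_lit 52) (nat_lit 5) (nat_lit 58) (nat_lit 5) (nat_lit 59) (nat_lit 5) (nat_lit 371) (nat_lit 369) (nat_lit 160)) (XT.lf (nat_lit 76) (nat_lit 277172689922) (nat_lit 0) (nat_lit 451984215380) (nat_lit 532) (nat_lit 199555105111) (nat_lit 53) (nat_lit 5) (nat_lit 52) (nat_lit 5) (nat_lit 59) (nat_lit 5) (nat_lit 372) (nat_lit 369) (nat_lit 159))) (XT.nd (nat_lit 78) (nat_lit 0) (nat_lit 76) (XT.lf (nat_lit 76) (nat_lit 762638371536) (nat_lit 0) (nat_lit 32243558627) (nat_lit 532) (nat_lit 172591559535) (nat_lit 53) (nat_lit 5)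 (nat_lit 52) (nat_lit 5) (nat_lit 59) (nat_lit 5) (nat_lit 373) (nat_lit 369) (nat_lit 158)) (XT.nd (nat_lit 78) (nat_lit 0) (nat_lit 0) (XT.lf (nat_lit 76) (nat_lit 281563463197) (nat_lit 0) (nat_lit 601199991114) (nat_lit 532) (nat_lit 125220553248) (nat_lit 54) (nat_lit 5) (nat_lit 53) (nat_lit 5) (nat_lit 60) (nat_lit 5) (nat_lit 374) (nat_lit 369) (nat_lit 157)) (XT.lf (nat_lit 76) (nat_lit 817641484281) (nat_lit 0) (nat_lit 166450857133) (nat_lit 532) (nat_lit 67129678166) (nat_lit 54) (nat_lit 5) (nat_lit 53) (nat_lit 5) (nat_lit 60) (nat_lit 5) (nat_lit 375) (nat_lit 369) (nat_lit 156))))))))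
noncomputable def xc247 : XT := (XT.nd (nat_lit 1248) (nat_lit 456) (nat_lit 0) (XT.nd (nat_lit 624) (nat_lit 988) (nat_lit 0) (XT.nd (nat_lit 312) (nat_lit 456) (nat_lit 0) (XT.nd (nat_lit 156) (nat_lit 304) (nat_lit 0) (XT.nd (nat_lit 78) (nat_lit 0) (nat_lit 0) (XT.lf (nat_lit 0) (nat_lit 10875276296) (nat_lit 532) (nat_lit 790278987470) (nat_lit 76) (nat_lit 295569487959) (nat_lit 47) (nat_lit 5) (nat_lit 54) (nat_lit 5) (nat_lit 48) (nat_lit 5) (nat_lit 376) (nat_lit 369) (nat_lit 155)) (XT.lf (nat_lit 0) (nat_lit 102369662759) (nat_lit 532) (nat_lit 248631598098) (nat_lit 76) (nat_lit 793854808804) (nat_lit 47) (nat_lit 5) (nat_lit 54) (nat_lit 5) (nat_lit 48) (nat_lit 5) (nat_lit 377) (nat_lit 369) (nat_lit 154))) (XT.nd (nat_lit 78) (nat_lit 0) (nat_lit 0) (XT.lf (nat_lit 0) (nat_lit 213170592285) (nat_lit 380) (nat_lit 845570587955) (nat_lit 76) (nat_lit 137138833429) (nat_lit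 43) (nat_lit 5) (nat_lit 48) (nat_lit 5) (nat_lit 44) (nat_lit 5) (nat_lit 378) (nat_lit 369) (nat_lit 153)) (XT.lf (nat_lit 0) (nat_lit 348927107417) (nat_lit 380) (nat_lit 248429893855) (nat_lit 76) (nat_lit 652341551038) (nat_lit 43) (nat_lit 5) (nat_lit 48) (nat_lit 5) (nat_lit 44) (nat_lit 5) (nat_lit 379) (nat_lit 369) (nat_lit 152)))) (XT.nd (nat_lit 156) (nat_lit 228) (nat_lit 0) (XT.nd (nat_lit 78) (nat_lit 0) (nat_lit 0) (XT.lf (nat_lit 0) (nat_lit 417360092722) (nat_lit 228) (nat_lit 88221566400) (nat_lit 304) (nat_lit 801437913699) (nat_lit 40) (nat_lit 5) (nat_lit 43) (nat_lit 5) (nat_lit 44) (nat_lit 5) (nat_lit 380) (nat_lit 369) (nat_lit 151)) (XT.lf (nat_lit 0) (nat_lit 692840078984) (nat_lit 304) (nat_lit 229120168059) (nat_lit 76) (nat_lit 445520307617) (nat_lit 40) (nat_lit 5) (nat_lit 44) (nat_lit 5) (nat_lit 41) (nat_lit 5) (nat_lit 381) (nat_lit 369) (nat_lit 150)))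 (XT.nd (nat_lit 78) (nat_lit 0) (nat_lit 0) (XT.lf (nat_lit 0) (nat_lit 507350543617) (nat_lit 228) (nat_lit 402221886522) (nat_lit 304) (nat_lit 522046524297) (nat_lit 37) (nat_lit 5) (nat_lit 40) (nat_lit 5) (nat_lit 41) (nat_lit 5) (nat_lit 382) (nat_lit 369) (nat_lit 149)) (XT.lf (nat_lit 0) (nat_lit 1153896883928) (nat_lit 304) (nat_lit 188607055364) (nat_lit 76) (nat_lit 157564205747) (nat_lit 37) (nat_lit 5) (nat_lit 41) (nat_lit 5) (nat_lit 38) (nat_lit 5) (nat_lit 383) (nat_lit 369) (nat_lit 148))))) (XT.nd (nat_lit 312) (nat_lit 532) (nat_lit 0) (XT.nd (nat_lit 156) (nat_lit 228) (nat_lit 0) (XT.nd (nat_lit 78) (nat_lit 76) (nat_lit 0) (XT.lf (nat_lit 0) (nat_lit 626815744092) (nat_lit 152) (nat_lit 816473801539) (nat_lit 228) (nat_lit 128661945137) (nat_lit 35) (nat_lit 5) (nat_lit 37) (nat_lit 5) (nat_lit 38) (nat_lit 5) (nat_lit 384) (nat_lit 369) (nat_lit 147)) (XT.lf (nat_lit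 0) (nat_lit 106223946591) (nat_lit 228) (nat_lit 133663557062) (nat_lit 76) (nat_lit 1409070315604) (nat_lit 34) (nat_lit 5) (nat_lit 37) (nat_lit 5) (nat_lit 35) (nat_lit 5) (nat_lit 385) (nat_lit 369) (nat_lit 146))) (XT.nd (nat_lit 78) (nat_lit 0) (nat_lit 0) (XT.lf (nat_lit 0) (nat_lit 381448181370) (nat_lit 304) (nat_lit 961820569708) (nat_lit 76) (nat_lit 386308668765) (nat_lit 31) (nat_lit 5) (nat_lit 35) (nat_lit 5) (nat_lit 32) (nat_lit 5) (nat_lit 386) (nat_lit 369) (nat_lit 145)) (XT.lf (nat_lit 0) (nat_lit 688670718978) (nat_lit 304) (nat_lit 73787539340) (nat_lit 76) (nat_lit 1053389901039) (nat_lit 31) (nat_lit 5) (nat_lit 35) (nat_lit 5) (nat_lit 32) (nat_lit 5) (nat_lit 387) (nat_lit 369) (nat_lit 144)))) (XT.nd (nat_lit 156) (nat_lit 228) (nat_lit 0) (XT.nd (nat_lit 78) (nat_lit 152) (nat_lit 0) (XT.lf (nat_lit 0) (nat_lit 931905833127) (nat_lit 152) (nat_lit 110977581053)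 (nat_lit 228) (nat_lit 864344155492) (nat_lit 29) (nat_lit 5) (nat_lit 31) (nat_lit 5) (nat_lit 32) (nat_lit 5) (nat_lit 388) (nat_lit 369) (nat_lit 143)) (XT.lf (nat_lit 0) (nat_lit 2305463387) (nat_lit 152) (nat_lit 1439505551805) (nat_lit 228) (nat_lit 562796086407) (nat_lit 27) (nat_lit 5) (nat_lit 29) (nat_lit 5) (nat_lit 30) (nat_lit 5) (nat_lit 389) (nat_lit 369) (nat_lit 142))) (XT.nd (nat_lit 78) (nat_lit 228) (nat_lit 0) (XT.lf (nat_lit 0) (nat_lit 1110575922612) (nat_lit 152) (nat_lit 791553482486) (nat_lit 228) (nat_lit 205289464521) (nat_lit 27) (nat_lit 5) (nat_lit 29) (nat_lit 5) (nat_lit 30) (nat_lit 5) (nat_lit 390) (nat_lit 369) (nat_lit 141)) (XT.lf (nat_lit 0) (nat_lit 89164115795) (nat_lit 152) (nat_lit 84752734668) (nat_lit 228) (nat_lit 2044019283334) (nat_lit 24) (nat_lit 5) (nat_lit 26) (nat_lit 5) (nat_lit 27) (nat_lit 5) (nat_lit 391) (nat_lit 369) (nat_lit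 140)))))) (XT.nd (nat_lit 45318) (nat_lit 0) (nat_lit 1900) (XT.nd (nat_lit 312) (nat_lit 228) (nat_lit 0) (XT.nd (nat_lit 156) (nat_lit 76) (nat_lit 0) (XT.nd (nat_lit 78) (nat_lit 152) (nat_lit 0) (XT.lf (nat_lit 0) (nat_lit 616652246929) (nat_lit 228) (nat_lit 1038731545225) (nat_lit 76) (nat_lit 677941728282) (nat_lit 24) (nat_lit 5) (nat_lit 27) (nat_lit 5) (nat_lit 25) (nat_lit 5) (nat_lit 392) (nat_lit 369) (nat_lit 139)) (XT.lf (nat_lit 0) (nat_lit 143488676446) (nat_lit 152) (nat_lit 956970072033) (nat_lit 228) (nat_lit 1357035127661) (nat_lit 22) (nat_lit 5) (nat_lit 24) (nat_lit 5) (nat_lit 25) (nat_lit 5) (nat_lit 393) (nat_lit 369) (nat_lit 138))) (XT.nd (nat_lit 78) (nat_lit 76) (nat_lit 0) (XT.lf (nat_lit 0) (nat_lit 1479360095399) (nat_lit 152) (nat_lit 172010433599) (nat_lit 228) (nat_lit 937953110597) (nat_lit 22) (nat_lit 5) (nat_lit 24) (nat_lit 5) (nat_lit 25) (nat_lit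 5) (nat_lit 394) (nat_lit 369) (nat_lit 137)) (XT.lf (nat_lit 0) (nat_lit 183320149404) (nat_lit 76) (nat_lit 2083695661282) (nat_lit 152) (nat_lit 463031128744) (nat_lit 21) (nat_lit 5) (nat_lit 22) (nat_lit 5) (nat_lit 23) (nat_lit 4) (nat_lit 395) (nat_lit 369) (nat_lit 136)))) (XT.nd (nat_lit 44850) (nat_lit 0) (nat_lit 2508) (XT.nd (nat_lit 78) (nat_lit 152) (nat_lit 0) (XT.lf (nat_lit 0) (nat_lit 82993622274) (nat_lit 152) (nat_lit 1242864887517) (nat_lit 76) (nat_lit 1553225260101) (nat_lit 20) (nat_lit 5) (nat_lit 22) (nat_lit 5) (nat_lit 21) (nat_lit 5) (nat_lit 396) (nat_lit 369) (nat_lit 135)) (XT.lf (nat_lit 0) (nat_lit 161350591236) (nat_lit 152) (nat_lit 490214537943) (nat_lit 228) (nat_lit 2387205836325) (nat_lit 18) (nat_lit 5) (nat_lit 20) (nat_lit 5) (nat_lit 21) (nat_lit 5) (nat_lit 397) (nat_lit 369) (nat_lit 134))) (XT.nd (nat_lit 78) (nat_lit 0) (nat_lit 0) (XT.lf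 (nat_lit 0) (nat_lit 325762104851) (nat_lit 532) (nat_lit 59961027683) (nat_lit 532) (nat_lit 59961027683) (nat_lit 51) (nat_lit 3) (nat_lit 58) (nat_lit 3) (nat_lit 58) (nat_lit 5) (nat_lit 370) (nat_lit 370) (nat_lit 160)) (XT.lf (nat_lit 76) (nat_lit 313657847516) (nat_lit 0) (nat_lit 371470885356) (nat_lit 532) (nat_lit 241290835833) (nat_lit 52) (nat_lit 5) (nat_lit 51) (nat_lit 3) (nat_lit 58) (nat_lit 5) (nat_lit 371) (nat_lit 370) (nat_lit 159))))) (XT.nd (nat_lit 312) (nat_lit 684) (nat_lit 0) (XT.nd (nat_lit 156) (nat_lit 0) (nat_lit 0) (XT.nd (nat_lit 78) (nat_lit 0) (nat_lit 0) (XT.lf (nat_lit 0) (nat_lit 726240744711) (nat_lit 456) (nat_lit 176808648113) (nat_lit 532) (nat_lit 60839993885) (nat_lit 52) (nat_lit 5) (nat_lit 58) (nat_lit 5) (nat_lit 59) (nat_lit 5) (nat_lit 372) (nat_lit 370) (nat_lit 158)) (XT.lf (nat_lit 76) (nat_lit 299346601058) (nat_lit 0) (nat_lit 488142996755)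 (nat_lit 532) (nat_lit 215519361929) (nat_lit 53) (nat_lit 5) (nat_lit 52) (nat_lit 5) (nat_lit 59) (nat_lit 5) (nat_lit 373) (nat_lit 370) (nat_lit 157))) (XT.nd (nat_lit 78) (nat_lit 0) (nat_lit 76) (XT.lf (nat_lit 76) (nat_lit 823649530095) (nat_lit 0) (nat_lit 34823084193) (nat_lit 532) (nat_lit 186398743935) (nat_lit 53) (nat_lit 5) (nat_lit 52) (nat_lit 5) (nat_lit 59) (nat_lit 5) (nat_lit 374) (nat_lit 370) (nat_lit 156)) (XT.lf (nat_lit 76) (nat_lit 304088638179) (nat_lit 0) (nat_lit 649296014024) (nat_lit 532) (nat_lit 135238065982) (nat_lit 54) (nat_lit 5) (nat_lit 53) (nat_lit 5) (nat_lit 60) (nat_lit 5) (nat_lit 375) (nat_lit 370) (nat_lit 155)))) (XT.nd (nat_lit 156) (nat_lit 304) (nat_lit 0) (XT.nd (nat_lit 78) (nat_lit 456) (nat_lit 0) (XT.lf (nat_lit 76) (nat_lit 883052893697) (nat_lit 0) (nat_lit 179766947575) (nat_lit 532) (nat_lit 72499930636) (nat_lit 54) (nat_lit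 5) (nat_lit 53) (nat_lit 5) (nat_lit 60) (nat_lit 5) (nat_lit 376) (nat_lit 370) (nat_lit 154)) (XT.lf (nat_lit 0) (nat_lit 11745407437) (nat_lit 532) (nat_lit 853501202629) (nat_lit 76) (nat_lit 319215032872) (nat_lit 47) (nat_lit 5) (nat_lit 54) (nat_lit 5) (nat_lit 48) (nat_lit 5) (nat_lit 377) (nat_lit 370) (nat_lit 153))) (XT.nd (nat_lit 78) (nat_lit 304) (nat_lit 0) (XT.lf (nat_lit 0) (nat_lit 110559336740) (nat_lit 532) (nat_lit 268522029799) (nat_lit 76) (nat_lit 857363180431) (nat_lit 47) (nat_lit 5) (nat_lit 54) (nat_lit 5) (nat_lit 48) (nat_lit 5) (nat_lit 378) (nat_lit 370) (nat_lit 152)) (XT.nd (nat_lit 78) (nat_lit 0) (nat_lit 0) (XT.lf (nat_lit 0) (nat_lit 230224335355) (nat_lit 380) (nat_lit 913216133398) (nat_lit 76) (nat_lit 148109938182) (nat_lit 43) (nat_lit 5) (nat_lit 48) (nat_lit 5) (nat_lit 44) (nat_lit 5) (nat_lit 379) (nat_lit 370) (nat_lit 151)) (XT.lf (nat_lit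 0) (nat_lit 376841364610) (nat_lit 380) (nat_lit 268304191296) (nat_lit 76) (nat_lit 704528873341) (nat_lit 43) (nat_lit 5) (nat_lit 48) (nat_lit 5) (nat_lit 44) (nat_lit 5) (nat_lit 380) (nat_lit 370) (nat_lit 150))))))))
noncomputable def xc248 : XT := (XT.nd (nat_lit 1248) (nat_lit 76) (nat_lit 0) (XT.nd (nat_lit 624) (nat_lit 760) (nat_lit 0) (XT.nd (nat_lit 312) (nat_lit 456) (nat_lit 0) (XT.nd (nat_lit 156) (nat_lit 228) (nat_lit 0) (XT.nd (nat_lit 78) (nat_lit 0) (nat_lit 0) (XT.lf (nat_lit 0) (nat_lit 450748991826) (nat_lit 228) (nat_lit 95279284267) (nat_lit 304) (nat_lit 865552855666) (nat_lit 40) (nat_lit 5) (nat_lit 43) (nat_lit 5) (nat_lit 44) (nat_lit 5) (nat_lit 381) (nat_lit 370) (nat_lit 149)) (XT.lf (nat_lit 0) (nat_lit 748267363469) (nat_lit 304) (nat_lit 247449690397) (nat_lit 76) (nat_lit 481161938775) (nat_lit 40) (nat_lit 5) (nat_lit 44) (nat_lit 5) (nat_lit 41)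 (nat_lit 5) (nat_lit 382) (nat_lit 370) (nat_lit 148))) (XT.nd (nat_lit 78) (nat_lit 0) (nat_lit 0) (XT.lf (nat_lit 0) (nat_lit 547938675907) (nat_lit 228) (nat_lit 434399623156) (nat_lit 304) (nat_lit 563810165640) (nat_lit 37) (nat_lit 5) (nat_lit 40) (nat_lit 5) (nat_lit 41) (nat_lit 5) (nat_lit 383) (nat_lit 370) (nat_lit 147)) (XT.lf (nat_lit 0) (nat_lit 1246208703954) (nat_lit 304) (nat_lit 203695532252) (nat_lit 76) (nat_lit 170169354774) (nat_lit 37) (nat_lit 5) (nat_lit 41) (nat_lit 5) (nat_lit 38) (nat_lit 5) (nat_lit 384) (nat_lit 370) (nat_lit 146)))) (XT.nd (nat_lit 156) (nat_lit 228) (nat_lit 0) (XT.nd (nat_lit 78) (nat_lit 76) (nat_lit 0) (XT.lf (nat_lit 0) (nat_lit 676961088944) (nat_lit 152) (nat_lit 881791686567) (nat_lit 228) (nat_lit 138954829112) (nat_lit 35) (nat_lit 5) (nat_lit 37) (nat_lit 5) (nat_lit 38) (nat_lit 5) (nat_lit 385) (nat_lit 370) (nat_lit 145)) (XT.lf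 (nat_lit 0) (nat_lit 114721925330) (nat_lit 228) (nat_lit 144356559211) (nat_lit 76) (nat_lit 1521795955122) (nat_lit 34) (nat_lit 5) (nat_lit 37) (nat_lit 5) (nat_lit 35) (nat_lit 5) (nat_lit 386) (nat_lit 370) (nat_lit 144))) (XT.nd (nat_lit 78) (nat_lit 0) (nat_lit 0) (XT.lf (nat_lit 0) (nat_lit 411964096638) (nat_lit 304) (nat_lit 1038766130529) (nat_lit 76) (nat_lit 417213381316) (nat_lit 31) (nat_lit 5) (nat_lit 35) (nat_lit 5) (nat_lit 32) (nat_lit 5) (nat_lit 387) (nat_lit 370) (nat_lit 143)) (XT.lf (nat_lit 0) (nat_lit 743764432755) (nat_lit 304) (nat_lit 79690464010) (nat_lit 76) (nat_lit 1137661110762) (nat_lit 31) (nat_lit 5) (nat_lit 35) (nat_lit 5) (nat_lit 32) (nat_lit 5) (nat_lit 388) (nat_lit 370) (nat_lit 142))))) (XT.nd (nat_lit 312) (nat_lit 228) (nat_lit 0) (XT.nd (nat_lit 156) (nat_lit 228) (nat_lit 0) (XT.nd (nat_lit 78) (nat_lit 152) (nat_lit 0) (XT.lf (nat_lit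 0) (nat_lit 1006458376267) (nat_lit 152) (nat_lit 119855764977) (nat_lit 228) (nat_lit 933491629613) (nat_lit 29) (nat_lit 5) (nat_lit 31) (nat_lit 5) (nat_lit 32) (nat_lit 5) (nat_lit 389) (nat_lit 370) (nat_lit 141)) (XT.lf (nat_lit 0) (nat_lit 2489978761) (nat_lit 152) (nat_lit 1554665969968) (nat_lit 228) (nat_lit 607819716744) (nat_lit 27) (nat_lit 5) (nat_lit 29) (nat_lit 5) (nat_lit 30) (nat_lit 5) (nat_lit 390) (nat_lit 370) (nat_lit 140))) (XT.nd (nat_lit 78) (nat_lit 228) (nat_lit 0) (XT.lf (nat_lit 0) (nat_lit 1199422068924) (nat_lit 152) (nat_lit 854877737028) (nat_lit 228) (nat_lit 221712569298) (nat_lit 27) (nat_lit 5) (nat_lit 29) (nat_lit 5) (nat_lit 30) (nat_lit 5) (nat_lit 391) (nat_lit 370) (nat_lit 139)) (XT.lf (nat_lit 0) (nat_lit 96297318338) (nat_lit 152) (nat_lit 91532928003) (nat_lit 228) (nat_lit 2207540774278) (nat_lit 24) (nat_lit 5) (nat_lit 26) (nat_lit 5)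 (nat_lit 27) (nat_lit 5) (nat_lit 392) (nat_lit 370) (nat_lit 138)))) (XT.nd (nat_lit 156) (nat_lit 76) (nat_lit 0) (XT.nd (nat_lit 78) (nat_lit 152) (nat_lit 0) (XT.lf (nat_lit 0) (nat_lit 665984471546) (nat_lit 228) (nat_lit 1121829997965) (nat_lit 76) (nat_lit 732177088920) (nat_lit 24) (nat_lit 5) (nat_lit 27) (nat_lit 5) (nat_lit 25) (nat_lit 5) (nat_lit 393) (nat_lit 370) (nat_lit 137)) (XT.lf (nat_lit 0) (nat_lit 154967839645) (nat_lit 152) (nat_lit 1033527651913) (nat_lit 228) (nat_lit 1465597891170) (nat_lit 22) (nat_lit 5) (nat_lit 24) (nat_lit 5) (nat_lit 25) (nat_lit 5) (nat_lit 394) (nat_lit 370) (nat_lit 136))) (XT.nd (nat_lit 78) (nat_lit 76) (nat_lit 0) (XT.lf (nat_lit 0) (nat_lit 1597708966998) (nat_lit 152) (nat_lit 185771244321) (nat_lit 228) (nat_lit 1012989316201) (nat_lit 22) (nat_lit 5) (nat_lit 24) (nat_lit 5) (nat_lit 25) (nat_lit 5) (nat_lit 395) (nat_lit 370)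 (nat_lit 135)) (XT.lf (nat_lit 0) (nat_lit 197985826303) (nat_lit 76) (nat_lit 2250391288372) (nat_lit 152) (nat_lit 500073576739) (nat_lit 21) (nat_lit 5) (nat_lit 22) (nat_lit 5) (nat_lit 23) (nat_lit 4) (nat_lit 396) (nat_lit 370) (nat_lit 134)))))) (XT.nd (nat_lit 45396) (nat_lit 0) (nat_lit 1292) (XT.nd (nat_lit 45084) (nat_lit 0) (nat_lit 2432) (XT.nd (nat_lit 44928) (nat_lit 0) (nat_lit 2356) (XT.nd (nat_lit 44850) (nat_lit 0) (nat_lit 2356) (XT.lf (nat_lit 0) (nat_lit 89633149267) (nat_lit 152) (nat_lit 1342294016389) (nat_lit 76) (nat_lit 1677483302816) (nat_lit 20) (nat_lit 5) (nat_lit 22) (nat_lit 5) (nat_lit 21) (nat_lit 5) (nat_lit 397) (nat_lit 370) (nat_lit 133)) (XT.lf (nat_lit 0) (nat_lit 351823147417) (nat_lit 532) (nat_lit 64757869761) (nat_lit 532) (nat_lit 64757869761) (nat_lit 51) (nat_lit 3) (nat_lit 58) (nat_lit 3) (nat_lit 58) (nat_lit 5) (nat_lit 371) (nat_lit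 371) (nat_lit 158))) (XT.nd (nat_lit 78) (nat_lit 0) (nat_lit 76) (XT.lf (nat_lit 76) (nat_lit 338750553557) (nat_lit 0) (nat_lit 401188617192) (nat_lit 532) (nat_lit 260593952016) (nat_lit 52) (nat_lit 5) (nat_lit 51) (nat_lit 3) (nat_lit 58) (nat_lit 5) (nat_lit 372) (nat_lit 371) (nat_lit 157)) (XT.lf (nat_lit 0) (nat_lit 784340131863) (nat_lit 456) (nat_lit 190953255570) (nat_lit 532) (nat_lit 65707139732) (nat_lit 52) (nat_lit 5) (nat_lit 58) (nat_lit 5) (nat_lit 59) (nat_lit 5) (nat_lit 373) (nat_lit 371) (nat_lit 156)))) (XT.nd (nat_lit 156) (nat_lit 0) (nat_lit 76) (XT.nd (nat_lit 78) (nat_lit 0) (nat_lit 0) (XT.lf (nat_lit 76) (nat_lit 323294411399) (nat_lit 0) (nat_lit 527194474344) (nat_lit 532) (nat_lit 232760780917) (nat_lit 53) (nat_lit 5) (nat_lit 52) (nat_lit 5) (nat_lit 59) (nat_lit 5) (nat_lit 374) (nat_lit 371) (nat_lit 155)) (XT.lf (nat_lit 76) (nat_lit 889541568665)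 (nat_lit 0) (nat_lit 37608965973) (nat_lit 532) (nat_lit 201310523111) (nat_lit 53) (nat_lit 5) (nat_lit 52) (nat_lit 5) (nat_lit 59) (nat_lit 5) (nat_lit 375) (nat_lit 371) (nat_lit 154))) (XT.nd (nat_lit 78) (nat_lit 0) (nat_lit 0) (XT.lf (nat_lit 76) (nat_lit 328415813190) (nat_lit 0) (nat_lit 701239715398) (nat_lit 532) (nat_lit 146056998498) (nat_lit 54) (nat_lit 5) (nat_lit 53) (nat_lit 5) (nat_lit 60) (nat_lit 5) (nat_lit 376) (nat_lit 371) (nat_lit 153)) (XT.lf (nat_lit 76) (nat_lit 953697202930) (nat_lit 0) (nat_lit 194148322132) (nat_lit 532) (nat_lit 78299820677) (nat_lit 54) (nat_lit 5) (nat_lit 53) (nat_lit 5) (nat_lit 60) (nat_lit 5) (nat_lit 377) (nat_lit 371) (nat_lit 152))))) (XT.nd (nat_lit 312) (nat_lit 456) (nat_lit 0) (XT.nd (nat_lit 156) (nat_lit 304) (nat_lit 0) (XT.nd (nat_lit 78) (nat_lit 0) (nat_lit 0) (XT.lf (nat_lit 0) (nat_lit 12685133514) (nat_lit 532) (nat_lit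 921781209815) (nat_lit 76) (nat_lit 344752223394) (nat_lit 47) (nat_lit 5) (nat_lit 54) (nat_lit 5) (nat_lit 48) (nat_lit 5) (nat_lit 378) (nat_lit 371) (nat_lit 151)) (XT.lf (nat_lit 0) (nat_lit 119404170237) (nat_lit 532) (nat_lit 290003709752) (nat_lit 76) (nat_lit 925952223653) (nat_lit 47) (nat_lit 5) (nat_lit 54) (nat_lit 5) (nat_lit 48) (nat_lit 5) (nat_lit 379) (nat_lit 371) (nat_lit 150))) (XT.nd (nat_lit 78) (nat_lit 0) (nat_lit 0) (XT.lf (nat_lit 0) (nat_lit 248642364220) (nat_lit 380) (nat_lit 986273336971) (nat_lit 76) (nat_lit 159958731589) (nat_lit 43) (nat_lit 5) (nat_lit 48) (nat_lit 5) (nat_lit 44) (nat_lit 5) (nat_lit 380) (nat_lit 371) (nat_lit 149)) (XT.lf (nat_lit 0) (nat_lit 406988749738) (nat_lit 380) (nat_lit 289768445951) (nat_lit 76) (nat_lit 760891181683) (nat_lit 43) (nat_lit 5) (nat_lit 48) (nat_lit 5) (nat_lit 44) (nat_lit 5) (nat_lit 381) (nat_lit 371)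 (nat_lit 148)))) (XT.nd (nat_lit 156) (nat_lit 228) (nat_lit 0) (XT.nd (nat_lit 78) (nat_lit 0) (nat_lit 0) (XT.lf (nat_lit 0) (nat_lit 486808989778) (nat_lit 228) (nat_lit 102901620626) (nat_lit 304) (nat_lit 934797005991) (nat_lit 40) (nat_lit 5) (nat_lit 43) (nat_lit 5) (nat_lit 44) (nat_lit 5) (nat_lit 382) (nat_lit 371) (nat_lit 147)) (XT.lf (nat_lit 0) (nat_lit 808128819563) (nat_lit 304) (nat_lit 267245587520) (nat_lit 76) (nat_lit 519654899491) (nat_lit 40) (nat_lit 5) (nat_lit 44) (nat_lit 5) (nat_lit 41) (nat_lit 5) (nat_lit 383) (nat_lit 371) (nat_lit 146))) (XT.nd (nat_lit 78) (nat_lit 0) (nat_lit 0) (XT.lf (nat_lit 0) (nat_lit 591773846111) (nat_lit 228) (nat_lit 469151580760) (nat_lit 304) (nat_lit 608914909789) (nat_lit 37) (nat_lit 5) (nat_lit 40) (nat_lit 5) (nat_lit 41) (nat_lit 5) (nat_lit 384) (nat_lit 371) (nat_lit 145)) (XT.lf (nat_lit 0) (nat_lit 1345905459693)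 (nat_lit 304) (nat_lit 219991099780) (nat_lit 76) (nat_lit 183782913930) (nat_lit 37) (nat_lit 5) (nat_lit 41) (nat_lit 5) (nat_lit 38) (nat_lit 5) (nat_lit 385) (nat_lit 371) (nat_lit 144)))))))
noncomputable def xc249 : XT := (XT.nd (nat_lit 46176) (nat_lit 0) (nat_lit 380) (XT.nd (nat_lit 624) (nat_lit 152) (nat_lit 0) (XT.nd (nat_lit 312) (nat_lit 532) (nat_lit 0) (XT.nd (nat_lit 156) (nat_lit 228) (nat_lit 0) (XT.nd (nat_lit 78) (nat_lit 76) (nat_lit 0) (XT.lf (nat_lit 0) (nat_lit 731118049211) (nat_lit 152) (nat_lit 952335005120) (nat_lit 228) (nat_lit 150071154024) (nat_lit 35) (nat_lit 5) (nat_lit 37) (nat_lit 5) (nat_lit 38) (nat_lit 5) (nat_lit 386) (nat_lit 371) (nat_lit 143)) (XT.lf (nat_lit 0) (nat_lit 123899733379) (nat_lit 228) (nat_lit 155905013289) (nat_lit 76) (nat_lit 1643539643765) (nat_lit 34) (nat_lit 5) (nat_lit 37) (nat_lit 5) (nat_lit 35) (nat_lit 5) (nat_lit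 387) (nat_lit 371) (nat_lit 142))) (XT.nd (nat_lit 78) (nat_lit 0) (nat_lit 0) (XT.lf (nat_lit 0) (nat_lit 444921276460) (nat_lit 304) (nat_lit 1121867348307) (nat_lit 76) (nat_lit 450590468153) (nat_lit 31) (nat_lit 5) (nat_lit 35) (nat_lit 5) (nat_lit 32) (nat_lit 5) (nat_lit 388) (nat_lit 371) (nat_lit 141)) (XT.lf (nat_lit 0) (nat_lit 803265635607) (nat_lit 304) (nat_lit 86065633849) (nat_lit 76) (nat_lit 1228674014745) (nat_lit 31) (nat_lit 5) (nat_lit 35) (nat_lit 5) (nat_lit 32) (nat_lit 5) (nat_lit 389) (nat_lit 371) (nat_lit 140)))) (XT.nd (nat_lit 156) (nat_lit 228) (nat_lit 0) (XT.nd (nat_lit 78) (nat_lit 152) (nat_lit 0) (XT.lf (nat_lit 0) (nat_lit 1086975111947) (nat_lit 152) (nat_lit 129444206833) (nat_lit 228) (nat_lit 1008170909983) (nat_lit 29) (nat_lit 5) (nat_lit 31) (nat_lit 5) (nat_lit 32) (nat_lit 5) (nat_lit 390) (nat_lit 371) (nat_lit 139)) (XT.lf (nat_lit 0) (nat_lit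 2689244194) (nat_lit 152) (nat_lit 1679039225290) (nat_lit 228) (nat_lit 656445245580) (nat_lit 27) (nat_lit 5) (nat_lit 29) (nat_lit 5) (nat_lit 30) (nat_lit 5) (nat_lit 391) (nat_lit 371) (nat_lit 138))) (XT.nd (nat_lit 78) (nat_lit 228) (nat_lit 0) (XT.lf (nat_lit 0) (nat_lit 1295375896597) (nat_lit 152) (nat_lit 923267935365) (nat_lit 228) (nat_lit 239449529931) (nat_lit 27) (nat_lit 5) (nat_lit 29) (nat_lit 5) (nat_lit 30) (nat_lit 5) (nat_lit 392) (nat_lit 371) (nat_lit 137)) (XT.lf (nat_lit 0) (nat_lit 104001166629) (nat_lit 152) (nat_lit 98855540434) (nat_lit 228) (nat_lit 2384143991877) (nat_lit 24) (nat_lit 5) (nat_lit 26) (nat_lit 5) (nat_lit 27) (nat_lit 5) (nat_lit 393) (nat_lit 371) (nat_lit 136))))) (XT.nd (nat_lit 45240) (nat_lit 0) (nat_lit 2204) (XT.nd (nat_lit 156) (nat_lit 0) (nat_lit 0) (XT.nd (nat_lit 78) (nat_lit 152) (nat_lit 0) (XT.lf (nat_lit 0) (nat_lit 719263267733)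 (nat_lit 228) (nat_lit 1211576337036) (nat_lit 76) (nat_lit 790751275218) (nat_lit 24) (nat_lit 5) (nat_lit 27) (nat_lit 5) (nat_lit 25) (nat_lit 5) (nat_lit 394) (nat_lit 371) (nat_lit 135)) (XT.lf (nat_lit 0) (nat_lit 167365326045) (nat_lit 152) (nat_lit 1116209841876) (nat_lit 228) (nat_lit 1582845682423) (nat_lit 22) (nat_lit 5) (nat_lit 24) (nat_lit 5) (nat_lit 25) (nat_lit 5) (nat_lit 395) (nat_lit 371) (nat_lit 134))) (XT.nd (nat_lit 45006) (nat_lit 0) (nat_lit 2204) (XT.lf (nat_lit 0) (nat_lit 1725525739199) (nat_lit 152) (nat_lit 200632923320) (nat_lit 228) (nat_lit 1094028424421) (nat_lit 22) (nat_lit 5) (nat_lit 24) (nat_lit 5) (nat_lit 25) (nat_lit 5) (nat_lit 396) (nat_lit 371) (nat_lit 133)) (XT.lf (nat_lit 0) (nat_lit 379969062806) (nat_lit 532) (nat_lit 69938464932) (nat_lit 532) (nat_lit 69938464932) (nat_lit 51) (nat_lit 3) (nat_lit 58) (nat_lit 3) (nat_lit 58) (nat_lit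 5) (nat_lit 372) (nat_lit 372) (nat_lit 156)))) (XT.nd (nat_lit 156) (nat_lit 0) (nat_lit 76) (XT.nd (nat_lit 78) (nat_lit 0) (nat_lit 76) (XT.lf (nat_lit 76) (nat_lit 365850664920) (nat_lit 0) (nat_lit 433283758873) (nat_lit 532) (nat_lit 281441338990) (nat_lit 52) (nat_lit 5) (nat_lit 51) (nat_lit 3) (nat_lit 58) (nat_lit 5) (nat_lit 373) (nat_lit 372) (nat_lit 155)) (XT.lf (nat_lit 0) (nat_lit 847087451787) (nat_lit 456) (nat_lit 206229443663) (nat_lit 532) (nat_lit 70963664903) (nat_lit 52) (nat_lit 5) (nat_lit 58) (nat_lit 5) (nat_lit 59) (nat_lit 5) (nat_lit 374) (nat_lit 372) (nat_lit 154))) (XT.nd (nat_lit 78) (nat_lit 0) (nat_lit 0) (XT.lf (nat_lit 76) (nat_lit 349158034832) (nat_lit 0) (nat_lit 569370064739) (nat_lit 532) (nat_lit 251381531966) (nat_lit 53) (nat_lit 5) (nat_lit 52) (nat_lit 5) (nat_lit 59) (nat_lit 5) (nat_lit 375) (nat_lit 372) (nat_lit 153)) (XT.lf (nat_lit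 76) (nat_lit 960704959456) (nat_lit 0) (nat_lit 40617713295) (nat_lit 532) (nat_lit 217415261790) (nat_lit 53) (nat_lit 5) (nat_lit 52) (nat_lit 5) (nat_lit 59) (nat_lit 5) (nat_lit 376) (nat_lit 372) (nat_lit 152)))))) (XT.nd (nat_lit 624) (nat_lit 988) (nat_lit 0) (XT.nd (nat_lit 312) (nat_lit 532) (nat_lit 0) (XT.nd (nat_lit 156) (nat_lit 456) (nat_lit 0) (XT.nd (nat_lit 78) (nat_lit 0) (nat_lit 0) (XT.lf (nat_lit 76) (nat_lit 354689150225) (nat_lit 0) (nat_lit 757338909992) (nat_lit 532) (nat_lit 157741461702) (nat_lit 54) (nat_lit 5) (nat_lit 53) (nat_lit 5) (nat_lit 60) (nat_lit 5) (nat_lit 377) (nat_lit 372) (nat_lit 151)) (XT.lf (nat_lit 76) (nat_lit 1029993045812) (nat_lit 0) (nat_lit 209680203979) (nat_lit 532) (nat_lit 84563716817) (nat_lit 54) (nat_lit 5) (nat_lit 53) (nat_lit 5) (nat_lit 60) (nat_lit 5) (nat_lit 378) (nat_lit 372) (nat_lit 150))) (XT.nd (nat_lit 78) (nat_lit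 0) (nat_lit 0) (XT.lf (nat_lit 0) (nat_lit 13700024340) (nat_lit 532) (nat_lit 995523630275) (nat_lit 76) (nat_lit 372332390884) (nat_lit 47) (nat_lit 5) (nat_lit 54) (nat_lit 5) (nat_lit 48) (nat_lit 5) (nat_lit 379) (nat_lit 372) (nat_lit 149)) (XT.lf (nat_lit 0) (nat_lit 128956578065) (nat_lit 532) (nat_lit 313203935862) (nat_lit 76) (nat_lit 1000028391933) (nat_lit 47) (nat_lit 5) (nat_lit 54) (nat_lit 5) (nat_lit 48) (nat_lit 5) (nat_lit 380) (nat_lit 372) (nat_lit 148)))) (XT.nd (nat_lit 156) (nat_lit 228) (nat_lit 0) (XT.nd (nat_lit 78) (nat_lit 0) (nat_lit 0) (XT.lf (nat_lit 0) (nat_lit 268533823690) (nat_lit 380) (nat_lit 1065175129254) (nat_lit 76) (nat_lit 172755428703) (nat_lit 43) (nat_lit 5) (nat_lit 48) (nat_lit 5) (nat_lit 44) (nat_lit 5) (nat_lit 381) (nat_lit 372) (nat_lit 147)) (XT.lf (nat_lit 0) (nat_lit 439547914840) (nat_lit 380) (nat_lit 312949852485) (nat_lit 76)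 (nat_lit 821762474910) (nat_lit 43) (nat_lit 5) (nat_lit 48) (nat_lit 5) (nat_lit 44) (nat_lit 5) (nat_lit 382) (nat_lit 372) (nat_lit 146))) (XT.nd (nat_lit 78) (nat_lit 0) (nat_lit 0) (XT.lf (nat_lit 0) (nat_lit 525753776352) (nat_lit 228) (nat_lit 111133744804) (nat_lit 304) (nat_lit 1009580699488) (nat_lit 40) (nat_lit 5) (nat_lit 43) (nat_lit 5) (nat_lit 44) (nat_lit 5) (nat_lit 383) (nat_lit 372) (nat_lit 145)) (XT.lf (nat_lit 0) (nat_lit 872779182583) (nat_lit 304) (nat_lit 288625167556) (nat_lit 76) (nat_lit 561227296264) (nat_lit 40) (nat_lit 5) (nat_lit 44) (nat_lit 5) (nat_lit 41) (nat_lit 5) (nat_lit 384) (nat_lit 372) (nat_lit 144))))) (XT.nd (nat_lit 312) (nat_lit 532) (nat_lit 0) (XT.nd (nat_lit 156) (nat_lit 228) (nat_lit 0) (XT.nd (nat_lit 78) (nat_lit 0) (nat_lit 0) (XT.lf (nat_lit 0) (nat_lit 639115819070) (nat_lit 228) (nat_lit 506683696719) (nat_lit 304) (nat_lit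 657628043328) (nat_lit 37) (nat_lit 5) (nat_lit 40) (nat_lit 5) (nat_lit 41) (nat_lit 5) (nat_lit 385) (nat_lit 372) (nat_lit 143)) (XT.lf (nat_lit 0) (nat_lit 1453577947415) (nat_lit 304) (nat_lit 237590323417) (nat_lit 76) (nat_lit 198485556282) (nat_lit 37) (nat_lit 5) (nat_lit 41) (nat_lit 5) (nat_lit 38) (nat_lit 5) (nat_lit 386) (nat_lit 372) (nat_lit 142))) (XT.nd (nat_lit 78) (nat_lit 76) (nat_lit 0) (XT.lf (nat_lit 0) (nat_lit 789607555865) (nat_lit 152) (nat_lit 1028521791494) (nat_lit 228) (nat_lit 162076793691) (nat_lit 35) (nat_lit 5) (nat_lit 37) (nat_lit 5) (nat_lit 38) (nat_lit 5) (nat_lit 387) (nat_lit 372) (nat_lit 141)) (XT.lf (nat_lit 0) (nat_lit 133811758365) (nat_lit 228) (nat_lit 168377353774) (nat_lit 76) (nat_lit 1775022825755) (nat_lit 34) (nat_lit 5) (nat_lit 37) (nat_lit 5) (nat_lit 35) (nat_lit 5) (nat_lit 388) (nat_lit 372) (nat_lit 140)))) (XT.nd (nat_lit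 156) (nat_lit 304) (nat_lit 0) (XT.nd (nat_lit 78) (nat_lit 0) (nat_lit 0) (XT.lf (nat_lit 0) (nat_lit 480515023236) (nat_lit 304) (nat_lit 1211616673874) (nat_lit 76) (nat_lit 486637719608) (nat_lit 31) (nat_lit 5) (nat_lit 35) (nat_lit 5) (nat_lit 32) (nat_lit 5) (nat_lit 389) (nat_lit 372) (nat_lit 139)) (XT.lf (nat_lit 0) (nat_lit 867526927807) (nat_lit 304) (nat_lit 92950826873) (nat_lit 76) (nat_lit 1326967948890) (nat_lit 31) (nat_lit 5) (nat_lit 35) (nat_lit 5) (nat_lit 32) (nat_lit 5) (nat_lit 390) (nat_lit 372) (nat_lit 138))) (XT.nd (nat_lit 78) (nat_lit 152) (nat_lit 0) (XT.lf (nat_lit 0) (nat_lit 1173933177126) (nat_lit 152) (nat_lit 139799726797) (nat_lit 228) (nat_lit 1088824539915) (nat_lit 29) (nat_lit 5) (nat_lit 31) (nat_lit 5) (nat_lit 32) (nat_lit 5) (nat_lit 391) (nat_lit 372) (nat_lit 137)) (XT.nd (nat_lit 78) (nat_lit 0) (nat_lit 0) (XT.lf (nat_lit 0) (nat_lit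 2904441284) (nat_lit 152) (nat_lit 1813362344216) (nat_lit 228) (nat_lit 708960823641) (nat_lit 27) (nat_lit 5) (nat_lit 29) (nat_lit 5) (nat_lit 30) (nat_lit 5) (nat_lit 392) (nat_lit 372) (nat_lit 136)) (XT.lf (nat_lit 0) (nat_lit 1399006021616) (nat_lit 152) (nat_lit 997129352512) (nat_lit 228) (nat_lit 258605453821) (nat_lit 27) (nat_lit 5) (nat_lit 29) (nat_lit 5) (nat_lit 30) (nat_lit 5) (nat_lit 393) (nat_lit 372) (nat_lit 135))))))))
noncomputable def xc250 : XT := (XT.nd (nat_lit 46254) (nat_lit 0) (nat_lit 152) (XT.nd (nat_lit 45630) (nat_lit 0) (nat_lit 1368) (XT.nd (nat_lit 45318) (nat_lit 0) (nat_lit 2204) (XT.nd (nat_lit 156) (nat_lit 152) (nat_lit 0) (XT.nd (nat_lit 78) (nat_lit 0) (nat_lit 0) (XT.lf (nat_lit 0) (nat_lit 112321313822) (nat_lit 152) (nat_lit 106763964971) (nat_lit 228) (nat_lit 2574875473210) (nat_lit 24) (nat_lit 5) (nat_lit 26) (nat_lit 5) (nat_lit 27)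 (nat_lit 5) (nat_lit 394) (nat_lit 372) (nat_lit 134)) (XT.lf (nat_lit 0) (nat_lit 776804362127) (nat_lit 228) (nat_lit 1308502391901) (nat_lit 76) (nat_lit 854011393682) (nat_lit 24) (nat_lit 5) (nat_lit 27) (nat_lit 5) (nat_lit 25) (nat_lit 5) (nat_lit 395) (nat_lit 372) (nat_lit 133))) (XT.nd (nat_lit 45084) (nat_lit 0) (nat_lit 2204) (XT.lf (nat_lit 0) (nat_lit 180754602908) (nat_lit 152) (nat_lit 1205506610201) (nat_lit 228) (nat_lit 1709473302688) (nat_lit 22) (nat_lit 5) (nat_lit 24) (nat_lit 5) (nat_lit 25) (nat_lit 5) (nat_lit 396) (nat_lit 372) (nat_lit 132)) (XT.lf (nat_lit 0) (nat_lit 410366642353) (nat_lit 532) (nat_lit 75533512626) (nat_lit 532) (nat_lit 75533512626) (nat_lit 51) (nat_lit 3) (nat_lit 58) (nat_lit 3) (nat_lit 58) (nat_lit 5) (nat_lit 373) (nat_lit 373) (nat_lit 154)))) (XT.nd (nat_lit 156) (nat_lit 0) (nat_lit 76) (XT.nd (nat_lit 78) (nat_lit 0) (nat_lit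 76) (XT.lf (nat_lit 76) (nat_lit 395118775622) (nat_lit 0) (nat_lit 467946504425) (nat_lit 532) (nat_lit 303956535351) (nat_lit 52) (nat_lit 5) (nat_lit 51) (nat_lit 3) (nat_lit 58) (nat_lit 5) (nat_lit 374) (nat_lit 373) (nat_lit 153)) (XT.lf (nat_lit 0) (nat_lit 914854541701) (nat_lit 456) (nat_lit 222727737125) (nat_lit 532) (nat_lit 76640718652) (nat_lit 52) (nat_lit 5) (nat_lit 58) (nat_lit 5) (nat_lit 59) (nat_lit 5) (nat_lit 375) (nat_lit 373) (nat_lit 152))) (XT.nd (nat_lit 78) (nat_lit 0) (nat_lit 0) (XT.lf (nat_lit 76) (nat_lit 377090738078) (nat_lit 0) (nat_lit 614919697738) (nat_lit 532) (nat_lit 271491958995) (nat_lit 53) (nat_lit 5) (nat_lit 52) (nat_lit 5) (nat_lit 59) (nat_lit 5) (nat_lit 376) (nat_lit 373) (nat_lit 151)) (XT.lf (nat_lit 76) (nat_lit 1037561412194) (nat_lit 0) (nat_lit 43867156117) (nat_lit 532) (nat_lit 234808394280) (nat_lit 53) (nat_lit 5) (nat_lit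 52) (nat_lit 5) (nat_lit 59) (nat_lit 5) (nat_lit 377) (nat_lit 373) (nat_lit 150))))) (XT.nd (nat_lit 312) (nat_lit 532) (nat_lit 0) (XT.nd (nat_lit 156) (nat_lit 456) (nat_lit 0) (XT.nd (nat_lit 78) (nat_lit 0) (nat_lit 0) (XT.lf (nat_lit 76) (nat_lit 383064343953) (nat_lit 0) (nat_lit 817926037677) (nat_lit 532) (nat_lit 170360695755) (nat_lit 54) (nat_lit 5) (nat_lit 53) (nat_lit 5) (nat_lit 60) (nat_lit 5) (nat_lit 378) (nat_lit 373) (nat_lit 149)) (XT.lf (nat_lit 76) (nat_lit 1112392546616) (nat_lit 0) (nat_lit 226454634080) (nat_lit 532) (nat_lit 91328737418) (nat_lit 54) (nat_lit 5) (nat_lit 53) (nat_lit 5) (nat_lit 60) (nat_lit 5) (nat_lit 379) (nat_lit 373) (nat_lit 148))) (XT.nd (nat_lit 78) (nat_lit 0) (nat_lit 0) (XT.lf (nat_lit 0) (nat_lit 14796095000) (nat_lit 532) (nat_lit 1075165455262) (nat_lit 76) (nat_lit 402118973254) (nat_lit 47) (nat_lit 5) (nat_lit 54) (nat_lit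 5) (nat_lit 48) (nat_lit 5) (nat_lit 380) (nat_lit 373) (nat_lit 147)) (XT.lf (nat_lit 0) (nat_lit 139273167932) (nat_lit 532) (nat_lit 338260190142) (nat_lit 76) (nat_lit 1080030655047) (nat_lit 47) (nat_lit 5) (nat_lit 54) (nat_lit 5) (nat_lit 48) (nat_lit 5) (nat_lit 381) (nat_lit 373) (nat_lit 146)))) (XT.nd (nat_lit 156) (nat_lit 228) (nat_lit 0) (XT.nd (nat_lit 78) (nat_lit 0) (nat_lit 0) (XT.lf (nat_lit 0) (nat_lit 290016589885) (nat_lit 380) (nat_lit 1150389075574) (nat_lit 76) (nat_lit 186575861788) (nat_lit 43) (nat_lit 5) (nat_lit 48) (nat_lit 5) (nat_lit 44) (nat_lit 5) (nat_lit 382) (nat_lit 373) (nat_lit 145)) (XT.lf (nat_lit 0) (nat_lit 474711803860) (nat_lit 380) (nat_lit 337985781405) (nat_lit 76) (nat_lit 887503471781) (nat_lit 43) (nat_lit 5) (nat_lit 48) (nat_lit 5) (nat_lit 44) (nat_lit 5) (nat_lit 383) (nat_lit 373) (nat_lit 144))) (XT.nd (nat_lit 78) (nat_lit 0)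 (nat_lit 0) (XT.lf (nat_lit 0) (nat_lit 567814136238) (nat_lit 228) (nat_lit 120024439697) (nat_lit 304) (nat_lit 1090347098020) (nat_lit 40) (nat_lit 5) (nat_lit 43) (nat_lit 5) (nat_lit 44) (nat_lit 5) (nat_lit 384) (nat_lit 373) (nat_lit 143)) (XT.lf (nat_lit 0) (nat_lit 942601566448) (nat_lit 304) (nat_lit 311715123548) (nat_lit 76) (nat_lit 606125484092) (nat_lit 40) (nat_lit 5) (nat_lit 44) (nat_lit 5) (nat_lit 41) (nat_lit 5) (nat_lit 385) (nat_lit 373) (nat_lit 142)))))) (XT.nd (nat_lit 624) (nat_lit 228) (nat_lit 0) (XT.nd (nat_lit 312) (nat_lit 532) (nat_lit 0) (XT.nd (nat_lit 156) (nat_lit 228) (nat_lit 0) (XT.nd (nat_lit 78) (nat_lit 0) (nat_lit 0) (XT.lf (nat_lit 0) (nat_lit 690245140554) (nat_lit 228) (nat_lit 547218383454) (nat_lit 304) (nat_lit 710238236003) (nat_lit 37) (nat_lit 5) (nat_lit 40) (nat_lit 5) (nat_lit 41) (nat_lit 5) (nat_lit 386) (nat_lit 373) (nat_lit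 141)) (XT.lf (nat_lit 0) (nat_lit 1569864226886) (nat_lit 304) (nat_lit 256597494125) (nat_lit 76) (nat_lit 214364408704) (nat_lit 37) (nat_lit 5) (nat_lit 41) (nat_lit 5) (nat_lit 38) (nat_lit 5) (nat_lit 387) (nat_lit 373) (nat_lit 140))) (XT.nd (nat_lit 78) (nat_lit 76) (nat_lit 0) (XT.lf (nat_lit 0) (nat_lit 852776214103) (nat_lit 152) (nat_lit 1110803522780) (nat_lit 228) (nat_lit 175042892043) (nat_lit 35) (nat_lit 5) (nat_lit 37) (nat_lit 5) (nat_lit 38) (nat_lit 5) (nat_lit 388) (nat_lit 373) (nat_lit 139)) (XT.lf (nat_lit 0) (nat_lit 144516738742) (nat_lit 228) (nat_lit 181847490140) (nat_lit 76) (nat_lit 1917024660808) (nat_lit 34) (nat_lit 5) (nat_lit 37) (nat_lit 5) (nat_lit 35) (nat_lit 5) (nat_lit 389) (nat_lit 373) (nat_lit 138)))) (XT.nd (nat_lit 156) (nat_lit 304) (nat_lit 0) (XT.nd (nat_lit 78) (nat_lit 0) (nat_lit 0) (XT.lf (nat_lit 0) (nat_lit 518956263384) (nat_lit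 304) (nat_lit 1308545954373) (nat_lit 76) (nat_lit 525568749181) (nat_lit 31) (nat_lit 5) (nat_lit 35) (nat_lit 5) (nat_lit 32) (nat_lit 5) (nat_lit 390) (nat_lit 373) (nat_lit 137)) (XT.lf (nat_lit 0) (nat_lit 936929117484) (nat_lit 304) (nat_lit 100386843569) (nat_lit 76) (nat_lit 1433125395916) (nat_lit 31) (nat_lit 5) (nat_lit 35) (nat_lit 5) (nat_lit 32) (nat_lit 5) (nat_lit 391) (nat_lit 373) (nat_lit 136))) (XT.nd (nat_lit 78) (nat_lit 152) (nat_lit 0) (XT.lf (nat_lit 0) (nat_lit 1267847879498) (nat_lit 152) (nat_lit 150983690724) (nat_lit 228) (nat_lit 1175930466358) (nat_lit 29) (nat_lit 5) (nat_lit 31) (nat_lit 5) (nat_lit 32) (nat_lit 5) (nat_lit 392) (nat_lit 373) (nat_lit 135)) (XT.lf (nat_lit 0) (nat_lit 3136845931) (nat_lit 152) (nat_lit 1958431315380) (nat_lit 228) (nat_lit 765677653881) (nat_lit 27) (nat_lit 5) (nat_lit 29) (nat_lit 5) (nat_lit 30) (nat_lit 5) (nat_lit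 393) (nat_lit 373) (nat_lit 134))))) (XT.nd (nat_lit 45396) (nat_lit 0) (nat_lit 2052) (XT.nd (nat_lit 156) (nat_lit 0) (nat_lit 0) (XT.nd (nat_lit 78) (nat_lit 228) (nat_lit 0) (XT.lf (nat_lit 0) (nat_lit 1510926549035) (nat_lit 152) (nat_lit 1076899685552) (nat_lit 228) (nat_lit 279293857116) (nat_lit 27) (nat_lit 5) (nat_lit 29) (nat_lit 5) (nat_lit 30) (nat_lit 5) (nat_lit 394) (nat_lit 373) (nat_lit 133)) (XT.lf (nat_lit 0) (nat_lit 121307065106) (nat_lit 152) (nat_lit 115305066138) (nat_lit 228) (nat_lit 2780865478474) (nat_lit 24) (nat_lit 5) (nat_lit 26) (nat_lit 5) (nat_lit 27) (nat_lit 5) (nat_lit 395) (nat_lit 373) (nat_lit 132))) (XT.nd (nat_lit 45162) (nat_lit 0) (nat_lit 2052) (XT.lf (nat_lit 0) (nat_lit 838948739369) (nat_lit 228) (nat_lit 1413182538587) (nat_lit 76) (nat_lit 922332319277) (nat_lit 24) (nat_lit 5) (nat_lit 27) (nat_lit 5) (nat_lit 25) (nat_lit 5) (nat_lit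 396) (nat_lit 373) (nat_lit 131)) (XT.lf (nat_lit 0) (nat_lit 443196020486) (nat_lit 532) (nat_lit 81576168343) (nat_lit 532) (nat_lit 81576168343) (nat_lit 51) (nat_lit 3) (nat_lit 58) (nat_lit 3) (nat_lit 58) (nat_lit 5) (nat_lit 374) (nat_lit 374) (nat_lit 152)))) (XT.nd (nat_lit 156) (nat_lit 0) (nat_lit 76) (XT.nd (nat_lit 78) (nat_lit 0) (nat_lit 76) (XT.lf (nat_lit 76) (nat_lit 426728326976) (nat_lit 0) (nat_lit 505382263225) (nat_lit 532) (nat_lit 328272963223) (nat_lit 52) (nat_lit 5) (nat_lit 51) (nat_lit 3) (nat_lit 58) (nat_lit 5) (nat_lit 375) (nat_lit 374) (nat_lit 151)) (XT.lf (nat_lit 0) (nat_lit 988042985431) (nat_lit 456) (nat_lit 240545902914) (nat_lit 532) (nat_lit 82771942327) (nat_lit 52) (nat_lit 5) (nat_lit 58) (nat_lit 5) (nat_lit 59) (nat_lit 5) (nat_lit 376) (nat_lit 374) (nat_lit 150))) (XT.nd (nat_lit 78) (nat_lit 0) (nat_lit 0) (XT.lf (nat_lit 76) (nat_lit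 407258048960) (nat_lit 0) (nat_lit 664113297407) (nat_lit 532) (nat_lit 293211233814) (nat_lit 53) (nat_lit 5) (nat_lit 52) (nat_lit 5) (nat_lit 59) (nat_lit 5) (nat_lit 377) (nat_lit 374) (nat_lit 149)) (XT.nd (nat_lit 78) (nat_lit 0) (nat_lit 76) (XT.lf (nat_lit 76) (nat_lit 1120566373165) (nat_lit 0) (nat_lit 47376550691) (nat_lit 532) (nat_lit 253592989989) (nat_lit 53) (nat_lit 5) (nat_lit 52) (nat_lit 5) (nat_lit 59) (nat_lit 5) (nat_lit 378) (nat_lit 374) (nat_lit 148)) (XT.lf (nat_lit 76) (nat_lit 413709544376) (nat_lit 0) (nat_lit 883360133453) (nat_lit 532) (nat_lit 183989480356) (nat_lit 54) (nat_lit 5) (nat_lit 53) (nat_lit 5) (nat_lit 60) (nat_lit 5) (nat_lit 379) (nat_lit 374) (nat_lit 147))))))))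
noncomputable def xc251 : XT := (XT.nd (nat_lit 46488) (nat_lit 0) (nat_lit 532) (XT.nd (nat_lit 624) (nat_lit 760) (nat_lit 0) (XT.nd (nat_lit 312) (nat_lit 456) (nat_lit 0) (XT.nd (nat_lit 156) (nat_lit 304) (nat_lit 0) (XT.nd (nat_lit 78) (nat_lit 456) (nat_lit 0) (XT.lf (nat_lit 76) (nat_lit 1201383999334) (nat_lit 0) (nat_lit 244571016623) (nat_lit 532) (nat_lit 98634970616) (nat_lit 54) (nat_lit 5) (nat_lit 53) (nat_lit 5) (nat_lit 60) (nat_lit 5) (nat_lit 380) (nat_lit 374) (nat_lit 146)) (XT.lf (nat_lit 0) (nat_lit 15979841509) (nat_lit 532) (nat_lit 1161178635582) (nat_lit 76) (nat_lit 434288483484) (nat_lit 47) (nat_lit 5) (nat_lit 54) (nat_lit 5) (nat_lit 48) (nat_lit 5) (nat_lit 381) (nat_lit 374) (nat_lit 145))) (XT.nd (nat_lit 78) (nat_lit 304) (nat_lit 0) (XT.lf (nat_lit 0) (nat_lit 150415075913) (nat_lit 532) (nat_lit 365320953409) (nat_lit 76) (nat_lit 1166433100386)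 (nat_lit 47) (nat_lit 5) (nat_lit 54) (nat_lit 5) (nat_lit 48) (nat_lit 5) (nat_lit 382) (nat_lit 374) (nat_lit 144)) (XT.lf (nat_lit 0) (nat_lit 313217968772) (nat_lit 380) (nat_lit 1242420146732) (nat_lit 76) (nat_lit 201501929693) (nat_lit 43) (nat_lit 5) (nat_lit 48) (nat_lit 5) (nat_lit 44) (nat_lit 5) (nat_lit 383) (nat_lit 374) (nat_lit 143)))) (XT.nd (nat_lit 156) (nat_lit 228) (nat_lit 0) (XT.nd (nat_lit 78) (nat_lit 228) (nat_lit 0) (XT.lf (nat_lit 0) (nat_lit 512688796036) (nat_lit 380) (nat_lit 365024593096) (nat_lit 76) (nat_lit 958503748562) (nat_lit 43) (nat_lit 5) (nat_lit 48) (nat_lit 5) (nat_lit 44) (nat_lit 5) (nat_lit 384) (nat_lit 374) (nat_lit 142)) (XT.lf (nat_lit 0) (nat_lit 613239316673) (nat_lit 228) (nat_lit 129626390850) (nat_lit 304) (nat_lit 1177574816628) (nat_lit 40) (nat_lit 5) (nat_lit 43) (nat_lit 5) (nat_lit 44) (nat_lit 5) (nat_lit 385) (nat_lit 374)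 (nat_lit 141))) (XT.nd (nat_lit 78) (nat_lit 228) (nat_lit 0) (XT.lf (nat_lit 0) (nat_lit 1018009733995) (nat_lit 304) (nat_lit 336652284210) (nat_lit 76) (nat_lit 654615526357) (nat_lit 40) (nat_lit 5) (nat_lit 44) (nat_lit 5) (nat_lit 41) (nat_lit 5) (nat_lit 386) (nat_lit 374) (nat_lit 140)) (XT.lf (nat_lit 0) (nat_lit 745464799775) (nat_lit 228) (nat_lit 590995846411) (nat_lit 304) (nat_lit 767057251337) (nat_lit 37) (nat_lit 5) (nat_lit 40) (nat_lit 5) (nat_lit 41) (nat_lit 5) (nat_lit 387) (nat_lit 374) (nat_lit 139))))) (XT.nd (nat_lit 312) (nat_lit 304) (nat_lit 0) (XT.nd (nat_lit 156) (nat_lit 304) (nat_lit 0) (XT.nd (nat_lit 78) (nat_lit 152) (nat_lit 0) (XT.lf (nat_lit 0) (nat_lit 1695453402483) (nat_lit 304) (nat_lit 277125246359) (nat_lit 76) (nat_lit 231513568190) (nat_lit 37) (nat_lit 5) (nat_lit 41) (nat_lit 5) (nat_lit 38) (nat_lit 5) (nat_lit 388) (nat_lit 374) (nat_lit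 138)) (XT.lf (nat_lit 0) (nat_lit 920998357329) (nat_lit 152) (nat_lit 1199667794286) (nat_lit 228) (nat_lit 189046284704) (nat_lit 35) (nat_lit 5) (nat_lit 37) (nat_lit 5) (nat_lit 38) (nat_lit 5) (nat_lit 389) (nat_lit 374) (nat_lit 137))) (XT.nd (nat_lit 78) (nat_lit 228) (nat_lit 0) (XT.lf (nat_lit 0) (nat_lit 156078111885) (nat_lit 228) (nat_lit 196395244825) (nat_lit 76) (nat_lit 2070386641382) (nat_lit 34) (nat_lit 5) (nat_lit 37) (nat_lit 5) (nat_lit 35) (nat_lit 5) (nat_lit 390) (nat_lit 374) (nat_lit 136)) (XT.lf (nat_lit 0) (nat_lit 560472797280) (nat_lit 304) (nat_lit 1413229584932) (nat_lit 76) (nat_lit 567614259408) (nat_lit 31) (nat_lit 5) (nat_lit 35) (nat_lit 5) (nat_lit 32) (nat_lit 5) (nat_lit 391) (nat_lit 374) (nat_lit 135)))) (XT.nd (nat_lit 156) (nat_lit 152) (nat_lit 0) (XT.nd (nat_lit 78) (nat_lit 152) (nat_lit 0) (XT.lf (nat_lit 0) (nat_lit 1011883477277) (nat_lit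 304) (nat_lit 108417748656) (nat_lit 76) (nat_lit 1547775437120) (nat_lit 31) (nat_lit 5) (nat_lit 35) (nat_lit 5) (nat_lit 32) (nat_lit 5) (nat_lit 392) (nat_lit 374) (nat_lit 134)) (XT.lf (nat_lit 0) (nat_lit 1369275751184) (nat_lit 152) (nat_lit 163062373794) (nat_lit 228) (nat_lit 1270004872158) (nat_lit 29) (nat_lit 5) (nat_lit 31) (nat_lit 5) (nat_lit 32) (nat_lit 5) (nat_lit 393) (nat_lit 374) (nat_lit 133))) (XT.nd (nat_lit 78) (nat_lit 0) (nat_lit 0) (XT.lf (nat_lit 0) (nat_lit 3387835911) (nat_lit 152) (nat_lit 2115105806573) (nat_lit 228) (nat_lit 826931835625) (nat_lit 27) (nat_lit 5) (nat_lit 29) (nat_lit 5) (nat_lit 30) (nat_lit 5) (nat_lit 394) (nat_lit 374) (nat_lit 132)) (XT.lf (nat_lit 0) (nat_lit 1631800712129) (nat_lit 152) (nat_lit 1163051647399) (nat_lit 228) (nat_lit 301637337383) (nat_lit 27) (nat_lit 5) (nat_lit 29) (nat_lit 5) (nat_lit 30) (nat_lit 5) (nat_lit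 395) (nat_lit 374) (nat_lit 131)))))) (XT.nd (nat_lit 624) (nat_lit 988) (nat_lit 0) (XT.nd (nat_lit 312) (nat_lit 304) (nat_lit 0) (XT.nd (nat_lit 156) (nat_lit 0) (nat_lit 76) (XT.nd (nat_lit 78) (nat_lit 0) (nat_lit 0) (XT.lf (nat_lit 0) (nat_lit 478651742201) (nat_lit 532) (nat_lit 88102240126) (nat_lit 532) (nat_lit 88102240126) (nat_lit 51) (nat_lit 3) (nat_lit 58) (nat_lit 3) (nat_lit 58) (nat_lit 5) (nat_lit 375) (nat_lit 375) (nat_lit 150)) (XT.lf (nat_lit 76) (nat_lit 460866635405) (nat_lit 0) (nat_lit 545812877244) (nat_lit 532) (nat_lit 354534718870) (nat_lit 52) (nat_lit 5) (nat_lit 51) (nat_lit 3) (nat_lit 58) (nat_lit 5) (nat_lit 376) (nat_lit 375) (nat_lit 149))) (XT.nd (nat_lit 78) (nat_lit 0) (nat_lit 0) (XT.lf (nat_lit 0) (nat_lit 1067086493190) (nat_lit 456) (nat_lit 259789529553) (nat_lit 532) (nat_lit 89393668720) (nat_lit 52) (nat_lit 5) (nat_lit 58) (nat_lit 5)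 (nat_lit 59) (nat_lit 5) (nat_lit 377) (nat_lit 375) (nat_lit 148)) (XT.lf (nat_lit 76) (nat_lit 439838737317) (nat_lit 0) (nat_lit 717242381648) (nat_lit 532) (nat_lit 316668062303) (nat_lit 53) (nat_lit 5) (nat_lit 52) (nat_lit 5) (nat_lit 59) (nat_lit 5) (nat_lit 378) (nat_lit 375) (nat_lit 147)))) (XT.nd (nat_lit 156) (nat_lit 380) (nat_lit 0) (XT.nd (nat_lit 78) (nat_lit 0) (nat_lit 76) (XT.lf (nat_lit 76) (nat_lit 1210211724166) (nat_lit 0) (nat_lit 51166693679) (nat_lit 532) (nat_lit 273880364173) (nat_lit 53) (nat_lit 5) (nat_lit 52) (nat_lit 5) (nat_lit 59) (nat_lit 5) (nat_lit 379) (nat_lit 375) (nat_lit 146)) (XT.lf (nat_lit 76) (nat_lit 446806353286) (nat_lit 0) (nat_lit 954028955070) (nat_lit 532) (nat_lit 198708577863) (nat_lit 54) (nat_lit 5) (nat_lit 53) (nat_lit 5) (nat_lit 60) (nat_lit 5) (nat_lit 380) (nat_lit 375) (nat_lit 145))) (XT.nd (nat_lit 78) (nat_lit 456) (nat_lit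 0) (XT.lf (nat_lit 76) (nat_lit 1297494761279) (nat_lit 0) (nat_lit 264136708084) (nat_lit 532) (nat_lit 106525711856) (nat_lit 54) (nat_lit 5) (nat_lit 53) (nat_lit 5) (nat_lit 60) (nat_lit 5) (nat_lit 381) (nat_lit 375) (nat_lit 144)) (XT.lf (nat_lit 0) (nat_lit 17258279336) (nat_lit 532) (nat_lit 1254072878331) (nat_lit 76) (nat_lit 469031555621) (nat_lit 47) (nat_lit 5) (nat_lit 54) (nat_lit 5) (nat_lit 48) (nat_lit 5) (nat_lit 382) (nat_lit 375) (nat_lit 143))))) (XT.nd (nat_lit 312) (nat_lit 456) (nat_lit 0) (XT.nd (nat_lit 156) (nat_lit 228) (nat_lit 0) (XT.nd (nat_lit 78) (nat_lit 304) (nat_lit 0) (XT.lf (nat_lit 0) (nat_lit 162448328750) (nat_lit 532) (nat_lit 394546585147) (nat_lit 76) (nat_lit 1259747742359) (nat_lit 47) (nat_lit 5) (nat_lit 54) (nat_lit 5) (nat_lit 48) (nat_lit 5) (nat_lit 383) (nat_lit 375) (nat_lit 142)) (XT.lf (nat_lit 0) (nat_lit 338275450596) (nat_lit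 380) (nat_lit 1341813711414) (nat_lit 76) (nat_lit 217622083178) (nat_lit 43) (nat_lit 5) (nat_lit 48) (nat_lit 5) (nat_lit 44) (nat_lit 5) (nat_lit 384) (nat_lit 375) (nat_lit 141))) (XT.nd (nat_lit 78) (nat_lit 228) (nat_lit 0) (XT.lf (nat_lit 0) (nat_lit 553703940758) (nat_lit 380) (nat_lit 394226516972) (nat_lit 76) (nat_lit 1035184047623) (nat_lit 43) (nat_lit 5) (nat_lit 48) (nat_lit 5) (nat_lit 44) (nat_lit 5) (nat_lit 385) (nat_lit 375) (nat_lit 140)) (XT.lf (nat_lit 0) (nat_lit 662298504475) (nat_lit 228) (nat_lit 139996498670) (nat_lit 304) (nat_lit 1271780759748) (nat_lit 40) (nat_lit 5) (nat_lit 43) (nat_lit 5) (nat_lit 44) (nat_lit 5) (nat_lit 386) (nat_lit 375) (nat_lit 139)))) (XT.nd (nat_lit 156) (nat_lit 228) (nat_lit 0) (XT.nd (nat_lit 78) (nat_lit 228) (nat_lit 0) (XT.lf (nat_lit 0) (nat_lit 1099450548921) (nat_lit 304) (nat_lit 363584424747) (nat_lit 76) (nat_lit 706984771499)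 (nat_lit 40) (nat_lit 5) (nat_lit 44) (nat_lit 5) (nat_lit 41) (nat_lit 5) (nat_lit 387) (nat_lit 375) (nat_lit 138)) (XT.lf (nat_lit 0) (nat_lit 805102024888) (nat_lit 228) (nat_lit 638275507506) (nat_lit 304) (nat_lit 828421794110) (nat_lit 37) (nat_lit 5) (nat_lit 40) (nat_lit 5) (nat_lit 41) (nat_lit 5) (nat_lit 388) (nat_lit 375) (nat_lit 137))) (XT.nd (nat_lit 78) (nat_lit 228) (nat_lit 0) (XT.lf (nat_lit 0) (nat_lit 1831089706786) (nat_lit 304) (nat_lit 299295225520) (nat_lit 76) (nat_lit 250034659466) (nat_lit 37) (nat_lit 5) (nat_lit 41) (nat_lit 5) (nat_lit 38) (nat_lit 5) (nat_lit 389) (nat_lit 375) (nat_lit 136)) (XT.nd (nat_lit 78) (nat_lit 76) (nat_lit 0) (XT.lf (nat_lit 0) (nat_lit 994678265438) (nat_lit 152) (nat_lit 1295641208984) (nat_lit 228) (nat_lit 204169954299) (nat_lit 35) (nat_lit 5) (nat_lit 37) (nat_lit 5) (nat_lit 38) (nat_lit 5) (nat_lit 390) (nat_lit 375)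 (nat_lit 135)) (XT.lf (nat_lit 0) (nat_lit 168564390023) (nat_lit 228) (nat_lit 212106826236) (nat_lit 76) (nat_lit 2236017579302) (nat_lit 34) (nat_lit 5) (nat_lit 37) (nat_lit 5) (nat_lit 35) (nat_lit 5) (nat_lit 391) (nat_lit 375) (nat_lit 134))))))))
noncomputable def xc252 : XT := (XT.nd (nat_lit 46644) (nat_lit 0) (nat_lit 304) (XT.nd (nat_lit 46020) (nat_lit 0) (nat_lit 988) (XT.nd (nat_lit 45708) (nat_lit 0) (nat_lit 1824) (XT.nd (nat_lit 234) (nat_lit 152) (nat_lit 0) (XT.nd (nat_lit 156) (nat_lit 152) (nat_lit 0) (XT.lf (nat_lit 0) (nat_lit 605310649206) (nat_lit 304) (nat_lit 1526287912469) (nat_lit 76) (nat_lit 613023408985) (nat_lit 31) (nat_lit 5) (nat_lit 35) (nat_lit 5) (nat_lit 32) (nat_lit 5) (nat_lit 392) (nat_lit 375) (nat_lit 133)) (XT.lf (nat_lit 0) (nat_lit 1478817846709) (nat_lit 152) (nat_lit 176107353247) (nat_lit 228) (nat_lit 1371605234918) (nat_lit 29) (nat_lit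 5) (nat_lit 31) (nat_lit 5) (nat_lit 32) (nat_lit 5) (nat_lit 394) (nat_lit 375) (nat_lit 131))) (XT.nd (nat_lit 45396) (nat_lit 0) (nat_lit 1824) (XT.lf (nat_lit 0) (nat_lit 3658899053) (nat_lit 152) (nat_lit 2284314259064) (nat_lit 228) (nat_lit 893086356270) (nat_lit 27) (nat_lit 5) (nat_lit 29) (nat_lit 5) (nat_lit 30) (nat_lit 5) (nat_lit 395) (nat_lit 375) (nat_lit 130)) (XT.lf (nat_lit 0) (nat_lit 516943915936) (nat_lit 532) (nat_lit 95150400746) (nat_lit 532) (nat_lit 95150400746) (nat_lit 51) (nat_lit 3) (nat_lit 58) (nat_lit 3) (nat_lit 58) (nat_lit 5) (nat_lit 376) (nat_lit 376) (nat_lit 148)))) (XT.nd (nat_lit 156) (nat_lit 0) (nat_lit 76) (XT.nd (nat_lit 78) (nat_lit 0) (nat_lit 76) (XT.lf (nat_lit 76) (nat_lit 497736002478) (nat_lit 0) (nat_lit 589477935682) (nat_lit 532) (nat_lit 382897426584) (nat_lit 52) (nat_lit 5) (nat_lit 51) (nat_lit 3) (nat_lit 58) (nat_lit 5) (nat_lit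 377) (nat_lit 376) (nat_lit 147)) (XT.lf (nat_lit 0) (nat_lit 1152453471738) (nat_lit 456) (nat_lit 280572652827) (nat_lit 532) (nat_lit 96545137362) (nat_lit 52) (nat_lit 5) (nat_lit 58) (nat_lit 5) (nat_lit 59) (nat_lit 5) (nat_lit 378) (nat_lit 376) (nat_lit 146))) (XT.nd (nat_lit 78) (nat_lit 0) (nat_lit 0) (XT.lf (nat_lit 76) (nat_lit 475025874402) (nat_lit 0) (nat_lit 774621789710) (nat_lit 532) (nat_lit 342001447088) (nat_lit 53) (nat_lit 5) (nat_lit 52) (nat_lit 5) (nat_lit 59) (nat_lit 5) (nat_lit 379) (nat_lit 376) (nat_lit 145)) (XT.lf (nat_lit 76) (nat_lit 1307028697378) (nat_lit 0) (nat_lit 55260045406) (nat_lit 532) (nat_lit 295790737567) (nat_lit 53) (nat_lit 5) (nat_lit 52) (nat_lit 5) (nat_lit 59) (nat_lit 5) (nat_lit 380) (nat_lit 376) (nat_lit 144))))) (XT.nd (nat_lit 312) (nat_lit 532) (nat_lit 0) (XT.nd (nat_lit 156) (nat_lit 456) (nat_lit 0) (XT.nd (nat_lit 78) (nat_lit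 0) (nat_lit 0) (XT.lf (nat_lit 76) (nat_lit 482550900436) (nat_lit 0) (nat_lit 1030351280856) (nat_lit 532) (nat_lit 214605211861) (nat_lit 54) (nat_lit 5) (nat_lit 53) (nat_lit 5) (nat_lit 60) (nat_lit 5) (nat_lit 381) (nat_lit 376) (nat_lit 143)) (XT.lf (nat_lit 76) (nat_lit 1401294378189) (nat_lit 0) (nat_lit 285267653416) (nat_lit 532) (nat_lit 115047720443) (nat_lit 54) (nat_lit 5) (nat_lit 53) (nat_lit 5) (nat_lit 60) (nat_lit 5) (nat_lit 382) (nat_lit 376) (nat_lit 142))) (XT.nd (nat_lit 78) (nat_lit 0) (nat_lit 0) (XT.lf (nat_lit 0) (nat_lit 18638984983) (nat_lit 532) (nat_lit 1354398667362) (nat_lit 76) (nat_lit 506554074462) (nat_lit 47) (nat_lit 5) (nat_lit 54) (nat_lit 5) (nat_lit 48) (nat_lit 5) (nat_lit 383) (nat_lit 376) (nat_lit 141)) (XT.lf (nat_lit 0) (nat_lit 175444235143) (nat_lit 532) (nat_lit 426110273777) (nat_lit 76) (nat_lit 1360527556555) (nat_lit 47) (nat_lit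 5) (nat_lit 54) (nat_lit 5) (nat_lit 48) (nat_lit 5) (nat_lit 384) (nat_lit 376) (nat_lit 140)))) (XT.nd (nat_lit 156) (nat_lit 228) (nat_lit 0) (XT.nd (nat_lit 78) (nat_lit 0) (nat_lit 0) (XT.lf (nat_lit 0) (nat_lit 365337524642) (nat_lit 380) (nat_lit 1449158767983) (nat_lit 76) (nat_lit 235031849069) (nat_lit 43) (nat_lit 5) (nat_lit 48) (nat_lit 5) (nat_lit 44) (nat_lit 5) (nat_lit 385) (nat_lit 376) (nat_lit 139)) (XT.lf (nat_lit 0) (nat_lit 598000291202) (nat_lit 380) (nat_lit 425764600974) (nat_lit 76) (nat_lit 1117998770726) (nat_lit 43) (nat_lit 5) (nat_lit 48) (nat_lit 5) (nat_lit 44) (nat_lit 5) (nat_lit 386) (nat_lit 376) (nat_lit 138))) (XT.nd (nat_lit 78) (nat_lit 0) (nat_lit 0) (XT.lf (nat_lit 0) (nat_lit 715282421243) (nat_lit 228) (nat_lit 151196215607) (nat_lit 304) (nat_lit 1373523184339) (nat_lit 40) (nat_lit 5) (nat_lit 43) (nat_lit 5) (nat_lit 44) (nat_lit 5) (nat_lit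 387) (nat_lit 376) (nat_lit 137)) (XT.lf (nat_lit 0) (nat_lit 1187406623876) (nat_lit 304) (nat_lit 392671142548) (nat_lit 76) (nat_lit 763543555819) (nat_lit 40) (nat_lit 5) (nat_lit 44) (nat_lit 5) (nat_lit 41) (nat_lit 5) (nat_lit 388) (nat_lit 376) (nat_lit 136)))))) (XT.nd (nat_lit 46098) (nat_lit 0) (nat_lit 912) (XT.nd (nat_lit 312) (nat_lit 228) (nat_lit 0) (XT.nd (nat_lit 156) (nat_lit 228) (nat_lit 0) (XT.nd (nat_lit 78) (nat_lit 0) (nat_lit 0) (XT.lf (nat_lit 0) (nat_lit 869510222143) (nat_lit 228) (nat_lit 689337542433) (nat_lit 304) (nat_lit 894695505632) (nat_lit 37) (nat_lit 5) (nat_lit 40) (nat_lit 5) (nat_lit 41) (nat_lit 5) (nat_lit 389) (nat_lit 376) (nat_lit 135)) (XT.lf (nat_lit 0) (nat_lit 1977576910854) (nat_lit 304) (nat_lit 323238808798) (nat_lit 76) (nat_lit 270037437214) (nat_lit 37) (nat_lit 5) (nat_lit 41) (nat_lit 5) (nat_lit 38) (nat_lit 5) (nat_lit 390)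 (nat_lit 376) (nat_lit 134))) (XT.nd (nat_lit 78) (nat_lit 76) (nat_lit 0) (XT.lf (nat_lit 0) (nat_lit 1074252560556) (nat_lit 152) (nat_lit 1399292498120) (nat_lit 228) (nat_lit 220503522195) (nat_lit 35) (nat_lit 5) (nat_lit 37) (nat_lit 5) (nat_lit 38) (nat_lit 5) (nat_lit 391) (nat_lit 376) (nat_lit 133)) (XT.lf (nat_lit 0) (nat_lit 182049566247) (nat_lit 228) (nat_lit 229075339607) (nat_lit 76) (nat_lit 2414898991313) (nat_lit 34) (nat_lit 5) (nat_lit 37) (nat_lit 5) (nat_lit 35) (nat_lit 5) (nat_lit 392) (nat_lit 376) (nat_lit 132)))) (XT.nd (nat_lit 45630) (nat_lit 0) (nat_lit 1520) (XT.nd (nat_lit 78) (nat_lit 0) (nat_lit 0) (XT.lf (nat_lit 0) (nat_lit 653735525270) (nat_lit 304) (nat_lit 1648390911809) (nat_lit 76) (nat_lit 662065289268) (nat_lit 31) (nat_lit 5) (nat_lit 35) (nat_lit 5) (nat_lit 32) (nat_lit 5) (nat_lit 393) (nat_lit 376) (nat_lit 131)) (XT.lf (nat_lit 0) (nat_lit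 1180260938380) (nat_lit 304) (nat_lit 126458391609) (nat_lit 76) (nat_lit 1805325285685) (nat_lit 31) (nat_lit 5) (nat_lit 35) (nat_lit 5) (nat_lit 32) (nat_lit 5) (nat_lit 394) (nat_lit 376) (nat_lit 130))) (XT.nd (nat_lit 78) (nat_lit 0) (nat_lit 0) (XT.lf (nat_lit 0) (nat_lit 558299458668) (nat_lit 532) (nat_lit 102762416867) (nat_lit 532) (nat_lit 102762416867) (nat_lit 51) (nat_lit 3) (nat_lit 58) (nat_lit 3) (nat_lit 58) (nat_lit 5) (nat_lit 377) (nat_lit 377) (nat_lit 146)) (XT.lf (nat_lit 76) (nat_lit 537554913746) (nat_lit 0) (nat_lit 636636194764) (nat_lit 532) (nat_lit 413529160872) (nat_lit 52) (nat_lit 5) (nat_lit 51) (nat_lit 3) (nat_lit 58) (nat_lit 5) (nat_lit 378) (nat_lit 377) (nat_lit 145))))) (XT.nd (nat_lit 312) (nat_lit 684) (nat_lit 0) (XT.nd (nat_lit 156) (nat_lit 0) (nat_lit 0) (XT.nd (nat_lit 78) (nat_lit 0) (nat_lit 0) (XT.lf (nat_lit 0) (nat_lit 1244649800138)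 (nat_lit 456) (nat_lit 303018431540) (nat_lit 532) (nat_lit 104268727040) (nat_lit 52) (nat_lit 5) (nat_lit 58) (nat_lit 5) (nat_lit 59) (nat_lit 5) (nat_lit 379) (nat_lit 377) (nat_lit 144)) (XT.lf (nat_lit 76) (nat_lit 513027977019) (nat_lit 0) (nat_lit 836591547917) (nat_lit 532) (nat_lit 369361511244) (nat_lit 53) (nat_lit 5) (nat_lit 52) (nat_lit 5) (nat_lit 59) (nat_lit 5) (nat_lit 380) (nat_lit 377) (nat_lit 143))) (XT.nd (nat_lit 78) (nat_lit 0) (nat_lit 76) (XT.lf (nat_lit 76) (nat_lit 1411591023413) (nat_lit 0) (nat_lit 59680862955) (nat_lit 532) (nat_lit 319453948785) (nat_lit 53) (nat_lit 5) (nat_lit 52) (nat_lit 5) (nat_lit 59) (nat_lit 5) (nat_lit 381) (nat_lit 377) (nat_lit 142)) (XT.lf (nat_lit 76) (nat_lit 521155005812) (nat_lit 0) (nat_lit 1112779391367) (nat_lit 532) (nat_lit 231773584030) (nat_lit 54) (nat_lit 5) (nat_lit 53) (nat_lit 5) (nat_lit 60) (nat_lit 5) (nat_lit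 382) (nat_lit 377) (nat_lit 141)))) (XT.nd (nat_lit 156) (nat_lit 304) (nat_lit 0) (XT.nd (nat_lit 78) (nat_lit 456) (nat_lit 0) (XT.lf (nat_lit 76) (nat_lit 1513397959315) (nat_lit 0) (nat_lit 308089073136) (nat_lit 532) (nat_lit 124251496616) (nat_lit 54) (nat_lit 5) (nat_lit 53) (nat_lit 5) (nat_lit 60) (nat_lit 5) (nat_lit 383) (nat_lit 377) (nat_lit 140)) (XT.lf (nat_lit 0) (nat_lit 20130140904) (nat_lit 532) (nat_lit 1462750525398) (nat_lit 76) (nat_lit 547078395611) (nat_lit 47) (nat_lit 5) (nat_lit 54) (nat_lit 5) (nat_lit 48) (nat_lit 5) (nat_lit 384) (nat_lit 377) (nat_lit 139))) (XT.nd (nat_lit 78) (nat_lit 304) (nat_lit 0) (XT.lf (nat_lit 0) (nat_lit 189479808327) (nat_lit 532) (nat_lit 460199062945) (nat_lit 76) (nat_lit 1469369756627) (nat_lit 47) (nat_lit 5) (nat_lit 54) (nat_lit 5) (nat_lit 48) (nat_lit 5) (nat_lit 385) (nat_lit 377) (nat_lit 138)) (XT.lf (nat_lit 0) (nat_lit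 394564559191) (nat_lit 380) (nat_lit 1565091434833) (nat_lit 76) (nat_lit 253834396341) (nat_lit 43) (nat_lit 5) (nat_lit 48) (nat_lit 5) (nat_lit 44) (nat_lit 5) (nat_lit 386) (nat_lit 377) (nat_lit 137)))))))
noncomputable def xc253 : XT := (XT.nd (nat_lit 46878) (nat_lit 0) (nat_lit 304) (XT.nd (nat_lit 46254) (nat_lit 0) (nat_lit 1216) (XT.nd (nat_lit 312) (nat_lit 456) (nat_lit 0) (XT.nd (nat_lit 156) (nat_lit 228) (nat_lit 0) (XT.nd (nat_lit 78) (nat_lit 228) (nat_lit 0) (XT.lf (nat_lit 0) (nat_lit 645840344663) (nat_lit 380) (nat_lit 459825737026) (nat_lit 76) (nat_lit 1207438671778) (nat_lit 43) (nat_lit 5) (nat_lit 48) (nat_lit 5) (nat_lit 44) (nat_lit 5) (nat_lit 387) (nat_lit 377) (nat_lit 136)) (XT.lf (nat_lit 0) (nat_lit 772505046158) (nat_lit 228) (nat_lit 163291910321) (nat_lit 304) (nat_lit 1483405008060) (nat_lit 40) (nat_lit 5) (nat_lit 43) (nat_lit 5) (nat_lit 44) (nat_lit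 5) (nat_lit 388) (nat_lit 377) (nat_lit 135))) (XT.nd (nat_lit 78) (nat_lit 228) (nat_lit 0) (XT.lf (nat_lit 0) (nat_lit 1282399180399) (nat_lit 304) (nat_lit 424084802933) (nat_lit 76) (nat_lit 824627042515) (nat_lit 40) (nat_lit 5) (nat_lit 44) (nat_lit 5) (nat_lit 41) (nat_lit 5) (nat_lit 389) (nat_lit 377) (nat_lit 134)) (XT.lf (nat_lit 0) (nat_lit 939071070147) (nat_lit 228) (nat_lit 744484540963) (nat_lit 304) (nat_lit 966271118641) (nat_lit 37) (nat_lit 5) (nat_lit 40) (nat_lit 5) (nat_lit 41) (nat_lit 5) (nat_lit 390) (nat_lit 377) (nat_lit 133)))) (XT.nd (nat_lit 234) (nat_lit 228) (nat_lit 0) (XT.nd (nat_lit 156) (nat_lit 228) (nat_lit 0) (XT.lf (nat_lit 0) (nat_lit 2135783087320) (nat_lit 304) (nat_lit 349097883697) (nat_lit 76) (nat_lit 291640436470) (nat_lit 37) (nat_lit 5) (nat_lit 41) (nat_lit 5) (nat_lit 38) (nat_lit 5) (nat_lit 391) (nat_lit 377) (nat_lit 132)) (XT.lf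 (nat_lit 0) (nat_lit 196613553000) (nat_lit 228) (nat_lit 247401338716) (nat_lit 76) (nat_lit 2608090915477) (nat_lit 34) (nat_lit 5) (nat_lit 37) (nat_lit 5) (nat_lit 35) (nat_lit 5) (nat_lit 393) (nat_lit 377) (nat_lit 130))) (XT.nd (nat_lit 45630) (nat_lit 0) (nat_lit 1520) (XT.lf (nat_lit 0) (nat_lit 706034387978) (nat_lit 304) (nat_lit 1780262155897) (nat_lit 76) (nat_lit 715030518896) (nat_lit 31) (nat_lit 5) (nat_lit 35) (nat_lit 5) (nat_lit 32) (nat_lit 5) (nat_lit 394) (nat_lit 377) (nat_lit 129)) (XT.lf (nat_lit 0) (nat_lit 602963440616) (nat_lit 532) (nat_lit 110983396551) (nat_lit 532) (nat_lit 110983396551) (nat_lit 51) (nat_lit 3) (nat_lit 58) (nat_lit 3) (nat_lit 58) (nat_lit 5) (nat_lit 378) (nat_lit 378) (nat_lit 144))))) (XT.nd (nat_lit 312) (nat_lit 304) (nat_lit 0) (XT.nd (nat_lit 156) (nat_lit 0) (nat_lit 76) (XT.nd (nat_lit 78) (nat_lit 0) (nat_lit 76) (XT.lf (nat_lit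 76) (nat_lit 580559333484) (nat_lit 0) (nat_lit 687567111116) (nat_lit 532) (nat_lit 446611442440) (nat_lit 52) (nat_lit 5) (nat_lit 51) (nat_lit 3) (nat_lit 58) (nat_lit 5) (nat_lit 379) (nat_lit 378) (nat_lit 143)) (XT.lf (nat_lit 0) (nat_lit 1344221827584) (nat_lit 456) (nat_lit 327259877331) (nat_lit 532) (nat_lit 112610206933) (nat_lit 52) (nat_lit 5) (nat_lit 58) (nat_lit 5) (nat_lit 59) (nat_lit 5) (nat_lit 380) (nat_lit 378) (nat_lit 142))) (XT.nd (nat_lit 78) (nat_lit 0) (nat_lit 0) (XT.lf (nat_lit 76) (nat_lit 554070243186) (nat_lit 0) (nat_lit 903518884636) (nat_lit 532) (nat_lit 398910387896) (nat_lit 53) (nat_lit 5) (nat_lit 52) (nat_lit 5) (nat_lit 59) (nat_lit 5) (nat_lit 381) (nat_lit 378) (nat_lit 141)) (XT.lf (nat_lit 76) (nat_lit 1524518331217) (nat_lit 0) (nat_lit 64455343922) (nat_lit 532) (nat_lit 345010223717) (nat_lit 53) (nat_lit 5) (nat_lit 52) (nat_lit 5) (nat_lit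 59) (nat_lit 5) (nat_lit 382) (nat_lit 378) (nat_lit 140)))) (XT.nd (nat_lit 156) (nat_lit 456) (nat_lit 0) (XT.nd (nat_lit 78) (nat_lit 0) (nat_lit 0) (XT.lf (nat_lit 76) (nat_lit 562847434861) (nat_lit 0) (nat_lit 1201801749571) (nat_lit 532) (nat_lit 250315432362) (nat_lit 54) (nat_lit 5) (nat_lit 53) (nat_lit 5) (nat_lit 60) (nat_lit 5) (nat_lit 383) (nat_lit 378) (nat_lit 139)) (XT.lf (nat_lit 76) (nat_lit 1634469822527) (nat_lit 0) (nat_lit 332736205371) (nat_lit 532) (nat_lit 134191580798) (nat_lit 54) (nat_lit 5) (nat_lit 53) (nat_lit 5) (nat_lit 60) (nat_lit 5) (nat_lit 384) (nat_lit 378) (nat_lit 138))) (XT.nd (nat_lit 78) (nat_lit 0) (nat_lit 0) (XT.lf (nat_lit 0) (nat_lit 21740584004) (nat_lit 532) (nat_lit 1579770537120) (nat_lit 76) (nat_lit 590844663137) (nat_lit 47) (nat_lit 5) (nat_lit 54) (nat_lit 5) (nat_lit 48) (nat_lit 5) (nat_lit 385) (nat_lit 378) (nat_lit 137))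 (XT.lf (nat_lit 0) (nat_lit 204638222463) (nat_lit 532) (nat_lit 497014959917) (nat_lit 76) (nat_lit 1586919333340) (nat_lit 47) (nat_lit 5) (nat_lit 54) (nat_lit 5) (nat_lit 48) (nat_lit 5) (nat_lit 386) (nat_lit 378) (nat_lit 136)))))) (XT.nd (nat_lit 46410) (nat_lit 0) (nat_lit 608) (XT.nd (nat_lit 312) (nat_lit 380) (nat_lit 0) (XT.nd (nat_lit 156) (nat_lit 228) (nat_lit 0) (XT.nd (nat_lit 78) (nat_lit 0) (nat_lit 0) (XT.lf (nat_lit 0) (nat_lit 426129751857) (nat_lit 380) (nat_lit 1690298719966) (nat_lit 76) (nat_lit 274141147487) (nat_lit 43) (nat_lit 5) (nat_lit 48) (nat_lit 5) (nat_lit 44) (nat_lit 5) (nat_lit 387) (nat_lit 378) (nat_lit 135)) (XT.lf (nat_lit 0) (nat_lit 697507598097) (nat_lit 380) (nat_lit 496611768531) (nat_lit 76) (nat_lit 1304033765001) (nat_lit 43) (nat_lit 5) (nat_lit 48) (nat_lit 5) (nat_lit 44) (nat_lit 5) (nat_lit 388) (nat_lit 378) (nat_lit 134))) (XT.nd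 (nat_lit 78) (nat_lit 0) (nat_lit 0) (XT.lf (nat_lit 0) (nat_lit 834305476613) (nat_lit 228) (nat_lit 176355260974) (nat_lit 304) (nat_lit 1602077382106) (nat_lit 40) (nat_lit 5) (nat_lit 43) (nat_lit 5) (nat_lit 44) (nat_lit 5) (nat_lit 389) (nat_lit 378) (nat_lit 133)) (XT.lf (nat_lit 0) (nat_lit 1384991137647) (nat_lit 304) (nat_lit 458011560575) (nat_lit 76) (nat_lit 890597207827) (nat_lit 40) (nat_lit 5) (nat_lit 44) (nat_lit 5) (nat_lit 41) (nat_lit 5) (nat_lit 390) (nat_lit 378) (nat_lit 132)))) (XT.nd (nat_lit 45942) (nat_lit 0) (nat_lit 1216) (XT.nd (nat_lit 156) (nat_lit 152) (nat_lit 0) (XT.lf (nat_lit 0) (nat_lit 1014196781679) (nat_lit 228) (nat_lit 804043300070) (nat_lit 304) (nat_lit 1043572784606) (nat_lit 37) (nat_lit 5) (nat_lit 40) (nat_lit 5) (nat_lit 41) (nat_lit 5) (nat_lit 391) (nat_lit 378) (nat_lit 131)) (XT.lf (nat_lit 0) (nat_lit 1253008242912) (nat_lit 152)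 (nat_lit 1632134757212) (nat_lit 228) (nat_lit 257195261038) (nat_lit 35) (nat_lit 5) (nat_lit 37) (nat_lit 5) (nat_lit 38) (nat_lit 5) (nat_lit 393) (nat_lit 378) (nat_lit 129))) (XT.nd (nat_lit 78) (nat_lit 0) (nat_lit 0) (XT.lf (nat_lit 0) (nat_lit 651200537517) (nat_lit 532) (nat_lit 119862056560) (nat_lit 532) (nat_lit 119862056560) (nat_lit 51) (nat_lit 3) (nat_lit 58) (nat_lit 3) (nat_lit 58) (nat_lit 5) (nat_lit 379) (nat_lit 379) (nat_lit 142)) (XT.lf (nat_lit 76) (nat_lit 627004103000) (nat_lit 0) (nat_lit 742572497813) (nat_lit 532) (nat_lit 482340313851) (nat_lit 52) (nat_lit 5) (nat_lit 51) (nat_lit 3) (nat_lit 58) (nat_lit 5) (nat_lit 380) (nat_lit 379) (nat_lit 141))))) (XT.nd (nat_lit 312) (nat_lit 684) (nat_lit 0) (XT.nd (nat_lit 156) (nat_lit 0) (nat_lit 0) (XT.nd (nat_lit 78) (nat_lit 0) (nat_lit 0) (XT.lf (nat_lit 0) (nat_lit 1451759611028) (nat_lit 456) (nat_lit 353440642885)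 (nat_lit 532) (nat_lit 121619007824) (nat_lit 52) (nat_lit 5) (nat_lit 58) (nat_lit 5) (nat_lit 59) (nat_lit 5) (nat_lit 381) (nat_lit 379) (nat_lit 140)) (XT.lf (nat_lit 76) (nat_lit 598395886650) (nat_lit 0) (nat_lit 975800406454) (nat_lit 532) (nat_lit 430823180992) (nat_lit 53) (nat_lit 5) (nat_lit 52) (nat_lit 5) (nat_lit 59) (nat_lit 5) (nat_lit 382) (nat_lit 379) (nat_lit 139))) (XT.nd (nat_lit 78) (nat_lit 0) (nat_lit 76) (XT.lf (nat_lit 76) (nat_lit 1646479819945) (nat_lit 0) (nat_lit 69611781665) (nat_lit 532) (nat_lit 372611006489) (nat_lit 53) (nat_lit 5) (nat_lit 52) (nat_lit 5) (nat_lit 59) (nat_lit 5) (nat_lit 383) (nat_lit 379) (nat_lit 138)) (XT.lf (nat_lit 76) (nat_lit 607875254156) (nat_lit 0) (nat_lit 1297945895448) (nat_lit 532) (nat_lit 270340634036) (nat_lit 54) (nat_lit 5) (nat_lit 53) (nat_lit 5) (nat_lit 60) (nat_lit 5) (nat_lit 384) (nat_lit 379) (nat_lit 137))))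 (XT.nd (nat_lit 156) (nat_lit 304) (nat_lit 0) (XT.nd (nat_lit 78) (nat_lit 456) (nat_lit 0) (XT.lf (nat_lit 76) (nat_lit 1765227431020) (nat_lit 0) (nat_lit 359355107274) (nat_lit 532) (nat_lit 144926876785) (nat_lit 54) (nat_lit 5) (nat_lit 53) (nat_lit 5) (nat_lit 60) (nat_lit 5) (nat_lit 385) (nat_lit 379) (nat_lit 136)) (XT.lf (nat_lit 0) (nat_lit 23479858010) (nat_lit 532) (nat_lit 1706152154105) (nat_lit 76) (nat_lit 638112232654) (nat_lit 47) (nat_lit 5) (nat_lit 54) (nat_lit 5) (nat_lit 48) (nat_lit 5) (nat_lit 386) (nat_lit 379) (nat_lit 135))) (XT.nd (nat_lit 78) (nat_lit 304) (nat_lit 0) (XT.lf (nat_lit 0) (nat_lit 221009305525) (nat_lit 532) (nat_lit 536776132649) (nat_lit 76) (nat_lit 1713872876735) (nat_lit 47) (nat_lit 5) (nat_lit 54) (nat_lit 5) (nat_lit 48) (nat_lit 5) (nat_lit 387) (nat_lit 379) (nat_lit 134)) (XT.nd (nat_lit 78) (nat_lit 0) (nat_lit 0) (XT.lf (nat_lit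 0) (nat_lit 460220155951) (nat_lit 380) (nat_lit 1825522592139) (nat_lit 76) (nat_lit 296072438805) (nat_lit 43) (nat_lit 5) (nat_lit 48) (nat_lit 5) (nat_lit 44) (nat_lit 5) (nat_lit 388) (nat_lit 379) (nat_lit 133)) (XT.lf (nat_lit 0) (nat_lit 753308228117) (nat_lit 380) (nat_lit 536340686473) (nat_lit 76) (nat_lit 1408356465756) (nat_lit 43) (nat_lit 5) (nat_lit 48) (nat_lit 5) (nat_lit 44) (nat_lit 5) (nat_lit 389) (nat_lit 379) (nat_lit 132))))))))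
noncomputable def xc254 : XT := (XT.nd (nat_lit 47112) (nat_lit 0) (nat_lit 0) (XT.nd (nat_lit 46410) (nat_lit 0) (nat_lit 228) (XT.nd (nat_lit 46098) (nat_lit 0) (nat_lit 1064) (XT.nd (nat_lit 156) (nat_lit 228) (nat_lit 0) (XT.nd (nat_lit 78) (nat_lit 0) (nat_lit 0) (XT.lf (nat_lit 0) (nat_lit 901049937686) (nat_lit 228) (nat_lit 190463679989) (nat_lit 304) (nat_lit 1730243549869) (nat_lit 40) (nat_lit 5) (nat_lit 43) (nat_lit 5) (nat_lit 44) (nat_lit 5) (nat_lit 390) (nat_lit 379) (nat_lit 131)) (XT.lf (nat_lit 0) (nat_lit 1495790448220) (nat_lit 304) (nat_lit 494652462622) (nat_lit 76) (nat_lit 961844986092) (nat_lit 40) (nat_lit 5) (nat_lit 44) (nat_lit 5) (nat_lit 41) (nat_lit 5) (nat_lit 391) (nat_lit 379) (nat_lit 130))) (XT.nd (nat_lit 78) (nat_lit 0) (nat_lit 0) (XT.lf (nat_lit 0) (nat_lit 1095332546435) (nat_lit 228) (nat_lit 868366760500) (nat_lit 304) (nat_lit 1127058587204)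 (nat_lit 37) (nat_lit 5) (nat_lit 40) (nat_lit 5) (nat_lit 41) (nat_lit 5) (nat_lit 392) (nat_lit 379) (nat_lit 129)) (XT.lf (nat_lit 0) (nat_lit 2491177432245) (nat_lit 304) (nat_lit 407187722041) (nat_lit 76) (nat_lit 340169412205) (nat_lit 37) (nat_lit 5) (nat_lit 41) (nat_lit 5) (nat_lit 38) (nat_lit 5) (nat_lit 393) (nat_lit 379) (nat_lit 128)))) (XT.nd (nat_lit 156) (nat_lit 0) (nat_lit 76) (XT.nd (nat_lit 78) (nat_lit 0) (nat_lit 0) (XT.lf (nat_lit 0) (nat_lit 703296599081) (nat_lit 532) (nat_lit 129451011041) (nat_lit 532) (nat_lit 129451011041) (nat_lit 51) (nat_lit 3) (nat_lit 58) (nat_lit 3) (nat_lit 58) (nat_lit 5) (nat_lit 380) (nat_lit 380) (nat_lit 140)) (XT.lf (nat_lit 76) (nat_lit 677164450819) (nat_lit 0) (nat_lit 801978312905) (nat_lit 532) (nat_lit 520927501251) (nat_lit 52) (nat_lit 5) (nat_lit 51) (nat_lit 3) (nat_lit 58) (nat_lit 5) (nat_lit 381) (nat_lit 380) (nat_lit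 139))) (XT.nd (nat_lit 78) (nat_lit 0) (nat_lit 0) (XT.lf (nat_lit 0) (nat_lit 1567900411836) (nat_lit 456) (nat_lit 381715873196) (nat_lit 532) (nat_lit 131348515021) (nat_lit 52) (nat_lit 5) (nat_lit 58) (nat_lit 5) (nat_lit 59) (nat_lit 5) (nat_lit 382) (nat_lit 380) (nat_lit 138)) (XT.lf (nat_lit 76) (nat_lit 646267578166) (nat_lit 0) (nat_lit 1053864448442) (nat_lit 532) (nat_lit 465289002948) (nat_lit 53) (nat_lit 5) (nat_lit 52) (nat_lit 5) (nat_lit 59) (nat_lit 5) (nat_lit 383) (nat_lit 380) (nat_lit 137))))) (XT.nd (nat_lit 312) (nat_lit 532) (nat_lit 0) (XT.nd (nat_lit 156) (nat_lit 380) (nat_lit 0) (XT.nd (nat_lit 78) (nat_lit 0) (nat_lit 76) (XT.lf (nat_lit 76) (nat_lit 1778198224600) (nat_lit 0) (nat_lit 75180732968) (nat_lit 532) (nat_lit 402419856893) (nat_lit 53) (nat_lit 5) (nat_lit 52) (nat_lit 5) (nat_lit 59) (nat_lit 5) (nat_lit 384) (nat_lit 380) (nat_lit 136)) (XT.lf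 (nat_lit 76) (nat_lit 656505295498) (nat_lit 0) (nat_lit 1401781572152) (nat_lit 532) (nat_lit 291967856540) (nat_lit 54) (nat_lit 5) (nat_lit 53) (nat_lit 5) (nat_lit 60) (nat_lit 5) (nat_lit 385) (nat_lit 380) (nat_lit 135))) (XT.nd (nat_lit 78) (nat_lit 456) (nat_lit 0) (XT.lf (nat_lit 76) (nat_lit 1906445644955) (nat_lit 0) (nat_lit 388103520548) (nat_lit 532) (nat_lit 156521000800) (nat_lit 54) (nat_lit 5) (nat_lit 53) (nat_lit 5) (nat_lit 60) (nat_lit 5) (nat_lit 386) (nat_lit 380) (nat_lit 134)) (XT.lf (nat_lit 0) (nat_lit 25358270045) (nat_lit 532) (nat_lit 1842644304155) (nat_lit 76) (nat_lit 689161208236) (nat_lit 47) (nat_lit 5) (nat_lit 54) (nat_lit 5) (nat_lit 48) (nat_lit 5) (nat_lit 387) (nat_lit 380) (nat_lit 133)))) (XT.nd (nat_lit 156) (nat_lit 228) (nat_lit 0) (XT.nd (nat_lit 78) (nat_lit 304) (nat_lit 0) (XT.lf (nat_lit 0) (nat_lit 238690071628) (nat_lit 532) (nat_lit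 579718202633) (nat_lit 76) (nat_lit 1850982704068) (nat_lit 47) (nat_lit 5) (nat_lit 54) (nat_lit 5) (nat_lit 48) (nat_lit 5) (nat_lit 388) (nat_lit 380) (nat_lit 132)) (XT.lf (nat_lit 0) (nat_lit 497037788957) (nat_lit 380) (nat_lit 1971564377714) (nat_lit 76) (nat_lit 319758233497) (nat_lit 43) (nat_lit 5) (nat_lit 48) (nat_lit 5) (nat_lit 44) (nat_lit 5) (nat_lit 389) (nat_lit 380) (nat_lit 131))) (XT.nd (nat_lit 156) (nat_lit 228) (nat_lit 0) (XT.lf (nat_lit 0) (nat_lit 813572905375) (nat_lit 380) (nat_lit 579247921208) (nat_lit 76) (nat_lit 1521024982635) (nat_lit 43) (nat_lit 5) (nat_lit 48) (nat_lit 5) (nat_lit 44) (nat_lit 5) (nat_lit 390) (nat_lit 380) (nat_lit 130)) (XT.lf (nat_lit 0) (nat_lit 1615453700848) (nat_lit 304) (nat_lit 534224640085) (nat_lit 76) (nat_lit 1038792586385) (nat_lit 40) (nat_lit 5) (nat_lit 44) (nat_lit 5) (nat_lit 41) (nat_lit 5) (nat_lit 392) (nat_lit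 380) (nat_lit 128)))))) (XT.nd (nat_lit 46488) (nat_lit 0) (nat_lit 228) (XT.nd (nat_lit 46176) (nat_lit 0) (nat_lit 1140) (XT.nd (nat_lit 46020) (nat_lit 0) (nat_lit 1064) (XT.nd (nat_lit 45942) (nat_lit 0) (nat_lit 1064) (XT.lf (nat_lit 0) (nat_lit 1182959169202) (nat_lit 228) (nat_lit 937836098275) (nat_lit 304) (nat_lit 1217223256887) (nat_lit 37) (nat_lit 5) (nat_lit 40) (nat_lit 5) (nat_lit 41) (nat_lit 5) (nat_lit 393) (nat_lit 380) (nat_lit 127)) (XT.lf (nat_lit 0) (nat_lit 759560342923) (nat_lit 532) (nat_lit 139807083313) (nat_lit 532) (nat_lit 139807083313) (nat_lit 51) (nat_lit 3) (nat_lit 58) (nat_lit 3) (nat_lit 58) (nat_lit 5) (nat_lit 381) (nat_lit 381) (nat_lit 138))) (XT.nd (nat_lit 78) (nat_lit 0) (nat_lit 76) (XT.lf (nat_lit 76) (nat_lit 731337623671) (nat_lit 0) (nat_lit 866136591027) (nat_lit 532) (nat_lit 562601669022) (nat_lit 52) (nat_lit 5) (nat_lit 51) (nat_lit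 3) (nat_lit 58) (nat_lit 5) (nat_lit 382) (nat_lit 381) (nat_lit 137)) (XT.lf (nat_lit 0) (nat_lit 1693332472154) (nat_lit 456) (nat_lit 412253124946) (nat_lit 532) (nat_lit 141856384709) (nat_lit 52) (nat_lit 5) (nat_lit 58) (nat_lit 5) (nat_lit 59) (nat_lit 5) (nat_lit 383) (nat_lit 381) (nat_lit 136)))) (XT.nd (nat_lit 156) (nat_lit 0) (nat_lit 76) (XT.nd (nat_lit 78) (nat_lit 0) (nat_lit 0) (XT.lf (nat_lit 76) (nat_lit 697969002068) (nat_lit 0) (nat_lit 1138173612438) (nat_lit 532) (nat_lit 502512095300) (nat_lit 53) (nat_lit 5) (nat_lit 52) (nat_lit 5) (nat_lit 59) (nat_lit 5) (nat_lit 384) (nat_lit 381) (nat_lit 135)) (XT.lf (nat_lit 76) (nat_lit 1920454098909) (nat_lit 0) (nat_lit 81195199124) (nat_lit 532) (nat_lit 434613419626) (nat_lit 53) (nat_lit 5) (nat_lit 52) (nat_lit 5) (nat_lit 59) (nat_lit 5) (nat_lit 385) (nat_lit 381) (nat_lit 134))) (XT.nd (nat_lit 78) (nat_lit 0)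 (nat_lit 0) (XT.lf (nat_lit 76) (nat_lit 709025737151) (nat_lit 0) (nat_lit 1513924102269) (nat_lit 532) (nat_lit 315325260871) (nat_lit 54) (nat_lit 5) (nat_lit 53) (nat_lit 5) (nat_lit 60) (nat_lit 5) (nat_lit 386) (nat_lit 381) (nat_lit 133)) (XT.lf (nat_lit 76) (nat_lit 2058961313230) (nat_lit 0) (nat_lit 419151806215) (nat_lit 532) (nat_lit 169042658463) (nat_lit 54) (nat_lit 5) (nat_lit 53) (nat_lit 5) (nat_lit 60) (nat_lit 5) (nat_lit 387) (nat_lit 381) (nat_lit 132))))) (XT.nd (nat_lit 46410) (nat_lit 0) (nat_lit 836) (XT.nd (nat_lit 156) (nat_lit 532) (nat_lit 0) (XT.nd (nat_lit 78) (nat_lit 0) (nat_lit 0) (XT.lf (nat_lit 0) (nat_lit 27386951705) (nat_lit 532) (nat_lit 1990055829387) (nat_lit 76) (nat_lit 744294102297) (nat_lit 47) (nat_lit 5) (nat_lit 54) (nat_lit 5) (nat_lit 48) (nat_lit 5) (nat_lit 388) (nat_lit 381) (nat_lit 131)) (XT.lf (nat_lit 0) (nat_lit 257785295929)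 (nat_lit 532) (nat_lit 626095641159) (nat_lit 76) (nat_lit 1999061317988) (nat_lit 47) (nat_lit 5) (nat_lit 54) (nat_lit 5) (nat_lit 48) (nat_lit 5) (nat_lit 389) (nat_lit 381) (nat_lit 130))) (XT.nd (nat_lit 156) (nat_lit 228) (nat_lit 0) (XT.lf (nat_lit 0) (nat_lit 536800829674) (nat_lit 380) (nat_lit 2129289509244) (nat_lit 76) (nat_lit 345338891823) (nat_lit 43) (nat_lit 5) (nat_lit 48) (nat_lit 5) (nat_lit 44) (nat_lit 5) (nat_lit 390) (nat_lit 381) (nat_lit 129)) (XT.lf (nat_lit 0) (nat_lit 1050984685427) (nat_lit 228) (nat_lit 222156833244) (nat_lit 304) (nat_lit 2018156038689) (nat_lit 40) (nat_lit 5) (nat_lit 43) (nat_lit 5) (nat_lit 44) (nat_lit 5) (nat_lit 392) (nat_lit 381) (nat_lit 127)))) (XT.nd (nat_lit 156) (nat_lit 0) (nat_lit 76) (XT.nd (nat_lit 78) (nat_lit 0) (nat_lit 0) (XT.lf (nat_lit 0) (nat_lit 820325184001) (nat_lit 532) (nat_lit 150991642596) (nat_lit 532) (nat_lit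 150991642596) (nat_lit 51) (nat_lit 3) (nat_lit 58) (nat_lit 3) (nat_lit 58) (nat_lit 5) (nat_lit 382) (nat_lit 382) (nat_lit 136)) (XT.lf (nat_lit 76) (nat_lit 789844647956) (nat_lit 0) (nat_lit 935427529531) (nat_lit 532) (nat_lit 607609774827) (nat_lit 52) (nat_lit 5) (nat_lit 51) (nat_lit 3) (nat_lit 58) (nat_lit 5) (nat_lit 383) (nat_lit 382) (nat_lit 135))) (XT.nd (nat_lit 78) (nat_lit 0) (nat_lit 0) (XT.lf (nat_lit 0) (nat_lit 1828799093393) (nat_lit 456) (nat_lit 445233359418) (nat_lit 532) (nat_lit 153204885615) (nat_lit 52) (nat_lit 5) (nat_lit 58) (nat_lit 5) (nat_lit 59) (nat_lit 5) (nat_lit 384) (nat_lit 382) (nat_lit 134)) (XT.nd (nat_lit 78) (nat_lit 0) (nat_lit 0) (XT.lf (nat_lit 76) (nat_lit 753806537363) (nat_lit 0) (nat_lit 1229227508394) (nat_lit 532) (nat_lit 542713039018) (nat_lit 53) (nat_lit 5) (nat_lit 52) (nat_lit 5) (nat_lit 59) (nat_lit 5) (nat_lit 385) (nat_lit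 382) (nat_lit 133)) (XT.lf (nat_lit 76) (nat_lit 2074090440831) (nat_lit 0) (nat_lit 87690821500) (nat_lit 532) (nat_lit 469382471061) (nat_lit 53) (nat_lit 5) (nat_lit 52) (nat_lit 5) (nat_lit 59) (nat_lit 5) (nat_lit 386) (nat_lit 382) (nat_lit 132))))))))
noncomputable def xc255 : XT := (XT.nd (nat_lit 93756) (nat_lit 0) (nat_lit 304) (XT.nd (nat_lit 46800) (nat_lit 0) (nat_lit 304) (XT.nd (nat_lit 390) (nat_lit 0) (nat_lit 0) (XT.nd (nat_lit 156) (nat_lit 760) (nat_lit 0) (XT.nd (nat_lit 78) (nat_lit 0) (nat_lit 0) (XT.lf (nat_lit 76) (nat_lit 765747811566) (nat_lit 0) (nat_lit 1635038034176) (nat_lit 532) (nat_lit 340551260999) (nat_lit 54) (nat_lit 5) (nat_lit 53) (nat_lit 5) (nat_lit 60) (nat_lit 5) (nat_lit 387) (nat_lit 382) (nat_lit 131)) (XT.lf (nat_lit 76) (nat_lit 2223678232588) (nat_lit 0) (nat_lit 452683954162) (nat_lit 532) (nat_lit 182566051935) (nat_lit 54) (nat_lit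 5) (nat_lit 53) (nat_lit 5) (nat_lit 60) (nat_lit 5) (nat_lit 388) (nat_lit 382) (nat_lit 130))) (XT.nd (nat_lit 156) (nat_lit 304) (nat_lit 0) (XT.lf (nat_lit 0) (nat_lit 29577925037) (nat_lit 532) (nat_lit 2149260279363) (nat_lit 76) (nat_lit 803837628253) (nat_lit 47) (nat_lit 5) (nat_lit 54) (nat_lit 5) (nat_lit 48) (nat_lit 5) (nat_lit 389) (nat_lit 382) (nat_lit 129)) (XT.lf (nat_lit 0) (nat_lit 579744911138) (nat_lit 380) (nat_lit 2299632653962) (nat_lit 76) (nat_lit 372966002866) (nat_lit 43) (nat_lit 5) (nat_lit 48) (nat_lit 5) (nat_lit 44) (nat_lit 5) (nat_lit 391) (nat_lit 382) (nat_lit 127)))) (XT.nd (nat_lit 46254) (nat_lit 0) (nat_lit 608) (XT.nd (nat_lit 46176) (nat_lit 0) (nat_lit 608) (XT.lf (nat_lit 0) (nat_lit 948951468402) (nat_lit 380) (nat_lit 675634741776) (nat_lit 76) (nat_lit 1774123539111) (nat_lit 43) (nat_lit 5) (nat_lit 48) (nat_lit 5) (nat_lit 44) (nat_lit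 5) (nat_lit 392) (nat_lit 382) (nat_lit 126)) (XT.lf (nat_lit 0) (nat_lit 885951210419) (nat_lit 532) (nat_lit 163070967674) (nat_lit 532) (nat_lit 163070967674) (nat_lit 51) (nat_lit 3) (nat_lit 58) (nat_lit 3) (nat_lit 58) (nat_lit 5) (nat_lit 383) (nat_lit 383) (nat_lit 134))) (XT.nd (nat_lit 78) (nat_lit 0) (nat_lit 76) (XT.lf (nat_lit 76) (nat_lit 853032232131) (nat_lit 0) (nat_lit 1010261741514) (nat_lit 532) (nat_lit 656218533050) (nat_lit 52) (nat_lit 5) (nat_lit 51) (nat_lit 3) (nat_lit 58) (nat_lit 5) (nat_lit 384) (nat_lit 383) (nat_lit 133)) (XT.lf (nat_lit 0) (nat_lit 1975103040983) (nat_lit 456) (nat_lit 480852014863) (nat_lit 532) (nat_lit 165461268002) (nat_lit 52) (nat_lit 5) (nat_lit 58) (nat_lit 5) (nat_lit 59) (nat_lit 5) (nat_lit 385) (nat_lit 383) (nat_lit 132))))) (XT.nd (nat_lit 390) (nat_lit 380) (nat_lit 0) (XT.nd (nat_lit 156) (nat_lit 0) (nat_lit 76) (XT.nd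 (nat_lit 78) (nat_lit 0) (nat_lit 0) (XT.lf (nat_lit 76) (nat_lit 814111073324) (nat_lit 0) (nat_lit 1327565715034) (nat_lit 532) (nat_lit 586130061644) (nat_lit 53) (nat_lit 5) (nat_lit 52) (nat_lit 5) (nat_lit 59) (nat_lit 5) (nat_lit 386) (nat_lit 383) (nat_lit 131)) (XT.lf (nat_lit 76) (nat_lit 2240017688108) (nat_lit 0) (nat_lit 94706092747) (nat_lit 532) (nat_lit 506933049769) (nat_lit 53) (nat_lit 5) (nat_lit 52) (nat_lit 5) (nat_lit 59) (nat_lit 5) (nat_lit 387) (nat_lit 383) (nat_lit 130))) (XT.nd (nat_lit 78) (nat_lit 0) (nat_lit 0) (XT.lf (nat_lit 76) (nat_lit 827007649731) (nat_lit 0) (nat_lit 1765841080103) (nat_lit 532) (nat_lit 367795344096) (nat_lit 54) (nat_lit 5) (nat_lit 53) (nat_lit 5) (nat_lit 60) (nat_lit 5) (nat_lit 388) (nat_lit 383) (nat_lit 129)) (XT.lf (nat_lit 76) (nat_lit 2401572503454) (nat_lit 0) (nat_lit 488898673452) (nat_lit 532) (nat_lit 197171319624)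 (nat_lit 54) (nat_lit 5) (nat_lit 53) (nat_lit 5) (nat_lit 60) (nat_lit 5) (nat_lit 389) (nat_lit 383) (nat_lit 128)))) (XT.nd (nat_lit 46410) (nat_lit 0) (nat_lit 304) (XT.nd (nat_lit 46332) (nat_lit 0) (nat_lit 304) (XT.lf (nat_lit 0) (nat_lit 300680800017) (nat_lit 532) (nat_lit 730277926473) (nat_lit 76) (nat_lit 2331705117306) (nat_lit 47) (nat_lit 5) (nat_lit 54) (nat_lit 5) (nat_lit 48) (nat_lit 5) (nat_lit 391) (nat_lit 383) (nat_lit 126)) (XT.lf (nat_lit 0) (nat_lit 956827317281) (nat_lit 532) (nat_lit 176116639661) (nat_lit 532) (nat_lit 176116639661) (nat_lit 51) (nat_lit 3) (nat_lit 58) (nat_lit 3) (nat_lit 58) (nat_lit 5) (nat_lit 384) (nat_lit 384) (nat_lit 132))) (XT.nd (nat_lit 78) (nat_lit 0) (nat_lit 76) (XT.lf (nat_lit 76) (nat_lit 921274821280) (nat_lit 0) (nat_lit 1091082689084) (nat_lit 532) (nat_lit 708715995321) (nat_lit 52) (nat_lit 5) (nat_lit 51) (nat_lit 3)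 (nat_lit 58) (nat_lit 5) (nat_lit 385) (nat_lit 384) (nat_lit 131)) (XT.lf (nat_lit 0) (nat_lit 2133111301510) (nat_lit 456) (nat_lit 519320164643) (nat_lit 532) (nat_lit 178698162187) (nat_lit 52) (nat_lit 5) (nat_lit 58) (nat_lit 5) (nat_lit 59) (nat_lit 5) (nat_lit 386) (nat_lit 384) (nat_lit 130)))))) (XT.nd (nat_lit 47034) (nat_lit 0) (nat_lit 304) (XT.nd (nat_lit 46722) (nat_lit 0) (nat_lit 304) (XT.nd (nat_lit 234) (nat_lit 380) (nat_lit 0) (XT.nd (nat_lit 78) (nat_lit 0) (nat_lit 0) (XT.lf (nat_lit 76) (nat_lit 879239970311) (nat_lit 0) (nat_lit 1433770977354) (nat_lit 532) (nat_lit 633020449004) (nat_lit 53) (nat_lit 5) (nat_lit 52) (nat_lit 5) (nat_lit 59) (nat_lit 5) (nat_lit 387) (nat_lit 384) (nat_lit 129)) (XT.lf (nat_lit 76) (nat_lit 2419219113454) (nat_lit 0) (nat_lit 102282584904) (nat_lit 532) (nat_lit 547487677480) (nat_lit 53) (nat_lit 5) (nat_lit 52) (nat_lit 5) (nat_lit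 59) (nat_lit 5) (nat_lit 388) (nat_lit 384) (nat_lit 128))) (XT.nd (nat_lit 78) (nat_lit 456) (nat_lit 0) (XT.lf (nat_lit 76) (nat_lit 2593698314241) (nat_lit 0) (nat_lit 528010569863) (nat_lit 532) (nat_lit 212945011078) (nat_lit 54) (nat_lit 5) (nat_lit 53) (nat_lit 5) (nat_lit 60) (nat_lit 5) (nat_lit 390) (nat_lit 384) (nat_lit 126)) (XT.lf (nat_lit 0) (nat_lit 34499720323) (nat_lit 532) (nat_lit 2506897162650) (nat_lit 76) (nat_lit 937596205895) (nat_lit 47) (nat_lit 5) (nat_lit 54) (nat_lit 5) (nat_lit 48) (nat_lit 5) (nat_lit 391) (nat_lit 384) (nat_lit 125)))) (XT.nd (nat_lit 156) (nat_lit 0) (nat_lit 76) (XT.nd (nat_lit 78) (nat_lit 0) (nat_lit 0) (XT.lf (nat_lit 0) (nat_lit 1033373511262) (nat_lit 532) (nat_lit 190205966182) (nat_lit 532) (nat_lit 190205966182) (nat_lit 51) (nat_lit 3) (nat_lit 58) (nat_lit 3) (nat_lit 58) (nat_lit 5) (nat_lit 385) (nat_lit 385) (nat_lit 130))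 (XT.lf (nat_lit 76) (nat_lit 994976816052) (nat_lit 0) (nat_lit 1178369311282) (nat_lit 532) (nat_lit 765413257481) (nat_lit 52) (nat_lit 5) (nat_lit 51) (nat_lit 3) (nat_lit 58) (nat_lit 5) (nat_lit 386) (nat_lit 385) (nat_lit 129))) (XT.nd (nat_lit 78) (nat_lit 0) (nat_lit 0) (XT.lf (nat_lit 0) (nat_lit 2303760220418) (nat_lit 456) (nat_lit 560865768032) (nat_lit 532) (nat_lit 192994008941) (nat_lit 52) (nat_lit 5) (nat_lit 58) (nat_lit 5) (nat_lit 59) (nat_lit 5) (nat_lit 387) (nat_lit 385) (nat_lit 128)) (XT.lf (nat_lit 76) (nat_lit 949579177470) (nat_lit 0) (nat_lit 1548472659930) (nat_lit 532) (nat_lit 683662069859) (nat_lit 53) (nat_lit 5) (nat_lit 52) (nat_lit 5) (nat_lit 59) (nat_lit 5) (nat_lit 388) (nat_lit 385) (nat_lit 127))))) (XT.nd (nat_lit 46800) (nat_lit 0) (nat_lit 0) (XT.nd (nat_lit 46644) (nat_lit 76) (nat_lit 0) (XT.nd (nat_lit 78) (nat_lit 0) (nat_lit 76) (XT.lf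 (nat_lit 76) (nat_lit 2612756651359) (nat_lit 0) (nat_lit 110465195759) (nat_lit 532) (nat_lit 591286677730) (nat_lit 53) (nat_lit 5) (nat_lit 52) (nat_lit 5) (nat_lit 59) (nat_lit 5) (nat_lit 389) (nat_lit 385) (nat_lit 126)) (XT.lf (nat_lit 76) (nat_lit 964621744637) (nat_lit 0) (nat_lit 2059677041137) (nat_lit 532) (nat_lit 428996459818) (nat_lit 54) (nat_lit 5) (nat_lit 53) (nat_lit 5) (nat_lit 60) (nat_lit 5) (nat_lit 390) (nat_lit 385) (nat_lit 125))) (XT.nd (nat_lit 78) (nat_lit 0) (nat_lit 0) (XT.lf (nat_lit 0) (nat_lit 1116043399535) (nat_lit 532) (nat_lit 205422439488) (nat_lit 532) (nat_lit 205422439488) (nat_lit 51) (nat_lit 3) (nat_lit 58) (nat_lit 3) (nat_lit 58) (nat_lit 5) (nat_lit 386) (nat_lit 386) (nat_lit 128)) (XT.lf (nat_lit 76) (nat_lit 1074574969111) (nat_lit 0) (nat_lit 1272638862248) (nat_lit 532) (nat_lit 826646303105) (nat_lit 52) (nat_lit 5) (nat_lit 51) (nat_lit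 3) (nat_lit 58) (nat_lit 5) (nat_lit 387) (nat_lit 386) (nat_lit 127)))) (XT.nd (nat_lit 46800) (nat_lit 76) (nat_lit 0) (XT.nd (nat_lit 78) (nat_lit 0) (nat_lit 0) (XT.lf (nat_lit 0) (nat_lit 2488061050730) (nat_lit 456) (nat_lit 605735021088) (nat_lit 532) (nat_lit 208433524324) (nat_lit 52) (nat_lit 5) (nat_lit 58) (nat_lit 5) (nat_lit 59) (nat_lit 5) (nat_lit 388) (nat_lit 386) (nat_lit 126)) (XT.lf (nat_lit 76) (nat_lit 1025545519842) (nat_lit 0) (nat_lit 1672350476485) (nat_lit 532) (nat_lit 738355022532) (nat_lit 53) (nat_lit 5) (nat_lit 52) (nat_lit 5) (nat_lit 59) (nat_lit 5) (nat_lit 389) (nat_lit 386) (nat_lit 125))) (XT.nd (nat_lit 78) (nat_lit 0) (nat_lit 0) (XT.lf (nat_lit 0) (nat_lit 1205326877818) (nat_lit 532) (nat_lit 221856231227) (nat_lit 532) (nat_lit 221856231227) (nat_lit 51) (nat_lit 3) (nat_lit 58) (nat_lit 3) (nat_lit 58) (nat_lit 5) (nat_lit 387) (nat_lit 387)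 (nat_lit 126)) (XT.nd (nat_lit 78) (nat_lit 0) (nat_lit 76) (XT.lf (nat_lit 76) (nat_lit 1160540973306) (nat_lit 0) (nat_lit 1374449976425) (nat_lit 532) (nat_lit 892777994515) (nat_lit 52) (nat_lit 5) (nat_lit 51) (nat_lit 3) (nat_lit 58) (nat_lit 5) (nat_lit 388) (nat_lit 387) (nat_lit 125)) (XT.lf (nat_lit 0) (nat_lit 2687105945658) (nat_lit 456) (nat_lit 654193815585) (nat_lit 532) (nat_lit 225108201697) (nat_lit 52) (nat_lit 5) (nat_lit 58) (nat_lit 5) (nat_lit 59) (nat_lit 5) (nat_lit 389) (nat_lit 387) (nat_lit 124))))))))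

set_option maxRecDepth 10000000 in
noncomputable def Tp : PT := (PT.nd (nat_lit 7183332) (PT.nd (nat_lit 6809088) (PT.nd (nat_lit 6434454) pc0 pc1) (PT.nd (nat_lit 233844) pc2 pc3)) (PT.nd (nat_lit 187668) (PT.nd (nat_lit 94146) pc4 pc5) (PT.nd (nat_lit 141804) pc6 pc7)))

set_option maxRecDepth 10000000 in
noncomputable def Tx : XT := (XT.nd (nat_lit 11470368) (nat_lit 0) (nat_lit 76) XT.nil (XT.nd (nat_lit 6701838) (nat_lit 0) (nat_lit 0) (XT.nd (nat_lit 3088020) (nat_lit 0) (nat_lit 0) (XT.nd (nat_lit 2108964) (nat_lit 0) (nat_lit 0) (XT.nd (nat_lit 1497054) (nat_lit 0) (nat_lit 0) (XT.nd (nat_lit 1030926) (nat_lit 0) (nat_lit 0) (XT.nd (nat_lit 747942) (nat_lit 0) (nat_lit 0) (XT.nd (nat_lit 514644) (nat_lit 0) (nat_lit 0) (XT.nd (nat_lit 373854) (nat_lit 0) (nat_lit 0) (XT.nd (nat_lit 234156) (nat_lit 0) (nat_lit 0) xc0 xc1) (XT.nd (nat_lit 47892) (nat_lit 0) (nat_lit 0) xc2 xc3))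 (XT.nd (nat_lit 94770) (nat_lit 0) (nat_lit 0) (XT.nd (nat_lit 47424) (nat_lit 0) (nat_lit 0) xc4 xc5) (XT.nd (nat_lit 91650) (nat_lit 0) (nat_lit 0) xc6 xc7))) (XT.nd (nat_lit 142194) (nat_lit 0) (nat_lit 0) (XT.nd (nat_lit 93210) (nat_lit 0) (nat_lit 0) (XT.nd (nat_lit 46644) (nat_lit 0) (nat_lit 0) xc8 xc9) (XT.nd (nat_lit 2574) (nat_lit 0) (nat_lit 0) xc10 xc11)) (XT.nd (nat_lit 92274) (nat_lit 0) (nat_lit 0) (XT.nd (nat_lit 46176) (nat_lit 0) (nat_lit 0) xc12 xc13) (XT.nd (nat_lit 45942) (nat_lit 0) (nat_lit 0) xc14 xc15)))) (XT.nd (nat_lit 277290) (nat_lit 0) (nat_lit 0) (XT.nd (nat_lit 139308) (nat_lit 0) (nat_lit 0) (XT.nd (nat_lit 91338) (nat_lit 0) (nat_lit 0) (XT.nd (nat_lit 45708) (nat_lit 0) (nat_lit 0) xc16 xc17) (XT.nd (nat_lit 2496) (nat_lit 0) (nat_lit 0) xc18 xc19)) (XT.nd (nat_lit 47814) (nat_lit 0) (nat_lit 0) (XT.nd (nat_lit 45240) (nat_lit 0) (nat_lit 0) xc20 xc21)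 (XT.nd (nat_lit 45162) (nat_lit 0) (nat_lit 0) xc22 xc23))) (XT.nd (nat_lit 94692) (nat_lit 0) (nat_lit 0) (XT.nd (nat_lit 47346) (nat_lit 0) (nat_lit 0) (XT.nd (nat_lit 2496) (nat_lit 0) (nat_lit 0) xc24 xc25) (XT.nd (nat_lit 2574) (nat_lit 0) (nat_lit 0) xc26 xc27)) (XT.nd (nat_lit 47112) (nat_lit 0) (nat_lit 0) (XT.nd (nat_lit 2496) (nat_lit 0) (nat_lit 0) xc28 xc29) (XT.nd (nat_lit 2574) (nat_lit 0) (nat_lit 0) xc30 xc31))))) (XT.nd (nat_lit 329628) (nat_lit 0) (nat_lit 0) (XT.nd (nat_lit 186342) (nat_lit 0) (nat_lit 0) (XT.nd (nat_lit 93444) (nat_lit 0) (nat_lit 0) (XT.nd (nat_lit 46800) (nat_lit 0) (nat_lit 0) (XT.nd (nat_lit 2496) (nat_lit 0) (nat_lit 0) xc32 xc33) (XT.nd (nat_lit 2496) (nat_lit 0) (nat_lit 0) xc34 xc35)) (XT.nd (nat_lit 46488) (nat_lit 0) (nat_lit 0) (XT.nd (nat_lit 2496) (nat_lit 0) (nat_lit 0) xc36 xc37) (XT.nd (nat_lit 2574) (nat_lit 0) (nat_lit 0) xc38 xc39)))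 (XT.nd (nat_lit 92274) (nat_lit 0) (nat_lit 0) (XT.nd (nat_lit 46176) (nat_lit 0) (nat_lit 0) (XT.nd (nat_lit 2496) (nat_lit 0) (nat_lit 0) xc40 xc41) (XT.nd (nat_lit 2574) (nat_lit 0) (nat_lit 0) xc42 xc43)) (XT.nd (nat_lit 5070) (nat_lit 0) (nat_lit 0) (XT.nd (nat_lit 2496) (nat_lit 0) (nat_lit 0) xc44 xc45) (XT.nd (nat_lit 43368) (nat_lit 0) (nat_lit 0) xc46 xc47)))) (XT.nd (nat_lit 141804) (nat_lit 0) (nat_lit 0) (XT.nd (nat_lit 91260) (nat_lit 0) (nat_lit 0) (XT.nd (nat_lit 45708) (nat_lit 0) (nat_lit 0) (XT.nd (nat_lit 43134) (nat_lit 0) (nat_lit 0) xc48 xc49) (XT.nd (nat_lit 2496) (nat_lit 0) (nat_lit 0) xc50 xc51)) (XT.nd (nat_lit 45396) (nat_lit 0) (nat_lit 0) (XT.nd (nat_lit 2496) (nat_lit 0) (nat_lit 0) xc52 xc53) (XT.nd (nat_lit 2574) (nat_lit 0) (nat_lit 0) xc54 xc55))) (XT.nd (nat_lit 90402) (nat_lit 0) (nat_lit 0) (XT.nd (nat_lit 45240) (nat_lit 0) (nat_lit 0) (XT.nd (nat_lit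 42666) (nat_lit 0) (nat_lit 0) xc56 xc57) (XT.nd (nat_lit 42588) (nat_lit 0) (nat_lit 0) xc58 xc59)) (XT.nd (nat_lit 44928) (nat_lit 0) (nat_lit 0) (XT.nd (nat_lit 2496) (nat_lit 0) (nat_lit 0) xc60 xc61) (XT.nd (nat_lit 2574) (nat_lit 0) (nat_lit 0) xc62 xc63)))))) (XT.nd (nat_lit 510432) (nat_lit 0) (nat_lit 0) (XT.nd (nat_lit 276978) (nat_lit 0) (nat_lit 0) (XT.nd (nat_lit 139074) (nat_lit 0) (nat_lit 0) (XT.nd (nat_lit 89388) (nat_lit 0) (nat_lit 0) (XT.nd (nat_lit 44772) (nat_lit 0) (nat_lit 0) (XT.nd (nat_lit 42198) (nat_lit 0) (nat_lit 0) xc64 xc65) (XT.nd (nat_lit 2496) (nat_lit 0) (nat_lit 0) xc66 xc67)) (XT.nd (nat_lit 44538) (nat_lit 0) (nat_lit 0) (XT.nd (nat_lit 2496) (nat_lit 0) (nat_lit 0) xc68 xc69) (XT.nd (nat_lit 2574) (nat_lit 228) (nat_lit 0) xc70 xc71))) (XT.nd (nat_lit 88686) (nat_lit 0) (nat_lit 0) (XT.nd (nat_lit 44382) (nat_lit 0) (nat_lit 0) (XT.nd (nat_lit 41808)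 (nat_lit 0) (nat_lit 228) xc72 xc73) (XT.nd (nat_lit 2574) (nat_lit 0) (nat_lit 0) xc74 xc75)) (XT.nd (nat_lit 5070) (nat_lit 0) (nat_lit 0) (XT.nd (nat_lit 2496) (nat_lit 304) (nat_lit 0) xc76 xc77) (XT.nd (nat_lit 41574) (nat_lit 0) (nat_lit 304) xc78 xc79)))) (XT.nd (nat_lit 97890) (nat_lit 0) (nat_lit 0) (XT.nd (nat_lit 48984) (nat_lit 0) (nat_lit 0) (XT.nd (nat_lit 43914) (nat_lit 0) (nat_lit 0) (XT.nd (nat_lit 2496) (nat_lit 0) (nat_lit 0) xc80 xc81) (XT.nd (nat_lit 2496) (nat_lit 532) (nat_lit 0) xc82 xc83)) (XT.nd (nat_lit 43758) (nat_lit 0) (nat_lit 0) (XT.nd (nat_lit 2496) (nat_lit 0) (nat_lit 0) xc84 xc85) (XT.nd (nat_lit 2574) (nat_lit 76) (nat_lit 0) xc86 xc87))) (XT.nd (nat_lit 87126) (nat_lit 0) (nat_lit 0) (XT.nd (nat_lit 43602) (nat_lit 0) (nat_lit 0) (XT.nd (nat_lit 41028) (nat_lit 0) (nat_lit 228) xc88 xc89) (XT.nd (nat_lit 2574) (nat_lit 0) (nat_lit 0) xc90 xc91))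 (XT.nd (nat_lit 5070) (nat_lit 0) (nat_lit 0) (XT.nd (nat_lit 2496) (nat_lit 456) (nat_lit 0) xc92 xc93) (XT.nd (nat_lit 40794) (nat_lit 0) (nat_lit 988) xc94 xc95))))) (XT.nd (nat_lit 233220) (nat_lit 0) (nat_lit 0) (XT.nd (nat_lit 97032) (nat_lit 0) (nat_lit 0) (XT.nd (nat_lit 48438) (nat_lit 0) (nat_lit 0) (XT.nd (nat_lit 5070) (nat_lit 0) (nat_lit 0) (XT.nd (nat_lit 2496) (nat_lit 76) (nat_lit 0) xc96 xc97) (XT.nd (nat_lit 40794) (nat_lit 0) (nat_lit 304) xc98 xc99)) (XT.nd (nat_lit 43446) (nat_lit 0) (nat_lit 0) (XT.nd (nat_lit 2496) (nat_lit 0) (nat_lit 0) xc100 xc101) (XT.nd (nat_lit 2574) (nat_lit 608) (nat_lit 0) xc102 xc103))) (XT.nd (nat_lit 48672) (nat_lit 0) (nat_lit 0) (XT.nd (nat_lit 43524) (nat_lit 0) (nat_lit 0) (XT.nd (nat_lit 40950) (nat_lit 0) (nat_lit 1064) xc104 xc105) (XT.nd (nat_lit 2574) (nat_lit 76) (nat_lit 0) xc106 xc107)) (XT.nd (nat_lit 43680) (nat_lit 0)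 (nat_lit 0) (XT.nd (nat_lit 41106) (nat_lit 0) (nat_lit 228) xc108 xc109) (XT.nd (nat_lit 2574) (nat_lit 0) (nat_lit 0) xc110 xc111)))) (XT.nd (nat_lit 97968) (nat_lit 0) (nat_lit 0) (XT.nd (nat_lit 48906) (nat_lit 0) (nat_lit 0) (XT.nd (nat_lit 5070) (nat_lit 0) (nat_lit 0) (XT.nd (nat_lit 2496) (nat_lit 456) (nat_lit 0) xc112 xc113) (XT.nd (nat_lit 41262) (nat_lit 0) (nat_lit 760) xc114 xc115)) (XT.nd (nat_lit 43914) (nat_lit 0) (nat_lit 76) (XT.nd (nat_lit 2496) (nat_lit 76) (nat_lit 0) xc116 xc117) (XT.nd (nat_lit 2574) (nat_lit 912) (nat_lit 0) xc118 xc119))) (XT.nd (nat_lit 49140) (nat_lit 0) (nat_lit 0) (XT.nd (nat_lit 43992) (nat_lit 0) (nat_lit 0) (XT.nd (nat_lit 2496) (nat_lit 0) (nat_lit 0) xc120 xc121) (XT.nd (nat_lit 2574) (nat_lit 76) (nat_lit 0) xc122 xc123)) (XT.nd (nat_lit 44070) (nat_lit 0) (nat_lit 0) (XT.nd (nat_lit 41496) (nat_lit 0) (nat_lit 228) xc124 xc125) (XT.nd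 (nat_lit 2574) (nat_lit 0) (nat_lit 0) xc126 xc127))))))) (XT.nd (nat_lit 1127412) (nat_lit 0) (nat_lit 76) (XT.nd (nat_lit 517218) (nat_lit 0) (nat_lit 0) (XT.nd (nat_lit 237510) (nat_lit 0) (nat_lit 0) (XT.nd (nat_lit 98748) (nat_lit 0) (nat_lit 0) (XT.nd (nat_lit 49296) (nat_lit 0) (nat_lit 0) (XT.nd (nat_lit 5070) (nat_lit 0) (nat_lit 0) (XT.nd (nat_lit 2496) (nat_lit 228) (nat_lit 0) xc128 xc129) (XT.nd (nat_lit 41652) (nat_lit 0) (nat_lit 304) xc130 xc131)) (XT.nd (nat_lit 44304) (nat_lit 0) (nat_lit 0) (XT.nd (nat_lit 2496) (nat_lit 0) (nat_lit 0) xc132 xc133) (XT.nd (nat_lit 2574) (nat_lit 304) (nat_lit 0) xc134 xc135))) (XT.nd (nat_lit 88998) (nat_lit 0) (nat_lit 0) (XT.nd (nat_lit 44382) (nat_lit 0) (nat_lit 0) (XT.nd (nat_lit 41808) (nat_lit 0) (nat_lit 304) xc136 xc137) (XT.nd (nat_lit 2574) (nat_lit 0) (nat_lit 0) xc138 xc139)) (XT.nd (nat_lit 5070) (nat_lit 0) (nat_lit 0)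 (XT.nd (nat_lit 2496) (nat_lit 304) (nat_lit 0) xc140 xc141) (XT.nd (nat_lit 42120) (nat_lit 0) (nat_lit 228) xc142 xc143)))) (XT.nd (nat_lit 139464) (nat_lit 0) (nat_lit 0) (XT.nd (nat_lit 89466) (nat_lit 0) (nat_lit 0) (XT.nd (nat_lit 44694) (nat_lit 0) (nat_lit 0) (XT.nd (nat_lit 2496) (nat_lit 0) (nat_lit 0) xc144 xc145) (XT.nd (nat_lit 2496) (nat_lit 152) (nat_lit 0) xc146 xc147)) (XT.nd (nat_lit 5070) (nat_lit 76) (nat_lit 0) (XT.nd (nat_lit 2496) (nat_lit 912) (nat_lit 0) xc148 xc149) (XT.nd (nat_lit 42354) (nat_lit 0) (nat_lit 684) xc150 xc151))) (XT.nd (nat_lit 50076) (nat_lit 0) (nat_lit 0) (XT.nd (nat_lit 44928) (nat_lit 0) (nat_lit 0) (XT.nd (nat_lit 2496) (nat_lit 0) (nat_lit 0) xc152 xc153) (XT.nd (nat_lit 2574) (nat_lit 456) (nat_lit 0) xc154 xc155)) (XT.nd (nat_lit 45006) (nat_lit 0) (nat_lit 0) (XT.nd (nat_lit 42432) (nat_lit 0) (nat_lit 228) xc156 xc157) (XT.nd (nat_lit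 42588) (nat_lit 0) (nat_lit 1064) xc158 xc159))))) (XT.nd (nat_lit 282906) (nat_lit 0) (nat_lit 0) (XT.nd (nat_lit 141024) (nat_lit 0) (nat_lit 0) (XT.nd (nat_lit 50232) (nat_lit 0) (nat_lit 0) (XT.nd (nat_lit 45162) (nat_lit 0) (nat_lit 0) (XT.nd (nat_lit 2496) (nat_lit 76) (nat_lit 0) xc160 xc161) (XT.nd (nat_lit 2496) (nat_lit 684) (nat_lit 0) xc162 xc163)) (XT.nd (nat_lit 45318) (nat_lit 0) (nat_lit 0) (XT.nd (nat_lit 42744) (nat_lit 0) (nat_lit 304) xc164 xc165) (XT.nd (nat_lit 42900) (nat_lit 0) (nat_lit 988) xc166 xc167))) (XT.nd (nat_lit 91104) (nat_lit 0) (nat_lit 0) (XT.nd (nat_lit 45474) (nat_lit 0) (nat_lit 0) (XT.nd (nat_lit 2496) (nat_lit 76) (nat_lit 0) xc168 xc169) (XT.nd (nat_lit 2574) (nat_lit 456) (nat_lit 0) xc170 xc171)) (XT.nd (nat_lit 5070) (nat_lit 76) (nat_lit 0) (XT.nd (nat_lit 2496) (nat_lit 1140) (nat_lit 0) xc172 xc173) (XT.nd (nat_lit 43134) (nat_lit 0) (nat_lit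 456) xc174 xc175)))) (XT.nd (nat_lit 142584) (nat_lit 0) (nat_lit 0) (XT.nd (nat_lit 91494) (nat_lit 0) (nat_lit 0) (XT.nd (nat_lit 45708) (nat_lit 0) (nat_lit 0) (XT.nd (nat_lit 43134) (nat_lit 0) (nat_lit 1064) xc176 xc177) (XT.nd (nat_lit 2496) (nat_lit 76) (nat_lit 0) xc178 xc179)) (XT.nd (nat_lit 45942) (nat_lit 0) (nat_lit 76) (XT.nd (nat_lit 2496) (nat_lit 456) (nat_lit 0) xc180 xc181) (XT.nd (nat_lit 2574) (nat_lit 760) (nat_lit 0) xc182 xc183))) (XT.nd (nat_lit 92196) (nat_lit 0) (nat_lit 0) (XT.nd (nat_lit 46020) (nat_lit 0) (nat_lit 0) (XT.nd (nat_lit 43446) (nat_lit 0) (nat_lit 228) xc184 xc185) (XT.nd (nat_lit 43602) (nat_lit 0) (nat_lit 456) xc186 xc187)) (XT.nd (nat_lit 46176) (nat_lit 0) (nat_lit 76) (XT.nd (nat_lit 43602) (nat_lit 0) (nat_lit 836) xc188 xc189) (XT.nd (nat_lit 2574) (nat_lit 0) (nat_lit 0) xc190 xc191)))))) (XT.nd (nat_lit 796302) (nat_lit 0) (nat_lit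 304) (XT.nd (nat_lit 373854) (nat_lit 0) (nat_lit 152) (XT.nd (nat_lit 186186) (nat_lit 0) (nat_lit 0) (XT.nd (nat_lit 92898) (nat_lit 0) (nat_lit 0) (XT.nd (nat_lit 46410) (nat_lit 0) (nat_lit 0) (XT.nd (nat_lit 2496) (nat_lit 76) (nat_lit 0) xc192 xc193) (XT.nd (nat_lit 2496) (nat_lit 228) (nat_lit 0) xc194 xc195)) (XT.nd (nat_lit 46566) (nat_lit 0) (nat_lit 0) (XT.nd (nat_lit 2496) (nat_lit 380) (nat_lit 0) xc196 xc197) (XT.nd (nat_lit 2574) (nat_lit 456) (nat_lit 0) xc198 xc199))) (XT.nd (nat_lit 93600) (nat_lit 0) (nat_lit 0) (XT.nd (nat_lit 46722) (nat_lit 0) (nat_lit 0) (XT.nd (nat_lit 2496) (nat_lit 608) (nat_lit 0) xc200 xc201) (XT.nd (nat_lit 2574) (nat_lit 684) (nat_lit 0) xc202 xc203)) (XT.nd (nat_lit 46956) (nat_lit 0) (nat_lit 76) (XT.nd (nat_lit 2496) (nat_lit 760) (nat_lit 0) xc204 xc205) (XT.nd (nat_lit 2574) (nat_lit 684) (nat_lit 0) xc206 xc207)))) (XT.nd (nat_lit 189072)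 (nat_lit 0) (nat_lit 0) (XT.nd (nat_lit 94302) (nat_lit 0) (nat_lit 0) (XT.nd (nat_lit 47112) (nat_lit 0) (nat_lit 0) (XT.nd (nat_lit 2496) (nat_lit 532) (nat_lit 0) xc208 xc209) (XT.nd (nat_lit 2496) (nat_lit 456) (nat_lit 0) xc210 xc211)) (XT.nd (nat_lit 47268) (nat_lit 0) (nat_lit 0) (XT.nd (nat_lit 2496) (nat_lit 304) (nat_lit 0) xc212 xc213) (XT.nd (nat_lit 2574) (nat_lit 228) (nat_lit 0) xc214 xc215))) (XT.nd (nat_lit 95160) (nat_lit 0) (nat_lit 76) (XT.nd (nat_lit 47502) (nat_lit 0) (nat_lit 76) (XT.nd (nat_lit 2496) (nat_lit 76) (nat_lit 0) xc216 xc217) (XT.nd (nat_lit 45084) (nat_lit 0) (nat_lit 456) xc218 xc219)) (XT.nd (nat_lit 47658) (nat_lit 0) (nat_lit 0) (XT.nd (nat_lit 45084) (nat_lit 0) (nat_lit 152) xc220 xc221) (XT.nd (nat_lit 45240) (nat_lit 0) (nat_lit 0) xc222 xc223))))) (XT.nd (nat_lit 517608) (nat_lit 0) (nat_lit 456) (XT.nd (nat_lit 235638) (nat_lit 0) (nat_lit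 152) (XT.nd (nat_lit 96018) (nat_lit 0) (nat_lit 76) (XT.nd (nat_lit 47970) (nat_lit 0) (nat_lit 76) (XT.nd (nat_lit 2496) (nat_lit 456) (nat_lit 0) xc224 xc225) (XT.nd (nat_lit 45474) (nat_lit 0) (nat_lit 608) xc226 xc227)) (XT.nd (nat_lit 91260) (nat_lit 0) (nat_lit 76) (XT.nd (nat_lit 45552) (nat_lit 0) (nat_lit 76) xc228 xc229) (XT.nd (nat_lit 2574) (nat_lit 684) (nat_lit 0) xc230 xc231))) (XT.nd (nat_lit 140556) (nat_lit 0) (nat_lit 152) (XT.nd (nat_lit 48438) (nat_lit 0) (nat_lit 76) (XT.nd (nat_lit 45864) (nat_lit 0) (nat_lit 456) xc232 xc233) (XT.nd (nat_lit 46020) (nat_lit 0) (nat_lit 76) xc234 xc235)) (XT.nd (nat_lit 48672) (nat_lit 0) (nat_lit 76) (XT.nd (nat_lit 46098) (nat_lit 0) (nat_lit 304) xc236 xc237) (XT.nd (nat_lit 46332) (nat_lit 0) (nat_lit 76) xc238 xc239)))) (XT.nd (nat_lit 374868) (nat_lit 0) (nat_lit 608) (XT.nd (nat_lit 186576) (nat_lit 0) (nat_lit 380) (XT.nd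 (nat_lit 93054) (nat_lit 0) (nat_lit 152) (XT.nd (nat_lit 46410) (nat_lit 0) (nat_lit 152) xc240 xc241) (XT.nd (nat_lit 46722) (nat_lit 0) (nat_lit 76) xc242 xc243)) (XT.nd (nat_lit 93912) (nat_lit 0) (nat_lit 0) (XT.nd (nat_lit 46878) (nat_lit 0) (nat_lit 0) xc244 xc245) (XT.nd (nat_lit 47112) (nat_lit 0) (nat_lit 76) xc246 xc247))) (XT.nd (nat_lit 235248) (nat_lit 0) (nat_lit 532) (XT.nd (nat_lit 94770) (nat_lit 0) (nat_lit 152) (XT.nd (nat_lit 47268) (nat_lit 0) (nat_lit 152) xc248 xc249) (XT.nd (nat_lit 92664) (nat_lit 0) (nat_lit 380) xc250 xc251)) (XT.nd (nat_lit 187356) (nat_lit 0) (nat_lit 760) (XT.nd (nat_lit 93366) (nat_lit 0) (nat_lit 304) xc252 xc253) (XT.nd (nat_lit 140400) (nat_lit 0) (nat_lit 456) xc254 xc255)))))))) XT.nil))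

set_option maxRecDepth 10000000 in
noncomputable def Te : XT := XT.nil

set_option maxRecDepth 10000000 in
noncomputable def Tz : ZL := (ZL.cons (nat_lit 76) (nat_lit 3) (nat_lit 118865571836556902079) (ZL.cons (nat_lit 152) (nat_lit 6) (nat_lit 229355388335299677578) (ZL.cons (nat_lit 228) (nat_lit 6) (nat_lit 221645250803227873292) (ZL.cons (nat_lit 304) (nat_lit 3) (nat_lit 110501548903352529814) (ZL.cons (nat_lit 380) (nat_lit 6) (nat_lit 213318302268590324664) (ZL.cons (nat_lit 456) (nat_lit 6) (nat_lit 206255462191840718698) (ZL.cons (nat_lit 532) (nat_lit 3) (nat_lit 102830438041974612283) (ZL.cons (nat_lit 608) (nat_lit 6) (nat_lit 198627594908951144256) (ZL.cons (nat_lit 684) (nat_lit 6) (nat_lit 192176780040336835856) (ZL.cons (nat_lit 760) (nat_lit 3) (nat_lit 95813118673922355828) (ZL.cons (nat_lit 836) (nat_lit 6) (nat_lit 185209899982233382782) (ZL.cons (nat_lit 912) (nat_lit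 6) (nat_lit 179340560072172794198) (ZL.cons (nat_lit 988) (nat_lit 3) (nat_lit 89415399159932635897) (ZL.cons (nat_lit 1064) (nat_lit 6) (nat_lit 173001672969307358530) (ZL.cons (nat_lit 1140) (nat_lit 6) (nat_lit 167687980965519299798) (ZL.cons (nat_lit 1216) (nat_lit 3) (nat_lit 83607989671506167304) (ZL.cons (nat_lit 1292) (nat_lit 6) (nat_lit 161949193601428196370) (ZL.cons (nat_lit 1368) (nat_lit 6) (nat_lit 157170105162382593364) (ZL.cons (nat_lit 1444) (nat_lit 3) (nat_lit 78366533311512146131) (ZL.cons (nat_lit 1520) (nat_lit 6) (nat_lit 152850393501792292390) (ZL.cons (nat_lit 1596) (nat_lit 6) (nat_lit 152008689648213342118) (ZL.cons (nat_lit 1672) (nat_lit 6) (nat_lit 147748066368996466234) (ZL.cons (nat_lit 1748) (nat_lit 3) (nat_lit 73671700527387908532) (ZL.cons (nat_lit 1824) (nat_lit 6) (nat_lit 143925948647422749786) (ZL.cons (nat_lit 1900) (nat_lit 6) (nat_lit 143146593227442240276)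 (ZL.cons (nat_lit 1976) (nat_lit 6) (nat_lit 140519686896993978162) (ZL.cons (nat_lit 2052) (nat_lit 6) (nat_lit 139393396193902486856) (ZL.cons (nat_lit 2128) (nat_lit 3) (nat_lit 69509353044071313258) (ZL.cons (nat_lit 2204) (nat_lit 6) (nat_lit 136061568786550395298) (ZL.cons (nat_lit 2280) (nat_lit 6) (nat_lit 135339943397679553162) (ZL.cons (nat_lit 2356) (nat_lit 6) (nat_lit 133131366842972027286) (ZL.cons (nat_lit 2432) (nat_lit 6) (nat_lit 132088505080850276076) (ZL.cons (nat_lit 2508) (nat_lit 3) (nat_lit 65870784898869647140) (ZL.cons (nat_lit 2584) (nat_lit 6) (nat_lit 130585426203501733230) (ZL.cons (nat_lit 2660) (nat_lit 6) (nat_lit 129245123355036547696) (ZL.cons (nat_lit 2736) (nat_lit 6) (nat_lit 128576951698674656826) (ZL.cons (nat_lit 2812) (nat_lit 6) (nat_lit 126792948550752064442) (ZL.cons (nat_lit 2888) (nat_lit 6) (nat_lit 125827335808046739248) (ZL.cons (nat_lit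 2964) (nat_lit 3) (nat_lit 62753049717397915087) (ZL.cons (nat_lit 3040) (nat_lit 6) (nat_lit 124717449261749214560) (ZL.cons (nat_lit 3116) (nat_lit 6) (nat_lit 123476428105762931658) (ZL.cons (nat_lit 3192) (nat_lit 6) (nat_lit 122857750646168588260) (ZL.cons (nat_lit 3268) (nat_lit 6) (nat_lit 123006326232982055240) (ZL.cons (nat_lit 3344) (nat_lit 6) (nat_lit 121510297286920811494) (ZL.cons (nat_lit 3420) (nat_lit 6) (nat_lit 120616211414045510388) (ZL.cons (nat_lit 3496) (nat_lit 3) (nat_lit 60159385163851038032) (ZL.cons (nat_lit 3572) (nat_lit 6) (nat_lit 121649439476131966276) (ZL.cons (nat_lit 3648) (nat_lit 6) (nat_lit 119917292205927240270) (ZL.cons (nat_lit 3724) (nat_lit 6) (nat_lit 118768198542976978320) (ZL.cons (nat_lit 3800) (nat_lit 6) (nat_lit 118195349043352586288) (ZL.cons (nat_lit 3876) (nat_lit 3) (nat_lit 58559904887605864442) (ZL.cons (nat_lit 3952) (nat_lit 6)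 (nat_lit 117293363792249457920) (ZL.cons (nat_lit 4028) (nat_lit 6) (nat_lit 117815054311611757506) (ZL.cons (nat_lit 4104) (nat_lit 6) (nat_lit 118687972832672626450) (ZL.cons (nat_lit 4180) (nat_lit 6) (nat_lit 117302760845578882240) (ZL.cons (nat_lit 4256) (nat_lit 6) (nat_lit 116474903555879529364) (ZL.cons (nat_lit 4332) (nat_lit 3) (nat_lit 58099747571299285828) (ZL.cons (nat_lit 4408) (nat_lit 6) (nat_lit 115126097966333798438) (ZL.cons (nat_lit 4484) (nat_lit 6) (nat_lit 115487090321772274838) (ZL.cons (nat_lit 4560) (nat_lit 6) (nat_lit 116211214246607381574) (ZL.cons (nat_lit 4636) (nat_lit 6) (nat_lit 115147238632764546438) (ZL.cons (nat_lit 4712) (nat_lit 6) (nat_lit 114616822429408627886) (ZL.cons (nat_lit 4788) (nat_lit 3) (nat_lit 56726811265353388533) (ZL.cons (nat_lit 4864) (nat_lit 6) (nat_lit 113641060869107524430) (ZL.cons (nat_lit 4940) (nat_lit 6) (nat_lit 114204486630018807980)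 (ZL.cons (nat_lit 5016) (nat_lit 6) (nat_lit 113437952102519407168) (ZL.cons (nat_lit 5092) (nat_lit 3) (nat_lit 56591472156222223162) (ZL.cons (nat_lit 5168) (nat_lit 6) (nat_lit 112266026519823937382) (ZL.cons (nat_lit 5244) (nat_lit 6) (nat_lit 112655898263697491896) (ZL.cons (nat_lit 5320) (nat_lit 6) (nat_lit 112164772149479048792) (ZL.cons (nat_lit 5396) (nat_lit 3) (nat_lit 55676919461111027703) (ZL.cons (nat_lit 5472) (nat_lit 6) (nat_lit 111556272327694862556) (ZL.cons (nat_lit 5548) (nat_lit 3) (nat_lit 55660077001775690148) (ZL.cons (nat_lit 5624) (nat_lit 6) (nat_lit 110899092520167941424) (ZL.cons (nat_lit 5700) (nat_lit 1) (nat_lit 18446744073709551617) ZL.nil)))))))))))))))))))))))))))))))))))))))))))))))))))))))))))))))))))))))))))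

noncomputable def vl : XL := ⟨(nat_lit 0), (nat_lit 76), (nat_lit 433602407), (nat_lit 152), (nat_lit 34360316), (nat_lit 152), (nat_lit 34360316), (nat_lit 1), (nat_lit 4), (nat_lit 2), (nat_lit 5), (nat_lit 2), (nat_lit 4), (nat_lit 0), (nat_lit 0), (nat_lit 0)⟩

noncomputable def cp0 : Nat := (nat_lit 2991567025214412380126392576377436555805040665745162074557938249157243602186038786510310357745916386333759813333349996671321176586077069481408191479272233755735320299600302555865168623208582850325881699506257923407084550212235476170244816217644055290049212261096322189992322527251644678330007630696390468484767205088056419148249769555701018027687182743250394362056723417717440432109256394058261593338184653022119817029305051818058022502939117646328925644933503361836224415757637005595193262856043870706519979288643696750686101019278897925739095165158649296020823227284057725476292455858494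069256857029751711794573596863966957580578684169540227440347200929179323205168416847310344867877234239054867995591419497277809843070045828876267396175667520181549180344097433111589466395905833403093956664519906385135453515808784094973256327521342753929354796652640750397361528787934302354859458242724835226516737856874733617705340589612359253936164042631826996526329702162243468695444692865055227763752175631954028916174541877266469362706642985025925807070563075636915177751341257782479099736100930409931845789240381244735645982785534177321345713842454987673021561123954645301170064064956397266067878118127017036549965192225273596110266794392866559445326009903778454095996841751577846638150709046784608450549090210952186228611993757639043245993429602747981648727023010880127428014476157035395213711071389168577666843002835759477336823695168337343166659655192870475318928633346109863231188434192165099639177207015541398648938779182739625393086346886058295097165816599900869977531387158669604046346167676985607151885061200687797744643131152929706319883915951709897703723538320640603500864964621198488666415043336592967974947653158980273065552773120)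

noncomputable def cp1 : Nat := (nat_lit 336403269286648266143784913772681739804344677651798410287325508707871408624766750138147780789634465410154788681867971617889566762745662473948924698904466708827188376175389097903603220053065908290037343998785344013863273238631936319456183677469870955110602584325067343746181471867369438642372985321661014372878715650082850198858145062781752181980182731725225450451363044722616217542924663394844042725205270528331099319853196678925382548662818831955476249522962073075359854801670383720093216414754440750145167536243204111148641481678242974604819678384293498935772910224282936205712637952732440088909249171753846806402623128327926438853471196232764507494803340322385212172926549894285069395590213359470172536923423856452290609460684895520409578127675899681312101873240476291852582106007386374592455354860541024122258226980464022358847485590079124081501006038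9232516807599083960009574782516393998722599861229222819376690091606464102456909984232800750028075053066122822611241231758121770159962437798032553842128514065063576876893787997645370053965584084934511782824611895232117956405092851574329096412837305543261667269153553904212828240198940411012638507887222486570034705941501899950763916291988344574904103155837635611916568168913174697659117393079596586088871677854381050138759036902560949003411166924392115464050752377281642398410240325044881164310040788378831471009988620679668063769953594425015002606450950114311798921943303528206548734174212337480783060257290150466770648123891025627670852769391514508789831272940169014697062009091991198352890817589189246100818413860028686535017452373351194753820543140712214742529249458680813561101670488701475339630768176217328638096774005963219144642807628619807141862649645163403551918409121792)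

noncomputable def rc0 : Nat := (nat_lit 317855778858077156691421711953035888460670737056413239738424013987134280001948176579211279238793039656848984361245372492182754946368364426347324151649912502765377262627061124649501097189292486713050977595621460444788799495696342596851082097416382858696425047267669283641806174415438443511116390611841138618813499439987321461696156308474441928470046906994385357710654096505934047692462569430192755335441420972169650175369180050655609976047584622293585253951537995263102550170417866424687833997091705825312088580741374818543251651792782686714839215186258885309151481900022774628242496515210793671219062616634026476800981311360194299523566704280321386165656925157288111961910090417694238035505680909388834565864773200589667389374009463609215006422541288123484668392860337556860346900228722359153933501272251203099565379509560994224700314550298522405849249156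8289964679545079987186628459316672130522528016543768734707866237335957277167382757006515515567529792322598663960303631965667941864619281590082099971396370372040603942961674600999702804594526153250262986367367573037153875194806707642354588277153281175634581516436446651528754797438426857200080550887053157288474861909169207996432267224249606040022169051780858253805731699657717792163745762847259153862787046408750383675415684995683287462116605396229373778114803083769679443366059700953454461740252290252550761845550010733269175251952087057193818869271333365187616422424866578003444378154973991792324520109800655590603336100833283068561008590369550430018671191270399515545647199808959693925785166464777373402556286132511620019700184684731074279503753116193379508012488085437446779104155458080167943526236607684547188367524810623370080533469615803354503030816377734840792302990917632)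

noncomputable def rc1 : Nat := (nat_lit 336403269286648266143784913772681739804344677651798410287325508707871408624766750138147780789634465410154788681867971617889566762745662473948924698904466708827188376175389097903603220053065908290037343998785344013863273238631936319456183677469870955110602584325067343746181471867369438642372985321661014372878715650082850198858145062781752181980182731725225450451363044722616217542924663394844042725205270528331099319853196678925382548662818831955476249522962073075359854801670383720093216414754440750145167536243204111148641481678242974604819678384293498935772910224282936205712637952732440088909249171753846806402623128327926438853471196232764507494803340322385212172926549894285069395590213359470172536923423856452290609460684895520409578127675899681312101873240476291852582106007386374592455354860541024122258226980464022358847485590079124081501006038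9232516807599083960009574782516393998722599861229222819376690091606464102456909984232800750028075053066122822611241231758121770159962437798032553842128514065063576876893787997645370053965584084934511782824611895232117956405092851574329096412837305543261667269153553904212828240198940411012638507887222486570034705941501899950763916291988344574904103155837635611916568168913174697659117393079596586088871677854381050138759036902560949003411166924392115464050752377281642398410240325044881164310040788378831471009988620679668063769953594425015002606450950114311798921943303528206548734174212337480783060257290150466770648123891025627670852769391514508789831272940169014697062009091991198352890817589189246100818413860028686535017452373351194753820543140712214742529249458680813561101670488701475339630768176217328638096774005963219144642807628619807141862649645163403551918409121792)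

end Vale.Agent.Lib.P154.PChain.BJ.S2
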