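import Vale.Agent.Lib.P154.PChain.BJ.R2_0

set_option linter.all false

namespace Vale.Agent.Lib.P154.PChain.BJ.S3

open Vale.Agent.Lib.P154.Chain

noncomputable def pc0 : PT := (PT.nd (nat_lit 6106620) (PT.nd (nat_lit 5872464) (PT.nd (nat_lit 5778708) (PT.nd (nat_lit 5731830) (PT.nd (nat_lit 5685030) (PT.nd (nat_lit 5638230) PT.nil (PT.lf (nat_lit 76) (nat_lit 3) (nat_lit 1) (nat_lit 1) (nat_lit 165) (nat_lit 120) (nat_lit 165))) (PT.nd (nat_lit 78) (PT.lf (nat_lit 152) (nat_lit 6) (nat_lit 2) (nat_lit 3) (nat_lit 164) (nat_lit 121) (nat_lit 165)) (PT.lf (nat_lit 152) (nat_lit 6) (nat_lit 2) (nat_lit 1) (nat_lit 165) (nat_lit 121) (nat_lit 164)))) (PT.nd (nat_lit 78) (PT.lf (nat_lit 228) (nat_lit 6) (nat_lit 3) (nat_lit 3) (nat_lit 163) (nat_lit 122) (nat_lit 165)) (PT.nd (nat_lit 78) (PT.lf (nat_lit 304) (nat_lit 3) (nat_lit 4) (nat_lit 1) (nat_lit 164) (nat_lit 122) (nat_lit 164)) (PT.lf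 (nat_lit 228) (nat_lit 6) (nat_lit 3) (nat_lit 1) (nat_lit 165) (nat_lit 122) (nat_lit 163))))) (PT.nd (nat_lit 46878) (PT.nd (nat_lit 78) (PT.lf (nat_lit 380) (nat_lit 6) (nat_lit 5) (nat_lit 3) (nat_lit 163) (nat_lit 123) (nat_lit 164)) (PT.nd (nat_lit 46722) (PT.lf (nat_lit 380) (nat_lit 6) (nat_lit 5) (nat_lit 1) (nat_lit 164) (nat_lit 123) (nat_lit 163)) (PT.lf (nat_lit 456) (nat_lit 6) (nat_lit 6) (nat_lit 3) (nat_lit 162) (nat_lit 124) (nat_lit 164)))) (PT.nd (nat_lit 78) (PT.lf (nat_lit 532) (nat_lit 3) (nat_lit 7) (nat_lit 1) (nat_lit 163) (nat_lit 124) (nat_lit 163)) (PT.nd (nat_lit 46722) (PT.lf (nat_lit 456) (nat_lit 6) (nat_lit 6) (nat_lit 1) (nat_lit 164) (nat_lit 124) (nat_lit 162)) (PT.lf (nat_lit 608) (nat_lit 6) (nat_lit 8) (nat_lit 3) (nat_lit 162) (nat_lit 125) (nat_lit 163)))))) (PT.nd (nat_lit 140400) (PT.nd (nat_lit 46878) (PT.nd (nat_lit 46722) (PT.lf (nat_lit 608)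 (nat_lit 6) (nat_lit 8) (nat_lit 1) (nat_lit 163) (nat_lit 125) (nat_lit 162)) (PT.nd (nat_lit 78) (PT.lf (nat_lit 684) (nat_lit 6) (nat_lit 9) (nat_lit 3) (nat_lit 161) (nat_lit 126) (nat_lit 163)) (PT.lf (nat_lit 760) (nat_lit 3) (nat_lit 10) (nat_lit 1) (nat_lit 162) (nat_lit 126) (nat_lit 162)))) (PT.nd (nat_lit 46722) (PT.lf (nat_lit 684) (nat_lit 6) (nat_lit 9) (nat_lit 1) (nat_lit 163) (nat_lit 126) (nat_lit 161)) (PT.nd (nat_lit 78) (PT.lf (nat_lit 836) (nat_lit 6) (nat_lit 11) (nat_lit 3) (nat_lit 161) (nat_lit 127) (nat_lit 162)) (PT.lf (nat_lit 836) (nat_lit 6) (nat_lit 11) (nat_lit 1) (nat_lit 162) (nat_lit 127) (nat_lit 161))))) (PT.nd (nat_lit 46878) (PT.nd (nat_lit 78) (PT.lf (nat_lit 912) (nat_lit 6) (nat_lit 12) (nat_lit 3) (nat_lit 160) (nat_lit 128) (nat_lit 162)) (PT.nd (nat_lit 78) (PT.lf (nat_lit 988) (nat_lit 3) (nat_lit 13) (nat_lit 1) (nat_lit 161) (nat_lit 128)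 (nat_lit 161)) (PT.lf (nat_lit 912) (nat_lit 6) (nat_lit 12) (nat_lit 1) (nat_lit 162) (nat_lit 128) (nat_lit 160)))) (PT.nd (nat_lit 78) (PT.lf (nat_lit 1064) (nat_lit 6) (nat_lit 14) (nat_lit 3) (nat_lit 160) (nat_lit 129) (nat_lit 161)) (PT.nd (nat_lit 46722) (PT.lf (nat_lit 1064) (nat_lit 6) (nat_lit 14) (nat_lit 1) (nat_lit 161) (nat_lit 129) (nat_lit 160)) (PT.lf (nat_lit 1140) (nat_lit 6) (nat_lit 15) (nat_lit 3) (nat_lit 159) (nat_lit 130) (nat_lit 161))))))) (PT.nd (nat_lit 187356) (PT.nd (nat_lit 93756) (PT.nd (nat_lit 46878) (PT.nd (nat_lit 78) (PT.lf (nat_lit 1216) (nat_lit 3) (nat_lit 16) (nat_lit 1) (nat_lit 160) (nat_lit 130) (nat_lit 160)) (PT.nd (nat_lit 46722) (PT.lf (nat_lit 1140) (nat_lit 6) (nat_lit 15) (nat_lit 1) (nat_lit 161) (nat_lit 130) (nat_lit 159)) (PT.lf (nat_lit 1292) (nat_lit 6) (nat_lit 17) (nat_lit 3) (nat_lit 159) (nat_lit 131) (nat_lit 160)))) (PT.nd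 (nat_lit 46722) (PT.lf (nat_lit 1292) (nat_lit 6) (nat_lit 17) (nat_lit 1) (nat_lit 160) (nat_lit 131) (nat_lit 159)) (PT.nd (nat_lit 78) (PT.lf (nat_lit 1368) (nat_lit 6) (nat_lit 18) (nat_lit 3) (nat_lit 158) (nat_lit 132) (nat_lit 160)) (PT.lf (nat_lit 1444) (nat_lit 3) (nat_lit 19) (nat_lit 1) (nat_lit 159) (nat_lit 132) (nat_lit 159))))) (PT.nd (nat_lit 46800) (PT.nd (nat_lit 46644) (PT.lf (nat_lit 1368) (nat_lit 6) (nat_lit 18) (nat_lit 1) (nat_lit 160) (nat_lit 132) (nat_lit 158)) (PT.nd (nat_lit 78) (PT.lf (nat_lit 1520) (nat_lit 6) (nat_lit 20) (nat_lit 3) (nat_lit 157) (nat_lit 133) (nat_lit 160)) (PT.lf (nat_lit 1596) (nat_lit 6) (nat_lit 21) (nat_lit 3) (nat_lit 158) (nat_lit 133) (nat_lit 159)))) (PT.nd (nat_lit 78) (PT.lf (nat_lit 1596) (nat_lit 6) (nat_lit 21) (nat_lit 1) (nat_lit 159) (nat_lit 133) (nat_lit 158)) (PT.nd (nat_lit 46644) (PT.lf (nat_lit 1520) (nat_lit 6) (nat_lit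 20) (nat_lit 1) (nat_lit 160) (nat_lit 133) (nat_lit 157)) (PT.lf (nat_lit 1672) (nat_lit 6) (nat_lit 22) (nat_lit 3) (nat_lit 157) (nat_lit 134) (nat_lit 159)))))) (PT.nd (nat_lit 93522) (PT.nd (nat_lit 46800) (PT.nd (nat_lit 78) (PT.lf (nat_lit 1748) (nat_lit 3) (nat_lit 23) (nat_lit 1) (nat_lit 158) (nat_lit 134) (nat_lit 158)) (PT.nd (nat_lit 46644) (PT.lf (nat_lit 1672) (nat_lit 6) (nat_lit 22) (nat_lit 1) (nat_lit 159) (nat_lit 134) (nat_lit 157)) (PT.lf (nat_lit 1824) (nat_lit 6) (nat_lit 24) (nat_lit 3) (nat_lit 156) (nat_lit 135) (nat_lit 159)))) (PT.nd (nat_lit 78) (PT.lf (nat_lit 1900) (nat_lit 6) (nat_lit 25) (nat_lit 3) (nat_lit 157) (nat_lit 135) (nat_lit 158)) (PT.nd (nat_lit 78) (PT.lf (nat_lit 1900) (nat_lit 6) (nat_lit 25) (nat_lit 1) (nat_lit 158) (nat_lit 135) (nat_lit 157)) (PT.lf (nat_lit 1824) (nat_lit 6) (nat_lit 24) (nat_lit 1) (nat_lit 159) (nat_lit 135) (nat_lit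 156))))) (PT.nd (nat_lit 234) (PT.nd (nat_lit 78) (PT.lf (nat_lit 1976) (nat_lit 6) (nat_lit 26) (nat_lit 3) (nat_lit 155) (nat_lit 136) (nat_lit 159)) (PT.nd (nat_lit 78) (PT.lf (nat_lit 2052) (nat_lit 6) (nat_lit 27) (nat_lit 3) (nat_lit 156) (nat_lit 136) (nat_lit 158)) (PT.lf (nat_lit 2128) (nat_lit 3) (nat_lit 28) (nat_lit 1) (nat_lit 157) (nat_lit 136) (nat_lit 157)))) (PT.nd (nat_lit 78) (PT.lf (nat_lit 2052) (nat_lit 6) (nat_lit 27) (nat_lit 1) (nat_lit 158) (nat_lit 136) (nat_lit 156)) (PT.nd (nat_lit 46566) (PT.lf (nat_lit 1976) (nat_lit 6) (nat_lit 26) (nat_lit 1) (nat_lit 159) (nat_lit 136) (nat_lit 155)) (PT.lf (nat_lit 2204) (nat_lit 6) (nat_lit 29) (nat_lit 3) (nat_lit 155) (nat_lit 137) (nat_lit 158))))))))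
noncomputable def pc1 : PT := (PT.nd (nat_lit 187590) (PT.nd (nat_lit 93834) (PT.nd (nat_lit 46956) (PT.nd (nat_lit 46722) (PT.nd (nat_lit 78) (PT.lf (nat_lit 2280) (nat_lit 6) (nat_lit 30) (nat_lit 3) (nat_lit 156) (nat_lit 137) (nat_lit 157)) (PT.nd (nat_lit 78) (PT.lf (nat_lit 2280) (nat_lit 6) (nat_lit 30) (nat_lit 1) (nat_lit 157) (nat_lit 137) (nat_lit 156)) (PT.lf (nat_lit 2204) (nat_lit 6) (nat_lit 29) (nat_lit 1) (nat_lit 158) (nat_lit 137) (nat_lit 155)))) (PT.nd (nat_lit 78) (PT.lf (nat_lit 2356) (nat_lit 6) (nat_lit 31) (nat_lit 3) (nat_lit 154) (nat_lit 138) (nat_lit 158)) (PT.nd (nat_lit 78) (PT.lf (nat_lit 2432) (nat_lit 6) (nat_lit 32) (nat_lit 3) (nat_lit 155) (nat_lit 138) (nat_lit 157)) (PT.lf (nat_lit 2508) (nat_lit 3) (nat_lit 33) (nat_lit 1) (nat_lit 156) (nat_lit 138) (nat_lit 156))))) (PT.nd (nat_lit 46644) (PT.nd (nat_lit 78) (PT.lf (nat_lit 2432) (nat_lit 6) (nat_lit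 32) (nat_lit 1) (nat_lit 157) (nat_lit 138) (nat_lit 155)) (PT.nd (nat_lit 46488) (PT.lf (nat_lit 2356) (nat_lit 6) (nat_lit 31) (nat_lit 1) (nat_lit 158) (nat_lit 138) (nat_lit 154)) (PT.lf (nat_lit 2584) (nat_lit 6) (nat_lit 34) (nat_lit 3) (nat_lit 153) (nat_lit 139) (nat_lit 158)))) (PT.nd (nat_lit 78) (PT.lf (nat_lit 2660) (nat_lit 6) (nat_lit 35) (nat_lit 3) (nat_lit 154) (nat_lit 139) (nat_lit 157)) (PT.nd (nat_lit 78) (PT.lf (nat_lit 2736) (nat_lit 6) (nat_lit 36) (nat_lit 3) (nat_lit 155) (nat_lit 139) (nat_lit 156)) (PT.lf (nat_lit 2736) (nat_lit 6) (nat_lit 36) (nat_lit 1) (nat_lit 156) (nat_lit 139) (nat_lit 155)))))) (PT.nd (nat_lit 46878) (PT.nd (nat_lit 46644) (PT.nd (nat_lit 78) (PT.lf (nat_lit 2660) (nat_lit 6) (nat_lit 35) (nat_lit 1) (nat_lit 157) (nat_lit 139) (nat_lit 154)) (PT.nd (nat_lit 46488) (PT.lf (nat_lit 2584) (nat_lit 6) (nat_lit 34) (nat_lit 1) (nat_lit 158)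 (nat_lit 139) (nat_lit 153)) (PT.lf (nat_lit 2812) (nat_lit 6) (nat_lit 37) (nat_lit 3) (nat_lit 153) (nat_lit 140) (nat_lit 157)))) (PT.nd (nat_lit 78) (PT.lf (nat_lit 2888) (nat_lit 6) (nat_lit 38) (nat_lit 3) (nat_lit 154) (nat_lit 140) (nat_lit 156)) (PT.nd (nat_lit 78) (PT.lf (nat_lit 2964) (nat_lit 3) (nat_lit 39) (nat_lit 1) (nat_lit 155) (nat_lit 140) (nat_lit 155)) (PT.lf (nat_lit 2888) (nat_lit 6) (nat_lit 38) (nat_lit 1) (nat_lit 156) (nat_lit 140) (nat_lit 154))))) (PT.nd (nat_lit 46644) (PT.nd (nat_lit 46488) (PT.lf (nat_lit 2812) (nat_lit 6) (nat_lit 37) (nat_lit 1) (nat_lit 157) (nat_lit 140) (nat_lit 153)) (PT.nd (nat_lit 78) (PT.lf (nat_lit 3040) (nat_lit 6) (nat_lit 40) (nat_lit 3) (nat_lit 152) (nat_lit 141) (nat_lit 157)) (PT.lf (nat_lit 3116) (nat_lit 6) (nat_lit 41) (nat_lit 3) (nat_lit 153) (nat_lit 141) (nat_lit 156)))) (PT.nd (nat_lit 78) (PT.lf (nat_lit 3192) (nat_lit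 6) (nat_lit 42) (nat_lit 3) (nat_lit 154) (nat_lit 141) (nat_lit 155)) (PT.nd (nat_lit 78) (PT.lf (nat_lit 3192) (nat_lit 6) (nat_lit 42) (nat_lit 1) (nat_lit 155) (nat_lit 141) (nat_lit 154)) (PT.lf (nat_lit 3116) (nat_lit 6) (nat_lit 41) (nat_lit 1) (nat_lit 156) (nat_lit 141) (nat_lit 153))))))) (PT.nd (nat_lit 93522) (PT.nd (nat_lit 46800) (PT.nd (nat_lit 46566) (PT.nd (nat_lit 46410) (PT.lf (nat_lit 3040) (nat_lit 6) (nat_lit 40) (nat_lit 1) (nat_lit 157) (nat_lit 141) (nat_lit 152)) (PT.nd (nat_lit 78) (PT.lf (nat_lit 3268) (nat_lit 6) (nat_lit 43) (nat_lit 3) (nat_lit 151) (nat_lit 142) (nat_lit 157)) (PT.lf (nat_lit 3344) (nat_lit 6) (nat_lit 44) (nat_lit 3) (nat_lit 152) (nat_lit 142) (nat_lit 156)))) (PT.nd (nat_lit 78) (PT.lf (nat_lit 3420) (nat_lit 6) (nat_lit 45) (nat_lit 3) (nat_lit 153) (nat_lit 142) (nat_lit 155)) (PT.nd (nat_lit 78) (PT.lf (nat_lit 3496) (nat_lit 3) (nat_lit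 46) (nat_lit 1) (nat_lit 154) (nat_lit 142) (nat_lit 154)) (PT.lf (nat_lit 3420) (nat_lit 6) (nat_lit 45) (nat_lit 1) (nat_lit 155) (nat_lit 142) (nat_lit 153))))) (PT.nd (nat_lit 46488) (PT.nd (nat_lit 78) (PT.lf (nat_lit 3344) (nat_lit 6) (nat_lit 44) (nat_lit 1) (nat_lit 156) (nat_lit 142) (nat_lit 152)) (PT.nd (nat_lit 46332) (PT.lf (nat_lit 3268) (nat_lit 6) (nat_lit 43) (nat_lit 1) (nat_lit 157) (nat_lit 142) (nat_lit 151)) (PT.lf (nat_lit 3572) (nat_lit 6) (nat_lit 47) (nat_lit 3) (nat_lit 150) (nat_lit 143) (nat_lit 157)))) (PT.nd (nat_lit 78) (PT.lf (nat_lit 3648) (nat_lit 6) (nat_lit 48) (nat_lit 3) (nat_lit 151) (nat_lit 143) (nat_lit 156)) (PT.nd (nat_lit 78) (PT.lf (nat_lit 3724) (nat_lit 6) (nat_lit 49) (nat_lit 3) (nat_lit 152) (nat_lit 143) (nat_lit 155)) (PT.lf (nat_lit 3800) (nat_lit 6) (nat_lit 50) (nat_lit 3) (nat_lit 153) (nat_lit 143) (nat_lit 154)))))) (PT.nd (nat_lit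 46722) (PT.nd (nat_lit 234) (PT.nd (nat_lit 78) (PT.lf (nat_lit 3800) (nat_lit 6) (nat_lit 50) (nat_lit 1) (nat_lit 154) (nat_lit 143) (nat_lit 153)) (PT.nd (nat_lit 78) (PT.lf (nat_lit 3724) (nat_lit 6) (nat_lit 49) (nat_lit 1) (nat_lit 155) (nat_lit 143) (nat_lit 152)) (PT.lf (nat_lit 3648) (nat_lit 6) (nat_lit 48) (nat_lit 1) (nat_lit 156) (nat_lit 143) (nat_lit 151)))) (PT.nd (nat_lit 46332) (PT.lf (nat_lit 3572) (nat_lit 6) (nat_lit 47) (nat_lit 1) (nat_lit 157) (nat_lit 143) (nat_lit 150)) (PT.nd (nat_lit 78) (PT.lf (nat_lit 4104) (nat_lit 6) (nat_lit 54) (nat_lit 3) (nat_lit 150) (nat_lit 144) (nat_lit 156)) (PT.lf (nat_lit 4180) (nat_lit 6) (nat_lit 55) (nat_lit 3) (nat_lit 151) (nat_lit 144) (nat_lit 155))))) (PT.nd (nat_lit 234) (PT.nd (nat_lit 78) (PT.lf (nat_lit 4256) (nat_lit 6) (nat_lit 56) (nat_lit 3) (nat_lit 152) (nat_lit 144) (nat_lit 154)) (PT.nd (nat_lit 78) (PT.lf (nat_lit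 4332) (nat_lit 3) (nat_lit 57) (nat_lit 1) (nat_lit 153) (nat_lit 144) (nat_lit 153)) (PT.lf (nat_lit 4256) (nat_lit 6) (nat_lit 56) (nat_lit 1) (nat_lit 154) (nat_lit 144) (nat_lit 152)))) (PT.nd (nat_lit 46410) (PT.nd (nat_lit 78) (PT.lf (nat_lit 4180) (nat_lit 6) (nat_lit 55) (nat_lit 1) (nat_lit 155) (nat_lit 144) (nat_lit 151)) (PT.lf (nat_lit 4104) (nat_lit 6) (nat_lit 54) (nat_lit 1) (nat_lit 156) (nat_lit 144) (nat_lit 150))) (PT.nd (nat_lit 78) (PT.lf (nat_lit 4028) (nat_lit 6) (nat_lit 53) (nat_lit 3) (nat_lit 149) (nat_lit 145) (nat_lit 156)) (PT.lf (nat_lit 4560) (nat_lit 6) (nat_lit 60) (nat_lit 3) (nat_lit 150) (nat_lit 145) (nat_lit 155))))))))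
noncomputable def pc2 : PT := (PT.nd (nat_lit 94146) (PT.nd (nat_lit 47112) (PT.nd (nat_lit 46644) (PT.nd (nat_lit 234) (PT.nd (nat_lit 78) (PT.lf (nat_lit 4636) (nat_lit 6) (nat_lit 61) (nat_lit 3) (nat_lit 151) (nat_lit 145) (nat_lit 154)) (PT.nd (nat_lit 78) (PT.lf (nat_lit 4712) (nat_lit 6) (nat_lit 62) (nat_lit 3) (nat_lit 152) (nat_lit 145) (nat_lit 153)) (PT.lf (nat_lit 4712) (nat_lit 6) (nat_lit 62) (nat_lit 1) (nat_lit 153) (nat_lit 145) (nat_lit 152)))) (PT.nd (nat_lit 78) (PT.lf (nat_lit 4636) (nat_lit 6) (nat_lit 61) (nat_lit 1) (nat_lit 154) (nat_lit 145) (nat_lit 151)) (PT.nd (nat_lit 78) (PT.lf (nat_lit 4560) (nat_lit 6) (nat_lit 60) (nat_lit 1) (nat_lit 155) (nat_lit 145) (nat_lit 150)) (PT.lf (nat_lit 4028) (nat_lit 6) (nat_lit 53) (nat_lit 1) (nat_lit 156) (nat_lit 145) (nat_lit 149))))) (PT.nd (nat_lit 234) (PT.nd (nat_lit 78) (PT.lf (nat_lit 3952) (nat_lit 6) (nat_lit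 52) (nat_lit 3) (nat_lit 148) (nat_lit 146) (nat_lit 156)) (PT.nd (nat_lit 78) (PT.lf (nat_lit 4484) (nat_lit 6) (nat_lit 59) (nat_lit 3) (nat_lit 149) (nat_lit 146) (nat_lit 155)) (PT.lf (nat_lit 4940) (nat_lit 6) (nat_lit 65) (nat_lit 3) (nat_lit 150) (nat_lit 146) (nat_lit 154)))) (PT.nd (nat_lit 78) (PT.lf (nat_lit 5016) (nat_lit 6) (nat_lit 66) (nat_lit 3) (nat_lit 151) (nat_lit 146) (nat_lit 153)) (PT.nd (nat_lit 78) (PT.lf (nat_lit 5092) (nat_lit 3) (nat_lit 67) (nat_lit 1) (nat_lit 152) (nat_lit 146) (nat_lit 152)) (PT.lf (nat_lit 5016) (nat_lit 6) (nat_lit 66) (nat_lit 1) (nat_lit 153) (nat_lit 146) (nat_lit 151)))))) (PT.nd (nat_lit 46566) (PT.nd (nat_lit 46332) (PT.nd (nat_lit 78) (PT.lf (nat_lit 4940) (nat_lit 6) (nat_lit 65) (nat_lit 1) (nat_lit 154) (nat_lit 146) (nat_lit 150)) (PT.nd (nat_lit 78) (PT.lf (nat_lit 4484) (nat_lit 6) (nat_lit 59) (nat_lit 1) (nat_lit 155) (nat_lit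 146) (nat_lit 149)) (PT.lf (nat_lit 3952) (nat_lit 6) (nat_lit 52) (nat_lit 1) (nat_lit 156) (nat_lit 146) (nat_lit 148)))) (PT.nd (nat_lit 78) (PT.lf (nat_lit 3876) (nat_lit 3) (nat_lit 51) (nat_lit 3) (nat_lit 147) (nat_lit 147) (nat_lit 156)) (PT.nd (nat_lit 78) (PT.lf (nat_lit 4408) (nat_lit 6) (nat_lit 58) (nat_lit 3) (nat_lit 148) (nat_lit 147) (nat_lit 155)) (PT.lf (nat_lit 4864) (nat_lit 6) (nat_lit 64) (nat_lit 3) (nat_lit 149) (nat_lit 147) (nat_lit 154))))) (PT.nd (nat_lit 234) (PT.nd (nat_lit 78) (PT.lf (nat_lit 5244) (nat_lit 6) (nat_lit 69) (nat_lit 3) (nat_lit 150) (nat_lit 147) (nat_lit 153)) (PT.nd (nat_lit 78) (PT.lf (nat_lit 5320) (nat_lit 6) (nat_lit 70) (nat_lit 3) (nat_lit 151) (nat_lit 147) (nat_lit 152)) (PT.lf (nat_lit 5320) (nat_lit 6) (nat_lit 70) (nat_lit 1) (nat_lit 152) (nat_lit 147) (nat_lit 151)))) (PT.nd (nat_lit 78) (PT.lf (nat_lit 5244) (nat_lit 6) (nat_lit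 69) (nat_lit 1) (nat_lit 153) (nat_lit 147) (nat_lit 150)) (PT.nd (nat_lit 78) (PT.lf (nat_lit 4864) (nat_lit 6) (nat_lit 64) (nat_lit 1) (nat_lit 154) (nat_lit 147) (nat_lit 149)) (PT.lf (nat_lit 4408) (nat_lit 6) (nat_lit 58) (nat_lit 1) (nat_lit 155) (nat_lit 147) (nat_lit 148))))))) (PT.nd (nat_lit 92898) (PT.nd (nat_lit 46488) (PT.nd (nat_lit 46254) (PT.nd (nat_lit 46098) (PT.lf (nat_lit 3876) (nat_lit 3) (nat_lit 51) (nat_lit 0) (nat_lit 156) (nat_lit 147) (nat_lit 147)) (PT.nd (nat_lit 78) (PT.lf (nat_lit 3952) (nat_lit 6) (nat_lit 52) (nat_lit 5) (nat_lit 146) (nat_lit 148) (nat_lit 156)) (PT.lf (nat_lit 4408) (nat_lit 6) (nat_lit 58) (nat_lit 5) (nat_lit 147) (nat_lit 148) (nat_lit 155)))) (PT.nd (nat_lit 78) (PT.lf (nat_lit 4788) (nat_lit 3) (nat_lit 63) (nat_lit 3) (nat_lit 148) (nat_lit 148) (nat_lit 154)) (PT.nd (nat_lit 78) (PT.lf (nat_lit 5168) (nat_lit 6) (nat_lit 68) (nat_lit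 3) (nat_lit 149) (nat_lit 148) (nat_lit 153)) (PT.lf (nat_lit 5472) (nat_lit 6) (nat_lit 72) (nat_lit 3) (nat_lit 150) (nat_lit 148) (nat_lit 152))))) (PT.nd (nat_lit 234) (PT.nd (nat_lit 78) (PT.lf (nat_lit 5548) (nat_lit 3) (nat_lit 73) (nat_lit 1) (nat_lit 151) (nat_lit 148) (nat_lit 151)) (PT.nd (nat_lit 78) (PT.lf (nat_lit 5472) (nat_lit 6) (nat_lit 72) (nat_lit 1) (nat_lit 152) (nat_lit 148) (nat_lit 150)) (PT.lf (nat_lit 5168) (nat_lit 6) (nat_lit 68) (nat_lit 1) (nat_lit 153) (nat_lit 148) (nat_lit 149)))) (PT.nd (nat_lit 78) (PT.lf (nat_lit 4788) (nat_lit 3) (nat_lit 63) (nat_lit 0) (nat_lit 154) (nat_lit 148) (nat_lit 148)) (PT.nd (nat_lit 78) (PT.lf (nat_lit 4408) (nat_lit 6) (nat_lit 58) (nat_lit 0) (nat_lit 155) (nat_lit 148) (nat_lit 147)) (PT.lf (nat_lit 3952) (nat_lit 6) (nat_lit 52) (nat_lit 0) (nat_lit 156) (nat_lit 148) (nat_lit 146)))))) (PT.nd (nat_lit 468) (PT.nd (nat_lit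 234) (PT.nd (nat_lit 78) (PT.lf (nat_lit 4028) (nat_lit 6) (nat_lit 53) (nat_lit 5) (nat_lit 145) (nat_lit 149) (nat_lit 156)) (PT.nd (nat_lit 78) (PT.lf (nat_lit 4484) (nat_lit 6) (nat_lit 59) (nat_lit 5) (nat_lit 146) (nat_lit 149) (nat_lit 155)) (PT.lf (nat_lit 4864) (nat_lit 6) (nat_lit 64) (nat_lit 5) (nat_lit 147) (nat_lit 149) (nat_lit 154)))) (PT.nd (nat_lit 78) (PT.lf (nat_lit 5168) (nat_lit 6) (nat_lit 68) (nat_lit 5) (nat_lit 148) (nat_lit 149) (nat_lit 153)) (PT.nd (nat_lit 78) (PT.lf (nat_lit 5396) (nat_lit 3) (nat_lit 71) (nat_lit 3) (nat_lit 149) (nat_lit 149) (nat_lit 152)) (PT.lf (nat_lit 5624) (nat_lit 6) (nat_lit 74) (nat_lit 3) (nat_lit 150) (nat_lit 149) (nat_lit 151))))) (PT.nd (nat_lit 234) (PT.nd (nat_lit 78) (PT.lf (nat_lit 5624) (nat_lit 6) (nat_lit 74) (nat_lit 1) (nat_lit 151) (nat_lit 149) (nat_lit 150)) (PT.nd (nat_lit 78) (PT.lf (nat_lit 5396) (nat_lit 3)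 (nat_lit 71) (nat_lit 0) (nat_lit 152) (nat_lit 149) (nat_lit 149)) (PT.lf (nat_lit 5168) (nat_lit 6) (nat_lit 68) (nat_lit 0) (nat_lit 153) (nat_lit 149) (nat_lit 148)))) (PT.nd (nat_lit 156) (PT.nd (nat_lit 78) (PT.lf (nat_lit 4864) (nat_lit 6) (nat_lit 64) (nat_lit 0) (nat_lit 154) (nat_lit 149) (nat_lit 147)) (PT.lf (nat_lit 4484) (nat_lit 6) (nat_lit 59) (nat_lit 0) (nat_lit 155) (nat_lit 149) (nat_lit 146))) (PT.nd (nat_lit 45864) (PT.lf (nat_lit 4028) (nat_lit 6) (nat_lit 53) (nat_lit 0) (nat_lit 156) (nat_lit 149) (nat_lit 145)) (PT.lf (nat_lit 3572) (nat_lit 6) (nat_lit 47) (nat_lit 5) (nat_lit 143) (nat_lit 150) (nat_lit 157))))))))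
noncomputable def pc3 : PT := (PT.nd (nat_lit 47502) (PT.nd (nat_lit 936) (PT.nd (nat_lit 468) (PT.nd (nat_lit 234) (PT.nd (nat_lit 78) (PT.lf (nat_lit 4104) (nat_lit 6) (nat_lit 54) (nat_lit 5) (nat_lit 144) (nat_lit 150) (nat_lit 156)) (PT.nd (nat_lit 78) (PT.lf (nat_lit 4560) (nat_lit 6) (nat_lit 60) (nat_lit 5) (nat_lit 145) (nat_lit 150) (nat_lit 155)) (PT.lf (nat_lit 4940) (nat_lit 6) (nat_lit 65) (nat_lit 5) (nat_lit 146) (nat_lit 150) (nat_lit 154)))) (PT.nd (nat_lit 78) (PT.lf (nat_lit 5244) (nat_lit 6) (nat_lit 69) (nat_lit 5) (nat_lit 147) (nat_lit 150) (nat_lit 153)) (PT.nd (nat_lit 78) (PT.lf (nat_lit 5472) (nat_lit 6) (nat_lit 72) (nat_lit 5) (nat_lit 148) (nat_lit 150) (nat_lit 152)) (PT.lf (nat_lit 5624) (nat_lit 6) (nat_lit 74) (nat_lit 5) (nat_lit 149) (nat_lit 150) (nat_lit 151))))) (PT.nd (nat_lit 234) (PT.nd (nat_lit 78) (PT.lf (nat_lit 5700) (nat_lit 1) (nat_lit 75)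 (nat_lit 0) (nat_lit 150) (nat_lit 150) (nat_lit 150)) (PT.nd (nat_lit 78) (PT.lf (nat_lit 5624) (nat_lit 6) (nat_lit 74) (nat_lit 0) (nat_lit 151) (nat_lit 150) (nat_lit 149)) (PT.lf (nat_lit 5472) (nat_lit 6) (nat_lit 72) (nat_lit 0) (nat_lit 152) (nat_lit 150) (nat_lit 148)))) (PT.nd (nat_lit 78) (PT.lf (nat_lit 5244) (nat_lit 6) (nat_lit 69) (nat_lit 0) (nat_lit 153) (nat_lit 150) (nat_lit 147)) (PT.nd (nat_lit 78) (PT.lf (nat_lit 4940) (nat_lit 6) (nat_lit 65) (nat_lit 0) (nat_lit 154) (nat_lit 150) (nat_lit 146)) (PT.lf (nat_lit 4560) (nat_lit 6) (nat_lit 60) (nat_lit 0) (nat_lit 155) (nat_lit 150) (nat_lit 145)))))) (PT.nd (nat_lit 46098) (PT.nd (nat_lit 45864) (PT.nd (nat_lit 78) (PT.lf (nat_lit 4104) (nat_lit 6) (nat_lit 54) (nat_lit 0) (nat_lit 156) (nat_lit 150) (nat_lit 144)) (PT.nd (nat_lit 45708) (PT.lf (nat_lit 3572) (nat_lit 6) (nat_lit 47) (nat_lit 0) (nat_lit 157) (nat_lit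 150) (nat_lit 143)) (PT.lf (nat_lit 3268) (nat_lit 6) (nat_lit 43) (nat_lit 5) (nat_lit 142) (nat_lit 151) (nat_lit 157)))) (PT.nd (nat_lit 78) (PT.lf (nat_lit 3648) (nat_lit 6) (nat_lit 48) (nat_lit 5) (nat_lit 143) (nat_lit 151) (nat_lit 156)) (PT.nd (nat_lit 78) (PT.lf (nat_lit 4180) (nat_lit 6) (nat_lit 55) (nat_lit 5) (nat_lit 144) (nat_lit 151) (nat_lit 155)) (PT.lf (nat_lit 4636) (nat_lit 6) (nat_lit 61) (nat_lit 5) (nat_lit 145) (nat_lit 151) (nat_lit 154))))) (PT.nd (nat_lit 234) (PT.nd (nat_lit 78) (PT.lf (nat_lit 5016) (nat_lit 6) (nat_lit 66) (nat_lit 5) (nat_lit 146) (nat_lit 151) (nat_lit 153)) (PT.nd (nat_lit 78) (PT.lf (nat_lit 5320) (nat_lit 6) (nat_lit 70) (nat_lit 5) (nat_lit 147) (nat_lit 151) (nat_lit 152)) (PT.lf (nat_lit 5548) (nat_lit 3) (nat_lit 73) (nat_lit 4) (nat_lit 148) (nat_lit 151) (nat_lit 151)))) (PT.nd (nat_lit 78) (PT.lf (nat_lit 5624) (nat_lit 6) (nat_lit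 74) (nat_lit 4) (nat_lit 149) (nat_lit 151) (nat_lit 150)) (PT.nd (nat_lit 78) (PT.lf (nat_lit 5624) (nat_lit 6) (nat_lit 74) (nat_lit 2) (nat_lit 150) (nat_lit 151) (nat_lit 149)) (PT.lf (nat_lit 5548) (nat_lit 3) (nat_lit 73) (nat_lit 0) (nat_lit 151) (nat_lit 151) (nat_lit 148))))))) (PT.nd (nat_lit 46488) (PT.nd (nat_lit 46020) (PT.nd (nat_lit 234) (PT.nd (nat_lit 78) (PT.lf (nat_lit 5320) (nat_lit 6) (nat_lit 70) (nat_lit 0) (nat_lit 152) (nat_lit 151) (nat_lit 147)) (PT.nd (nat_lit 78) (PT.lf (nat_lit 5016) (nat_lit 6) (nat_lit 66) (nat_lit 0) (nat_lit 153) (nat_lit 151) (nat_lit 146)) (PT.lf (nat_lit 4636) (nat_lit 6) (nat_lit 61) (nat_lit 0) (nat_lit 154) (nat_lit 151) (nat_lit 145)))) (PT.nd (nat_lit 78) (PT.lf (nat_lit 4180) (nat_lit 6) (nat_lit 55) (nat_lit 0) (nat_lit 155) (nat_lit 151) (nat_lit 144)) (PT.nd (nat_lit 78) (PT.lf (nat_lit 3648) (nat_lit 6) (nat_lit 48) (nat_lit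 0) (nat_lit 156) (nat_lit 151) (nat_lit 143)) (PT.lf (nat_lit 3268) (nat_lit 6) (nat_lit 43) (nat_lit 0) (nat_lit 157) (nat_lit 151) (nat_lit 142))))) (PT.nd (nat_lit 234) (PT.nd (nat_lit 78) (PT.lf (nat_lit 3040) (nat_lit 6) (nat_lit 40) (nat_lit 5) (nat_lit 141) (nat_lit 152) (nat_lit 157)) (PT.nd (nat_lit 78) (PT.lf (nat_lit 3344) (nat_lit 6) (nat_lit 44) (nat_lit 5) (nat_lit 142) (nat_lit 152) (nat_lit 156)) (PT.lf (nat_lit 3724) (nat_lit 6) (nat_lit 49) (nat_lit 5) (nat_lit 143) (nat_lit 152) (nat_lit 155)))) (PT.nd (nat_lit 78) (PT.lf (nat_lit 4256) (nat_lit 6) (nat_lit 56) (nat_lit 5) (nat_lit 144) (nat_lit 152) (nat_lit 154)) (PT.nd (nat_lit 78) (PT.lf (nat_lit 4712) (nat_lit 6) (nat_lit 62) (nat_lit 5) (nat_lit 145) (nat_lit 152) (nat_lit 153)) (PT.lf (nat_lit 5092) (nat_lit 3) (nat_lit 67) (nat_lit 4) (nat_lit 146) (nat_lit 152) (nat_lit 152)))))) (PT.nd (nat_lit 468) (PT.nd (nat_lit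 234) (PT.nd (nat_lit 78) (PT.lf (nat_lit 5320) (nat_lit 6) (nat_lit 70) (nat_lit 4) (nat_lit 147) (nat_lit 152) (nat_lit 151)) (PT.nd (nat_lit 78) (PT.lf (nat_lit 5472) (nat_lit 6) (nat_lit 72) (nat_lit 4) (nat_lit 148) (nat_lit 152) (nat_lit 150)) (PT.lf (nat_lit 5396) (nat_lit 3) (nat_lit 71) (nat_lit 2) (nat_lit 149) (nat_lit 152) (nat_lit 149)))) (PT.nd (nat_lit 78) (PT.lf (nat_lit 5472) (nat_lit 6) (nat_lit 72) (nat_lit 2) (nat_lit 150) (nat_lit 152) (nat_lit 148)) (PT.nd (nat_lit 78) (PT.lf (nat_lit 5320) (nat_lit 6) (nat_lit 70) (nat_lit 2) (nat_lit 151) (nat_lit 152) (nat_lit 147)) (PT.lf (nat_lit 5092) (nat_lit 3) (nat_lit 67) (nat_lit 0) (nat_lit 152) (nat_lit 152) (nat_lit 146))))) (PT.nd (nat_lit 234) (PT.nd (nat_lit 78) (PT.lf (nat_lit 4712) (nat_lit 6) (nat_lit 62) (nat_lit 0) (nat_lit 153) (nat_lit 152) (nat_lit 145)) (PT.nd (nat_lit 78) (PT.lf (nat_lit 4256) (nat_lit 6)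 (nat_lit 56) (nat_lit 0) (nat_lit 154) (nat_lit 152) (nat_lit 144)) (PT.lf (nat_lit 3724) (nat_lit 6) (nat_lit 49) (nat_lit 0) (nat_lit 155) (nat_lit 152) (nat_lit 143)))) (PT.nd (nat_lit 45552) (PT.nd (nat_lit 78) (PT.lf (nat_lit 3344) (nat_lit 6) (nat_lit 44) (nat_lit 0) (nat_lit 156) (nat_lit 152) (nat_lit 142)) (PT.lf (nat_lit 3040) (nat_lit 6) (nat_lit 40) (nat_lit 0) (nat_lit 157) (nat_lit 152) (nat_lit 141))) (PT.nd (nat_lit 78) (PT.lf (nat_lit 2584) (nat_lit 6) (nat_lit 34) (nat_lit 5) (nat_lit 139) (nat_lit 153) (nat_lit 158)) (PT.lf (nat_lit 2812) (nat_lit 6) (nat_lit 37) (nat_lit 5) (nat_lit 140) (nat_lit 153) (nat_lit 157))))))))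
noncomputable def pc4 : PT := (PT.nd (nat_lit 47112) (PT.nd (nat_lit 936) (PT.nd (nat_lit 468) (PT.nd (nat_lit 234) (PT.nd (nat_lit 78) (PT.lf (nat_lit 3116) (nat_lit 6) (nat_lit 41) (nat_lit 5) (nat_lit 141) (nat_lit 153) (nat_lit 156)) (PT.nd (nat_lit 78) (PT.lf (nat_lit 3420) (nat_lit 6) (nat_lit 45) (nat_lit 5) (nat_lit 142) (nat_lit 153) (nat_lit 155)) (PT.lf (nat_lit 3800) (nat_lit 6) (nat_lit 50) (nat_lit 5) (nat_lit 143) (nat_lit 153) (nat_lit 154)))) (PT.nd (nat_lit 78) (PT.lf (nat_lit 4332) (nat_lit 3) (nat_lit 57) (nat_lit 4) (nat_lit 144) (nat_lit 153) (nat_lit 153)) (PT.nd (nat_lit 78) (PT.lf (nat_lit 4712) (nat_lit 6) (nat_lit 62) (nat_lit 4) (nat_lit 145) (nat_lit 153) (nat_lit 152)) (PT.lf (nat_lit 5016) (nat_lit 6) (nat_lit 66) (nat_lit 4) (nat_lit 146) (nat_lit 153) (nat_lit 151))))) (PT.nd (nat_lit 234) (PT.nd (nat_lit 78) (PT.lf (nat_lit 5244) (nat_lit 6) (nat_lit 69)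 (nat_lit 4) (nat_lit 147) (nat_lit 153) (nat_lit 150)) (PT.nd (nat_lit 78) (PT.lf (nat_lit 5168) (nat_lit 6) (nat_lit 68) (nat_lit 4) (nat_lit 148) (nat_lit 153) (nat_lit 149)) (PT.lf (nat_lit 5168) (nat_lit 6) (nat_lit 68) (nat_lit 2) (nat_lit 149) (nat_lit 153) (nat_lit 148)))) (PT.nd (nat_lit 78) (PT.lf (nat_lit 5244) (nat_lit 6) (nat_lit 69) (nat_lit 2) (nat_lit 150) (nat_lit 153) (nat_lit 147)) (PT.nd (nat_lit 78) (PT.lf (nat_lit 5016) (nat_lit 6) (nat_lit 66) (nat_lit 2) (nat_lit 151) (nat_lit 153) (nat_lit 146)) (PT.lf (nat_lit 4712) (nat_lit 6) (nat_lit 62) (nat_lit 2) (nat_lit 152) (nat_lit 153) (nat_lit 145)))))) (PT.nd (nat_lit 45708) (PT.nd (nat_lit 234) (PT.nd (nat_lit 78) (PT.lf (nat_lit 4332) (nat_lit 3) (nat_lit 57) (nat_lit 0) (nat_lit 153) (nat_lit 153) (nat_lit 144)) (PT.nd (nat_lit 78) (PT.lf (nat_lit 3800) (nat_lit 6) (nat_lit 50) (nat_lit 0) (nat_lit 154) (nat_lit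 153) (nat_lit 143)) (PT.lf (nat_lit 3420) (nat_lit 6) (nat_lit 45) (nat_lit 0) (nat_lit 155) (nat_lit 153) (nat_lit 142)))) (PT.nd (nat_lit 78) (PT.lf (nat_lit 3116) (nat_lit 6) (nat_lit 41) (nat_lit 0) (nat_lit 156) (nat_lit 153) (nat_lit 141)) (PT.nd (nat_lit 78) (PT.lf (nat_lit 2812) (nat_lit 6) (nat_lit 37) (nat_lit 0) (nat_lit 157) (nat_lit 153) (nat_lit 140)) (PT.lf (nat_lit 2584) (nat_lit 6) (nat_lit 34) (nat_lit 0) (nat_lit 158) (nat_lit 153) (nat_lit 139))))) (PT.nd (nat_lit 234) (PT.nd (nat_lit 78) (PT.lf (nat_lit 2356) (nat_lit 6) (nat_lit 31) (nat_lit 5) (nat_lit 138) (nat_lit 154) (nat_lit 158)) (PT.nd (nat_lit 78) (PT.lf (nat_lit 2660) (nat_lit 6) (nat_lit 35) (nat_lit 5) (nat_lit 139) (nat_lit 154) (nat_lit 157)) (PT.lf (nat_lit 2888) (nat_lit 6) (nat_lit 38) (nat_lit 5) (nat_lit 140) (nat_lit 154) (nat_lit 156)))) (PT.nd (nat_lit 78) (PT.lf (nat_lit 3192) (nat_lit 6) (nat_lit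 42) (nat_lit 5) (nat_lit 141) (nat_lit 154) (nat_lit 155)) (PT.nd (nat_lit 78) (PT.lf (nat_lit 3496) (nat_lit 3) (nat_lit 46) (nat_lit 4) (nat_lit 142) (nat_lit 154) (nat_lit 154)) (PT.lf (nat_lit 3800) (nat_lit 6) (nat_lit 50) (nat_lit 4) (nat_lit 143) (nat_lit 154) (nat_lit 153))))))) (PT.nd (nat_lit 936) (PT.nd (nat_lit 468) (PT.nd (nat_lit 234) (PT.nd (nat_lit 78) (PT.lf (nat_lit 4256) (nat_lit 6) (nat_lit 56) (nat_lit 4) (nat_lit 144) (nat_lit 154) (nat_lit 152)) (PT.nd (nat_lit 78) (PT.lf (nat_lit 4636) (nat_lit 6) (nat_lit 61) (nat_lit 4) (nat_lit 145) (nat_lit 154) (nat_lit 151)) (PT.lf (nat_lit 4940) (nat_lit 6) (nat_lit 65) (nat_lit 4) (nat_lit 146) (nat_lit 154) (nat_lit 150)))) (PT.nd (nat_lit 78) (PT.lf (nat_lit 4864) (nat_lit 6) (nat_lit 64) (nat_lit 4) (nat_lit 147) (nat_lit 154) (nat_lit 149)) (PT.nd (nat_lit 78) (PT.lf (nat_lit 4788) (nat_lit 3) (nat_lit 63) (nat_lit 2)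 (nat_lit 148) (nat_lit 154) (nat_lit 148)) (PT.lf (nat_lit 4864) (nat_lit 6) (nat_lit 64) (nat_lit 2) (nat_lit 149) (nat_lit 154) (nat_lit 147))))) (PT.nd (nat_lit 234) (PT.nd (nat_lit 78) (PT.lf (nat_lit 4940) (nat_lit 6) (nat_lit 65) (nat_lit 2) (nat_lit 150) (nat_lit 154) (nat_lit 146)) (PT.nd (nat_lit 78) (PT.lf (nat_lit 4636) (nat_lit 6) (nat_lit 61) (nat_lit 2) (nat_lit 151) (nat_lit 154) (nat_lit 145)) (PT.lf (nat_lit 4256) (nat_lit 6) (nat_lit 56) (nat_lit 2) (nat_lit 152) (nat_lit 154) (nat_lit 144)))) (PT.nd (nat_lit 78) (PT.lf (nat_lit 3800) (nat_lit 6) (nat_lit 50) (nat_lit 2) (nat_lit 153) (nat_lit 154) (nat_lit 143)) (PT.nd (nat_lit 78) (PT.lf (nat_lit 3496) (nat_lit 3) (nat_lit 46) (nat_lit 0) (nat_lit 154) (nat_lit 154) (nat_lit 142)) (PT.lf (nat_lit 3192) (nat_lit 6) (nat_lit 42) (nat_lit 0) (nat_lit 155) (nat_lit 154) (nat_lit 141)))))) (PT.nd (nat_lit 45552) (PT.nd (nat_lit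 45318) (PT.nd (nat_lit 78) (PT.lf (nat_lit 2888) (nat_lit 6) (nat_lit 38) (nat_lit 0) (nat_lit 156) (nat_lit 154) (nat_lit 140)) (PT.nd (nat_lit 78) (PT.lf (nat_lit 2660) (nat_lit 6) (nat_lit 35) (nat_lit 0) (nat_lit 157) (nat_lit 154) (nat_lit 139)) (PT.lf (nat_lit 2356) (nat_lit 6) (nat_lit 31) (nat_lit 0) (nat_lit 158) (nat_lit 154) (nat_lit 138)))) (PT.nd (nat_lit 78) (PT.lf (nat_lit 1976) (nat_lit 6) (nat_lit 26) (nat_lit 5) (nat_lit 136) (nat_lit 155) (nat_lit 159)) (PT.nd (nat_lit 78) (PT.lf (nat_lit 2204) (nat_lit 6) (nat_lit 29) (nat_lit 5) (nat_lit 137) (nat_lit 155) (nat_lit 158)) (PT.lf (nat_lit 2432) (nat_lit 6) (nat_lit 32) (nat_lit 5) (nat_lit 138) (nat_lit 155) (nat_lit 157))))) (PT.nd (nat_lit 234) (PT.nd (nat_lit 78) (PT.lf (nat_lit 2736) (nat_lit 6) (nat_lit 36) (nat_lit 5) (nat_lit 139) (nat_lit 155) (nat_lit 156)) (PT.nd (nat_lit 78) (PT.lf (nat_lit 2964) (nat_lit 3)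 (nat_lit 39) (nat_lit 4) (nat_lit 140) (nat_lit 155) (nat_lit 155)) (PT.lf (nat_lit 3192) (nat_lit 6) (nat_lit 42) (nat_lit 4) (nat_lit 141) (nat_lit 155) (nat_lit 154)))) (PT.nd (nat_lit 156) (PT.nd (nat_lit 78) (PT.lf (nat_lit 3420) (nat_lit 6) (nat_lit 45) (nat_lit 4) (nat_lit 142) (nat_lit 155) (nat_lit 153)) (PT.lf (nat_lit 3724) (nat_lit 6) (nat_lit 49) (nat_lit 4) (nat_lit 143) (nat_lit 155) (nat_lit 152))) (PT.nd (nat_lit 78) (PT.lf (nat_lit 4180) (nat_lit 6) (nat_lit 55) (nat_lit 4) (nat_lit 144) (nat_lit 155) (nat_lit 151)) (PT.lf (nat_lit 4560) (nat_lit 6) (nat_lit 60) (nat_lit 4) (nat_lit 145) (nat_lit 155) (nat_lit 150))))))))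
noncomputable def pc5 : PT := (PT.nd (nat_lit 46800) (PT.nd (nat_lit 936) (PT.nd (nat_lit 468) (PT.nd (nat_lit 234) (PT.nd (nat_lit 78) (PT.lf (nat_lit 4484) (nat_lit 6) (nat_lit 59) (nat_lit 4) (nat_lit 146) (nat_lit 155) (nat_lit 149)) (PT.nd (nat_lit 78) (PT.lf (nat_lit 4408) (nat_lit 6) (nat_lit 58) (nat_lit 4) (nat_lit 147) (nat_lit 155) (nat_lit 148)) (PT.lf (nat_lit 4408) (nat_lit 6) (nat_lit 58) (nat_lit 2) (nat_lit 148) (nat_lit 155) (nat_lit 147)))) (PT.nd (nat_lit 78) (PT.lf (nat_lit 4484) (nat_lit 6) (nat_lit 59) (nat_lit 2) (nat_lit 149) (nat_lit 155) (nat_lit 146)) (PT.nd (nat_lit 78) (PT.lf (nat_lit 4560) (nat_lit 6) (nat_lit 60) (nat_lit 2) (nat_lit 150) (nat_lit 155) (nat_lit 145)) (PT.lf (nat_lit 4180) (nat_lit 6) (nat_lit 55) (nat_lit 2) (nat_lit 151) (nat_lit 155) (nat_lit 144))))) (PT.nd (nat_lit 234) (PT.nd (nat_lit 78) (PT.lf (nat_lit 3724) (nat_lit 6) (nat_lit 49)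 (nat_lit 2) (nat_lit 152) (nat_lit 155) (nat_lit 143)) (PT.nd (nat_lit 78) (PT.lf (nat_lit 3420) (nat_lit 6) (nat_lit 45) (nat_lit 2) (nat_lit 153) (nat_lit 155) (nat_lit 142)) (PT.lf (nat_lit 3192) (nat_lit 6) (nat_lit 42) (nat_lit 2) (nat_lit 154) (nat_lit 155) (nat_lit 141)))) (PT.nd (nat_lit 78) (PT.lf (nat_lit 2964) (nat_lit 3) (nat_lit 39) (nat_lit 0) (nat_lit 155) (nat_lit 155) (nat_lit 140)) (PT.nd (nat_lit 78) (PT.lf (nat_lit 2736) (nat_lit 6) (nat_lit 36) (nat_lit 0) (nat_lit 156) (nat_lit 155) (nat_lit 139)) (PT.lf (nat_lit 2432) (nat_lit 6) (nat_lit 32) (nat_lit 0) (nat_lit 157) (nat_lit 155) (nat_lit 138)))))) (PT.nd (nat_lit 45396) (PT.nd (nat_lit 45162) (PT.nd (nat_lit 78) (PT.lf (nat_lit 2204) (nat_lit 6) (nat_lit 29) (nat_lit 0) (nat_lit 158) (nat_lit 155) (nat_lit 137)) (PT.nd (nat_lit 45006) (PT.lf (nat_lit 1976) (nat_lit 6) (nat_lit 26) (nat_lit 0) (nat_lit 159) (nat_lit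 155) (nat_lit 136)) (PT.lf (nat_lit 1824) (nat_lit 6) (nat_lit 24) (nat_lit 5) (nat_lit 135) (nat_lit 156) (nat_lit 159)))) (PT.nd (nat_lit 78) (PT.lf (nat_lit 2052) (nat_lit 6) (nat_lit 27) (nat_lit 5) (nat_lit 136) (nat_lit 156) (nat_lit 158)) (PT.nd (nat_lit 78) (PT.lf (nat_lit 2280) (nat_lit 6) (nat_lit 30) (nat_lit 5) (nat_lit 137) (nat_lit 156) (nat_lit 157)) (PT.lf (nat_lit 2508) (nat_lit 3) (nat_lit 33) (nat_lit 4) (nat_lit 138) (nat_lit 156) (nat_lit 156))))) (PT.nd (nat_lit 234) (PT.nd (nat_lit 78) (PT.lf (nat_lit 2736) (nat_lit 6) (nat_lit 36) (nat_lit 4) (nat_lit 139) (nat_lit 156) (nat_lit 155)) (PT.nd (nat_lit 78) (PT.lf (nat_lit 2888) (nat_lit 6) (nat_lit 38) (nat_lit 4) (nat_lit 140) (nat_lit 156) (nat_lit 154)) (PT.lf (nat_lit 3116) (nat_lit 6) (nat_lit 41) (nat_lit 4) (nat_lit 141) (nat_lit 156) (nat_lit 153)))) (PT.nd (nat_lit 78) (PT.lf (nat_lit 3344) (nat_lit 6) (nat_lit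 44) (nat_lit 4) (nat_lit 142) (nat_lit 156) (nat_lit 152)) (PT.nd (nat_lit 78) (PT.lf (nat_lit 3648) (nat_lit 6) (nat_lit 48) (nat_lit 4) (nat_lit 143) (nat_lit 156) (nat_lit 151)) (PT.lf (nat_lit 4104) (nat_lit 6) (nat_lit 54) (nat_lit 4) (nat_lit 144) (nat_lit 156) (nat_lit 150))))))) (PT.nd (nat_lit 936) (PT.nd (nat_lit 468) (PT.nd (nat_lit 234) (PT.nd (nat_lit 78) (PT.lf (nat_lit 4028) (nat_lit 6) (nat_lit 53) (nat_lit 4) (nat_lit 145) (nat_lit 156) (nat_lit 149)) (PT.nd (nat_lit 78) (PT.lf (nat_lit 3952) (nat_lit 6) (nat_lit 52) (nat_lit 4) (nat_lit 146) (nat_lit 156) (nat_lit 148)) (PT.lf (nat_lit 3876) (nat_lit 3) (nat_lit 51) (nat_lit 2) (nat_lit 147) (nat_lit 156) (nat_lit 147)))) (PT.nd (nat_lit 78) (PT.lf (nat_lit 3952) (nat_lit 6) (nat_lit 52) (nat_lit 2) (nat_lit 148) (nat_lit 156) (nat_lit 146)) (PT.nd (nat_lit 78) (PT.lf (nat_lit 4028) (nat_lit 6) (nat_lit 53) (nat_lit 2)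 (nat_lit 149) (nat_lit 156) (nat_lit 145)) (PT.lf (nat_lit 4104) (nat_lit 6) (nat_lit 54) (nat_lit 2) (nat_lit 150) (nat_lit 156) (nat_lit 144))))) (PT.nd (nat_lit 234) (PT.nd (nat_lit 78) (PT.lf (nat_lit 3648) (nat_lit 6) (nat_lit 48) (nat_lit 2) (nat_lit 151) (nat_lit 156) (nat_lit 143)) (PT.nd (nat_lit 78) (PT.lf (nat_lit 3344) (nat_lit 6) (nat_lit 44) (nat_lit 2) (nat_lit 152) (nat_lit 156) (nat_lit 142)) (PT.lf (nat_lit 3116) (nat_lit 6) (nat_lit 41) (nat_lit 2) (nat_lit 153) (nat_lit 156) (nat_lit 141)))) (PT.nd (nat_lit 78) (PT.lf (nat_lit 2888) (nat_lit 6) (nat_lit 38) (nat_lit 2) (nat_lit 154) (nat_lit 156) (nat_lit 140)) (PT.nd (nat_lit 78) (PT.lf (nat_lit 2736) (nat_lit 6) (nat_lit 36) (nat_lit 2) (nat_lit 155) (nat_lit 156) (nat_lit 139)) (PT.lf (nat_lit 2508) (nat_lit 3) (nat_lit 33) (nat_lit 0) (nat_lit 156) (nat_lit 156) (nat_lit 138)))))) (PT.nd (nat_lit 45240) (PT.nd (nat_lit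 45006) (PT.nd (nat_lit 78) (PT.lf (nat_lit 2280) (nat_lit 6) (nat_lit 30) (nat_lit 0) (nat_lit 157) (nat_lit 156) (nat_lit 137)) (PT.nd (nat_lit 78) (PT.lf (nat_lit 2052) (nat_lit 6) (nat_lit 27) (nat_lit 0) (nat_lit 158) (nat_lit 156) (nat_lit 136)) (PT.lf (nat_lit 1824) (nat_lit 6) (nat_lit 24) (nat_lit 0) (nat_lit 159) (nat_lit 156) (nat_lit 135)))) (PT.nd (nat_lit 78) (PT.lf (nat_lit 1520) (nat_lit 6) (nat_lit 20) (nat_lit 5) (nat_lit 133) (nat_lit 157) (nat_lit 160)) (PT.nd (nat_lit 78) (PT.lf (nat_lit 1672) (nat_lit 6) (nat_lit 22) (nat_lit 5) (nat_lit 134) (nat_lit 157) (nat_lit 159)) (PT.lf (nat_lit 1900) (nat_lit 6) (nat_lit 25) (nat_lit 5) (nat_lit 135) (nat_lit 157) (nat_lit 158))))) (PT.nd (nat_lit 234) (PT.nd (nat_lit 78) (PT.lf (nat_lit 2128) (nat_lit 3) (nat_lit 28) (nat_lit 4) (nat_lit 136) (nat_lit 157) (nat_lit 157)) (PT.nd (nat_lit 78) (PT.lf (nat_lit 2280) (nat_lit 6)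 (nat_lit 30) (nat_lit 4) (nat_lit 137) (nat_lit 157) (nat_lit 156)) (PT.lf (nat_lit 2432) (nat_lit 6) (nat_lit 32) (nat_lit 4) (nat_lit 138) (nat_lit 157) (nat_lit 155)))) (PT.nd (nat_lit 156) (PT.nd (nat_lit 78) (PT.lf (nat_lit 2660) (nat_lit 6) (nat_lit 35) (nat_lit 4) (nat_lit 139) (nat_lit 157) (nat_lit 154)) (PT.lf (nat_lit 2812) (nat_lit 6) (nat_lit 37) (nat_lit 4) (nat_lit 140) (nat_lit 157) (nat_lit 153))) (PT.nd (nat_lit 78) (PT.lf (nat_lit 3040) (nat_lit 6) (nat_lit 40) (nat_lit 4) (nat_lit 141) (nat_lit 157) (nat_lit 152)) (PT.lf (nat_lit 3268) (nat_lit 6) (nat_lit 43) (nat_lit 4) (nat_lit 142) (nat_lit 157) (nat_lit 151))))))))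
noncomputable def pc6 : PT := (PT.nd (nat_lit 47970) (PT.nd (nat_lit 46020) (PT.nd (nat_lit 936) (PT.nd (nat_lit 702) (PT.nd (nat_lit 546) (PT.lf (nat_lit 3572) (nat_lit 6) (nat_lit 47) (nat_lit 4) (nat_lit 143) (nat_lit 157) (nat_lit 150)) (PT.nd (nat_lit 78) (PT.lf (nat_lit 3572) (nat_lit 6) (nat_lit 47) (nat_lit 2) (nat_lit 150) (nat_lit 157) (nat_lit 143)) (PT.lf (nat_lit 3268) (nat_lit 6) (nat_lit 43) (nat_lit 2) (nat_lit 151) (nat_lit 157) (nat_lit 142)))) (PT.nd (nat_lit 78) (PT.lf (nat_lit 3040) (nat_lit 6) (nat_lit 40) (nat_lit 2) (nat_lit 152) (nat_lit 157) (nat_lit 141)) (PT.nd (nat_lit 78) (PT.lf (nat_lit 2812) (nat_lit 6) (nat_lit 37) (nat_lit 2) (nat_lit 153) (nat_lit 157) (nat_lit 140)) (PT.lf (nat_lit 2660) (nat_lit 6) (nat_lit 35) (nat_lit 2) (nat_lit 154) (nat_lit 157) (nat_lit 139))))) (PT.nd (nat_lit 234) (PT.nd (nat_lit 78) (PT.lf (nat_lit 2432) (nat_lit 6) (nat_lit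 32) (nat_lit 2) (nat_lit 155) (nat_lit 157) (nat_lit 138)) (PT.nd (nat_lit 78) (PT.lf (nat_lit 2280) (nat_lit 6) (nat_lit 30) (nat_lit 2) (nat_lit 156) (nat_lit 157) (nat_lit 137)) (PT.lf (nat_lit 2128) (nat_lit 3) (nat_lit 28) (nat_lit 0) (nat_lit 157) (nat_lit 157) (nat_lit 136)))) (PT.nd (nat_lit 78) (PT.lf (nat_lit 1900) (nat_lit 6) (nat_lit 25) (nat_lit 0) (nat_lit 158) (nat_lit 157) (nat_lit 135)) (PT.nd (nat_lit 78) (PT.lf (nat_lit 1672) (nat_lit 6) (nat_lit 22) (nat_lit 0) (nat_lit 159) (nat_lit 157) (nat_lit 134)) (PT.lf (nat_lit 1520) (nat_lit 6) (nat_lit 20) (nat_lit 0) (nat_lit 160) (nat_lit 157) (nat_lit 133)))))) (PT.nd (nat_lit 468) (PT.nd (nat_lit 234) (PT.nd (nat_lit 78) (PT.lf (nat_lit 1368) (nat_lit 6) (nat_lit 18) (nat_lit 5) (nat_lit 132) (nat_lit 158) (nat_lit 160)) (PT.nd (nat_lit 78) (PT.lf (nat_lit 1596) (nat_lit 6) (nat_lit 21) (nat_lit 5) (nat_lit 133) (nat_lit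 158) (nat_lit 159)) (PT.lf (nat_lit 1748) (nat_lit 3) (nat_lit 23) (nat_lit 4) (nat_lit 134) (nat_lit 158) (nat_lit 158)))) (PT.nd (nat_lit 78) (PT.lf (nat_lit 1900) (nat_lit 6) (nat_lit 25) (nat_lit 4) (nat_lit 135) (nat_lit 158) (nat_lit 157)) (PT.nd (nat_lit 78) (PT.lf (nat_lit 2052) (nat_lit 6) (nat_lit 27) (nat_lit 4) (nat_lit 136) (nat_lit 158) (nat_lit 156)) (PT.lf (nat_lit 2204) (nat_lit 6) (nat_lit 29) (nat_lit 4) (nat_lit 137) (nat_lit 158) (nat_lit 155))))) (PT.nd (nat_lit 1248) (PT.nd (nat_lit 78) (PT.lf (nat_lit 2356) (nat_lit 6) (nat_lit 31) (nat_lit 4) (nat_lit 138) (nat_lit 158) (nat_lit 154)) (PT.nd (nat_lit 1092) (PT.lf (nat_lit 2584) (nat_lit 6) (nat_lit 34) (nat_lit 4) (nat_lit 139) (nat_lit 158) (nat_lit 153)) (PT.lf (nat_lit 2584) (nat_lit 6) (nat_lit 34) (nat_lit 2) (nat_lit 153) (nat_lit 158) (nat_lit 139)))) (PT.nd (nat_lit 78) (PT.lf (nat_lit 2356) (nat_lit 6)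 (nat_lit 31) (nat_lit 2) (nat_lit 154) (nat_lit 158) (nat_lit 138)) (PT.nd (nat_lit 78) (PT.lf (nat_lit 2204) (nat_lit 6) (nat_lit 29) (nat_lit 2) (nat_lit 155) (nat_lit 158) (nat_lit 137)) (PT.lf (nat_lit 2052) (nat_lit 6) (nat_lit 27) (nat_lit 2) (nat_lit 156) (nat_lit 158) (nat_lit 136))))))) (PT.nd (nat_lit 46800) (PT.nd (nat_lit 44928) (PT.nd (nat_lit 234) (PT.nd (nat_lit 78) (PT.lf (nat_lit 1900) (nat_lit 6) (nat_lit 25) (nat_lit 2) (nat_lit 157) (nat_lit 158) (nat_lit 135)) (PT.nd (nat_lit 78) (PT.lf (nat_lit 1748) (nat_lit 3) (nat_lit 23) (nat_lit 0) (nat_lit 158) (nat_lit 158) (nat_lit 134)) (PT.lf (nat_lit 1596) (nat_lit 6) (nat_lit 21) (nat_lit 0) (nat_lit 159) (nat_lit 158) (nat_lit 133)))) (PT.nd (nat_lit 44538) (PT.lf (nat_lit 1368) (nat_lit 6) (nat_lit 18) (nat_lit 0) (nat_lit 160) (nat_lit 158) (nat_lit 132)) (PT.nd (nat_lit 78) (PT.lf (nat_lit 1140) (nat_lit 6) (nat_lit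 15) (nat_lit 5) (nat_lit 130) (nat_lit 159) (nat_lit 161)) (PT.lf (nat_lit 1292) (nat_lit 6) (nat_lit 17) (nat_lit 5) (nat_lit 131) (nat_lit 159) (nat_lit 160))))) (PT.nd (nat_lit 234) (PT.nd (nat_lit 78) (PT.lf (nat_lit 1444) (nat_lit 3) (nat_lit 19) (nat_lit 4) (nat_lit 132) (nat_lit 159) (nat_lit 159)) (PT.nd (nat_lit 78) (PT.lf (nat_lit 1596) (nat_lit 6) (nat_lit 21) (nat_lit 4) (nat_lit 133) (nat_lit 159) (nat_lit 158)) (PT.lf (nat_lit 1672) (nat_lit 6) (nat_lit 22) (nat_lit 4) (nat_lit 134) (nat_lit 159) (nat_lit 157)))) (PT.nd (nat_lit 78) (PT.lf (nat_lit 1824) (nat_lit 6) (nat_lit 24) (nat_lit 4) (nat_lit 135) (nat_lit 159) (nat_lit 156)) (PT.nd (nat_lit 1482) (PT.lf (nat_lit 1976) (nat_lit 6) (nat_lit 26) (nat_lit 4) (nat_lit 136) (nat_lit 159) (nat_lit 155)) (PT.lf (nat_lit 1976) (nat_lit 6) (nat_lit 26) (nat_lit 2) (nat_lit 155) (nat_lit 159) (nat_lit 136)))))) (PT.nd (nat_lit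 44694) (PT.nd (nat_lit 234) (PT.nd (nat_lit 78) (PT.lf (nat_lit 1824) (nat_lit 6) (nat_lit 24) (nat_lit 2) (nat_lit 156) (nat_lit 159) (nat_lit 135)) (PT.nd (nat_lit 78) (PT.lf (nat_lit 1672) (nat_lit 6) (nat_lit 22) (nat_lit 2) (nat_lit 157) (nat_lit 159) (nat_lit 134)) (PT.lf (nat_lit 1596) (nat_lit 6) (nat_lit 21) (nat_lit 2) (nat_lit 158) (nat_lit 159) (nat_lit 133)))) (PT.nd (nat_lit 78) (PT.lf (nat_lit 1444) (nat_lit 3) (nat_lit 19) (nat_lit 0) (nat_lit 159) (nat_lit 159) (nat_lit 132)) (PT.nd (nat_lit 78) (PT.lf (nat_lit 1292) (nat_lit 6) (nat_lit 17) (nat_lit 0) (nat_lit 160) (nat_lit 159) (nat_lit 131)) (PT.lf (nat_lit 1140) (nat_lit 6) (nat_lit 15) (nat_lit 0) (nat_lit 161) (nat_lit 159) (nat_lit 130))))) (PT.nd (nat_lit 234) (PT.nd (nat_lit 78) (PT.lf (nat_lit 912) (nat_lit 6) (nat_lit 12) (nat_lit 5) (nat_lit 128) (nat_lit 160) (nat_lit 162)) (PT.nd (nat_lit 78) (PT.lf (nat_lit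 1064) (nat_lit 6) (nat_lit 14) (nat_lit 5) (nat_lit 129) (nat_lit 160) (nat_lit 161)) (PT.lf (nat_lit 1216) (nat_lit 3) (nat_lit 16) (nat_lit 4) (nat_lit 130) (nat_lit 160) (nat_lit 160)))) (PT.nd (nat_lit 156) (PT.nd (nat_lit 78) (PT.lf (nat_lit 1292) (nat_lit 6) (nat_lit 17) (nat_lit 4) (nat_lit 131) (nat_lit 160) (nat_lit 159)) (PT.lf (nat_lit 1368) (nat_lit 6) (nat_lit 18) (nat_lit 4) (nat_lit 132) (nat_lit 160) (nat_lit 158))) (PT.nd (nat_lit 1872) (PT.lf (nat_lit 1520) (nat_lit 6) (nat_lit 20) (nat_lit 4) (nat_lit 133) (nat_lit 160) (nat_lit 157)) (PT.lf (nat_lit 1520) (nat_lit 6) (nat_lit 20) (nat_lit 2) (nat_lit 157) (nat_lit 160) (nat_lit 133))))))))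
noncomputable def pc7 : PT := (PT.nd (nat_lit 94224) (PT.nd (nat_lit 47112) (PT.nd (nat_lit 44460) (PT.nd (nat_lit 234) (PT.nd (nat_lit 78) (PT.lf (nat_lit 1368) (nat_lit 6) (nat_lit 18) (nat_lit 2) (nat_lit 158) (nat_lit 160) (nat_lit 132)) (PT.nd (nat_lit 78) (PT.lf (nat_lit 1292) (nat_lit 6) (nat_lit 17) (nat_lit 2) (nat_lit 159) (nat_lit 160) (nat_lit 131)) (PT.lf (nat_lit 1216) (nat_lit 3) (nat_lit 16) (nat_lit 0) (nat_lit 160) (nat_lit 160) (nat_lit 130)))) (PT.nd (nat_lit 78) (PT.lf (nat_lit 1064) (nat_lit 6) (nat_lit 14) (nat_lit 0) (nat_lit 161) (nat_lit 160) (nat_lit 129)) (PT.nd (nat_lit 44070) (PT.lf (nat_lit 912) (nat_lit 6) (nat_lit 12) (nat_lit 0) (nat_lit 162) (nat_lit 160) (nat_lit 128)) (PT.lf (nat_lit 684) (nat_lit 6) (nat_lit 9) (nat_lit 5) (nat_lit 126) (nat_lit 161) (nat_lit 163))))) (PT.nd (nat_lit 234) (PT.nd (nat_lit 78) (PT.lf (nat_lit 836) (nat_lit 6) (nat_lit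 11) (nat_lit 5) (nat_lit 127) (nat_lit 161) (nat_lit 162)) (PT.nd (nat_lit 78) (PT.lf (nat_lit 988) (nat_lit 3) (nat_lit 13) (nat_lit 4) (nat_lit 128) (nat_lit 161) (nat_lit 161)) (PT.lf (nat_lit 1064) (nat_lit 6) (nat_lit 14) (nat_lit 4) (nat_lit 129) (nat_lit 161) (nat_lit 160)))) (PT.nd (nat_lit 2262) (PT.lf (nat_lit 1140) (nat_lit 6) (nat_lit 15) (nat_lit 4) (nat_lit 130) (nat_lit 161) (nat_lit 159)) (PT.nd (nat_lit 78) (PT.lf (nat_lit 1140) (nat_lit 6) (nat_lit 15) (nat_lit 2) (nat_lit 159) (nat_lit 161) (nat_lit 130)) (PT.lf (nat_lit 1064) (nat_lit 6) (nat_lit 14) (nat_lit 2) (nat_lit 160) (nat_lit 161) (nat_lit 129)))))) (PT.nd (nat_lit 44226) (PT.nd (nat_lit 43992) (PT.nd (nat_lit 78) (PT.lf (nat_lit 988) (nat_lit 3) (nat_lit 13) (nat_lit 0) (nat_lit 161) (nat_lit 161) (nat_lit 128)) (PT.nd (nat_lit 78) (PT.lf (nat_lit 836) (nat_lit 6) (nat_lit 11) (nat_lit 0) (nat_lit 162) (nat_lit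 161) (nat_lit 127)) (PT.lf (nat_lit 684) (nat_lit 6) (nat_lit 9) (nat_lit 0) (nat_lit 163) (nat_lit 161) (nat_lit 126)))) (PT.nd (nat_lit 78) (PT.lf (nat_lit 456) (nat_lit 6) (nat_lit 6) (nat_lit 5) (nat_lit 124) (nat_lit 162) (nat_lit 164)) (PT.nd (nat_lit 78) (PT.lf (nat_lit 608) (nat_lit 6) (nat_lit 8) (nat_lit 5) (nat_lit 125) (nat_lit 162) (nat_lit 163)) (PT.lf (nat_lit 760) (nat_lit 3) (nat_lit 10) (nat_lit 4) (nat_lit 126) (nat_lit 162) (nat_lit 162))))) (PT.nd (nat_lit 2652) (PT.nd (nat_lit 78) (PT.lf (nat_lit 836) (nat_lit 6) (nat_lit 11) (nat_lit 4) (nat_lit 127) (nat_lit 162) (nat_lit 161)) (PT.nd (nat_lit 2496) (PT.lf (nat_lit 912) (nat_lit 6) (nat_lit 12) (nat_lit 4) (nat_lit 128) (nat_lit 162) (nat_lit 160)) (PT.lf (nat_lit 912) (nat_lit 6) (nat_lit 12) (nat_lit 2) (nat_lit 160) (nat_lit 162) (nat_lit 128)))) (PT.nd (nat_lit 78) (PT.lf (nat_lit 836) (nat_lit 6) (nat_lit 11)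 (nat_lit 2) (nat_lit 161) (nat_lit 162) (nat_lit 127)) (PT.nd (nat_lit 78) (PT.lf (nat_lit 760) (nat_lit 3) (nat_lit 10) (nat_lit 0) (nat_lit 162) (nat_lit 162) (nat_lit 126)) (PT.lf (nat_lit 608) (nat_lit 6) (nat_lit 8) (nat_lit 0) (nat_lit 163) (nat_lit 162) (nat_lit 125))))))) (PT.nd (nat_lit 90480) (PT.nd (nat_lit 46644) (PT.nd (nat_lit 43758) (PT.nd (nat_lit 43602) (PT.lf (nat_lit 456) (nat_lit 6) (nat_lit 6) (nat_lit 0) (nat_lit 164) (nat_lit 162) (nat_lit 124)) (PT.nd (nat_lit 78) (PT.lf (nat_lit 228) (nat_lit 6) (nat_lit 3) (nat_lit 5) (nat_lit 122) (nat_lit 163) (nat_lit 165)) (PT.lf (nat_lit 380) (nat_lit 6) (nat_lit 5) (nat_lit 5) (nat_lit 123) (nat_lit 163) (nat_lit 164)))) (PT.nd (nat_lit 78) (PT.lf (nat_lit 532) (nat_lit 3) (nat_lit 7) (nat_lit 4) (nat_lit 124) (nat_lit 163) (nat_lit 163)) (PT.nd (nat_lit 78) (PT.lf (nat_lit 608) (nat_lit 6) (nat_lit 8) (nat_lit 4) (nat_lit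 125) (nat_lit 163) (nat_lit 162)) (PT.lf (nat_lit 684) (nat_lit 6) (nat_lit 9) (nat_lit 4) (nat_lit 126) (nat_lit 163) (nat_lit 161))))) (PT.nd (nat_lit 234) (PT.nd (nat_lit 78) (PT.lf (nat_lit 684) (nat_lit 6) (nat_lit 9) (nat_lit 2) (nat_lit 161) (nat_lit 163) (nat_lit 126)) (PT.nd (nat_lit 78) (PT.lf (nat_lit 608) (nat_lit 6) (nat_lit 8) (nat_lit 2) (nat_lit 162) (nat_lit 163) (nat_lit 125)) (PT.lf (nat_lit 532) (nat_lit 3) (nat_lit 7) (nat_lit 0) (nat_lit 163) (nat_lit 163) (nat_lit 124)))) (PT.nd (nat_lit 78) (PT.lf (nat_lit 380) (nat_lit 6) (nat_lit 5) (nat_lit 0) (nat_lit 164) (nat_lit 163) (nat_lit 123)) (PT.nd (nat_lit 43446) (PT.lf (nat_lit 228) (nat_lit 6) (nat_lit 3) (nat_lit 0) (nat_lit 165) (nat_lit 163) (nat_lit 122)) (PT.lf (nat_lit 152) (nat_lit 6) (nat_lit 2) (nat_lit 5) (nat_lit 121) (nat_lit 164) (nat_lit 165)))))) (PT.nd (nat_lit 3354) (PT.nd (nat_lit 3120) (PT.nd (nat_lit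 78) (PT.lf (nat_lit 304) (nat_lit 3) (nat_lit 4) (nat_lit 4) (nat_lit 122) (nat_lit 164) (nat_lit 164)) (PT.nd (nat_lit 78) (PT.lf (nat_lit 380) (nat_lit 6) (nat_lit 5) (nat_lit 4) (nat_lit 123) (nat_lit 164) (nat_lit 163)) (PT.lf (nat_lit 456) (nat_lit 6) (nat_lit 6) (nat_lit 4) (nat_lit 124) (nat_lit 164) (nat_lit 162)))) (PT.nd (nat_lit 78) (PT.lf (nat_lit 456) (nat_lit 6) (nat_lit 6) (nat_lit 2) (nat_lit 162) (nat_lit 164) (nat_lit 124)) (PT.nd (nat_lit 78) (PT.lf (nat_lit 380) (nat_lit 6) (nat_lit 5) (nat_lit 2) (nat_lit 163) (nat_lit 164) (nat_lit 123)) (PT.lf (nat_lit 304) (nat_lit 3) (nat_lit 4) (nat_lit 0) (nat_lit 164) (nat_lit 164) (nat_lit 122))))) (PT.nd (nat_lit 43524) (PT.nd (nat_lit 43368) (PT.lf (nat_lit 152) (nat_lit 6) (nat_lit 2) (nat_lit 0) (nat_lit 165) (nat_lit 164) (nat_lit 121)) (PT.nd (nat_lit 78) (PT.lf (nat_lit 76) (nat_lit 3) (nat_lit 1) (nat_lit 4) (nat_lit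 120) (nat_lit 165) (nat_lit 165)) (PT.lf (nat_lit 152) (nat_lit 6) (nat_lit 2) (nat_lit 4) (nat_lit 121) (nat_lit 165) (nat_lit 164)))) (PT.nd (nat_lit 3276) (PT.nd (nat_lit 3198) (PT.lf (nat_lit 228) (nat_lit 6) (nat_lit 3) (nat_lit 4) (nat_lit 122) (nat_lit 165) (nat_lit 163)) (PT.lf (nat_lit 228) (nat_lit 6) (nat_lit 3) (nat_lit 2) (nat_lit 163) (nat_lit 165) (nat_lit 122))) (PT.nd (nat_lit 78) (PT.lf (nat_lit 152) (nat_lit 6) (nat_lit 2) (nat_lit 2) (nat_lit 164) (nat_lit 165) (nat_lit 121)) (PT.lf (nat_lit 76) (nat_lit 3) (nat_lit 1) (nat_lit 0) (nat_lit 165) (nat_lit 165) (nat_lit 120))))))))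
noncomputable def xc0 : XT := (XT.nd (nat_lit 187356) (nat_lit 0) (nat_lit 0) (XT.nd (nat_lit 140322) (nat_lit 0) (nat_lit 0) (XT.nd (nat_lit 93522) (nat_lit 0) (nat_lit 0) (XT.nd (nat_lit 46800) (nat_lit 0) (nat_lit 0) (XT.nd (nat_lit 46722) (nat_lit 0) (nat_lit 0) (XT.lf (nat_lit 0) (nat_lit 47824460692) (nat_lit 76) (nat_lit 274746182732) (nat_lit 76) (nat_lit 274746182732) (nat_lit 1) (nat_lit 4) (nat_lit 2) (nat_lit 5) (nat_lit 2) (nat_lit 4) (nat_lit 392) (nat_lit 254) (nat_lit 254)) (XT.lf (nat_lit 0) (nat_lit 38231132876) (nat_lit 76) (nat_lit 236971351299) (nat_lit 76) (nat_lit 236971351299) (nat_lit 1) (nat_lit 4) (nat_lit 2) (nat_lit 5) (nat_lit 2) (nat_lit 4) (nat_lit 390) (nat_lit 255) (nat_lit 255))) (XT.nd (nat_lit 78) (nat_lit 0) (nat_lit 0) (XT.lf (nat_lit 0) (nat_lit 85724906415) (nat_lit 76) (nat_lit 510268215324) (nat_lit 76) (nat_lit 510221829275) (nat_lit 1) (nat_lit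 4) (nat_lit 2) (nat_lit 5) (nat_lit 2) (nat_lit 4) (nat_lit 391) (nat_lit 255) (nat_lit 254)) (XT.nd (nat_lit 46566) (nat_lit 0) (nat_lit 0) (XT.lf (nat_lit 0) (nat_lit 95575183470) (nat_lit 76) (nat_lit 549574846368) (nat_lit 76) (nat_lit 549485510275) (nat_lit 1) (nat_lit 4) (nat_lit 2) (nat_lit 5) (nat_lit 2) (nat_lit 4) (nat_lit 392) (nat_lit 255) (nat_lit 253)) (XT.lf (nat_lit 0) (nat_lit 29784749817) (nat_lit 76) (nat_lit 204699184530) (nat_lit 76) (nat_lit 204699184530) (nat_lit 1) (nat_lit 4) (nat_lit 2) (nat_lit 5) (nat_lit 2) (nat_lit 4) (nat_lit 388) (nat_lit 256) (nat_lit 256))))) (XT.nd (nat_lit 234) (nat_lit 0) (nat_lit 0) (XT.nd (nat_lit 78) (nat_lit 0) (nat_lit 0) (XT.lf (nat_lit 0) (nat_lit 67732371760) (nat_lit 76) (nat_lit 440433142825) (nat_lit 76) (nat_lit 440383045893) (nat_lit 1) (nat_lit 4) (nat_lit 2) (nat_lit 5) (nat_lit 2) (nat_lit 4) (nat_lit 389) (nat_lit 256)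 (nat_lit 255)) (XT.nd (nat_lit 78) (nat_lit 0) (nat_lit 0) (XT.lf (nat_lit 0) (nat_lit 76382628806) (nat_lit 76) (nat_lit 474031781975) (nat_lit 76) (nat_lit 473935298994) (nat_lit 1) (nat_lit 4) (nat_lit 2) (nat_lit 5) (nat_lit 2) (nat_lit 4) (nat_lit 390) (nat_lit 256) (nat_lit 254)) (XT.lf (nat_lit 0) (nat_lit 85571531554) (nat_lit 76) (nat_lit 510393389556) (nat_lit 76) (nat_lit 510253956531) (nat_lit 1) (nat_lit 4) (nat_lit 2) (nat_lit 5) (nat_lit 2) (nat_lit 4) (nat_lit 391) (nat_lit 256) (nat_lit 253)))) (XT.nd (nat_lit 46410) (nat_lit 0) (nat_lit 0) (XT.lf (nat_lit 0) (nat_lit 95353532763) (nat_lit 76) (nat_lit 549733441763) (nat_lit 76) (nat_lit 549554240178) (nat_lit 1) (nat_lit 4) (nat_lit 2) (nat_lit 5) (nat_lit 2) (nat_lit 4) (nat_lit 392) (nat_lit 256) (nat_lit 252)) (XT.nd (nat_lit 78) (nat_lit 0) (nat_lit 0) (XT.lf (nat_lit 0) (nat_lit 22303954966) (nat_lit 76) (nat_lit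 177153758805) (nat_lit 76) (nat_lit 177153758805) (nat_lit 1) (nat_lit 4) (nat_lit 2) (nat_lit 5) (nat_lit 2) (nat_lit 4) (nat_lit 386) (nat_lit 257) (nat_lit 257)) (XT.lf (nat_lit 0) (nat_lit 51845639854) (nat_lit 76) (nat_lit 380797655598) (nat_lit 76) (nat_lit 380743550911) (nat_lit 1) (nat_lit 4) (nat_lit 2) (nat_lit 5) (nat_lit 2) (nat_lit 4) (nat_lit 387) (nat_lit 257) (nat_lit 256)))))) (XT.nd (nat_lit 46566) (nat_lit 0) (nat_lit 0) (XT.nd (nat_lit 156) (nat_lit 0) (nat_lit 0) (XT.nd (nat_lit 78) (nat_lit 0) (nat_lit 0) (XT.lf (nat_lit 0) (nat_lit 59483491732) (nat_lit 76) (nat_lit 409494574787) (nat_lit 76) (nat_lit 409390373168) (nat_lit 1) (nat_lit 4) (nat_lit 2) (nat_lit 5) (nat_lit 2) (nat_lit 4) (nat_lit 388) (nat_lit 257) (nat_lit 255)) (XT.lf (nat_lit 0) (nat_lit 67566726910) (nat_lit 76) (nat_lit 440568330996) (nat_lit 76) (nat_lit 440417743328) (nat_lit 1) (nat_lit 4) (nat_lit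 2) (nat_lit 5) (nat_lit 2) (nat_lit 4) (nat_lit 389) (nat_lit 257) (nat_lit 254))) (XT.nd (nat_lit 78) (nat_lit 0) (nat_lit 0) (XT.lf (nat_lit 0) (nat_lit 76143246042) (nat_lit 76) (nat_lit 474203065001) (nat_lit 76) (nat_lit 474009527289) (nat_lit 1) (nat_lit 4) (nat_lit 2) (nat_lit 5) (nat_lit 2) (nat_lit 4) (nat_lit 390) (nat_lit 257) (nat_lit 253)) (XT.nd (nat_lit 78) (nat_lit 0) (nat_lit 0) (XT.lf (nat_lit 0) (nat_lit 85263872945) (nat_lit 76) (nat_lit 510598093746) (nat_lit 76) (nat_lit 510364787474) (nat_lit 1) (nat_lit 4) (nat_lit 2) (nat_lit 5) (nat_lit 2) (nat_lit 4) (nat_lit 391) (nat_lit 257) (nat_lit 252)) (XT.lf (nat_lit 0) (nat_lit 94982655778) (nat_lit 76) (nat_lit 549969091474) (nat_lit 76) (nat_lit 549698962461) (nat_lit 1) (nat_lit 4) (nat_lit 2) (nat_lit 5) (nat_lit 2) (nat_lit 4) (nat_lit 392) (nat_lit 257) (nat_lit 251))))) (XT.nd (nat_lit 234) (nat_lit 0) (nat_lit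 0) (XT.nd (nat_lit 78) (nat_lit 0) (nat_lit 0) (XT.lf (nat_lit 0) (nat_lit 15631845749) (nat_lit 76) (nat_lit 153670572123) (nat_lit 76) (nat_lit 153670572123) (nat_lit 1) (nat_lit 4) (nat_lit 2) (nat_lit 5) (nat_lit 2) (nat_lit 4) (nat_lit 384) (nat_lit 258) (nat_lit 258)) (XT.nd (nat_lit 78) (nat_lit 0) (nat_lit 0) (XT.lf (nat_lit 0) (nat_lit 37727411716) (nat_lit 76) (nat_lit 329925615291) (nat_lit 76) (nat_lit 329867182229) (nat_lit 1) (nat_lit 4) (nat_lit 2) (nat_lit 5) (nat_lit 2) (nat_lit 4) (nat_lit 385) (nat_lit 258) (nat_lit 257)) (XT.lf (nat_lit 0) (nat_lit 44515021398) (nat_lit 76) (nat_lit 354411419795) (nat_lit 76) (nat_lit 354298882046) (nat_lit 1) (nat_lit 4) (nat_lit 2) (nat_lit 5) (nat_lit 2) (nat_lit 4) (nat_lit 386) (nat_lit 258) (nat_lit 256)))) (XT.nd (nat_lit 78) (nat_lit 0) (nat_lit 0) (XT.lf (nat_lit 0) (nat_lit 51666743417) (nat_lit 76) (nat_lit 380943658822) (nat_lit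 76) (nat_lit 380781024142) (nat_lit 1) (nat_lit 4) (nat_lit 2) (nat_lit 5) (nat_lit 2) (nat_lit 4) (nat_lit 387) (nat_lit 258) (nat_lit 255)) (XT.nd (nat_lit 78) (nat_lit 0) (nat_lit 0) (XT.lf (nat_lit 0) (nat_lit 59224958347) (nat_lit 76) (nat_lit 409679560456) (nat_lit 76) (nat_lit 409470539727) (nat_lit 1) (nat_lit 4) (nat_lit 2) (nat_lit 5) (nat_lit 2) (nat_lit 4) (nat_lit 388) (nat_lit 258) (nat_lit 254)) (XT.lf (nat_lit 0) (nat_lit 67234455612) (nat_lit 76) (nat_lit 440789411521) (nat_lit 76) (nat_lit 440537440746) (nat_lit 1) (nat_lit 4) (nat_lit 2) (nat_lit 5) (nat_lit 2) (nat_lit 4) (nat_lit 389) (nat_lit 258) (nat_lit 253))))))) (XT.nd (nat_lit 46878) (nat_lit 0) (nat_lit 0) (XT.nd (nat_lit 46410) (nat_lit 0) (nat_lit 0) (XT.nd (nat_lit 156) (nat_lit 0) (nat_lit 0) (XT.nd (nat_lit 78) (nat_lit 0) (nat_lit 0) (XT.lf (nat_lit 0) (nat_lit 75742698898) (nat_lit 76) (nat_lit 474457566689)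 (nat_lit 76) (nat_lit 474165827355) (nat_lit 1) (nat_lit 4) (nat_lit 2) (nat_lit 5) (nat_lit 2) (nat_lit 4) (nat_lit 390) (nat_lit 258) (nat_lit 252)) (XT.lf (nat_lit 0) (nat_lit 84800107425) (nat_lit 76) (nat_lit 510883540955) (nat_lit 76) (nat_lit 510554978880) (nat_lit 1) (nat_lit 4) (nat_lit 2) (nat_lit 5) (nat_lit 2) (nat_lit 4) (nat_lit 391) (nat_lit 258) (nat_lit 251))) (XT.nd (nat_lit 46098) (nat_lit 0) (nat_lit 0) (XT.lf (nat_lit 0) (nat_lit 94460354724) (nat_lit 76) (nat_lit 550283191943) (nat_lit 76) (nat_lit 549920534738) (nat_lit 1) (nat_lit 4) (nat_lit 2) (nat_lit 5) (nat_lit 2) (nat_lit 4) (nat_lit 392) (nat_lit 258) (nat_lit 250)) (XT.nd (nat_lit 78) (nat_lit 0) (nat_lit 0) (XT.lf (nat_lit 0) (nat_lit 9632371449) (nat_lit 76) (nat_lit 133680706759) (nat_lit 76) (nat_lit 133680706759) (nat_lit 1) (nat_lit 4) (nat_lit 2) (nat_lit 5) (nat_lit 2) (nat_lit 4) (nat_lit 382) (nat_lit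 259) (nat_lit 259)) (XT.lf (nat_lit 0) (nat_lit 25085557220) (nat_lit 76) (nat_lit 286587280465) (nat_lit 76) (nat_lit 286524172759) (nat_lit 1) (nat_lit 4) (nat_lit 2) (nat_lit 5) (nat_lit 2) (nat_lit 4) (nat_lit 383) (nat_lit 259) (nat_lit 258))))) (XT.nd (nat_lit 234) (nat_lit 0) (nat_lit 0) (XT.nd (nat_lit 78) (nat_lit 0) (nat_lit 0) (XT.lf (nat_lit 0) (nat_lit 31163371881) (nat_lit 76) (nat_lit 307453358606) (nat_lit 76) (nat_lit 307331817837) (nat_lit 1) (nat_lit 4) (nat_lit 2) (nat_lit 5) (nat_lit 2) (nat_lit 4) (nat_lit 384) (nat_lit 259) (nat_lit 257)) (XT.nd (nat_lit 78) (nat_lit 0) (nat_lit 0) (XT.lf (nat_lit 0) (nat_lit 37534203563) (nat_lit 76) (nat_lit 330083298774) (nat_lit 76) (nat_lit 329907653318) (nat_lit 1) (nat_lit 4) (nat_lit 2) (nat_lit 5) (nat_lit 2) (nat_lit 4) (nat_lit 385) (nat_lit 259) (nat_lit 256)) (XT.lf (nat_lit 0) (nat_lit 44235805343) (nat_lit 76) (nat_lit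 354611204318) (nat_lit 76) (nat_lit 354385461930) (nat_lit 1) (nat_lit 4) (nat_lit 2) (nat_lit 5) (nat_lit 2) (nat_lit 4) (nat_lit 386) (nat_lit 259) (nat_lit 255)))) (XT.nd (nat_lit 78) (nat_lit 0) (nat_lit 0) (XT.lf (nat_lit 0) (nat_lit 51307890415) (nat_lit 76) (nat_lit 381182425789) (nat_lit 76) (nat_lit 380910297353) (nat_lit 1) (nat_lit 4) (nat_lit 2) (nat_lit 5) (nat_lit 2) (nat_lit 4) (nat_lit 387) (nat_lit 259) (nat_lit 254)) (XT.nd (nat_lit 78) (nat_lit 0) (nat_lit 0) (XT.lf (nat_lit 0) (nat_lit 58792367432) (nat_lit 76) (nat_lit 409954422279) (nat_lit 76) (nat_lit 409639343798) (nat_lit 1) (nat_lit 4) (nat_lit 2) (nat_lit 5) (nat_lit 2) (nat_lit 4) (nat_lit 388) (nat_lit 259) (nat_lit 253)) (XT.lf (nat_lit 0) (nat_lit 66733588850) (nat_lit 76) (nat_lit 441097694506) (nat_lit 76) (nat_lit 440742847465) (nat_lit 1) (nat_lit 4) (nat_lit 2) (nat_lit 5) (nat_lit 2) (nat_lit 4) (nat_lit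 389) (nat_lit 259) (nat_lit 252)))))) (XT.nd (nat_lit 46254) (nat_lit 0) (nat_lit 0) (XT.nd (nat_lit 156) (nat_lit 0) (nat_lit 0) (XT.nd (nat_lit 78) (nat_lit 0) (nat_lit 0) (XT.lf (nat_lit 0) (nat_lit 75178613760) (nat_lit 76) (nat_lit 474796795196) (nat_lit 76) (nat_lit 474405125414) (nat_lit 1) (nat_lit 4) (nat_lit 2) (nat_lit 5) (nat_lit 2) (nat_lit 4) (nat_lit 390) (nat_lit 259) (nat_lit 251)) (XT.lf (nat_lit 0) (nat_lit 84177486753) (nat_lit 76) (nat_lit 511251422722) (nat_lit 76) (nat_lit 510825657809) (nat_lit 1) (nat_lit 4) (nat_lit 2) (nat_lit 5) (nat_lit 2) (nat_lit 4) (nat_lit 391) (nat_lit 259) (nat_lit 250))) (XT.nd (nat_lit 45942) (nat_lit 0) (nat_lit 0) (XT.lf (nat_lit 0) (nat_lit 93783534485) (nat_lit 76) (nat_lit 550677604506) (nat_lit 76) (nat_lit 550220270029) (nat_lit 1) (nat_lit 4) (nat_lit 2) (nat_lit 5) (nat_lit 2) (nat_lit 4) (nat_lit 392) (nat_lit 259) (nat_lit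 249)) (XT.nd (nat_lit 78) (nat_lit 0) (nat_lit 0) (XT.lf (nat_lit 0) (nat_lit 4187235891) (nat_lit 76) (nat_lit 116697255949) (nat_lit 76) (nat_lit 116697255949) (nat_lit 1) (nat_lit 4) (nat_lit 2) (nat_lit 5) (nat_lit 2) (nat_lit 4) (nat_lit 380) (nat_lit 260) (nat_lit 260)) (XT.lf (nat_lit 0) (nat_lit 13666435205) (nat_lit 76) (nat_lit 249729983025) (nat_lit 76) (nat_lit 249661826702) (nat_lit 1) (nat_lit 4) (nat_lit 2) (nat_lit 5) (nat_lit 2) (nat_lit 4) (nat_lit 381) (nat_lit 260) (nat_lit 259))))) (XT.nd (nat_lit 234) (nat_lit 0) (nat_lit 0) (XT.nd (nat_lit 78) (nat_lit 0) (nat_lit 0) (XT.lf (nat_lit 0) (nat_lit 19156397712) (nat_lit 76) (nat_lit 267482605027) (nat_lit 76) (nat_lit 267351340997) (nat_lit 1) (nat_lit 4) (nat_lit 2) (nat_lit 5) (nat_lit 2) (nat_lit 4) (nat_lit 382) (nat_lit 260) (nat_lit 258)) (XT.nd (nat_lit 78) (nat_lit 0) (nat_lit 0) (XT.lf (nat_lit 0) (nat_lit 24876892415)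 (nat_lit 76) (nat_lit 286757578627) (nat_lit 76) (nat_lit 286567881535) (nat_lit 1) (nat_lit 4) (nat_lit 2) (nat_lit 5) (nat_lit 2) (nat_lit 4) (nat_lit 383) (nat_lit 260) (nat_lit 257)) (XT.lf (nat_lit 0) (nat_lit 30861818542) (nat_lit 76) (nat_lit 307669125890) (nat_lit 76) (nat_lit 307425324111) (nat_lit 1) (nat_lit 4) (nat_lit 2) (nat_lit 5) (nat_lit 2) (nat_lit 4) (nat_lit 384) (nat_lit 260) (nat_lit 256)))) (XT.nd (nat_lit 78) (nat_lit 0) (nat_lit 0) (XT.lf (nat_lit 0) (nat_lit 37146642321) (nat_lit 76) (nat_lit 330341167098) (nat_lit 76) (nat_lit 330047268387) (nat_lit 1) (nat_lit 4) (nat_lit 2) (nat_lit 5) (nat_lit 2) (nat_lit 4) (nat_lit 385) (nat_lit 260) (nat_lit 255)) (XT.nd (nat_lit 78) (nat_lit 0) (nat_lit 0) (XT.lf (nat_lit 0) (nat_lit 43768607153) (nat_lit 76) (nat_lit 354908055086) (nat_lit 76) (nat_lit 354567770327) (nat_lit 1) (nat_lit 4) (nat_lit 2) (nat_lit 5) (nat_lit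 2) (nat_lit 4) (nat_lit 386) (nat_lit 260) (nat_lit 254)) (XT.lf (nat_lit 0) (nat_lit 50766954312) (nat_lit 76) (nat_lit 381515371414) (nat_lit 76) (nat_lit 381132136609) (nat_lit 1) (nat_lit 4) (nat_lit 2) (nat_lit 5) (nat_lit 2) (nat_lit 4) (nat_lit 387) (nat_lit 260) (nat_lit 253))))))))
noncomputable def xc1 : XT := (XT.nd (nat_lit 92976) (nat_lit 0) (nat_lit 0) (XT.nd (nat_lit 46566) (nat_lit 0) (nat_lit 0) (XT.nd (nat_lit 46098) (nat_lit 0) (nat_lit 0) (XT.nd (nat_lit 156) (nat_lit 0) (nat_lit 0) (XT.nd (nat_lit 78) (nat_lit 0) (nat_lit 0) (XT.lf (nat_lit 0) (nat_lit 58183155483) (nat_lit 76) (nat_lit 410320789066) (nat_lit 76) (nat_lit 409897785702) (nat_lit 1) (nat_lit 4) (nat_lit 2) (nat_lit 5) (nat_lit 2) (nat_lit 4) (nat_lit 388) (nat_lit 260) (nat_lit 252)) (XT.lf (nat_lit 0) (nat_lit 66061158525) (nat_lit 76) (nat_lit 441495006814) (nat_lit 76) (nat_lit 441035180709) (nat_lit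 1) (nat_lit 4) (nat_lit 2) (nat_lit 5) (nat_lit 2) (nat_lit 4) (nat_lit 389) (nat_lit 260) (nat_lit 251))) (XT.nd (nat_lit 78) (nat_lit 0) (nat_lit 0) (XT.lf (nat_lit 0) (nat_lit 74447647902) (nat_lit 76) (nat_lit 475222760764) (nat_lit 76) (nat_lit 474728839529) (nat_lit 1) (nat_lit 4) (nat_lit 2) (nat_lit 5) (nat_lit 2) (nat_lit 4) (nat_lit 390) (nat_lit 260) (nat_lit 250)) (XT.nd (nat_lit 78) (nat_lit 0) (nat_lit 0) (XT.lf (nat_lit 0) (nat_lit 83392321327) (nat_lit 76) (nat_lit 511703919087) (nat_lit 76) (nat_lit 511178428286) (nat_lit 1) (nat_lit 4) (nat_lit 2) (nat_lit 5) (nat_lit 2) (nat_lit 4) (nat_lit 391) (nat_lit 260) (nat_lit 249)) (XT.lf (nat_lit 0) (nat_lit 92948184273) (nat_lit 76) (nat_lit 551154666424) (nat_lit 76) (nat_lit 550599944544) (nat_lit 1) (nat_lit 4) (nat_lit 2) (nat_lit 5) (nat_lit 2) (nat_lit 4) (nat_lit 392) (nat_lit 260) (nat_lit 248))))) (XT.nd (nat_lit 234)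 (nat_lit 0) (nat_lit 0) (XT.nd (nat_lit 78) (nat_lit 76) (nat_lit 0) (XT.lf (nat_lit 0) (nat_lit 101509520084) (nat_lit 152) (nat_lit 780946203) (nat_lit 0) (nat_lit 101509520084) (nat_lit 2) (nat_lit 5) (nat_lit 4) (nat_lit 4) (nat_lit 2) (nat_lit 4) (nat_lit 378) (nat_lit 261) (nat_lit 261)) (XT.nd (nat_lit 78) (nat_lit 0) (nat_lit 0) (XT.lf (nat_lit 0) (nat_lit 3249147661) (nat_lit 76) (nat_lit 218452997685) (nat_lit 76) (nat_lit 218379388855) (nat_lit 1) (nat_lit 4) (nat_lit 2) (nat_lit 5) (nat_lit 2) (nat_lit 4) (nat_lit 379) (nat_lit 261) (nat_lit 260)) (XT.lf (nat_lit 0) (nat_lit 8257458980) (nat_lit 76) (nat_lit 233525398728) (nat_lit 76) (nat_lit 233383633575) (nat_lit 1) (nat_lit 4) (nat_lit 2) (nat_lit 5) (nat_lit 2) (nat_lit 4) (nat_lit 380) (nat_lit 261) (nat_lit 259)))) (XT.nd (nat_lit 78) (nat_lit 0) (nat_lit 0) (XT.lf (nat_lit 0) (nat_lit 13441077216) (nat_lit 76) (nat_lit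 249913905039) (nat_lit 76) (nat_lit 249709032180) (nat_lit 1) (nat_lit 4) (nat_lit 2) (nat_lit 5) (nat_lit 2) (nat_lit 4) (nat_lit 381) (nat_lit 261) (nat_lit 258)) (XT.nd (nat_lit 78) (nat_lit 0) (nat_lit 0) (XT.lf (nat_lit 0) (nat_lit 18830720105) (nat_lit 76) (nat_lit 267715633694) (nat_lit 76) (nat_lit 267452327773) (nat_lit 1) (nat_lit 4) (nat_lit 2) (nat_lit 5) (nat_lit 2) (nat_lit 4) (nat_lit 382) (nat_lit 261) (nat_lit 257)) (XT.lf (nat_lit 0) (nat_lit 24458326273) (nat_lit 76) (nat_lit 287036076417) (nat_lit 76) (nat_lit 286718665809) (nat_lit 1) (nat_lit 4) (nat_lit 2) (nat_lit 5) (nat_lit 2) (nat_lit 4) (nat_lit 383) (nat_lit 261) (nat_lit 256)))))) (XT.nd (nat_lit 390) (nat_lit 0) (nat_lit 0) (XT.nd (nat_lit 156) (nat_lit 0) (nat_lit 0) (XT.nd (nat_lit 78) (nat_lit 0) (nat_lit 0) (XT.lf (nat_lit 0) (nat_lit 30357244498) (nat_lit 76) (nat_lit 307989724720) (nat_lit 76) (nat_lit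 307622217180) (nat_lit 1) (nat_lit 4) (nat_lit 2) (nat_lit 5) (nat_lit 2) (nat_lit 4) (nat_lit 384) (nat_lit 261) (nat_lit 255)) (XT.lf (nat_lit 0) (nat_lit 36562431330) (nat_lit 76) (nat_lit 330700748372) (nat_lit 76) (nat_lit 330286854783) (nat_lit 1) (nat_lit 4) (nat_lit 2) (nat_lit 5) (nat_lit 2) (nat_lit 4) (nat_lit 385) (nat_lit 261) (nat_lit 254))) (XT.nd (nat_lit 78) (nat_lit 0) (nat_lit 0) (XT.lf (nat_lit 0) (nat_lit 43110658249) (nat_lit 76) (nat_lit 355303731216) (nat_lit 76) (nat_lit 354846887583) (nat_lit 1) (nat_lit 4) (nat_lit 2) (nat_lit 5) (nat_lit 2) (nat_lit 4) (nat_lit 386) (nat_lit 261) (nat_lit 253)) (XT.nd (nat_lit 78) (nat_lit 0) (nat_lit 0) (XT.lf (nat_lit 0) (nat_lit 50040729561) (nat_lit 76) (nat_lit 381944468706) (nat_lit 76) (nat_lit 381447856513) (nat_lit 1) (nat_lit 4) (nat_lit 2) (nat_lit 5) (nat_lit 2) (nat_lit 4) (nat_lit 387) (nat_lit 261) (nat_lit 252))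 (XT.lf (nat_lit 0) (nat_lit 57393712356) (nat_lit 76) (nat_lit 410780831880) (nat_lit 76) (nat_lit 410247396946) (nat_lit 1) (nat_lit 4) (nat_lit 2) (nat_lit 5) (nat_lit 2) (nat_lit 4) (nat_lit 388) (nat_lit 261) (nat_lit 251))))) (XT.nd (nat_lit 234) (nat_lit 0) (nat_lit 0) (XT.nd (nat_lit 78) (nat_lit 0) (nat_lit 0) (XT.lf (nat_lit 0) (nat_lit 65213179865) (nat_lit 76) (nat_lit 441983702889) (nat_lit 76) (nat_lit 441416172824) (nat_lit 1) (nat_lit 4) (nat_lit 2) (nat_lit 5) (nat_lit 2) (nat_lit 4) (nat_lit 389) (nat_lit 261) (nat_lit 250)) (XT.nd (nat_lit 78) (nat_lit 0) (nat_lit 0) (XT.lf (nat_lit 0) (nat_lit 73545469673) (nat_lit 76) (nat_lit 475737987635) (nat_lit 76) (nat_lit 475138888005) (nat_lit 1) (nat_lit 4) (nat_lit 2) (nat_lit 5) (nat_lit 2) (nat_lit 4) (nat_lit 390) (nat_lit 261) (nat_lit 249)) (XT.lf (nat_lit 0) (nat_lit 82439958314) (nat_lit 76) (nat_lit 512243711510) (nat_lit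 76) (nat_lit 511615380801) (nat_lit 1) (nat_lit 4) (nat_lit 2) (nat_lit 5) (nat_lit 2) (nat_lit 4) (nat_lit 391) (nat_lit 261) (nat_lit 248)))) (XT.nd (nat_lit 45630) (nat_lit 0) (nat_lit 76) (XT.lf (nat_lit 0) (nat_lit 91949353866) (nat_lit 76) (nat_lit 551717204729) (nat_lit 76) (nat_lit 551061808207) (nat_lit 1) (nat_lit 4) (nat_lit 2) (nat_lit 5) (nat_lit 2) (nat_lit 4) (nat_lit 392) (nat_lit 261) (nat_lit 247)) (XT.nd (nat_lit 78) (nat_lit 0) (nat_lit 0) (XT.lf (nat_lit 0) (nat_lit 84788780783) (nat_lit 152) (nat_lit 5265937204) (nat_lit 0) (nat_lit 84788780783) (nat_lit 2) (nat_lit 5) (nat_lit 4) (nat_lit 4) (nat_lit 2) (nat_lit 4) (nat_lit 376) (nat_lit 262) (nat_lit 262)) (XT.lf (nat_lit 0) (nat_lit 185725888450) (nat_lit 152) (nat_lit 6155866041) (nat_lit 0) (nat_lit 185646390914) (nat_lit 2) (nat_lit 5) (nat_lit 4) (nat_lit 4) (nat_lit 2) (nat_lit 4) (nat_lit 377) (nat_lit 262)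 (nat_lit 261))))))) (XT.nd (nat_lit 858) (nat_lit 0) (nat_lit 0) (XT.nd (nat_lit 390) (nat_lit 0) (nat_lit 0) (XT.nd (nat_lit 156) (nat_lit 0) (nat_lit 0) (XT.nd (nat_lit 78) (nat_lit 76) (nat_lit 0) (XT.lf (nat_lit 0) (nat_lit 203035997167) (nat_lit 152) (nat_lit 1684221480) (nat_lit 0) (nat_lit 202882890802) (nat_lit 2) (nat_lit 5) (nat_lit 4) (nat_lit 4) (nat_lit 2) (nat_lit 4) (nat_lit 378) (nat_lit 262) (nat_lit 260)) (XT.lf (nat_lit 0) (nat_lit 3005761033) (nat_lit 76) (nat_lit 218651633460) (nat_lit 76) (nat_lit 218430370772) (nat_lit 1) (nat_lit 4) (nat_lit 2) (nat_lit 5) (nat_lit 2) (nat_lit 4) (nat_lit 379) (nat_lit 262) (nat_lit 259))) (XT.nd (nat_lit 78) (nat_lit 0) (nat_lit 0) (XT.lf (nat_lit 0) (nat_lit 7905727165) (nat_lit 76) (nat_lit 233777069688) (nat_lit 76) (nat_lit 233492699293) (nat_lit 1) (nat_lit 4) (nat_lit 2) (nat_lit 5) (nat_lit 2) (nat_lit 4) (nat_lit 380) (nat_lit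 262) (nat_lit 258)) (XT.nd (nat_lit 78) (nat_lit 0) (nat_lit 0) (XT.lf (nat_lit 0) (nat_lit 12989025783) (nat_lit 76) (nat_lit 250214682653) (nat_lit 76) (nat_lit 249871879196) (nat_lit 1) (nat_lit 4) (nat_lit 2) (nat_lit 5) (nat_lit 2) (nat_lit 4) (nat_lit 381) (nat_lit 262) (nat_lit 257)) (XT.lf (nat_lit 0) (nat_lit 18285780137) (nat_lit 76) (nat_lit 268061880430) (nat_lit 76) (nat_lit 267664972287) (nat_lit 1) (nat_lit 4) (nat_lit 2) (nat_lit 5) (nat_lit 2) (nat_lit 4) (nat_lit 382) (nat_lit 262) (nat_lit 256))))) (XT.nd (nat_lit 234) (nat_lit 0) (nat_lit 0) (XT.nd (nat_lit 78) (nat_lit 0) (nat_lit 0) (XT.lf (nat_lit 0) (nat_lit 23827378403) (nat_lit 76) (nat_lit 287424424193) (nat_lit 76) (nat_lit 286977419117) (nat_lit 1) (nat_lit 4) (nat_lit 2) (nat_lit 5) (nat_lit 2) (nat_lit 4) (nat_lit 383) (nat_lit 262) (nat_lit 255)) (XT.nd (nat_lit 78) (nat_lit 0) (nat_lit 0) (XT.lf (nat_lit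 0) (nat_lit 29646659680) (nat_lit 76) (nat_lit 308417054940) (nat_lit 76) (nat_lit 307923663816) (nat_lit 1) (nat_lit 4) (nat_lit 2) (nat_lit 5) (nat_lit 2) (nat_lit 4) (nat_lit 384) (nat_lit 262) (nat_lit 254)) (XT.lf (nat_lit 0) (nat_lit 35778108599) (nat_lit 76) (nat_lit 331164173448) (nat_lit 76) (nat_lit 330627832279) (nat_lit 1) (nat_lit 4) (nat_lit 2) (nat_lit 5) (nat_lit 2) (nat_lit 4) (nat_lit 385) (nat_lit 262) (nat_lit 253)))) (XT.nd (nat_lit 78) (nat_lit 0) (nat_lit 0) (XT.lf (nat_lit 0) (nat_lit 42258059671) (nat_lit 76) (nat_lit 355800577455) (nat_lit 76) (nat_lit 355224467726) (nat_lit 1) (nat_lit 4) (nat_lit 2) (nat_lit 5) (nat_lit 2) (nat_lit 4) (nat_lit 386) (nat_lit 262) (nat_lit 252)) (XT.nd (nat_lit 78) (nat_lit 0) (nat_lit 0) (XT.lf (nat_lit 0) (nat_lit 49124912607) (nat_lit 76) (nat_lit 382472260467) (nat_lit 76) (nat_lit 381859327997) (nat_lit 1) (nat_lit 4) (nat_lit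 2) (nat_lit 5) (nat_lit 2) (nat_lit 4) (nat_lit 387) (nat_lit 262) (nat_lit 251)) (XT.lf (nat_lit 0) (nat_lit 56419359869) (nat_lit 76) (nat_lit 411337276900) (nat_lit 76) (nat_lit 410690249300) (nat_lit 1) (nat_lit 4) (nat_lit 2) (nat_lit 5) (nat_lit 2) (nat_lit 4) (nat_lit 388) (nat_lit 262) (nat_lit 250)))))) (XT.nd (nat_lit 45786) (nat_lit 0) (nat_lit 0) (XT.nd (nat_lit 156) (nat_lit 0) (nat_lit 0) (XT.nd (nat_lit 78) (nat_lit 0) (nat_lit 0) (XT.lf (nat_lit 0) (nat_lit 64184627810) (nat_lit 76) (nat_lit 442566678706) (nat_lit 76) (nat_lit 441888081540) (nat_lit 1) (nat_lit 4) (nat_lit 2) (nat_lit 5) (nat_lit 2) (nat_lit 4) (nat_lit 389) (nat_lit 262) (nat_lit 249)) (XT.lf (nat_lit 0) (nat_lit 72466732834) (nat_lit 76) (nat_lit 476345529004) (nat_lit 76) (nat_lit 475637700760) (nat_lit 1) (nat_lit 4) (nat_lit 2) (nat_lit 5) (nat_lit 2) (nat_lit 4) (nat_lit 390) (nat_lit 262) (nat_lit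 248))) (XT.nd (nat_lit 78) (nat_lit 0) (nat_lit 0) (XT.lf (nat_lit 0) (nat_lit 81314754080) (nat_lit 76) (nat_lit 512873998761) (nat_lit 76) (nat_lit 512139104703) (nat_lit 1) (nat_lit 4) (nat_lit 2) (nat_lit 5) (nat_lit 2) (nat_lit 4) (nat_lit 391) (nat_lit 262) (nat_lit 247)) (XT.nd (nat_lit 45474) (nat_lit 0) (nat_lit 76) (XT.lf (nat_lit 0) (nat_lit 90781124269) (nat_lit 76) (nat_lit 552368552982) (nat_lit 76) (nat_lit 551608597985) (nat_lit 1) (nat_lit 4) (nat_lit 2) (nat_lit 5) (nat_lit 2) (nat_lit 4) (nat_lit 392) (nat_lit 262) (nat_lit 246)) (XT.lf (nat_lit 0) (nat_lit 70274300164) (nat_lit 152) (nat_lit 9478806234) (nat_lit 0) (nat_lit 70274300164) (nat_lit 2) (nat_lit 5) (nat_lit 4) (nat_lit 4) (nat_lit 2) (nat_lit 4) (nat_lit 374) (nat_lit 263) (nat_lit 263))))) (XT.nd (nat_lit 234) (nat_lit 76) (nat_lit 0) (XT.nd (nat_lit 78) (nat_lit 0) (nat_lit 0) (XT.lf (nat_lit 0) (nat_lit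 154581180068) (nat_lit 152) (nat_lit 14838178482) (nat_lit 0) (nat_lit 154495322730) (nat_lit 2) (nat_lit 5) (nat_lit 4) (nat_lit 4) (nat_lit 2) (nat_lit 4) (nat_lit 375) (nat_lit 263) (nat_lit 262)) (XT.nd (nat_lit 78) (nat_lit 0) (nat_lit 0) (XT.lf (nat_lit 0) (nat_lit 169595875126) (nat_lit 152) (nat_lit 10663989808) (nat_lit 0) (nat_lit 169430520252) (nat_lit 2) (nat_lit 5) (nat_lit 4) (nat_lit 4) (nat_lit 2) (nat_lit 4) (nat_lit 376) (nat_lit 263) (nat_lit 261)) (XT.lf (nat_lit 0) (nat_lit 185681661472) (nat_lit 152) (nat_lit 6410310516) (nat_lit 0) (nat_lit 185442697769) (nat_lit 2) (nat_lit 5) (nat_lit 4) (nat_lit 4) (nat_lit 2) (nat_lit 4) (nat_lit 377) (nat_lit 263) (nat_lit 260)))) (XT.nd (nat_lit 78) (nat_lit 76) (nat_lit 0) (XT.lf (nat_lit 0) (nat_lit 202933862284) (nat_lit 152) (nat_lit 2051933617) (nat_lit 0) (nat_lit 202626742258) (nat_lit 2) (nat_lit 5) (nat_lit 4) (nat_lit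 4) (nat_lit 2) (nat_lit 4) (nat_lit 378) (nat_lit 263) (nat_lit 259)) (XT.nd (nat_lit 78) (nat_lit 0) (nat_lit 0) (XT.lf (nat_lit 0) (nat_lit 2517545485) (nat_lit 76) (nat_lit 218976473282) (nat_lit 76) (nat_lit 218606245549) (nat_lit 1) (nat_lit 4) (nat_lit 2) (nat_lit 5) (nat_lit 2) (nat_lit 4) (nat_lit 379) (nat_lit 263) (nat_lit 258)) (XT.lf (nat_lit 0) (nat_lit 7317192000) (nat_lit 76) (nat_lit 234151016163) (nat_lit 76) (nat_lit 233722355368) (nat_lit 1) (nat_lit 4) (nat_lit 2) (nat_lit 5) (nat_lit 2) (nat_lit 4) (nat_lit 380) (nat_lit 263) (nat_lit 257))))))))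
noncomputable def xc2 : XT := (XT.nd (nat_lit 46956) (nat_lit 0) (nat_lit 0) (XT.nd (nat_lit 858) (nat_lit 0) (nat_lit 0) (XT.nd (nat_lit 390) (nat_lit 0) (nat_lit 0) (XT.nd (nat_lit 156) (nat_lit 0) (nat_lit 0) (XT.nd (nat_lit 78) (nat_lit 0) (nat_lit 0) (XT.lf (nat_lit 0) (nat_lit 12307602083) (nat_lit 76) (nat_lit 250634098251) (nat_lit 76) (nat_lit 250151332769) (nat_lit 1) (nat_lit 4) (nat_lit 2) (nat_lit 5) (nat_lit 2) (nat_lit 4) (nat_lit 381) (nat_lit 263) (nat_lit 256)) (XT.lf (nat_lit 0) (nat_lit 17518348535) (nat_lit 76) (nat_lit 268523397068) (nat_lit 76) (nat_lit 267990534654) (nat_lit 1) (nat_lit 4) (nat_lit 2) (nat_lit 5) (nat_lit 2) (nat_lit 4) (nat_lit 382) (nat_lit 263) (nat_lit 255))) (XT.nd (nat_lit 78) (nat_lit 0) (nat_lit 0) (XT.lf (nat_lit 0) (nat_lit 22980309853) (nat_lit 76) (nat_lit 287924923275) (nat_lit 76) (nat_lit 287345674813) (nat_lit 1) (nat_lit 4) (nat_lit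 2) (nat_lit 5) (nat_lit 2) (nat_lit 4) (nat_lit 383) (nat_lit 263) (nat_lit 254)) (XT.nd (nat_lit 78) (nat_lit 0) (nat_lit 0) (XT.lf (nat_lit 0) (nat_lit 28725853217) (nat_lit 76) (nat_lit 308953648879) (nat_lit 76) (nat_lit 308331450371) (nat_lit 1) (nat_lit 4) (nat_lit 2) (nat_lit 5) (nat_lit 2) (nat_lit 4) (nat_lit 384) (nat_lit 263) (nat_lit 253)) (XT.lf (nat_lit 0) (nat_lit 34789026290) (nat_lit 76) (nat_lit 331734188549) (nat_lit 76) (nat_lit 331072221482) (nat_lit 1) (nat_lit 4) (nat_lit 2) (nat_lit 5) (nat_lit 2) (nat_lit 4) (nat_lit 385) (nat_lit 263) (nat_lit 252))))) (XT.nd (nat_lit 234) (nat_lit 0) (nat_lit 0) (XT.nd (nat_lit 78) (nat_lit 0) (nat_lit 0) (XT.lf (nat_lit 0) (nat_lit 41205758986) (nat_lit 76) (nat_lit 356401538077) (nat_lit 76) (nat_lit 355702748269) (nat_lit 1) (nat_lit 4) (nat_lit 2) (nat_lit 5) (nat_lit 2) (nat_lit 4) (nat_lit 386) (nat_lit 263) (nat_lit 251))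 (XT.nd (nat_lit 78) (nat_lit 0) (nat_lit 0) (XT.lf (nat_lit 0) (nat_lit 48014076389) (nat_lit 76) (nat_lit 383101874349) (nat_lit 76) (nat_lit 382368989411) (nat_lit 1) (nat_lit 4) (nat_lit 2) (nat_lit 5) (nat_lit 2) (nat_lit 4) (nat_lit 387) (nat_lit 263) (nat_lit 250)) (XT.lf (nat_lit 0) (nat_lit 55254324082) (nat_lit 76) (nat_lit 411993421579) (nat_lit 76) (nat_lit 411228967076) (nat_lit 1) (nat_lit 4) (nat_lit 2) (nat_lit 5) (nat_lit 2) (nat_lit 4) (nat_lit 388) (nat_lit 263) (nat_lit 249)))) (XT.nd (nat_lit 78) (nat_lit 0) (nat_lit 0) (XT.lf (nat_lit 0) (nat_lit 62969407238) (nat_lit 76) (nat_lit 443247388937) (nat_lit 76) (nat_lit 442453703355) (nat_lit 1) (nat_lit 4) (nat_lit 2) (nat_lit 5) (nat_lit 2) (nat_lit 4) (nat_lit 389) (nat_lit 263) (nat_lit 248)) (XT.nd (nat_lit 78) (nat_lit 0) (nat_lit 0) (XT.lf (nat_lit 0) (nat_lit 71205044868) (nat_lit 76) (nat_lit 477048985117) (nat_lit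 76) (nat_lit 476228233721) (nat_lit 1) (nat_lit 4) (nat_lit 2) (nat_lit 5) (nat_lit 2) (nat_lit 4) (nat_lit 390) (nat_lit 263) (nat_lit 247)) (XT.lf (nat_lit 0) (nat_lit 80010040750) (nat_lit 76) (nat_lit 513598515876) (nat_lit 76) (nat_lit 512752703541) (nat_lit 1) (nat_lit 4) (nat_lit 2) (nat_lit 5) (nat_lit 2) (nat_lit 4) (nat_lit 391) (nat_lit 263) (nat_lit 246)))))) (XT.nd (nat_lit 45630) (nat_lit 0) (nat_lit 0) (XT.nd (nat_lit 45396) (nat_lit 0) (nat_lit 76) (XT.nd (nat_lit 45318) (nat_lit 0) (nat_lit 76) (XT.lf (nat_lit 0) (nat_lit 89436572638) (nat_lit 76) (nat_lit 553112571024) (nat_lit 76) (nat_lit 552243554117) (nat_lit 1) (nat_lit 4) (nat_lit 2) (nat_lit 5) (nat_lit 2) (nat_lit 4) (nat_lit 392) (nat_lit 263) (nat_lit 245)) (XT.lf (nat_lit 0) (nat_lit 57636999422) (nat_lit 152) (nat_lit 13487791506) (nat_lit 0) (nat_lit 57636999422) (nat_lit 2) (nat_lit 5) (nat_lit 4) (nat_lit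 4) (nat_lit 2) (nat_lit 4) (nat_lit 372) (nat_lit 264) (nat_lit 264))) (XT.nd (nat_lit 78) (nat_lit 0) (nat_lit 0) (XT.lf (nat_lit 0) (nat_lit 127507705803) (nat_lit 152) (nat_lit 23046703231) (nat_lit 0) (nat_lit 127414979878) (nat_lit 2) (nat_lit 5) (nat_lit 4) (nat_lit 4) (nat_lit 2) (nat_lit 4) (nat_lit 373) (nat_lit 264) (nat_lit 263)) (XT.nd (nat_lit 78) (nat_lit 0) (nat_lit 0) (XT.lf (nat_lit 0) (nat_lit 140568378972) (nat_lit 152) (nat_lit 19100297101) (nat_lit 0) (nat_lit 140389795708) (nat_lit 2) (nat_lit 5) (nat_lit 4) (nat_lit 4) (nat_lit 2) (nat_lit 4) (nat_lit 374) (nat_lit 264) (nat_lit 262)) (XT.lf (nat_lit 0) (nat_lit 154533414932) (nat_lit 152) (nat_lit 15112978515) (nat_lit 0) (nat_lit 154275334133) (nat_lit 2) (nat_lit 5) (nat_lit 4) (nat_lit 4) (nat_lit 2) (nat_lit 4) (nat_lit 375) (nat_lit 264) (nat_lit 261))))) (XT.nd (nat_lit 234) (nat_lit 76) (nat_lit 0) (XT.nd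 (nat_lit 78) (nat_lit 0) (nat_lit 0) (XT.lf (nat_lit 0) (nat_lit 169485569453) (nat_lit 152) (nat_lit 11061118916) (nat_lit 0) (nat_lit 169153879825) (nat_lit 2) (nat_lit 5) (nat_lit 4) (nat_lit 4) (nat_lit 2) (nat_lit 4) (nat_lit 376) (nat_lit 264) (nat_lit 260)) (XT.nd (nat_lit 78) (nat_lit 0) (nat_lit 0) (XT.lf (nat_lit 0) (nat_lit 185513447895) (nat_lit 152) (nat_lit 6920707285) (nat_lit 0) (nat_lit 185113601943) (nat_lit 2) (nat_lit 5) (nat_lit 4) (nat_lit 4) (nat_lit 2) (nat_lit 4) (nat_lit 377) (nat_lit 264) (nat_lit 259)) (XT.lf (nat_lit 0) (nat_lit 202712030277) (nat_lit 152) (nat_lit 2667207850) (nat_lit 0) (nat_lit 202249076619) (nat_lit 2) (nat_lit 5) (nat_lit 4) (nat_lit 4) (nat_lit 2) (nat_lit 4) (nat_lit 378) (nat_lit 264) (nat_lit 258)))) (XT.nd (nat_lit 78) (nat_lit 0) (nat_lit 0) (XT.lf (nat_lit 0) (nat_lit 1781607889) (nat_lit 76) (nat_lit 219429442128) (nat_lit 76) (nat_lit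 218908055408) (nat_lit 1) (nat_lit 4) (nat_lit 2) (nat_lit 5) (nat_lit 2) (nat_lit 4) (nat_lit 379) (nat_lit 264) (nat_lit 257)) (XT.nd (nat_lit 78) (nat_lit 0) (nat_lit 0) (XT.lf (nat_lit 0) (nat_lit 6488365869) (nat_lit 76) (nat_lit 234649454132) (nat_lit 76) (nat_lit 234073962725) (nat_lit 1) (nat_lit 4) (nat_lit 2) (nat_lit 5) (nat_lit 2) (nat_lit 4) (nat_lit 380) (nat_lit 264) (nat_lit 256)) (XT.lf (nat_lit 0) (nat_lit 11392768049) (nat_lit 76) (nat_lit 251174637260) (nat_lit 76) (nat_lit 250549048920) (nat_lit 1) (nat_lit 4) (nat_lit 2) (nat_lit 5) (nat_lit 2) (nat_lit 4) (nat_lit 381) (nat_lit 264) (nat_lit 255))))))) (XT.nd (nat_lit 45942) (nat_lit 0) (nat_lit 0) (XT.nd (nat_lit 390) (nat_lit 0) (nat_lit 0) (XT.nd (nat_lit 156) (nat_lit 0) (nat_lit 0) (XT.nd (nat_lit 78) (nat_lit 0) (nat_lit 0) (XT.lf (nat_lit 0) (nat_lit 16523877554) (nat_lit 76) (nat_lit 269102918521) (nat_lit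 76) (nat_lit 268430944134) (nat_lit 1) (nat_lit 4) (nat_lit 2) (nat_lit 5) (nat_lit 2) (nat_lit 4) (nat_lit 382) (nat_lit 264) (nat_lit 254)) (XT.lf (nat_lit 0) (nat_lit 21912100959) (nat_lit 76) (nat_lit 288540539584) (nat_lit 76) (nat_lit 287825615151) (nat_lit 1) (nat_lit 4) (nat_lit 2) (nat_lit 5) (nat_lit 2) (nat_lit 4) (nat_lit 383) (nat_lit 264) (nat_lit 253))) (XT.nd (nat_lit 78) (nat_lit 0) (nat_lit 0) (XT.lf (nat_lit 0) (nat_lit 27589368476) (nat_lit 76) (nat_lit 309602686351) (nat_lit 76) (nat_lit 308847993358) (nat_lit 1) (nat_lit 4) (nat_lit 2) (nat_lit 5) (nat_lit 2) (nat_lit 4) (nat_lit 384) (nat_lit 264) (nat_lit 252)) (XT.nd (nat_lit 78) (nat_lit 0) (nat_lit 0) (XT.lf (nat_lit 0) (nat_lit 33589323173) (nat_lit 76) (nat_lit 332414171542) (nat_lit 76) (nat_lit 331622655809) (nat_lit 1) (nat_lit 4) (nat_lit 2) (nat_lit 5) (nat_lit 2) (nat_lit 4) (nat_lit 385) (nat_lit 264)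 (nat_lit 251)) (XT.lf (nat_lit 0) (nat_lit 39947520336) (nat_lit 76) (nat_lit 357110174330) (nat_lit 76) (nat_lit 356284563467) (nat_lit 1) (nat_lit 4) (nat_lit 2) (nat_lit 5) (nat_lit 2) (nat_lit 4) (nat_lit 386) (nat_lit 264) (nat_lit 250))))) (XT.nd (nat_lit 234) (nat_lit 0) (nat_lit 0) (XT.nd (nat_lit 78) (nat_lit 0) (nat_lit 0) (XT.lf (nat_lit 0) (nat_lit 46701638171) (nat_lit 76) (nat_lit 383837041399) (nat_lit 76) (nat_lit 382979860970) (nat_lit 1) (nat_lit 4) (nat_lit 2) (nat_lit 5) (nat_lit 2) (nat_lit 4) (nat_lit 387) (nat_lit 264) (nat_lit 249)) (XT.nd (nat_lit 78) (nat_lit 0) (nat_lit 0) (XT.lf (nat_lit 0) (nat_lit 53891701079) (nat_lit 76) (nat_lit 412753154181) (nat_lit 76) (nat_lit 411866742674) (nat_lit 1) (nat_lit 4) (nat_lit 2) (nat_lit 5) (nat_lit 2) (nat_lit 4) (nat_lit 388) (nat_lit 264) (nat_lit 248)) (XT.lf (nat_lit 0) (nat_lit 61560316842) (nat_lit 76) (nat_lit 444029867421)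 (nat_lit 76) (nat_lit 443116390099) (nat_lit 1) (nat_lit 4) (nat_lit 2) (nat_lit 5) (nat_lit 2) (nat_lit 4) (nat_lit 389) (nat_lit 264) (nat_lit 247)))) (XT.nd (nat_lit 78) (nat_lit 0) (nat_lit 0) (XT.lf (nat_lit 0) (nat_lit 69752929107) (nat_lit 76) (nat_lit 477852524603) (nat_lit 76) (nat_lit 476913986343) (nat_lit 1) (nat_lit 4) (nat_lit 2) (nat_lit 5) (nat_lit 2) (nat_lit 4) (nat_lit 390) (nat_lit 264) (nat_lit 246)) (XT.nd (nat_lit 78) (nat_lit 0) (nat_lit 0) (XT.lf (nat_lit 0) (nat_lit 78518086689) (nat_lit 76) (nat_lit 514421556289) (nat_lit 76) (nat_lit 513459813456) (nat_lit 1) (nat_lit 4) (nat_lit 2) (nat_lit 5) (nat_lit 2) (nat_lit 4) (nat_lit 391) (nat_lit 264) (nat_lit 245)) (XT.lf (nat_lit 0) (nat_lit 87907731262) (nat_lit 76) (nat_lit 553953667852) (nat_lit 76) (nat_lit 552970439303) (nat_lit 1) (nat_lit 4) (nat_lit 2) (nat_lit 5) (nat_lit 2) (nat_lit 4) (nat_lit 392) (nat_lit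 264) (nat_lit 244)))))) (XT.nd (nat_lit 390) (nat_lit 76) (nat_lit 0) (XT.nd (nat_lit 156) (nat_lit 0) (nat_lit 0) (XT.nd (nat_lit 78) (nat_lit 0) (nat_lit 0) (XT.lf (nat_lit 0) (nat_lit 46593600018) (nat_lit 152) (nat_lit 17353749646) (nat_lit 0) (nat_lit 46593600018) (nat_lit 2) (nat_lit 5) (nat_lit 4) (nat_lit 4) (nat_lit 2) (nat_lit 4) (nat_lit 370) (nat_lit 265) (nat_lit 265)) (XT.lf (nat_lit 0) (nat_lit 103894906054) (nat_lit 152) (nat_lit 30910218699) (nat_lit 0) (nat_lit 103794762055) (nat_lit 2) (nat_lit 5) (nat_lit 4) (nat_lit 4) (nat_lit 2) (nat_lit 4) (nat_lit 371) (nat_lit 265) (nat_lit 264))) (XT.nd (nat_lit 78) (nat_lit 0) (nat_lit 0) (XT.lf (nat_lit 0) (nat_lit 115295359780) (nat_lit 152) (nat_lit 27129682416) (nat_lit 0) (nat_lit 115102489855) (nat_lit 2) (nat_lit 5) (nat_lit 4) (nat_lit 4) (nat_lit 2) (nat_lit 4) (nat_lit 372) (nat_lit 265) (nat_lit 263)) (XT.nd (nat_lit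 78) (nat_lit 0) (nat_lit 0) (XT.lf (nat_lit 0) (nat_lit 127456119456) (nat_lit 152) (nat_lit 23343487266) (nat_lit 0) (nat_lit 127177392193) (nat_lit 2) (nat_lit 5) (nat_lit 4) (nat_lit 4) (nat_lit 2) (nat_lit 4) (nat_lit 373) (nat_lit 265) (nat_lit 262)) (XT.lf (nat_lit 0) (nat_lit 140449248845) (nat_lit 152) (nat_lit 19529196537) (nat_lit 0) (nat_lit 140091024046) (nat_lit 2) (nat_lit 5) (nat_lit 4) (nat_lit 4) (nat_lit 2) (nat_lit 4) (nat_lit 374) (nat_lit 265) (nat_lit 261))))) (XT.nd (nat_lit 234) (nat_lit 76) (nat_lit 0) (XT.nd (nat_lit 78) (nat_lit 0) (nat_lit 0) (XT.lf (nat_lit 0) (nat_lit 154351744269) (nat_lit 152) (nat_lit 15664207025) (nat_lit 0) (nat_lit 153919910641) (nat_lit 2) (nat_lit 5) (nat_lit 4) (nat_lit 4) (nat_lit 2) (nat_lit 4) (nat_lit 375) (nat_lit 265) (nat_lit 260)) (XT.nd (nat_lit 78) (nat_lit 0) (nat_lit 0) (XT.lf (nat_lit 0) (nat_lit 169245990885) (nat_lit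 152) (nat_lit 11725615088) (nat_lit 0) (nat_lit 168746000934) (nat_lit 2) (nat_lit 5) (nat_lit 4) (nat_lit 4) (nat_lit 2) (nat_lit 4) (nat_lit 376) (nat_lit 265) (nat_lit 259)) (XT.lf (nat_lit 0) (nat_lit 185220250897) (nat_lit 152) (nat_lit 7690080922) (nat_lit 0) (nat_lit 184657153239) (nat_lit 2) (nat_lit 5) (nat_lit 4) (nat_lit 4) (nat_lit 2) (nat_lit 4) (nat_lit 377) (nat_lit 265) (nat_lit 258)))) (XT.nd (nat_lit 78) (nat_lit 76) (nat_lit 0) (XT.lf (nat_lit 0) (nat_lit 202369186585) (nat_lit 152) (nat_lit 3533690250) (nat_lit 0) (nat_lit 201747655865) (nat_lit 2) (nat_lit 5) (nat_lit 4) (nat_lit 4) (nat_lit 2) (nat_lit 4) (nat_lit 378) (nat_lit 265) (nat_lit 257)) (XT.nd (nat_lit 78) (nat_lit 0) (nat_lit 0) (XT.lf (nat_lit 0) (nat_lit 793587133) (nat_lit 76) (nat_lit 220013224258) (nat_lit 76) (nat_lit 219337588851) (nat_lit 1) (nat_lit 4) (nat_lit 2) (nat_lit 5) (nat_lit 2) (nat_lit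 4) (nat_lit 379) (nat_lit 265) (nat_lit 256)) (XT.lf (nat_lit 0) (nat_lit 5414337210) (nat_lit 76) (nat_lit 235275337302) (nat_lit 76) (nat_lit 234549604963) (nat_lit 1) (nat_lit 4) (nat_lit 2) (nat_lit 5) (nat_lit 2) (nat_lit 4) (nat_lit 380) (nat_lit 265) (nat_lit 255))))))))
noncomputable def xc3 : XT := (XT.nd (nat_lit 46644) (nat_lit 0) (nat_lit 0) (XT.nd (nat_lit 858) (nat_lit 0) (nat_lit 0) (XT.nd (nat_lit 390) (nat_lit 0) (nat_lit 0) (XT.nd (nat_lit 156) (nat_lit 0) (nat_lit 0) (XT.nd (nat_lit 78) (nat_lit 0) (nat_lit 0) (XT.lf (nat_lit 0) (nat_lit 10239102443) (nat_lit 76) (nat_lit 251839502874) (nat_lit 76) (nat_lit 251067384486) (nat_lit 1) (nat_lit 4) (nat_lit 2) (nat_lit 5) (nat_lit 2) (nat_lit 4) (nat_lit 381) (nat_lit 265) (nat_lit 254)) (XT.lf (nat_lit 0) (nat_lit 15296474035) (nat_lit 76) (nat_lit 269803878991) (nat_lit 76) (nat_lit 268988810559) (nat_lit 1) (nat_lit 4)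 (nat_lit 2) (nat_lit 5) (nat_lit 2) (nat_lit 4) (nat_lit 382) (nat_lit 265) (nat_lit 253))) (XT.nd (nat_lit 78) (nat_lit 0) (nat_lit 0) (XT.lf (nat_lit 0) (nat_lit 20616421593) (nat_lit 76) (nat_lit 289274921217) (nat_lit 76) (nat_lit 288420084224) (nat_lit 1) (nat_lit 4) (nat_lit 2) (nat_lit 5) (nat_lit 2) (nat_lit 4) (nat_lit 383) (nat_lit 265) (nat_lit 252)) (XT.nd (nat_lit 78) (nat_lit 0) (nat_lit 0) (XT.lf (nat_lit 0) (nat_lit 26230470735) (nat_lit 76) (nat_lit 310368013504) (nat_lit 76) (nat_lit 309476353771) (nat_lit 1) (nat_lit 4) (nat_lit 2) (nat_lit 5) (nat_lit 2) (nat_lit 4) (nat_lit 384) (nat_lit 265) (nat_lit 251)) (XT.lf (nat_lit 0) (nat_lit 32171889898) (nat_lit 76) (nat_lit 333208151956) (nat_lit 76) (nat_lit 332282397093) (nat_lit 1) (nat_lit 4) (nat_lit 2) (nat_lit 5) (nat_lit 2) (nat_lit 4) (nat_lit 385) (nat_lit 265) (nat_lit 250))))) (XT.nd (nat_lit 234) (nat_lit 0)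 (nat_lit 0) (XT.nd (nat_lit 78) (nat_lit 0) (nat_lit 0) (XT.lf (nat_lit 0) (nat_lit 38475887493) (nat_lit 76) (nat_lit 357930685541) (nat_lit 76) (nat_lit 356973361113) (nat_lit 1) (nat_lit 4) (nat_lit 2) (nat_lit 5) (nat_lit 2) (nat_lit 4) (nat_lit 386) (nat_lit 265) (nat_lit 249)) (XT.nd (nat_lit 78) (nat_lit 0) (nat_lit 0) (XT.lf (nat_lit 0) (nat_lit 45179820543) (nat_lit 76) (nat_lit 384682118162) (nat_lit 76) (nat_lit 383695562654) (nat_lit 1) (nat_lit 4) (nat_lit 2) (nat_lit 5) (nat_lit 2) (nat_lit 4) (nat_lit 387) (nat_lit 265) (nat_lit 248)) (XT.lf (nat_lit 0) (nat_lit 52323416058) (nat_lit 76) (nat_lit 413620976826) (nat_lit 76) (nat_lit 412607355505) (nat_lit 1) (nat_lit 4) (nat_lit 2) (nat_lit 5) (nat_lit 2) (nat_lit 4) (nat_lit 388) (nat_lit 265) (nat_lit 247)))) (XT.nd (nat_lit 78) (nat_lit 0) (nat_lit 0) (XT.lf (nat_lit 0) (nat_lit 59949006456) (nat_lit 76) (nat_lit 444918751067)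 (nat_lit 76) (nat_lit 443880068808) (nat_lit 1) (nat_lit 4) (nat_lit 2) (nat_lit 5) (nat_lit 2) (nat_lit 4) (nat_lit 389) (nat_lit 265) (nat_lit 246)) (XT.nd (nat_lit 78) (nat_lit 0) (nat_lit 0) (XT.lf (nat_lit 0) (nat_lit 68101780421) (nat_lit 76) (nat_lit 478760909177) (nat_lit 76) (nat_lit 477699022345) (nat_lit 1) (nat_lit 4) (nat_lit 2) (nat_lit 5) (nat_lit 2) (nat_lit 4) (nat_lit 390) (nat_lit 265) (nat_lit 245)) (XT.lf (nat_lit 0) (nat_lit 76830050687) (nat_lit 76) (nat_lit 515347997277) (nat_lit 76) (nat_lit 514264624729) (nat_lit 1) (nat_lit 4) (nat_lit 2) (nat_lit 5) (nat_lit 2) (nat_lit 4) (nat_lit 391) (nat_lit 265) (nat_lit 244)))))) (XT.nd (nat_lit 45318) (nat_lit 0) (nat_lit 76) (XT.nd (nat_lit 45084) (nat_lit 0) (nat_lit 76) (XT.nd (nat_lit 45006) (nat_lit 0) (nat_lit 76) (XT.lf (nat_lit 0) (nat_lit 86185540338) (nat_lit 76) (nat_lit 554896827742) (nat_lit 76) (nat_lit 553793561013)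 (nat_lit 1) (nat_lit 4) (nat_lit 2) (nat_lit 5) (nat_lit 2) (nat_lit 4) (nat_lit 392) (nat_lit 265) (nat_lit 243)) (XT.lf (nat_lit 0) (nat_lit 36899998035) (nat_lit 152) (nat_lit 21131397029) (nat_lit 0) (nat_lit 36899998035) (nat_lit 2) (nat_lit 5) (nat_lit 4) (nat_lit 4) (nat_lit 2) (nat_lit 4) (nat_lit 368) (nat_lit 266) (nat_lit 266))) (XT.nd (nat_lit 78) (nat_lit 0) (nat_lit 0) (XT.lf (nat_lit 0) (nat_lit 83216944173) (nat_lit 152) (nat_lit 38544026602) (nat_lit 0) (nat_lit 83108788653) (nat_lit 2) (nat_lit 5) (nat_lit 4) (nat_lit 4) (nat_lit 2) (nat_lit 4) (nat_lit 369) (nat_lit 266) (nat_lit 265)) (XT.nd (nat_lit 78) (nat_lit 0) (nat_lit 0) (XT.lf (nat_lit 0) (nat_lit 93210269846) (nat_lit 152) (nat_lit 34873926649) (nat_lit 0) (nat_lit 93001970327) (nat_lit 2) (nat_lit 5) (nat_lit 4) (nat_lit 4) (nat_lit 2) (nat_lit 4) (nat_lit 370) (nat_lit 266) (nat_lit 264)) (XT.lf (nat_lit 0)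 (nat_lit 103839192800) (nat_lit 152) (nat_lit 31230745458) (nat_lit 0) (nat_lit 103538167355) (nat_lit 2) (nat_lit 5) (nat_lit 4) (nat_lit 4) (nat_lit 2) (nat_lit 4) (nat_lit 371) (nat_lit 266) (nat_lit 263))))) (XT.nd (nat_lit 234) (nat_lit 0) (nat_lit 0) (XT.nd (nat_lit 78) (nat_lit 0) (nat_lit 0) (XT.lf (nat_lit 0) (nat_lit 115166699243) (nat_lit 152) (nat_lit 27592893807) (nat_lit 0) (nat_lit 114779816460) (nat_lit 2) (nat_lit 5) (nat_lit 4) (nat_lit 4) (nat_lit 2) (nat_lit 4) (nat_lit 372) (nat_lit 266) (nat_lit 262)) (XT.nd (nat_lit 78) (nat_lit 0) (nat_lit 0) (XT.lf (nat_lit 0) (nat_lit 127259915139) (nat_lit 152) (nat_lit 23938814058) (nat_lit 0) (nat_lit 126793534821) (nat_lit 2) (nat_lit 5) (nat_lit 4) (nat_lit 4) (nat_lit 2) (nat_lit 4) (nat_lit 373) (nat_lit 266) (nat_lit 261)) (XT.lf (nat_lit 0) (nat_lit 140190503992) (nat_lit 152) (nat_lit 20246852404) (nat_lit 0) (nat_lit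 139650514844) (nat_lit 2) (nat_lit 5) (nat_lit 4) (nat_lit 4) (nat_lit 2) (nat_lit 4) (nat_lit 374) (nat_lit 266) (nat_lit 260)))) (XT.nd (nat_lit 78) (nat_lit 0) (nat_lit 0) (XT.lf (nat_lit 0) (nat_lit 154035091511) (nat_lit 152) (nat_lit 16495130553) (nat_lit 0) (nat_lit 153426946040) (nat_lit 2) (nat_lit 5) (nat_lit 4) (nat_lit 4) (nat_lit 2) (nat_lit 4) (nat_lit 375) (nat_lit 266) (nat_lit 259)) (XT.nd (nat_lit 78) (nat_lit 0) (nat_lit 0) (XT.lf (nat_lit 0) (nat_lit 168875719698) (nat_lit 152) (nat_lit 12661416080) (nat_lit 0) (nat_lit 168204466520) (nat_lit 2) (nat_lit 5) (nat_lit 4) (nat_lit 4) (nat_lit 2) (nat_lit 4) (nat_lit 376) (nat_lit 266) (nat_lit 258)) (XT.lf (nat_lit 0) (nat_lit 184800333015) (nat_lit 152) (nat_lit 8722990677) (nat_lit 0) (nat_lit 184070646776) (nat_lit 2) (nat_lit 5) (nat_lit 4) (nat_lit 4) (nat_lit 2) (nat_lit 4) (nat_lit 377) (nat_lit 266) (nat_lit 257)))))))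 (XT.nd (nat_lit 858) (nat_lit 0) (nat_lit 0) (XT.nd (nat_lit 390) (nat_lit 0) (nat_lit 0) (XT.nd (nat_lit 156) (nat_lit 76) (nat_lit 0) (XT.nd (nat_lit 78) (nat_lit 0) (nat_lit 0) (XT.lf (nat_lit 0) (nat_lit 201903299542) (nat_lit 152) (nat_lit 4656515528) (nat_lit 0) (nat_lit 201119508616) (nat_lit 2) (nat_lit 5) (nat_lit 4) (nat_lit 4) (nat_lit 2) (nat_lit 4) (nat_lit 378) (nat_lit 266) (nat_lit 256)) (XT.lf (nat_lit 0) (nat_lit 220285970190) (nat_lit 152) (nat_lit 437893000) (nat_lit 0) (nat_lit 219452082332) (nat_lit 2) (nat_lit 5) (nat_lit 4) (nat_lit 4) (nat_lit 2) (nat_lit 4) (nat_lit 379) (nat_lit 266) (nat_lit 255))) (XT.nd (nat_lit 78) (nat_lit 0) (nat_lit 0) (XT.lf (nat_lit 0) (nat_lit 4088741409) (nat_lit 76) (nat_lit 236032374609) (nat_lit 76) (nat_lit 235152100702) (nat_lit 1) (nat_lit 4) (nat_lit 2) (nat_lit 5) (nat_lit 2) (nat_lit 4) (nat_lit 380) (nat_lit 266) (nat_lit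 254)) (XT.nd (nat_lit 78) (nat_lit 0) (nat_lit 0) (XT.lf (nat_lit 0) (nat_lit 8839768728) (nat_lit 76) (nat_lit 252632635037) (nat_lit 76) (nat_lit 251709411085) (nat_lit 1) (nat_lit 4) (nat_lit 2) (nat_lit 5) (nat_lit 2) (nat_lit 4) (nat_lit 381) (nat_lit 266) (nat_lit 253)) (XT.lf (nat_lit 0) (nat_lit 13828864474) (nat_lit 76) (nat_lit 270630432317) (nat_lit 76) (nat_lit 269667439805) (nat_lit 1) (nat_lit 4) (nat_lit 2) (nat_lit 5) (nat_lit 2) (nat_lit 4) (nat_lit 382) (nat_lit 266) (nat_lit 252))))) (XT.nd (nat_lit 234) (nat_lit 0) (nat_lit 0) (XT.nd (nat_lit 78) (nat_lit 0) (nat_lit 0) (XT.lf (nat_lit 0) (nat_lit 19085593656) (nat_lit 76) (nat_lit 290132420064) (nat_lit 76) (nat_lit 289132604811) (nat_lit 1) (nat_lit 4) (nat_lit 2) (nat_lit 5) (nat_lit 2) (nat_lit 4) (nat_lit 383) (nat_lit 266) (nat_lit 251)) (XT.nd (nat_lit 78) (nat_lit 0) (nat_lit 0) (XT.lf (nat_lit 0) (nat_lit 24641107264)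 (nat_lit 76) (nat_lit 311254165611) (nat_lit 76) (nat_lit 310220255229) (nat_lit 1) (nat_lit 4) (nat_lit 2) (nat_lit 5) (nat_lit 2) (nat_lit 4) (nat_lit 384) (nat_lit 266) (nat_lit 250)) (XT.lf (nat_lit 0) (nat_lit 30528326860) (nat_lit 76) (nat_lit 334120834860) (nat_lit 76) (nat_lit 333055354912) (nat_lit 1) (nat_lit 4) (nat_lit 2) (nat_lit 5) (nat_lit 2) (nat_lit 4) (nat_lit 385) (nat_lit 266) (nat_lit 249)))) (XT.nd (nat_lit 78) (nat_lit 0) (nat_lit 0) (XT.lf (nat_lit 0) (nat_lit 36782139670) (nat_lit 76) (nat_lit 358867933997) (nat_lit 76) (nat_lit 357773222970) (nat_lit 1) (nat_lit 4) (nat_lit 2) (nat_lit 5) (nat_lit 2) (nat_lit 4) (nat_lit 386) (nat_lit 266) (nat_lit 248)) (XT.nd (nat_lit 78) (nat_lit 0) (nat_lit 0) (XT.lf (nat_lit 0) (nat_lit 43439605326) (nat_lit 76) (nat_lit 385642112500) (nat_lit 76) (nat_lit 384520335659) (nat_lit 1) (nat_lit 4) (nat_lit 2) (nat_lit 5) (nat_lit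 2) (nat_lit 4) (nat_lit 387) (nat_lit 266) (nat_lit 247)) (XT.lf (nat_lit 0) (nat_lit 50540175476) (nat_lit 76) (nat_lit 414602032166) (nat_lit 76) (nat_lit 413455194387) (nat_lit 1) (nat_lit 4) (nat_lit 2) (nat_lit 5) (nat_lit 2) (nat_lit 4) (nat_lit 388) (nat_lit 266) (nat_lit 246)))))) (XT.nd (nat_lit 45162) (nat_lit 0) (nat_lit 76) (XT.nd (nat_lit 156) (nat_lit 0) (nat_lit 0) (XT.nd (nat_lit 78) (nat_lit 0) (nat_lit 0) (XT.lf (nat_lit 0) (nat_lit 58125927574) (nat_lit 76) (nat_lit 445919307334) (nat_lit 76) (nat_lit 444749264983) (nat_lit 1) (nat_lit 4) (nat_lit 2) (nat_lit 5) (nat_lit 2) (nat_lit 4) (nat_lit 389) (nat_lit 266) (nat_lit 245)) (XT.lf (nat_lit 0) (nat_lit 66241814224) (nat_lit 76) (nat_lit 479779521858) (nat_lit 76) (nat_lit 478587993791) (nat_lit 1) (nat_lit 4) (nat_lit 2) (nat_lit 5) (nat_lit 2) (nat_lit 4) (nat_lit 390) (nat_lit 266) (nat_lit 244))) (XT.nd (nat_lit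 78) (nat_lit 0) (nat_lit 0) (XT.lf (nat_lit 0) (nat_lit 74935929569) (nat_lit 76) (nat_lit 516383328861) (nat_lit 76) (nat_lit 515171906613) (nat_lit 1) (nat_lit 4) (nat_lit 2) (nat_lit 5) (nat_lit 2) (nat_lit 4) (nat_lit 391) (nat_lit 266) (nat_lit 243)) (XT.nd (nat_lit 44850) (nat_lit 0) (nat_lit 76) (XT.lf (nat_lit 0) (nat_lit 84259794293) (nat_lit 76) (nat_lit 555947639791) (nat_lit 76) (nat_lit 554717797004) (nat_lit 1) (nat_lit 4) (nat_lit 2) (nat_lit 5) (nat_lit 2) (nat_lit 4) (nat_lit 392) (nat_lit 266) (nat_lit 242)) (XT.lf (nat_lit 0) (nat_lit 28345576424) (nat_lit 152) (nat_lit 24870389081) (nat_lit 0) (nat_lit 28345576424) (nat_lit 2) (nat_lit 5) (nat_lit 4) (nat_lit 4) (nat_lit 2) (nat_lit 4) (nat_lit 366) (nat_lit 267) (nat_lit 267))))) (XT.nd (nat_lit 234) (nat_lit 0) (nat_lit 0) (XT.nd (nat_lit 78) (nat_lit 0) (nat_lit 0) (XT.lf (nat_lit 0) (nat_lit 65020429365) (nat_lit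 152) (nat_lit 46052266157) (nat_lit 0) (nat_lit 64903621404) (nat_lit 2) (nat_lit 5) (nat_lit 4) (nat_lit 4) (nat_lit 2) (nat_lit 4) (nat_lit 367) (nat_lit 267) (nat_lit 266)) (XT.nd (nat_lit 78) (nat_lit 0) (nat_lit 0) (XT.lf (nat_lit 0) (nat_lit 73824911465) (nat_lit 152) (nat_lit 42442535602) (nat_lit 0) (nat_lit 73599947985) (nat_lit 2) (nat_lit 5) (nat_lit 4) (nat_lit 4) (nat_lit 2) (nat_lit 4) (nat_lit 368) (nat_lit 267) (nat_lit 265)) (XT.lf (nat_lit 0) (nat_lit 83156773857) (nat_lit 152) (nat_lit 38890195501) (nat_lit 0) (nat_lit 82831666377) (nat_lit 2) (nat_lit 5) (nat_lit 4) (nat_lit 4) (nat_lit 2) (nat_lit 4) (nat_lit 369) (nat_lit 267) (nat_lit 264)))) (XT.nd (nat_lit 78) (nat_lit 0) (nat_lit 0) (XT.lf (nat_lit 0) (nat_lit 93071316466) (nat_lit 152) (nat_lit 35374194951) (nat_lit 0) (nat_lit 92653483061) (nat_lit 2) (nat_lit 5) (nat_lit 4) (nat_lit 4) (nat_lit 2) (nat_lit 4)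 (nat_lit 370) (nat_lit 267) (nat_lit 263)) (XT.nd (nat_lit 78) (nat_lit 0) (nat_lit 0) (XT.lf (nat_lit 0) (nat_lit 103627292138) (nat_lit 152) (nat_lit 31873698393) (nat_lit 0) (nat_lit 103123601394) (nat_lit 2) (nat_lit 5) (nat_lit 4) (nat_lit 4) (nat_lit 2) (nat_lit 4) (nat_lit 371) (nat_lit 267) (nat_lit 262)) (XT.lf (nat_lit 0) (nat_lit 114887254801) (nat_lit 152) (nat_lit 28367962143) (nat_lit 0) (nat_lit 114304066522) (nat_lit 2) (nat_lit 5) (nat_lit 4) (nat_lit 4) (nat_lit 2) (nat_lit 4) (nat_lit 372) (nat_lit 267) (nat_lit 261))))))))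
noncomputable def xc4 : XT := (XT.nd (nat_lit 46410) (nat_lit 0) (nat_lit 0) (XT.nd (nat_lit 858) (nat_lit 0) (nat_lit 0) (XT.nd (nat_lit 390) (nat_lit 76) (nat_lit 0) (XT.nd (nat_lit 156) (nat_lit 0) (nat_lit 0) (XT.nd (nat_lit 78) (nat_lit 0) (nat_lit 0) (XT.lf (nat_lit 0) (nat_lit 126917930161) (nat_lit 152) (nat_lit 24836211468) (nat_lit 0) (nat_lit 126261133053) (nat_lit 2) (nat_lit 5) (nat_lit 4) (nat_lit 4) (nat_lit 2) (nat_lit 4) (nat_lit 373) (nat_lit 267) (nat_lit 260)) (XT.lf (nat_lit 0) (nat_lit 139790611109) (nat_lit 152) (nat_lit 21257517475) (nat_lit 0) (nat_lit 139065657678) (nat_lit 2) (nat_lit 5) (nat_lit 4) (nat_lit 4) (nat_lit 2) (nat_lit 4) (nat_lit 374) (nat_lit 267) (nat_lit 259))) (XT.nd (nat_lit 78) (nat_lit 0) (nat_lit 0) (XT.lf (nat_lit 0) (nat_lit 153581580199) (nat_lit 152) (nat_lit 17610673089) (nat_lit 0) (nat_lit 152793519060) (nat_lit 2) (nat_lit 5) (nat_lit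 4) (nat_lit 4) (nat_lit 2) (nat_lit 4) (nat_lit 375) (nat_lit 267) (nat_lit 258)) (XT.nd (nat_lit 78) (nat_lit 0) (nat_lit 0) (XT.lf (nat_lit 0) (nat_lit 168372561691) (nat_lit 152) (nat_lit 13874067379) (nat_lit 0) (nat_lit 167526067491) (nat_lit 2) (nat_lit 5) (nat_lit 4) (nat_lit 4) (nat_lit 2) (nat_lit 4) (nat_lit 376) (nat_lit 267) (nat_lit 257)) (XT.lf (nat_lit 0) (nat_lit 184251205846) (nat_lit 152) (nat_lit 10025557498) (nat_lit 0) (nat_lit 183350606960) (nat_lit 2) (nat_lit 5) (nat_lit 4) (nat_lit 4) (nat_lit 2) (nat_lit 4) (nat_lit 377) (nat_lit 267) (nat_lit 256))))) (XT.nd (nat_lit 234) (nat_lit 0) (nat_lit 0) (XT.nd (nat_lit 78) (nat_lit 76) (nat_lit 0) (XT.lf (nat_lit 0) (nat_lit 201311608335) (nat_lit 152) (nat_lit 6042337461) (nat_lit 0) (nat_lit 200360912516) (nat_lit 2) (nat_lit 5) (nat_lit 4) (nat_lit 4) (nat_lit 2) (nat_lit 4) (nat_lit 378) (nat_lit 267) (nat_lit 255))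 (XT.nd (nat_lit 78) (nat_lit 76) (nat_lit 0) (XT.lf (nat_lit 0) (nat_lit 219654867837) (nat_lit 152) (nat_lit 1900803001) (nat_lit 0) (nat_lit 218657785969) (nat_lit 2) (nat_lit 5) (nat_lit 4) (nat_lit 4) (nat_lit 2) (nat_lit 4) (nat_lit 379) (nat_lit 267) (nat_lit 254)) (XT.lf (nat_lit 0) (nat_lit 2503723083) (nat_lit 76) (nat_lit 236925052201) (nat_lit 76) (nat_lit 235885020288) (nat_lit 1) (nat_lit 4) (nat_lit 2) (nat_lit 5) (nat_lit 2) (nat_lit 4) (nat_lit 380) (nat_lit 267) (nat_lit 253)))) (XT.nd (nat_lit 78) (nat_lit 0) (nat_lit 0) (XT.lf (nat_lit 0) (nat_lit 7186474556) (nat_lit 76) (nat_lit 253558733791) (nat_lit 76) (nat_lit 252478933319) (nat_lit 1) (nat_lit 4) (nat_lit 2) (nat_lit 5) (nat_lit 2) (nat_lit 4) (nat_lit 381) (nat_lit 267) (nat_lit 252)) (XT.nd (nat_lit 78) (nat_lit 0) (nat_lit 0) (XT.lf (nat_lit 0) (nat_lit 12112351926) (nat_lit 76) (nat_lit 271587476593) (nat_lit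 76) (nat_lit 270470853379) (nat_lit 1) (nat_lit 4) (nat_lit 2) (nat_lit 5) (nat_lit 2) (nat_lit 4) (nat_lit 382) (nat_lit 267) (nat_lit 251)) (XT.lf (nat_lit 0) (nat_lit 17310545575) (nat_lit 76) (nat_lit 291118117600) (nat_lit 76) (nat_lit 289967399256) (nat_lit 1) (nat_lit 4) (nat_lit 2) (nat_lit 5) (nat_lit 2) (nat_lit 4) (nat_lit 383) (nat_lit 267) (nat_lit 250)))))) (XT.nd (nat_lit 390) (nat_lit 0) (nat_lit 0) (XT.nd (nat_lit 156) (nat_lit 0) (nat_lit 0) (XT.nd (nat_lit 78) (nat_lit 0) (nat_lit 0) (XT.lf (nat_lit 0) (nat_lit 22811859615) (nat_lit 76) (nat_lit 312266393944) (nat_lit 76) (nat_lit 311084106035) (nat_lit 1) (nat_lit 4) (nat_lit 2) (nat_lit 5) (nat_lit 2) (nat_lit 4) (nat_lit 384) (nat_lit 267) (nat_lit 249)) (XT.lf (nat_lit 0) (nat_lit 28648894425) (nat_lit 76) (nat_lit 335157628745) (nat_lit 76) (nat_lit 333946109757) (nat_lit 1) (nat_lit 4) (nat_lit 2) (nat_lit 5) (nat_lit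 2) (nat_lit 4) (nat_lit 385) (nat_lit 267) (nat_lit 248))) (XT.nd (nat_lit 78) (nat_lit 0) (nat_lit 0) (XT.lf (nat_lit 0) (nat_lit 34856239842) (nat_lit 76) (nat_lit 359927473764) (nat_lit 76) (nat_lit 358688888963) (nat_lit 1) (nat_lit 4) (nat_lit 2) (nat_lit 5) (nat_lit 2) (nat_lit 4) (nat_lit 386) (nat_lit 267) (nat_lit 247)) (XT.nd (nat_lit 78) (nat_lit 0) (nat_lit 0) (XT.lf (nat_lit 0) (nat_lit 41470680133) (nat_lit 76) (nat_lit 386722713268) (nat_lit 76) (nat_lit 385459067528) (nat_lit 1) (nat_lit 4) (nat_lit 2) (nat_lit 5) (nat_lit 2) (nat_lit 4) (nat_lit 387) (nat_lit 267) (nat_lit 246)) (XT.lf (nat_lit 0) (nat_lit 48531411983) (nat_lit 76) (nat_lit 415702133862) (nat_lit 76) (nat_lit 414415283549) (nat_lit 1) (nat_lit 4) (nat_lit 2) (nat_lit 5) (nat_lit 2) (nat_lit 4) (nat_lit 388) (nat_lit 267) (nat_lit 245))))) (XT.nd (nat_lit 44928) (nat_lit 0) (nat_lit 76) (XT.nd (nat_lit 78)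 (nat_lit 0) (nat_lit 0) (XT.lf (nat_lit 0) (nat_lit 56080276766) (nat_lit 76) (nat_lit 447037465445) (nat_lit 76) (nat_lit 445729129417) (nat_lit 1) (nat_lit 4) (nat_lit 2) (nat_lit 5) (nat_lit 2) (nat_lit 4) (nat_lit 389) (nat_lit 267) (nat_lit 244)) (XT.nd (nat_lit 78) (nat_lit 0) (nat_lit 0) (XT.lf (nat_lit 0) (nat_lit 64162008494) (nat_lit 76) (nat_lit 480914398871) (nat_lit 76) (nat_lit 479586168662) (nat_lit 1) (nat_lit 4) (nat_lit 2) (nat_lit 5) (nat_lit 2) (nat_lit 4) (nat_lit 390) (nat_lit 267) (nat_lit 243)) (XT.lf (nat_lit 0) (nat_lit 72824498912) (nat_lit 76) (nat_lit 517533686338) (nat_lit 76) (nat_lit 516187035591) (nat_lit 1) (nat_lit 4) (nat_lit 2) (nat_lit 5) (nat_lit 2) (nat_lit 4) (nat_lit 391) (nat_lit 267) (nat_lit 242)))) (XT.nd (nat_lit 78) (nat_lit 0) (nat_lit 0) (XT.lf (nat_lit 0) (nat_lit 20748320742) (nat_lit 152) (nat_lit 28616261883) (nat_lit 0) (nat_lit 20748320742)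 (nat_lit 2) (nat_lit 5) (nat_lit 4) (nat_lit 4) (nat_lit 2) (nat_lit 4) (nat_lit 364) (nat_lit 268) (nat_lit 268)) (XT.nd (nat_lit 78) (nat_lit 0) (nat_lit 0) (XT.lf (nat_lit 0) (nat_lit 48913875836) (nat_lit 152) (nat_lit 53529929468) (nat_lit 0) (nat_lit 48787723238) (nat_lit 2) (nat_lit 5) (nat_lit 4) (nat_lit 4) (nat_lit 2) (nat_lit 4) (nat_lit 365) (nat_lit 268) (nat_lit 267)) (XT.lf (nat_lit 0) (nat_lit 56718061474) (nat_lit 152) (nat_lit 49934899030) (nat_lit 0) (nat_lit 56475100915) (nat_lit 2) (nat_lit 5) (nat_lit 4) (nat_lit 4) (nat_lit 2) (nat_lit 4) (nat_lit 366) (nat_lit 268) (nat_lit 266))))))) (XT.nd (nat_lit 858) (nat_lit 76) (nat_lit 0) (XT.nd (nat_lit 390) (nat_lit 0) (nat_lit 0) (XT.nd (nat_lit 156) (nat_lit 0) (nat_lit 0) (XT.nd (nat_lit 78) (nat_lit 0) (nat_lit 0) (XT.lf (nat_lit 0) (nat_lit 64955445424) (nat_lit 152) (nat_lit 46426128568) (nat_lit 0) (nat_lit 64604329346)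 (nat_lit 2) (nat_lit 5) (nat_lit 4) (nat_lit 4) (nat_lit 2) (nat_lit 4) (nat_lit 367) (nat_lit 268) (nat_lit 265)) (XT.lf (nat_lit 0) (nat_lit 73674841815) (nat_lit 152) (nat_lit 42982825368) (nat_lit 0) (nat_lit 73223581737) (nat_lit 2) (nat_lit 5) (nat_lit 4) (nat_lit 4) (nat_lit 2) (nat_lit 4) (nat_lit 368) (nat_lit 268) (nat_lit 264))) (XT.nd (nat_lit 78) (nat_lit 0) (nat_lit 0) (XT.lf (nat_lit 0) (nat_lit 82927921142) (nat_lit 152) (nat_lit 39584584671) (nat_lit 0) (nat_lit 82383935139) (nat_lit 2) (nat_lit 5) (nat_lit 4) (nat_lit 4) (nat_lit 2) (nat_lit 4) (nat_lit 369) (nat_lit 268) (nat_lit 263)) (XT.nd (nat_lit 78) (nat_lit 0) (nat_lit 0) (XT.lf (nat_lit 0) (nat_lit 92769516470) (nat_lit 152) (nat_lit 36211268753) (nat_lit 0) (nat_lit 92139673128) (nat_lit 2) (nat_lit 5) (nat_lit 4) (nat_lit 4) (nat_lit 2) (nat_lit 4) (nat_lit 370) (nat_lit 268) (nat_lit 262)) (XT.lf (nat_lit 0)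 (nat_lit 103257948361) (nat_lit 152) (nat_lit 32842887595) (nat_lit 0) (nat_lit 102548607484) (nat_lit 2) (nat_lit 5) (nat_lit 4) (nat_lit 4) (nat_lit 2) (nat_lit 4) (nat_lit 371) (nat_lit 268) (nat_lit 261))))) (XT.nd (nat_lit 234) (nat_lit 0) (nat_lit 0) (XT.nd (nat_lit 78) (nat_lit 0) (nat_lit 0) (XT.lf (nat_lit 0) (nat_lit 114455370488) (nat_lit 152) (nat_lit 29459480420) (nat_lit 0) (nat_lit 113672420782) (nat_lit 2) (nat_lit 5) (nat_lit 4) (nat_lit 4) (nat_lit 2) (nat_lit 4) (nat_lit 372) (nat_lit 268) (nat_lit 260)) (XT.nd (nat_lit 78) (nat_lit 0) (nat_lit 0) (XT.lf (nat_lit 0) (nat_lit 126428137944) (nat_lit 152) (nat_lit 26040997407) (nat_lit 0) (nat_lit 125577031914) (nat_lit 2) (nat_lit 5) (nat_lit 4) (nat_lit 4) (nat_lit 2) (nat_lit 4) (nat_lit 373) (nat_lit 268) (nat_lit 259)) (XT.lf (nat_lit 0) (nat_lit 139247200462) (nat_lit 152) (nat_lit 22567180878) (nat_lit 0) (nat_lit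 138332986726) (nat_lit 2) (nat_lit 5) (nat_lit 4) (nat_lit 4) (nat_lit 2) (nat_lit 4) (nat_lit 374) (nat_lit 268) (nat_lit 258)))) (XT.nd (nat_lit 78) (nat_lit 0) (nat_lit 0) (XT.lf (nat_lit 0) (nat_lit 152988522857) (nat_lit 152) (nat_lit 19017445255) (nat_lit 0) (nat_lit 152015876059) (nat_lit 2) (nat_lit 5) (nat_lit 4) (nat_lit 4) (nat_lit 2) (nat_lit 4) (nat_lit 375) (nat_lit 268) (nat_lit 257)) (XT.nd (nat_lit 78) (nat_lit 0) (nat_lit 0) (XT.lf (nat_lit 0) (nat_lit 167733535187) (nat_lit 152) (nat_lit 15370755068) (nat_lit 0) (nat_lit 166706783703) (nat_lit 2) (nat_lit 5) (nat_lit 4) (nat_lit 4) (nat_lit 2) (nat_lit 4) (nat_lit 376) (nat_lit 268) (nat_lit 256)) (XT.lf (nat_lit 0) (nat_lit 183569615305) (nat_lit 152) (nat_lit 11605500299) (nat_lit 0) (nat_lit 182492766888) (nat_lit 2) (nat_lit 5) (nat_lit 4) (nat_lit 4) (nat_lit 2) (nat_lit 4) (nat_lit 377) (nat_lit 268) (nat_lit 255))))))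 (XT.nd (nat_lit 390) (nat_lit 0) (nat_lit 0) (XT.nd (nat_lit 156) (nat_lit 76) (nat_lit 0) (XT.nd (nat_lit 78) (nat_lit 0) (nat_lit 0) (XT.lf (nat_lit 0) (nat_lit 200590606646) (nat_lit 152) (nat_lit 7699368329) (nat_lit 0) (nat_lit 199467372181) (nat_lit 2) (nat_lit 5) (nat_lit 4) (nat_lit 4) (nat_lit 2) (nat_lit 4) (nat_lit 378) (nat_lit 268) (nat_lit 254)) (XT.lf (nat_lit 0) (nat_lit 218897374346) (nat_lit 152) (nat_lit 3629211709) (nat_lit 0) (nat_lit 217731189836) (nat_lit 2) (nat_lit 5) (nat_lit 4) (nat_lit 4) (nat_lit 2) (nat_lit 4) (nat_lit 379) (nat_lit 268) (nat_lit 253))) (XT.nd (nat_lit 78) (nat_lit 0) (nat_lit 0) (XT.lf (nat_lit 0) (nat_lit 649889531) (nat_lit 76) (nat_lit 237958660019) (nat_lit 76) (nat_lit 236752706949) (nat_lit 1) (nat_lit 4) (nat_lit 2) (nat_lit 5) (nat_lit 2) (nat_lit 4) (nat_lit 380) (nat_lit 268) (nat_lit 252)) (XT.nd (nat_lit 78) (nat_lit 0) (nat_lit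 0) (XT.lf (nat_lit 0) (nat_lit 5269422628) (nat_lit 76) (nat_lit 254623287130) (nat_lit 76) (nat_lit 253380511319) (nat_lit 1) (nat_lit 4) (nat_lit 2) (nat_lit 5) (nat_lit 2) (nat_lit 4) (nat_lit 381) (nat_lit 268) (nat_lit 251)) (XT.lf (nat_lit 0) (nat_lit 10136764464) (nat_lit 76) (nat_lit 272680683192) (nat_lit 76) (nat_lit 271403812251) (nat_lit 1) (nat_lit 4) (nat_lit 2) (nat_lit 5) (nat_lit 2) (nat_lit 4) (nat_lit 382) (nat_lit 268) (nat_lit 250))))) (XT.nd (nat_lit 234) (nat_lit 0) (nat_lit 0) (XT.nd (nat_lit 78) (nat_lit 0) (nat_lit 0) (XT.lf (nat_lit 0) (nat_lit 15280758546) (nat_lit 76) (nat_lit 292237854995) (nat_lit 76) (nat_lit 290929414489) (nat_lit 1) (nat_lit 4) (nat_lit 2) (nat_lit 5) (nat_lit 2) (nat_lit 4) (nat_lit 383) (nat_lit 268) (nat_lit 249)) (XT.nd (nat_lit 78) (nat_lit 0) (nat_lit 0) (XT.lf (nat_lit 0) (nat_lit 20731887801) (nat_lit 76) (nat_lit 313410696892)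 (nat_lit 76) (nat_lit 312073025307) (nat_lit 1) (nat_lit 4) (nat_lit 2) (nat_lit 5) (nat_lit 2) (nat_lit 4) (nat_lit 384) (nat_lit 268) (nat_lit 248)) (XT.lf (nat_lit 0) (nat_lit 26522455217) (nat_lit 76) (nat_lit 336324677575) (nat_lit 76) (nat_lit 334959940176) (nat_lit 1) (nat_lit 4) (nat_lit 2) (nat_lit 5) (nat_lit 2) (nat_lit 4) (nat_lit 385) (nat_lit 268) (nat_lit 247)))) (XT.nd (nat_lit 78) (nat_lit 0) (nat_lit 0) (XT.lf (nat_lit 0) (nat_lit 32686775269) (nat_lit 76) (nat_lit 361115583596) (nat_lit 76) (nat_lit 359725785258) (nat_lit 1) (nat_lit 4) (nat_lit 2) (nat_lit 5) (nat_lit 2) (nat_lit 4) (nat_lit 386) (nat_lit 268) (nat_lit 246)) (XT.nd (nat_lit 78) (nat_lit 0) (nat_lit 0) (XT.lf (nat_lit 0) (nat_lit 39261377261) (nat_lit 76) (nat_lit 387930324027) (nat_lit 76) (nat_lit 386517321117) (nat_lit 1) (nat_lit 4) (nat_lit 2) (nat_lit 5) (nat_lit 2) (nat_lit 4) (nat_lit 387) (nat_lit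 268) (nat_lit 245)) (XT.lf (nat_lit 0) (nat_lit 46285221795) (nat_lit 76) (nat_lit 416927801035) (nat_lit 76) (nat_lit 415493312409) (nat_lit 1) (nat_lit 4) (nat_lit 2) (nat_lit 5) (nat_lit 2) (nat_lit 4) (nat_lit 388) (nat_lit 268) (nat_lit 244))))))))
noncomputable def xc5 : XT := (XT.nd (nat_lit 46254) (nat_lit 0) (nat_lit 0) (XT.nd (nat_lit 45396) (nat_lit 0) (nat_lit 76) (XT.nd (nat_lit 44928) (nat_lit 0) (nat_lit 76) (XT.nd (nat_lit 156) (nat_lit 0) (nat_lit 0) (XT.nd (nat_lit 78) (nat_lit 0) (nat_lit 0) (XT.lf (nat_lit 0) (nat_lit 53799931656) (nat_lit 76) (nat_lit 448279851521) (nat_lit 76) (nat_lit 446825468713) (nat_lit 1) (nat_lit 4) (nat_lit 2) (nat_lit 5) (nat_lit 2) (nat_lit 4) (nat_lit 389) (nat_lit 268) (nat_lit 243)) (XT.lf (nat_lit 0) (nat_lit 61850038457) (nat_lit 76) (nat_lit 482172265412) (nat_lit 76) (nat_lit 480699462067) (nat_lit 1) (nat_lit 4) (nat_lit 2) (nat_lit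 5) (nat_lit 2) (nat_lit 4) (nat_lit 390) (nat_lit 268) (nat_lit 242))) (XT.nd (nat_lit 44616) (nat_lit 0) (nat_lit 76) (XT.lf (nat_lit 0) (nat_lit 70483246535) (nat_lit 76) (nat_lit 518805886643) (nat_lit 76) (nat_lit 517316027244) (nat_lit 1) (nat_lit 4) (nat_lit 2) (nat_lit 5) (nat_lit 2) (nat_lit 4) (nat_lit 391) (nat_lit 268) (nat_lit 241)) (XT.nd (nat_lit 78) (nat_lit 0) (nat_lit 0) (XT.lf (nat_lit 0) (nat_lit 13950623133) (nat_lit 152) (nat_lit 32411257000) (nat_lit 0) (nat_lit 13950623133) (nat_lit 2) (nat_lit 5) (nat_lit 4) (nat_lit 4) (nat_lit 2) (nat_lit 4) (nat_lit 362) (nat_lit 269) (nat_lit 269)) (XT.lf (nat_lit 0) (nat_lit 34558649244) (nat_lit 152) (nat_lit 61064623225) (nat_lit 0) (nat_lit 34422404438) (nat_lit 2) (nat_lit 5) (nat_lit 4) (nat_lit 4) (nat_lit 2) (nat_lit 4) (nat_lit 363) (nat_lit 269) (nat_lit 268))))) (XT.nd (nat_lit 234) (nat_lit 0) (nat_lit 0) (XT.nd (nat_lit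 78) (nat_lit 0) (nat_lit 0) (XT.lf (nat_lit 0) (nat_lit 41525702800) (nat_lit 152) (nat_lit 57442174303) (nat_lit 0) (nat_lit 41263305397) (nat_lit 2) (nat_lit 5) (nat_lit 4) (nat_lit 4) (nat_lit 2) (nat_lit 4) (nat_lit 364) (nat_lit 269) (nat_lit 267)) (XT.nd (nat_lit 78) (nat_lit 0) (nat_lit 0) (XT.lf (nat_lit 0) (nat_lit 48843693180) (nat_lit 152) (nat_lit 53933700872) (nat_lit 0) (nat_lit 48464487815) (nat_lit 2) (nat_lit 5) (nat_lit 4) (nat_lit 4) (nat_lit 2) (nat_lit 4) (nat_lit 365) (nat_lit 269) (nat_lit 266)) (XT.lf (nat_lit 0) (nat_lit 56555986251) (nat_lit 152) (nat_lit 50518411978) (nat_lit 0) (nat_lit 56068625368) (nat_lit 2) (nat_lit 5) (nat_lit 4) (nat_lit 4) (nat_lit 2) (nat_lit 4) (nat_lit 366) (nat_lit 269) (nat_lit 265)))) (XT.nd (nat_lit 78) (nat_lit 0) (nat_lit 0) (XT.lf (nat_lit 0) (nat_lit 64708284492) (nat_lit 152) (nat_lit 47176068871) (nat_lit 0) (nat_lit 64120779609)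 (nat_lit 2) (nat_lit 5) (nat_lit 4) (nat_lit 4) (nat_lit 2) (nat_lit 4) (nat_lit 367) (nat_lit 269) (nat_lit 264)) (XT.nd (nat_lit 78) (nat_lit 0) (nat_lit 0) (XT.lf (nat_lit 0) (nat_lit 73348897818) (nat_lit 152) (nat_lit 43886865074) (nat_lit 0) (nat_lit 72668667010) (nat_lit 2) (nat_lit 5) (nat_lit 4) (nat_lit 4) (nat_lit 2) (nat_lit 4) (nat_lit 368) (nat_lit 269) (nat_lit 263)) (XT.lf (nat_lit 0) (nat_lit 82529029864) (nat_lit 152) (nat_lit 40631309010) (nat_lit 0) (nat_lit 81762941717) (nat_lit 2) (nat_lit 5) (nat_lit 4) (nat_lit 4) (nat_lit 2) (nat_lit 4) (nat_lit 369) (nat_lit 269) (nat_lit 262)))))) (XT.nd (nat_lit 390) (nat_lit 0) (nat_lit 0) (XT.nd (nat_lit 156) (nat_lit 0) (nat_lit 0) (XT.nd (nat_lit 78) (nat_lit 0) (nat_lit 0) (XT.lf (nat_lit 0) (nat_lit 92303081411) (nat_lit 152) (nat_lit 37390108493) (nat_lit 0) (nat_lit 91457495729) (nat_lit 2) (nat_lit 5) (nat_lit 4) (nat_lit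 4) (nat_lit 2) (nat_lit 4) (nat_lit 370) (nat_lit 269) (nat_lit 261)) (XT.lf (nat_lit 0) (nat_lit 102728972766) (nat_lit 152) (nat_lit 34144056409) (nat_lit 0) (nat_lit 101809778255) (nat_lit 2) (nat_lit 5) (nat_lit 4) (nat_lit 4) (nat_lit 2) (nat_lit 4) (nat_lit 371) (nat_lit 269) (nat_lit 260))) (XT.nd (nat_lit 78) (nat_lit 0) (nat_lit 0) (XT.lf (nat_lit 0) (nat_lit 113868486989) (nat_lit 152) (nat_lit 30873916895) (nat_lit 0) (nat_lit 112881136154) (nat_lit 2) (nat_lit 5) (nat_lit 4) (nat_lit 4) (nat_lit 2) (nat_lit 4) (nat_lit 372) (nat_lit 269) (nat_lit 259)) (XT.nd (nat_lit 78) (nat_lit 0) (nat_lit 0) (XT.lf (nat_lit 0) (nat_lit 125787636015) (nat_lit 152) (nat_lit 27560311347) (nat_lit 0) (nat_lit 124737177473) (nat_lit 2) (nat_lit 5) (nat_lit 4) (nat_lit 4) (nat_lit 2) (nat_lit 4) (nat_lit 373) (nat_lit 269) (nat_lit 258)) (XT.lf (nat_lit 0) (nat_lit 138557051838) (nat_lit 152)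 (nat_lit 24183603581) (nat_lit 0) (nat_lit 137448160235) (nat_lit 2) (nat_lit 5) (nat_lit 4) (nat_lit 4) (nat_lit 2) (nat_lit 4) (nat_lit 374) (nat_lit 269) (nat_lit 257))))) (XT.nd (nat_lit 234) (nat_lit 0) (nat_lit 0) (XT.nd (nat_lit 78) (nat_lit 0) (nat_lit 0) (XT.lf (nat_lit 0) (nat_lit 152252405072) (nat_lit 152) (nat_lit 20723783480) (nat_lit 0) (nat_lit 151089408781) (nat_lit 2) (nat_lit 5) (nat_lit 4) (nat_lit 4) (nat_lit 2) (nat_lit 4) (nat_lit 375) (nat_lit 269) (nat_lit 256)) (XT.nd (nat_lit 78) (nat_lit 0) (nat_lit 0) (XT.lf (nat_lit 0) (nat_lit 166954853364) (nat_lit 152) (nat_lit 17160348405) (nat_lit 0) (nat_lit 165741760141) (nat_lit 2) (nat_lit 5) (nat_lit 4) (nat_lit 4) (nat_lit 2) (nat_lit 4) (nat_lit 376) (nat_lit 269) (nat_lit 255)) (XT.lf (nat_lit 0) (nat_lit 182751522335) (nat_lit 152) (nat_lit 13472181704) (nat_lit 0) (nat_lit 181492043063) (nat_lit 2) (nat_lit 5)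 (nat_lit 4) (nat_lit 4) (nat_lit 2) (nat_lit 4) (nat_lit 377) (nat_lit 269) (nat_lit 254)))) (XT.nd (nat_lit 78) (nat_lit 0) (nat_lit 0) (XT.lf (nat_lit 0) (nat_lit 199736021874) (nat_lit 152) (nat_lit 9637427574) (nat_lit 0) (nat_lit 198433592558) (nat_lit 2) (nat_lit 5) (nat_lit 4) (nat_lit 4) (nat_lit 2) (nat_lit 4) (nat_lit 378) (nat_lit 269) (nat_lit 253)) (XT.nd (nat_lit 78) (nat_lit 0) (nat_lit 0) (XT.lf (nat_lit 0) (nat_lit 218009000868) (nat_lit 152) (nat_lit 5633361546) (nat_lit 0) (nat_lit 216666802992) (nat_lit 2) (nat_lit 5) (nat_lit 4) (nat_lit 4) (nat_lit 2) (nat_lit 4) (nat_lit 379) (nat_lit 269) (nat_lit 252)) (XT.lf (nat_lit 0) (nat_lit 237678743636) (nat_lit 152) (nat_lit 1436255822) (nat_lit 0) (nat_lit 236299723019) (nat_lit 2) (nat_lit 5) (nat_lit 4) (nat_lit 4) (nat_lit 2) (nat_lit 4) (nat_lit 380) (nat_lit 269) (nat_lit 251))))))) (XT.nd (nat_lit 45240) (nat_lit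 0) (nat_lit 76) (XT.nd (nat_lit 390) (nat_lit 0) (nat_lit 0) (XT.nd (nat_lit 156) (nat_lit 0) (nat_lit 0) (XT.nd (nat_lit 78) (nat_lit 0) (nat_lit 0) (XT.lf (nat_lit 0) (nat_lit 3077252637) (nat_lit 76) (nat_lit 255832603518) (nat_lit 76) (nat_lit 254419487771) (nat_lit 1) (nat_lit 4) (nat_lit 2) (nat_lit 5) (nat_lit 2) (nat_lit 4) (nat_lit 381) (nat_lit 269) (nat_lit 250)) (XT.lf (nat_lit 0) (nat_lit 7890394905) (nat_lit 76) (nat_lit 273916530376) (nat_lit 76) (nat_lit 272471845064) (nat_lit 1) (nat_lit 4) (nat_lit 2) (nat_lit 5) (nat_lit 2) (nat_lit 4) (nat_lit 382) (nat_lit 269) (nat_lit 249))) (XT.nd (nat_lit 78) (nat_lit 0) (nat_lit 0) (XT.lf (nat_lit 0) (nat_lit 12984204201) (nat_lit 76) (nat_lit 293498267732) (nat_lit 76) (nat_lit 292024351341) (nat_lit 1) (nat_lit 4) (nat_lit 2) (nat_lit 5) (nat_lit 2) (nat_lit 4) (nat_lit 383) (nat_lit 269) (nat_lit 248)) (XT.nd (nat_lit 78) (nat_lit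 0) (nat_lit 0) (XT.lf (nat_lit 0) (nat_lit 18388866063) (nat_lit 76) (nat_lit 314693855510) (nat_lit 76) (nat_lit 313192873306) (nat_lit 1) (nat_lit 4) (nat_lit 2) (nat_lit 5) (nat_lit 2) (nat_lit 4) (nat_lit 384) (nat_lit 269) (nat_lit 247)) (XT.lf (nat_lit 0) (nat_lit 24136408115) (nat_lit 76) (nat_lit 337628897195) (nat_lit 76) (nat_lit 336102854051) (nat_lit 1) (nat_lit 4) (nat_lit 2) (nat_lit 5) (nat_lit 2) (nat_lit 4) (nat_lit 385) (nat_lit 269) (nat_lit 246))))) (XT.nd (nat_lit 234) (nat_lit 0) (nat_lit 0) (XT.nd (nat_lit 78) (nat_lit 0) (nat_lit 0) (XT.lf (nat_lit 0) (nat_lit 30260889866) (nat_lit 76) (nat_lit 362439304143) (nat_lit 76) (nat_lit 360890056427) (nat_lit 1) (nat_lit 4) (nat_lit 2) (nat_lit 5) (nat_lit 2) (nat_lit 4) (nat_lit 386) (nat_lit 269) (nat_lit 245)) (XT.nd (nat_lit 78) (nat_lit 0) (nat_lit 0) (XT.lf (nat_lit 0) (nat_lit 36798604542) (nat_lit 76) (nat_lit 389272100989)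 (nat_lit 76) (nat_lit 387701367557) (nat_lit 1) (nat_lit 4) (nat_lit 2) (nat_lit 5) (nat_lit 2) (nat_lit 4) (nat_lit 387) (nat_lit 269) (nat_lit 244)) (XT.lf (nat_lit 0) (nat_lit 43788294156) (nat_lit 76) (nat_lit 418286296899) (nat_lit 76) (nat_lit 416695669287) (nat_lit 1) (nat_lit 4) (nat_lit 2) (nat_lit 5) (nat_lit 2) (nat_lit 4) (nat_lit 388) (nat_lit 269) (nat_lit 243)))) (XT.nd (nat_lit 78) (nat_lit 0) (nat_lit 0) (XT.lf (nat_lit 0) (nat_lit 51271379089) (nat_lit 76) (nat_lit 449653827850) (nat_lit 76) (nat_lit 448044779699) (nat_lit 1) (nat_lit 4) (nat_lit 2) (nat_lit 5) (nat_lit 2) (nat_lit 4) (nat_lit 389) (nat_lit 269) (nat_lit 242)) (XT.nd (nat_lit 78) (nat_lit 0) (nat_lit 0) (XT.lf (nat_lit 0) (nat_lit 59292203550) (nat_lit 76) (nat_lit 483560575505) (nat_lit 76) (nat_lit 481934471300) (nat_lit 1) (nat_lit 4) (nat_lit 2) (nat_lit 5) (nat_lit 2) (nat_lit 4) (nat_lit 390) (nat_lit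 269) (nat_lit 241)) (XT.lf (nat_lit 0) (nat_lit 67898298350) (nat_lit 76) (nat_lit 520207468740) (nat_lit 76) (nat_lit 518565571893) (nat_lit 1) (nat_lit 4) (nat_lit 2) (nat_lit 5) (nat_lit 2) (nat_lit 4) (nat_lit 391) (nat_lit 269) (nat_lit 240)))))) (XT.nd (nat_lit 390) (nat_lit 0) (nat_lit 0) (XT.nd (nat_lit 156) (nat_lit 0) (nat_lit 0) (XT.nd (nat_lit 78) (nat_lit 0) (nat_lit 0) (XT.lf (nat_lit 0) (nat_lit 7815675669) (nat_lit 152) (nat_lit 36295047620) (nat_lit 0) (nat_lit 7815675669) (nat_lit 2) (nat_lit 5) (nat_lit 4) (nat_lit 4) (nat_lit 2) (nat_lit 4) (nat_lit 360) (nat_lit 270) (nat_lit 270)) (XT.lf (nat_lit 0) (nat_lit 21661186984) (nat_lit 152) (nat_lit 68738115612) (nat_lit 0) (nat_lit 21514042594) (nat_lit 2) (nat_lit 5) (nat_lit 4) (nat_lit 4) (nat_lit 2) (nat_lit 4) (nat_lit 361) (nat_lit 270) (nat_lit 269))) (XT.nd (nat_lit 78) (nat_lit 0) (nat_lit 0) (XT.lf (nat_lit 0)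 (nat_lit 27932632489) (nat_lit 152) (nat_lit 65048936580) (nat_lit 0) (nat_lit 27649243293) (nat_lit 2) (nat_lit 5) (nat_lit 4) (nat_lit 4) (nat_lit 2) (nat_lit 4) (nat_lit 362) (nat_lit 270) (nat_lit 268)) (XT.nd (nat_lit 78) (nat_lit 0) (nat_lit 0) (XT.lf (nat_lit 0) (nat_lit 34482851976) (nat_lit 152) (nat_lit 61500696341) (nat_lit 0) (nat_lit 34073310182) (nat_lit 2) (nat_lit 5) (nat_lit 4) (nat_lit 4) (nat_lit 2) (nat_lit 4) (nat_lit 363) (nat_lit 270) (nat_lit 267)) (XT.lf (nat_lit 0) (nat_lit 41350661560) (nat_lit 152) (nat_lit 58072368287) (nat_lit 0) (nat_lit 40824311806) (nat_lit 2) (nat_lit 5) (nat_lit 4) (nat_lit 4) (nat_lit 2) (nat_lit 4) (nat_lit 364) (nat_lit 270) (nat_lit 266))))) (XT.nd (nat_lit 234) (nat_lit 0) (nat_lit 0) (XT.nd (nat_lit 78) (nat_lit 0) (nat_lit 0) (XT.lf (nat_lit 0) (nat_lit 48576759373) (nat_lit 152) (nat_lit 54743636400) (nat_lit 0) (nat_lit 47942254099)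 (nat_lit 2) (nat_lit 5) (nat_lit 4) (nat_lit 4) (nat_lit 2) (nat_lit 4) (nat_lit 365) (nat_lit 270) (nat_lit 265)) (XT.nd (nat_lit 78) (nat_lit 0) (nat_lit 0) (XT.lf (nat_lit 0) (nat_lit 56203966735) (nat_lit 152) (nat_lit 51494774861) (nat_lit 0) (nat_lit 55469317462) (nat_lit 2) (nat_lit 5) (nat_lit 4) (nat_lit 4) (nat_lit 2) (nat_lit 4) (nat_lit 366) (nat_lit 270) (nat_lit 264)) (XT.lf (nat_lit 0) (nat_lit 64277481912) (nat_lit 152) (nat_lit 48306531157) (nat_lit 0) (nat_lit 63450106713) (nat_lit 2) (nat_lit 5) (nat_lit 4) (nat_lit 4) (nat_lit 2) (nat_lit 4) (nat_lit 367) (nat_lit 270) (nat_lit 263)))) (XT.nd (nat_lit 78) (nat_lit 0) (nat_lit 0) (XT.lf (nat_lit 0) (nat_lit 72845147956) (nat_lit 152) (nat_lit 45160011993) (nat_lit 0) (nat_lit 71931915418) (nat_lit 2) (nat_lit 5) (nat_lit 4) (nat_lit 4) (nat_lit 2) (nat_lit 4) (nat_lit 368) (nat_lit 270) (nat_lit 262)) (XT.nd (nat_lit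 78) (nat_lit 0) (nat_lit 0) (XT.lf (nat_lit 0) (nat_lit 81957736221) (nat_lit 152) (nat_lit 42036571329) (nat_lit 0) (nat_lit 80965006149) (nat_lit 2) (nat_lit 5) (nat_lit 4) (nat_lit 4) (nat_lit 2) (nat_lit 4) (nat_lit 369) (nat_lit 270) (nat_lit 261)) (XT.lf (nat_lit 0) (nat_lit 91669247232) (nat_lit 152) (nat_lit 38917699886) (nat_lit 0) (nat_lit 90602908330) (nat_lit 2) (nat_lit 5) (nat_lit 4) (nat_lit 4) (nat_lit 2) (nat_lit 4) (nat_lit 370) (nat_lit 270) (nat_lit 260))))))))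
noncomputable def xc6 : XT := (XT.nd (nat_lit 45942) (nat_lit 0) (nat_lit 76) (XT.nd (nat_lit 858) (nat_lit 0) (nat_lit 0) (XT.nd (nat_lit 390) (nat_lit 76) (nat_lit 0) (XT.nd (nat_lit 156) (nat_lit 0) (nat_lit 0) (XT.nd (nat_lit 78) (nat_lit 0) (nat_lit 0) (XT.lf (nat_lit 0) (nat_lit 102037230683) (nat_lit 152) (nat_lit 35784915464) (nat_lit 0) (nat_lit 100902735458) (nat_lit 2) (nat_lit 5) (nat_lit 4) (nat_lit 4) (nat_lit 2) (nat_lit 4) (nat_lit 371) (nat_lit 270) (nat_lit 259)) (XT.lf (nat_lit 0) (nat_lit 113123126475) (nat_lit 152) (nat_lit 32619653415) (nat_lit 0) (nat_lit 111925523543) (nat_lit 2) (nat_lit 5) (nat_lit 4) (nat_lit 4) (nat_lit 2) (nat_lit 4) (nat_lit 372) (nat_lit 270) (nat_lit 258))) (XT.nd (nat_lit 78) (nat_lit 0) (nat_lit 0) (XT.lf (nat_lit 0) (nat_lit 124992628807) (nat_lit 152) (nat_lit 29403156629) (nat_lit 0) (nat_lit 123736592813) (nat_lit 2) (nat_lit 5) (nat_lit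 4) (nat_lit 4) (nat_lit 2) (nat_lit 4) (nat_lit 373) (nat_lit 270) (nat_lit 257)) (XT.nd (nat_lit 78) (nat_lit 0) (nat_lit 0) (XT.lf (nat_lit 0) (nat_lit 137716075469) (nat_lit 152) (nat_lit 26116364386) (nat_lit 0) (nat_lit 136405934788) (nat_lit 2) (nat_lit 5) (nat_lit 4) (nat_lit 4) (nat_lit 2) (nat_lit 4) (nat_lit 374) (nat_lit 270) (nat_lit 256)) (XT.lf (nat_lit 0) (nat_lit 151368864664) (nat_lit 152) (nat_lit 22739799397) (nat_lit 0) (nat_lit 150008627051) (nat_lit 2) (nat_lit 5) (nat_lit 4) (nat_lit 4) (nat_lit 2) (nat_lit 4) (nat_lit 375) (nat_lit 270) (nat_lit 255))))) (XT.nd (nat_lit 234) (nat_lit 76) (nat_lit 0) (XT.nd (nat_lit 78) (nat_lit 0) (nat_lit 0) (XT.lf (nat_lit 0) (nat_lit 166031901810) (nat_lit 152) (nat_lit 19253452390) (nat_lit 0) (nat_lit 164625278148) (nat_lit 2) (nat_lit 5) (nat_lit 4) (nat_lit 4) (nat_lit 2) (nat_lit 4) (nat_lit 376) (nat_lit 270) (nat_lit 254))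 (XT.nd (nat_lit 78) (nat_lit 0) (nat_lit 0) (XT.lf (nat_lit 0) (nat_lit 181792078978) (nat_lit 152) (nat_lit 15636663529) (nat_lit 0) (nat_lit 180342505272) (nat_lit 2) (nat_lit 5) (nat_lit 4) (nat_lit 4) (nat_lit 2) (nat_lit 4) (nat_lit 377) (nat_lit 270) (nat_lit 253)) (XT.lf (nat_lit 0) (nat_lit 198742789811) (nat_lit 152) (nat_lit 11867999991) (nat_lit 0) (nat_lit 197253447545) (nat_lit 2) (nat_lit 5) (nat_lit 4) (nat_lit 4) (nat_lit 2) (nat_lit 4) (nat_lit 378) (nat_lit 270) (nat_lit 252)))) (XT.nd (nat_lit 78) (nat_lit 76) (nat_lit 0) (XT.lf (nat_lit 0) (nat_lit 216984482966) (nat_lit 152) (nat_lit 7925128957) (nat_lit 0) (nat_lit 215458317959) (nat_lit 2) (nat_lit 5) (nat_lit 4) (nat_lit 4) (nat_lit 2) (nat_lit 4) (nat_lit 379) (nat_lit 270) (nat_lit 251)) (XT.nd (nat_lit 78) (nat_lit 76) (nat_lit 0) (XT.lf (nat_lit 0) (nat_lit 236625257365) (nat_lit 152) (nat_lit 3784685263) (nat_lit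 0) (nat_lit 235064997228) (nat_lit 2) (nat_lit 5) (nat_lit 4) (nat_lit 4) (nat_lit 2) (nat_lit 4) (nat_lit 380) (nat_lit 270) (nat_lit 250)) (XT.lf (nat_lit 0) (nat_lit 596973945) (nat_lit 76) (nat_lit 257193849273) (nat_lit 76) (nat_lit 255602019571) (nat_lit 1) (nat_lit 4) (nat_lit 2) (nat_lit 5) (nat_lit 2) (nat_lit 4) (nat_lit 381) (nat_lit 270) (nat_lit 249)))))) (XT.nd (nat_lit 390) (nat_lit 0) (nat_lit 0) (XT.nd (nat_lit 156) (nat_lit 0) (nat_lit 0) (XT.nd (nat_lit 78) (nat_lit 0) (nat_lit 0) (XT.lf (nat_lit 0) (nat_lit 5359931428) (nat_lit 76) (nat_lit 275302341684) (nat_lit 76) (nat_lit 273681280903) (nat_lit 1) (nat_lit 4) (nat_lit 2) (nat_lit 5) (nat_lit 2) (nat_lit 4) (nat_lit 382) (nat_lit 270) (nat_lit 248)) (XT.lf (nat_lit 0) (nat_lit 10407273330) (nat_lit 76) (nat_lit 294906824922) (nat_lit 76) (nat_lit 293258698327) (nat_lit 1) (nat_lit 4) (nat_lit 2) (nat_lit 5) (nat_lit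 2) (nat_lit 4) (nat_lit 383) (nat_lit 270) (nat_lit 247))) (XT.nd (nat_lit 78) (nat_lit 0) (nat_lit 0) (XT.lf (nat_lit 0) (nat_lit 15768909827) (nat_lit 76) (nat_lit 316123473702) (nat_lit 76) (nat_lit 314450286168) (nat_lit 1) (nat_lit 4) (nat_lit 2) (nat_lit 5) (nat_lit 2) (nat_lit 4) (nat_lit 384) (nat_lit 270) (nat_lit 246)) (XT.nd (nat_lit 78) (nat_lit 0) (nat_lit 0) (XT.lf (nat_lit 0) (nat_lit 21476613579) (nat_lit 76) (nat_lit 339078016314) (nat_lit 76) (nat_lit 337381624207) (nat_lit 1) (nat_lit 4) (nat_lit 2) (nat_lit 5) (nat_lit 2) (nat_lit 4) (nat_lit 385) (nat_lit 270) (nat_lit 245)) (XT.lf (nat_lit 0) (nat_lit 27564208015) (nat_lit 76) (nat_lit 363906479676) (nat_lit 76) (nat_lit 362188601854) (nat_lit 1) (nat_lit 4) (nat_lit 2) (nat_lit 5) (nat_lit 2) (nat_lit 4) (nat_lit 386) (nat_lit 270) (nat_lit 244))))) (XT.nd (nat_lit 234) (nat_lit 0) (nat_lit 0) (XT.nd (nat_lit 78)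 (nat_lit 0) (nat_lit 0) (XT.lf (nat_lit 0) (nat_lit 34067767770) (nat_lit 76) (nat_lit 390755995424) (nat_lit 76) (nat_lit 389018223422) (nat_lit 1) (nat_lit 4) (nat_lit 2) (nat_lit 5) (nat_lit 2) (nat_lit 4) (nat_lit 387) (nat_lit 270) (nat_lit 243)) (XT.nd (nat_lit 78) (nat_lit 0) (nat_lit 0) (XT.lf (nat_lit 0) (nat_lit 41025832456) (nat_lit 76) (nat_lit 419785671800) (nat_lit 76) (nat_lit 418029479259) (nat_lit 1) (nat_lit 4) (nat_lit 2) (nat_lit 5) (nat_lit 2) (nat_lit 4) (nat_lit 388) (nat_lit 270) (nat_lit 242)) (XT.lf (nat_lit 0) (nat_lit 48479635049) (nat_lit 76) (nat_lit 451167536514) (nat_lit 76) (nat_lit 449394287919) (nat_lit 1) (nat_lit 4) (nat_lit 2) (nat_lit 5) (nat_lit 2) (nat_lit 4) (nat_lit 389) (nat_lit 270) (nat_lit 241)))) (XT.nd (nat_lit 78) (nat_lit 0) (nat_lit 0) (XT.lf (nat_lit 0) (nat_lit 56473346232) (nat_lit 76) (nat_lit 485087556172) (nat_lit 76) (nat_lit 483298514935)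 (nat_lit 1) (nat_lit 4) (nat_lit 2) (nat_lit 5) (nat_lit 2) (nat_lit 4) (nat_lit 390) (nat_lit 270) (nat_lit 240)) (XT.nd (nat_lit 44304) (nat_lit 0) (nat_lit 76) (XT.lf (nat_lit 0) (nat_lit 65054336145) (nat_lit 76) (nat_lit 521746738299) (nat_lit 76) (nat_lit 519943074245) (nat_lit 1) (nat_lit 4) (nat_lit 2) (nat_lit 5) (nat_lit 2) (nat_lit 4) (nat_lit 391) (nat_lit 270) (nat_lit 239)) (XT.lf (nat_lit 0) (nat_lit 2224368239) (nat_lit 152) (nat_lit 40305381591) (nat_lit 0) (nat_lit 2224368239) (nat_lit 2) (nat_lit 5) (nat_lit 4) (nat_lit 4) (nat_lit 2) (nat_lit 4) (nat_lit 358) (nat_lit 271) (nat_lit 271))))))) (XT.nd (nat_lit 858) (nat_lit 0) (nat_lit 0) (XT.nd (nat_lit 390) (nat_lit 0) (nat_lit 0) (XT.nd (nat_lit 156) (nat_lit 0) (nat_lit 0) (XT.nd (nat_lit 78) (nat_lit 0) (nat_lit 0) (XT.lf (nat_lit 0) (nat_lit 9966309138) (nat_lit 152) (nat_lit 76627702010) (nat_lit 0) (nat_lit 9807393196)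 (nat_lit 2) (nat_lit 5) (nat_lit 4) (nat_lit 4) (nat_lit 2) (nat_lit 4) (nat_lit 359) (nat_lit 271) (nat_lit 270)) (XT.lf (nat_lit 0) (nat_lit 15665248458) (nat_lit 152) (nat_lit 72834631626) (nat_lit 0) (nat_lit 15359188127) (nat_lit 2) (nat_lit 5) (nat_lit 4) (nat_lit 4) (nat_lit 2) (nat_lit 4) (nat_lit 360) (nat_lit 271) (nat_lit 269))) (XT.nd (nat_lit 78) (nat_lit 0) (nat_lit 0) (XT.lf (nat_lit 0) (nat_lit 21579325934) (nat_lit 152) (nat_lit 69209074578) (nat_lit 0) (nat_lit 21137020797) (nat_lit 2) (nat_lit 5) (nat_lit 4) (nat_lit 4) (nat_lit 2) (nat_lit 4) (nat_lit 361) (nat_lit 271) (nat_lit 268)) (XT.nd (nat_lit 78) (nat_lit 0) (nat_lit 0) (XT.lf (nat_lit 0) (nat_lit 27743587949) (nat_lit 152) (nat_lit 65729546082) (nat_lit 0) (nat_lit 27175130215) (nat_lit 2) (nat_lit 5) (nat_lit 4) (nat_lit 4) (nat_lit 2) (nat_lit 4) (nat_lit 362) (nat_lit 271) (nat_lit 267)) (XT.lf (nat_lit 0)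 (nat_lit 34194563465) (nat_lit 152) (nat_lit 62375426711) (nat_lit 0) (nat_lit 33509297769) (nat_lit 2) (nat_lit 5) (nat_lit 4) (nat_lit 4) (nat_lit 2) (nat_lit 4) (nat_lit 363) (nat_lit 271) (nat_lit 266))))) (XT.nd (nat_lit 234) (nat_lit 0) (nat_lit 0) (XT.nd (nat_lit 78) (nat_lit 0) (nat_lit 0) (XT.lf (nat_lit 0) (nat_lit 40970480483) (nat_lit 152) (nat_lit 59126840200) (nat_lit 0) (nat_lit 40177059267) (nat_lit 2) (nat_lit 5) (nat_lit 4) (nat_lit 4) (nat_lit 2) (nat_lit 4) (nat_lit 364) (nat_lit 271) (nat_lit 265)) (XT.nd (nat_lit 78) (nat_lit 0) (nat_lit 0) (XT.lf (nat_lit 0) (nat_lit 48111492586) (nat_lit 152) (nat_lit 55964535669) (nat_lit 0) (nat_lit 47217927371) (nat_lit 2) (nat_lit 5) (nat_lit 4) (nat_lit 4) (nat_lit 2) (nat_lit 4) (nat_lit 365) (nat_lit 271) (nat_lit 264)) (XT.lf (nat_lit 0) (nat_lit 55659916883) (nat_lit 152) (nat_lit 52869773533) (nat_lit 0) (nat_lit 54673625743)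 (nat_lit 2) (nat_lit 5) (nat_lit 4) (nat_lit 4) (nat_lit 2) (nat_lit 4) (nat_lit 366) (nat_lit 271) (nat_lit 263)))) (XT.nd (nat_lit 78) (nat_lit 0) (nat_lit 0) (XT.lf (nat_lit 0) (nat_lit 63660484778) (nat_lit 152) (nat_lit 49824214462) (nat_lit 0) (nat_lit 62588336299) (nat_lit 2) (nat_lit 5) (nat_lit 4) (nat_lit 4) (nat_lit 2) (nat_lit 4) (nat_lit 367) (nat_lit 271) (nat_lit 262)) (XT.nd (nat_lit 78) (nat_lit 0) (nat_lit 0) (XT.lf (nat_lit 0) (nat_lit 72160607042) (nat_lit 152) (nat_lit 46809810698) (nat_lit 0) (nat_lit 71008961028) (nat_lit 2) (nat_lit 5) (nat_lit 4) (nat_lit 4) (nat_lit 2) (nat_lit 4) (nat_lit 368) (nat_lit 271) (nat_lit 261)) (XT.lf (nat_lit 0) (nat_lit 81210654771) (nat_lit 152) (nat_lit 43808699108) (nat_lit 0) (nat_lit 79985399928) (nat_lit 2) (nat_lit 5) (nat_lit 4) (nat_lit 4) (nat_lit 2) (nat_lit 4) (nat_lit 369) (nat_lit 271) (nat_lit 260)))))) (XT.nd (nat_lit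 390) (nat_lit 0) (nat_lit 0) (XT.nd (nat_lit 156) (nat_lit 0) (nat_lit 0) (XT.nd (nat_lit 78) (nat_lit 0) (nat_lit 0) (XT.lf (nat_lit 0) (nat_lit 90864257878) (nat_lit 152) (nat_lit 40803095327) (nat_lit 0) (nat_lit 89570846711) (nat_lit 2) (nat_lit 5) (nat_lit 4) (nat_lit 4) (nat_lit 2) (nat_lit 4) (nat_lit 370) (nat_lit 271) (nat_lit 259)) (XT.lf (nat_lit 0) (nat_lit 101178622898) (nat_lit 152) (nat_lit 37775188370) (nat_lit 0) (nat_lit 99822104025) (nat_lit 2) (nat_lit 5) (nat_lit 4) (nat_lit 4) (nat_lit 2) (nat_lit 4) (nat_lit 371) (nat_lit 271) (nat_lit 258))) (XT.nd (nat_lit 78) (nat_lit 0) (nat_lit 0) (XT.lf (nat_lit 0) (nat_lit 112214871996) (nat_lit 152) (nat_lit 34707035084) (nat_lit 0) (nat_lit 110799920061) (nat_lit 2) (nat_lit 5) (nat_lit 4) (nat_lit 4) (nat_lit 2) (nat_lit 4) (nat_lit 372) (nat_lit 271) (nat_lit 257)) (XT.nd (nat_lit 78) (nat_lit 0) (nat_lit 0) (XT.lf (nat_lit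 0) (nat_lit 124038405166) (nat_lit 152) (nat_lit 31580453820) (nat_lit 0) (nat_lit 122569348544) (nat_lit 2) (nat_lit 5) (nat_lit 4) (nat_lit 4) (nat_lit 2) (nat_lit 4) (nat_lit 373) (nat_lit 271) (nat_lit 256)) (XT.lf (nat_lit 0) (nat_lit 136719287790) (nat_lit 152) (nat_lit 28376916689) (nat_lit 0) (nat_lit 135200134236) (nat_lit 2) (nat_lit 5) (nat_lit 4) (nat_lit 4) (nat_lit 2) (nat_lit 4) (nat_lit 374) (nat_lit 271) (nat_lit 255))))) (XT.nd (nat_lit 234) (nat_lit 0) (nat_lit 0) (XT.nd (nat_lit 78) (nat_lit 0) (nat_lit 0) (XT.lf (nat_lit 0) (nat_lit 150332665838) (nat_lit 152) (nat_lit 25077439768) (nat_lit 0) (nat_lit 148767126236) (nat_lit 2) (nat_lit 5) (nat_lit 4) (nat_lit 4) (nat_lit 2) (nat_lit 4) (nat_lit 375) (nat_lit 271) (nat_lit 254)) (XT.nd (nat_lit 78) (nat_lit 0) (nat_lit 0) (XT.lf (nat_lit 0) (nat_lit 164959211182) (nat_lit 152) (nat_lit 21662470600) (nat_lit 0) (nat_lit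 163350721534) (nat_lit 2) (nat_lit 5) (nat_lit 4) (nat_lit 4) (nat_lit 2) (nat_lit 4) (nat_lit 376) (nat_lit 271) (nat_lit 253)) (XT.lf (nat_lit 0) (nat_lit 180685599644) (nat_lit 152) (nat_lit 18111772332) (nat_lit 0) (nat_lit 179037341436) (nat_lit 2) (nat_lit 5) (nat_lit 4) (nat_lit 4) (nat_lit 2) (nat_lit 4) (nat_lit 377) (nat_lit 271) (nat_lit 252)))) (XT.nd (nat_lit 78) (nat_lit 0) (nat_lit 0) (XT.lf (nat_lit 0) (nat_lit 197605024638) (nat_lit 152) (nat_lit 14404303788) (nat_lit 0) (nat_lit 195919943690) (nat_lit 2) (nat_lit 5) (nat_lit 4) (nat_lit 4) (nat_lit 2) (nat_lit 4) (nat_lit 378) (nat_lit 271) (nat_lit 251)) (XT.nd (nat_lit 78) (nat_lit 0) (nat_lit 0) (XT.lf (nat_lit 0) (nat_lit 215817749424) (nat_lit 152) (nat_lit 10518094784) (nat_lit 0) (nat_lit 214098573345) (nat_lit 2) (nat_lit 5) (nat_lit 4) (nat_lit 4) (nat_lit 2) (nat_lit 4) (nat_lit 379) (nat_lit 271) (nat_lit 250))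 (XT.lf (nat_lit 0) (nat_lit 235431701258) (nat_lit 152) (nat_lit 6430115934) (nat_lit 0) (nat_lit 233680955615) (nat_lit 2) (nat_lit 5) (nat_lit 4) (nat_lit 4) (nat_lit 2) (nat_lit 4) (nat_lit 380) (nat_lit 271) (nat_lit 249))))))))
noncomputable def xc7 : XT := (XT.nd (nat_lit 45786) (nat_lit 0) (nat_lit 0) (XT.nd (nat_lit 44928) (nat_lit 0) (nat_lit 76) (XT.nd (nat_lit 390) (nat_lit 0) (nat_lit 0) (XT.nd (nat_lit 156) (nat_lit 0) (nat_lit 0) (XT.nd (nat_lit 78) (nat_lit 76) (nat_lit 0) (XT.lf (nat_lit 0) (nat_lit 256563110968) (nat_lit 152) (nat_lit 2116142177) (nat_lit 0) (nat_lit 254783134246) (nat_lit 2) (nat_lit 5) (nat_lit 4) (nat_lit 4) (nat_lit 2) (nat_lit 4) (nat_lit 381) (nat_lit 271) (nat_lit 248)) (XT.lf (nat_lit 0) (nat_lit 2530378694) (nat_lit 76) (nat_lit 276846329330) (nat_lit 76) (nat_lit 275039286794) (nat_lit 1) (nat_lit 4) (nat_lit 2) (nat_lit 5) (nat_lit 2) (nat_lit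 4) (nat_lit 382) (nat_lit 271) (nat_lit 247))) (XT.nd (nat_lit 78) (nat_lit 0) (nat_lit 0) (XT.lf (nat_lit 0) (nat_lit 7534695232) (nat_lit 76) (nat_lit 296471873570) (nat_lit 76) (nat_lit 294639770095) (nat_lit 1) (nat_lit 4) (nat_lit 2) (nat_lit 5) (nat_lit 2) (nat_lit 4) (nat_lit 383) (nat_lit 271) (nat_lit 246)) (XT.nd (nat_lit 78) (nat_lit 0) (nat_lit 0) (XT.lf (nat_lit 0) (nat_lit 12856493428) (nat_lit 76) (nat_lit 317708023278) (nat_lit 76) (nat_lit 315852715230) (nat_lit 1) (nat_lit 4) (nat_lit 2) (nat_lit 5) (nat_lit 2) (nat_lit 4) (nat_lit 384) (nat_lit 271) (nat_lit 245)) (XT.lf (nat_lit 0) (nat_lit 18527309865) (nat_lit 76) (nat_lit 340680622304) (nat_lit 76) (nat_lit 338803828541) (nat_lit 1) (nat_lit 4) (nat_lit 2) (nat_lit 5) (nat_lit 2) (nat_lit 4) (nat_lit 385) (nat_lit 271) (nat_lit 244))))) (XT.nd (nat_lit 234) (nat_lit 0) (nat_lit 0) (XT.nd (nat_lit 78) (nat_lit 0) (nat_lit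 0) (XT.lf (nat_lit 0) (nat_lit 24580749380) (nat_lit 76) (nat_lit 365525804569) (nat_lit 76) (nat_lit 363629116624) (nat_lit 1) (nat_lit 4) (nat_lit 2) (nat_lit 5) (nat_lit 2) (nat_lit 4) (nat_lit 386) (nat_lit 271) (nat_lit 243)) (XT.nd (nat_lit 78) (nat_lit 0) (nat_lit 0) (XT.lf (nat_lit 0) (nat_lit 31052684207) (nat_lit 76) (nat_lit 392390800782) (nat_lit 76) (nat_lit 390475692299) (nat_lit 1) (nat_lit 4) (nat_lit 2) (nat_lit 5) (nat_lit 2) (nat_lit 4) (nat_lit 387) (nat_lit 271) (nat_lit 242)) (XT.lf (nat_lit 0) (nat_lit 37981466553) (nat_lit 76) (nat_lit 421434810921) (nat_lit 76) (nat_lit 419502646385) (nat_lit 1) (nat_lit 4) (nat_lit 2) (nat_lit 5) (nat_lit 2) (nat_lit 4) (nat_lit 388) (nat_lit 271) (nat_lit 241)))) (XT.nd (nat_lit 78) (nat_lit 0) (nat_lit 0) (XT.lf (nat_lit 0) (nat_lit 45408155868) (nat_lit 76) (nat_lit 452829947638) (nat_lit 76) (nat_lit 450881990460) (nat_lit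 1) (nat_lit 4) (nat_lit 2) (nat_lit 5) (nat_lit 2) (nat_lit 4) (nat_lit 389) (nat_lit 271) (nat_lit 240)) (XT.nd (nat_lit 78) (nat_lit 0) (nat_lit 0) (XT.lf (nat_lit 0) (nat_lit 53376762164) (nat_lit 76) (nat_lit 486762256189) (nat_lit 76) (nat_lit 484799676194) (nat_lit 1) (nat_lit 4) (nat_lit 2) (nat_lit 5) (nat_lit 2) (nat_lit 4) (nat_lit 390) (nat_lit 271) (nat_lit 239)) (XT.lf (nat_lit 0) (nat_lit 61934506812) (nat_lit 76) (nat_lit 523432816920) (nat_lit 76) (nat_lit 521456697280) (nat_lit 1) (nat_lit 4) (nat_lit 2) (nat_lit 5) (nat_lit 2) (nat_lit 4) (nat_lit 391) (nat_lit 271) (nat_lit 238)))))) (XT.nd (nat_lit 390) (nat_lit 0) (nat_lit 0) (XT.nd (nat_lit 156) (nat_lit 152) (nat_lit 0) (XT.nd (nat_lit 78) (nat_lit 0) (nat_lit 0) (XT.lf (nat_lit 0) (nat_lit 32854341030) (nat_lit 76) (nat_lit 2880165954) (nat_lit 76) (nat_lit 2880165954) (nat_lit 4) (nat_lit 4) (nat_lit 5) (nat_lit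 5) (nat_lit 5) (nat_lit 4) (nat_lit 356) (nat_lit 272) (nat_lit 272)) (XT.lf (nat_lit 0) (nat_lit 81494299123) (nat_lit 76) (nat_lit 910999689) (nat_lit 76) (nat_lit 730789011) (nat_lit 4) (nat_lit 4) (nat_lit 5) (nat_lit 5) (nat_lit 5) (nat_lit 4) (nat_lit 357) (nat_lit 272) (nat_lit 271))) (XT.nd (nat_lit 78) (nat_lit 0) (nat_lit 0) (XT.lf (nat_lit 0) (nat_lit 4485345368) (nat_lit 152) (nat_lit 80874862479) (nat_lit 0) (nat_lit 4154800210) (nat_lit 2) (nat_lit 5) (nat_lit 4) (nat_lit 4) (nat_lit 2) (nat_lit 4) (nat_lit 358) (nat_lit 272) (nat_lit 270)) (XT.nd (nat_lit 78) (nat_lit 0) (nat_lit 0) (XT.lf (nat_lit 0) (nat_lit 9877899204) (nat_lit 152) (nat_lit 77136337693) (nat_lit 0) (nat_lit 9400209656) (nat_lit 2) (nat_lit 5) (nat_lit 4) (nat_lit 4) (nat_lit 2) (nat_lit 4) (nat_lit 359) (nat_lit 272) (nat_lit 269)) (XT.lf (nat_lit 0) (nat_lit 15461080356) (nat_lit 152) (nat_lit 73569689889)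 (nat_lit 0) (nat_lit 14847146002) (nat_lit 2) (nat_lit 5) (nat_lit 4) (nat_lit 4) (nat_lit 2) (nat_lit 4) (nat_lit 360) (nat_lit 272) (nat_lit 268))))) (XT.nd (nat_lit 234) (nat_lit 0) (nat_lit 0) (XT.nd (nat_lit 78) (nat_lit 0) (nat_lit 0) (XT.lf (nat_lit 0) (nat_lit 21267974342) (nat_lit 152) (nat_lit 70153783377) (nat_lit 0) (nat_lit 20527887391) (nat_lit 2) (nat_lit 5) (nat_lit 4) (nat_lit 4) (nat_lit 2) (nat_lit 4) (nat_lit 361) (nat_lit 272) (nat_lit 267)) (XT.nd (nat_lit 78) (nat_lit 0) (nat_lit 0) (XT.lf (nat_lit 0) (nat_lit 27332992386) (nat_lit 152) (nat_lit 66868375749) (nat_lit 0) (nat_lit 26476097473) (nat_lit 2) (nat_lit 5) (nat_lit 4) (nat_lit 4) (nat_lit 2) (nat_lit 4) (nat_lit 362) (nat_lit 272) (nat_lit 266)) (XT.lf (nat_lit 0) (nat_lit 33692075334) (nat_lit 152) (nat_lit 63693997921) (nat_lit 0) (nat_lit 32727024902) (nat_lit 2) (nat_lit 5) (nat_lit 4) (nat_lit 4) (nat_lit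 2) (nat_lit 4) (nat_lit 363) (nat_lit 272) (nat_lit 265)))) (XT.nd (nat_lit 78) (nat_lit 0) (nat_lit 0) (XT.lf (nat_lit 0) (nat_lit 40382906643) (nat_lit 152) (nat_lit 60611838766) (nat_lit 0) (nat_lit 39317712211) (nat_lit 2) (nat_lit 5) (nat_lit 4) (nat_lit 4) (nat_lit 2) (nat_lit 4) (nat_lit 364) (nat_lit 272) (nat_lit 264)) (XT.nd (nat_lit 78) (nat_lit 0) (nat_lit 0) (XT.lf (nat_lit 0) (nat_lit 47445135681) (nat_lit 152) (nat_lit 57603633637) (nat_lit 0) (nat_lit 46287215325) (nat_lit 2) (nat_lit 5) (nat_lit 4) (nat_lit 4) (nat_lit 2) (nat_lit 4) (nat_lit 365) (nat_lit 272) (nat_lit 263)) (XT.lf (nat_lit 0) (nat_lit 54920612697) (nat_lit 152) (nat_lit 54651556134) (nat_lit 0) (nat_lit 53676835002) (nat_lit 2) (nat_lit 5) (nat_lit 4) (nat_lit 4) (nat_lit 2) (nat_lit 4) (nat_lit 366) (nat_lit 272) (nat_lit 262))))))) (XT.nd (nat_lit 858) (nat_lit 76) (nat_lit 0) (XT.nd (nat_lit 390) (nat_lit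 0) (nat_lit 0) (XT.nd (nat_lit 156) (nat_lit 0) (nat_lit 0) (XT.nd (nat_lit 78) (nat_lit 0) (nat_lit 0) (XT.lf (nat_lit 0) (nat_lit 62853636811) (nat_lit 152) (nat_lit 51738112464) (nat_lit 0) (nat_lit 61530361581) (nat_lit 2) (nat_lit 5) (nat_lit 4) (nat_lit 4) (nat_lit 2) (nat_lit 4) (nat_lit 367) (nat_lit 272) (nat_lit 261)) (XT.lf (nat_lit 0) (nat_lit 71291218539) (nat_lit 152) (nat_lit 48846037774) (nat_lit 0) (nat_lit 69894334479) (nat_lit 2) (nat_lit 5) (nat_lit 4) (nat_lit 4) (nat_lit 2) (nat_lit 4) (nat_lit 368) (nat_lit 272) (nat_lit 260))) (XT.nd (nat_lit 78) (nat_lit 0) (nat_lit 0) (XT.lf (nat_lit 0) (nat_lit 80283358364) (nat_lit 152) (nat_lit 45958193846) (nat_lit 0) (nat_lit 78818317981) (nat_lit 2) (nat_lit 5) (nat_lit 4) (nat_lit 4) (nat_lit 2) (nat_lit 4) (nat_lit 369) (nat_lit 272) (nat_lit 259)) (XT.nd (nat_lit 78) (nat_lit 0) (nat_lit 0) (XT.lf (nat_lit 0) (nat_lit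 89883343040) (nat_lit 152) (nat_lit 43057467530) (nat_lit 0) (nat_lit 88355194951) (nat_lit 2) (nat_lit 5) (nat_lit 4) (nat_lit 4) (nat_lit 2) (nat_lit 4) (nat_lit 370) (nat_lit 272) (nat_lit 258)) (XT.lf (nat_lit 0) (nat_lit 100148061367) (nat_lit 152) (nat_lit 40126669336) (nat_lit 0) (nat_lit 98561480215) (nat_lit 2) (nat_lit 5) (nat_lit 4) (nat_lit 4) (nat_lit 2) (nat_lit 4) (nat_lit 371) (nat_lit 272) (nat_lit 257))))) (XT.nd (nat_lit 234) (nat_lit 0) (nat_lit 0) (XT.nd (nat_lit 78) (nat_lit 0) (nat_lit 0) (XT.lf (nat_lit 0) (nat_lit 111138341303) (nat_lit 152) (nat_lit 37148431571) (nat_lit 0) (nat_lit 109497655465) (nat_lit 2) (nat_lit 5) (nat_lit 4) (nat_lit 4) (nat_lit 2) (nat_lit 4) (nat_lit 372) (nat_lit 272) (nat_lit 256)) (XT.nd (nat_lit 78) (nat_lit 0) (nat_lit 0) (XT.lf (nat_lit 0) (nat_lit 122919310435) (nat_lit 152) (nat_lit 34105105420) (nat_lit 0) (nat_lit 121228527664)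 (nat_lit 2) (nat_lit 5) (nat_lit 4) (nat_lit 4) (nat_lit 2) (nat_lit 4) (nat_lit 373) (nat_lit 272) (nat_lit 255)) (XT.lf (nat_lit 0) (nat_lit 135560781912) (nat_lit 152) (nat_lit 30978656357) (nat_lit 0) (nat_lit 133823613093) (nat_lit 2) (nat_lit 5) (nat_lit 4) (nat_lit 4) (nat_lit 2) (nat_lit 4) (nat_lit 374) (nat_lit 272) (nat_lit 254)))) (XT.nd (nat_lit 78) (nat_lit 0) (nat_lit 0) (XT.lf (nat_lit 0) (nat_lit 149137668158) (nat_lit 152) (nat_lit 27750557275) (nat_lit 0) (nat_lit 147357549294) (nat_lit 2) (nat_lit 5) (nat_lit 4) (nat_lit 4) (nat_lit 2) (nat_lit 4) (nat_lit 375) (nat_lit 272) (nat_lit 253)) (XT.nd (nat_lit 78) (nat_lit 0) (nat_lit 0) (XT.lf (nat_lit 0) (nat_lit 163730424795) (nat_lit 152) (nat_lit 24401678700) (nat_lit 0) (nat_lit 161910537371) (nat_lit 2) (nat_lit 5) (nat_lit 4) (nat_lit 4) (nat_lit 2) (nat_lit 4) (nat_lit 376) (nat_lit 272) (nat_lit 252)) (XT.lf (nat_lit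 0) (nat_lit 179425527418) (nat_lit 152) (nat_lit 20912175425) (nat_lit 0) (nat_lit 177568817253) (nat_lit 2) (nat_lit 5) (nat_lit 4) (nat_lit 4) (nat_lit 2) (nat_lit 4) (nat_lit 377) (nat_lit 272) (nat_lit 251)))))) (XT.nd (nat_lit 468) (nat_lit 0) (nat_lit 0) (XT.nd (nat_lit 234) (nat_lit 76) (nat_lit 0) (XT.nd (nat_lit 78) (nat_lit 0) (nat_lit 0) (XT.lf (nat_lit 0) (nat_lit 196315984043) (nat_lit 152) (nat_lit 17261368912) (nat_lit 0) (nat_lit 194425178748) (nat_lit 2) (nat_lit 5) (nat_lit 4) (nat_lit 4) (nat_lit 2) (nat_lit 4) (nat_lit 378) (nat_lit 272) (nat_lit 250)) (XT.nd (nat_lit 78) (nat_lit 0) (nat_lit 0) (XT.lf (nat_lit 0) (nat_lit 214501886264) (nat_lit 152) (nat_lit 13427624751) (nat_lit 0) (nat_lit 212579511404) (nat_lit 2) (nat_lit 5) (nat_lit 4) (nat_lit 4) (nat_lit 2) (nat_lit 4) (nat_lit 379) (nat_lit 272) (nat_lit 249)) (XT.lf (nat_lit 0) (nat_lit 234091002392) (nat_lit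 152) (nat_lit 9388224459) (nat_lit 0) (nat_lit 232139396453) (nat_lit 2) (nat_lit 5) (nat_lit 4) (nat_lit 4) (nat_lit 2) (nat_lit 4) (nat_lit 380) (nat_lit 272) (nat_lit 248)))) (XT.nd (nat_lit 78) (nat_lit 76) (nat_lit 0) (XT.lf (nat_lit 0) (nat_lit 255199416076) (nat_lit 152) (nat_lit 5119230850) (nat_lit 0) (nat_lit 253220744323) (nat_lit 2) (nat_lit 5) (nat_lit 4) (nat_lit 4) (nat_lit 2) (nat_lit 4) (nat_lit 381) (nat_lit 272) (nat_lit 247)) (XT.nd (nat_lit 78) (nat_lit 76) (nat_lit 0) (XT.lf (nat_lit 0) (nat_lit 277952214213) (nat_lit 152) (nat_lit 595346183) (nat_lit 0) (nat_lit 275948481522) (nat_lit 2) (nat_lit 5) (nat_lit 4) (nat_lit 4) (nat_lit 2) (nat_lit 4) (nat_lit 382) (nat_lit 272) (nat_lit 246)) (XT.lf (nat_lit 0) (nat_lit 4349447221) (nat_lit 76) (nat_lit 298202688039) (nat_lit 76) (nat_lit 296175750775) (nat_lit 1) (nat_lit 4) (nat_lit 2) (nat_lit 5) (nat_lit 2) (nat_lit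 4) (nat_lit 383) (nat_lit 272) (nat_lit 245))))) (XT.nd (nat_lit 234) (nat_lit 0) (nat_lit 0) (XT.nd (nat_lit 78) (nat_lit 0) (nat_lit 0) (XT.lf (nat_lit 0) (nat_lit 9634358102) (nat_lit 76) (nat_lit 319456894161) (nat_lit 76) (nat_lit 317408471181) (nat_lit 1) (nat_lit 4) (nat_lit 2) (nat_lit 5) (nat_lit 2) (nat_lit 4) (nat_lit 384) (nat_lit 272) (nat_lit 244)) (XT.nd (nat_lit 78) (nat_lit 0) (nat_lit 0) (XT.lf (nat_lit 0) (nat_lit 15271019617) (nat_lit 76) (nat_lit 342446212090) (nat_lit 76) (nat_lit 340377894929) (nat_lit 1) (nat_lit 4) (nat_lit 2) (nat_lit 5) (nat_lit 2) (nat_lit 4) (nat_lit 385) (nat_lit 272) (nat_lit 243)) (XT.lf (nat_lit 0) (nat_lit 21292834204) (nat_lit 76) (nat_lit 367306874819) (nat_lit 76) (nat_lit 365220137120) (nat_lit 1) (nat_lit 4) (nat_lit 2) (nat_lit 5) (nat_lit 2) (nat_lit 4) (nat_lit 386) (nat_lit 272) (nat_lit 242)))) (XT.nd (nat_lit 78) (nat_lit 0)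 (nat_lit 0) (XT.lf (nat_lit 0) (nat_lit 27735486691) (nat_lit 76) (nat_lit 394186204796) (nat_lit 76) (nat_lit 392082411044) (nat_lit 1) (nat_lit 4) (nat_lit 2) (nat_lit 5) (nat_lit 2) (nat_lit 4) (nat_lit 387) (nat_lit 272) (nat_lit 241)) (XT.nd (nat_lit 78) (nat_lit 0) (nat_lit 0) (XT.lf (nat_lit 0) (nat_lit 34637155759) (nat_lit 76) (nat_lit 423243486939) (nat_lit 76) (nat_lit 421123900544) (nat_lit 1) (nat_lit 4) (nat_lit 2) (nat_lit 5) (nat_lit 2) (nat_lit 4) (nat_lit 388) (nat_lit 272) (nat_lit 240)) (XT.lf (nat_lit 0) (nat_lit 42038740188) (nat_lit 76) (nat_lit 454650912549) (nat_lit 76) (nat_lit 452516703337) (nat_lit 1) (nat_lit 4) (nat_lit 2) (nat_lit 5) (nat_lit 2) (nat_lit 4) (nat_lit 389) (nat_lit 272) (nat_lit 239))))))))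
noncomputable def xc8 : XT := (XT.nd (nat_lit 45630) (nat_lit 0) (nat_lit 0) (XT.nd (nat_lit 44772) (nat_lit 0) (nat_lit 76) (XT.nd (nat_lit 44304) (nat_lit 0) (nat_lit 76) (XT.nd (nat_lit 44070) (nat_lit 0) (nat_lit 228) (XT.nd (nat_lit 78) (nat_lit 0) (nat_lit 0) (XT.lf (nat_lit 0) (nat_lit 49984101219) (nat_lit 76) (nat_lit 488594599704) (nat_lit 76) (nat_lit 486446850846) (nat_lit 1) (nat_lit 4) (nat_lit 2) (nat_lit 5) (nat_lit 2) (nat_lit 4) (nat_lit 390) (nat_lit 272) (nat_lit 238)) (XT.lf (nat_lit 0) (nat_lit 58520322472) (nat_lit 76) (nat_lit 525275696179) (nat_lit 76) (nat_lit 523115410613) (nat_lit 1) (nat_lit 4) (nat_lit 2) (nat_lit 5) (nat_lit 2) (nat_lit 4) (nat_lit 391) (nat_lit 272) (nat_lit 237))) (XT.nd (nat_lit 78) (nat_lit 0) (nat_lit 0) (XT.lf (nat_lit 0) (nat_lit 18151744669) (nat_lit 76) (nat_lit 7606238176) (nat_lit 76) (nat_lit 7606238176) (nat_lit 4) (nat_lit 4)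 (nat_lit 5) (nat_lit 5) (nat_lit 5) (nat_lit 4) (nat_lit 354) (nat_lit 273) (nat_lit 273)) (XT.nd (nat_lit 78) (nat_lit 0) (nat_lit 0) (XT.lf (nat_lit 0) (nat_lit 50579004782) (nat_lit 76) (nat_lit 10694502986) (nat_lit 76) (nat_lit 10499875454) (nat_lit 4) (nat_lit 4) (nat_lit 5) (nat_lit 5) (nat_lit 5) (nat_lit 4) (nat_lit 355) (nat_lit 273) (nat_lit 272)) (XT.lf (nat_lit 0) (nat_lit 65442127061) (nat_lit 76) (nat_lit 6084466560) (nat_lit 76) (nat_lit 5709628351) (nat_lit 4) (nat_lit 4) (nat_lit 5) (nat_lit 5) (nat_lit 5) (nat_lit 4) (nat_lit 356) (nat_lit 273) (nat_lit 271))))) (XT.nd (nat_lit 234) (nat_lit 0) (nat_lit 0) (XT.nd (nat_lit 78) (nat_lit 152) (nat_lit 0) (XT.lf (nat_lit 0) (nat_lit 80980933938) (nat_lit 76) (nat_lit 1355048341) (nat_lit 76) (nat_lit 813348393) (nat_lit 4) (nat_lit 4) (nat_lit 5) (nat_lit 5) (nat_lit 5) (nat_lit 4) (nat_lit 357) (nat_lit 273) (nat_lit 270))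 (XT.nd (nat_lit 78) (nat_lit 0) (nat_lit 0) (XT.lf (nat_lit 0) (nat_lit 4264843817) (nat_lit 152) (nat_lit 81668725403) (nat_lit 0) (nat_lit 3601794715) (nat_lit 2) (nat_lit 5) (nat_lit 4) (nat_lit 4) (nat_lit 2) (nat_lit 4) (nat_lit 358) (nat_lit 273) (nat_lit 269)) (XT.lf (nat_lit 0) (nat_lit 9541639485) (nat_lit 152) (nat_lit 78156623196) (nat_lit 0) (nat_lit 8742345577) (nat_lit 2) (nat_lit 5) (nat_lit 4) (nat_lit 4) (nat_lit 2) (nat_lit 4) (nat_lit 359) (nat_lit 273) (nat_lit 268)))) (XT.nd (nat_lit 78) (nat_lit 0) (nat_lit 0) (XT.lf (nat_lit 0) (nat_lit 15017637147) (nat_lit 152) (nat_lit 74799625929) (nat_lit 0) (nat_lit 14092190642) (nat_lit 2) (nat_lit 5) (nat_lit 4) (nat_lit 4) (nat_lit 2) (nat_lit 4) (nat_lit 360) (nat_lit 273) (nat_lit 267)) (XT.nd (nat_lit 78) (nat_lit 0) (nat_lit 0) (XT.lf (nat_lit 0) (nat_lit 20725287161) (nat_lit 152) (nat_lit 71577840284) (nat_lit 0) (nat_lit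 19683032695) (nat_lit 2) (nat_lit 5) (nat_lit 4) (nat_lit 4) (nat_lit 2) (nat_lit 4) (nat_lit 361) (nat_lit 273) (nat_lit 266)) (XT.lf (nat_lit 0) (nat_lit 26698412638) (nat_lit 152) (nat_lit 68472174200) (nat_lit 0) (nat_lit 25548002653) (nat_lit 2) (nat_lit 5) (nat_lit 4) (nat_lit 4) (nat_lit 2) (nat_lit 4) (nat_lit 362) (nat_lit 273) (nat_lit 265)))))) (XT.nd (nat_lit 390) (nat_lit 0) (nat_lit 0) (XT.nd (nat_lit 156) (nat_lit 0) (nat_lit 0) (XT.nd (nat_lit 78) (nat_lit 0) (nat_lit 0) (XT.lf (nat_lit 0) (nat_lit 32972409877) (nat_lit 152) (nat_lit 65464223727) (nat_lit 0) (nat_lit 31721855892) (nat_lit 2) (nat_lit 5) (nat_lit 4) (nat_lit 4) (nat_lit 2) (nat_lit 4) (nat_lit 363) (nat_lit 273) (nat_lit 264)) (XT.lf (nat_lit 0) (nat_lit 39584458121) (nat_lit 152) (nat_lit 62536163976) (nat_lit 0) (nat_lit 38241178210) (nat_lit 2) (nat_lit 5) (nat_lit 4) (nat_lit 4) (nat_lit 2) (nat_lit 4)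 (nat_lit 364) (nat_lit 273) (nat_lit 263))) (XT.nd (nat_lit 78) (nat_lit 0) (nat_lit 0) (XT.lf (nat_lit 0) (nat_lit 46573739878) (nat_lit 152) (nat_lit 59670643479) (nat_lit 0) (nat_lit 45144602629) (nat_lit 2) (nat_lit 5) (nat_lit 4) (nat_lit 4) (nat_lit 2) (nat_lit 4) (nat_lit 365) (nat_lit 273) (nat_lit 262)) (XT.nd (nat_lit 78) (nat_lit 0) (nat_lit 0) (XT.lf (nat_lit 0) (nat_lit 53981673113) (nat_lit 152) (nat_lit 56850681377) (nat_lit 0) (nat_lit 52473038329) (nat_lit 2) (nat_lit 5) (nat_lit 4) (nat_lit 4) (nat_lit 2) (nat_lit 4) (nat_lit 366) (nat_lit 273) (nat_lit 261)) (XT.lf (nat_lit 0) (nat_lit 61852156692) (nat_lit 152) (nat_lit 54059566781) (nat_lit 0) (nat_lit 60269913078) (nat_lit 2) (nat_lit 5) (nat_lit 4) (nat_lit 4) (nat_lit 2) (nat_lit 4) (nat_lit 367) (nat_lit 273) (nat_lit 260))))) (XT.nd (nat_lit 234) (nat_lit 0) (nat_lit 0) (XT.nd (nat_lit 78) (nat_lit 0) (nat_lit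 0) (XT.lf (nat_lit 0) (nat_lit 70231830515) (nat_lit 152) (nat_lit 51280759753) (nat_lit 0) (nat_lit 68581430578) (nat_lit 2) (nat_lit 5) (nat_lit 4) (nat_lit 4) (nat_lit 2) (nat_lit 4) (nat_lit 368) (nat_lit 273) (nat_lit 259)) (XT.nd (nat_lit 78) (nat_lit 0) (nat_lit 0) (XT.lf (nat_lit 0) (nat_lit 79170351910) (nat_lit 152) (nat_lit 48497793289) (nat_lit 0) (nat_lit 77456844266) (nat_lit 2) (nat_lit 5) (nat_lit 4) (nat_lit 4) (nat_lit 2) (nat_lit 4) (nat_lit 369) (nat_lit 273) (nat_lit 258)) (XT.lf (nat_lit 0) (nat_lit 88720689892) (nat_lit 152) (nat_lit 45694175736) (nat_lit 0) (nat_lit 86948749186) (nat_lit 2) (nat_lit 5) (nat_lit 4) (nat_lit 4) (nat_lit 2) (nat_lit 4) (nat_lit 370) (nat_lit 273) (nat_lit 257)))) (XT.nd (nat_lit 78) (nat_lit 0) (nat_lit 0) (XT.lf (nat_lit 0) (nat_lit 98939439057) (nat_lit 152) (nat_lit 42853293064) (nat_lit 0) (nat_lit 97113393664) (nat_lit 2) (nat_lit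 5) (nat_lit 4) (nat_lit 4) (nat_lit 2) (nat_lit 4) (nat_lit 371) (nat_lit 273) (nat_lit 256)) (XT.nd (nat_lit 78) (nat_lit 0) (nat_lit 0) (XT.lf (nat_lit 0) (nat_lit 109887154955) (nat_lit 152) (nat_lit 39958310412) (nat_lit 0) (nat_lit 108011012630) (nat_lit 2) (nat_lit 5) (nat_lit 4) (nat_lit 4) (nat_lit 2) (nat_lit 4) (nat_lit 372) (nat_lit 273) (nat_lit 255)) (XT.lf (nat_lit 0) (nat_lit 121628712940) (nat_lit 152) (nat_lit 36992072328) (nat_lit 0) (nat_lit 119706184567) (nat_lit 2) (nat_lit 5) (nat_lit 4) (nat_lit 4) (nat_lit 2) (nat_lit 4) (nat_lit 373) (nat_lit 273) (nat_lit 254))))))) (XT.nd (nat_lit 858) (nat_lit 0) (nat_lit 0) (XT.nd (nat_lit 390) (nat_lit 76) (nat_lit 0) (XT.nd (nat_lit 156) (nat_lit 0) (nat_lit 0) (XT.nd (nat_lit 78) (nat_lit 0) (nat_lit 0) (XT.lf (nat_lit 0) (nat_lit 134233692614) (nat_lit 152) (nat_lit 33937001105) (nat_lit 0) (nat_lit 132268214196) (nat_lit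 2) (nat_lit 5) (nat_lit 4) (nat_lit 4) (nat_lit 2) (nat_lit 4) (nat_lit 374) (nat_lit 273) (nat_lit 253)) (XT.lf (nat_lit 0) (nat_lit 147776790154) (nat_lit 152) (nat_lit 30774992616) (nat_lit 0) (nat_lit 145771543176) (nat_lit 2) (nat_lit 5) (nat_lit 4) (nat_lit 4) (nat_lit 2) (nat_lit 4) (nat_lit 375) (nat_lit 273) (nat_lit 252))) (XT.nd (nat_lit 78) (nat_lit 0) (nat_lit 0) (XT.lf (nat_lit 0) (nat_lit 162338260952) (nat_lit 152) (nat_lit 27487309034) (nat_lit 0) (nat_lit 160296191234) (nat_lit 2) (nat_lit 5) (nat_lit 4) (nat_lit 4) (nat_lit 2) (nat_lit 4) (nat_lit 376) (nat_lit 273) (nat_lit 251)) (XT.nd (nat_lit 78) (nat_lit 0) (nat_lit 0) (XT.lf (nat_lit 0) (nat_lit 178004395206) (nat_lit 152) (nat_lit 24054467789) (nat_lit 0) (nat_lit 175928230357) (nat_lit 2) (nat_lit 5) (nat_lit 4) (nat_lit 4) (nat_lit 2) (nat_lit 4) (nat_lit 377) (nat_lit 273) (nat_lit 250)) (XT.lf (nat_lit 0) (nat_lit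 194868029267) (nat_lit 152) (nat_lit 20456126119) (nat_lit 0) (nat_lit 192760294853) (nat_lit 2) (nat_lit 5) (nat_lit 4) (nat_lit 4) (nat_lit 2) (nat_lit 4) (nat_lit 378) (nat_lit 273) (nat_lit 249))))) (XT.nd (nat_lit 234) (nat_lit 76) (nat_lit 0) (XT.nd (nat_lit 78) (nat_lit 0) (nat_lit 0) (XT.lf (nat_lit 0) (nat_lit 213029095781) (nat_lit 152) (nat_lit 16670960517) (nat_lit 0) (nat_lit 210892130288) (nat_lit 2) (nat_lit 5) (nat_lit 4) (nat_lit 4) (nat_lit 2) (nat_lit 4) (nat_lit 379) (nat_lit 273) (nat_lit 248)) (XT.nd (nat_lit 78) (nat_lit 0) (nat_lit 0) (XT.lf (nat_lit 0) (nat_lit 232595215882) (nat_lit 152) (nat_lit 12676540373) (nat_lit 0) (nat_lit 230431184576) (nat_lit 2) (nat_lit 5) (nat_lit 4) (nat_lit 4) (nat_lit 2) (nat_lit 4) (nat_lit 380) (nat_lit 273) (nat_lit 247)) (XT.lf (nat_lit 0) (nat_lit 253682336951) (nat_lit 152) (nat_lit 8449195047) (nat_lit 0) (nat_lit 251493244705)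 (nat_lit 2) (nat_lit 5) (nat_lit 4) (nat_lit 4) (nat_lit 2) (nat_lit 4) (nat_lit 381) (nat_lit 273) (nat_lit 246)))) (XT.nd (nat_lit 78) (nat_lit 76) (nat_lit 0) (XT.lf (nat_lit 0) (nat_lit 276415419702) (nat_lit 152) (nat_lit 3963873606) (nat_lit 0) (nat_lit 274203122884) (nat_lit 2) (nat_lit 5) (nat_lit 4) (nat_lit 4) (nat_lit 2) (nat_lit 4) (nat_lit 382) (nat_lit 273) (nat_lit 245)) (XT.nd (nat_lit 78) (nat_lit 0) (nat_lit 0) (XT.lf (nat_lit 0) (nat_lit 832653753) (nat_lit 76) (nat_lit 300109525008) (nat_lit 76) (nat_lit 297875742474) (nat_lit 1) (nat_lit 4) (nat_lit 2) (nat_lit 5) (nat_lit 2) (nat_lit 4) (nat_lit 383) (nat_lit 273) (nat_lit 244)) (XT.lf (nat_lit 0) (nat_lit 6083409712) (nat_lit 76) (nat_lit 321380450032) (nat_lit 76) (nat_lit 319126773317) (nat_lit 1) (nat_lit 4) (nat_lit 2) (nat_lit 5) (nat_lit 2) (nat_lit 4) (nat_lit 384) (nat_lit 273) (nat_lit 243)))))) (XT.nd (nat_lit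 390) (nat_lit 0) (nat_lit 0) (XT.nd (nat_lit 156) (nat_lit 0) (nat_lit 0) (XT.nd (nat_lit 78) (nat_lit 0) (nat_lit 0) (XT.lf (nat_lit 0) (nat_lit 11688446300) (nat_lit 76) (nat_lit 344385248425) (nat_lit 76) (nat_lit 342113151173) (nat_lit 1) (nat_lit 4) (nat_lit 2) (nat_lit 5) (nat_lit 2) (nat_lit 4) (nat_lit 385) (nat_lit 273) (nat_lit 242)) (XT.lf (nat_lit 0) (nat_lit 17680978548) (nat_lit 76) (nat_lit 369260244919) (nat_lit 76) (nat_lit 366971091613) (nat_lit 1) (nat_lit 4) (nat_lit 2) (nat_lit 5) (nat_lit 2) (nat_lit 4) (nat_lit 386) (nat_lit 273) (nat_lit 241))) (XT.nd (nat_lit 78) (nat_lit 0) (nat_lit 0) (XT.lf (nat_lit 0) (nat_lit 24096517757) (nat_lit 76) (nat_lit 396152846900) (nat_lit 76) (nat_lit 393847900951) (nat_lit 1) (nat_lit 4) (nat_lit 2) (nat_lit 5) (nat_lit 2) (nat_lit 4) (nat_lit 387) (nat_lit 273) (nat_lit 240)) (XT.nd (nat_lit 78) (nat_lit 0) (nat_lit 0) (XT.lf (nat_lit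 0) (nat_lit 30973081938) (nat_lit 76) (nat_lit 425222417935) (nat_lit 76) (nat_lit 422902849169) (nat_lit 1) (nat_lit 4) (nat_lit 2) (nat_lit 5) (nat_lit 2) (nat_lit 4) (nat_lit 388) (nat_lit 273) (nat_lit 239)) (XT.lf (nat_lit 0) (nat_lit 38351421101) (nat_lit 76) (nat_lit 456641222148) (nat_lit 76) (nat_lit 454308113737) (nat_lit 1) (nat_lit 4) (nat_lit 2) (nat_lit 5) (nat_lit 2) (nat_lit 4) (nat_lit 389) (nat_lit 273) (nat_lit 238))))) (XT.nd (nat_lit 43992) (nat_lit 0) (nat_lit 228) (XT.nd (nat_lit 78) (nat_lit 0) (nat_lit 0) (XT.lf (nat_lit 0) (nat_lit 46275258737) (nat_lit 76) (nat_lit 490595445047) (nat_lit 76) (nat_lit 488249799927) (nat_lit 1) (nat_lit 4) (nat_lit 2) (nat_lit 5) (nat_lit 2) (nat_lit 4) (nat_lit 390) (nat_lit 273) (nat_lit 237)) (XT.nd (nat_lit 43836) (nat_lit 0) (nat_lit 228) (XT.lf (nat_lit 0) (nat_lit 54791550922) (nat_lit 76) (nat_lit 527286296842) (nat_lit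 76) (nat_lit 524929043658) (nat_lit 1) (nat_lit 4) (nat_lit 2) (nat_lit 5) (nat_lit 2) (nat_lit 4) (nat_lit 391) (nat_lit 273) (nat_lit 236)) (XT.lf (nat_lit 0) (nat_lit 4745393464) (nat_lit 76) (nat_lit 12069040167) (nat_lit 76) (nat_lit 12069040167) (nat_lit 4) (nat_lit 4) (nat_lit 5) (nat_lit 5) (nat_lit 5) (nat_lit 4) (nat_lit 352) (nat_lit 274) (nat_lit 274)))) (XT.nd (nat_lit 78) (nat_lit 0) (nat_lit 0) (XT.lf (nat_lit 0) (nat_lit 22530985083) (nat_lit 76) (nat_lit 19875357568) (nat_lit 76) (nat_lit 19665159834) (nat_lit 4) (nat_lit 4) (nat_lit 5) (nat_lit 5) (nat_lit 5) (nat_lit 4) (nat_lit 353) (nat_lit 274) (nat_lit 273)) (XT.nd (nat_lit 78) (nat_lit 0) (nat_lit 0) (XT.lf (nat_lit 0) (nat_lit 36015609938) (nat_lit 76) (nat_lit 15562541776) (nat_lit 76) (nat_lit 15157716510) (nat_lit 4) (nat_lit 4) (nat_lit 5) (nat_lit 5) (nat_lit 5) (nat_lit 4) (nat_lit 354) (nat_lit 274) (nat_lit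 272)) (XT.lf (nat_lit 0) (nat_lit 50024570382) (nat_lit 76) (nat_lit 11174075530) (nat_lit 76) (nat_lit 10589039587) (nat_lit 4) (nat_lit 4) (nat_lit 5) (nat_lit 5) (nat_lit 5) (nat_lit 4) (nat_lit 355) (nat_lit 274) (nat_lit 271))))))))
noncomputable def xc9 : XT := (XT.nd (nat_lit 1716) (nat_lit 76) (nat_lit 0) (XT.nd (nat_lit 858) (nat_lit 0) (nat_lit 0) (XT.nd (nat_lit 390) (nat_lit 0) (nat_lit 0) (XT.nd (nat_lit 156) (nat_lit 152) (nat_lit 0) (XT.nd (nat_lit 78) (nat_lit 0) (nat_lit 0) (XT.lf (nat_lit 0) (nat_lit 64640882476) (nat_lit 76) (nat_lit 6683953104) (nat_lit 76) (nat_lit 5932055423) (nat_lit 4) (nat_lit 4) (nat_lit 5) (nat_lit 5) (nat_lit 5) (nat_lit 4) (nat_lit 356) (nat_lit 274) (nat_lit 270)) (XT.lf (nat_lit 0) (nat_lit 79951161404) (nat_lit 76) (nat_lit 2065566366) (nat_lit 76) (nat_lit 1159167075) (nat_lit 4) (nat_lit 4) (nat_lit 5) (nat_lit 5) (nat_lit 5) (nat_lit 4)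 (nat_lit 357) (nat_lit 274) (nat_lit 269))) (XT.nd (nat_lit 78) (nat_lit 0) (nat_lit 0) (XT.lf (nat_lit 0) (nat_lit 3785925151) (nat_lit 152) (nat_lit 82997056326) (nat_lit 0) (nat_lit 2786442926) (nat_lit 2) (nat_lit 5) (nat_lit 4) (nat_lit 4) (nat_lit 2) (nat_lit 4) (nat_lit 358) (nat_lit 274) (nat_lit 268)) (XT.nd (nat_lit 78) (nat_lit 0) (nat_lit 0) (XT.lf (nat_lit 0) (nat_lit 8955537329) (nat_lit 152) (nat_lit 79694604656) (nat_lit 0) (nat_lit 7829902506) (nat_lit 2) (nat_lit 5) (nat_lit 4) (nat_lit 4) (nat_lit 2) (nat_lit 4) (nat_lit 359) (nat_lit 274) (nat_lit 267)) (XT.lf (nat_lit 0) (nat_lit 14332291020) (nat_lit 152) (nat_lit 76531728256) (nat_lit 0) (nat_lit 13089848235) (nat_lit 2) (nat_lit 5) (nat_lit 4) (nat_lit 4) (nat_lit 2) (nat_lit 4) (nat_lit 360) (nat_lit 274) (nat_lit 266))))) (XT.nd (nat_lit 234) (nat_lit 0) (nat_lit 0) (XT.nd (nat_lit 78) (nat_lit 0) (nat_lit 0) (XT.lf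 (nat_lit 0) (nat_lit 19948048468) (nat_lit 152) (nat_lit 73489684155) (nat_lit 0) (nat_lit 18597450164) (nat_lit 2) (nat_lit 5) (nat_lit 4) (nat_lit 4) (nat_lit 2) (nat_lit 4) (nat_lit 361) (nat_lit 274) (nat_lit 265)) (XT.nd (nat_lit 78) (nat_lit 0) (nat_lit 0) (XT.lf (nat_lit 0) (nat_lit 25836088235) (nat_lit 152) (nat_lit 70550445426) (nat_lit 0) (nat_lit 24385345932) (nat_lit 2) (nat_lit 5) (nat_lit 4) (nat_lit 4) (nat_lit 2) (nat_lit 4) (nat_lit 362) (nat_lit 274) (nat_lit 264)) (XT.lf (nat_lit 0) (nat_lit 32031302410) (nat_lit 152) (nat_lit 67696594357) (nat_lit 0) (nat_lit 30487834181) (nat_lit 2) (nat_lit 5) (nat_lit 4) (nat_lit 4) (nat_lit 2) (nat_lit 4) (nat_lit 363) (nat_lit 274) (nat_lit 263)))) (XT.nd (nat_lit 78) (nat_lit 0) (nat_lit 0) (XT.lf (nat_lit 0) (nat_lit 38570403371) (nat_lit 152) (nat_lit 64911219237) (nat_lit 0) (nat_lit 36941077804) (nat_lit 2) (nat_lit 5) (nat_lit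 4) (nat_lit 4) (nat_lit 2) (nat_lit 4) (nat_lit 364) (nat_lit 274) (nat_lit 262)) (XT.nd (nat_lit 78) (nat_lit 0) (nat_lit 0) (XT.lf (nat_lit 0) (nat_lit 45492141348) (nat_lit 152) (nat_lit 62177814142) (nat_lit 0) (nat_lit 43783318246) (nat_lit 2) (nat_lit 5) (nat_lit 4) (nat_lit 4) (nat_lit 2) (nat_lit 4) (nat_lit 365) (nat_lit 274) (nat_lit 261)) (XT.lf (nat_lit 0) (nat_lit 52837534047) (nat_lit 152) (nat_lit 59480181114) (nat_lit 0) (nat_lit 51055102115) (nat_lit 2) (nat_lit 5) (nat_lit 4) (nat_lit 4) (nat_lit 2) (nat_lit 4) (nat_lit 366) (nat_lit 274) (nat_lit 260)))))) (XT.nd (nat_lit 390) (nat_lit 0) (nat_lit 0) (XT.nd (nat_lit 156) (nat_lit 0) (nat_lit 0) (XT.nd (nat_lit 78) (nat_lit 0) (nat_lit 0) (XT.lf (nat_lit 0) (nat_lit 60650109721) (nat_lit 152) (nat_lit 56802334179) (nat_lit 0) (nat_lit 58799521466) (nat_lit 2) (nat_lit 5) (nat_lit 4) (nat_lit 4) (nat_lit 2) (nat_lit 4)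 (nat_lit 367) (nat_lit 274) (nat_lit 259)) (XT.lf (nat_lit 0) (nat_lit 68976165114) (nat_lit 152) (nat_lit 54128404616) (nat_lit 0) (nat_lit 67062469152) (nat_lit 2) (nat_lit 5) (nat_lit 4) (nat_lit 4) (nat_lit 2) (nat_lit 4) (nat_lit 368) (nat_lit 274) (nat_lit 258))) (XT.nd (nat_lit 78) (nat_lit 0) (nat_lit 0) (XT.lf (nat_lit 0) (nat_lit 77865039815) (nat_lit 152) (nat_lit 51442546916) (nat_lit 0) (nat_lit 75892910791) (nat_lit 2) (nat_lit 5) (nat_lit 4) (nat_lit 4) (nat_lit 2) (nat_lit 4) (nat_lit 369) (nat_lit 274) (nat_lit 257)) (XT.nd (nat_lit 78) (nat_lit 0) (nat_lit 0) (XT.lf (nat_lit 0) (nat_lit 87369408636) (nat_lit 152) (nat_lit 48728844884) (nat_lit 0) (nat_lit 85343174925) (nat_lit 2) (nat_lit 5) (nat_lit 4) (nat_lit 4) (nat_lit 2) (nat_lit 4) (nat_lit 370) (nat_lit 274) (nat_lit 256)) (XT.lf (nat_lit 0) (nat_lit 97545593762) (nat_lit 152) (nat_lit 45971217325) (nat_lit 0)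 (nat_lit 95469263119) (nat_lit 2) (nat_lit 5) (nat_lit 4) (nat_lit 4) (nat_lit 2) (nat_lit 4) (nat_lit 371) (nat_lit 274) (nat_lit 255))))) (XT.nd (nat_lit 234) (nat_lit 0) (nat_lit 0) (XT.nd (nat_lit 78) (nat_lit 0) (nat_lit 0) (XT.lf (nat_lit 0) (nat_lit 108453898513) (nat_lit 152) (nat_lit 43153322740) (nat_lit 0) (nat_lit 106331181822) (nat_lit 2) (nat_lit 5) (nat_lit 4) (nat_lit 4) (nat_lit 2) (nat_lit 4) (nat_lit 372) (nat_lit 274) (nat_lit 254)) (XT.nd (nat_lit 78) (nat_lit 0) (nat_lit 0) (XT.lf (nat_lit 0) (nat_lit 120158964696) (nat_lit 152) (nat_lit 40258462496) (nat_lit 0) (nat_lit 117993297960) (nat_lit 2) (nat_lit 5) (nat_lit 4) (nat_lit 4) (nat_lit 2) (nat_lit 4) (nat_lit 373) (nat_lit 274) (nat_lit 253)) (XT.lf (nat_lit 0) (nat_lit 132730155664) (nat_lit 152) (nat_lit 37269481865) (nat_lit 0) (nat_lit 130524720368) (nat_lit 2) (nat_lit 5) (nat_lit 4) (nat_lit 4) (nat_lit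 2) (nat_lit 4) (nat_lit 374) (nat_lit 274) (nat_lit 252)))) (XT.nd (nat_lit 78) (nat_lit 0) (nat_lit 0) (XT.lf (nat_lit 0) (nat_lit 146241967365) (nat_lit 152) (nat_lit 34168668370) (nat_lit 0) (nat_lit 143999709328) (nat_lit 2) (nat_lit 5) (nat_lit 4) (nat_lit 4) (nat_lit 2) (nat_lit 4) (nat_lit 375) (nat_lit 274) (nat_lit 251)) (XT.nd (nat_lit 78) (nat_lit 0) (nat_lit 0) (XT.lf (nat_lit 0) (nat_lit 160774469794) (nat_lit 152) (nat_lit 30937646819) (nat_lit 0) (nat_lit 158498116627) (nat_lit 2) (nat_lit 5) (nat_lit 4) (nat_lit 4) (nat_lit 2) (nat_lit 4) (nat_lit 376) (nat_lit 274) (nat_lit 250)) (XT.lf (nat_lit 0) (nat_lit 176413781484) (nat_lit 152) (nat_lit 27557270417) (nat_lit 0) (nat_lit 174105858752) (nat_lit 2) (nat_lit 5) (nat_lit 4) (nat_lit 4) (nat_lit 2) (nat_lit 4) (nat_lit 377) (nat_lit 274) (nat_lit 249))))))) (XT.nd (nat_lit 858) (nat_lit 0) (nat_lit 0) (XT.nd (nat_lit 390)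 (nat_lit 76) (nat_lit 0) (XT.nd (nat_lit 156) (nat_lit 0) (nat_lit 0) (XT.nd (nat_lit 78) (nat_lit 0) (nat_lit 0) (XT.lf (nat_lit 0) (nat_lit 193252579837) (nat_lit 152) (nat_lit 24007507306) (nat_lit 0) (nat_lit 190915426026) (nat_lit 2) (nat_lit 5) (nat_lit 4) (nat_lit 4) (nat_lit 2) (nat_lit 4) (nat_lit 378) (nat_lit 274) (nat_lit 248)) (XT.lf (nat_lit 0) (nat_lit 211390650325) (nat_lit 152) (nat_lit 20267321851) (nat_lit 0) (nat_lit 209026430700) (nat_lit 2) (nat_lit 5) (nat_lit 4) (nat_lit 4) (nat_lit 2) (nat_lit 4) (nat_lit 379) (nat_lit 274) (nat_lit 247))) (XT.nd (nat_lit 78) (nat_lit 0) (nat_lit 0) (XT.lf (nat_lit 0) (nat_lit 230935477811) (nat_lit 152) (nat_lit 16314549990) (nat_lit 0) (nat_lit 228546197247) (nat_lit 2) (nat_lit 5) (nat_lit 4) (nat_lit 4) (nat_lit 2) (nat_lit 4) (nat_lit 380) (nat_lit 274) (nat_lit 246)) (XT.nd (nat_lit 78) (nat_lit 0) (nat_lit 0) (XT.lf (nat_lit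 0) (nat_lit 252002883493) (nat_lit 152) (nat_lit 12125767891) (nat_lit 0) (nat_lit 249590398357) (nat_lit 2) (nat_lit 5) (nat_lit 4) (nat_lit 4) (nat_lit 2) (nat_lit 4) (nat_lit 381) (nat_lit 274) (nat_lit 245)) (XT.lf (nat_lit 0) (nat_lit 274717711259) (nat_lit 152) (nat_lit 7676153140) (nat_lit 0) (nat_lit 272283740407) (nat_lit 2) (nat_lit 5) (nat_lit 4) (nat_lit 4) (nat_lit 2) (nat_lit 4) (nat_lit 382) (nat_lit 274) (nat_lit 244))))) (XT.nd (nat_lit 234) (nat_lit 0) (nat_lit 0) (XT.nd (nat_lit 78) (nat_lit 76) (nat_lit 0) (XT.lf (nat_lit 0) (nat_lit 299214567493) (nat_lit 152) (nat_lit 2939337651) (nat_lit 0) (nat_lit 296760702460) (nat_lit 2) (nat_lit 5) (nat_lit 4) (nat_lit 4) (nat_lit 2) (nat_lit 4) (nat_lit 383) (nat_lit 274) (nat_lit 243)) (XT.nd (nat_lit 78) (nat_lit 0) (nat_lit 0) (XT.lf (nat_lit 0) (nat_lit 2182605603) (nat_lit 76) (nat_lit 323490089740) (nat_lit 76) (nat_lit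 321017804169) (nat_lit 1) (nat_lit 4) (nat_lit 2) (nat_lit 5) (nat_lit 2) (nat_lit 4) (nat_lit 384) (nat_lit 274) (nat_lit 242)) (XT.lf (nat_lit 0) (nat_lit 7758359851) (nat_lit 76) (nat_lit 346509221897) (nat_lit 76) (nat_lit 344019880272) (nat_lit 1) (nat_lit 4) (nat_lit 2) (nat_lit 5) (nat_lit 2) (nat_lit 4) (nat_lit 385) (nat_lit 274) (nat_lit 241)))) (XT.nd (nat_lit 78) (nat_lit 0) (nat_lit 0) (XT.lf (nat_lit 0) (nat_lit 13723778820) (nat_lit 76) (nat_lit 371397490394) (nat_lit 76) (nat_lit 368892356127) (nat_lit 1) (nat_lit 4) (nat_lit 2) (nat_lit 5) (nat_lit 2) (nat_lit 4) (nat_lit 386) (nat_lit 274) (nat_lit 240)) (XT.nd (nat_lit 78) (nat_lit 0) (nat_lit 0) (XT.lf (nat_lit 0) (nat_lit 20114213142) (nat_lit 76) (nat_lit 398302381267) (nat_lit 76) (nat_lit 395782624183) (nat_lit 1) (nat_lit 4) (nat_lit 2) (nat_lit 5) (nat_lit 2) (nat_lit 4) (nat_lit 387) (nat_lit 274) (nat_lit 239))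 (XT.lf (nat_lit 0) (nat_lit 26967532058) (nat_lit 76) (nat_lit 427383330906) (nat_lit 76) (nat_lit 424850034176) (nat_lit 1) (nat_lit 4) (nat_lit 2) (nat_lit 5) (nat_lit 2) (nat_lit 4) (nat_lit 388) (nat_lit 274) (nat_lit 238)))))) (XT.nd (nat_lit 43992) (nat_lit 0) (nat_lit 228) (XT.nd (nat_lit 156) (nat_lit 0) (nat_lit 0) (XT.nd (nat_lit 78) (nat_lit 0) (nat_lit 0) (XT.lf (nat_lit 0) (nat_lit 34324347827) (nat_lit 76) (nat_lit 458812670864) (nat_lit 76) (nat_lit 456266837426) (nat_lit 1) (nat_lit 4) (nat_lit 2) (nat_lit 5) (nat_lit 2) (nat_lit 4) (nat_lit 389) (nat_lit 274) (nat_lit 237)) (XT.lf (nat_lit 0) (nat_lit 42228256394) (nat_lit 76) (nat_lit 492776649082) (nat_lit 76) (nat_lit 490219207580) (nat_lit 1) (nat_lit 4) (nat_lit 2) (nat_lit 5) (nat_lit 2) (nat_lit 4) (nat_lit 390) (nat_lit 274) (nat_lit 236))) (XT.nd (nat_lit 43680) (nat_lit 0) (nat_lit 304) (XT.lf (nat_lit 0) (nat_lit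 50726095738) (nat_lit 76) (nat_lit 529476533579) (nat_lit 76) (nat_lit 526908343870) (nat_lit 1) (nat_lit 4) (nat_lit 2) (nat_lit 5) (nat_lit 2) (nat_lit 4) (nat_lit 391) (nat_lit 274) (nat_lit 235)) (XT.nd (nat_lit 78) (nat_lit 0) (nat_lit 0) (XT.lf (nat_lit 0) (nat_lit 8844142655) (nat_lit 152) (nat_lit 7370048912) (nat_lit 0) (nat_lit 8844142655) (nat_lit 5) (nat_lit 5) (nat_lit 7) (nat_lit 4) (nat_lit 5) (nat_lit 4) (nat_lit 350) (nat_lit 275) (nat_lit 275)) (XT.lf (nat_lit 0) (nat_lit 25470408424) (nat_lit 152) (nat_lit 3080407587) (nat_lit 0) (nat_lit 25243394871) (nat_lit 5) (nat_lit 5) (nat_lit 7) (nat_lit 4) (nat_lit 5) (nat_lit 4) (nat_lit 351) (nat_lit 275) (nat_lit 274))))) (XT.nd (nat_lit 234) (nat_lit 0) (nat_lit 0) (XT.nd (nat_lit 78) (nat_lit 0) (nat_lit 0) (XT.lf (nat_lit 0) (nat_lit 9179877176) (nat_lit 76) (nat_lit 24516150991) (nat_lit 76) (nat_lit 24078939704) (nat_lit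 4) (nat_lit 4) (nat_lit 5) (nat_lit 5) (nat_lit 5) (nat_lit 4) (nat_lit 352) (nat_lit 275) (nat_lit 273)) (XT.nd (nat_lit 78) (nat_lit 0) (nat_lit 0) (XT.lf (nat_lit 0) (nat_lit 21932195931) (nat_lit 76) (nat_lit 20393295916) (nat_lit 76) (nat_lit 19761457097) (nat_lit 4) (nat_lit 4) (nat_lit 5) (nat_lit 5) (nat_lit 5) (nat_lit 4) (nat_lit 353) (nat_lit 275) (nat_lit 272)) (XT.lf (nat_lit 0) (nat_lit 35150265786) (nat_lit 76) (nat_lit 16209987243) (nat_lit 76) (nat_lit 15397937747) (nat_lit 4) (nat_lit 4) (nat_lit 5) (nat_lit 5) (nat_lit 5) (nat_lit 4) (nat_lit 354) (nat_lit 275) (nat_lit 271)))) (XT.nd (nat_lit 78) (nat_lit 0) (nat_lit 0) (XT.lf (nat_lit 0) (nat_lit 48912416045) (nat_lit 76) (nat_lit 11941434997) (nat_lit 76) (nat_lit 10962523763) (nat_lit 4) (nat_lit 4) (nat_lit 5) (nat_lit 5) (nat_lit 5) (nat_lit 4) (nat_lit 355) (nat_lit 275) (nat_lit 270)) (XT.nd (nat_lit 78) (nat_lit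 0) (nat_lit 0) (XT.lf (nat_lit 0) (nat_lit 63300200190) (nat_lit 76) (nat_lit 7562344053) (nat_lit 76) (nat_lit 6428931209) (nat_lit 4) (nat_lit 4) (nat_lit 5) (nat_lit 5) (nat_lit 5) (nat_lit 4) (nat_lit 356) (nat_lit 275) (nat_lit 269)) (XT.lf (nat_lit 0) (nat_lit 78398879165) (nat_lit 76) (nat_lit 3046764242) (nat_lit 76) (nat_lit 1770294352) (nat_lit 4) (nat_lit 4) (nat_lit 5) (nat_lit 5) (nat_lit 5) (nat_lit 4) (nat_lit 357) (nat_lit 275) (nat_lit 268))))))))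
noncomputable def xc10 : XT := (XT.nd (nat_lit 1716) (nat_lit 76) (nat_lit 0) (XT.nd (nat_lit 858) (nat_lit 0) (nat_lit 0) (XT.nd (nat_lit 390) (nat_lit 0) (nat_lit 0) (XT.nd (nat_lit 156) (nat_lit 0) (nat_lit 0) (XT.nd (nat_lit 78) (nat_lit 0) (nat_lit 0) (XT.lf (nat_lit 0) (nat_lit 3045751334) (nat_lit 152) (nat_lit 84867726839) (nat_lit 0) (nat_lit 1703913127) (nat_lit 2) (nat_lit 5) (nat_lit 4) (nat_lit 4) (nat_lit 2) (nat_lit 4) (nat_lit 358) (nat_lit 275) (nat_lit 267)) (XT.lf (nat_lit 0) (nat_lit 8116119540) (nat_lit 152) (nat_lit 81759396036) (nat_lit 0) (nat_lit 6657473372) (nat_lit 2) (nat_lit 5) (nat_lit 4) (nat_lit 4) (nat_lit 2) (nat_lit 4) (nat_lit 359) (nat_lit 275) (nat_lit 266))) (XT.nd (nat_lit 78) (nat_lit 0) (nat_lit 0) (XT.lf (nat_lit 0) (nat_lit 13400980665) (nat_lit 152) (nat_lit 78776261180) (nat_lit 0) (nat_lit 11834178977) (nat_lit 2) (nat_lit 5) (nat_lit 4) (nat_lit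 4) (nat_lit 2) (nat_lit 4) (nat_lit 360) (nat_lit 275) (nat_lit 265)) (XT.nd (nat_lit 78) (nat_lit 0) (nat_lit 0) (XT.lf (nat_lit 0) (nat_lit 18931652403) (nat_lit 152) (nat_lit 75900644435) (nat_lit 0) (nat_lit 17264706715) (nat_lit 2) (nat_lit 5) (nat_lit 4) (nat_lit 4) (nat_lit 2) (nat_lit 4) (nat_lit 361) (nat_lit 275) (nat_lit 264)) (XT.lf (nat_lit 0) (nat_lit 24740909105) (nat_lit 152) (nat_lit 73115505109) (nat_lit 0) (nat_lit 22981237493) (nat_lit 2) (nat_lit 5) (nat_lit 4) (nat_lit 4) (nat_lit 2) (nat_lit 4) (nat_lit 362) (nat_lit 275) (nat_lit 263))))) (XT.nd (nat_lit 234) (nat_lit 0) (nat_lit 0) (XT.nd (nat_lit 78) (nat_lit 0) (nat_lit 0) (XT.lf (nat_lit 0) (nat_lit 30863175998) (nat_lit 152) (nat_lit 70404338672) (nat_lit 0) (nat_lit 29017647047) (nat_lit 2) (nat_lit 5) (nat_lit 4) (nat_lit 4) (nat_lit 2) (nat_lit 4) (nat_lit 363) (nat_lit 275) (nat_lit 262)) (XT.nd (nat_lit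 78) (nat_lit 0) (nat_lit 0) (XT.lf (nat_lit 0) (nat_lit 37334733180) (nat_lit 152) (nat_lit 67751078953) (nat_lit 0) (nat_lit 35409706693) (nat_lit 2) (nat_lit 5) (nat_lit 4) (nat_lit 4) (nat_lit 2) (nat_lit 4) (nat_lit 364) (nat_lit 275) (nat_lit 261)) (XT.lf (nat_lit 0) (nat_lit 44193930620) (nat_lit 152) (nat_lit 65140002932) (nat_lit 0) (nat_lit 42195295305) (nat_lit 2) (nat_lit 5) (nat_lit 4) (nat_lit 4) (nat_lit 2) (nat_lit 4) (nat_lit 365) (nat_lit 275) (nat_lit 260)))) (XT.nd (nat_lit 78) (nat_lit 0) (nat_lit 0) (XT.lf (nat_lit 0) (nat_lit 51481415415) (nat_lit 152) (nat_lit 62555637566) (nat_lit 0) (nat_lit 49414623776) (nat_lit 2) (nat_lit 5) (nat_lit 4) (nat_lit 4) (nat_lit 2) (nat_lit 4) (nat_lit 366) (nat_lit 275) (nat_lit 259)) (XT.nd (nat_lit 78) (nat_lit 0) (nat_lit 0) (XT.lf (nat_lit 0) (nat_lit 59240372659) (nat_lit 152) (nat_lit 59982668096) (nat_lit 0) (nat_lit 57110473313)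 (nat_lit 2) (nat_lit 5) (nat_lit 4) (nat_lit 4) (nat_lit 2) (nat_lit 4) (nat_lit 367) (nat_lit 275) (nat_lit 258)) (XT.lf (nat_lit 0) (nat_lit 67516781358) (nat_lit 152) (nat_lit 57405847296) (nat_lit 0) (nat_lit 65328448950) (nat_lit 2) (nat_lit 5) (nat_lit 4) (nat_lit 4) (nat_lit 2) (nat_lit 4) (nat_lit 368) (nat_lit 275) (nat_lit 257)))))) (XT.nd (nat_lit 390) (nat_lit 0) (nat_lit 0) (XT.nd (nat_lit 156) (nat_lit 0) (nat_lit 0) (XT.nd (nat_lit 78) (nat_lit 0) (nat_lit 0) (XT.lf (nat_lit 0) (nat_lit 76359686897) (nat_lit 152) (nat_lit 54809905117) (nat_lit 0) (nat_lit 74117249802) (nat_lit 2) (nat_lit 5) (nat_lit 4) (nat_lit 4) (nat_lit 2) (nat_lit 4) (nat_lit 369) (nat_lit 275) (nat_lit 256)) (XT.lf (nat_lit 0) (nat_lit 85821491679) (nat_lit 152) (nat_lit 52179458198) (nat_lit 0) (nat_lit 83528957652) (nat_lit 2) (nat_lit 5) (nat_lit 4) (nat_lit 4) (nat_lit 2) (nat_lit 4) (nat_lit 370)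 (nat_lit 275) (nat_lit 255))) (XT.nd (nat_lit 78) (nat_lit 0) (nat_lit 0) (XT.lf (nat_lit 0) (nat_lit 95958265659) (nat_lit 152) (nat_lit 49498918706) (nat_lit 0) (nat_lit 93619345583) (nat_lit 2) (nat_lit 5) (nat_lit 4) (nat_lit 4) (nat_lit 2) (nat_lit 4) (nat_lit 371) (nat_lit 275) (nat_lit 254)) (XT.nd (nat_lit 78) (nat_lit 0) (nat_lit 0) (XT.lf (nat_lit 0) (nat_lit 106830078607) (nat_lit 152) (nat_lit 46752401961) (nat_lit 0) (nat_lit 104448208488) (nat_lit 2) (nat_lit 5) (nat_lit 4) (nat_lit 4) (nat_lit 2) (nat_lit 4) (nat_lit 372) (nat_lit 275) (nat_lit 253)) (XT.lf (nat_lit 0) (nat_lit 118501356084) (nat_lit 152) (nat_lit 43923632310) (nat_lit 0) (nat_lit 116079717404) (nat_lit 2) (nat_lit 5) (nat_lit 4) (nat_lit 4) (nat_lit 2) (nat_lit 4) (nat_lit 373) (nat_lit 275) (nat_lit 252))))) (XT.nd (nat_lit 234) (nat_lit 0) (nat_lit 0) (XT.nd (nat_lit 78) (nat_lit 0) (nat_lit 0) (XT.lf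 (nat_lit 0) (nat_lit 131041261213) (nat_lit 152) (nat_lit 40995846672) (nat_lit 0) (nat_lit 128582799793) (nat_lit 2) (nat_lit 5) (nat_lit 4) (nat_lit 4) (nat_lit 2) (nat_lit 4) (nat_lit 374) (nat_lit 275) (nat_lit 251)) (XT.nd (nat_lit 78) (nat_lit 0) (nat_lit 0) (XT.lf (nat_lit 0) (nat_lit 144524104545) (nat_lit 152) (nat_lit 37951695208) (nat_lit 0) (nat_lit 142031547994) (nat_lit 2) (nat_lit 5) (nat_lit 4) (nat_lit 4) (nat_lit 2) (nat_lit 4) (nat_lit 375) (nat_lit 275) (nat_lit 250)) (XT.lf (nat_lit 0) (nat_lit 159029784410) (nat_lit 152) (nat_lit 34773138500) (nat_lit 0) (nat_lit 156505658294) (nat_lit 2) (nat_lit 5) (nat_lit 4) (nat_lit 4) (nat_lit 2) (nat_lit 4) (nat_lit 376) (nat_lit 275) (nat_lit 249)))) (XT.nd (nat_lit 78) (nat_lit 0) (nat_lit 0) (XT.lf (nat_lit 0) (nat_lit 174644260392) (nat_lit 152) (nat_lit 31441340657) (nat_lit 0) (nat_lit 172090903197) (nat_lit 2) (nat_lit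 5) (nat_lit 4) (nat_lit 4) (nat_lit 2) (nat_lit 4) (nat_lit 377) (nat_lit 275) (nat_lit 248)) (XT.nd (nat_lit 78) (nat_lit 0) (nat_lit 0) (XT.lf (nat_lit 0) (nat_lit 191460062720) (nat_lit 152) (nat_lit 27936557692) (nat_lit 0) (nat_lit 188879639711) (nat_lit 2) (nat_lit 5) (nat_lit 4) (nat_lit 4) (nat_lit 2) (nat_lit 4) (nat_lit 378) (nat_lit 275) (nat_lit 247)) (XT.lf (nat_lit 0) (nat_lit 209576840592) (nat_lit 152) (nat_lit 24238020521) (nat_lit 0) (nat_lit 206971356644) (nat_lit 2) (nat_lit 5) (nat_lit 4) (nat_lit 4) (nat_lit 2) (nat_lit 4) (nat_lit 379) (nat_lit 275) (nat_lit 246))))))) (XT.nd (nat_lit 858) (nat_lit 0) (nat_lit 0) (XT.nd (nat_lit 390) (nat_lit 76) (nat_lit 0) (XT.nd (nat_lit 156) (nat_lit 0) (nat_lit 0) (XT.nd (nat_lit 78) (nat_lit 0) (nat_lit 0) (XT.lf (nat_lit 0) (nat_lit 229101952692) (nat_lit 152) (nat_lit 20323811887) (nat_lit 0) (nat_lit 226473264171) (nat_lit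 2) (nat_lit 5) (nat_lit 4) (nat_lit 4) (nat_lit 2) (nat_lit 4) (nat_lit 380) (nat_lit 275) (nat_lit 245)) (XT.lf (nat_lit 0) (nat_lit 250151103388) (nat_lit 152) (nat_lit 16170736478) (nat_lit 0) (nat_lit 247500929152) (nat_lit 2) (nat_lit 5) (nat_lit 4) (nat_lit 4) (nat_lit 2) (nat_lit 4) (nat_lit 381) (nat_lit 275) (nat_lit 244))) (XT.nd (nat_lit 78) (nat_lit 0) (nat_lit 0) (XT.lf (nat_lit 0) (nat_lit 272849028388) (nat_lit 152) (nat_lit 11754183478) (nat_lit 0) (nat_lit 270178959971) (nat_lit 2) (nat_lit 5) (nat_lit 4) (nat_lit 4) (nat_lit 2) (nat_lit 4) (nat_lit 382) (nat_lit 275) (nat_lit 243)) (XT.nd (nat_lit 78) (nat_lit 0) (nat_lit 0) (XT.lf (nat_lit 0) (nat_lit 297330233914) (nat_lit 152) (nat_lit 7047980722) (nat_lit 0) (nat_lit 294641744959) (nat_lit 2) (nat_lit 5) (nat_lit 4) (nat_lit 4) (nat_lit 2) (nat_lit 4) (nat_lit 383) (nat_lit 275) (nat_lit 242)) (XT.lf (nat_lit 0) (nat_lit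 323739793777) (nat_lit 152) (nat_lit 2024239599) (nat_lit 0) (nat_lit 321034248768) (nat_lit 2) (nat_lit 5) (nat_lit 4) (nat_lit 4) (nat_lit 2) (nat_lit 4) (nat_lit 384) (nat_lit 275) (nat_lit 241))))) (XT.nd (nat_lit 234) (nat_lit 0) (nat_lit 0) (XT.nd (nat_lit 78) (nat_lit 0) (nat_lit 0) (XT.lf (nat_lit 0) (nat_lit 3457470867) (nat_lit 76) (nat_lit 348830719014) (nat_lit 76) (nat_lit 346109381363) (nat_lit 1) (nat_lit 4) (nat_lit 2) (nat_lit 5) (nat_lit 2) (nat_lit 4) (nat_lit 385) (nat_lit 275) (nat_lit 240)) (XT.nd (nat_lit 78) (nat_lit 0) (nat_lit 0) (XT.lf (nat_lit 0) (nat_lit 9397784950) (nat_lit 76) (nat_lit 373731276403) (nat_lit 76) (nat_lit 370995315935) (nat_lit 1) (nat_lit 4) (nat_lit 2) (nat_lit 5) (nat_lit 2) (nat_lit 4) (nat_lit 386) (nat_lit 275) (nat_lit 239)) (XT.lf (nat_lit 0) (nat_lit 15764974007) (nat_lit 76) (nat_lit 400647545880) (nat_lit 76) (nat_lit 397898045767)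 (nat_lit 1) (nat_lit 4) (nat_lit 2) (nat_lit 5) (nat_lit 2) (nat_lit 4) (nat_lit 387) (nat_lit 275) (nat_lit 238)))) (XT.nd (nat_lit 78) (nat_lit 0) (nat_lit 0) (XT.lf (nat_lit 0) (nat_lit 22596769528) (nat_lit 76) (nat_lit 429739031263) (nat_lit 76) (nat_lit 426976994441) (nat_lit 1) (nat_lit 4) (nat_lit 2) (nat_lit 5) (nat_lit 2) (nat_lit 4) (nat_lit 388) (nat_lit 275) (nat_lit 237)) (XT.nd (nat_lit 78) (nat_lit 0) (nat_lit 0) (XT.lf (nat_lit 0) (nat_lit 29933656228) (nat_lit 76) (nat_lit 461178126540) (nat_lit 76) (nat_lit 458404481654) (nat_lit 1) (nat_lit 4) (nat_lit 2) (nat_lit 5) (nat_lit 2) (nat_lit 4) (nat_lit 389) (nat_lit 275) (nat_lit 236)) (XT.lf (nat_lit 0) (nat_lit 37819111954) (nat_lit 76) (nat_lit 495151137460) (nat_lit 76) (nat_lit 492366744368) (nat_lit 1) (nat_lit 4) (nat_lit 2) (nat_lit 5) (nat_lit 2) (nat_lit 4) (nat_lit 390) (nat_lit 275) (nat_lit 235)))))) (XT.nd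 (nat_lit 43836) (nat_lit 0) (nat_lit 228) (XT.nd (nat_lit 43602) (nat_lit 0) (nat_lit 304) (XT.nd (nat_lit 43524) (nat_lit 0) (nat_lit 304) (XT.lf (nat_lit 0) (nat_lit 46299865333) (nat_lit 76) (nat_lit 531859385571) (nat_lit 76) (nat_lit 529065040435) (nat_lit 1) (nat_lit 4) (nat_lit 2) (nat_lit 5) (nat_lit 2) (nat_lit 4) (nat_lit 391) (nat_lit 275) (nat_lit 234)) (XT.lf (nat_lit 0) (nat_lit 1633781695) (nat_lit 152) (nat_lit 18531533012) (nat_lit 0) (nat_lit 1633781695) (nat_lit 5) (nat_lit 5) (nat_lit 7) (nat_lit 4) (nat_lit 5) (nat_lit 4) (nat_lit 348) (nat_lit 276) (nat_lit 276))) (XT.nd (nat_lit 78) (nat_lit 0) (nat_lit 0) (XT.lf (nat_lit 0) (nat_lit 10405393572) (nat_lit 152) (nat_lit 26162101398) (nat_lit 0) (nat_lit 10160218935) (nat_lit 5) (nat_lit 5) (nat_lit 7) (nat_lit 4) (nat_lit 5) (nat_lit 4) (nat_lit 349) (nat_lit 276) (nat_lit 275)) (XT.nd (nat_lit 78) (nat_lit 0) (nat_lit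 0) (XT.lf (nat_lit 0) (nat_lit 17766061596) (nat_lit 152) (nat_lit 15065133219) (nat_lit 0) (nat_lit 17293873406) (nat_lit 5) (nat_lit 5) (nat_lit 7) (nat_lit 4) (nat_lit 5) (nat_lit 4) (nat_lit 350) (nat_lit 276) (nat_lit 274)) (XT.lf (nat_lit 0) (nat_lit 25393186234) (nat_lit 152) (nat_lit 3706401679) (nat_lit 0) (nat_lit 24710800310) (nat_lit 5) (nat_lit 5) (nat_lit 7) (nat_lit 4) (nat_lit 5) (nat_lit 4) (nat_lit 351) (nat_lit 276) (nat_lit 273))))) (XT.nd (nat_lit 234) (nat_lit 0) (nat_lit 0) (XT.nd (nat_lit 78) (nat_lit 0) (nat_lit 0) (XT.lf (nat_lit 0) (nat_lit 8245305492) (nat_lit 76) (nat_lit 25215392096) (nat_lit 76) (nat_lit 24338378640) (nat_lit 4) (nat_lit 4) (nat_lit 5) (nat_lit 5) (nat_lit 5) (nat_lit 4) (nat_lit 352) (nat_lit 276) (nat_lit 272)) (XT.nd (nat_lit 78) (nat_lit 0) (nat_lit 0) (XT.lf (nat_lit 0) (nat_lit 20731069247) (nat_lit 76) (nat_lit 21222044140) (nat_lit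 76) (nat_lit 20164820007) (nat_lit 4) (nat_lit 4) (nat_lit 5) (nat_lit 5) (nat_lit 5) (nat_lit 4) (nat_lit 353) (nat_lit 276) (nat_lit 271)) (XT.lf (nat_lit 0) (nat_lit 33702328917) (nat_lit 76) (nat_lit 17158649468) (nat_lit 76) (nat_lit 15934563596) (nat_lit 4) (nat_lit 4) (nat_lit 5) (nat_lit 5) (nat_lit 5) (nat_lit 4) (nat_lit 354) (nat_lit 276) (nat_lit 270)))) (XT.nd (nat_lit 78) (nat_lit 0) (nat_lit 0) (XT.lf (nat_lit 0) (nat_lit 47235951227) (nat_lit 76) (nat_lit 13001128704) (nat_lit 76) (nat_lit 11622541222) (nat_lit 4) (nat_lit 4) (nat_lit 5) (nat_lit 5) (nat_lit 5) (nat_lit 4) (nat_lit 355) (nat_lit 276) (nat_lit 269)) (XT.nd (nat_lit 78) (nat_lit 0) (nat_lit 0) (XT.lf (nat_lit 0) (nat_lit 61412135419) (nat_lit 76) (nat_lit 8724844687) (nat_lit 76) (nat_lit 7203200159) (nat_lit 4) (nat_lit 4) (nat_lit 5) (nat_lit 5) (nat_lit 5) (nat_lit 4) (nat_lit 356) (nat_lit 276) (nat_lit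 268)) (XT.lf (nat_lit 0) (nat_lit 76314888511) (nat_lit 76) (nat_lit 4304456475) (nat_lit 76) (nat_lit 2650351720) (nat_lit 4) (nat_lit 4) (nat_lit 5) (nat_lit 5) (nat_lit 5) (nat_lit 4) (nat_lit 357) (nat_lit 276) (nat_lit 267))))))))
noncomputable def xc11 : XT := (XT.nd (nat_lit 1716) (nat_lit 76) (nat_lit 0) (XT.nd (nat_lit 858) (nat_lit 0) (nat_lit 0) (XT.nd (nat_lit 390) (nat_lit 0) (nat_lit 0) (XT.nd (nat_lit 156) (nat_lit 0) (nat_lit 0) (XT.nd (nat_lit 78) (nat_lit 0) (nat_lit 0) (XT.lf (nat_lit 0) (nat_lit 2039936150) (nat_lit 152) (nat_lit 87291822397) (nat_lit 0) (nat_lit 347790328) (nat_lit 2) (nat_lit 5) (nat_lit 4) (nat_lit 4) (nat_lit 2) (nat_lit 4) (nat_lit 358) (nat_lit 276) (nat_lit 266)) (XT.lf (nat_lit 0) (nat_lit 7018411790) (nat_lit 152) (nat_lit 84363233138) (nat_lit 0) (nat_lit 5218110448) (nat_lit 2) (nat_lit 5) (nat_lit 4) (nat_lit 4) (nat_lit 2) (nat_lit 4) (nat_lit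 359) (nat_lit 276) (nat_lit 265))) (XT.nd (nat_lit 78) (nat_lit 0) (nat_lit 0) (XT.lf (nat_lit 0) (nat_lit 12218187204) (nat_lit 152) (nat_lit 81546525638) (nat_lit 0) (nat_lit 10317741863) (nat_lit 2) (nat_lit 5) (nat_lit 4) (nat_lit 4) (nat_lit 2) (nat_lit 4) (nat_lit 360) (nat_lit 276) (nat_lit 264)) (XT.nd (nat_lit 78) (nat_lit 0) (nat_lit 0) (XT.lf (nat_lit 0) (nat_lit 17670075878) (nat_lit 152) (nat_lit 78825008296) (nat_lit 0) (nat_lit 15676904611) (nat_lit 2) (nat_lit 5) (nat_lit 4) (nat_lit 4) (nat_lit 2) (nat_lit 4) (nat_lit 361) (nat_lit 276) (nat_lit 263)) (XT.lf (nat_lit 0) (nat_lit 23406385299) (nat_lit 152) (nat_lit 76182553602) (nat_lit 0) (nat_lit 21327356693) (nat_lit 2) (nat_lit 5) (nat_lit 4) (nat_lit 4) (nat_lit 2) (nat_lit 4) (nat_lit 362) (nat_lit 276) (nat_lit 262))))) (XT.nd (nat_lit 234) (nat_lit 0) (nat_lit 0) (XT.nd (nat_lit 78) (nat_lit 0) (nat_lit 0) (XT.lf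 (nat_lit 0) (nat_lit 29461108411) (nat_lit 152) (nat_lit 73603502566) (nat_lit 0) (nat_lit 27302582270) (nat_lit 2) (nat_lit 5) (nat_lit 4) (nat_lit 4) (nat_lit 2) (nat_lit 4) (nat_lit 363) (nat_lit 276) (nat_lit 261)) (XT.nd (nat_lit 78) (nat_lit 0) (nat_lit 0) (XT.lf (nat_lit 0) (nat_lit 35870125057) (nat_lit 152) (nat_lit 71072571922) (nat_lit 0) (nat_lit 33637990087) (nat_lit 2) (nat_lit 5) (nat_lit 4) (nat_lit 4) (nat_lit 2) (nat_lit 4) (nat_lit 364) (nat_lit 276) (nat_lit 260)) (XT.lf (nat_lit 0) (nat_lit 42671414593) (nat_lit 152) (nat_lit 68574763562) (nat_lit 0) (nat_lit 40371123299) (nat_lit 2) (nat_lit 5) (nat_lit 4) (nat_lit 4) (nat_lit 2) (nat_lit 4) (nat_lit 365) (nat_lit 276) (nat_lit 259)))) (XT.nd (nat_lit 78) (nat_lit 0) (nat_lit 0) (XT.lf (nat_lit 0) (nat_lit 49905280957) (nat_lit 152) (nat_lit 66095275660) (nat_lit 0) (nat_lit 47541881957) (nat_lit 2) (nat_lit 5) (nat_lit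 4) (nat_lit 4) (nat_lit 2) (nat_lit 4) (nat_lit 366) (nat_lit 276) (nat_lit 258)) (XT.nd (nat_lit 78) (nat_lit 0) (nat_lit 0) (XT.lf (nat_lit 0) (nat_lit 57614591507) (nat_lit 152) (nat_lit 63619414953) (nat_lit 0) (nat_lit 55192759445) (nat_lit 2) (nat_lit 5) (nat_lit 4) (nat_lit 4) (nat_lit 2) (nat_lit 4) (nat_lit 367) (nat_lit 276) (nat_lit 257)) (XT.lf (nat_lit 0) (nat_lit 65845031044) (nat_lit 152) (nat_lit 61132509675) (nat_lit 0) (nat_lit 63369094295) (nat_lit 2) (nat_lit 5) (nat_lit 4) (nat_lit 4) (nat_lit 2) (nat_lit 4) (nat_lit 368) (nat_lit 276) (nat_lit 256)))))) (XT.nd (nat_lit 390) (nat_lit 0) (nat_lit 0) (XT.nd (nat_lit 156) (nat_lit 0) (nat_lit 0) (XT.nd (nat_lit 78) (nat_lit 0) (nat_lit 0) (XT.lf (nat_lit 0) (nat_lit 74645372545) (nat_lit 152) (nat_lit 58619822609) (nat_lit 0) (nat_lit 72119338864) (nat_lit 2) (nat_lit 5) (nat_lit 4) (nat_lit 4) (nat_lit 2) (nat_lit 4)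 (nat_lit 369) (nat_lit 276) (nat_lit 255)) (XT.lf (nat_lit 0) (nat_lit 84067766180) (nat_lit 152) (nat_lit 56066463757) (nat_lit 0) (nat_lit 81495346451) (nat_lit 2) (nat_lit 5) (nat_lit 4) (nat_lit 4) (nat_lit 2) (nat_lit 4) (nat_lit 370) (nat_lit 276) (nat_lit 254))) (XT.nd (nat_lit 78) (nat_lit 0) (nat_lit 0) (XT.lf (nat_lit 0) (nat_lit 94168048358) (nat_lit 152) (nat_lit 53457302105) (nat_lit 0) (nat_lit 91552678583) (nat_lit 2) (nat_lit 5) (nat_lit 4) (nat_lit 4) (nat_lit 2) (nat_lit 4) (nat_lit 371) (nat_lit 276) (nat_lit 253)) (XT.nd (nat_lit 78) (nat_lit 0) (nat_lit 0) (XT.lf (nat_lit 0) (nat_lit 105006072601) (nat_lit 152) (nat_lit 50776875953) (nat_lit 0) (nat_lit 102350934266) (nat_lit 2) (nat_lit 5) (nat_lit 4) (nat_lit 4) (nat_lit 2) (nat_lit 4) (nat_lit 372) (nat_lit 276) (nat_lit 252)) (XT.lf (nat_lit 0) (nat_lit 116646064238) (nat_lit 152) (nat_lit 48009301295) (nat_lit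 0) (nat_lit 113954103163) (nat_lit 2) (nat_lit 5) (nat_lit 4) (nat_lit 4) (nat_lit 2) (nat_lit 4) (nat_lit 373) (nat_lit 276) (nat_lit 251))))) (XT.nd (nat_lit 234) (nat_lit 0) (nat_lit 0) (XT.nd (nat_lit 78) (nat_lit 0) (nat_lit 0) (XT.lf (nat_lit 0) (nat_lit 129157000998) (nat_lit 152) (nat_lit 45138177688) (nat_lit 0) (nat_lit 126430944793) (nat_lit 2) (nat_lit 5) (nat_lit 4) (nat_lit 4) (nat_lit 2) (nat_lit 4) (nat_lit 374) (nat_lit 276) (nat_lit 250)) (XT.nd (nat_lit 78) (nat_lit 0) (nat_lit 0) (XT.lf (nat_lit 0) (nat_lit 142613021766) (nat_lit 152) (nat_lit 42146491067) (nat_lit 0) (nat_lit 139855395995) (nat_lit 2) (nat_lit 5) (nat_lit 4) (nat_lit 4) (nat_lit 2) (nat_lit 4) (nat_lit 375) (nat_lit 276) (nat_lit 249)) (XT.lf (nat_lit 0) (nat_lit 157093865923) (nat_lit 152) (nat_lit 39016512917) (nat_lit 0) (nat_lit 154307009074) (nat_lit 2) (nat_lit 5) (nat_lit 4) (nat_lit 4) (nat_lit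 2) (nat_lit 4) (nat_lit 376) (nat_lit 276) (nat_lit 248)))) (XT.nd (nat_lit 78) (nat_lit 0) (nat_lit 0) (XT.lf (nat_lit 0) (nat_lit 172685345880) (nat_lit 152) (nat_lit 35729695221) (nat_lit 0) (nat_lit 169871423217) (nat_lit 2) (nat_lit 5) (nat_lit 4) (nat_lit 4) (nat_lit 2) (nat_lit 4) (nat_lit 377) (nat_lit 276) (nat_lit 247)) (XT.nd (nat_lit 78) (nat_lit 0) (nat_lit 0) (XT.lf (nat_lit 0) (nat_lit 189479855591) (nat_lit 152) (nat_lit 32266560541) (nat_lit 0) (nat_lit 186640871989) (nat_lit 2) (nat_lit 5) (nat_lit 4) (nat_lit 4) (nat_lit 2) (nat_lit 4) (nat_lit 378) (nat_lit 276) (nat_lit 246)) (XT.lf (nat_lit 0) (nat_lit 207576918078) (nat_lit 152) (nat_lit 28606586596) (nat_lit 0) (nat_lit 204714729903) (nat_lit 2) (nat_lit 5) (nat_lit 4) (nat_lit 4) (nat_lit 2) (nat_lit 4) (nat_lit 379) (nat_lit 276) (nat_lit 245))))))) (XT.nd (nat_lit 858) (nat_lit 0) (nat_lit 0) (XT.nd (nat_lit 390)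 (nat_lit 76) (nat_lit 0) (XT.nd (nat_lit 156) (nat_lit 0) (nat_lit 0) (XT.nd (nat_lit 78) (nat_lit 0) (nat_lit 0) (XT.lf (nat_lit 0) (nat_lit 227083775191) (nat_lit 152) (nat_lit 24728084652) (nat_lit 0) (nat_lit 224200101301) (nat_lit 2) (nat_lit 5) (nat_lit 4) (nat_lit 4) (nat_lit 2) (nat_lit 4) (nat_lit 380) (nat_lit 276) (nat_lit 244)) (XT.lf (nat_lit 0) (nat_lit 248116023122) (nat_lit 152) (nat_lit 20608070994) (nat_lit 0) (nat_lit 245212455051) (nat_lit 2) (nat_lit 5) (nat_lit 4) (nat_lit 4) (nat_lit 2) (nat_lit 4) (nat_lit 381) (nat_lit 276) (nat_lit 243))) (XT.nd (nat_lit 78) (nat_lit 0) (nat_lit 0) (XT.lf (nat_lit 0) (nat_lit 270798297413) (nat_lit 152) (nat_lit 16222130727) (nat_lit 0) (nat_lit 267876308804) (nat_lit 2) (nat_lit 5) (nat_lit 4) (nat_lit 4) (nat_lit 2) (nat_lit 4) (nat_lit 382) (nat_lit 276) (nat_lit 242)) (XT.nd (nat_lit 78) (nat_lit 0) (nat_lit 0) (XT.lf (nat_lit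 0) (nat_lit 295265011543) (nat_lit 152) (nat_lit 11544273092) (nat_lit 0) (nat_lit 292325966880) (nat_lit 2) (nat_lit 5) (nat_lit 4) (nat_lit 4) (nat_lit 2) (nat_lit 4) (nat_lit 383) (nat_lit 276) (nat_lit 241)) (XT.lf (nat_lit 0) (nat_lit 321661153445) (nat_lit 152) (nat_lit 6546777453) (nat_lit 0) (nat_lit 318706316140) (nat_lit 2) (nat_lit 5) (nat_lit 4) (nat_lit 4) (nat_lit 2) (nat_lit 4) (nat_lit 384) (nat_lit 276) (nat_lit 240))))) (XT.nd (nat_lit 234) (nat_lit 0) (nat_lit 0) (XT.nd (nat_lit 78) (nat_lit 76) (nat_lit 0) (XT.lf (nat_lit 0) (nat_lit 350143144703) (nat_lit 152) (nat_lit 1200029020) (nat_lit 0) (nat_lit 347173684581) (nat_lit 2) (nat_lit 5) (nat_lit 4) (nat_lit 4) (nat_lit 2) (nat_lit 4) (nat_lit 385) (nat_lit 276) (nat_lit 239)) (XT.nd (nat_lit 78) (nat_lit 0) (nat_lit 0) (XT.lf (nat_lit 0) (nat_lit 4677361417) (nat_lit 76) (nat_lit 376275432789) (nat_lit 76) (nat_lit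 373292433021) (nat_lit 1) (nat_lit 4) (nat_lit 2) (nat_lit 5) (nat_lit 2) (nat_lit 4) (nat_lit 386) (nat_lit 276) (nat_lit 238)) (XT.lf (nat_lit 0) (nat_lit 11023027080) (nat_lit 76) (nat_lit 403202238010) (nat_lit 76) (nat_lit 400206701534) (nat_lit 1) (nat_lit 4) (nat_lit 2) (nat_lit 5) (nat_lit 2) (nat_lit 4) (nat_lit 387) (nat_lit 276) (nat_lit 237)))) (XT.nd (nat_lit 78) (nat_lit 0) (nat_lit 0) (XT.lf (nat_lit 0) (nat_lit 17834893533) (nat_lit 76) (nat_lit 432303478712) (nat_lit 76) (nat_lit 429296334172) (nat_lit 1) (nat_lit 4) (nat_lit 2) (nat_lit 5) (nat_lit 2) (nat_lit 4) (nat_lit 388) (nat_lit 276) (nat_lit 236)) (XT.nd (nat_lit 78) (nat_lit 0) (nat_lit 0) (XT.lf (nat_lit 0) (nat_lit 25153327391) (nat_lit 76) (nat_lit 463751606691) (nat_lit 76) (nat_lit 460733713945) (nat_lit 1) (nat_lit 4) (nat_lit 2) (nat_lit 5) (nat_lit 2) (nat_lit 4) (nat_lit 389) (nat_lit 276) (nat_lit 235))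 (XT.lf (nat_lit 0) (nat_lit 33021697154) (nat_lit 76) (nat_lit 497732981226) (nat_lit 76) (nat_lit 494705136435) (nat_lit 1) (nat_lit 4) (nat_lit 2) (nat_lit 5) (nat_lit 2) (nat_lit 4) (nat_lit 390) (nat_lit 276) (nat_lit 234)))))) (XT.nd (nat_lit 43758) (nat_lit 0) (nat_lit 228) (XT.nd (nat_lit 43524) (nat_lit 0) (nat_lit 304) (XT.nd (nat_lit 43368) (nat_lit 0) (nat_lit 456) (XT.lf (nat_lit 0) (nat_lit 41486630195) (nat_lit 76) (nat_lit 534448973422) (nat_lit 76) (nat_lit 531411913777) (nat_lit 1) (nat_lit 4) (nat_lit 2) (nat_lit 5) (nat_lit 2) (nat_lit 4) (nat_lit 391) (nat_lit 276) (nat_lit 233)) (XT.nd (nat_lit 78) (nat_lit 0) (nat_lit 0) (XT.lf (nat_lit 0) (nat_lit 9128648890) (nat_lit 76) (nat_lit 4942802722) (nat_lit 76) (nat_lit 4942802722) (nat_lit 7) (nat_lit 4) (nat_lit 8) (nat_lit 5) (nat_lit 8) (nat_lit 4) (nat_lit 346) (nat_lit 277) (nat_lit 277)) (XT.lf (nat_lit 0) (nat_lit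 33706844442) (nat_lit 76) (nat_lit 3638970581) (nat_lit 76) (nat_lit 3360942542) (nat_lit 7) (nat_lit 4) (nat_lit 8) (nat_lit 5) (nat_lit 8) (nat_lit 4) (nat_lit 347) (nat_lit 277) (nat_lit 276)))) (XT.nd (nat_lit 78) (nat_lit 0) (nat_lit 0) (XT.lf (nat_lit 0) (nat_lit 3351561778) (nat_lit 152) (nat_lit 37414104251) (nat_lit 0) (nat_lit 2841598532) (nat_lit 5) (nat_lit 5) (nat_lit 7) (nat_lit 4) (nat_lit 5) (nat_lit 4) (nat_lit 348) (nat_lit 277) (nat_lit 275)) (XT.nd (nat_lit 78) (nat_lit 0) (nat_lit 0) (XT.lf (nat_lit 0) (nat_lit 10321993607) (nat_lit 152) (nat_lit 26838175017) (nat_lit 0) (nat_lit 9585016809) (nat_lit 5) (nat_lit 5) (nat_lit 7) (nat_lit 4) (nat_lit 5) (nat_lit 4) (nat_lit 349) (nat_lit 277) (nat_lit 274)) (XT.lf (nat_lit 0) (nat_lit 17527663156) (nat_lit 152) (nat_lit 16042165537) (nat_lit 0) (nat_lit 16580488624) (nat_lit 5) (nat_lit 5) (nat_lit 7) (nat_lit 4) (nat_lit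 5) (nat_lit 4) (nat_lit 350) (nat_lit 277) (nat_lit 273))))) (XT.nd (nat_lit 234) (nat_lit 0) (nat_lit 0) (XT.nd (nat_lit 78) (nat_lit 76) (nat_lit 0) (XT.lf (nat_lit 0) (nat_lit 25011270688) (nat_lit 152) (nat_lit 4962099458) (nat_lit 0) (nat_lit 23869468624) (nat_lit 5) (nat_lit 5) (nat_lit 7) (nat_lit 4) (nat_lit 5) (nat_lit 4) (nat_lit 351) (nat_lit 277) (nat_lit 272)) (XT.nd (nat_lit 78) (nat_lit 0) (nat_lit 0) (XT.lf (nat_lit 0) (nat_lit 6681533674) (nat_lit 76) (nat_lit 26239947299) (nat_lit 76) (nat_lit 24917934557) (nat_lit 4) (nat_lit 4) (nat_lit 5) (nat_lit 5) (nat_lit 5) (nat_lit 4) (nat_lit 352) (nat_lit 277) (nat_lit 271)) (XT.lf (nat_lit 0) (nat_lit 18920487244) (nat_lit 76) (nat_lit 22366513343) (nat_lit 76) (nat_lit 20877638863) (nat_lit 4) (nat_lit 4) (nat_lit 5) (nat_lit 5) (nat_lit 5) (nat_lit 4) (nat_lit 353) (nat_lit 277) (nat_lit 270)))) (XT.nd (nat_lit 78) (nat_lit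 0) (nat_lit 0) (XT.lf (nat_lit 0) (nat_lit 31663218965) (nat_lit 76) (nat_lit 18414150152) (nat_lit 76) (nat_lit 16770774063) (nat_lit 4) (nat_lit 4) (nat_lit 5) (nat_lit 5) (nat_lit 5) (nat_lit 4) (nat_lit 354) (nat_lit 277) (nat_lit 269)) (XT.nd (nat_lit 78) (nat_lit 0) (nat_lit 0) (XT.lf (nat_lit 0) (nat_lit 44985241321) (nat_lit 76) (nat_lit 14359436315) (nat_lit 76) (nat_lit 12573003180) (nat_lit 4) (nat_lit 4) (nat_lit 5) (nat_lit 5) (nat_lit 5) (nat_lit 4) (nat_lit 355) (nat_lit 277) (nat_lit 268)) (XT.lf (nat_lit 0) (nat_lit 58965499631) (nat_lit 76) (nat_lit 10178343898) (nat_lit 76) (nat_lit 8259450535) (nat_lit 4) (nat_lit 4) (nat_lit 5) (nat_lit 5) (nat_lit 5) (nat_lit 4) (nat_lit 356) (nat_lit 277) (nat_lit 267))))))))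
noncomputable def xc12 : XT := (XT.nd (nat_lit 1716) (nat_lit 76) (nat_lit 0) (XT.nd (nat_lit 858) (nat_lit 0) (nat_lit 0) (XT.nd (nat_lit 390) (nat_lit 0) (nat_lit 0) (XT.nd (nat_lit 156) (nat_lit 76) (nat_lit 0) (XT.nd (nat_lit 78) (nat_lit 76) (nat_lit 0) (XT.lf (nat_lit 0) (nat_lit 73686839869) (nat_lit 76) (nat_lit 5846096056) (nat_lit 76) (nat_lit 3804554334) (nat_lit 4) (nat_lit 4) (nat_lit 5) (nat_lit 5) (nat_lit 5) (nat_lit 4) (nat_lit 357) (nat_lit 277) (nat_lit 266)) (XT.lf (nat_lit 0) (nat_lit 791900984) (nat_lit 152) (nat_lit 531708000) (nat_lit 76) (nat_lit 88431187397) (nat_lit 3) (nat_lit 5) (nat_lit 5) (nat_lit 5) (nat_lit 4) (nat_lit 4) (nat_lit 358) (nat_lit 277) (nat_lit 265))) (XT.nd (nat_lit 78) (nat_lit 0) (nat_lit 0) (XT.lf (nat_lit 0) (nat_lit 5655909143) (nat_lit 152) (nat_lit 87521546108) (nat_lit 0) (nat_lit 3503284175) (nat_lit 2) (nat_lit 5) (nat_lit 4) (nat_lit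 4) (nat_lit 2) (nat_lit 4) (nat_lit 359) (nat_lit 277) (nat_lit 264)) (XT.nd (nat_lit 78) (nat_lit 0) (nat_lit 0) (XT.lf (nat_lit 0) (nat_lit 10776901493) (nat_lit 152) (nat_lit 84858938010) (nat_lit 0) (nat_lit 8531550599) (nat_lit 2) (nat_lit 5) (nat_lit 4) (nat_lit 4) (nat_lit 2) (nat_lit 4) (nat_lit 360) (nat_lit 277) (nat_lit 263)) (XT.lf (nat_lit 0) (nat_lit 16155842885) (nat_lit 152) (nat_lit 82280105301) (nat_lit 0) (nat_lit 13824634652) (nat_lit 2) (nat_lit 5) (nat_lit 4) (nat_lit 4) (nat_lit 2) (nat_lit 4) (nat_lit 361) (nat_lit 277) (nat_lit 262))))) (XT.nd (nat_lit 234) (nat_lit 0) (nat_lit 0) (XT.nd (nat_lit 78) (nat_lit 0) (nat_lit 0) (XT.lf (nat_lit 0) (nat_lit 21824608526) (nat_lit 152) (nat_lit 79769766008) (nat_lit 0) (nat_lit 19413902758) (nat_lit 2) (nat_lit 5) (nat_lit 4) (nat_lit 4) (nat_lit 2) (nat_lit 4) (nat_lit 362) (nat_lit 277) (nat_lit 261)) (XT.nd (nat_lit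 78) (nat_lit 0) (nat_lit 0) (XT.lf (nat_lit 0) (nat_lit 27816791102) (nat_lit 152) (nat_lit 77313044046) (nat_lit 0) (nat_lit 25332476505) (nat_lit 2) (nat_lit 5) (nat_lit 4) (nat_lit 4) (nat_lit 2) (nat_lit 4) (nat_lit 363) (nat_lit 277) (nat_lit 260)) (XT.lf (nat_lit 0) (nat_lit 34167899843) (nat_lit 152) (nat_lit 74895381063) (nat_lit 0) (nat_lit 31615428923) (nat_lit 2) (nat_lit 5) (nat_lit 4) (nat_lit 4) (nat_lit 2) (nat_lit 4) (nat_lit 364) (nat_lit 277) (nat_lit 259)))) (XT.nd (nat_lit 78) (nat_lit 0) (nat_lit 0) (XT.lf (nat_lit 0) (nat_lit 40915570949) (nat_lit 152) (nat_lit 72502450168) (nat_lit 0) (nat_lit 38299992322) (nat_lit 2) (nat_lit 5) (nat_lit 4) (nat_lit 4) (nat_lit 2) (nat_lit 4) (nat_lit 365) (nat_lit 277) (nat_lit 258)) (XT.nd (nat_lit 78) (nat_lit 0) (nat_lit 0) (XT.lf (nat_lit 0) (nat_lit 48099790619) (nat_lit 152) (nat_lit 70120071029) (nat_lit 0) (nat_lit 45425778930)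 (nat_lit 2) (nat_lit 5) (nat_lit 4) (nat_lit 4) (nat_lit 2) (nat_lit 4) (nat_lit 366) (nat_lit 277) (nat_lit 257)) (XT.lf (nat_lit 0) (nat_lit 55763132007) (nat_lit 152) (nat_lit 67734125844) (nat_lit 0) (nat_lit 53035015631) (nat_lit 2) (nat_lit 5) (nat_lit 4) (nat_lit 4) (nat_lit 2) (nat_lit 4) (nat_lit 367) (nat_lit 277) (nat_lit 256)))))) (XT.nd (nat_lit 390) (nat_lit 0) (nat_lit 0) (XT.nd (nat_lit 156) (nat_lit 0) (nat_lit 0) (XT.nd (nat_lit 78) (nat_lit 0) (nat_lit 0) (XT.lf (nat_lit 0) (nat_lit 63951007506) (nat_lit 152) (nat_lit 65330475679) (nat_lit 0) (nat_lit 61172794198) (nat_lit 2) (nat_lit 5) (nat_lit 4) (nat_lit 4) (nat_lit 2) (nat_lit 4) (nat_lit 368) (nat_lit 277) (nat_lit 255)) (XT.lf (nat_lit 0) (nat_lit 72711937860) (nat_lit 152) (nat_lit 62894876680) (nat_lit 0) (nat_lit 69887338504) (nat_lit 2) (nat_lit 5) (nat_lit 4) (nat_lit 4) (nat_lit 2) (nat_lit 4) (nat_lit 369)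 (nat_lit 277) (nat_lit 254))) (XT.nd (nat_lit 78) (nat_lit 0) (nat_lit 0) (XT.lf (nat_lit 0) (nat_lit 82097839693) (nat_lit 152) (nat_lit 60412895669) (nat_lit 0) (nat_lit 79230290292) (nat_lit 2) (nat_lit 5) (nat_lit 4) (nat_lit 4) (nat_lit 2) (nat_lit 4) (nat_lit 370) (nat_lit 277) (nat_lit 253)) (XT.nd (nat_lit 78) (nat_lit 0) (nat_lit 0) (XT.lf (nat_lit 0) (nat_lit 92164333164) (nat_lit 152) (nat_lit 57869824609) (nat_lit 0) (nat_lit 89257015203) (nat_lit 2) (nat_lit 5) (nat_lit 4) (nat_lit 4) (nat_lit 2) (nat_lit 4) (nat_lit 371) (nat_lit 277) (nat_lit 252)) (XT.lf (nat_lit 0) (nat_lit 102971071568) (nat_lit 152) (nat_lit 55250593450) (nat_lit 0) (nat_lit 100026930866) (nat_lit 2) (nat_lit 5) (nat_lit 4) (nat_lit 4) (nat_lit 2) (nat_lit 4) (nat_lit 372) (nat_lit 277) (nat_lit 251))))) (XT.nd (nat_lit 234) (nat_lit 0) (nat_lit 0) (XT.nd (nat_lit 78) (nat_lit 0) (nat_lit 0) (XT.lf (nat_lit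 0) (nat_lit 114582094837) (nat_lit 152) (nat_lit 52539680823) (nat_lit 0) (nat_lit 111603859004) (nat_lit 2) (nat_lit 5) (nat_lit 4) (nat_lit 4) (nat_lit 2) (nat_lit 4) (nat_lit 373) (nat_lit 277) (nat_lit 250)) (XT.nd (nat_lit 78) (nat_lit 0) (nat_lit 0) (XT.lf (nat_lit 0) (nat_lit 127066209033) (nat_lit 152) (nat_lit 49721022059) (nat_lit 0) (nat_lit 124056403635) (nat_lit 2) (nat_lit 5) (nat_lit 4) (nat_lit 4) (nat_lit 2) (nat_lit 4) (nat_lit 374) (nat_lit 277) (nat_lit 249)) (XT.lf (nat_lit 0) (nat_lit 140497394093) (nat_lit 152) (nat_lit 46777913996) (nat_lit 0) (nat_lit 137458357616) (nat_lit 2) (nat_lit 5) (nat_lit 4) (nat_lit 4) (nat_lit 2) (nat_lit 4) (nat_lit 375) (nat_lit 277) (nat_lit 248)))) (XT.nd (nat_lit 78) (nat_lit 0) (nat_lit 0) (XT.lf (nat_lit 0) (nat_lit 154955242224) (nat_lit 152) (nat_lit 43692915994) (nat_lit 0) (nat_lit 151889139934) (nat_lit 2) (nat_lit 5) (nat_lit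 4) (nat_lit 4) (nat_lit 2) (nat_lit 4) (nat_lit 376) (nat_lit 277) (nat_lit 247)) (XT.nd (nat_lit 78) (nat_lit 0) (nat_lit 0) (XT.lf (nat_lit 0) (nat_lit 170525429564) (nat_lit 152) (nat_lit 40447746582) (nat_lit 0) (nat_lit 167434266336) (nat_lit 2) (nat_lit 5) (nat_lit 4) (nat_lit 4) (nat_lit 2) (nat_lit 4) (nat_lit 377) (nat_lit 277) (nat_lit 246)) (XT.lf (nat_lit 0) (nat_lit 187300223890) (nat_lit 152) (nat_lit 37023175127) (nat_lit 0) (nat_lit 184185856089) (nat_lit 2) (nat_lit 5) (nat_lit 4) (nat_lit 4) (nat_lit 2) (nat_lit 4) (nat_lit 378) (nat_lit 277) (nat_lit 245))))))) (XT.nd (nat_lit 858) (nat_lit 0) (nat_lit 0) (XT.nd (nat_lit 390) (nat_lit 76) (nat_lit 0) (XT.nd (nat_lit 156) (nat_lit 0) (nat_lit 0) (XT.nd (nat_lit 78) (nat_lit 0) (nat_lit 0) (XT.lf (nat_lit 0) (nat_lit 205379031390) (nat_lit 152) (nat_lit 33398907873) (nat_lit 0) (nat_lit 202243177873) (nat_lit 2) (nat_lit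 5) (nat_lit 4) (nat_lit 4) (nat_lit 2) (nat_lit 4) (nat_lit 379) (nat_lit 277) (nat_lit 244)) (XT.lf (nat_lit 0) (nat_lit 224868985739) (nat_lit 152) (nat_lit 29553467680) (nat_lit 0) (nat_lit 221713238041) (nat_lit 2) (nat_lit 5) (nat_lit 4) (nat_lit 4) (nat_lit 2) (nat_lit 4) (nat_lit 380) (nat_lit 277) (nat_lit 243))) (XT.nd (nat_lit 78) (nat_lit 0) (nat_lit 0) (XT.lf (nat_lit 0) (nat_lit 245885582961) (nat_lit 152) (nat_lit 25464066754) (nat_lit 0) (nat_lit 242711414725) (nat_lit 2) (nat_lit 5) (nat_lit 4) (nat_lit 4) (nat_lit 2) (nat_lit 4) (nat_lit 381) (nat_lit 277) (nat_lit 242)) (XT.nd (nat_lit 78) (nat_lit 0) (nat_lit 0) (XT.lf (nat_lit 0) (nat_lit 268553365856) (nat_lit 152) (nat_lit 21106471609) (nat_lit 0) (nat_lit 265362141566) (nat_lit 2) (nat_lit 5) (nat_lit 4) (nat_lit 4) (nat_lit 2) (nat_lit 4) (nat_lit 382) (nat_lit 277) (nat_lit 241)) (XT.lf (nat_lit 0) (nat_lit 293006662025)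 (nat_lit 152) (nat_lit 16454859458) (nat_lit 0) (nat_lit 289799645093) (nat_lit 2) (nat_lit 5) (nat_lit 4) (nat_lit 4) (nat_lit 2) (nat_lit 4) (nat_lit 383) (nat_lit 277) (nat_lit 240))))) (XT.nd (nat_lit 234) (nat_lit 76) (nat_lit 0) (XT.nd (nat_lit 78) (nat_lit 0) (nat_lit 0) (XT.lf (nat_lit 0) (nat_lit 319390379891) (nat_lit 152) (nat_lit 11481665192) (nat_lit 0) (nat_lit 316168740141) (nat_lit 2) (nat_lit 5) (nat_lit 4) (nat_lit 4) (nat_lit 2) (nat_lit 4) (nat_lit 384) (nat_lit 277) (nat_lit 239)) (XT.nd (nat_lit 78) (nat_lit 0) (nat_lit 0) (XT.lf (nat_lit 0) (nat_lit 347860867410) (nat_lit 152) (nat_lit 6157418031) (nat_lit 0) (nat_lit 344625688016) (nat_lit 2) (nat_lit 5) (nat_lit 4) (nat_lit 4) (nat_lit 2) (nat_lit 4) (nat_lit 385) (nat_lit 277) (nat_lit 238)) (XT.lf (nat_lit 0) (nat_lit 378586838585) (nat_lit 152) (nat_lit 450566881) (nat_lit 0) (nat_lit 375339122481) (nat_lit 2)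 (nat_lit 5) (nat_lit 4) (nat_lit 4) (nat_lit 2) (nat_lit 4) (nat_lit 386) (nat_lit 277) (nat_lit 237)))) (XT.nd (nat_lit 78) (nat_lit 0) (nat_lit 0) (XT.lf (nat_lit 0) (nat_lit 5860271936) (nat_lit 76) (nat_lit 405981596574) (nat_lit 76) (nat_lit 402722272407) (nat_lit 1) (nat_lit 4) (nat_lit 2) (nat_lit 5) (nat_lit 2) (nat_lit 4) (nat_lit 387) (nat_lit 277) (nat_lit 236)) (XT.nd (nat_lit 78) (nat_lit 0) (nat_lit 0) (XT.lf (nat_lit 0) (nat_lit 12653685548) (nat_lit 76) (nat_lit 435091869978) (nat_lit 76) (nat_lit 431821797605) (nat_lit 1) (nat_lit 4) (nat_lit 2) (nat_lit 5) (nat_lit 2) (nat_lit 4) (nat_lit 388) (nat_lit 277) (nat_lit 235)) (XT.lf (nat_lit 0) (nat_lit 19955033442) (nat_lit 76) (nat_lit 466548361571) (nat_lit 76) (nat_lit 463268337154) (nat_lit 1) (nat_lit 4) (nat_lit 2) (nat_lit 5) (nat_lit 2) (nat_lit 4) (nat_lit 389) (nat_lit 277) (nat_lit 234)))))) (XT.nd (nat_lit 43524)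 (nat_lit 0) (nat_lit 228) (XT.nd (nat_lit 43290) (nat_lit 0) (nat_lit 456) (XT.nd (nat_lit 78) (nat_lit 0) (nat_lit 0) (XT.lf (nat_lit 0) (nat_lit 27807582867) (nat_lit 76) (nat_lit 500537480192) (nat_lit 76) (nat_lit 497248240920) (nat_lit 1) (nat_lit 4) (nat_lit 2) (nat_lit 5) (nat_lit 2) (nat_lit 4) (nat_lit 390) (nat_lit 277) (nat_lit 233)) (XT.lf (nat_lit 0) (nat_lit 36257867449) (nat_lit 76) (nat_lit 537260642840) (nat_lit 76) (nat_lit 533962871294) (nat_lit 1) (nat_lit 4) (nat_lit 2) (nat_lit 5) (nat_lit 2) (nat_lit 4) (nat_lit 391) (nat_lit 277) (nat_lit 232))) (XT.nd (nat_lit 78) (nat_lit 76) (nat_lit 0) (XT.lf (nat_lit 0) (nat_lit 5669262531) (nat_lit 152) (nat_lit 5305137454) (nat_lit 0) (nat_lit 5669262531) (nat_lit 8) (nat_lit 5) (nat_lit 10) (nat_lit 4) (nat_lit 8) (nat_lit 4) (nat_lit 344) (nat_lit 278) (nat_lit 278)) (XT.nd (nat_lit 78) (nat_lit 0) (nat_lit 0) (XT.lf (nat_lit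 0) (nat_lit 3270093470) (nat_lit 76) (nat_lit 16298287358) (nat_lit 76) (nat_lit 15998017076) (nat_lit 7) (nat_lit 4) (nat_lit 8) (nat_lit 5) (nat_lit 8) (nat_lit 4) (nat_lit 345) (nat_lit 278) (nat_lit 277)) (XT.lf (nat_lit 0) (nat_lit 17903146822) (nat_lit 76) (nat_lit 10356438081) (nat_lit 76) (nat_lit 9778139761) (nat_lit 7) (nat_lit 4) (nat_lit 8) (nat_lit 5) (nat_lit 8) (nat_lit 4) (nat_lit 346) (nat_lit 278) (nat_lit 276))))) (XT.nd (nat_lit 234) (nat_lit 76) (nat_lit 0) (XT.nd (nat_lit 78) (nat_lit 152) (nat_lit 0) (XT.lf (nat_lit 0) (nat_lit 33024775930) (nat_lit 76) (nat_lit 4267731324) (nat_lit 76) (nat_lit 3431999634) (nat_lit 7) (nat_lit 4) (nat_lit 8) (nat_lit 5) (nat_lit 8) (nat_lit 4) (nat_lit 347) (nat_lit 278) (nat_lit 275)) (XT.nd (nat_lit 78) (nat_lit 0) (nat_lit 0) (XT.lf (nat_lit 0) (nat_lit 3094091463) (nat_lit 152) (nat_lit 38469299154) (nat_lit 0) (nat_lit 2071142968)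 (nat_lit 5) (nat_lit 5) (nat_lit 7) (nat_lit 4) (nat_lit 5) (nat_lit 4) (nat_lit 348) (nat_lit 278) (nat_lit 274)) (XT.lf (nat_lit 0) (nat_lit 9909524818) (nat_lit 152) (nat_lit 28194328619) (nat_lit 0) (nat_lit 8676378589) (nat_lit 5) (nat_lit 5) (nat_lit 7) (nat_lit 4) (nat_lit 5) (nat_lit 4) (nat_lit 349) (nat_lit 278) (nat_lit 273)))) (XT.nd (nat_lit 78) (nat_lit 76) (nat_lit 0) (XT.lf (nat_lit 0) (nat_lit 16971677260) (nat_lit 152) (nat_lit 17676984600) (nat_lit 0) (nat_lit 15543903500) (nat_lit 5) (nat_lit 5) (nat_lit 7) (nat_lit 4) (nat_lit 5) (nat_lit 4) (nat_lit 350) (nat_lit 278) (nat_lit 272)) (XT.nd (nat_lit 78) (nat_lit 76) (nat_lit 0) (XT.lf (nat_lit 0) (nat_lit 24322398583) (nat_lit 152) (nat_lit 6854942096) (nat_lit 0) (nat_lit 22714414145) (nat_lit 5) (nat_lit 5) (nat_lit 7) (nat_lit 4) (nat_lit 5) (nat_lit 4) (nat_lit 351) (nat_lit 278) (nat_lit 271)) (XT.lf (nat_lit 0)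 (nat_lit 4479294925) (nat_lit 76) (nat_lit 27595888038) (nat_lit 76) (nat_lit 25821041861) (nat_lit 4) (nat_lit 4) (nat_lit 5) (nat_lit 5) (nat_lit 5) (nat_lit 4) (nat_lit 352) (nat_lit 278) (nat_lit 270))))))))
noncomputable def xc13 : XT := (XT.nd (nat_lit 1716) (nat_lit 76) (nat_lit 0) (XT.nd (nat_lit 858) (nat_lit 0) (nat_lit 0) (XT.nd (nat_lit 390) (nat_lit 152) (nat_lit 0) (XT.nd (nat_lit 156) (nat_lit 0) (nat_lit 0) (XT.nd (nat_lit 78) (nat_lit 0) (nat_lit 0) (XT.lf (nat_lit 0) (nat_lit 16489720545) (nat_lit 76) (nat_lit 23833485564) (nat_lit 76) (nat_lit 21904137777) (nat_lit 4) (nat_lit 4) (nat_lit 5) (nat_lit 5) (nat_lit 5) (nat_lit 4) (nat_lit 353) (nat_lit 278) (nat_lit 269)) (XT.lf (nat_lit 0) (nat_lit 29020852313) (nat_lit 76) (nat_lit 19983929300) (nat_lit 76) (nat_lit 17911524468) (nat_lit 4) (nat_lit 4) (nat_lit 5) (nat_lit 5) (nat_lit 5) (nat_lit 4) (nat_lit 354) (nat_lit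 278) (nat_lit 268))) (XT.nd (nat_lit 78) (nat_lit 0) (nat_lit 0) (XT.lf (nat_lit 0) (nat_lit 42146948788) (nat_lit 76) (nat_lit 16024407062) (nat_lit 76) (nat_lit 13819542002) (nat_lit 4) (nat_lit 4) (nat_lit 5) (nat_lit 5) (nat_lit 5) (nat_lit 4) (nat_lit 355) (nat_lit 278) (nat_lit 267)) (XT.nd (nat_lit 78) (nat_lit 0) (nat_lit 0) (XT.lf (nat_lit 0) (nat_lit 55945794244) (nat_lit 76) (nat_lit 11931455015) (nat_lit 76) (nat_lit 9603941596) (nat_lit 4) (nat_lit 4) (nat_lit 5) (nat_lit 5) (nat_lit 5) (nat_lit 4) (nat_lit 356) (nat_lit 278) (nat_lit 266)) (XT.lf (nat_lit 0) (nat_lit 70499159617) (nat_lit 76) (nat_lit 7680818626) (nat_lit 76) (nat_lit 5239741912) (nat_lit 4) (nat_lit 4) (nat_lit 5) (nat_lit 5) (nat_lit 5) (nat_lit 4) (nat_lit 357) (nat_lit 278) (nat_lit 265))))) (XT.nd (nat_lit 234) (nat_lit 0) (nat_lit 0) (XT.nd (nat_lit 78) (nat_lit 152) (nat_lit 0) (XT.lf (nat_lit 0) (nat_lit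 85893287073) (nat_lit 76) (nat_lit 3247308941) (nat_lit 76) (nat_lit 701081028) (nat_lit 4) (nat_lit 4) (nat_lit 5) (nat_lit 5) (nat_lit 5) (nat_lit 4) (nat_lit 358) (nat_lit 278) (nat_lit 264)) (XT.nd (nat_lit 78) (nat_lit 0) (nat_lit 0) (XT.lf (nat_lit 0) (nat_lit 4020537510) (nat_lit 152) (nat_lit 91253050873) (nat_lit 0) (nat_lit 1502832620) (nat_lit 2) (nat_lit 5) (nat_lit 4) (nat_lit 4) (nat_lit 2) (nat_lit 4) (nat_lit 359) (nat_lit 278) (nat_lit 263)) (XT.lf (nat_lit 0) (nat_lit 9068582578) (nat_lit 152) (nat_lit 88733127408) (nat_lit 0) (nat_lit 6465020349) (nat_lit 2) (nat_lit 5) (nat_lit 4) (nat_lit 4) (nat_lit 2) (nat_lit 4) (nat_lit 360) (nat_lit 278) (nat_lit 262)))) (XT.nd (nat_lit 78) (nat_lit 0) (nat_lit 0) (XT.lf (nat_lit 0) (nat_lit 14379980190) (nat_lit 152) (nat_lit 86286410099) (nat_lit 0) (nat_lit 11696920426) (nat_lit 2) (nat_lit 5) (nat_lit 4) (nat_lit 4) (nat_lit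 2) (nat_lit 4) (nat_lit 361) (nat_lit 278) (nat_lit 261)) (XT.nd (nat_lit 78) (nat_lit 0) (nat_lit 0) (XT.lf (nat_lit 0) (nat_lit 19986205295) (nat_lit 152) (nat_lit 83898399881) (nat_lit 0) (nat_lit 17229536701) (nat_lit 2) (nat_lit 5) (nat_lit 4) (nat_lit 4) (nat_lit 2) (nat_lit 4) (nat_lit 362) (nat_lit 278) (nat_lit 260)) (XT.lf (nat_lit 0) (nat_lit 25920479966) (nat_lit 152) (nat_lit 81554945581) (nat_lit 0) (nat_lit 23095655049) (nat_lit 2) (nat_lit 5) (nat_lit 4) (nat_lit 4) (nat_lit 2) (nat_lit 4) (nat_lit 363) (nat_lit 278) (nat_lit 259)))))) (XT.nd (nat_lit 390) (nat_lit 0) (nat_lit 0) (XT.nd (nat_lit 156) (nat_lit 0) (nat_lit 0) (XT.nd (nat_lit 78) (nat_lit 0) (nat_lit 0) (XT.lf (nat_lit 0) (nat_lit 32217970277) (nat_lit 152) (nat_lit 79242160062) (nat_lit 0) (nat_lit 29330037654) (nat_lit 2) (nat_lit 5) (nat_lit 4) (nat_lit 4) (nat_lit 2) (nat_lit 4) (nat_lit 364) (nat_lit 278)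 (nat_lit 258)) (XT.lf (nat_lit 0) (nat_lit 38915994689) (nat_lit 152) (nat_lit 76946337931) (nat_lit 0) (nat_lit 35969629003) (nat_lit 2) (nat_lit 5) (nat_lit 4) (nat_lit 4) (nat_lit 2) (nat_lit 4) (nat_lit 365) (nat_lit 278) (nat_lit 257))) (XT.nd (nat_lit 78) (nat_lit 0) (nat_lit 0) (XT.lf (nat_lit 0) (nat_lit 46054245198) (nat_lit 152) (nat_lit 74653874314) (nat_lit 0) (nat_lit 43053774825) (nat_lit 2) (nat_lit 5) (nat_lit 4) (nat_lit 4) (nat_lit 2) (nat_lit 4) (nat_lit 366) (nat_lit 278) (nat_lit 256)) (XT.nd (nat_lit 78) (nat_lit 0) (nat_lit 0) (XT.lf (nat_lit 0) (nat_lit 53675022547) (nat_lit 152) (nat_lit 72351184241) (nat_lit 0) (nat_lit 50624455243) (nat_lit 2) (nat_lit 5) (nat_lit 4) (nat_lit 4) (nat_lit 2) (nat_lit 4) (nat_lit 367) (nat_lit 278) (nat_lit 255)) (XT.lf (nat_lit 0) (nat_lit 61823486900) (nat_lit 152) (nat_lit 70024622143) (nat_lit 0) (nat_lit 58726533547) (nat_lit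 2) (nat_lit 5) (nat_lit 4) (nat_lit 4) (nat_lit 2) (nat_lit 4) (nat_lit 368) (nat_lit 278) (nat_lit 254))))) (XT.nd (nat_lit 234) (nat_lit 0) (nat_lit 0) (XT.nd (nat_lit 78) (nat_lit 0) (nat_lit 0) (XT.lf (nat_lit 0) (nat_lit 70547925451) (nat_lit 152) (nat_lit 67660400984) (nat_lit 0) (nat_lit 67408022053) (nat_lit 2) (nat_lit 5) (nat_lit 4) (nat_lit 4) (nat_lit 2) (nat_lit 4) (nat_lit 369) (nat_lit 278) (nat_lit 253)) (XT.nd (nat_lit 78) (nat_lit 0) (nat_lit 0) (XT.lf (nat_lit 0) (nat_lit 79900038578) (nat_lit 152) (nat_lit 65244510565) (nat_lit 0) (nat_lit 76720366620) (nat_lit 2) (nat_lit 5) (nat_lit 4) (nat_lit 4) (nat_lit 2) (nat_lit 4) (nat_lit 370) (nat_lit 278) (nat_lit 252)) (XT.lf (nat_lit 0) (nat_lit 89935246211) (nat_lit 152) (nat_lit 62762634499) (nat_lit 0) (nat_lit 86718751512) (nat_lit 2) (nat_lit 5) (nat_lit 4) (nat_lit 4) (nat_lit 2) (nat_lit 4) (nat_lit 371) (nat_lit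 278) (nat_lit 251)))) (XT.nd (nat_lit 78) (nat_lit 0) (nat_lit 0) (XT.lf (nat_lit 0) (nat_lit 100713016245) (nat_lit 152) (nat_lit 60200065371) (nat_lit 0) (nat_lit 97462426416) (nat_lit 2) (nat_lit 5) (nat_lit 4) (nat_lit 4) (nat_lit 2) (nat_lit 4) (nat_lit 372) (nat_lit 278) (nat_lit 250)) (XT.nd (nat_lit 78) (nat_lit 0) (nat_lit 0) (XT.lf (nat_lit 0) (nat_lit 112297216949) (nat_lit 152) (nat_lit 57541617587) (nat_lit 0) (nat_lit 109015057555) (nat_lit 2) (nat_lit 5) (nat_lit 4) (nat_lit 4) (nat_lit 2) (nat_lit 4) (nat_lit 373) (nat_lit 278) (nat_lit 249)) (XT.lf (nat_lit 0) (nat_lit 124756495438) (nat_lit 152) (nat_lit 54771537382) (nat_lit 0) (nat_lit 121445104965) (nat_lit 2) (nat_lit 5) (nat_lit 4) (nat_lit 4) (nat_lit 2) (nat_lit 4) (nat_lit 374) (nat_lit 278) (nat_lit 248))))))) (XT.nd (nat_lit 858) (nat_lit 76) (nat_lit 0) (XT.nd (nat_lit 390) (nat_lit 0) (nat_lit 0) (XT.nd (nat_lit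 156) (nat_lit 0) (nat_lit 0) (XT.nd (nat_lit 78) (nat_lit 0) (nat_lit 0) (XT.lf (nat_lit 0) (nat_lit 138164684472) (nat_lit 152) (nat_lit 51873409465) (nat_lit 0) (nat_lit 134826228185) (nat_lit 2) (nat_lit 5) (nat_lit 4) (nat_lit 4) (nat_lit 2) (nat_lit 4) (nat_lit 375) (nat_lit 278) (nat_lit 247)) (XT.lf (nat_lit 0) (nat_lit 152601239987) (nat_lit 152) (nat_lit 48830059747) (nat_lit 0) (nat_lit 149237722762) (nat_lit 2) (nat_lit 5) (nat_lit 4) (nat_lit 4) (nat_lit 2) (nat_lit 4) (nat_lit 376) (nat_lit 278) (nat_lit 246))) (XT.nd (nat_lit 78) (nat_lit 0) (nat_lit 0) (XT.lf (nat_lit 0) (nat_lit 168151711942) (nat_lit 152) (nat_lit 45623453561) (nat_lit 0) (nat_lit 164764990144) (nat_lit 2) (nat_lit 5) (nat_lit 4) (nat_lit 4) (nat_lit 2) (nat_lit 4) (nat_lit 377) (nat_lit 278) (nat_lit 245)) (XT.nd (nat_lit 78) (nat_lit 0) (nat_lit 0) (XT.lf (nat_lit 0) (nat_lit 184908251282) (nat_lit 152)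 (nat_lit 42234588797) (nat_lit 0) (nat_lit 181500043768) (nat_lit 2) (nat_lit 5) (nat_lit 4) (nat_lit 4) (nat_lit 2) (nat_lit 4) (nat_lit 378) (nat_lit 278) (nat_lit 244)) (XT.lf (nat_lit 0) (nat_lit 202970156017) (nat_lit 152) (nat_lit 38643383294) (nat_lit 0) (nat_lit 199542054322) (nat_lit 2) (nat_lit 5) (nat_lit 4) (nat_lit 4) (nat_lit 2) (nat_lit 4) (nat_lit 379) (nat_lit 278) (nat_lit 243))))) (XT.nd (nat_lit 234) (nat_lit 0) (nat_lit 0) (XT.nd (nat_lit 78) (nat_lit 0) (nat_lit 0) (XT.lf (nat_lit 0) (nat_lit 222444459656) (nat_lit 152) (nat_lit 34828555833) (nat_lit 0) (nat_lit 218997937423) (nat_lit 2) (nat_lit 5) (nat_lit 4) (nat_lit 4) (nat_lit 2) (nat_lit 4) (nat_lit 380) (nat_lit 278) (nat_lit 242)) (XT.nd (nat_lit 78) (nat_lit 0) (nat_lit 0) (XT.lf (nat_lit 0) (nat_lit 243446565482) (nat_lit 152) (nat_lit 30767500030) (nat_lit 0) (nat_lit 239982987195) (nat_lit 2) (nat_lit 5)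 (nat_lit 4) (nat_lit 4) (nat_lit 2) (nat_lit 4) (nat_lit 381) (nat_lit 278) (nat_lit 241)) (XT.lf (nat_lit 0) (nat_lit 266100930416) (nat_lit 152) (nat_lit 26436150368) (nat_lit 0) (nat_lit 262621559487) (nat_lit 2) (nat_lit 5) (nat_lit 4) (nat_lit 4) (nat_lit 2) (nat_lit 4) (nat_lit 382) (nat_lit 278) (nat_lit 240)))) (XT.nd (nat_lit 78) (nat_lit 0) (nat_lit 0) (XT.lf (nat_lit 0) (nat_lit 290541802548) (nat_lit 152) (nat_lit 21808839591) (nat_lit 0) (nat_lit 287047808802) (nat_lit 2) (nat_lit 5) (nat_lit 4) (nat_lit 4) (nat_lit 2) (nat_lit 4) (nat_lit 383) (nat_lit 278) (nat_lit 239)) (XT.nd (nat_lit 78) (nat_lit 0) (nat_lit 0) (XT.lf (nat_lit 0) (nat_lit 316914016676) (nat_lit 152) (nat_lit 16858146597) (nat_lit 0) (nat_lit 313406483285) (nat_lit 2) (nat_lit 5) (nat_lit 4) (nat_lit 4) (nat_lit 2) (nat_lit 4) (nat_lit 384) (nat_lit 278) (nat_lit 238)) (XT.lf (nat_lit 0) (nat_lit 345373852587)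 (nat_lit 152) (nat_lit 11554733947) (nat_lit 0) (nat_lit 341853782487) (nat_lit 2) (nat_lit 5) (nat_lit 4) (nat_lit 4) (nat_lit 2) (nat_lit 4) (nat_lit 385) (nat_lit 278) (nat_lit 237)))))) (XT.nd (nat_lit 390) (nat_lit 0) (nat_lit 0) (XT.nd (nat_lit 156) (nat_lit 0) (nat_lit 0) (XT.nd (nat_lit 78) (nat_lit 76) (nat_lit 0) (XT.lf (nat_lit 0) (nat_lit 376089961160) (nat_lit 152) (nat_lit 5867174010) (nat_lit 0) (nat_lit 372558282996) (nat_lit 2) (nat_lit 5) (nat_lit 4) (nat_lit 4) (nat_lit 2) (nat_lit 4) (nat_lit 386) (nat_lit 278) (nat_lit 236)) (XT.lf (nat_lit 0) (nat_lit 246114471) (nat_lit 76) (nat_lit 409002091844) (nat_lit 76) (nat_lit 405459665473) (nat_lit 1) (nat_lit 4) (nat_lit 2) (nat_lit 5) (nat_lit 2) (nat_lit 4) (nat_lit 387) (nat_lit 278) (nat_lit 235))) (XT.nd (nat_lit 78) (nat_lit 0) (nat_lit 0) (XT.lf (nat_lit 0) (nat_lit 7022442118) (nat_lit 76) (nat_lit 438120728862)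 (nat_lit 76) (nat_lit 434568350448) (nat_lit 1) (nat_lit 4) (nat_lit 2) (nat_lit 5) (nat_lit 2) (nat_lit 4) (nat_lit 388) (nat_lit 278) (nat_lit 234)) (XT.nd (nat_lit 78) (nat_lit 0) (nat_lit 0) (XT.lf (nat_lit 0) (nat_lit 14307969676) (nat_lit 76) (nat_lit 469584964542) (nat_lit 76) (nat_lit 466023371272) (nat_lit 1) (nat_lit 4) (nat_lit 2) (nat_lit 5) (nat_lit 2) (nat_lit 4) (nat_lit 389) (nat_lit 278) (nat_lit 233)) (XT.lf (nat_lit 0) (nat_lit 22145870640) (nat_lit 76) (nat_lit 503581253613) (nat_lit 76) (nat_lit 500011128070) (nat_lit 1) (nat_lit 4) (nat_lit 2) (nat_lit 5) (nat_lit 2) (nat_lit 4) (nat_lit 390) (nat_lit 278) (nat_lit 232))))) (XT.nd (nat_lit 43212) (nat_lit 0) (nat_lit 456) (XT.nd (nat_lit 43056) (nat_lit 0) (nat_lit 532) (XT.lf (nat_lit 0) (nat_lit 30582591832) (nat_lit 76) (nat_lit 540311055567) (nat_lit 76) (nat_lit 536733029771) (nat_lit 1) (nat_lit 4) (nat_lit 2)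 (nat_lit 5) (nat_lit 2) (nat_lit 4) (nat_lit 391) (nat_lit 278) (nat_lit 231)) (XT.nd (nat_lit 78) (nat_lit 152) (nat_lit 0) (XT.lf (nat_lit 0) (nat_lit 10859989175) (nat_lit 76) (nat_lit 1883004084) (nat_lit 76) (nat_lit 1883004084) (nat_lit 10) (nat_lit 4) (nat_lit 11) (nat_lit 5) (nat_lit 11) (nat_lit 4) (nat_lit 342) (nat_lit 279) (nat_lit 279)) (XT.lf (nat_lit 0) (nat_lit 3719490222) (nat_lit 152) (nat_lit 24078614390) (nat_lit 0) (nat_lit 3395198318) (nat_lit 8) (nat_lit 5) (nat_lit 10) (nat_lit 4) (nat_lit 8) (nat_lit 4) (nat_lit 343) (nat_lit 279) (nat_lit 278)))) (XT.nd (nat_lit 78) (nat_lit 76) (nat_lit 0) (XT.lf (nat_lit 0) (nat_lit 11470512908) (nat_lit 152) (nat_lit 10980516098) (nat_lit 0) (nat_lit 10845950722) (nat_lit 8) (nat_lit 5) (nat_lit 10) (nat_lit 4) (nat_lit 8) (nat_lit 4) (nat_lit 344) (nat_lit 279) (nat_lit 277)) (XT.nd (nat_lit 78) (nat_lit 0) (nat_lit 0) (XT.lf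 (nat_lit 0) (nat_lit 2533459477) (nat_lit 76) (nat_lit 16977348960) (nat_lit 76) (nat_lit 16074758736) (nat_lit 7) (nat_lit 4) (nat_lit 8) (nat_lit 5) (nat_lit 8) (nat_lit 4) (nat_lit 345) (nat_lit 279) (nat_lit 276)) (XT.lf (nat_lit 0) (nat_lit 16838595276) (nat_lit 76) (nat_lit 11193427790) (nat_lit 76) (nat_lit 10033404196) (nat_lit 7) (nat_lit 4) (nat_lit 8) (nat_lit 5) (nat_lit 8) (nat_lit 4) (nat_lit 346) (nat_lit 279) (nat_lit 275))))))))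
noncomputable def xc14 : XT := (XT.nd (nat_lit 1716) (nat_lit 76) (nat_lit 0) (XT.nd (nat_lit 858) (nat_lit 152) (nat_lit 0) (XT.nd (nat_lit 390) (nat_lit 76) (nat_lit 0) (XT.nd (nat_lit 156) (nat_lit 0) (nat_lit 0) (XT.nd (nat_lit 78) (nat_lit 152) (nat_lit 0) (XT.lf (nat_lit 0) (nat_lit 31656597020) (nat_lit 76) (nat_lit 5250950760) (nat_lit 76) (nat_lit 3852562937) (nat_lit 7) (nat_lit 4) (nat_lit 8) (nat_lit 5) (nat_lit 8) (nat_lit 4) (nat_lit 347) (nat_lit 279) (nat_lit 274)) (XT.lf (nat_lit 0) (nat_lit 2493626695) (nat_lit 152) (nat_lit 40234903741) (nat_lit 0) (nat_lit 951631034) (nat_lit 5) (nat_lit 5) (nat_lit 7) (nat_lit 4) (nat_lit 5) (nat_lit 4) (nat_lit 348) (nat_lit 279) (nat_lit 273))) (XT.nd (nat_lit 78) (nat_lit 0) (nat_lit 0) (XT.lf (nat_lit 0) (nat_lit 9165542944) (nat_lit 152) (nat_lit 30238598667) (nat_lit 0) (nat_lit 7428919751) (nat_lit 5) (nat_lit 5) (nat_lit 7)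 (nat_lit 4) (nat_lit 5) (nat_lit 4) (nat_lit 349) (nat_lit 279) (nat_lit 272)) (XT.nd (nat_lit 78) (nat_lit 0) (nat_lit 0) (XT.lf (nat_lit 0) (nat_lit 16094809178) (nat_lit 152) (nat_lit 19979278224) (nat_lit 0) (nat_lit 14177975307) (nat_lit 5) (nat_lit 5) (nat_lit 7) (nat_lit 4) (nat_lit 5) (nat_lit 4) (nat_lit 350) (nat_lit 279) (nat_lit 271)) (XT.lf (nat_lit 0) (nat_lit 23322487714) (nat_lit 152) (nat_lit 9396146438) (nat_lit 0) (nat_lit 21238792105) (nat_lit 5) (nat_lit 5) (nat_lit 7) (nat_lit 4) (nat_lit 5) (nat_lit 4) (nat_lit 351) (nat_lit 279) (nat_lit 270))))) (XT.nd (nat_lit 234) (nat_lit 0) (nat_lit 0) (XT.nd (nat_lit 78) (nat_lit 0) (nat_lit 0) (XT.lf (nat_lit 0) (nat_lit 1625538942) (nat_lit 76) (nat_lit 29291249518) (nat_lit 76) (nat_lit 27053052299) (nat_lit 4) (nat_lit 4) (nat_lit 5) (nat_lit 5) (nat_lit 5) (nat_lit 4) (nat_lit 352) (nat_lit 279) (nat_lit 269)) (XT.nd (nat_lit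 78) (nat_lit 0) (nat_lit 0) (XT.lf (nat_lit 0) (nat_lit 13424364609) (nat_lit 76) (nat_lit 25631653971) (nat_lit 76) (nat_lit 23250399706) (nat_lit 4) (nat_lit 4) (nat_lit 5) (nat_lit 5) (nat_lit 5) (nat_lit 4) (nat_lit 353) (nat_lit 279) (nat_lit 268)) (XT.lf (nat_lit 0) (nat_lit 25759570495) (nat_lit 76) (nat_lit 21877289306) (nat_lit 76) (nat_lit 19363574814) (nat_lit 4) (nat_lit 4) (nat_lit 5) (nat_lit 5) (nat_lit 5) (nat_lit 4) (nat_lit 354) (nat_lit 279) (nat_lit 267)))) (XT.nd (nat_lit 78) (nat_lit 0) (nat_lit 0) (XT.lf (nat_lit 0) (nat_lit 38704254115) (nat_lit 76) (nat_lit 18005907438) (nat_lit 76) (nat_lit 15369544587) (nat_lit 4) (nat_lit 4) (nat_lit 5) (nat_lit 5) (nat_lit 5) (nat_lit 4) (nat_lit 355) (nat_lit 279) (nat_lit 266)) (XT.nd (nat_lit 78) (nat_lit 0) (nat_lit 0) (XT.lf (nat_lit 0) (nat_lit 52335124706) (nat_lit 76) (nat_lit 13994566844) (nat_lit 76) (nat_lit 11244640697)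 (nat_lit 4) (nat_lit 4) (nat_lit 5) (nat_lit 5) (nat_lit 5) (nat_lit 4) (nat_lit 356) (nat_lit 279) (nat_lit 265)) (XT.lf (nat_lit 0) (nat_lit 66732957797) (nat_lit 76) (nat_lit 9819496617) (nat_lit 76) (nat_lit 6964419270) (nat_lit 4) (nat_lit 4) (nat_lit 5) (nat_lit 5) (nat_lit 5) (nat_lit 4) (nat_lit 357) (nat_lit 279) (nat_lit 264)))))) (XT.nd (nat_lit 390) (nat_lit 0) (nat_lit 0) (XT.nd (nat_lit 156) (nat_lit 0) (nat_lit 0) (XT.nd (nat_lit 78) (nat_lit 152) (nat_lit 0) (XT.lf (nat_lit 0) (nat_lit 81983073881) (nat_lit 76) (nat_lit 5455955599) (nat_lit 76) (nat_lit 2503516031) (nat_lit 4) (nat_lit 4) (nat_lit 5) (nat_lit 5) (nat_lit 5) (nat_lit 4) (nat_lit 358) (nat_lit 279) (nat_lit 263)) (XT.lf (nat_lit 0) (nat_lit 1294041674) (nat_lit 76) (nat_lit 821388300) (nat_lit 152) (nat_lit 94771295929) (nat_lit 2) (nat_lit 5) (nat_lit 3) (nat_lit 5) (nat_lit 4) (nat_lit 4) (nat_lit 359) (nat_lit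 279) (nat_lit 262))) (XT.nd (nat_lit 78) (nat_lit 0) (nat_lit 0) (XT.lf (nat_lit 0) (nat_lit 7083107089) (nat_lit 152) (nat_lit 93192051991) (nat_lit 0) (nat_lit 4105905008) (nat_lit 2) (nat_lit 5) (nat_lit 4) (nat_lit 4) (nat_lit 2) (nat_lit 4) (nat_lit 360) (nat_lit 279) (nat_lit 261)) (XT.nd (nat_lit 78) (nat_lit 0) (nat_lit 0) (XT.lf (nat_lit 0) (nat_lit 12331964164) (nat_lit 152) (nat_lit 90867663757) (nat_lit 0) (nat_lit 9281153254) (nat_lit 2) (nat_lit 5) (nat_lit 4) (nat_lit 4) (nat_lit 2) (nat_lit 4) (nat_lit 361) (nat_lit 279) (nat_lit 260)) (XT.lf (nat_lit 0) (nat_lit 17880281364) (nat_lit 152) (nat_lit 88592921200) (nat_lit 0) (nat_lit 14761314130) (nat_lit 2) (nat_lit 5) (nat_lit 4) (nat_lit 4) (nat_lit 2) (nat_lit 4) (nat_lit 362) (nat_lit 279) (nat_lit 259))))) (XT.nd (nat_lit 234) (nat_lit 0) (nat_lit 0) (XT.nd (nat_lit 78) (nat_lit 0) (nat_lit 0) (XT.lf (nat_lit 0) (nat_lit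 23760937606) (nat_lit 152) (nat_lit 86354344364) (nat_lit 0) (nat_lit 20578862665) (nat_lit 2) (nat_lit 5) (nat_lit 4) (nat_lit 4) (nat_lit 2) (nat_lit 4) (nat_lit 363) (nat_lit 279) (nat_lit 258)) (XT.nd (nat_lit 78) (nat_lit 0) (nat_lit 0) (XT.lf (nat_lit 0) (nat_lit 30008781222) (nat_lit 152) (nat_lit 84138667609) (nat_lit 0) (nat_lit 26768273220) (nat_lit 2) (nat_lit 5) (nat_lit 4) (nat_lit 4) (nat_lit 2) (nat_lit 4) (nat_lit 364) (nat_lit 279) (nat_lit 257)) (XT.lf (nat_lit 0) (nat_lit 36660836473) (nat_lit 152) (nat_lit 81932760999) (nat_lit 0) (nat_lit 33366223783) (nat_lit 2) (nat_lit 5) (nat_lit 4) (nat_lit 4) (nat_lit 2) (nat_lit 4) (nat_lit 365) (nat_lit 279) (nat_lit 256)))) (XT.nd (nat_lit 78) (nat_lit 0) (nat_lit 0) (XT.lf (nat_lit 0) (nat_lit 43756522943) (nat_lit 152) (nat_lit 79723552495) (nat_lit 0) (nat_lit 40411813321) (nat_lit 2) (nat_lit 5) (nat_lit 4) (nat_lit 4)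 (nat_lit 2) (nat_lit 4) (nat_lit 366) (nat_lit 279) (nat_lit 255)) (XT.nd (nat_lit 78) (nat_lit 0) (nat_lit 0) (XT.lf (nat_lit 0) (nat_lit 51337889146) (nat_lit 152) (nat_lit 77497950490) (nat_lit 0) (nat_lit 47946793476) (nat_lit 2) (nat_lit 5) (nat_lit 4) (nat_lit 4) (nat_lit 2) (nat_lit 4) (nat_lit 367) (nat_lit 279) (nat_lit 254)) (XT.lf (nat_lit 0) (nat_lit 59449861696) (nat_lit 152) (nat_lit 75242766231) (nat_lit 0) (nat_lit 56015815981) (nat_lit 2) (nat_lit 5) (nat_lit 4) (nat_lit 4) (nat_lit 2) (nat_lit 4) (nat_lit 368) (nat_lit 279) (nat_lit 253))))))) (XT.nd (nat_lit 858) (nat_lit 76) (nat_lit 0) (XT.nd (nat_lit 390) (nat_lit 0) (nat_lit 0) (XT.nd (nat_lit 156) (nat_lit 0) (nat_lit 0) (XT.nd (nat_lit 78) (nat_lit 0) (nat_lit 0) (XT.lf (nat_lit 0) (nat_lit 68140511541) (nat_lit 152) (nat_lit 72944635665) (nat_lit 0) (nat_lit 64666697266) (nat_lit 2) (nat_lit 5) (nat_lit 4) (nat_lit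 4) (nat_lit 2) (nat_lit 4) (nat_lit 369) (nat_lit 279) (nat_lit 252)) (XT.lf (nat_lit 0) (nat_lit 77461338829) (nat_lit 152) (nat_lit 70589940240) (nat_lit 0) (nat_lit 73950701814) (nat_lit 2) (nat_lit 5) (nat_lit 4) (nat_lit 4) (nat_lit 2) (nat_lit 4) (nat_lit 370) (nat_lit 279) (nat_lit 251))) (XT.nd (nat_lit 78) (nat_lit 0) (nat_lit 0) (XT.lf (nat_lit 0) (nat_lit 87467578092) (nat_lit 152) (nat_lit 68164726204) (nat_lit 0) (nat_lit 83922845947) (nat_lit 2) (nat_lit 5) (nat_lit 4) (nat_lit 4) (nat_lit 2) (nat_lit 4) (nat_lit 371) (nat_lit 279) (nat_lit 250)) (XT.nd (nat_lit 78) (nat_lit 0) (nat_lit 0) (XT.lf (nat_lit 0) (nat_lit 98218525563) (nat_lit 152) (nat_lit 65654621919) (nat_lit 0) (nat_lit 94642223852) (nat_lit 2) (nat_lit 5) (nat_lit 4) (nat_lit 4) (nat_lit 2) (nat_lit 4) (nat_lit 372) (nat_lit 279) (nat_lit 249)) (XT.lf (nat_lit 0) (nat_lit 109777890559) (nat_lit 152) (nat_lit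 63044752693) (nat_lit 0) (nat_lit 106172357769) (nat_lit 2) (nat_lit 5) (nat_lit 4) (nat_lit 4) (nat_lit 2) (nat_lit 4) (nat_lit 373) (nat_lit 279) (nat_lit 248))))) (XT.nd (nat_lit 234) (nat_lit 0) (nat_lit 0) (XT.nd (nat_lit 78) (nat_lit 0) (nat_lit 0) (XT.lf (nat_lit 0) (nat_lit 122214173022) (nat_lit 152) (nat_lit 60319652635) (nat_lit 0) (nat_lit 118581574419) (nat_lit 2) (nat_lit 5) (nat_lit 4) (nat_lit 4) (nat_lit 2) (nat_lit 4) (nat_lit 374) (nat_lit 279) (nat_lit 247)) (XT.nd (nat_lit 78) (nat_lit 0) (nat_lit 0) (XT.lf (nat_lit 0) (nat_lit 135601069440) (nat_lit 152) (nat_lit 57463173003) (nat_lit 0) (nat_lit 131943409898) (nat_lit 2) (nat_lit 5) (nat_lit 4) (nat_lit 4) (nat_lit 2) (nat_lit 4) (nat_lit 375) (nat_lit 279) (nat_lit 246)) (XT.lf (nat_lit 0) (nat_lit 150017909570) (nat_lit 152) (nat_lit 54458386511) (nat_lit 0) (nat_lit 146337045455) (nat_lit 2) (nat_lit 5) (nat_lit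 4) (nat_lit 4) (nat_lit 2) (nat_lit 4) (nat_lit 376) (nat_lit 279) (nat_lit 245)))) (XT.nd (nat_lit 78) (nat_lit 0) (nat_lit 0) (XT.lf (nat_lit 0) (nat_lit 165550126539) (nat_lit 152) (nat_lit 51287487016) (nat_lit 0) (nat_lit 161847776708) (nat_lit 2) (nat_lit 5) (nat_lit 4) (nat_lit 4) (nat_lit 2) (nat_lit 4) (nat_lit 377) (nat_lit 279) (nat_lit 244)) (XT.nd (nat_lit 78) (nat_lit 0) (nat_lit 0) (XT.lf (nat_lit 0) (nat_lit 182289763113) (nat_lit 152) (nat_lit 47931684003) (nat_lit 0) (nat_lit 178567519101) (nat_lit 2) (nat_lit 5) (nat_lit 4) (nat_lit 4) (nat_lit 2) (nat_lit 4) (nat_lit 378) (nat_lit 279) (nat_lit 243)) (XT.lf (nat_lit 0) (nat_lit 200336017139) (nat_lit 152) (nat_lit 44371091231) (nat_lit 0) (nat_lit 196595352589) (nat_lit 2) (nat_lit 5) (nat_lit 4) (nat_lit 4) (nat_lit 2) (nat_lit 4) (nat_lit 379) (nat_lit 279) (nat_lit 242)))))) (XT.nd (nat_lit 390) (nat_lit 76) (nat_lit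 0) (XT.nd (nat_lit 156) (nat_lit 0) (nat_lit 0) (XT.nd (nat_lit 78) (nat_lit 0) (nat_lit 0) (XT.lf (nat_lit 0) (nat_lit 219795829382) (nat_lit 152) (nat_lit 40584608893) (nat_lit 0) (nat_lit 216038108778) (nat_lit 2) (nat_lit 5) (nat_lit 4) (nat_lit 4) (nat_lit 2) (nat_lit 4) (nat_lit 380) (nat_lit 279) (nat_lit 241)) (XT.lf (nat_lit 0) (nat_lit 240784517247) (nat_lit 152) (nat_lit 36549798573) (nat_lit 0) (nat_lit 237011004001) (nat_lit 2) (nat_lit 5) (nat_lit 4) (nat_lit 4) (nat_lit 2) (nat_lit 4) (nat_lit 381) (nat_lit 279) (nat_lit 240))) (XT.nd (nat_lit 78) (nat_lit 0) (nat_lit 0) (XT.lf (nat_lit 0) (nat_lit 263426458145) (nat_lit 152) (nat_lit 32242750285) (nat_lit 0) (nat_lit 259638322082) (nat_lit 2) (nat_lit 5) (nat_lit 4) (nat_lit 4) (nat_lit 2) (nat_lit 4) (nat_lit 382) (nat_lit 279) (nat_lit 239)) (XT.nd (nat_lit 78) (nat_lit 0) (nat_lit 0) (XT.lf (nat_lit 0) (nat_lit 287855826539)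 (nat_lit 152) (nat_lit 27637940780) (nat_lit 0) (nat_lit 284054150831) (nat_lit 2) (nat_lit 5) (nat_lit 4) (nat_lit 4) (nat_lit 2) (nat_lit 4) (nat_lit 383) (nat_lit 279) (nat_lit 238)) (XT.lf (nat_lit 0) (nat_lit 314217389057) (nat_lit 152) (nat_lit 22708082297) (nat_lit 0) (nat_lit 310403176641) (nat_lit 2) (nat_lit 5) (nat_lit 4) (nat_lit 4) (nat_lit 2) (nat_lit 4) (nat_lit 384) (nat_lit 279) (nat_lit 237))))) (XT.nd (nat_lit 234) (nat_lit 76) (nat_lit 0) (XT.nd (nat_lit 78) (nat_lit 0) (nat_lit 0) (XT.lf (nat_lit 0) (nat_lit 342667362367) (nat_lit 152) (nat_lit 17423960862) (nat_lit 0) (nat_lit 338841541886) (nat_lit 2) (nat_lit 5) (nat_lit 4) (nat_lit 4) (nat_lit 2) (nat_lit 4) (nat_lit 385) (nat_lit 279) (nat_lit 236)) (XT.nd (nat_lit 78) (nat_lit 0) (nat_lit 0) (XT.lf (nat_lit 0) (nat_lit 373374338901) (nat_lit 152) (nat_lit 11754263160) (nat_lit 0) (nat_lit 369537770214) (nat_lit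 2) (nat_lit 5) (nat_lit 4) (nat_lit 4) (nat_lit 2) (nat_lit 4) (nat_lit 386) (nat_lit 279) (nat_lit 235)) (XT.lf (nat_lit 0) (nat_lit 406520285930) (nat_lit 152) (nat_lit 5665390984) (nat_lit 0) (nat_lit 402673765199) (nat_lit 2) (nat_lit 5) (nat_lit 4) (nat_lit 4) (nat_lit 2) (nat_lit 4) (nat_lit 387) (nat_lit 279) (nat_lit 234)))) (XT.nd (nat_lit 78) (nat_lit 0) (nat_lit 0) (XT.lf (nat_lit 0) (nat_lit 907792914) (nat_lit 76) (nat_lit 441408004157) (nat_lit 76) (nat_lit 437552268571) (nat_lit 1) (nat_lit 4) (nat_lit 2) (nat_lit 5) (nat_lit 2) (nat_lit 4) (nat_lit 388) (nat_lit 279) (nat_lit 233)) (XT.nd (nat_lit 78) (nat_lit 0) (nat_lit 0) (XT.lf (nat_lit 0) (nat_lit 8178672011) (nat_lit 76) (nat_lit 472879410287) (nat_lit 76) (nat_lit 469015142428) (nat_lit 1) (nat_lit 4) (nat_lit 2) (nat_lit 5) (nat_lit 2) (nat_lit 4) (nat_lit 389) (nat_lit 279) (nat_lit 232)) (XT.lf (nat_lit 0) (nat_lit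 16003009586) (nat_lit 76) (nat_lit 506882338664) (nat_lit 76) (nat_lit 503010170552) (nat_lit 1) (nat_lit 4) (nat_lit 2) (nat_lit 5) (nat_lit 2) (nat_lit 4) (nat_lit 390) (nat_lit 279) (nat_lit 231))))))))
noncomputable def xc15 : XT := (XT.nd (nat_lit 44538) (nat_lit 0) (nat_lit 76) (XT.nd (nat_lit 43680) (nat_lit 0) (nat_lit 76) (XT.nd (nat_lit 43212) (nat_lit 0) (nat_lit 304) (XT.nd (nat_lit 42978) (nat_lit 0) (nat_lit 532) (XT.nd (nat_lit 42900) (nat_lit 0) (nat_lit 760) (XT.lf (nat_lit 0) (nat_lit 24427172084) (nat_lit 76) (nat_lit 543618288124) (nat_lit 76) (nat_lit 539738804962) (nat_lit 1) (nat_lit 4) (nat_lit 2) (nat_lit 5) (nat_lit 2) (nat_lit 4) (nat_lit 391) (nat_lit 279) (nat_lit 230)) (XT.lf (nat_lit 0) (nat_lit 4169163997) (nat_lit 152) (nat_lit 4566173313) (nat_lit 0) (nat_lit 4169163997) (nat_lit 11) (nat_lit 5) (nat_lit 13) (nat_lit 4) (nat_lit 11) (nat_lit 4) (nat_lit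 340) (nat_lit 280) (nat_lit 280))) (XT.nd (nat_lit 78) (nat_lit 152) (nat_lit 0) (XT.lf (nat_lit 0) (nat_lit 5737565496) (nat_lit 76) (nat_lit 11046598567) (nat_lit 76) (nat_lit 10678851548) (nat_lit 10) (nat_lit 4) (nat_lit 11) (nat_lit 5) (nat_lit 11) (nat_lit 4) (nat_lit 341) (nat_lit 280) (nat_lit 279)) (XT.nd (nat_lit 78) (nat_lit 152) (nat_lit 0) (XT.lf (nat_lit 0) (nat_lit 21346640024) (nat_lit 76) (nat_lit 4311711044) (nat_lit 76) (nat_lit 3603457525) (nat_lit 10) (nat_lit 4) (nat_lit 11) (nat_lit 5) (nat_lit 11) (nat_lit 4) (nat_lit 342) (nat_lit 280) (nat_lit 278)) (XT.lf (nat_lit 0) (nat_lit 3669733035) (nat_lit 152) (nat_lit 24848716062) (nat_lit 0) (nat_lit 2694935593) (nat_lit 8) (nat_lit 5) (nat_lit 10) (nat_lit 4) (nat_lit 8) (nat_lit 4) (nat_lit 343) (nat_lit 280) (nat_lit 277))))) (XT.nd (nat_lit 234) (nat_lit 152) (nat_lit 0) (XT.nd (nat_lit 78) (nat_lit 76) (nat_lit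 0) (XT.lf (nat_lit 0) (nat_lit 11242696407) (nat_lit 152) (nat_lit 12093433686) (nat_lit 0) (nat_lit 9989870926) (nat_lit 8) (nat_lit 5) (nat_lit 10) (nat_lit 4) (nat_lit 8) (nat_lit 4) (nat_lit 344) (nat_lit 280) (nat_lit 276)) (XT.nd (nat_lit 78) (nat_lit 0) (nat_lit 0) (XT.lf (nat_lit 0) (nat_lit 1055826254) (nat_lit 76) (nat_lit 18039225952) (nat_lit 76) (nat_lit 16528967102) (nat_lit 7) (nat_lit 4) (nat_lit 8) (nat_lit 5) (nat_lit 8) (nat_lit 4) (nat_lit 345) (nat_lit 280) (nat_lit 275)) (XT.lf (nat_lit 0) (nat_lit 15057334688) (nat_lit 76) (nat_lit 12401534509) (nat_lit 76) (nat_lit 10652911429) (nat_lit 7) (nat_lit 4) (nat_lit 8) (nat_lit 5) (nat_lit 8) (nat_lit 4) (nat_lit 346) (nat_lit 280) (nat_lit 274)))) (XT.nd (nat_lit 78) (nat_lit 152) (nat_lit 0) (XT.lf (nat_lit 0) (nat_lit 29594199983) (nat_lit 76) (nat_lit 6594455377) (nat_lit 76) (nat_lit 4625124675) (nat_lit 7) (nat_lit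 4) (nat_lit 8) (nat_lit 5) (nat_lit 8) (nat_lit 4) (nat_lit 347) (nat_lit 280) (nat_lit 273)) (XT.nd (nat_lit 78) (nat_lit 0) (nat_lit 0) (XT.lf (nat_lit 0) (nat_lit 1014170817) (nat_lit 76) (nat_lit 540883049) (nat_lit 152) (nat_lit 42188942507) (nat_lit 5) (nat_lit 5) (nat_lit 6) (nat_lit 5) (nat_lit 7) (nat_lit 4) (nat_lit 348) (nat_lit 280) (nat_lit 272)) (XT.lf (nat_lit 0) (nat_lit 8085639206) (nat_lit 152) (nat_lit 32983099357) (nat_lit 0) (nat_lit 5835247948) (nat_lit 5) (nat_lit 5) (nat_lit 7) (nat_lit 4) (nat_lit 5) (nat_lit 4) (nat_lit 349) (nat_lit 280) (nat_lit 271)))))) (XT.nd (nat_lit 390) (nat_lit 152) (nat_lit 0) (XT.nd (nat_lit 156) (nat_lit 76) (nat_lit 0) (XT.nd (nat_lit 78) (nat_lit 0) (nat_lit 0) (XT.lf (nat_lit 0) (nat_lit 14891862653) (nat_lit 152) (nat_lit 22962689631) (nat_lit 0) (nat_lit 12474609657) (nat_lit 5) (nat_lit 5) (nat_lit 7) (nat_lit 4) (nat_lit 5) (nat_lit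 4) (nat_lit 350) (nat_lit 280) (nat_lit 270)) (XT.lf (nat_lit 0) (nat_lit 22005612683) (nat_lit 152) (nat_lit 12600771473) (nat_lit 0) (nat_lit 19433858078) (nat_lit 5) (nat_lit 5) (nat_lit 7) (nat_lit 4) (nat_lit 5) (nat_lit 4) (nat_lit 351) (nat_lit 280) (nat_lit 269))) (XT.nd (nat_lit 78) (nat_lit 76) (nat_lit 0) (XT.lf (nat_lit 0) (nat_lit 29469044853) (nat_lit 152) (nat_lit 1835940923) (nat_lit 0) (nat_lit 26754233201) (nat_lit 5) (nat_lit 5) (nat_lit 7) (nat_lit 4) (nat_lit 5) (nat_lit 4) (nat_lit 352) (nat_lit 280) (nat_lit 268)) (XT.nd (nat_lit 78) (nat_lit 0) (nat_lit 0) (XT.lf (nat_lit 0) (nat_lit 9706254363) (nat_lit 76) (nat_lit 27771674377) (nat_lit 76) (nat_lit 24924402497) (nat_lit 4) (nat_lit 4) (nat_lit 5) (nat_lit 5) (nat_lit 5) (nat_lit 4) (nat_lit 353) (nat_lit 280) (nat_lit 267)) (XT.lf (nat_lit 0) (nat_lit 21860047395) (nat_lit 76) (nat_lit 24105450082) (nat_lit 76)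 (nat_lit 21135529844) (nat_lit 4) (nat_lit 4) (nat_lit 5) (nat_lit 5) (nat_lit 5) (nat_lit 4) (nat_lit 354) (nat_lit 280) (nat_lit 266))))) (XT.nd (nat_lit 234) (nat_lit 152) (nat_lit 0) (XT.nd (nat_lit 78) (nat_lit 0) (nat_lit 0) (XT.lf (nat_lit 0) (nat_lit 34636756150) (nat_lit 76) (nat_lit 20315679668) (nat_lit 76) (nat_lit 17232196134) (nat_lit 4) (nat_lit 4) (nat_lit 5) (nat_lit 5) (nat_lit 5) (nat_lit 4) (nat_lit 355) (nat_lit 280) (nat_lit 265)) (XT.nd (nat_lit 78) (nat_lit 0) (nat_lit 0) (XT.lf (nat_lit 0) (nat_lit 48112094459) (nat_lit 76) (nat_lit 16379905234) (nat_lit 76) (nat_lit 13191270501) (nat_lit 4) (nat_lit 4) (nat_lit 5) (nat_lit 5) (nat_lit 5) (nat_lit 4) (nat_lit 356) (nat_lit 280) (nat_lit 264)) (XT.lf (nat_lit 0) (nat_lit 62365916177) (nat_lit 76) (nat_lit 12274803674) (nat_lit 76) (nat_lit 8988806719) (nat_lit 4) (nat_lit 4) (nat_lit 5) (nat_lit 5) (nat_lit 5) (nat_lit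 4) (nat_lit 357) (nat_lit 280) (nat_lit 263)))) (XT.nd (nat_lit 78) (nat_lit 152) (nat_lit 0) (XT.lf (nat_lit 0) (nat_lit 77482688398) (nat_lit 76) (nat_lit 7976048459) (nat_lit 76) (nat_lit 4599901299) (nat_lit 4) (nat_lit 4) (nat_lit 5) (nat_lit 5) (nat_lit 5) (nat_lit 4) (nat_lit 358) (nat_lit 280) (nat_lit 262)) (XT.nd (nat_lit 78) (nat_lit 76) (nat_lit 0) (XT.lf (nat_lit 0) (nat_lit 1407547) (nat_lit 152) (nat_lit 3456734100) (nat_lit 76) (nat_lit 93550560607) (nat_lit 3) (nat_lit 5) (nat_lit 5) (nat_lit 5) (nat_lit 4) (nat_lit 4) (nat_lit 359) (nat_lit 280) (nat_lit 261)) (XT.lf (nat_lit 0) (nat_lit 4808709244) (nat_lit 152) (nat_lit 98262135016) (nat_lit 0) (nat_lit 1440224631) (nat_lit 2) (nat_lit 5) (nat_lit 4) (nat_lit 4) (nat_lit 2) (nat_lit 4) (nat_lit 360) (nat_lit 280) (nat_lit 260))))))) (XT.nd (nat_lit 858) (nat_lit 0) (nat_lit 0) (XT.nd (nat_lit 390) (nat_lit 0) (nat_lit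 0) (XT.nd (nat_lit 156) (nat_lit 0) (nat_lit 0) (XT.nd (nat_lit 78) (nat_lit 0) (nat_lit 0) (XT.lf (nat_lit 0) (nat_lit 9999658415) (nat_lit 152) (nat_lit 96051014443) (nat_lit 0) (nat_lit 6563017479) (nat_lit 2) (nat_lit 5) (nat_lit 4) (nat_lit 4) (nat_lit 2) (nat_lit 4) (nat_lit 361) (nat_lit 280) (nat_lit 259)) (XT.lf (nat_lit 0) (nat_lit 15494357185) (nat_lit 152) (nat_lit 93881149350) (nat_lit 0) (nat_lit 11994608542) (nat_lit 2) (nat_lit 5) (nat_lit 4) (nat_lit 4) (nat_lit 2) (nat_lit 4) (nat_lit 362) (nat_lit 280) (nat_lit 258))) (XT.nd (nat_lit 78) (nat_lit 0) (nat_lit 0) (XT.lf (nat_lit 0) (nat_lit 21325366732) (nat_lit 152) (nat_lit 91739681278) (nat_lit 0) (nat_lit 17767185028) (nat_lit 2) (nat_lit 5) (nat_lit 4) (nat_lit 4) (nat_lit 2) (nat_lit 4) (nat_lit 363) (nat_lit 280) (nat_lit 257)) (XT.nd (nat_lit 78) (nat_lit 0) (nat_lit 0) (XT.lf (nat_lit 0) (nat_lit 27527241187) (nat_lit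 152) (nat_lit 89613920045) (nat_lit 0) (nat_lit 23914954796) (nat_lit 2) (nat_lit 5) (nat_lit 4) (nat_lit 4) (nat_lit 2) (nat_lit 4) (nat_lit 364) (nat_lit 280) (nat_lit 256)) (XT.lf (nat_lit 0) (nat_lit 34136732399) (nat_lit 152) (nat_lit 87491268548) (nat_lit 0) (nat_lit 30474349075) (nat_lit 2) (nat_lit 5) (nat_lit 4) (nat_lit 4) (nat_lit 2) (nat_lit 4) (nat_lit 365) (nat_lit 280) (nat_lit 255))))) (XT.nd (nat_lit 234) (nat_lit 0) (nat_lit 0) (XT.nd (nat_lit 78) (nat_lit 0) (nat_lit 0) (XT.lf (nat_lit 0) (nat_lit 41193007723) (nat_lit 152) (nat_lit 85359148110) (nat_lit 0) (nat_lit 37484238351) (nat_lit 2) (nat_lit 5) (nat_lit 4) (nat_lit 4) (nat_lit 2) (nat_lit 4) (nat_lit 366) (nat_lit 280) (nat_lit 254)) (XT.nd (nat_lit 78) (nat_lit 0) (nat_lit 0) (XT.lf (nat_lit 0) (nat_lit 48737882123) (nat_lit 152) (nat_lit 83204923945) (nat_lit 0) (nat_lit 44986162706) (nat_lit 2) (nat_lit 5)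 (nat_lit 4) (nat_lit 4) (nat_lit 2) (nat_lit 4) (nat_lit 367) (nat_lit 280) (nat_lit 253)) (XT.lf (nat_lit 0) (nat_lit 56816065967) (nat_lit 152) (nat_lit 81015830280) (nat_lit 0) (nat_lit 53024577990) (nat_lit 2) (nat_lit 5) (nat_lit 4) (nat_lit 4) (nat_lit 2) (nat_lit 4) (nat_lit 368) (nat_lit 280) (nat_lit 252)))) (XT.nd (nat_lit 78) (nat_lit 0) (nat_lit 0) (XT.lf (nat_lit 0) (nat_lit 65475429973) (nat_lit 152) (nat_lit 78778894707) (nat_lit 0) (nat_lit 61647119256) (nat_lit 2) (nat_lit 5) (nat_lit 4) (nat_lit 4) (nat_lit 2) (nat_lit 4) (nat_lit 369) (nat_lit 280) (nat_lit 251)) (XT.nd (nat_lit 78) (nat_lit 0) (nat_lit 0) (XT.lf (nat_lit 0) (nat_lit 74767288892) (nat_lit 152) (nat_lit 76480861312) (nat_lit 0) (nat_lit 70904883044) (nat_lit 2) (nat_lit 5) (nat_lit 4) (nat_lit 4) (nat_lit 2) (nat_lit 4) (nat_lit 370) (nat_lit 280) (nat_lit 250)) (XT.lf (nat_lit 0) (nat_lit 84746705591)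 (nat_lit 152) (nat_lit 74108112119) (nat_lit 0) (nat_lit 80852730178) (nat_lit 2) (nat_lit 5) (nat_lit 4) (nat_lit 4) (nat_lit 2) (nat_lit 4) (nat_lit 371) (nat_lit 280) (nat_lit 249)))))) (XT.nd (nat_lit 468) (nat_lit 0) (nat_lit 0) (XT.nd (nat_lit 234) (nat_lit 0) (nat_lit 0) (XT.nd (nat_lit 78) (nat_lit 0) (nat_lit 0) (XT.lf (nat_lit 0) (nat_lit 95472817354) (nat_lit 152) (nat_lit 71646586393) (nat_lit 0) (nat_lit 91549610862) (nat_lit 2) (nat_lit 5) (nat_lit 4) (nat_lit 4) (nat_lit 2) (nat_lit 4) (nat_lit 372) (nat_lit 280) (nat_lit 248)) (XT.nd (nat_lit 78) (nat_lit 0) (nat_lit 0) (XT.lf (nat_lit 0) (nat_lit 107009186325) (nat_lit 152) (nat_lit 69081697314) (nat_lit 0) (nat_lit 103058914019) (nat_lit 2) (nat_lit 5) (nat_lit 4) (nat_lit 4) (nat_lit 2) (nat_lit 4) (nat_lit 373) (nat_lit 280) (nat_lit 247)) (XT.lf (nat_lit 0) (nat_lit 119424176171) (nat_lit 152) (nat_lit 66398245540)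 (nat_lit 0) (nat_lit 115448842927) (nat_lit 2) (nat_lit 5) (nat_lit 4) (nat_lit 4) (nat_lit 2) (nat_lit 4) (nat_lit 374) (nat_lit 280) (nat_lit 246)))) (XT.nd (nat_lit 78) (nat_lit 0) (nat_lit 0) (XT.lf (nat_lit 0) (nat_lit 132791357204) (nat_lit 152) (nat_lit 63580329134) (nat_lit 0) (nat_lit 128792819387) (nat_lit 2) (nat_lit 5) (nat_lit 4) (nat_lit 4) (nat_lit 2) (nat_lit 4) (nat_lit 375) (nat_lit 280) (nat_lit 245)) (XT.nd (nat_lit 78) (nat_lit 0) (nat_lit 0) (XT.lf (nat_lit 0) (nat_lit 147189942348) (nat_lit 152) (nat_lit 60611249333) (nat_lit 0) (nat_lit 143169918815) (nat_lit 2) (nat_lit 5) (nat_lit 4) (nat_lit 4) (nat_lit 2) (nat_lit 4) (nat_lit 376) (nat_lit 280) (nat_lit 244)) (XT.lf (nat_lit 0) (nat_lit 162705256551) (nat_lit 152) (nat_lit 57473411588) (nat_lit 0) (nat_lit 158665338837) (nat_lit 2) (nat_lit 5) (nat_lit 4) (nat_lit 4) (nat_lit 2) (nat_lit 4) (nat_lit 377) (nat_lit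 280) (nat_lit 243))))) (XT.nd (nat_lit 234) (nat_lit 0) (nat_lit 0) (XT.nd (nat_lit 78) (nat_lit 0) (nat_lit 0) (XT.lf (nat_lit 0) (nat_lit 179429242416) (nat_lit 152) (nat_lit 54148221307) (nat_lit 0) (nat_lit 175370904165) (nat_lit 2) (nat_lit 5) (nat_lit 4) (nat_lit 4) (nat_lit 2) (nat_lit 4) (nat_lit 378) (nat_lit 280) (nat_lit 242)) (XT.nd (nat_lit 78) (nat_lit 0) (nat_lit 0) (XT.lf (nat_lit 0) (nat_lit 197461005046) (nat_lit 152) (nat_lit 50615973658) (nat_lit 0) (nat_lit 193385610740) (nat_lit 2) (nat_lit 5) (nat_lit 4) (nat_lit 4) (nat_lit 2) (nat_lit 4) (nat_lit 379) (nat_lit 280) (nat_lit 241)) (XT.lf (nat_lit 0) (nat_lit 216907399328) (nat_lit 152) (nat_lit 46855736803) (nat_lit 0) (nat_lit 212816212381) (nat_lit 2) (nat_lit 5) (nat_lit 4) (nat_lit 4) (nat_lit 2) (nat_lit 4) (nat_lit 380) (nat_lit 280) (nat_lit 240)))) (XT.nd (nat_lit 78) (nat_lit 0) (nat_lit 0) (XT.lf (nat_lit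 0) (nat_lit 237883663157) (nat_lit 152) (nat_lit 42845227857) (nat_lit 0) (nat_lit 233777853392) (nat_lit 2) (nat_lit 5) (nat_lit 4) (nat_lit 4) (nat_lit 2) (nat_lit 4) (nat_lit 381) (nat_lit 280) (nat_lit 239)) (XT.nd (nat_lit 78) (nat_lit 0) (nat_lit 0) (XT.lf (nat_lit 0) (nat_lit 260514100316) (nat_lit 152) (nat_lit 38560680841) (nat_lit 0) (nat_lit 256394750906) (nat_lit 2) (nat_lit 5) (nat_lit 4) (nat_lit 4) (nat_lit 2) (nat_lit 4) (nat_lit 382) (nat_lit 280) (nat_lit 238)) (XT.lf (nat_lit 0) (nat_lit 284932817101) (nat_lit 152) (nat_lit 33976705847) (nat_lit 0) (nat_lit 280800930982) (nat_lit 2) (nat_lit 5) (nat_lit 4) (nat_lit 4) (nat_lit 2) (nat_lit 4) (nat_lit 383) (nat_lit 280) (nat_lit 237))))))))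
noncomputable def xc16 : XT := (XT.nd (nat_lit 44382) (nat_lit 0) (nat_lit 76) (XT.nd (nat_lit 43524) (nat_lit 0) (nat_lit 304) (XT.nd (nat_lit 390) (nat_lit 76) (nat_lit 0) (XT.nd (nat_lit 156) (nat_lit 0) (nat_lit 0) (XT.nd (nat_lit 78) (nat_lit 0) (nat_lit 0) (XT.lf (nat_lit 0) (nat_lit 311284517018) (nat_lit 152) (nat_lit 29066138579) (nat_lit 0) (nat_lit 307141022836) (nat_lit 2) (nat_lit 5) (nat_lit 4) (nat_lit 4) (nat_lit 2) (nat_lit 4) (nat_lit 384) (nat_lit 280) (nat_lit 236)) (XT.lf (nat_lit 0) (nat_lit 339725358290) (nat_lit 152) (nat_lit 23799879378) (nat_lit 0) (nat_lit 335571115900) (nat_lit 2) (nat_lit 5) (nat_lit 4) (nat_lit 4) (nat_lit 2) (nat_lit 4) (nat_lit 385) (nat_lit 280) (nat_lit 235))) (XT.nd (nat_lit 78) (nat_lit 0) (nat_lit 0) (XT.lf (nat_lit 0) (nat_lit 370423879234) (nat_lit 152) (nat_lit 18146720783) (nat_lit 0) (nat_lit 366259684801) (nat_lit 2) (nat_lit 5)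 (nat_lit 4) (nat_lit 4) (nat_lit 2) (nat_lit 4) (nat_lit 386) (nat_lit 280) (nat_lit 234)) (XT.nd (nat_lit 78) (nat_lit 0) (nat_lit 0) (XT.lf (nat_lit 0) (nat_lit 403561997011) (nat_lit 152) (nat_lit 12073162595) (nat_lit 0) (nat_lit 399388587723) (nat_lit 2) (nat_lit 5) (nat_lit 4) (nat_lit 4) (nat_lit 2) (nat_lit 4) (nat_lit 387) (nat_lit 280) (nat_lit 233)) (XT.lf (nat_lit 0) (nat_lit 439336085654) (nat_lit 152) (nat_lit 5543213357) (nat_lit 0) (nat_lit 435154144093) (nat_lit 2) (nat_lit 5) (nat_lit 4) (nat_lit 4) (nat_lit 2) (nat_lit 4) (nat_lit 388) (nat_lit 280) (nat_lit 232))))) (XT.nd (nat_lit 42900) (nat_lit 0) (nat_lit 760) (XT.nd (nat_lit 78) (nat_lit 0) (nat_lit 0) (XT.lf (nat_lit 0) (nat_lit 1530818682) (nat_lit 76) (nat_lit 476451221448) (nat_lit 76) (nat_lit 472261379634) (nat_lit 1) (nat_lit 4) (nat_lit 2) (nat_lit 5) (nat_lit 2) (nat_lit 4) (nat_lit 389) (nat_lit 280) (nat_lit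 231)) (XT.nd (nat_lit 78) (nat_lit 0) (nat_lit 0) (XT.lf (nat_lit 0) (nat_lit 9342597564) (nat_lit 76) (nat_lit 510460297331) (nat_lit 76) (nat_lit 506263140468) (nat_lit 1) (nat_lit 4) (nat_lit 2) (nat_lit 5) (nat_lit 2) (nat_lit 4) (nat_lit 390) (nat_lit 280) (nat_lit 230)) (XT.lf (nat_lit 0) (nat_lit 17755131642) (nat_lit 76) (nat_lit 547201938925) (nat_lit 76) (nat_lit 542998008869) (nat_lit 1) (nat_lit 4) (nat_lit 2) (nat_lit 5) (nat_lit 2) (nat_lit 4) (nat_lit 391) (nat_lit 280) (nat_lit 229)))) (XT.nd (nat_lit 78) (nat_lit 152) (nat_lit 0) (XT.lf (nat_lit 0) (nat_lit 4423746288) (nat_lit 76) (nat_lit 3507489499) (nat_lit 76) (nat_lit 3507489499) (nat_lit 13) (nat_lit 4) (nat_lit 14) (nat_lit 5) (nat_lit 14) (nat_lit 4) (nat_lit 338) (nat_lit 281) (nat_lit 281)) (XT.nd (nat_lit 78) (nat_lit 0) (nat_lit 0) (XT.lf (nat_lit 0) (nat_lit 603948635) (nat_lit 152) (nat_lit 23482438131) (nat_lit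 0) (nat_lit 206781855) (nat_lit 11) (nat_lit 5) (nat_lit 13) (nat_lit 4) (nat_lit 11) (nat_lit 4) (nat_lit 339) (nat_lit 281) (nat_lit 280)) (XT.lf (nat_lit 0) (nat_lit 8530776872) (nat_lit 152) (nat_lit 9522646929) (nat_lit 0) (nat_lit 7765863072) (nat_lit 11) (nat_lit 5) (nat_lit 13) (nat_lit 4) (nat_lit 11) (nat_lit 4) (nat_lit 340) (nat_lit 281) (nat_lit 279)))))) (XT.nd (nat_lit 390) (nat_lit 228) (nat_lit 0) (XT.nd (nat_lit 156) (nat_lit 152) (nat_lit 0) (XT.nd (nat_lit 78) (nat_lit 0) (nat_lit 0) (XT.lf (nat_lit 0) (nat_lit 4961021777) (nat_lit 76) (nat_lit 11813913528) (nat_lit 76) (nat_lit 10708493229) (nat_lit 10) (nat_lit 4) (nat_lit 11) (nat_lit 5) (nat_lit 11) (nat_lit 4) (nat_lit 341) (nat_lit 281) (nat_lit 278)) (XT.lf (nat_lit 0) (nat_lit 20224412669) (nat_lit 76) (nat_lit 5243799945) (nat_lit 76) (nat_lit 3823095850) (nat_lit 10) (nat_lit 4) (nat_lit 11) (nat_lit 5) (nat_lit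 11) (nat_lit 4) (nat_lit 342) (nat_lit 281) (nat_lit 277))) (XT.nd (nat_lit 78) (nat_lit 0) (nat_lit 0) (XT.lf (nat_lit 0) (nat_lit 3245631900) (nat_lit 152) (nat_lit 26393482974) (nat_lit 0) (nat_lit 1614552342) (nat_lit 8) (nat_lit 5) (nat_lit 10) (nat_lit 4) (nat_lit 8) (nat_lit 4) (nat_lit 343) (nat_lit 281) (nat_lit 276)) (XT.nd (nat_lit 78) (nat_lit 0) (nat_lit 0) (XT.lf (nat_lit 0) (nat_lit 10653725537) (nat_lit 152) (nat_lit 13955622741) (nat_lit 0) (nat_lit 8765212610) (nat_lit 8) (nat_lit 5) (nat_lit 10) (nat_lit 4) (nat_lit 8) (nat_lit 4) (nat_lit 344) (nat_lit 281) (nat_lit 275)) (XT.lf (nat_lit 0) (nat_lit 18336939766) (nat_lit 152) (nat_lit 1134065227) (nat_lit 0) (nat_lit 16210062609) (nat_lit 8) (nat_lit 5) (nat_lit 10) (nat_lit 4) (nat_lit 8) (nat_lit 4) (nat_lit 345) (nat_lit 281) (nat_lit 274))))) (XT.nd (nat_lit 234) (nat_lit 76) (nat_lit 0) (XT.nd (nat_lit 78) (nat_lit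 76) (nat_lit 0) (XT.lf (nat_lit 0) (nat_lit 12548809439) (nat_lit 76) (nat_lit 13987917391) (nat_lit 76) (nat_lit 11640332613) (nat_lit 7) (nat_lit 4) (nat_lit 8) (nat_lit 5) (nat_lit 8) (nat_lit 4) (nat_lit 346) (nat_lit 281) (nat_lit 273)) (XT.nd (nat_lit 78) (nat_lit 76) (nat_lit 0) (XT.lf (nat_lit 0) (nat_lit 26825363208) (nat_lit 76) (nat_lit 8306206681) (nat_lit 76) (nat_lit 5754262995) (nat_lit 7) (nat_lit 4) (nat_lit 8) (nat_lit 5) (nat_lit 8) (nat_lit 4) (nat_lit 347) (nat_lit 281) (nat_lit 272)) (XT.lf (nat_lit 0) (nat_lit 319201252) (nat_lit 152) (nat_lit 2086802329) (nat_lit 76) (nat_lit 41418093480) (nat_lit 6) (nat_lit 5) (nat_lit 8) (nat_lit 5) (nat_lit 7) (nat_lit 4) (nat_lit 348) (nat_lit 281) (nat_lit 271)))) (XT.nd (nat_lit 78) (nat_lit 0) (nat_lit 0) (XT.lf (nat_lit 0) (nat_lit 6663414173) (nat_lit 152) (nat_lit 36444094394) (nat_lit 0) (nat_lit 3885919198) (nat_lit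 5) (nat_lit 5) (nat_lit 7) (nat_lit 4) (nat_lit 5) (nat_lit 4) (nat_lit 349) (nat_lit 281) (nat_lit 270)) (XT.nd (nat_lit 78) (nat_lit 0) (nat_lit 0) (XT.lf (nat_lit 0) (nat_lit 13355709114) (nat_lit 152) (nat_lit 26644898297) (nat_lit 0) (nat_lit 10423712530) (nat_lit 5) (nat_lit 5) (nat_lit 7) (nat_lit 4) (nat_lit 5) (nat_lit 4) (nat_lit 350) (nat_lit 281) (nat_lit 269)) (XT.lf (nat_lit 0) (nat_lit 20363969787) (nat_lit 152) (nat_lit 16487807571) (nat_lit 0) (nat_lit 17288916157) (nat_lit 5) (nat_lit 5) (nat_lit 7) (nat_lit 4) (nat_lit 5) (nat_lit 4) (nat_lit 351) (nat_lit 281) (nat_lit 268))))))) (XT.nd (nat_lit 858) (nat_lit 0) (nat_lit 0) (XT.nd (nat_lit 390) (nat_lit 152) (nat_lit 0) (XT.nd (nat_lit 156) (nat_lit 0) (nat_lit 0) (XT.nd (nat_lit 78) (nat_lit 76) (nat_lit 0) (XT.lf (nat_lit 0) (nat_lit 27729726625) (nat_lit 152) (nat_lit 5912632052) (nat_lit 0) (nat_lit 24522212768)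 (nat_lit 5) (nat_lit 5) (nat_lit 7) (nat_lit 4) (nat_lit 5) (nat_lit 4) (nat_lit 352) (nat_lit 281) (nat_lit 267)) (XT.lf (nat_lit 0) (nat_lit 5313356561) (nat_lit 76) (nat_lit 30266228385) (nat_lit 76) (nat_lit 26936066168) (nat_lit 4) (nat_lit 4) (nat_lit 5) (nat_lit 5) (nat_lit 5) (nat_lit 4) (nat_lit 353) (nat_lit 281) (nat_lit 266))) (XT.nd (nat_lit 78) (nat_lit 0) (nat_lit 0) (XT.lf (nat_lit 0) (nat_lit 17299174727) (nat_lit 76) (nat_lit 26681615544) (nat_lit 76) (nat_lit 23237890032) (nat_lit 4) (nat_lit 4) (nat_lit 5) (nat_lit 5) (nat_lit 5) (nat_lit 4) (nat_lit 354) (nat_lit 281) (nat_lit 265)) (XT.nd (nat_lit 78) (nat_lit 0) (nat_lit 0) (XT.lf (nat_lit 0) (nat_lit 29920351201) (nat_lit 76) (nat_lit 22967411290) (nat_lit 76) (nat_lit 19418534579) (nat_lit 4) (nat_lit 4) (nat_lit 5) (nat_lit 5) (nat_lit 5) (nat_lit 4) (nat_lit 355) (nat_lit 281) (nat_lit 264)) (XT.lf (nat_lit 0)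 (nat_lit 43251678137) (nat_lit 76) (nat_lit 19101605524) (nat_lit 76) (nat_lit 15455366591) (nat_lit 4) (nat_lit 4) (nat_lit 5) (nat_lit 5) (nat_lit 5) (nat_lit 4) (nat_lit 356) (nat_lit 281) (nat_lit 263))))) (XT.nd (nat_lit 234) (nat_lit 152) (nat_lit 0) (XT.nd (nat_lit 78) (nat_lit 0) (nat_lit 0) (XT.lf (nat_lit 0) (nat_lit 57372155992) (nat_lit 76) (nat_lit 15061289766) (nat_lit 76) (nat_lit 11324900628) (nat_lit 4) (nat_lit 4) (nat_lit 5) (nat_lit 5) (nat_lit 5) (nat_lit 4) (nat_lit 357) (nat_lit 281) (nat_lit 262)) (XT.nd (nat_lit 78) (nat_lit 0) (nat_lit 0) (XT.lf (nat_lit 0) (nat_lit 72365461672) (nat_lit 76) (nat_lit 10822521406) (nat_lit 76) (nat_lit 7002659856) (nat_lit 4) (nat_lit 4) (nat_lit 5) (nat_lit 5) (nat_lit 5) (nat_lit 4) (nat_lit 358) (nat_lit 281) (nat_lit 261)) (XT.lf (nat_lit 0) (nat_lit 88320444396) (nat_lit 76) (nat_lit 6360181816) (nat_lit 76) (nat_lit 2463030995)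 (nat_lit 4) (nat_lit 4) (nat_lit 5) (nat_lit 5) (nat_lit 5) (nat_lit 4) (nat_lit 359) (nat_lit 281) (nat_lit 260)))) (XT.nd (nat_lit 78) (nat_lit 0) (nat_lit 0) (XT.lf (nat_lit 0) (nat_lit 657880690) (nat_lit 76) (nat_lit 1598995236) (nat_lit 152) (nat_lit 102399390979) (nat_lit 2) (nat_lit 5) (nat_lit 3) (nat_lit 5) (nat_lit 4) (nat_lit 4) (nat_lit 360) (nat_lit 281) (nat_lit 259)) (XT.nd (nat_lit 78) (nat_lit 0) (nat_lit 0) (XT.lf (nat_lit 0) (nat_lit 7369241871) (nat_lit 152) (nat_lit 101867178310) (nat_lit 0) (nat_lit 3526405630) (nat_lit 2) (nat_lit 5) (nat_lit 4) (nat_lit 4) (nat_lit 2) (nat_lit 4) (nat_lit 361) (nat_lit 281) (nat_lit 258)) (XT.lf (nat_lit 0) (nat_lit 12814293947) (nat_lit 152) (nat_lit 99794421981) (nat_lit 0) (nat_lit 8913024644) (nat_lit 2) (nat_lit 5) (nat_lit 4) (nat_lit 4) (nat_lit 2) (nat_lit 4) (nat_lit 362) (nat_lit 281) (nat_lit 257)))))) (XT.nd (nat_lit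 390) (nat_lit 0) (nat_lit 0) (XT.nd (nat_lit 156) (nat_lit 0) (nat_lit 0) (XT.nd (nat_lit 78) (nat_lit 0) (nat_lit 0) (XT.lf (nat_lit 0) (nat_lit 18599334332) (nat_lit 152) (nat_lit 97742869430) (nat_lit 0) (nat_lit 14643960343) (nat_lit 2) (nat_lit 5) (nat_lit 4) (nat_lit 4) (nat_lit 2) (nat_lit 4) (nat_lit 363) (nat_lit 281) (nat_lit 256)) (XT.lf (nat_lit 0) (nat_lit 24758644749) (nat_lit 152) (nat_lit 95700363310) (nat_lit 0) (nat_lit 20753173828) (nat_lit 2) (nat_lit 5) (nat_lit 4) (nat_lit 4) (nat_lit 2) (nat_lit 4) (nat_lit 364) (nat_lit 281) (nat_lit 255))) (XT.nd (nat_lit 78) (nat_lit 0) (nat_lit 0) (XT.lf (nat_lit 0) (nat_lit 31328724814) (nat_lit 152) (nat_lit 93654799880) (nat_lit 0) (nat_lit 27276867844) (nat_lit 2) (nat_lit 5) (nat_lit 4) (nat_lit 4) (nat_lit 2) (nat_lit 4) (nat_lit 365) (nat_lit 281) (nat_lit 254)) (XT.nd (nat_lit 78) (nat_lit 0) (nat_lit 0) (XT.lf (nat_lit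 0) (nat_lit 38348508335) (nat_lit 152) (nat_lit 91594057282) (nat_lit 0) (nat_lit 34253701321) (nat_lit 2) (nat_lit 5) (nat_lit 4) (nat_lit 4) (nat_lit 2) (nat_lit 4) (nat_lit 366) (nat_lit 281) (nat_lit 253)) (XT.lf (nat_lit 0) (nat_lit 45859594030) (nat_lit 152) (nat_lit 89505923710) (nat_lit 0) (nat_lit 41725018455) (nat_lit 2) (nat_lit 5) (nat_lit 4) (nat_lit 4) (nat_lit 2) (nat_lit 4) (nat_lit 367) (nat_lit 281) (nat_lit 252))))) (XT.nd (nat_lit 234) (nat_lit 0) (nat_lit 0) (XT.nd (nat_lit 78) (nat_lit 0) (nat_lit 0) (XT.lf (nat_lit 0) (nat_lit 53906492035) (nat_lit 152) (nat_lit 87378025037) (nat_lit 0) (nat_lit 49735093719) (nat_lit 2) (nat_lit 5) (nat_lit 4) (nat_lit 4) (nat_lit 2) (nat_lit 4) (nat_lit 368) (nat_lit 281) (nat_lit 251)) (XT.nd (nat_lit 78) (nat_lit 0) (nat_lit 0) (XT.lf (nat_lit 0) (nat_lit 62536887672) (nat_lit 152) (nat_lit 85197751495) (nat_lit 0) (nat_lit 58331394226)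 (nat_lit 2) (nat_lit 5) (nat_lit 4) (nat_lit 4) (nat_lit 2) (nat_lit 4) (nat_lit 369) (nat_lit 281) (nat_lit 250)) (XT.lf (nat_lit 0) (nat_lit 71801924027) (nat_lit 152) (nat_lit 82952182944) (nat_lit 0) (nat_lit 67564861016) (nat_lit 2) (nat_lit 5) (nat_lit 4) (nat_lit 4) (nat_lit 2) (nat_lit 4) (nat_lit 370) (nat_lit 281) (nat_lit 249)))) (XT.nd (nat_lit 78) (nat_lit 0) (nat_lit 0) (XT.lf (nat_lit 0) (nat_lit 81756505018) (nat_lit 152) (nat_lit 80628012310) (nat_lit 0) (nat_lit 77490210928) (nat_lit 2) (nat_lit 5) (nat_lit 4) (nat_lit 4) (nat_lit 2) (nat_lit 4) (nat_lit 371) (nat_lit 281) (nat_lit 248)) (XT.nd (nat_lit 78) (nat_lit 0) (nat_lit 0) (XT.lf (nat_lit 0) (nat_lit 92459620755) (nat_lit 152) (nat_lit 78211466730) (nat_lit 0) (nat_lit 88166260852) (nat_lit 2) (nat_lit 5) (nat_lit 4) (nat_lit 4) (nat_lit 2) (nat_lit 4) (nat_lit 372) (nat_lit 281) (nat_lit 247)) (XT.lf (nat_lit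 0) (nat_lit 103974697110) (nat_lit 152) (nat_lit 75688225936) (nat_lit 0) (nat_lit 99656276268) (nat_lit 2) (nat_lit 5) (nat_lit 4) (nat_lit 4) (nat_lit 2) (nat_lit 4) (nat_lit 373) (nat_lit 281) (nat_lit 246))))))))
noncomputable def xc17 : XT := (XT.nd (nat_lit 44226) (nat_lit 0) (nat_lit 76) (XT.nd (nat_lit 858) (nat_lit 76) (nat_lit 0) (XT.nd (nat_lit 390) (nat_lit 0) (nat_lit 0) (XT.nd (nat_lit 156) (nat_lit 0) (nat_lit 0) (XT.nd (nat_lit 78) (nat_lit 0) (nat_lit 0) (XT.lf (nat_lit 0) (nat_lit 116369971571) (nat_lit 152) (nat_lit 73043337388) (nat_lit 0) (nat_lit 112028346156) (nat_lit 2) (nat_lit 5) (nat_lit 4) (nat_lit 4) (nat_lit 2) (nat_lit 4) (nat_lit 374) (nat_lit 281) (nat_lit 245)) (XT.lf (nat_lit 0) (nat_lit 129718897617) (nat_lit 152) (nat_lit 70261127672) (nat_lit 0) (nat_lit 125355786487) (nat_lit 2) (nat_lit 5) (nat_lit 4) (nat_lit 4) (nat_lit 2) (nat_lit 4) (nat_lit 375)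 (nat_lit 281) (nat_lit 244))) (XT.nd (nat_lit 78) (nat_lit 0) (nat_lit 0) (XT.lf (nat_lit 0) (nat_lit 144100579995) (nat_lit 152) (nat_lit 67325109621) (nat_lit 0) (nat_lit 139717574684) (nat_lit 2) (nat_lit 5) (nat_lit 4) (nat_lit 4) (nat_lit 2) (nat_lit 4) (nat_lit 376) (nat_lit 281) (nat_lit 243)) (XT.nd (nat_lit 78) (nat_lit 0) (nat_lit 0) (XT.lf (nat_lit 0) (nat_lit 159600243490) (nat_lit 152) (nat_lit 64217884609) (nat_lit 0) (nat_lit 155198817640) (nat_lit 2) (nat_lit 5) (nat_lit 4) (nat_lit 4) (nat_lit 2) (nat_lit 4) (nat_lit 377) (nat_lit 281) (nat_lit 242)) (XT.lf (nat_lit 0) (nat_lit 176309737959) (nat_lit 152) (nat_lit 60921039451) (nat_lit 0) (nat_lit 171891256055) (nat_lit 2) (nat_lit 5) (nat_lit 4) (nat_lit 4) (nat_lit 2) (nat_lit 4) (nat_lit 378) (nat_lit 281) (nat_lit 241))))) (XT.nd (nat_lit 234) (nat_lit 0) (nat_lit 0) (XT.nd (nat_lit 78) (nat_lit 0) (nat_lit 0) (XT.lf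 (nat_lit 0) (nat_lit 194328082628) (nat_lit 152) (nat_lit 57415037285) (nat_lit 0) (nat_lit 189893808082) (nat_lit 2) (nat_lit 5) (nat_lit 4) (nat_lit 4) (nat_lit 2) (nat_lit 4) (nat_lit 379) (nat_lit 281) (nat_lit 240)) (XT.nd (nat_lit 78) (nat_lit 0) (nat_lit 0) (XT.lf (nat_lit 0) (nat_lit 213762052874) (nat_lit 152) (nat_lit 53679101804) (nat_lit 0) (nat_lit 209313155511) (nat_lit 2) (nat_lit 5) (nat_lit 4) (nat_lit 4) (nat_lit 2) (nat_lit 4) (nat_lit 380) (nat_lit 281) (nat_lit 239)) (XT.lf (nat_lit 0) (nat_lit 234726812964) (nat_lit 152) (nat_lit 49691094130) (nat_lit 0) (nat_lit 230264375956) (nat_lit 2) (nat_lit 5) (nat_lit 4) (nat_lit 4) (nat_lit 2) (nat_lit 4) (nat_lit 381) (nat_lit 281) (nat_lit 238)))) (XT.nd (nat_lit 78) (nat_lit 0) (nat_lit 0) (XT.lf (nat_lit 0) (nat_lit 257346598514) (nat_lit 152) (nat_lit 45427381625) (nat_lit 0) (nat_lit 252871624797) (nat_lit 2) (nat_lit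 5) (nat_lit 4) (nat_lit 4) (nat_lit 2) (nat_lit 4) (nat_lit 382) (nat_lit 281) (nat_lit 237)) (XT.nd (nat_lit 78) (nat_lit 0) (nat_lit 0) (XT.lf (nat_lit 0) (nat_lit 281755452698) (nat_lit 152) (nat_lit 40862697845) (nat_lit 0) (nat_lit 277268870917) (nat_lit 2) (nat_lit 5) (nat_lit 4) (nat_lit 4) (nat_lit 2) (nat_lit 4) (nat_lit 383) (nat_lit 281) (nat_lit 236)) (XT.lf (nat_lit 0) (nat_lit 308098020577) (nat_lit 152) (nat_lit 35969992812) (nat_lit 0) (nat_lit 303600690590) (nat_lit 2) (nat_lit 5) (nat_lit 4) (nat_lit 4) (nat_lit 2) (nat_lit 4) (nat_lit 384) (nat_lit 281) (nat_lit 235)))))) (XT.nd (nat_lit 390) (nat_lit 76) (nat_lit 0) (XT.nd (nat_lit 156) (nat_lit 0) (nat_lit 0) (XT.nd (nat_lit 78) (nat_lit 0) (nat_lit 0) (XT.lf (nat_lit 0) (nat_lit 336530406257) (nat_lit 152) (nat_lit 30720272718) (nat_lit 0) (nat_lit 332023124226) (nat_lit 2) (nat_lit 5) (nat_lit 4) (nat_lit 4) (nat_lit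 2) (nat_lit 4) (nat_lit 385) (nat_lit 281) (nat_lit 234)) (XT.lf (nat_lit 0) (nat_lit 367221097951) (nat_lit 152) (nat_lit 25082428110) (nat_lit 0) (nat_lit 362704601064) (nat_lit 2) (nat_lit 5) (nat_lit 4) (nat_lit 4) (nat_lit 2) (nat_lit 4) (nat_lit 386) (nat_lit 281) (nat_lit 233))) (XT.nd (nat_lit 78) (nat_lit 0) (nat_lit 0) (XT.lf (nat_lit 0) (nat_lit 400351966422) (nat_lit 152) (nat_lit 19023049540) (nat_lit 0) (nat_lit 395826937263) (nat_lit 2) (nat_lit 5) (nat_lit 4) (nat_lit 4) (nat_lit 2) (nat_lit 4) (nat_lit 387) (nat_lit 281) (nat_lit 232)) (XT.nd (nat_lit 78) (nat_lit 0) (nat_lit 0) (XT.lf (nat_lit 0) (nat_lit 436119342744) (nat_lit 152) (nat_lit 12506229579) (nat_lit 0) (nat_lit 431586413332) (nat_lit 2) (nat_lit 5) (nat_lit 4) (nat_lit 4) (nat_lit 2) (nat_lit 4) (nat_lit 388) (nat_lit 281) (nat_lit 231)) (XT.lf (nat_lit 0) (nat_lit 474735181740) (nat_lit 152) (nat_lit 5493350033)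 (nat_lit 0) (nat_lit 470194937278) (nat_lit 2) (nat_lit 5) (nat_lit 4) (nat_lit 4) (nat_lit 2) (nat_lit 4) (nat_lit 389) (nat_lit 281) (nat_lit 230))))) (XT.nd (nat_lit 42744) (nat_lit 0) (nat_lit 760) (XT.nd (nat_lit 78) (nat_lit 0) (nat_lit 0) (XT.lf (nat_lit 0) (nat_lit 2125165466) (nat_lit 76) (nat_lit 514336332332) (nat_lit 76) (nat_lit 509789314677) (nat_lit 1) (nat_lit 4) (nat_lit 2) (nat_lit 5) (nat_lit 2) (nat_lit 4) (nat_lit 390) (nat_lit 281) (nat_lit 229)) (XT.nd (nat_lit 42588) (nat_lit 0) (nat_lit 1140) (XT.lf (nat_lit 0) (nat_lit 10526932489) (nat_lit 76) (nat_lit 551083244422) (nat_lit 76) (nat_lit 546529955291) (nat_lit 1) (nat_lit 4) (nat_lit 2) (nat_lit 5) (nat_lit 2) (nat_lit 4) (nat_lit 391) (nat_lit 281) (nat_lit 228)) (XT.lf (nat_lit 0) (nat_lit 9754160080) (nat_lit 76) (nat_lit 218241419) (nat_lit 76) (nat_lit 218241419) (nat_lit 16) (nat_lit 4) (nat_lit 17) (nat_lit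 5) (nat_lit 17) (nat_lit 4) (nat_lit 336) (nat_lit 282) (nat_lit 282)))) (XT.nd (nat_lit 78) (nat_lit 228) (nat_lit 0) (XT.lf (nat_lit 0) (nat_lit 7650832399) (nat_lit 152) (nat_lit 6728861139) (nat_lit 0) (nat_lit 7200445270) (nat_lit 14) (nat_lit 5) (nat_lit 16) (nat_lit 4) (nat_lit 14) (nat_lit 4) (nat_lit 337) (nat_lit 282) (nat_lit 281)) (XT.nd (nat_lit 78) (nat_lit 152) (nat_lit 0) (XT.lf (nat_lit 0) (nat_lit 8454155682) (nat_lit 76) (nat_lit 7650583969) (nat_lit 76) (nat_lit 6783171719) (nat_lit 13) (nat_lit 4) (nat_lit 14) (nat_lit 5) (nat_lit 14) (nat_lit 4) (nat_lit 338) (nat_lit 282) (nat_lit 280)) (XT.lf (nat_lit 0) (nat_lit 10359745) (nat_lit 76) (nat_lit 606179944) (nat_lit 152) (nat_lit 23697546982) (nat_lit 11) (nat_lit 5) (nat_lit 12) (nat_lit 5) (nat_lit 13) (nat_lit 4) (nat_lit 339) (nat_lit 282) (nat_lit 279))))))) (XT.nd (nat_lit 858) (nat_lit 228) (nat_lit 0) (XT.nd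 (nat_lit 390) (nat_lit 228) (nat_lit 0) (XT.nd (nat_lit 156) (nat_lit 152) (nat_lit 0) (XT.nd (nat_lit 78) (nat_lit 76) (nat_lit 0) (XT.lf (nat_lit 0) (nat_lit 8344350146) (nat_lit 152) (nat_lit 10695860725) (nat_lit 0) (nat_lit 6809989723) (nat_lit 11) (nat_lit 5) (nat_lit 13) (nat_lit 4) (nat_lit 11) (nat_lit 4) (nat_lit 340) (nat_lit 282) (nat_lit 278)) (XT.lf (nat_lit 0) (nat_lit 3403332599) (nat_lit 76) (nat_lit 12985343482) (nat_lit 76) (nat_lit 11135699264) (nat_lit 10) (nat_lit 4) (nat_lit 11) (nat_lit 5) (nat_lit 11) (nat_lit 4) (nat_lit 341) (nat_lit 282) (nat_lit 277))) (XT.nd (nat_lit 78) (nat_lit 152) (nat_lit 0) (XT.lf (nat_lit 0) (nat_lit 18346646050) (nat_lit 76) (nat_lit 6567798363) (nat_lit 76) (nat_lit 4426224704) (nat_lit 10) (nat_lit 4) (nat_lit 11) (nat_lit 5) (nat_lit 11) (nat_lit 4) (nat_lit 342) (nat_lit 282) (nat_lit 276)) (XT.nd (nat_lit 78) (nat_lit 0) (nat_lit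 0) (XT.lf (nat_lit 0) (nat_lit 2444673625) (nat_lit 152) (nat_lit 28722069297) (nat_lit 0) (nat_lit 147646295) (nat_lit 8) (nat_lit 5) (nat_lit 10) (nat_lit 4) (nat_lit 8) (nat_lit 4) (nat_lit 343) (nat_lit 282) (nat_lit 275)) (XT.lf (nat_lit 0) (nat_lit 9700110099) (nat_lit 152) (nat_lit 16578118457) (nat_lit 0) (nat_lit 7164718539) (nat_lit 8) (nat_lit 5) (nat_lit 10) (nat_lit 4) (nat_lit 8) (nat_lit 4) (nat_lit 344) (nat_lit 282) (nat_lit 274))))) (XT.nd (nat_lit 234) (nat_lit 152) (nat_lit 0) (XT.nd (nat_lit 78) (nat_lit 76) (nat_lit 0) (XT.lf (nat_lit 0) (nat_lit 17241975104) (nat_lit 152) (nat_lit 4028699270) (nat_lit 0) (nat_lit 14485875923) (nat_lit 8) (nat_lit 5) (nat_lit 10) (nat_lit 4) (nat_lit 8) (nat_lit 4) (nat_lit 345) (nat_lit 282) (nat_lit 273)) (XT.nd (nat_lit 78) (nat_lit 0) (nat_lit 0) (XT.lf (nat_lit 0) (nat_lit 9298154196) (nat_lit 76) (nat_lit 15961977223) (nat_lit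 76) (nat_lit 13001519133) (nat_lit 7) (nat_lit 4) (nat_lit 8) (nat_lit 5) (nat_lit 8) (nat_lit 4) (nat_lit 346) (nat_lit 282) (nat_lit 272)) (XT.lf (nat_lit 0) (nat_lit 23333678774) (nat_lit 76) (nat_lit 10396348385) (nat_lit 76) (nat_lit 7246669085) (nat_lit 7) (nat_lit 4) (nat_lit 8) (nat_lit 5) (nat_lit 8) (nat_lit 4) (nat_lit 347) (nat_lit 282) (nat_lit 271)))) (XT.nd (nat_lit 78) (nat_lit 152) (nat_lit 0) (XT.lf (nat_lit 0) (nat_lit 38027840949) (nat_lit 76) (nat_lit 4609034329) (nat_lit 76) (nat_lit 1284150203) (nat_lit 7) (nat_lit 4) (nat_lit 8) (nat_lit 5) (nat_lit 8) (nat_lit 4) (nat_lit 348) (nat_lit 282) (nat_lit 270)) (XT.nd (nat_lit 78) (nat_lit 0) (nat_lit 0) (XT.lf (nat_lit 0) (nat_lit 4890439844) (nat_lit 152) (nat_lit 40642093381) (nat_lit 0) (nat_lit 1569381924) (nat_lit 5) (nat_lit 5) (nat_lit 7) (nat_lit 4) (nat_lit 5) (nat_lit 4) (nat_lit 349) (nat_lit 282) (nat_lit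 269)) (XT.lf (nat_lit 0) (nat_lit 11477245428) (nat_lit 152) (nat_lit 31047724716) (nat_lit 0) (nat_lit 8013130462) (nat_lit 5) (nat_lit 5) (nat_lit 7) (nat_lit 4) (nat_lit 5) (nat_lit 4) (nat_lit 350) (nat_lit 282) (nat_lit 268)))))) (XT.nd (nat_lit 390) (nat_lit 152) (nat_lit 0) (XT.nd (nat_lit 156) (nat_lit 76) (nat_lit 0) (XT.nd (nat_lit 78) (nat_lit 0) (nat_lit 0) (XT.lf (nat_lit 0) (nat_lit 18387830770) (nat_lit 152) (nat_lit 21080289021) (nat_lit 0) (nat_lit 14791255576) (nat_lit 5) (nat_lit 5) (nat_lit 7) (nat_lit 4) (nat_lit 5) (nat_lit 4) (nat_lit 351) (nat_lit 282) (nat_lit 267)) (XT.lf (nat_lit 0) (nat_lit 25663147488) (nat_lit 152) (nat_lit 10680720011) (nat_lit 0) (nat_lit 21943923935) (nat_lit 5) (nat_lit 5) (nat_lit 7) (nat_lit 4) (nat_lit 5) (nat_lit 4) (nat_lit 352) (nat_lit 282) (nat_lit 266))) (XT.nd (nat_lit 78) (nat_lit 0) (nat_lit 0) (XT.lf (nat_lit 0) (nat_lit 219639215)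 (nat_lit 76) (nat_lit 33130098536) (nat_lit 76) (nat_lit 29297311688) (nat_lit 4) (nat_lit 4) (nat_lit 5) (nat_lit 5) (nat_lit 5) (nat_lit 4) (nat_lit 353) (nat_lit 282) (nat_lit 265)) (XT.nd (nat_lit 78) (nat_lit 0) (nat_lit 0) (XT.lf (nat_lit 0) (nat_lit 12049925100) (nat_lit 76) (nat_lit 29621051856) (nat_lit 76) (nat_lit 25683113809) (nat_lit 4) (nat_lit 4) (nat_lit 5) (nat_lit 5) (nat_lit 5) (nat_lit 4) (nat_lit 354) (nat_lit 282) (nat_lit 264)) (XT.lf (nat_lit 0) (nat_lit 24527090200) (nat_lit 76) (nat_lit 25976816270) (nat_lit 76) (nat_lit 21941516000) (nat_lit 4) (nat_lit 4) (nat_lit 5) (nat_lit 5) (nat_lit 5) (nat_lit 4) (nat_lit 355) (nat_lit 282) (nat_lit 263))))) (XT.nd (nat_lit 234) (nat_lit 152) (nat_lit 0) (XT.nd (nat_lit 78) (nat_lit 0) (nat_lit 0) (XT.lf (nat_lit 0) (nat_lit 37725073273) (nat_lit 76) (nat_lit 22175796306) (nat_lit 76) (nat_lit 18050345832) (nat_lit 4) (nat_lit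 4) (nat_lit 5) (nat_lit 5) (nat_lit 5) (nat_lit 4) (nat_lit 356) (nat_lit 282) (nat_lit 262)) (XT.nd (nat_lit 78) (nat_lit 0) (nat_lit 0) (XT.lf (nat_lit 0) (nat_lit 51722084588) (nat_lit 76) (nat_lit 18195467404) (nat_lit 76) (nat_lit 13986544517) (nat_lit 4) (nat_lit 4) (nat_lit 5) (nat_lit 5) (nat_lit 5) (nat_lit 4) (nat_lit 357) (nat_lit 282) (nat_lit 261)) (XT.lf (nat_lit 0) (nat_lit 66601069398) (nat_lit 76) (nat_lit 14012242427) (nat_lit 76) (nat_lit 9726030270) (nat_lit 4) (nat_lit 4) (nat_lit 5) (nat_lit 5) (nat_lit 5) (nat_lit 4) (nat_lit 358) (nat_lit 282) (nat_lit 260)))) (XT.nd (nat_lit 78) (nat_lit 152) (nat_lit 0) (XT.lf (nat_lit 0) (nat_lit 82450199464) (nat_lit 76) (nat_lit 9601331896) (nat_lit 76) (nat_lit 5243555599) (nat_lit 4) (nat_lit 4) (nat_lit 5) (nat_lit 5) (nat_lit 5) (nat_lit 4) (nat_lit 359) (nat_lit 282) (nat_lit 259)) (XT.nd (nat_lit 78) (nat_lit 152) (nat_lit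 0) (XT.lf (nat_lit 0) (nat_lit 99363395557) (nat_lit 76) (nat_lit 4936597081) (nat_lit 76) (nat_lit 512557692) (nat_lit 4) (nat_lit 4) (nat_lit 5) (nat_lit 5) (nat_lit 5) (nat_lit 4) (nat_lit 360) (nat_lit 282) (nat_lit 258)) (XT.lf (nat_lit 0) (nat_lit 4425126879) (nat_lit 152) (nat_lit 108350621515) (nat_lit 0) (nat_lit 153322971) (nat_lit 2) (nat_lit 5) (nat_lit 4) (nat_lit 4) (nat_lit 2) (nat_lit 4) (nat_lit 361) (nat_lit 282) (nat_lit 257))))))))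
noncomputable def xc18 : XT := (XT.nd (nat_lit 1716) (nat_lit 76) (nat_lit 0) (XT.nd (nat_lit 858) (nat_lit 0) (nat_lit 0) (XT.nd (nat_lit 390) (nat_lit 0) (nat_lit 0) (XT.nd (nat_lit 156) (nat_lit 0) (nat_lit 0) (XT.nd (nat_lit 78) (nat_lit 0) (nat_lit 0) (XT.lf (nat_lit 0) (nat_lit 9824209793) (nat_lit 152) (nat_lit 106367780707) (nat_lit 0) (nat_lit 5498301198) (nat_lit 2) (nat_lit 5) (nat_lit 4) (nat_lit 4) (nat_lit 2) (nat_lit 4) (nat_lit 362) (nat_lit 282) (nat_lit 256)) (XT.lf (nat_lit 0) (nat_lit 15566686141) (nat_lit 152) (nat_lit 104399483269) (nat_lit 0) (nat_lit 11190680613) (nat_lit 2) (nat_lit 5) (nat_lit 4) (nat_lit 4) (nat_lit 2) (nat_lit 4) (nat_lit 363) (nat_lit 282) (nat_lit 255))) (XT.nd (nat_lit 78) (nat_lit 0) (nat_lit 0) (XT.lf (nat_lit 0) (nat_lit 21686585411) (nat_lit 152) (nat_lit 102434065216) (nat_lit 0) (nat_lit 17264193835) (nat_lit 2) (nat_lit 5) (nat_lit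 4) (nat_lit 4) (nat_lit 2) (nat_lit 4) (nat_lit 364) (nat_lit 282) (nat_lit 254)) (XT.nd (nat_lit 78) (nat_lit 0) (nat_lit 0) (XT.lf (nat_lit 0) (nat_lit 28220173674) (nat_lit 152) (nat_lit 100459879625) (nat_lit 0) (nat_lit 23754832053) (nat_lit 2) (nat_lit 5) (nat_lit 4) (nat_lit 4) (nat_lit 2) (nat_lit 4) (nat_lit 365) (nat_lit 282) (nat_lit 253)) (XT.lf (nat_lit 0) (nat_lit 35206168489) (nat_lit 152) (nat_lit 98465227621) (nat_lit 0) (nat_lit 30701058308) (nat_lit 2) (nat_lit 5) (nat_lit 4) (nat_lit 4) (nat_lit 2) (nat_lit 4) (nat_lit 366) (nat_lit 282) (nat_lit 252))))) (XT.nd (nat_lit 234) (nat_lit 0) (nat_lit 0) (XT.nd (nat_lit 78) (nat_lit 0) (nat_lit 0) (XT.lf (nat_lit 0) (nat_lit 42685968344) (nat_lit 152) (nat_lit 96438289042) (nat_lit 0) (nat_lit 38144035423) (nat_lit 2) (nat_lit 5) (nat_lit 4) (nat_lit 4) (nat_lit 2) (nat_lit 4) (nat_lit 367) (nat_lit 282) (nat_lit 251)) (XT.nd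 (nat_lit 78) (nat_lit 0) (nat_lit 0) (XT.lf (nat_lit 0) (nat_lit 50703897980) (nat_lit 152) (nat_lit 94367052400) (nat_lit 0) (nat_lit 46127869928) (nat_lit 2) (nat_lit 5) (nat_lit 4) (nat_lit 4) (nat_lit 2) (nat_lit 4) (nat_lit 368) (nat_lit 282) (nat_lit 250)) (XT.lf (nat_lit 0) (nat_lit 59307471053) (nat_lit 152) (nat_lit 92239243701) (nat_lit 0) (nat_lit 54699873436) (nat_lit 2) (nat_lit 5) (nat_lit 4) (nat_lit 4) (nat_lit 2) (nat_lit 4) (nat_lit 369) (nat_lit 282) (nat_lit 249)))) (XT.nd (nat_lit 78) (nat_lit 0) (nat_lit 0) (XT.lf (nat_lit 0) (nat_lit 68547671700) (nat_lit 152) (nat_lit 90042253708) (nat_lit 0) (nat_lit 63910843004) (nat_lit 2) (nat_lit 5) (nat_lit 4) (nat_lit 4) (nat_lit 2) (nat_lit 4) (nat_lit 370) (nat_lit 282) (nat_lit 248)) (XT.nd (nat_lit 78) (nat_lit 0) (nat_lit 0) (XT.lf (nat_lit 0) (nat_lit 78479256666) (nat_lit 152) (nat_lit 87763063221) (nat_lit 0) (nat_lit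 73815362156) (nat_lit 2) (nat_lit 5) (nat_lit 4) (nat_lit 4) (nat_lit 2) (nat_lit 4) (nat_lit 371) (nat_lit 282) (nat_lit 247)) (XT.lf (nat_lit 0) (nat_lit 89161079787) (nat_lit 152) (nat_lit 85388165926) (nat_lit 0) (nat_lit 84472124339) (nat_lit 2) (nat_lit 5) (nat_lit 4) (nat_lit 4) (nat_lit 2) (nat_lit 4) (nat_lit 372) (nat_lit 282) (nat_lit 246)))))) (XT.nd (nat_lit 390) (nat_lit 0) (nat_lit 0) (XT.nd (nat_lit 156) (nat_lit 0) (nat_lit 0) (XT.nd (nat_lit 78) (nat_lit 0) (nat_lit 0) (XT.lf (nat_lit 0) (nat_lit 100656440756) (nat_lit 152) (nat_lit 82903488357) (nat_lit 0) (nat_lit 95944280735) (nat_lit 2) (nat_lit 5) (nat_lit 4) (nat_lit 4) (nat_lit 2) (nat_lit 4) (nat_lit 373) (nat_lit 282) (nat_lit 245)) (XT.lf (nat_lit 0) (nat_lit 113033460231) (nat_lit 152) (nat_lit 80294306500) (nat_lit 0) (nat_lit 108299814494) (nat_lit 2) (nat_lit 5) (nat_lit 4) (nat_lit 4) (nat_lit 2) (nat_lit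 4) (nat_lit 374) (nat_lit 282) (nat_lit 244))) (XT.nd (nat_lit 78) (nat_lit 0) (nat_lit 0) (XT.lf (nat_lit 0) (nat_lit 126365483512) (nat_lit 152) (nat_lit 77545158535) (nat_lit 0) (nat_lit 121611943594) (nat_lit 2) (nat_lit 5) (nat_lit 4) (nat_lit 4) (nat_lit 2) (nat_lit 4) (nat_lit 375) (nat_lit 282) (nat_lit 243)) (XT.nd (nat_lit 78) (nat_lit 0) (nat_lit 0) (XT.lf (nat_lit 0) (nat_lit 140731515181) (nat_lit 152) (nat_lit 74639753216) (nat_lit 0) (nat_lit 135959554726) (nat_lit 2) (nat_lit 5) (nat_lit 4) (nat_lit 4) (nat_lit 2) (nat_lit 4) (nat_lit 376) (nat_lit 282) (nat_lit 242)) (XT.lf (nat_lit 0) (nat_lit 156216687279) (nat_lit 152) (nat_lit 71560873326) (nat_lit 0) (nat_lit 151427670769) (nat_lit 2) (nat_lit 5) (nat_lit 4) (nat_lit 4) (nat_lit 2) (nat_lit 4) (nat_lit 377) (nat_lit 282) (nat_lit 241))))) (XT.nd (nat_lit 234) (nat_lit 0) (nat_lit 0) (XT.nd (nat_lit 78) (nat_lit 0)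 (nat_lit 0) (XT.lf (nat_lit 0) (nat_lit 172912763788) (nat_lit 152) (nat_lit 68290273651) (nat_lit 0) (nat_lit 168107954636) (nat_lit 2) (nat_lit 5) (nat_lit 4) (nat_lit 4) (nat_lit 2) (nat_lit 4) (nat_lit 378) (nat_lit 282) (nat_lit 240)) (XT.nd (nat_lit 78) (nat_lit 0) (nat_lit 0) (XT.lf (nat_lit 0) (nat_lit 190918684420) (nat_lit 152) (nat_lit 64808572860) (nat_lit 0) (nat_lit 186099252451) (nat_lit 2) (nat_lit 5) (nat_lit 4) (nat_lit 4) (nat_lit 2) (nat_lit 4) (nat_lit 379) (nat_lit 282) (nat_lit 239)) (XT.lf (nat_lit 0) (nat_lit 210341150928) (nat_lit 152) (nat_lit 61095138651) (nat_lit 0) (nat_lit 205508179313) (nat_lit 2) (nat_lit 5) (nat_lit 4) (nat_lit 4) (nat_lit 2) (nat_lit 4) (nat_lit 380) (nat_lit 282) (nat_lit 238)))) (XT.nd (nat_lit 78) (nat_lit 0) (nat_lit 0) (XT.lf (nat_lit 0) (nat_lit 231295259409) (nat_lit 152) (nat_lit 57127965488) (nat_lit 0) (nat_lit 226449751086)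 (nat_lit 2) (nat_lit 5) (nat_lit 4) (nat_lit 4) (nat_lit 2) (nat_lit 4) (nat_lit 381) (nat_lit 282) (nat_lit 237)) (XT.nd (nat_lit 78) (nat_lit 0) (nat_lit 0) (XT.lf (nat_lit 0) (nat_lit 253905182358) (nat_lit 152) (nat_lit 52883544197) (nat_lit 0) (nat_lit 249048065971) (nat_lit 2) (nat_lit 5) (nat_lit 4) (nat_lit 4) (nat_lit 2) (nat_lit 4) (nat_lit 382) (nat_lit 282) (nat_lit 236)) (XT.lf (nat_lit 0) (nat_lit 278304904503) (nat_lit 152) (nat_lit 48336722652) (nat_lit 0) (nat_lit 273437039910) (nat_lit 2) (nat_lit 5) (nat_lit 4) (nat_lit 4) (nat_lit 2) (nat_lit 4) (nat_lit 383) (nat_lit 282) (nat_lit 235))))))) (XT.nd (nat_lit 43212) (nat_lit 0) (nat_lit 456) (XT.nd (nat_lit 390) (nat_lit 76) (nat_lit 0) (XT.nd (nat_lit 156) (nat_lit 0) (nat_lit 0) (XT.nd (nat_lit 78) (nat_lit 0) (nat_lit 0) (XT.lf (nat_lit 0) (nat_lit 304639016791) (nat_lit 152) (nat_lit 43460556725) (nat_lit 0) (nat_lit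 299761200154) (nat_lit 2) (nat_lit 5) (nat_lit 4) (nat_lit 4) (nat_lit 2) (nat_lit 4) (nat_lit 384) (nat_lit 282) (nat_lit 234)) (XT.lf (nat_lit 0) (nat_lit 333063573221) (nat_lit 152) (nat_lit 38226150619) (nat_lit 0) (nat_lit 328176541729) (nat_lit 2) (nat_lit 5) (nat_lit 4) (nat_lit 4) (nat_lit 2) (nat_lit 4) (nat_lit 385) (nat_lit 282) (nat_lit 233))) (XT.nd (nat_lit 78) (nat_lit 0) (nat_lit 0) (XT.lf (nat_lit 0) (nat_lit 363747015608) (nat_lit 152) (nat_lit 32602485630) (nat_lit 0) (nat_lit 358851451842) (nat_lit 2) (nat_lit 5) (nat_lit 4) (nat_lit 4) (nat_lit 2) (nat_lit 4) (nat_lit 386) (nat_lit 282) (nat_lit 232)) (XT.nd (nat_lit 78) (nat_lit 0) (nat_lit 0) (XT.lf (nat_lit 0) (nat_lit 396871171759) (nat_lit 152) (nat_lit 26556236335) (nat_lit 0) (nat_lit 391967707740) (nat_lit 2) (nat_lit 5) (nat_lit 4) (nat_lit 4) (nat_lit 2) (nat_lit 4) (nat_lit 387) (nat_lit 282) (nat_lit 231))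 (XT.lf (nat_lit 0) (nat_lit 432632332969) (nat_lit 152) (nat_lit 20051573111) (nat_lit 0) (nat_lit 427721553902) (nat_lit 2) (nat_lit 5) (nat_lit 4) (nat_lit 4) (nat_lit 2) (nat_lit 4) (nat_lit 388) (nat_lit 282) (nat_lit 230))))) (XT.nd (nat_lit 42588) (nat_lit 0) (nat_lit 1140) (XT.nd (nat_lit 78) (nat_lit 76) (nat_lit 0) (XT.lf (nat_lit 0) (nat_lit 471242417232) (nat_lit 152) (nat_lit 13049949804) (nat_lit 0) (nat_lit 466324864971) (nat_lit 2) (nat_lit 5) (nat_lit 4) (nat_lit 4) (nat_lit 2) (nat_lit 4) (nat_lit 389) (nat_lit 282) (nat_lit 229)) (XT.nd (nat_lit 78) (nat_lit 76) (nat_lit 0) (XT.lf (nat_lit 0) (nat_lit 512930225046) (nat_lit 152) (nat_lit 5509875313) (nat_lit 0) (nat_lit 508006401309) (nat_lit 2) (nat_lit 5) (nat_lit 4) (nat_lit 4) (nat_lit 2) (nat_lit 4) (nat_lit 390) (nat_lit 282) (nat_lit 228)) (XT.lf (nat_lit 0) (nat_lit 2699740852) (nat_lit 76) (nat_lit 555285204941)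 (nat_lit 76) (nat_lit 550355574282) (nat_lit 1) (nat_lit 4) (nat_lit 2) (nat_lit 5) (nat_lit 2) (nat_lit 4) (nat_lit 391) (nat_lit 282) (nat_lit 227)))) (XT.nd (nat_lit 78) (nat_lit 76) (nat_lit 0) (XT.lf (nat_lit 0) (nat_lit 1634398606) (nat_lit 152) (nat_lit 5851677912) (nat_lit 0) (nat_lit 1634398606) (nat_lit 17) (nat_lit 5) (nat_lit 19) (nat_lit 4) (nat_lit 17) (nat_lit 4) (nat_lit 334) (nat_lit 283) (nat_lit 283)) (XT.nd (nat_lit 78) (nat_lit 0) (nat_lit 0) (XT.lf (nat_lit 0) (nat_lit 3300432149) (nat_lit 76) (nat_lit 8239899250) (nat_lit 76) (nat_lit 7729160245) (nat_lit 16) (nat_lit 4) (nat_lit 17) (nat_lit 5) (nat_lit 17) (nat_lit 4) (nat_lit 335) (nat_lit 283) (nat_lit 282)) (XT.lf (nat_lit 0) (nat_lit 19124870102) (nat_lit 76) (nat_lit 1125198544) (nat_lit 76) (nat_lit 141553053) (nat_lit 16) (nat_lit 4) (nat_lit 17) (nat_lit 5) (nat_lit 17) (nat_lit 4) (nat_lit 336) (nat_lit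 283) (nat_lit 281)))))) (XT.nd (nat_lit 390) (nat_lit 228) (nat_lit 0) (XT.nd (nat_lit 156) (nat_lit 228) (nat_lit 0) (XT.nd (nat_lit 78) (nat_lit 76) (nat_lit 0) (XT.lf (nat_lit 0) (nat_lit 7717136338) (nat_lit 152) (nat_lit 7520816266) (nat_lit 0) (nat_lit 6363305989) (nat_lit 14) (nat_lit 5) (nat_lit 16) (nat_lit 4) (nat_lit 14) (nat_lit 4) (nat_lit 337) (nat_lit 283) (nat_lit 280)) (XT.lf (nat_lit 0) (nat_lit 7271814114) (nat_lit 76) (nat_lit 8693753179) (nat_lit 76) (nat_lit 6953788460) (nat_lit 13) (nat_lit 4) (nat_lit 14) (nat_lit 5) (nat_lit 14) (nat_lit 4) (nat_lit 338) (nat_lit 283) (nat_lit 279))) (XT.nd (nat_lit 78) (nat_lit 152) (nat_lit 0) (XT.lf (nat_lit 0) (nat_lit 269822889) (nat_lit 152) (nat_lit 1544359620) (nat_lit 76) (nat_lit 22540604560) (nat_lit 12) (nat_lit 5) (nat_lit 14) (nat_lit 5) (nat_lit 13) (nat_lit 4) (nat_lit 339) (nat_lit 283) (nat_lit 278)) (XT.nd (nat_lit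 78) (nat_lit 76) (nat_lit 0) (XT.lf (nat_lit 0) (nat_lit 7777943064) (nat_lit 152) (nat_lit 12658940394) (nat_lit 0) (nat_lit 5465043512) (nat_lit 11) (nat_lit 5) (nat_lit 13) (nat_lit 4) (nat_lit 11) (nat_lit 4) (nat_lit 340) (nat_lit 283) (nat_lit 277)) (XT.lf (nat_lit 0) (nat_lit 1055267210) (nat_lit 76) (nat_lit 14567830237) (nat_lit 76) (nat_lit 11963001245) (nat_lit 10) (nat_lit 4) (nat_lit 11) (nat_lit 5) (nat_lit 11) (nat_lit 4) (nat_lit 341) (nat_lit 283) (nat_lit 276))))) (XT.nd (nat_lit 234) (nat_lit 76) (nat_lit 0) (XT.nd (nat_lit 78) (nat_lit 152) (nat_lit 0) (XT.lf (nat_lit 0) (nat_lit 15702212661) (nat_lit 76) (nat_lit 8291552213) (nat_lit 76) (nat_lit 5416418184) (nat_lit 10) (nat_lit 4) (nat_lit 11) (nat_lit 5) (nat_lit 11) (nat_lit 4) (nat_lit 342) (nat_lit 283) (nat_lit 275)) (XT.nd (nat_lit 78) (nat_lit 76) (nat_lit 0) (XT.lf (nat_lit 0) (nat_lit 1297280605) (nat_lit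 152) (nat_lit 465991229) (nat_lit 76) (nat_lit 29630880252) (nat_lit 9) (nat_lit 5) (nat_lit 11) (nat_lit 5) (nat_lit 10) (nat_lit 4) (nat_lit 343) (nat_lit 283) (nat_lit 274)) (XT.lf (nat_lit 0) (nat_lit 8376199040) (nat_lit 152) (nat_lit 19976461550) (nat_lit 0) (nat_lit 5178904303) (nat_lit 8) (nat_lit 5) (nat_lit 10) (nat_lit 4) (nat_lit 8) (nat_lit 4) (nat_lit 344) (nat_lit 283) (nat_lit 273)))) (XT.nd (nat_lit 78) (nat_lit 76) (nat_lit 0) (XT.lf (nat_lit 0) (nat_lit 15787185134) (nat_lit 152) (nat_lit 7679022294) (nat_lit 0) (nat_lit 12385531489) (nat_lit 8) (nat_lit 5) (nat_lit 10) (nat_lit 4) (nat_lit 8) (nat_lit 4) (nat_lit 345) (nat_lit 283) (nat_lit 272)) (XT.nd (nat_lit 78) (nat_lit 0) (nat_lit 0) (XT.lf (nat_lit 0) (nat_lit 5286105816) (nat_lit 76) (nat_lit 18335412136) (nat_lit 76) (nat_lit 14744537280) (nat_lit 7) (nat_lit 4) (nat_lit 8) (nat_lit 5) (nat_lit 8) (nat_lit 4)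 (nat_lit 346) (nat_lit 283) (nat_lit 271)) (XT.lf (nat_lit 0) (nat_lit 19098455216) (nat_lit 76) (nat_lit 12877266514) (nat_lit 76) (nat_lit 9111186833) (nat_lit 7) (nat_lit 4) (nat_lit 8) (nat_lit 5) (nat_lit 8) (nat_lit 4) (nat_lit 347) (nat_lit 283) (nat_lit 270))))))))
noncomputable def xc19 : XT := (XT.nd (nat_lit 1716) (nat_lit 0) (nat_lit 0) (XT.nd (nat_lit 858) (nat_lit 152) (nat_lit 0) (XT.nd (nat_lit 390) (nat_lit 76) (nat_lit 0) (XT.nd (nat_lit 156) (nat_lit 0) (nat_lit 0) (XT.nd (nat_lit 78) (nat_lit 152) (nat_lit 0) (XT.lf (nat_lit 0) (nat_lit 33585973709) (nat_lit 76) (nat_lit 7189473954) (nat_lit 76) (nat_lit 3261167582) (nat_lit 7) (nat_lit 4) (nat_lit 8) (nat_lit 5) (nat_lit 8) (nat_lit 4) (nat_lit 348) (nat_lit 283) (nat_lit 269)) (XT.lf (nat_lit 0) (nat_lit 1609013428) (nat_lit 76) (nat_lit 1165391302) (nat_lit 152) (nat_lit 44454777068) (nat_lit 5) (nat_lit 5) (nat_lit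 6) (nat_lit 5) (nat_lit 7) (nat_lit 4) (nat_lit 349) (nat_lit 283) (nat_lit 268))) (XT.nd (nat_lit 78) (nat_lit 0) (nat_lit 0) (XT.lf (nat_lit 0) (nat_lit 9245339959) (nat_lit 152) (nat_lit 36197259712) (nat_lit 0) (nat_lit 5228578522) (nat_lit 5) (nat_lit 5) (nat_lit 7) (nat_lit 4) (nat_lit 5) (nat_lit 4) (nat_lit 350) (nat_lit 283) (nat_lit 267)) (XT.nd (nat_lit 78) (nat_lit 0) (nat_lit 0) (XT.lf (nat_lit 0) (nat_lit 16065485180) (nat_lit 152) (nat_lit 26405430527) (nat_lit 0) (nat_lit 11926075384) (nat_lit 5) (nat_lit 5) (nat_lit 7) (nat_lit 4) (nat_lit 5) (nat_lit 4) (nat_lit 351) (nat_lit 283) (nat_lit 266)) (XT.lf (nat_lit 0) (nat_lit 23257061045) (nat_lit 152) (nat_lit 16168460137) (nat_lit 0) (nat_lit 19004087953) (nat_lit 5) (nat_lit 5) (nat_lit 7) (nat_lit 4) (nat_lit 5) (nat_lit 4) (nat_lit 352) (nat_lit 283) (nat_lit 265))))) (XT.nd (nat_lit 234) (nat_lit 0) (nat_lit 0) (XT.nd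 (nat_lit 78) (nat_lit 76) (nat_lit 0) (XT.lf (nat_lit 0) (nat_lit 30862684298) (nat_lit 152) (nat_lit 5425685014) (nat_lit 0) (nat_lit 26504560008) (nat_lit 5) (nat_lit 5) (nat_lit 7) (nat_lit 4) (nat_lit 5) (nat_lit 4) (nat_lit 353) (nat_lit 283) (nat_lit 264)) (XT.nd (nat_lit 78) (nat_lit 0) (nat_lit 0) (XT.lf (nat_lit 0) (nat_lit 6081191847) (nat_lit 76) (nat_lit 32941177902) (nat_lit 76) (nat_lit 28485691389) (nat_lit 4) (nat_lit 4) (nat_lit 5) (nat_lit 5) (nat_lit 5) (nat_lit 4) (nat_lit 354) (nat_lit 283) (nat_lit 263)) (XT.lf (nat_lit 0) (nat_lit 18425013084) (nat_lit 76) (nat_lit 29361728118) (nat_lit 76) (nat_lit 24816091400) (nat_lit 4) (nat_lit 4) (nat_lit 5) (nat_lit 5) (nat_lit 5) (nat_lit 4) (nat_lit 355) (nat_lit 283) (nat_lit 262)))) (XT.nd (nat_lit 78) (nat_lit 0) (nat_lit 0) (XT.lf (nat_lit 0) (nat_lit 31499529617) (nat_lit 76) (nat_lit 25620695009) (nat_lit 76) (nat_lit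 20991585879) (nat_lit 4) (nat_lit 4) (nat_lit 5) (nat_lit 5) (nat_lit 5) (nat_lit 4) (nat_lit 356) (nat_lit 283) (nat_lit 261)) (XT.nd (nat_lit 78) (nat_lit 0) (nat_lit 0) (XT.lf (nat_lit 0) (nat_lit 45382220062) (nat_lit 76) (nat_lit 21695909491) (nat_lit 76) (nat_lit 16989511090) (nat_lit 4) (nat_lit 4) (nat_lit 5) (nat_lit 5) (nat_lit 5) (nat_lit 4) (nat_lit 357) (nat_lit 283) (nat_lit 260)) (XT.lf (nat_lit 0) (nat_lit 60155352213) (nat_lit 76) (nat_lit 17564113574) (nat_lit 76) (nat_lit 12786151033) (nat_lit 4) (nat_lit 4) (nat_lit 5) (nat_lit 5) (nat_lit 5) (nat_lit 4) (nat_lit 358) (nat_lit 283) (nat_lit 259)))))) (XT.nd (nat_lit 390) (nat_lit 0) (nat_lit 0) (XT.nd (nat_lit 156) (nat_lit 152) (nat_lit 0) (XT.nd (nat_lit 78) (nat_lit 0) (nat_lit 0) (XT.lf (nat_lit 0) (nat_lit 75906470559) (nat_lit 76) (nat_lit 13200822542) (nat_lit 76) (nat_lit 8356596909) (nat_lit 4) (nat_lit 4) (nat_lit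 5) (nat_lit 5) (nat_lit 5) (nat_lit 4) (nat_lit 359) (nat_lit 283) (nat_lit 258)) (XT.lf (nat_lit 0) (nat_lit 92728915059) (nat_lit 76) (nat_lit 8580179855) (nat_lit 76) (nat_lit 3674599508) (nat_lit 4) (nat_lit 4) (nat_lit 5) (nat_lit 5) (nat_lit 5) (nat_lit 4) (nat_lit 360) (nat_lit 283) (nat_lit 257))) (XT.nd (nat_lit 78) (nat_lit 76) (nat_lit 0) (XT.lf (nat_lit 0) (nat_lit 1246375535) (nat_lit 152) (nat_lit 2407320420) (nat_lit 76) (nat_lit 109454890765) (nat_lit 3) (nat_lit 5) (nat_lit 5) (nat_lit 5) (nat_lit 4) (nat_lit 4) (nat_lit 361) (nat_lit 283) (nat_lit 256)) (XT.nd (nat_lit 78) (nat_lit 0) (nat_lit 0) (XT.lf (nat_lit 0) (nat_lit 6506385708) (nat_lit 152) (nat_lit 113640178765) (nat_lit 0) (nat_lit 1730202806) (nat_lit 2) (nat_lit 5) (nat_lit 4) (nat_lit 4) (nat_lit 2) (nat_lit 4) (nat_lit 362) (nat_lit 283) (nat_lit 255)) (XT.lf (nat_lit 0) (nat_lit 12209450909) (nat_lit 152)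 (nat_lit 111748969394) (nat_lit 0) (nat_lit 7386881959) (nat_lit 2) (nat_lit 5) (nat_lit 4) (nat_lit 4) (nat_lit 2) (nat_lit 4) (nat_lit 363) (nat_lit 283) (nat_lit 254))))) (XT.nd (nat_lit 234) (nat_lit 0) (nat_lit 0) (XT.nd (nat_lit 78) (nat_lit 0) (nat_lit 0) (XT.lf (nat_lit 0) (nat_lit 18292858377) (nat_lit 152) (nat_lit 109854929181) (nat_lit 0) (nat_lit 13427339381) (nat_lit 2) (nat_lit 5) (nat_lit 4) (nat_lit 4) (nat_lit 2) (nat_lit 4) (nat_lit 364) (nat_lit 283) (nat_lit 253)) (XT.nd (nat_lit 78) (nat_lit 0) (nat_lit 0) (XT.lf (nat_lit 0) (nat_lit 24792657933) (nat_lit 152) (nat_lit 107946834184) (nat_lit 0) (nat_lit 19887370378) (nat_lit 2) (nat_lit 5) (nat_lit 4) (nat_lit 4) (nat_lit 2) (nat_lit 4) (nat_lit 365) (nat_lit 283) (nat_lit 252)) (XT.lf (nat_lit 0) (nat_lit 31747366910) (nat_lit 152) (nat_lit 106013377172) (nat_lit 0) (nat_lit 26805256614) (nat_lit 2) (nat_lit 5) (nat_lit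 4) (nat_lit 4) (nat_lit 2) (nat_lit 4) (nat_lit 366) (nat_lit 283) (nat_lit 251)))) (XT.nd (nat_lit 78) (nat_lit 0) (nat_lit 0) (XT.lf (nat_lit 0) (nat_lit 39198198396) (nat_lit 152) (nat_lit 104043100624) (nat_lit 0) (nat_lit 34221992969) (nat_lit 2) (nat_lit 5) (nat_lit 4) (nat_lit 4) (nat_lit 2) (nat_lit 4) (nat_lit 367) (nat_lit 283) (nat_lit 250)) (XT.nd (nat_lit 78) (nat_lit 0) (nat_lit 0) (XT.lf (nat_lit 0) (nat_lit 47189305467) (nat_lit 152) (nat_lit 102024328825) (nat_lit 0) (nat_lit 42181530476) (nat_lit 2) (nat_lit 5) (nat_lit 4) (nat_lit 4) (nat_lit 2) (nat_lit 4) (nat_lit 368) (nat_lit 283) (nat_lit 249)) (XT.lf (nat_lit 0) (nat_lit 55768042833) (nat_lit 152) (nat_lit 99945098685) (nat_lit 0) (nat_lit 50731036762) (nat_lit 2) (nat_lit 5) (nat_lit 4) (nat_lit 4) (nat_lit 2) (nat_lit 4) (nat_lit 369) (nat_lit 283) (nat_lit 248))))))) (XT.nd (nat_lit 858) (nat_lit 0) (nat_lit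 0) (XT.nd (nat_lit 390) (nat_lit 0) (nat_lit 0) (XT.nd (nat_lit 156) (nat_lit 0) (nat_lit 0) (XT.nd (nat_lit 78) (nat_lit 0) (nat_lit 0) (XT.lf (nat_lit 0) (nat_lit 64985247454) (nat_lit 152) (nat_lit 97793088839) (nat_lit 0) (nat_lit 59921175570) (nat_lit 2) (nat_lit 5) (nat_lit 4) (nat_lit 4) (nat_lit 2) (nat_lit 4) (nat_lit 370) (nat_lit 283) (nat_lit 247)) (XT.lf (nat_lit 0) (nat_lit 74895539804) (nat_lit 152) (nat_lit 95555546636) (nat_lit 0) (nat_lit 69806406981) (nat_lit 2) (nat_lit 5) (nat_lit 4) (nat_lit 4) (nat_lit 2) (nat_lit 4) (nat_lit 371) (nat_lit 283) (nat_lit 246))) (XT.nd (nat_lit 78) (nat_lit 0) (nat_lit 0) (XT.lf (nat_lit 0) (nat_lit 85557647539) (nat_lit 152) (nat_lit 93219212566) (nat_lit 0) (nat_lit 80445310144) (nat_lit 2) (nat_lit 5) (nat_lit 4) (nat_lit 4) (nat_lit 2) (nat_lit 4) (nat_lit 372) (nat_lit 283) (nat_lit 245)) (XT.nd (nat_lit 78) (nat_lit 0) (nat_lit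 0) (XT.lf (nat_lit 0) (nat_lit 97034753522) (nat_lit 152) (nat_lit 90770241689) (nat_lit 0) (nat_lit 91900930411) (nat_lit 2) (nat_lit 5) (nat_lit 4) (nat_lit 4) (nat_lit 2) (nat_lit 4) (nat_lit 373) (nat_lit 283) (nat_lit 244)) (XT.lf (nat_lit 0) (nat_lit 109394870231) (nat_lit 152) (nat_lit 88194121582) (nat_lit 0) (nat_lit 104241152939) (nat_lit 2) (nat_lit 5) (nat_lit 4) (nat_lit 4) (nat_lit 2) (nat_lit 4) (nat_lit 374) (nat_lit 283) (nat_lit 243))))) (XT.nd (nat_lit 234) (nat_lit 0) (nat_lit 0) (XT.nd (nat_lit 78) (nat_lit 0) (nat_lit 0) (XT.lf (nat_lit 0) (nat_lit 122711242804) (nat_lit 152) (nat_lit 85475586350) (nat_lit 0) (nat_lit 117539104974) (nat_lit 2) (nat_lit 5) (nat_lit 4) (nat_lit 4) (nat_lit 2) (nat_lit 4) (nat_lit 375) (nat_lit 283) (nat_lit 242)) (XT.nd (nat_lit 78) (nat_lit 0) (nat_lit 0) (XT.lf (nat_lit 0) (nat_lit 137062783077) (nat_lit 152) (nat_lit 82598526153)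 (nat_lit 0) (nat_lit 131873589193) (nat_lit 2) (nat_lit 5) (nat_lit 4) (nat_lit 4) (nat_lit 2) (nat_lit 4) (nat_lit 376) (nat_lit 283) (nat_lit 241)) (XT.lf (nat_lit 0) (nat_lit 152534537214) (nat_lit 152) (nat_lit 79545891747) (nat_lit 0) (nat_lit 147329550688) (nat_lit 2) (nat_lit 5) (nat_lit 4) (nat_lit 4) (nat_lit 2) (nat_lit 4) (nat_lit 377) (nat_lit 283) (nat_lit 240)))) (XT.nd (nat_lit 78) (nat_lit 0) (nat_lit 0) (XT.lf (nat_lit 0) (nat_lit 169218189686) (nat_lit 152) (nat_lit 76299593446) (nat_lit 0) (nat_lit 163998580342) (nat_lit 2) (nat_lit 5) (nat_lit 4) (nat_lit 4) (nat_lit 2) (nat_lit 4) (nat_lit 378) (nat_lit 283) (nat_lit 239)) (XT.nd (nat_lit 78) (nat_lit 0) (nat_lit 0) (XT.lf (nat_lit 0) (nat_lit 187212606580) (nat_lit 152) (nat_lit 72840393926) (nat_lit 0) (nat_lit 181979457591) (nat_lit 2) (nat_lit 5) (nat_lit 4) (nat_lit 4) (nat_lit 2) (nat_lit 4) (nat_lit 379) (nat_lit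 283) (nat_lit 238)) (XT.lf (nat_lit 0) (nat_lit 206624421478) (nat_lit 152) (nat_lit 69147794228) (nat_lit 0) (nat_lit 201378735781) (nat_lit 2) (nat_lit 5) (nat_lit 4) (nat_lit 4) (nat_lit 2) (nat_lit 4) (nat_lit 380) (nat_lit 283) (nat_lit 237)))))) (XT.nd (nat_lit 468) (nat_lit 0) (nat_lit 0) (XT.nd (nat_lit 234) (nat_lit 0) (nat_lit 0) (XT.nd (nat_lit 78) (nat_lit 0) (nat_lit 0) (XT.lf (nat_lit 0) (nat_lit 227568667358) (nat_lit 152) (nat_lit 65199912279) (nat_lit 0) (nat_lit 222311373597) (nat_lit 2) (nat_lit 5) (nat_lit 4) (nat_lit 4) (nat_lit 2) (nat_lit 4) (nat_lit 381) (nat_lit 283) (nat_lit 236)) (XT.nd (nat_lit 78) (nat_lit 0) (nat_lit 0) (XT.lf (nat_lit 0) (nat_lit 250169458269) (nat_lit 152) (nat_lit 60973353223) (nat_lit 0) (nat_lit 244901416301) (nat_lit 2) (nat_lit 5) (nat_lit 4) (nat_lit 4) (nat_lit 2) (nat_lit 4) (nat_lit 382) (nat_lit 283) (nat_lit 235)) (XT.lf (nat_lit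 0) (nat_lit 274560724824) (nat_lit 152) (nat_lit 56443070785) (nat_lit 0) (nat_lit 269282730812) (nat_lit 2) (nat_lit 5) (nat_lit 4) (nat_lit 4) (nat_lit 2) (nat_lit 4) (nat_lit 383) (nat_lit 283) (nat_lit 234)))) (XT.nd (nat_lit 78) (nat_lit 0) (nat_lit 0) (XT.lf (nat_lit 0) (nat_lit 300887007861) (nat_lit 152) (nat_lit 51582218846) (nat_lit 0) (nat_lit 295599798994) (nat_lit 2) (nat_lit 5) (nat_lit 4) (nat_lit 4) (nat_lit 2) (nat_lit 4) (nat_lit 384) (nat_lit 283) (nat_lit 233)) (XT.nd (nat_lit 78) (nat_lit 0) (nat_lit 0) (XT.lf (nat_lit 0) (nat_lit 329304314984) (nat_lit 152) (nat_lit 46361992358) (nat_lit 0) (nat_lit 324008573845) (nat_lit 2) (nat_lit 5) (nat_lit 4) (nat_lit 4) (nat_lit 2) (nat_lit 4) (nat_lit 385) (nat_lit 283) (nat_lit 232)) (XT.lf (nat_lit 0) (nat_lit 359981045051) (nat_lit 152) (nat_lit 40751456645) (nat_lit 0) (nat_lit 354677403658) (nat_lit 2) (nat_lit 5) (nat_lit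 4) (nat_lit 4) (nat_lit 2) (nat_lit 4) (nat_lit 386) (nat_lit 283) (nat_lit 231))))) (XT.nd (nat_lit 234) (nat_lit 0) (nat_lit 0) (XT.nd (nat_lit 78) (nat_lit 0) (nat_lit 0) (XT.lf (nat_lit 0) (nat_lit 393098986090) (nat_lit 152) (nat_lit 34717364088) (nat_lit 0) (nat_lit 387788029648) (nat_lit 2) (nat_lit 5) (nat_lit 4) (nat_lit 4) (nat_lit 2) (nat_lit 4) (nat_lit 387) (nat_lit 283) (nat_lit 230)) (XT.nd (nat_lit 78) (nat_lit 0) (nat_lit 0) (XT.lf (nat_lit 0) (nat_lit 428854392567) (nat_lit 152) (nat_lit 28223957101) (nat_lit 0) (nat_lit 423536662932) (nat_lit 2) (nat_lit 5) (nat_lit 4) (nat_lit 4) (nat_lit 2) (nat_lit 4) (nat_lit 388) (nat_lit 283) (nat_lit 229)) (XT.lf (nat_lit 0) (nat_lit 467459148373) (nat_lit 152) (nat_lit 21232756237) (nat_lit 0) (nat_lit 462135147262) (nat_lit 2) (nat_lit 5) (nat_lit 4) (nat_lit 4) (nat_lit 2) (nat_lit 4) (nat_lit 389) (nat_lit 283) (nat_lit 228))))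 (XT.nd (nat_lit 78) (nat_lit 0) (nat_lit 0) (XT.lf (nat_lit 0) (nat_lit 509142022431) (nat_lit 152) (nat_lit 13702332156) (nat_lit 0) (nat_lit 503812214398) (nat_lit 2) (nat_lit 5) (nat_lit 4) (nat_lit 4) (nat_lit 2) (nat_lit 4) (nat_lit 390) (nat_lit 283) (nat_lit 227)) (XT.nd (nat_lit 42276) (nat_lit 0) (nat_lit 1368) (XT.lf (nat_lit 0) (nat_lit 554150024365) (nat_lit 152) (nat_lit 5588060122) (nat_lit 0) (nat_lit 548814839553) (nat_lit 2) (nat_lit 5) (nat_lit 4) (nat_lit 4) (nat_lit 2) (nat_lit 4) (nat_lit 391) (nat_lit 283) (nat_lit 226)) (XT.lf (nat_lit 0) (nat_lit 2431149870) (nat_lit 152) (nat_lit 3342961944) (nat_lit 0) (nat_lit 2431149870) (nat_lit 20) (nat_lit 5) (nat_lit 22) (nat_lit 4) (nat_lit 20) (nat_lit 4) (nat_lit 332) (nat_lit 284) (nat_lit 284))))))))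
noncomputable def xc20 : XT := (XT.nd (nat_lit 1716) (nat_lit 228) (nat_lit 0) (XT.nd (nat_lit 858) (nat_lit 380) (nat_lit 0) (XT.nd (nat_lit 390) (nat_lit 304) (nat_lit 0) (XT.nd (nat_lit 156) (nat_lit 228) (nat_lit 0) (XT.nd (nat_lit 78) (nat_lit 152) (nat_lit 0) (XT.lf (nat_lit 0) (nat_lit 8474634686) (nat_lit 76) (nat_lit 4698759362) (nat_lit 76) (nat_lit 4119581331) (nat_lit 19) (nat_lit 4) (nat_lit 20) (nat_lit 5) (nat_lit 20) (nat_lit 4) (nat_lit 333) (nat_lit 284) (nat_lit 283)) (XT.lf (nat_lit 0) (nat_lit 3604949780) (nat_lit 152) (nat_lit 12104227268) (nat_lit 0) (nat_lit 2542612650) (nat_lit 17) (nat_lit 5) (nat_lit 19) (nat_lit 4) (nat_lit 17) (nat_lit 4) (nat_lit 334) (nat_lit 284) (nat_lit 282))) (XT.nd (nat_lit 78) (nat_lit 152) (nat_lit 0) (XT.lf (nat_lit 0) (nat_lit 2502856027) (nat_lit 76) (nat_lit 9161688913) (nat_lit 76) (nat_lit 7626445297) (nat_lit 16) (nat_lit 4)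 (nat_lit 17) (nat_lit 5) (nat_lit 17) (nat_lit 4) (nat_lit 335) (nat_lit 284) (nat_lit 281)) (XT.nd (nat_lit 78) (nat_lit 152) (nat_lit 0) (XT.lf (nat_lit 0) (nat_lit 17972247629) (nat_lit 76) (nat_lit 2211781448) (nat_lit 76) (nat_lit 238661456) (nat_lit 16) (nat_lit 4) (nat_lit 17) (nat_lit 5) (nat_lit 17) (nat_lit 4) (nat_lit 336) (nat_lit 284) (nat_lit 280)) (XT.lf (nat_lit 0) (nat_lit 7399749999) (nat_lit 152) (nat_lit 9109419588) (nat_lit 0) (nat_lit 5134453732) (nat_lit 14) (nat_lit 5) (nat_lit 16) (nat_lit 4) (nat_lit 14) (nat_lit 4) (nat_lit 337) (nat_lit 284) (nat_lit 279))))) (XT.nd (nat_lit 234) (nat_lit 76) (nat_lit 0) (XT.nd (nat_lit 78) (nat_lit 152) (nat_lit 0) (XT.lf (nat_lit 0) (nat_lit 5293461403) (nat_lit 76) (nat_lit 10150668373) (nat_lit 76) (nat_lit 7527840282) (nat_lit 13) (nat_lit 4) (nat_lit 14) (nat_lit 5) (nat_lit 14) (nat_lit 4) (nat_lit 338) (nat_lit 284) (nat_lit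 278)) (XT.nd (nat_lit 78) (nat_lit 152) (nat_lit 0) (XT.lf (nat_lit 0) (nat_lit 20524400811) (nat_lit 76) (nat_lit 3422699178) (nat_lit 76) (nat_lit 468823101) (nat_lit 13) (nat_lit 4) (nat_lit 14) (nat_lit 5) (nat_lit 14) (nat_lit 4) (nat_lit 339) (nat_lit 284) (nat_lit 277)) (XT.lf (nat_lit 0) (nat_lit 6828199139) (nat_lit 152) (nat_lit 15423519001) (nat_lit 0) (nat_lit 3723054387) (nat_lit 11) (nat_lit 5) (nat_lit 13) (nat_lit 4) (nat_lit 11) (nat_lit 4) (nat_lit 340) (nat_lit 284) (nat_lit 276)))) (XT.nd (nat_lit 78) (nat_lit 76) (nat_lit 0) (XT.lf (nat_lit 0) (nat_lit 14506404075) (nat_lit 152) (nat_lit 2029968910) (nat_lit 0) (nat_lit 11130954285) (nat_lit 11) (nat_lit 5) (nat_lit 13) (nat_lit 4) (nat_lit 11) (nat_lit 4) (nat_lit 341) (nat_lit 284) (nat_lit 275)) (XT.nd (nat_lit 78) (nat_lit 0) (nat_lit 0) (XT.lf (nat_lit 0) (nat_lit 12275441785) (nat_lit 76) (nat_lit 10425276334)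 (nat_lit 76) (nat_lit 6799544102) (nat_lit 10) (nat_lit 4) (nat_lit 11) (nat_lit 5) (nat_lit 11) (nat_lit 4) (nat_lit 342) (nat_lit 284) (nat_lit 274)) (XT.lf (nat_lit 0) (nat_lit 27269272265) (nat_lit 76) (nat_lit 4040079796) (nat_lit 76) (nat_lit 182604562) (nat_lit 10) (nat_lit 4) (nat_lit 11) (nat_lit 5) (nat_lit 11) (nat_lit 4) (nat_lit 343) (nat_lit 284) (nat_lit 273)))))) (XT.nd (nat_lit 390) (nat_lit 152) (nat_lit 0) (XT.nd (nat_lit 156) (nat_lit 76) (nat_lit 0) (XT.nd (nat_lit 78) (nat_lit 0) (nat_lit 0) (XT.lf (nat_lit 0) (nat_lit 6674146960) (nat_lit 152) (nat_lit 24170790349) (nat_lit 0) (nat_lit 2796002115) (nat_lit 8) (nat_lit 5) (nat_lit 10) (nat_lit 4) (nat_lit 8) (nat_lit 4) (nat_lit 344) (nat_lit 284) (nat_lit 272)) (XT.lf (nat_lit 0) (nat_lit 13963948876) (nat_lit 152) (nat_lit 12106665845) (nat_lit 0) (nat_lit 9896582820) (nat_lit 8) (nat_lit 5) (nat_lit 10) (nat_lit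 4) (nat_lit 8) (nat_lit 4) (nat_lit 345) (nat_lit 284) (nat_lit 271))) (XT.nd (nat_lit 78) (nat_lit 0) (nat_lit 0) (XT.lf (nat_lit 0) (nat_lit 488889196) (nat_lit 76) (nat_lit 21122286931) (nat_lit 76) (nat_lit 16879716050) (nat_lit 7) (nat_lit 4) (nat_lit 8) (nat_lit 5) (nat_lit 8) (nat_lit 4) (nat_lit 346) (nat_lit 284) (nat_lit 270)) (XT.nd (nat_lit 78) (nat_lit 0) (nat_lit 0) (XT.lf (nat_lit 0) (nat_lit 14094594914) (nat_lit 76) (nat_lit 15763662805) (nat_lit 76) (nat_lit 11358865234) (nat_lit 7) (nat_lit 4) (nat_lit 8) (nat_lit 5) (nat_lit 8) (nat_lit 4) (nat_lit 347) (nat_lit 284) (nat_lit 269)) (XT.lf (nat_lit 0) (nat_lit 28390776665) (nat_lit 76) (nat_lit 10168019778) (nat_lit 76) (nat_lit 5613012308) (nat_lit 7) (nat_lit 4) (nat_lit 8) (nat_lit 5) (nat_lit 8) (nat_lit 4) (nat_lit 348) (nat_lit 284) (nat_lit 268))))) (XT.nd (nat_lit 234) (nat_lit 0) (nat_lit 0) (XT.nd (nat_lit 78)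 (nat_lit 76) (nat_lit 0) (XT.lf (nat_lit 0) (nat_lit 379349225) (nat_lit 152) (nat_lit 3916424795) (nat_lit 76) (nat_lit 43076378872) (nat_lit 6) (nat_lit 5) (nat_lit 8) (nat_lit 5) (nat_lit 7) (nat_lit 4) (nat_lit 349) (nat_lit 284) (nat_lit 267)) (XT.nd (nat_lit 78) (nat_lit 0) (nat_lit 0) (XT.lf (nat_lit 0) (nat_lit 6646766601) (nat_lit 152) (nat_lit 42124019048) (nat_lit 0) (nat_lit 2053555662) (nat_lit 5) (nat_lit 5) (nat_lit 7) (nat_lit 4) (nat_lit 5) (nat_lit 4) (nat_lit 350) (nat_lit 284) (nat_lit 266)) (XT.lf (nat_lit 0) (nat_lit 13383170969) (nat_lit 152) (nat_lit 32494788483) (nat_lit 0) (nat_lit 8676396735) (nat_lit 5) (nat_lit 5) (nat_lit 7) (nat_lit 4) (nat_lit 5) (nat_lit 4) (nat_lit 351) (nat_lit 284) (nat_lit 265)))) (XT.nd (nat_lit 78) (nat_lit 0) (nat_lit 0) (XT.lf (nat_lit 0) (nat_lit 20497209006) (nat_lit 152) (nat_lit 22408372371) (nat_lit 0) (nat_lit 15685283573)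 (nat_lit 5) (nat_lit 5) (nat_lit 7) (nat_lit 4) (nat_lit 5) (nat_lit 4) (nat_lit 352) (nat_lit 284) (nat_lit 264)) (XT.nd (nat_lit 78) (nat_lit 0) (nat_lit 0) (XT.lf (nat_lit 0) (nat_lit 28031037976) (nat_lit 152) (nat_lit 11804999358) (nat_lit 0) (nat_lit 23121750321) (nat_lit 5) (nat_lit 5) (nat_lit 7) (nat_lit 4) (nat_lit 5) (nat_lit 4) (nat_lit 353) (nat_lit 284) (nat_lit 263)) (XT.lf (nat_lit 0) (nat_lit 36029302791) (nat_lit 152) (nat_lit 621834639) (nat_lit 0) (nat_lit 31029864930) (nat_lit 5) (nat_lit 5) (nat_lit 7) (nat_lit 4) (nat_lit 5) (nat_lit 4) (nat_lit 354) (nat_lit 284) (nat_lit 262))))))) (XT.nd (nat_lit 858) (nat_lit 0) (nat_lit 0) (XT.nd (nat_lit 390) (nat_lit 152) (nat_lit 0) (XT.nd (nat_lit 156) (nat_lit 0) (nat_lit 0) (XT.nd (nat_lit 78) (nat_lit 0) (nat_lit 0) (XT.lf (nat_lit 0) (nat_lit 11577959395) (nat_lit 76) (nat_lit 33142205572) (nat_lit 76) (nat_lit 28059295299)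 (nat_lit 4) (nat_lit 4) (nat_lit 5) (nat_lit 5) (nat_lit 5) (nat_lit 4) (nat_lit 355) (nat_lit 284) (nat_lit 261)) (XT.lf (nat_lit 0) (nat_lit 24538155058) (nat_lit 76) (nat_lit 29456715847) (nat_lit 76) (nat_lit 24296516304) (nat_lit 4) (nat_lit 4) (nat_lit 5) (nat_lit 5) (nat_lit 5) (nat_lit 4) (nat_lit 356) (nat_lit 284) (nat_lit 260))) (XT.nd (nat_lit 78) (nat_lit 0) (nat_lit 0) (XT.lf (nat_lit 0) (nat_lit 38314992844) (nat_lit 76) (nat_lit 25583359388) (nat_lit 76) (nat_lit 20351595705) (nat_lit 4) (nat_lit 4) (nat_lit 5) (nat_lit 5) (nat_lit 5) (nat_lit 4) (nat_lit 357) (nat_lit 284) (nat_lit 259)) (XT.nd (nat_lit 78) (nat_lit 0) (nat_lit 0) (XT.lf (nat_lit 0) (nat_lit 52990113276) (nat_lit 76) (nat_lit 21499182970) (nat_lit 76) (nat_lit 16201156195) (nat_lit 4) (nat_lit 4) (nat_lit 5) (nat_lit 5) (nat_lit 5) (nat_lit 4) (nat_lit 358) (nat_lit 284) (nat_lit 258)) (XT.lf (nat_lit 0)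 (nat_lit 68650480028) (nat_lit 76) (nat_lit 17179984067) (nat_lit 76) (nat_lit 11820602577) (nat_lit 4) (nat_lit 4) (nat_lit 5) (nat_lit 5) (nat_lit 5) (nat_lit 4) (nat_lit 359) (nat_lit 284) (nat_lit 257))))) (XT.nd (nat_lit 234) (nat_lit 0) (nat_lit 0) (XT.nd (nat_lit 78) (nat_lit 152) (nat_lit 0) (XT.lf (nat_lit 0) (nat_lit 85388895276) (nat_lit 76) (nat_lit 12600167426) (nat_lit 76) (nat_lit 7183976015) (nat_lit 4) (nat_lit 4) (nat_lit 5) (nat_lit 5) (nat_lit 5) (nat_lit 4) (nat_lit 360) (nat_lit 284) (nat_lit 256)) (XT.nd (nat_lit 78) (nat_lit 152) (nat_lit 0) (XT.lf (nat_lit 0) (nat_lit 103304549627) (nat_lit 76) (nat_lit 7732593393) (nat_lit 76) (nat_lit 2263800203) (nat_lit 4) (nat_lit 4) (nat_lit 5) (nat_lit 5) (nat_lit 5) (nat_lit 4) (nat_lit 361) (nat_lit 284) (nat_lit 255)) (XT.lf (nat_lit 0) (nat_lit 386685024) (nat_lit 76) (nat_lit 2493404519) (nat_lit 152) (nat_lit 119200236361)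 (nat_lit 2) (nat_lit 5) (nat_lit 3) (nat_lit 5) (nat_lit 4) (nat_lit 4) (nat_lit 362) (nat_lit 284) (nat_lit 254)))) (XT.nd (nat_lit 78) (nat_lit 0) (nat_lit 0) (XT.lf (nat_lit 0) (nat_lit 8507733910) (nat_lit 152) (nat_lit 119834880317) (nat_lit 0) (nat_lit 3210023350) (nat_lit 2) (nat_lit 5) (nat_lit 4) (nat_lit 4) (nat_lit 2) (nat_lit 4) (nat_lit 363) (nat_lit 284) (nat_lit 253)) (XT.nd (nat_lit 78) (nat_lit 0) (nat_lit 0) (XT.lf (nat_lit 0) (nat_lit 14557352671) (nat_lit 152) (nat_lit 118006930697) (nat_lit 0) (nat_lit 9219873551) (nat_lit 2) (nat_lit 5) (nat_lit 4) (nat_lit 4) (nat_lit 2) (nat_lit 4) (nat_lit 364) (nat_lit 284) (nat_lit 252)) (XT.lf (nat_lit 0) (nat_lit 21025866389) (nat_lit 152) (nat_lit 116160030692) (nat_lit 0) (nat_lit 15651564528) (nat_lit 2) (nat_lit 5) (nat_lit 4) (nat_lit 4) (nat_lit 2) (nat_lit 4) (nat_lit 365) (nat_lit 284) (nat_lit 251)))))) (XT.nd (nat_lit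 390) (nat_lit 0) (nat_lit 0) (XT.nd (nat_lit 156) (nat_lit 0) (nat_lit 0) (XT.nd (nat_lit 78) (nat_lit 0) (nat_lit 0) (XT.lf (nat_lit 0) (nat_lit 27951606996) (nat_lit 152) (nat_lit 114283235712) (nat_lit 0) (nat_lit 22543210005) (nat_lit 2) (nat_lit 5) (nat_lit 4) (nat_lit 4) (nat_lit 2) (nat_lit 4) (nat_lit 366) (nat_lit 284) (nat_lit 250)) (XT.lf (nat_lit 0) (nat_lit 35375615918) (nat_lit 152) (nat_lit 112365424006) (nat_lit 0) (nat_lit 29935649362) (nat_lit 2) (nat_lit 5) (nat_lit 4) (nat_lit 4) (nat_lit 2) (nat_lit 4) (nat_lit 367) (nat_lit 284) (nat_lit 249))) (XT.nd (nat_lit 78) (nat_lit 0) (nat_lit 0) (XT.lf (nat_lit 0) (nat_lit 43341887282) (nat_lit 152) (nat_lit 110395230767) (nat_lit 0) (nat_lit 37872689647) (nat_lit 2) (nat_lit 5) (nat_lit 4) (nat_lit 4) (nat_lit 2) (nat_lit 4) (nat_lit 368) (nat_lit 284) (nat_lit 248)) (XT.nd (nat_lit 78) (nat_lit 0) (nat_lit 0) (XT.lf (nat_lit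 0) (nat_lit 51897628622) (nat_lit 152) (nat_lit 108360980773) (nat_lit 0) (nat_lit 46401365173) (nat_lit 2) (nat_lit 5) (nat_lit 4) (nat_lit 4) (nat_lit 2) (nat_lit 4) (nat_lit 369) (nat_lit 284) (nat_lit 247)) (XT.lf (nat_lit 0) (nat_lit 61093540627) (nat_lit 152) (nat_lit 106250619211) (nat_lit 0) (nat_lit 55572216240) (nat_lit 2) (nat_lit 5) (nat_lit 4) (nat_lit 4) (nat_lit 2) (nat_lit 4) (nat_lit 370) (nat_lit 284) (nat_lit 246))))) (XT.nd (nat_lit 234) (nat_lit 0) (nat_lit 0) (XT.nd (nat_lit 78) (nat_lit 0) (nat_lit 0) (XT.lf (nat_lit 0) (nat_lit 70984117591) (nat_lit 152) (nat_lit 104051640234) (nat_lit 0) (nat_lit 65439588631) (nat_lit 2) (nat_lit 5) (nat_lit 4) (nat_lit 4) (nat_lit 2) (nat_lit 4) (nat_lit 371) (nat_lit 284) (nat_lit 245)) (XT.nd (nat_lit 78) (nat_lit 0) (nat_lit 0) (XT.lf (nat_lit 0) (nat_lit 81627970340) (nat_lit 152) (nat_lit 101751012855) (nat_lit 0) (nat_lit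 76061955664) (nat_lit 2) (nat_lit 5) (nat_lit 4) (nat_lit 4) (nat_lit 2) (nat_lit 4) (nat_lit 372) (nat_lit 284) (nat_lit 244)) (XT.lf (nat_lit 0) (nat_lit 93088173557) (nat_lit 152) (nat_lit 99335103728) (nat_lit 0) (nat_lit 87502264701) (nat_lit 2) (nat_lit 5) (nat_lit 4) (nat_lit 4) (nat_lit 2) (nat_lit 4) (nat_lit 373) (nat_lit 284) (nat_lit 243)))) (XT.nd (nat_lit 78) (nat_lit 0) (nat_lit 0) (XT.lf (nat_lit 0) (nat_lit 105432639558) (nat_lit 152) (nat_lit 96789596354) (nat_lit 0) (nat_lit 99828310164) (nat_lit 2) (nat_lit 5) (nat_lit 4) (nat_lit 4) (nat_lit 2) (nat_lit 4) (nat_lit 374) (nat_lit 284) (nat_lit 242)) (XT.nd (nat_lit 78) (nat_lit 0) (nat_lit 0) (XT.lf (nat_lit 0) (nat_lit 118734520734) (nat_lit 152) (nat_lit 94099406244) (nat_lit 0) (nat_lit 113113135285) (nat_lit 2) (nat_lit 5) (nat_lit 4) (nat_lit 4) (nat_lit 2) (nat_lit 4) (nat_lit 375) (nat_lit 284) (nat_lit 241))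 (XT.lf (nat_lit 0) (nat_lit 133072643047) (nat_lit 152) (nat_lit 91248591531) (nat_lit 0) (nat_lit 127435464956) (nat_lit 2) (nat_lit 5) (nat_lit 4) (nat_lit 4) (nat_lit 2) (nat_lit 4) (nat_lit 376) (nat_lit 284) (nat_lit 240))))))))
noncomputable def xc21 : XT := (XT.nd (nat_lit 43758) (nat_lit 0) (nat_lit 152) (XT.nd (nat_lit 858) (nat_lit 0) (nat_lit 0) (XT.nd (nat_lit 390) (nat_lit 0) (nat_lit 0) (XT.nd (nat_lit 156) (nat_lit 0) (nat_lit 0) (XT.nd (nat_lit 78) (nat_lit 0) (nat_lit 0) (XT.lf (nat_lit 0) (nat_lit 148531973147) (nat_lit 152) (nat_lit 88220258499) (nat_lit 0) (nat_lit 142880172239) (nat_lit 2) (nat_lit 5) (nat_lit 4) (nat_lit 4) (nat_lit 2) (nat_lit 4) (nat_lit 377) (nat_lit 284) (nat_lit 239)) (XT.lf (nat_lit 0) (nat_lit 165204121881) (nat_lit 152) (nat_lit 84996461469) (nat_lit 0) (nat_lit 159538781327) (nat_lit 2) (nat_lit 5) (nat_lit 4) (nat_lit 4) (nat_lit 2) (nat_lit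 4) (nat_lit 378) (nat_lit 284) (nat_lit 238))) (XT.nd (nat_lit 78) (nat_lit 0) (nat_lit 0) (XT.lf (nat_lit 0) (nat_lit 183187887166) (nat_lit 152) (nat_lit 81558096461) (nat_lit 0) (nat_lit 177510009904) (nat_lit 2) (nat_lit 5) (nat_lit 4) (nat_lit 4) (nat_lit 2) (nat_lit 4) (nat_lit 379) (nat_lit 284) (nat_lit 237)) (XT.nd (nat_lit 78) (nat_lit 0) (nat_lit 0) (XT.lf (nat_lit 0) (nat_lit 202589839463) (nat_lit 152) (nat_lit 77884787977) (nat_lit 0) (nat_lit 196900354137) (nat_lit 2) (nat_lit 5) (nat_lit 4) (nat_lit 4) (nat_lit 2) (nat_lit 4) (nat_lit 380) (nat_lit 284) (nat_lit 236)) (XT.lf (nat_lit 0) (nat_lit 223524953304) (nat_lit 152) (nat_lit 73954768263) (nat_lit 0) (nat_lit 217824719772) (nat_lit 2) (nat_lit 5) (nat_lit 4) (nat_lit 4) (nat_lit 2) (nat_lit 4) (nat_lit 381) (nat_lit 284) (nat_lit 235))))) (XT.nd (nat_lit 234) (nat_lit 0) (nat_lit 0) (XT.nd (nat_lit 78) (nat_lit 0)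 (nat_lit 0) (XT.lf (nat_lit 0) (nat_lit 246117288624) (nat_lit 152) (nat_lit 69744748314) (nat_lit 0) (nat_lit 240407103048) (nat_lit 2) (nat_lit 5) (nat_lit 4) (nat_lit 4) (nat_lit 2) (nat_lit 4) (nat_lit 382) (nat_lit 284) (nat_lit 234)) (XT.nd (nat_lit 78) (nat_lit 0) (nat_lit 0) (XT.lf (nat_lit 0) (nat_lit 270500725928) (nat_lit 152) (nat_lit 65229779863) (nat_lit 0) (nat_lit 264781325497) (nat_lit 2) (nat_lit 5) (nat_lit 4) (nat_lit 4) (nat_lit 2) (nat_lit 4) (nat_lit 383) (nat_lit 284) (nat_lit 233)) (XT.lf (nat_lit 0) (nat_lit 296819759659) (nat_lit 152) (nat_lit 60383107542) (nat_lit 0) (nat_lit 291091826955) (nat_lit 2) (nat_lit 5) (nat_lit 4) (nat_lit 4) (nat_lit 2) (nat_lit 4) (nat_lit 384) (nat_lit 284) (nat_lit 232)))) (XT.nd (nat_lit 78) (nat_lit 0) (nat_lit 0) (XT.lf (nat_lit 0) (nat_lit 325230354462) (nat_lit 152) (nat_lit 55176010330) (nat_lit 0) (nat_lit 319494521505)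 (nat_lit 2) (nat_lit 5) (nat_lit 4) (nat_lit 4) (nat_lit 2) (nat_lit 4) (nat_lit 385) (nat_lit 284) (nat_lit 231)) (XT.nd (nat_lit 78) (nat_lit 0) (nat_lit 0) (XT.lf (nat_lit 0) (nat_lit 355900869417) (nat_lit 152) (nat_lit 49577631354) (nat_lit 0) (nat_lit 350157721410) (nat_lit 2) (nat_lit 5) (nat_lit 4) (nat_lit 4) (nat_lit 2) (nat_lit 4) (nat_lit 386) (nat_lit 284) (nat_lit 230)) (XT.lf (nat_lit 0) (nat_lit 389013055723) (nat_lit 152) (nat_lit 43554795035) (nat_lit 0) (nat_lit 383263134522) (nat_lit 2) (nat_lit 5) (nat_lit 4) (nat_lit 4) (nat_lit 2) (nat_lit 4) (nat_lit 387) (nat_lit 284) (nat_lit 229)))))) (XT.nd (nat_lit 42432) (nat_lit 0) (nat_lit 1064) (XT.nd (nat_lit 156) (nat_lit 0) (nat_lit 0) (XT.nd (nat_lit 78) (nat_lit 0) (nat_lit 0) (XT.lf (nat_lit 0) (nat_lit 424763133744) (nat_lit 152) (nat_lit 37071810492) (nat_lit 0) (nat_lit 419006941068) (nat_lit 2) (nat_lit 5) (nat_lit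 4) (nat_lit 4) (nat_lit 2) (nat_lit 4) (nat_lit 388) (nat_lit 284) (nat_lit 228)) (XT.lf (nat_lit 0) (nat_lit 463362955794) (nat_lit 152) (nat_lit 30090260037) (nat_lit 0) (nat_lit 457600956196) (nat_lit 2) (nat_lit 5) (nat_lit 4) (nat_lit 4) (nat_lit 2) (nat_lit 4) (nat_lit 389) (nat_lit 284) (nat_lit 227))) (XT.nd (nat_lit 78) (nat_lit 0) (nat_lit 0) (XT.lf (nat_lit 0) (nat_lit 505041261559) (nat_lit 152) (nat_lit 22568771520) (nat_lit 0) (nat_lit 499273885182) (nat_lit 2) (nat_lit 5) (nat_lit 4) (nat_lit 4) (nat_lit 2) (nat_lit 4) (nat_lit 390) (nat_lit 284) (nat_lit 226)) (XT.nd (nat_lit 42120) (nat_lit 0) (nat_lit 1672) (XT.lf (nat_lit 0) (nat_lit 550045033592) (nat_lit 152) (nat_lit 14462773158) (nat_lit 0) (nat_lit 544272678716) (nat_lit 2) (nat_lit 5) (nat_lit 4) (nat_lit 4) (nat_lit 2) (nat_lit 4) (nat_lit 391) (nat_lit 284) (nat_lit 225)) (XT.lf (nat_lit 0) (nat_lit 2492431382)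 (nat_lit 152) (nat_lit 2435071759) (nat_lit 0) (nat_lit 2492431382) (nat_lit 24) (nat_lit 5) (nat_lit 26) (nat_lit 4) (nat_lit 24) (nat_lit 4) (nat_lit 330) (nat_lit 285) (nat_lit 285))))) (XT.nd (nat_lit 234) (nat_lit 228) (nat_lit 0) (XT.nd (nat_lit 78) (nat_lit 228) (nat_lit 0) (XT.lf (nat_lit 0) (nat_lit 10073318022) (nat_lit 152) (nat_lit 3091300820) (nat_lit 152) (nat_lit 2434512932) (nat_lit 22) (nat_lit 4) (nat_lit 24) (nat_lit 5) (nat_lit 24) (nat_lit 4) (nat_lit 331) (nat_lit 285) (nat_lit 284)) (XT.nd (nat_lit 78) (nat_lit 76) (nat_lit 0) (XT.lf (nat_lit 0) (nat_lit 5274766196) (nat_lit 152) (nat_lit 7076409743) (nat_lit 0) (nat_lit 4070075890) (nat_lit 20) (nat_lit 5) (nat_lit 22) (nat_lit 4) (nat_lit 20) (nat_lit 4) (nat_lit 332) (nat_lit 285) (nat_lit 283)) (XT.lf (nat_lit 0) (nat_lit 7697721791) (nat_lit 76) (nat_lit 5678744280) (nat_lit 76) (nat_lit 3937778020) (nat_lit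 19) (nat_lit 4) (nat_lit 20) (nat_lit 5) (nat_lit 20) (nat_lit 4) (nat_lit 333) (nat_lit 285) (nat_lit 282)))) (XT.nd (nat_lit 78) (nat_lit 76) (nat_lit 0) (XT.lf (nat_lit 0) (nat_lit 3553062367) (nat_lit 152) (nat_lit 13309217131) (nat_lit 0) (nat_lit 1422092776) (nat_lit 17) (nat_lit 5) (nat_lit 19) (nat_lit 4) (nat_lit 17) (nat_lit 4) (nat_lit 334) (nat_lit 285) (nat_lit 281)) (XT.nd (nat_lit 78) (nat_lit 0) (nat_lit 0) (XT.lf (nat_lit 0) (nat_lit 902977406) (nat_lit 76) (nat_lit 10499991692) (nat_lit 76) (nat_lit 7931145725) (nat_lit 16) (nat_lit 4) (nat_lit 17) (nat_lit 5) (nat_lit 17) (nat_lit 4) (nat_lit 335) (nat_lit 285) (nat_lit 280)) (XT.lf (nat_lit 0) (nat_lit 16043622387) (nat_lit 76) (nat_lit 3702670561) (nat_lit 76) (nat_lit 728383506) (nat_lit 16) (nat_lit 4) (nat_lit 17) (nat_lit 5) (nat_lit 17) (nat_lit 4) (nat_lit 336) (nat_lit 285) (nat_lit 279))))))) (XT.nd (nat_lit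 858) (nat_lit 228) (nat_lit 0) (XT.nd (nat_lit 390) (nat_lit 304) (nat_lit 0) (XT.nd (nat_lit 156) (nat_lit 152) (nat_lit 0) (XT.nd (nat_lit 78) (nat_lit 76) (nat_lit 0) (XT.lf (nat_lit 0) (nat_lit 6696792573) (nat_lit 152) (nat_lit 11504085050) (nat_lit 0) (nat_lit 3506606410) (nat_lit 14) (nat_lit 5) (nat_lit 16) (nat_lit 4) (nat_lit 14) (nat_lit 4) (nat_lit 337) (nat_lit 285) (nat_lit 278)) (XT.lf (nat_lit 0) (nat_lit 2507373977) (nat_lit 76) (nat_lit 12029963122) (nat_lit 76) (nat_lit 8508728973) (nat_lit 13) (nat_lit 4) (nat_lit 14) (nat_lit 5) (nat_lit 14) (nat_lit 4) (nat_lit 338) (nat_lit 285) (nat_lit 277))) (XT.nd (nat_lit 78) (nat_lit 152) (nat_lit 0) (XT.lf (nat_lit 0) (nat_lit 17449199026) (nat_lit 76) (nat_lit 5438134570) (nat_lit 76) (nat_lit 1610374509) (nat_lit 13) (nat_lit 4) (nat_lit 14) (nat_lit 5) (nat_lit 14) (nat_lit 4) (nat_lit 339) (nat_lit 285) (nat_lit 276)) (XT.nd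 (nat_lit 78) (nat_lit 0) (nat_lit 0) (XT.lf (nat_lit 0) (nat_lit 5489490260) (nat_lit 152) (nat_lit 19005979233) (nat_lit 0) (nat_lit 1573699450) (nat_lit 11) (nat_lit 5) (nat_lit 13) (nat_lit 4) (nat_lit 11) (nat_lit 4) (nat_lit 340) (nat_lit 285) (nat_lit 275)) (XT.lf (nat_lit 0) (nat_lit 13028367631) (nat_lit 152) (nat_lit 5878060969) (nat_lit 0) (nat_lit 8862294379) (nat_lit 11) (nat_lit 5) (nat_lit 13) (nat_lit 4) (nat_lit 11) (nat_lit 4) (nat_lit 341) (nat_lit 285) (nat_lit 274))))) (XT.nd (nat_lit 234) (nat_lit 76) (nat_lit 0) (XT.nd (nat_lit 78) (nat_lit 152) (nat_lit 0) (XT.lf (nat_lit 0) (nat_lit 8046026632) (nat_lit 76) (nat_lit 12981615016) (nat_lit 76) (nat_lit 8583798762) (nat_lit 10) (nat_lit 4) (nat_lit 11) (nat_lit 5) (nat_lit 11) (nat_lit 4) (nat_lit 342) (nat_lit 285) (nat_lit 273)) (XT.nd (nat_lit 78) (nat_lit 152) (nat_lit 0) (XT.lf (nat_lit 0) (nat_lit 22804590638)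 (nat_lit 76) (nat_lit 6708560853) (nat_lit 76) (nat_lit 2096167745) (nat_lit 10) (nat_lit 4) (nat_lit 11) (nat_lit 5) (nat_lit 11) (nat_lit 4) (nat_lit 343) (nat_lit 285) (nat_lit 272)) (XT.lf (nat_lit 0) (nat_lit 4583867625) (nat_lit 152) (nat_lit 29185960135) (nat_lit 0) (nat_lit 1891073) (nat_lit 8) (nat_lit 5) (nat_lit 10) (nat_lit 4) (nat_lit 8) (nat_lit 4) (nat_lit 344) (nat_lit 285) (nat_lit 271)))) (XT.nd (nat_lit 78) (nat_lit 76) (nat_lit 0) (XT.lf (nat_lit 0) (nat_lit 11761461970) (nat_lit 152) (nat_lit 17337867809) (nat_lit 0) (nat_lit 7004280593) (nat_lit 8) (nat_lit 5) (nat_lit 10) (nat_lit 4) (nat_lit 8) (nat_lit 4) (nat_lit 345) (nat_lit 285) (nat_lit 270)) (XT.nd (nat_lit 78) (nat_lit 76) (nat_lit 0) (XT.lf (nat_lit 0) (nat_lit 19297160391) (nat_lit 152) (nat_lit 4957990068) (nat_lit 0) (nat_lit 14377752324) (nat_lit 8) (nat_lit 5) (nat_lit 10) (nat_lit 4) (nat_lit 8) (nat_lit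 4) (nat_lit 346) (nat_lit 285) (nat_lit 269)) (XT.lf (nat_lit 0) (nat_lit 8292445363) (nat_lit 76) (nat_lit 19072641828) (nat_lit 76) (nat_lit 14003023863) (nat_lit 7) (nat_lit 4) (nat_lit 8) (nat_lit 5) (nat_lit 8) (nat_lit 4) (nat_lit 347) (nat_lit 285) (nat_lit 268)))))) (XT.nd (nat_lit 390) (nat_lit 76) (nat_lit 0) (XT.nd (nat_lit 156) (nat_lit 152) (nat_lit 0) (XT.nd (nat_lit 78) (nat_lit 0) (nat_lit 0) (XT.lf (nat_lit 0) (nat_lit 22411463462) (nat_lit 76) (nat_lit 13562322443) (nat_lit 76) (nat_lit 8353621238) (nat_lit 7) (nat_lit 4) (nat_lit 8) (nat_lit 5) (nat_lit 8) (nat_lit 4) (nat_lit 348) (nat_lit 285) (nat_lit 267)) (XT.lf (nat_lit 0) (nat_lit 37318798941) (nat_lit 76) (nat_lit 7775504521) (nat_lit 76) (nat_lit 2438022539) (nat_lit 7) (nat_lit 4) (nat_lit 8) (nat_lit 5) (nat_lit 8) (nat_lit 4) (nat_lit 349) (nat_lit 285) (nat_lit 266))) (XT.nd (nat_lit 78) (nat_lit 0) (nat_lit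 0) (XT.lf (nat_lit 0) (nat_lit 2109449287) (nat_lit 76) (nat_lit 1581366677) (nat_lit 152) (nat_lit 47306447148) (nat_lit 5) (nat_lit 5) (nat_lit 6) (nat_lit 5) (nat_lit 7) (nat_lit 4) (nat_lit 350) (nat_lit 285) (nat_lit 265)) (XT.nd (nat_lit 78) (nat_lit 0) (nat_lit 0) (XT.lf (nat_lit 0) (nat_lit 10324992941) (nat_lit 152) (nat_lit 39384447974) (nat_lit 0) (nat_lit 5022962273) (nat_lit 5) (nat_lit 5) (nat_lit 7) (nat_lit 4) (nat_lit 5) (nat_lit 4) (nat_lit 351) (nat_lit 285) (nat_lit 264)) (XT.lf (nat_lit 0) (nat_lit 17367236694) (nat_lit 152) (nat_lit 29437433971) (nat_lit 0) (nat_lit 11967843805) (nat_lit 5) (nat_lit 5) (nat_lit 7) (nat_lit 4) (nat_lit 5) (nat_lit 4) (nat_lit 352) (nat_lit 285) (nat_lit 263))))) (XT.nd (nat_lit 234) (nat_lit 0) (nat_lit 0) (XT.nd (nat_lit 78) (nat_lit 76) (nat_lit 0) (XT.lf (nat_lit 0) (nat_lit 24834589475) (nat_lit 152) (nat_lit 18963136985) (nat_lit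 0) (nat_lit 19345046381) (nat_lit 5) (nat_lit 5) (nat_lit 7) (nat_lit 4) (nat_lit 5) (nat_lit 4) (nat_lit 353) (nat_lit 285) (nat_lit 262)) (XT.nd (nat_lit 78) (nat_lit 76) (nat_lit 0) (XT.lf (nat_lit 0) (nat_lit 32771302263) (nat_lit 152) (nat_lit 7899487106) (nat_lit 0) (nat_lit 27198286756) (nat_lit 5) (nat_lit 5) (nat_lit 7) (nat_lit 4) (nat_lit 5) (nat_lit 4) (nat_lit 354) (nat_lit 285) (nat_lit 261)) (XT.lf (nat_lit 0) (nat_lit 3945354001) (nat_lit 76) (nat_lit 37340651461) (nat_lit 76) (nat_lit 31690346683) (nat_lit 4) (nat_lit 4) (nat_lit 5) (nat_lit 5) (nat_lit 5) (nat_lit 4) (nat_lit 355) (nat_lit 285) (nat_lit 260)))) (XT.nd (nat_lit 78) (nat_lit 0) (nat_lit 0) (XT.lf (nat_lit 0) (nat_lit 16799697005) (nat_lit 76) (nat_lit 33706590795) (nat_lit 76) (nat_lit 27984721878) (nat_lit 4) (nat_lit 4) (nat_lit 5) (nat_lit 5) (nat_lit 5) (nat_lit 4) (nat_lit 356) (nat_lit 285) (nat_lit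 259)) (XT.nd (nat_lit 78) (nat_lit 0) (nat_lit 0) (XT.lf (nat_lit 0) (nat_lit 30478523071) (nat_lit 76) (nat_lit 29880853835) (nat_lit 76) (nat_lit 24092721826) (nat_lit 4) (nat_lit 4) (nat_lit 5) (nat_lit 5) (nat_lit 5) (nat_lit 4) (nat_lit 357) (nat_lit 285) (nat_lit 258)) (XT.lf (nat_lit 0) (nat_lit 45062891910) (nat_lit 76) (nat_lit 25840769546) (nat_lit 76) (nat_lit 19991282822) (nat_lit 4) (nat_lit 4) (nat_lit 5) (nat_lit 5) (nat_lit 5) (nat_lit 4) (nat_lit 358) (nat_lit 285) (nat_lit 257))))))))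
noncomputable def xc22 : XT := (XT.nd (nat_lit 1716) (nat_lit 0) (nat_lit 0) (XT.nd (nat_lit 858) (nat_lit 0) (nat_lit 0) (XT.nd (nat_lit 390) (nat_lit 0) (nat_lit 0) (XT.nd (nat_lit 156) (nat_lit 152) (nat_lit 0) (XT.nd (nat_lit 78) (nat_lit 0) (nat_lit 0) (XT.lf (nat_lit 0) (nat_lit 60639229410) (nat_lit 76) (nat_lit 21562396688) (nat_lit 76) (nat_lit 15656100043) (nat_lit 4) (nat_lit 4) (nat_lit 5) (nat_lit 5) (nat_lit 5) (nat_lit 4) (nat_lit 359) (nat_lit 285) (nat_lit 256)) (XT.lf (nat_lit 0) (nat_lit 77299839794) (nat_lit 76) (nat_lit 17020381941) (nat_lit 76) (nat_lit 11061483517) (nat_lit 4) (nat_lit 4) (nat_lit 5) (nat_lit 5) (nat_lit 5) (nat_lit 4) (nat_lit 360) (nat_lit 285) (nat_lit 255))) (XT.nd (nat_lit 78) (nat_lit 152) (nat_lit 0) (XT.lf (nat_lit 0) (nat_lit 95143452605) (nat_lit 76) (nat_lit 12187809662) (nat_lit 76) (nat_lit 6180205887) (nat_lit 4) (nat_lit 4) (nat_lit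 5) (nat_lit 5) (nat_lit 5) (nat_lit 4) (nat_lit 361) (nat_lit 285) (nat_lit 254)) (XT.nd (nat_lit 78) (nat_lit 152) (nat_lit 0) (XT.lf (nat_lit 0) (nat_lit 114275807770) (nat_lit 76) (nat_lit 7036042384) (nat_lit 76) (nat_lit 983341062) (nat_lit 4) (nat_lit 4) (nat_lit 5) (nat_lit 5) (nat_lit 5) (nat_lit 4) (nat_lit 362) (nat_lit 285) (nat_lit 253)) (XT.lf (nat_lit 0) (nat_lit 3051841118) (nat_lit 76) (nat_lit 1409768359) (nat_lit 152) (nat_lit 127317374623) (nat_lit 2) (nat_lit 5) (nat_lit 3) (nat_lit 5) (nat_lit 4) (nat_lit 4) (nat_lit 363) (nat_lit 285) (nat_lit 252))))) (XT.nd (nat_lit 234) (nat_lit 0) (nat_lit 0) (XT.nd (nat_lit 78) (nat_lit 0) (nat_lit 0) (XT.lf (nat_lit 0) (nat_lit 10457931964) (nat_lit 152) (nat_lit 126938377919) (nat_lit 0) (nat_lit 4616863214) (nat_lit 2) (nat_lit 5) (nat_lit 4) (nat_lit 4) (nat_lit 2) (nat_lit 4) (nat_lit 364) (nat_lit 285) (nat_lit 251)) (XT.nd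 (nat_lit 78) (nat_lit 0) (nat_lit 0) (XT.lf (nat_lit 0) (nat_lit 16897477313) (nat_lit 152) (nat_lit 125148139946) (nat_lit 0) (nat_lit 11022313432) (nat_lit 2) (nat_lit 5) (nat_lit 4) (nat_lit 4) (nat_lit 2) (nat_lit 4) (nat_lit 365) (nat_lit 285) (nat_lit 250)) (XT.lf (nat_lit 0) (nat_lit 23796395356) (nat_lit 152) (nat_lit 123323809808) (nat_lit 0) (nat_lit 17889661910) (nat_lit 2) (nat_lit 5) (nat_lit 4) (nat_lit 4) (nat_lit 2) (nat_lit 4) (nat_lit 366) (nat_lit 285) (nat_lit 249)))) (XT.nd (nat_lit 78) (nat_lit 0) (nat_lit 0) (XT.lf (nat_lit 0) (nat_lit 31195568570) (nat_lit 152) (nat_lit 121454576662) (nat_lit 0) (nat_lit 25259604045) (nat_lit 2) (nat_lit 5) (nat_lit 4) (nat_lit 4) (nat_lit 2) (nat_lit 4) (nat_lit 367) (nat_lit 285) (nat_lit 248)) (XT.nd (nat_lit 78) (nat_lit 0) (nat_lit 0) (XT.lf (nat_lit 0) (nat_lit 39138843908) (nat_lit 152) (nat_lit 119529363569) (nat_lit 0) (nat_lit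 33175813570) (nat_lit 2) (nat_lit 5) (nat_lit 4) (nat_lit 4) (nat_lit 2) (nat_lit 4) (nat_lit 368) (nat_lit 285) (nat_lit 247)) (XT.lf (nat_lit 0) (nat_lit 47673292632) (nat_lit 152) (nat_lit 117536761859) (nat_lit 0) (nat_lit 41685201355) (nat_lit 2) (nat_lit 5) (nat_lit 4) (nat_lit 4) (nat_lit 2) (nat_lit 4) (nat_lit 369) (nat_lit 285) (nat_lit 246)))))) (XT.nd (nat_lit 390) (nat_lit 0) (nat_lit 0) (XT.nd (nat_lit 156) (nat_lit 0) (nat_lit 0) (XT.nd (nat_lit 78) (nat_lit 0) (nat_lit 0) (XT.lf (nat_lit 0) (nat_lit 56849489252) (nat_lit 152) (nat_lit 115464963523) (nat_lit 0) (nat_lit 50838193402) (nat_lit 2) (nat_lit 5) (nat_lit 4) (nat_lit 4) (nat_lit 2) (nat_lit 4) (nat_lit 370) (nat_lit 285) (nat_lit 245)) (XT.lf (nat_lit 0) (nat_lit 66721811229) (nat_lit 152) (nat_lit 113301691237) (nat_lit 0) (nat_lit 60689029664) (nat_lit 2) (nat_lit 5) (nat_lit 4) (nat_lit 4) (nat_lit 2) (nat_lit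 4) (nat_lit 371) (nat_lit 285) (nat_lit 244))) (XT.nd (nat_lit 78) (nat_lit 0) (nat_lit 0) (XT.lf (nat_lit 0) (nat_lit 77348761213) (nat_lit 152) (nat_lit 111034125609) (nat_lit 0) (nat_lit 71296085467) (nat_lit 2) (nat_lit 5) (nat_lit 4) (nat_lit 4) (nat_lit 2) (nat_lit 4) (nat_lit 372) (nat_lit 285) (nat_lit 243)) (XT.nd (nat_lit 78) (nat_lit 0) (nat_lit 0) (XT.lf (nat_lit 0) (nat_lit 88793313722) (nat_lit 152) (nat_lit 108648829214) (nat_lit 0) (nat_lit 82722217438) (nat_lit 2) (nat_lit 5) (nat_lit 4) (nat_lit 4) (nat_lit 2) (nat_lit 4) (nat_lit 373) (nat_lit 285) (nat_lit 242)) (XT.lf (nat_lit 0) (nat_lit 101123288326) (nat_lit 152) (nat_lit 106131666962) (nat_lit 0) (nat_lit 95035135988) (nat_lit 2) (nat_lit 5) (nat_lit 4) (nat_lit 4) (nat_lit 2) (nat_lit 4) (nat_lit 374) (nat_lit 285) (nat_lit 241))))) (XT.nd (nat_lit 234) (nat_lit 0) (nat_lit 0) (XT.nd (nat_lit 78) (nat_lit 0) (nat_lit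 0) (XT.lf (nat_lit 0) (nat_lit 114411751541) (nat_lit 152) (nat_lit 103467722335) (nat_lit 0) (nat_lit 108307806561) (nat_lit 2) (nat_lit 5) (nat_lit 4) (nat_lit 4) (nat_lit 2) (nat_lit 4) (nat_lit 375) (nat_lit 285) (nat_lit 240)) (XT.nd (nat_lit 78) (nat_lit 0) (nat_lit 0) (XT.lf (nat_lit 0) (nat_lit 128737449817) (nat_lit 152) (nat_lit 100641208996) (nat_lit 0) (nat_lit 122618882020) (nat_lit 2) (nat_lit 5) (nat_lit 4) (nat_lit 4) (nat_lit 2) (nat_lit 4) (nat_lit 376) (nat_lit 285) (nat_lit 239)) (XT.lf (nat_lit 0) (nat_lit 144185276180) (nat_lit 152) (nat_lit 97635377236) (nat_lit 0) (nat_lit 138053168737) (nat_lit 2) (nat_lit 5) (nat_lit 4) (nat_lit 4) (nat_lit 2) (nat_lit 4) (nat_lit 377) (nat_lit 285) (nat_lit 238)))) (XT.nd (nat_lit 78) (nat_lit 0) (nat_lit 0) (XT.lf (nat_lit 0) (nat_lit 160846773304) (nat_lit 152) (nat_lit 94432414718) (nat_lit 0) (nat_lit 154702129152) (nat_lit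 2) (nat_lit 5) (nat_lit 4) (nat_lit 4) (nat_lit 2) (nat_lit 4) (nat_lit 378) (nat_lit 285) (nat_lit 237)) (XT.nd (nat_lit 78) (nat_lit 0) (nat_lit 0) (XT.lf (nat_lit 0) (nat_lit 178820675988) (nat_lit 152) (nat_lit 91013340923) (nat_lit 0) (nat_lit 172664423772) (nat_lit 2) (nat_lit 5) (nat_lit 4) (nat_lit 4) (nat_lit 2) (nat_lit 4) (nat_lit 379) (nat_lit 285) (nat_lit 236)) (XT.lf (nat_lit 0) (nat_lit 198213496247) (nat_lit 152) (nat_lit 87357894674) (nat_lit 0) (nat_lit 192046495825) (nat_lit 2) (nat_lit 5) (nat_lit 4) (nat_lit 4) (nat_lit 2) (nat_lit 4) (nat_lit 380) (nat_lit 285) (nat_lit 235))))))) (XT.nd (nat_lit 42744) (nat_lit 0) (nat_lit 912) (XT.nd (nat_lit 390) (nat_lit 0) (nat_lit 0) (XT.nd (nat_lit 156) (nat_lit 0) (nat_lit 0) (XT.nd (nat_lit 78) (nat_lit 0) (nat_lit 0) (XT.lf (nat_lit 0) (nat_lit 219140154497) (nat_lit 152) (nat_lit 83444414067) (nat_lit 0) (nat_lit 212963202032)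 (nat_lit 2) (nat_lit 5) (nat_lit 4) (nat_lit 4) (nat_lit 2) (nat_lit 4) (nat_lit 381) (nat_lit 285) (nat_lit 234)) (XT.lf (nat_lit 0) (nat_lit 241724660567) (nat_lit 152) (nat_lit 79249708106) (nat_lit 0) (nat_lit 235538493246) (nat_lit 2) (nat_lit 5) (nat_lit 4) (nat_lit 4) (nat_lit 2) (nat_lit 4) (nat_lit 382) (nat_lit 285) (nat_lit 233))) (XT.nd (nat_lit 78) (nat_lit 0) (nat_lit 0) (XT.lf (nat_lit 0) (nat_lit 266100848564) (nat_lit 152) (nat_lit 74748919273) (nat_lit 0) (nat_lit 259906148970) (nat_lit 2) (nat_lit 5) (nat_lit 4) (nat_lit 4) (nat_lit 2) (nat_lit 4) (nat_lit 383) (nat_lit 285) (nat_lit 232)) (XT.nd (nat_lit 78) (nat_lit 0) (nat_lit 0) (XT.lf (nat_lit 0) (nat_lit 292413169975) (nat_lit 152) (nat_lit 69915376229) (nat_lit 0) (nat_lit 286210570128) (nat_lit 2) (nat_lit 5) (nat_lit 4) (nat_lit 4) (nat_lit 2) (nat_lit 4) (nat_lit 384) (nat_lit 285) (nat_lit 231)) (XT.lf (nat_lit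 0) (nat_lit 320817549666) (nat_lit 152) (nat_lit 64720435754) (nat_lit 0) (nat_lit 314607634769) (nat_lit 2) (nat_lit 5) (nat_lit 4) (nat_lit 4) (nat_lit 2) (nat_lit 4) (nat_lit 385) (nat_lit 285) (nat_lit 230))))) (XT.nd (nat_lit 234) (nat_lit 0) (nat_lit 0) (XT.nd (nat_lit 78) (nat_lit 0) (nat_lit 0) (XT.lf (nat_lit 0) (nat_lit 351482309887) (nat_lit 152) (nat_lit 59133313016) (nat_lit 0) (nat_lit 345265621797) (nat_lit 2) (nat_lit 5) (nat_lit 4) (nat_lit 4) (nat_lit 2) (nat_lit 4) (nat_lit 386) (nat_lit 285) (nat_lit 229)) (XT.nd (nat_lit 78) (nat_lit 0) (nat_lit 0) (XT.lf (nat_lit 0) (nat_lit 384589167736) (nat_lit 152) (nat_lit 53120899139) (nat_lit 0) (nat_lit 378366208171) (nat_lit 2) (nat_lit 5) (nat_lit 4) (nat_lit 4) (nat_lit 2) (nat_lit 4) (nat_lit 387) (nat_lit 285) (nat_lit 228)) (XT.lf (nat_lit 0) (nat_lit 420334312001) (nat_lit 152) (nat_lit 46647565006) (nat_lit 0) (nat_lit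 414105545514) (nat_lit 2) (nat_lit 5) (nat_lit 4) (nat_lit 4) (nat_lit 2) (nat_lit 4) (nat_lit 388) (nat_lit 285) (nat_lit 227)))) (XT.nd (nat_lit 78) (nat_lit 0) (nat_lit 0) (XT.lf (nat_lit 0) (nat_lit 458929565759) (nat_lit 152) (nat_lit 39674950116) (nat_lit 0) (nat_lit 452695422492) (nat_lit 2) (nat_lit 5) (nat_lit 4) (nat_lit 4) (nat_lit 2) (nat_lit 4) (nat_lit 389) (nat_lit 285) (nat_lit 226)) (XT.nd (nat_lit 78) (nat_lit 0) (nat_lit 0) (XT.lf (nat_lit 0) (nat_lit 500603641623) (nat_lit 152) (nat_lit 32161735270) (nat_lit 0) (nat_lit 494364519857) (nat_lit 2) (nat_lit 5) (nat_lit 4) (nat_lit 4) (nat_lit 2) (nat_lit 4) (nat_lit 390) (nat_lit 285) (nat_lit 225)) (XT.lf (nat_lit 0) (nat_lit 545603497082) (nat_lit 152) (nat_lit 24063397714) (nat_lit 0) (nat_lit 539359765594) (nat_lit 2) (nat_lit 5) (nat_lit 4) (nat_lit 4) (nat_lit 2) (nat_lit 4) (nat_lit 391) (nat_lit 285) (nat_lit 224))))))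 (XT.nd (nat_lit 390) (nat_lit 456) (nat_lit 0) (XT.nd (nat_lit 156) (nat_lit 456) (nat_lit 0) (XT.nd (nat_lit 78) (nat_lit 152) (nat_lit 0) (XT.lf (nat_lit 0) (nat_lit 2062806700) (nat_lit 152) (nat_lit 2618131156) (nat_lit 0) (nat_lit 2062806700) (nat_lit 28) (nat_lit 5) (nat_lit 30) (nat_lit 4) (nat_lit 28) (nat_lit 4) (nat_lit 328) (nat_lit 286) (nat_lit 286)) (XT.lf (nat_lit 0) (nat_lit 9232683983) (nat_lit 152) (nat_lit 2827152436) (nat_lit 152) (nat_lit 2082354972) (nat_lit 26) (nat_lit 4) (nat_lit 28) (nat_lit 5) (nat_lit 28) (nat_lit 4) (nat_lit 329) (nat_lit 286) (nat_lit 285))) (XT.nd (nat_lit 78) (nat_lit 304) (nat_lit 0) (XT.lf (nat_lit 0) (nat_lit 5483231018) (nat_lit 152) (nat_lit 5250160326) (nat_lit 0) (nat_lit 4117112212) (nat_lit 24) (nat_lit 5) (nat_lit 26) (nat_lit 4) (nat_lit 24) (nat_lit 4) (nat_lit 330) (nat_lit 286) (nat_lit 284)) (XT.nd (nat_lit 78) (nat_lit 152)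 (nat_lit 0) (XT.lf (nat_lit 0) (nat_lit 9317234401) (nat_lit 152) (nat_lit 4138612310) (nat_lit 152) (nat_lit 2164356571) (nat_lit 22) (nat_lit 4) (nat_lit 24) (nat_lit 5) (nat_lit 24) (nat_lit 4) (nat_lit 331) (nat_lit 286) (nat_lit 283)) (XT.lf (nat_lit 0) (nat_lit 5309919504) (nat_lit 152) (nat_lit 8250181297) (nat_lit 0) (nat_lit 2893399988) (nat_lit 20) (nat_lit 5) (nat_lit 22) (nat_lit 4) (nat_lit 20) (nat_lit 4) (nat_lit 332) (nat_lit 286) (nat_lit 282))))) (XT.nd (nat_lit 234) (nat_lit 228) (nat_lit 0) (XT.nd (nat_lit 78) (nat_lit 152) (nat_lit 0) (XT.lf (nat_lit 0) (nat_lit 6139292072) (nat_lit 76) (nat_lit 7065343402) (nat_lit 76) (nat_lit 4152272076) (nat_lit 19) (nat_lit 4) (nat_lit 20) (nat_lit 5) (nat_lit 20) (nat_lit 4) (nat_lit 333) (nat_lit 286) (nat_lit 281)) (XT.nd (nat_lit 78) (nat_lit 0) (nat_lit 0) (XT.lf (nat_lit 0) (nat_lit 3011741535) (nat_lit 76) (nat_lit 102689223)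 (nat_lit 152) (nat_lit 15224380139) (nat_lit 17) (nat_lit 5) (nat_lit 18) (nat_lit 5) (nat_lit 19) (nat_lit 4) (nat_lit 334) (nat_lit 286) (nat_lit 280)) (XT.lf (nat_lit 0) (nat_lit 10777608586) (nat_lit 152) (nat_lit 1460397150) (nat_lit 0) (nat_lit 7159937477) (nat_lit 17) (nat_lit 5) (nat_lit 19) (nat_lit 4) (nat_lit 17) (nat_lit 4) (nat_lit 335) (nat_lit 286) (nat_lit 279)))) (XT.nd (nat_lit 78) (nat_lit 152) (nat_lit 0) (XT.lf (nat_lit 0) (nat_lit 13327565485) (nat_lit 76) (nat_lit 5606700782) (nat_lit 76) (nat_lit 1613621257) (nat_lit 16) (nat_lit 4) (nat_lit 17) (nat_lit 5) (nat_lit 17) (nat_lit 4) (nat_lit 336) (nat_lit 286) (nat_lit 278)) (XT.nd (nat_lit 78) (nat_lit 0) (nat_lit 0) (XT.lf (nat_lit 0) (nat_lit 5604098387) (nat_lit 152) (nat_lit 14719003263) (nat_lit 0) (nat_lit 1470117522) (nat_lit 14) (nat_lit 5) (nat_lit 16) (nat_lit 4) (nat_lit 14) (nat_lit 4) (nat_lit 337) (nat_lit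 286) (nat_lit 277)) (XT.lf (nat_lit 0) (nat_lit 13257035948) (nat_lit 152) (nat_lit 1067656755) (nat_lit 0) (nat_lit 8816529169) (nat_lit 14) (nat_lit 5) (nat_lit 16) (nat_lit 4) (nat_lit 14) (nat_lit 4) (nat_lit 338) (nat_lit 286) (nat_lit 276))))))))
noncomputable def xc23 : XT := (XT.nd (nat_lit 1716) (nat_lit 152) (nat_lit 0) (XT.nd (nat_lit 858) (nat_lit 228) (nat_lit 0) (XT.nd (nat_lit 390) (nat_lit 228) (nat_lit 0) (XT.nd (nat_lit 156) (nat_lit 76) (nat_lit 0) (XT.nd (nat_lit 78) (nat_lit 152) (nat_lit 0) (XT.lf (nat_lit 0) (nat_lit 13571168258) (nat_lit 76) (nat_lit 7877001585) (nat_lit 76) (nat_lit 3152674517) (nat_lit 13) (nat_lit 4) (nat_lit 14) (nat_lit 5) (nat_lit 14) (nat_lit 4) (nat_lit 339) (nat_lit 286) (nat_lit 275)) (XT.lf (nat_lit 0) (nat_lit 2741261473) (nat_lit 76) (nat_lit 1028682480) (nat_lit 152) (nat_lit 22414928620) (nat_lit 11) (nat_lit 5) (nat_lit 12) (nat_lit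 5) (nat_lit 13) (nat_lit 4) (nat_lit 340) (nat_lit 286) (nat_lit 274))) (XT.nd (nat_lit 78) (nat_lit 76) (nat_lit 0) (XT.lf (nat_lit 0) (nat_lit 11163753704) (nat_lit 152) (nat_lit 10545587616) (nat_lit 0) (nat_lit 6182369148) (nat_lit 11) (nat_lit 5) (nat_lit 13) (nat_lit 4) (nat_lit 11) (nat_lit 4) (nat_lit 341) (nat_lit 286) (nat_lit 273)) (XT.nd (nat_lit 78) (nat_lit 0) (nat_lit 0) (XT.lf (nat_lit 0) (nat_lit 2988904001) (nat_lit 76) (nat_lit 15975716933) (nat_lit 76) (nat_lit 10779755523) (nat_lit 10) (nat_lit 4) (nat_lit 11) (nat_lit 5) (nat_lit 11) (nat_lit 4) (nat_lit 342) (nat_lit 286) (nat_lit 272)) (XT.lf (nat_lit 0) (nat_lit 17529628680) (nat_lit 76) (nat_lit 9806498303) (nat_lit 76) (nat_lit 4411854621) (nat_lit 10) (nat_lit 4) (nat_lit 11) (nat_lit 5) (nat_lit 11) (nat_lit 4) (nat_lit 343) (nat_lit 286) (nat_lit 271))))) (XT.nd (nat_lit 234) (nat_lit 76) (nat_lit 0) (XT.nd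 (nat_lit 78) (nat_lit 76) (nat_lit 0) (XT.lf (nat_lit 0) (nat_lit 2163356679) (nat_lit 152) (nat_lit 1143727555) (nat_lit 76) (nat_lit 30614074752) (nat_lit 9) (nat_lit 5) (nat_lit 11) (nat_lit 5) (nat_lit 10) (nat_lit 4) (nat_lit 344) (nat_lit 286) (nat_lit 270)) (XT.nd (nat_lit 78) (nat_lit 0) (nat_lit 0) (XT.lf (nat_lit 0) (nat_lit 9166672640) (nat_lit 152) (nat_lit 23403627902) (nat_lit 0) (nat_lit 3691485237) (nat_lit 8) (nat_lit 5) (nat_lit 10) (nat_lit 4) (nat_lit 8) (nat_lit 4) (nat_lit 345) (nat_lit 286) (nat_lit 269)) (XT.lf (nat_lit 0) (nat_lit 16606171154) (nat_lit 152) (nat_lit 11208962933) (nat_lit 0) (nat_lit 10980773853) (nat_lit 8) (nat_lit 5) (nat_lit 10) (nat_lit 4) (nat_lit 8) (nat_lit 4) (nat_lit 346) (nat_lit 286) (nat_lit 268)))) (XT.nd (nat_lit 78) (nat_lit 0) (nat_lit 0) (XT.lf (nat_lit 0) (nat_lit 1657623454) (nat_lit 76) (nat_lit 22823812348) (nat_lit 76) (nat_lit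 17059331808) (nat_lit 7) (nat_lit 4) (nat_lit 8) (nat_lit 5) (nat_lit 8) (nat_lit 4) (nat_lit 347) (nat_lit 286) (nat_lit 267)) (XT.nd (nat_lit 78) (nat_lit 0) (nat_lit 0) (XT.lf (nat_lit 0) (nat_lit 15612601136) (nat_lit 76) (nat_lit 17392496335) (nat_lit 76) (nat_lit 11499235018) (nat_lit 7) (nat_lit 4) (nat_lit 8) (nat_lit 5) (nat_lit 8) (nat_lit 4) (nat_lit 348) (nat_lit 286) (nat_lit 266)) (XT.lf (nat_lit 0) (nat_lit 30368047339) (nat_lit 76) (nat_lit 11678829683) (nat_lit 76) (nat_lit 5666326906) (nat_lit 7) (nat_lit 4) (nat_lit 8) (nat_lit 5) (nat_lit 8) (nat_lit 4) (nat_lit 349) (nat_lit 286) (nat_lit 265)))))) (XT.nd (nat_lit 390) (nat_lit 76) (nat_lit 0) (XT.nd (nat_lit 156) (nat_lit 0) (nat_lit 0) (XT.nd (nat_lit 78) (nat_lit 76) (nat_lit 0) (XT.lf (nat_lit 0) (nat_lit 458788295) (nat_lit 152) (nat_lit 5182395530) (nat_lit 76) (nat_lit 45544843648) (nat_lit 6) (nat_lit 5) (nat_lit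 8) (nat_lit 5) (nat_lit 7) (nat_lit 4) (nat_lit 350) (nat_lit 286) (nat_lit 264)) (XT.lf (nat_lit 0) (nat_lit 6872828559) (nat_lit 152) (nat_lit 47115236611) (nat_lit 0) (nat_lit 944122017) (nat_lit 5) (nat_lit 5) (nat_lit 7) (nat_lit 4) (nat_lit 5) (nat_lit 4) (nat_lit 351) (nat_lit 286) (nat_lit 263))) (XT.nd (nat_lit 78) (nat_lit 0) (nat_lit 0) (XT.lf (nat_lit 0) (nat_lit 13848596124) (nat_lit 152) (nat_lit 37297298636) (nat_lit 0) (nat_lit 7829739377) (nat_lit 5) (nat_lit 5) (nat_lit 7) (nat_lit 4) (nat_lit 5) (nat_lit 4) (nat_lit 352) (nat_lit 286) (nat_lit 262)) (XT.nd (nat_lit 78) (nat_lit 0) (nat_lit 0) (XT.lf (nat_lit 0) (nat_lit 21254396878) (nat_lit 152) (nat_lit 26942516489) (nat_lit 0) (nat_lit 15152067718) (nat_lit 5) (nat_lit 5) (nat_lit 7) (nat_lit 4) (nat_lit 5) (nat_lit 4) (nat_lit 353) (nat_lit 286) (nat_lit 261)) (XT.lf (nat_lit 0) (nat_lit 29134117048) (nat_lit 152)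 (nat_lit 15989528499) (nat_lit 0) (nat_lit 22954498618) (nat_lit 5) (nat_lit 5) (nat_lit 7) (nat_lit 4) (nat_lit 5) (nat_lit 4) (nat_lit 354) (nat_lit 286) (nat_lit 260))))) (XT.nd (nat_lit 234) (nat_lit 0) (nat_lit 0) (XT.nd (nat_lit 78) (nat_lit 76) (nat_lit 0) (XT.lf (nat_lit 0) (nat_lit 37534451273) (nat_lit 152) (nat_lit 4373428070) (nat_lit 0) (nat_lit 31283268703) (nat_lit 5) (nat_lit 5) (nat_lit 7) (nat_lit 4) (nat_lit 5) (nat_lit 4) (nat_lit 355) (nat_lit 286) (nat_lit 259)) (XT.nd (nat_lit 78) (nat_lit 0) (nat_lit 0) (XT.lf (nat_lit 0) (nat_lit 8238297930) (nat_lit 76) (nat_lit 38395504298) (nat_lit 76) (nat_lit 32078058636) (nat_lit 4) (nat_lit 4) (nat_lit 5) (nat_lit 5) (nat_lit 5) (nat_lit 4) (nat_lit 356) (nat_lit 286) (nat_lit 258)) (XT.lf (nat_lit 0) (nat_lit 21826372403) (nat_lit 76) (nat_lit 34613859466) (nat_lit 76) (nat_lit 28235059089) (nat_lit 4) (nat_lit 4) (nat_lit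 5) (nat_lit 5) (nat_lit 5) (nat_lit 4) (nat_lit 357) (nat_lit 286) (nat_lit 257)))) (XT.nd (nat_lit 78) (nat_lit 0) (nat_lit 0) (XT.lf (nat_lit 0) (nat_lit 36326711989) (nat_lit 76) (nat_lit 30614601223) (nat_lit 76) (nat_lit 24178990925) (nat_lit 4) (nat_lit 4) (nat_lit 5) (nat_lit 5) (nat_lit 5) (nat_lit 4) (nat_lit 358) (nat_lit 286) (nat_lit 256)) (XT.nd (nat_lit 78) (nat_lit 0) (nat_lit 0) (XT.lf (nat_lit 0) (nat_lit 51825244626) (nat_lit 76) (nat_lit 26374030259) (nat_lit 76) (nat_lit 19885818182) (nat_lit 4) (nat_lit 4) (nat_lit 5) (nat_lit 5) (nat_lit 5) (nat_lit 4) (nat_lit 359) (nat_lit 286) (nat_lit 255)) (XT.lf (nat_lit 0) (nat_lit 68413813469) (nat_lit 76) (nat_lit 21867017265) (nat_lit 76) (nat_lit 15330099837) (nat_lit 4) (nat_lit 4) (nat_lit 5) (nat_lit 5) (nat_lit 5) (nat_lit 4) (nat_lit 360) (nat_lit 286) (nat_lit 254))))))) (XT.nd (nat_lit 858) (nat_lit 0) (nat_lit 0)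 (XT.nd (nat_lit 390) (nat_lit 0) (nat_lit 0) (XT.nd (nat_lit 156) (nat_lit 152) (nat_lit 0) (XT.nd (nat_lit 78) (nat_lit 0) (nat_lit 0) (XT.lf (nat_lit 0) (nat_lit 86190721150) (nat_lit 76) (nat_lit 17066854017) (nat_lit 76) (nat_lit 10484839042) (nat_lit 4) (nat_lit 4) (nat_lit 5) (nat_lit 5) (nat_lit 5) (nat_lit 4) (nat_lit 361) (nat_lit 286) (nat_lit 253)) (XT.lf (nat_lit 0) (nat_lit 105261312306) (nat_lit 76) (nat_lit 11945095101) (nat_lit 76) (nat_lit 5321323138) (nat_lit 4) (nat_lit 4) (nat_lit 5) (nat_lit 5) (nat_lit 5) (nat_lit 4) (nat_lit 362) (nat_lit 286) (nat_lit 252))) (XT.nd (nat_lit 78) (nat_lit 76) (nat_lit 0) (XT.lf (nat_lit 0) (nat_lit 184931804) (nat_lit 152) (nat_lit 6283325641) (nat_lit 76) (nat_lit 125550534135) (nat_lit 3) (nat_lit 5) (nat_lit 5) (nat_lit 5) (nat_lit 4) (nat_lit 4) (nat_lit 363) (nat_lit 286) (nat_lit 251)) (XT.nd (nat_lit 78) (nat_lit 0) (nat_lit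 0) (XT.lf (nat_lit 0) (nat_lit 5554408581) (nat_lit 76) (nat_lit 422491081) (nat_lit 152) (nat_lit 136286303132) (nat_lit 2) (nat_lit 5) (nat_lit 3) (nat_lit 5) (nat_lit 4) (nat_lit 4) (nat_lit 364) (nat_lit 286) (nat_lit 250)) (XT.lf (nat_lit 0) (nat_lit 12383026177) (nat_lit 152) (nat_lit 134964424813) (nat_lit 0) (nat_lit 5972184491) (nat_lit 2) (nat_lit 5) (nat_lit 4) (nat_lit 4) (nat_lit 2) (nat_lit 4) (nat_lit 365) (nat_lit 286) (nat_lit 249))))) (XT.nd (nat_lit 234) (nat_lit 0) (nat_lit 0) (XT.nd (nat_lit 78) (nat_lit 0) (nat_lit 0) (XT.lf (nat_lit 0) (nat_lit 19257108512) (nat_lit 152) (nat_lit 133188673234) (nat_lit 0) (nat_lit 12817035747) (nat_lit 2) (nat_lit 5) (nat_lit 4) (nat_lit 4) (nat_lit 2) (nat_lit 4) (nat_lit 366) (nat_lit 286) (nat_lit 248)) (XT.nd (nat_lit 78) (nat_lit 0) (nat_lit 0) (XT.lf (nat_lit 0) (nat_lit 26633285701) (nat_lit 152) (nat_lit 131364420235) (nat_lit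 0) (nat_lit 20166147122) (nat_lit 2) (nat_lit 5) (nat_lit 4) (nat_lit 4) (nat_lit 2) (nat_lit 4) (nat_lit 367) (nat_lit 286) (nat_lit 247)) (XT.lf (nat_lit 0) (nat_lit 34555268423) (nat_lit 152) (nat_lit 129480855426) (nat_lit 0) (nat_lit 28063068905) (nat_lit 2) (nat_lit 5) (nat_lit 4) (nat_lit 4) (nat_lit 2) (nat_lit 4) (nat_lit 368) (nat_lit 286) (nat_lit 246)))) (XT.nd (nat_lit 78) (nat_lit 0) (nat_lit 0) (XT.lf (nat_lit 0) (nat_lit 43070001761) (nat_lit 152) (nat_lit 127526816942) (nat_lit 0) (nat_lit 36554597671) (nat_lit 2) (nat_lit 5) (nat_lit 4) (nat_lit 4) (nat_lit 2) (nat_lit 4) (nat_lit 369) (nat_lit 286) (nat_lit 245)) (XT.nd (nat_lit 78) (nat_lit 0) (nat_lit 0) (XT.lf (nat_lit 0) (nat_lit 52227943395) (nat_lit 152) (nat_lit 125490725297) (nat_lit 0) (nat_lit 45691053589) (nat_lit 2) (nat_lit 5) (nat_lit 4) (nat_lit 4) (nat_lit 2) (nat_lit 4) (nat_lit 370) (nat_lit 286) (nat_lit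 244)) (XT.lf (nat_lit 0) (nat_lit 62083362607) (nat_lit 152) (nat_lit 123360514761) (nat_lit 0) (nat_lit 55526578620) (nat_lit 2) (nat_lit 5) (nat_lit 4) (nat_lit 4) (nat_lit 2) (nat_lit 4) (nat_lit 371) (nat_lit 286) (nat_lit 243)))))) (XT.nd (nat_lit 468) (nat_lit 0) (nat_lit 0) (XT.nd (nat_lit 234) (nat_lit 0) (nat_lit 0) (XT.nd (nat_lit 78) (nat_lit 0) (nat_lit 0) (XT.lf (nat_lit 0) (nat_lit 72694661882) (nat_lit 152) (nat_lit 121123561866) (nat_lit 0) (nat_lit 66119457357) (nat_lit 2) (nat_lit 5) (nat_lit 4) (nat_lit 4) (nat_lit 2) (nat_lit 4) (nat_lit 372) (nat_lit 286) (nat_lit 242)) (XT.nd (nat_lit 78) (nat_lit 0) (nat_lit 0) (XT.lf (nat_lit 0) (nat_lit 84124722994) (nat_lit 152) (nat_lit 118766610593) (nat_lit 0) (nat_lit 77532462415) (nat_lit 2) (nat_lit 5) (nat_lit 4) (nat_lit 4) (nat_lit 2) (nat_lit 4) (nat_lit 373) (nat_lit 286) (nat_lit 241)) (XT.lf (nat_lit 0) (nat_lit 96441279638)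 (nat_lit 152) (nat_lit 116275693825) (nat_lit 0) (nat_lit 89833226417) (nat_lit 2) (nat_lit 5) (nat_lit 4) (nat_lit 4) (nat_lit 2) (nat_lit 4) (nat_lit 374) (nat_lit 286) (nat_lit 240)))) (XT.nd (nat_lit 78) (nat_lit 0) (nat_lit 0) (XT.lf (nat_lit 0) (nat_lit 109717318816) (nat_lit 152) (nat_lit 113636050572) (nat_lit 0) (nat_lit 103094642778) (nat_lit 2) (nat_lit 5) (nat_lit 4) (nat_lit 4) (nat_lit 2) (nat_lit 4) (nat_lit 375) (nat_lit 286) (nat_lit 239)) (XT.nd (nat_lit 78) (nat_lit 0) (nat_lit 0) (XT.lf (nat_lit 0) (nat_lit 124031513354) (nat_lit 152) (nat_lit 110832038505) (nat_lit 0) (nat_lit 117395297670) (nat_lit 2) (nat_lit 5) (nat_lit 4) (nat_lit 4) (nat_lit 2) (nat_lit 4) (nat_lit 376) (nat_lit 286) (nat_lit 238)) (XT.lf (nat_lit 0) (nat_lit 139468688107) (nat_lit 152) (nat_lit 107847041256) (nat_lit 0) (nat_lit 132819935715) (nat_lit 2) (nat_lit 5) (nat_lit 4) (nat_lit 4) (nat_lit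 2) (nat_lit 4) (nat_lit 377) (nat_lit 286) (nat_lit 237))))) (XT.nd (nat_lit 234) (nat_lit 0) (nat_lit 0) (XT.nd (nat_lit 78) (nat_lit 0) (nat_lit 0) (XT.lf (nat_lit 0) (nat_lit 156120322630) (nat_lit 152) (nat_lit 104663369951) (nat_lit 0) (nat_lit 149459962175) (nat_lit 2) (nat_lit 5) (nat_lit 4) (nat_lit 4) (nat_lit 2) (nat_lit 4) (nat_lit 378) (nat_lit 286) (nat_lit 236)) (XT.nd (nat_lit 78) (nat_lit 0) (nat_lit 0) (XT.lf (nat_lit 0) (nat_lit 174085093276) (nat_lit 152) (nat_lit 101262158392) (nat_lit 0) (nat_lit 167413984613) (nat_lit 2) (nat_lit 5) (nat_lit 4) (nat_lit 4) (nat_lit 2) (nat_lit 4) (nat_lit 379) (nat_lit 286) (nat_lit 235)) (XT.lf (nat_lit 0) (nat_lit 193469457944) (nat_lit 152) (nat_lit 97623251250) (nat_lit 0) (nat_lit 186788397238) (nat_lit 2) (nat_lit 5) (nat_lit 4) (nat_lit 4) (nat_lit 2) (nat_lit 4) (nat_lit 380) (nat_lit 286) (nat_lit 234)))) (XT.nd (nat_lit 78)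 (nat_lit 0) (nat_lit 0) (XT.lf (nat_lit 0) (nat_lit 214388286944) (nat_lit 152) (nat_lit 93725084630) (nat_lit 0) (nat_lit 207698011383) (nat_lit 2) (nat_lit 5) (nat_lit 4) (nat_lit 4) (nat_lit 2) (nat_lit 4) (nat_lit 381) (nat_lit 286) (nat_lit 233)) (XT.nd (nat_lit 78) (nat_lit 0) (nat_lit 0) (XT.lf (nat_lit 0) (nat_lit 236965543707) (nat_lit 152) (nat_lit 89544558287) (nat_lit 0) (nat_lit 230266735872) (nat_lit 2) (nat_lit 5) (nat_lit 4) (nat_lit 4) (nat_lit 2) (nat_lit 4) (nat_lit 382) (nat_lit 286) (nat_lit 232)) (XT.lf (nat_lit 0) (nat_lit 261335019384) (nat_lit 152) (nat_lit 85056898731) (nat_lit 0) (nat_lit 254628311296) (nat_lit 2) (nat_lit 5) (nat_lit 4) (nat_lit 4) (nat_lit 2) (nat_lit 4) (nat_lit 383) (nat_lit 286) (nat_lit 231))))))))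
noncomputable def xc24 : XT := (XT.nd (nat_lit 43446) (nat_lit 0) (nat_lit 152) (XT.nd (nat_lit 42588) (nat_lit 0) (nat_lit 836) (XT.nd (nat_lit 390) (nat_lit 0) (nat_lit 0) (XT.nd (nat_lit 156) (nat_lit 0) (nat_lit 0) (XT.nd (nat_lit 78) (nat_lit 0) (nat_lit 0) (XT.lf (nat_lit 0) (nat_lit 287641125683) (nat_lit 152) (nat_lit 80235512423) (nat_lit 0) (nat_lit 280927102546) (nat_lit 2) (nat_lit 5) (nat_lit 4) (nat_lit 4) (nat_lit 2) (nat_lit 4) (nat_lit 384) (nat_lit 286) (nat_lit 230)) (XT.lf (nat_lit 0) (nat_lit 316039750641) (nat_lit 152) (nat_lit 75051828186) (nat_lit 0) (nat_lit 309318954310) (nat_lit 2) (nat_lit 5) (nat_lit 4) (nat_lit 4) (nat_lit 2) (nat_lit 4) (nat_lit 385) (nat_lit 286) (nat_lit 229))) (XT.nd (nat_lit 78) (nat_lit 0) (nat_lit 0) (XT.lf (nat_lit 0) (nat_lit 346699182405) (nat_lit 152) (nat_lit 69475127891) (nat_lit 0) (nat_lit 339972114599) (nat_lit 2) (nat_lit 5)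 (nat_lit 4) (nat_lit 4) (nat_lit 2) (nat_lit 4) (nat_lit 386) (nat_lit 286) (nat_lit 228)) (XT.nd (nat_lit 78) (nat_lit 0) (nat_lit 0) (XT.lf (nat_lit 0) (nat_lit 379801106499) (nat_lit 152) (nat_lit 63472364424) (nat_lit 0) (nat_lit 373068231771) (nat_lit 2) (nat_lit 5) (nat_lit 4) (nat_lit 4) (nat_lit 2) (nat_lit 4) (nat_lit 387) (nat_lit 286) (nat_lit 227)) (XT.lf (nat_lit 0) (nat_lit 415541682471) (nat_lit 152) (nat_lit 57007965855) (nat_lit 0) (nat_lit 408803430964) (nat_lit 2) (nat_lit 5) (nat_lit 4) (nat_lit 4) (nat_lit 2) (nat_lit 4) (nat_lit 388) (nat_lit 286) (nat_lit 226))))) (XT.nd (nat_lit 41964) (nat_lit 0) (nat_lit 1976) (XT.nd (nat_lit 78) (nat_lit 0) (nat_lit 0) (XT.lf (nat_lit 0) (nat_lit 454132706328) (nat_lit 152) (nat_lit 50043624636) (nat_lit 0) (nat_lit 447389476321) (nat_lit 2) (nat_lit 5) (nat_lit 4) (nat_lit 4) (nat_lit 2) (nat_lit 4) (nat_lit 389) (nat_lit 286)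 (nat_lit 225)) (XT.nd (nat_lit 78) (nat_lit 0) (nat_lit 0) (XT.lf (nat_lit 0) (nat_lit 495802865618) (nat_lit 152) (nat_lit 42538070597) (nat_lit 0) (nat_lit 489055025889) (nat_lit 2) (nat_lit 5) (nat_lit 4) (nat_lit 4) (nat_lit 2) (nat_lit 4) (nat_lit 390) (nat_lit 286) (nat_lit 224)) (XT.lf (nat_lit 0) (nat_lit 540799094619) (nat_lit 152) (nat_lit 34446826381) (nat_lit 0) (nat_lit 534046986629) (nat_lit 2) (nat_lit 5) (nat_lit 4) (nat_lit 4) (nat_lit 2) (nat_lit 4) (nat_lit 391) (nat_lit 286) (nat_lit 223)))) (XT.nd (nat_lit 78) (nat_lit 304) (nat_lit 0) (XT.lf (nat_lit 0) (nat_lit 1326035126) (nat_lit 152) (nat_lit 3507866342) (nat_lit 0) (nat_lit 1326035126) (nat_lit 32) (nat_lit 5) (nat_lit 34) (nat_lit 4) (nat_lit 32) (nat_lit 4) (nat_lit 326) (nat_lit 287) (nat_lit 287)) (XT.nd (nat_lit 78) (nat_lit 152) (nat_lit 0) (XT.lf (nat_lit 0) (nat_lit 6808477855) (nat_lit 152) (nat_lit 3460671925)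 (nat_lit 152) (nat_lit 2616071600) (nat_lit 30) (nat_lit 4) (nat_lit 32) (nat_lit 5) (nat_lit 32) (nat_lit 4) (nat_lit 327) (nat_lit 287) (nat_lit 286)) (XT.lf (nat_lit 0) (nat_lit 4720769165) (nat_lit 152) (nat_lit 5605688736) (nat_lit 0) (nat_lit 3171590439) (nat_lit 28) (nat_lit 5) (nat_lit 30) (nat_lit 4) (nat_lit 28) (nat_lit 4) (nat_lit 328) (nat_lit 287) (nat_lit 285)))))) (XT.nd (nat_lit 390) (nat_lit 456) (nat_lit 0) (XT.nd (nat_lit 156) (nat_lit 380) (nat_lit 0) (XT.nd (nat_lit 78) (nat_lit 152) (nat_lit 0) (XT.lf (nat_lit 0) (nat_lit 8497671052) (nat_lit 152) (nat_lit 3952118208) (nat_lit 152) (nat_lit 1713312200) (nat_lit 26) (nat_lit 4) (nat_lit 28) (nat_lit 5) (nat_lit 28) (nat_lit 4) (nat_lit 329) (nat_lit 287) (nat_lit 284)) (XT.lf (nat_lit 0) (nat_lit 5615170267) (nat_lit 152) (nat_lit 6392462703) (nat_lit 0) (nat_lit 2874837136) (nat_lit 24) (nat_lit 5) (nat_lit 26) (nat_lit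 4) (nat_lit 24) (nat_lit 4) (nat_lit 330) (nat_lit 287) (nat_lit 283))) (XT.nd (nat_lit 78) (nat_lit 228) (nat_lit 0) (XT.lf (nat_lit 0) (nat_lit 7800586662) (nat_lit 152) (nat_lit 5582653695) (nat_lit 152) (nat_lit 2279230810) (nat_lit 22) (nat_lit 4) (nat_lit 24) (nat_lit 5) (nat_lit 24) (nat_lit 4) (nat_lit 331) (nat_lit 287) (nat_lit 282)) (XT.nd (nat_lit 78) (nat_lit 76) (nat_lit 0) (XT.lf (nat_lit 0) (nat_lit 4967967981) (nat_lit 152) (nat_lit 10214194233) (nat_lit 0) (nat_lit 1325299138) (nat_lit 20) (nat_lit 5) (nat_lit 22) (nat_lit 4) (nat_lit 20) (nat_lit 4) (nat_lit 332) (nat_lit 287) (nat_lit 281)) (XT.lf (nat_lit 0) (nat_lit 3790110390) (nat_lit 76) (nat_lit 8866773612) (nat_lit 76) (nat_lit 4764334575) (nat_lit 19) (nat_lit 4) (nat_lit 20) (nat_lit 5) (nat_lit 20) (nat_lit 4) (nat_lit 333) (nat_lit 287) (nat_lit 280))))) (XT.nd (nat_lit 234) (nat_lit 228) (nat_lit 0) (XT.nd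 (nat_lit 78) (nat_lit 76) (nat_lit 0) (XT.lf (nat_lit 0) (nat_lit 216352732) (nat_lit 76) (nat_lit 2098039908) (nat_lit 152) (nat_lit 16099638679) (nat_lit 17) (nat_lit 5) (nat_lit 18) (nat_lit 5) (nat_lit 19) (nat_lit 4) (nat_lit 334) (nat_lit 287) (nat_lit 279)) (XT.nd (nat_lit 78) (nat_lit 76) (nat_lit 0) (XT.lf (nat_lit 0) (nat_lit 9788058534) (nat_lit 152) (nat_lit 4594505836) (nat_lit 0) (nat_lit 5100124232) (nat_lit 17) (nat_lit 5) (nat_lit 19) (nat_lit 4) (nat_lit 17) (nat_lit 4) (nat_lit 335) (nat_lit 287) (nat_lit 278)) (XT.lf (nat_lit 0) (nat_lit 9807981772) (nat_lit 76) (nat_lit 7935155251) (nat_lit 76) (nat_lit 2899620565) (nat_lit 16) (nat_lit 4) (nat_lit 17) (nat_lit 5) (nat_lit 17) (nat_lit 4) (nat_lit 336) (nat_lit 287) (nat_lit 277)))) (XT.nd (nat_lit 78) (nat_lit 76) (nat_lit 0) (XT.lf (nat_lit 0) (nat_lit 3111394507) (nat_lit 76) (nat_lit 1019718371) (nat_lit 152) (nat_lit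 17769427883) (nat_lit 14) (nat_lit 5) (nat_lit 15) (nat_lit 5) (nat_lit 16) (nat_lit 4) (nat_lit 337) (nat_lit 287) (nat_lit 276)) (XT.nd (nat_lit 78) (nat_lit 76) (nat_lit 0) (XT.lf (nat_lit 0) (nat_lit 11630666970) (nat_lit 152) (nat_lit 5381009543) (nat_lit 0) (nat_lit 6244573448) (nat_lit 14) (nat_lit 5) (nat_lit 16) (nat_lit 4) (nat_lit 14) (nat_lit 4) (nat_lit 338) (nat_lit 287) (nat_lit 275)) (XT.lf (nat_lit 0) (nat_lit 8867327583) (nat_lit 76) (nat_lit 10753752770) (nat_lit 76) (nat_lit 5104862683) (nat_lit 13) (nat_lit 4) (nat_lit 14) (nat_lit 5) (nat_lit 14) (nat_lit 4) (nat_lit 339) (nat_lit 287) (nat_lit 274))))))) (XT.nd (nat_lit 858) (nat_lit 228) (nat_lit 0) (XT.nd (nat_lit 390) (nat_lit 228) (nat_lit 0) (XT.nd (nat_lit 156) (nat_lit 76) (nat_lit 0) (XT.nd (nat_lit 78) (nat_lit 76) (nat_lit 0) (XT.lf (nat_lit 0) (nat_lit 1713982035) (nat_lit 152) (nat_lit 2378557065) (nat_lit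 76) (nat_lit 22227299381) (nat_lit 12) (nat_lit 5) (nat_lit 14) (nat_lit 5) (nat_lit 13) (nat_lit 4) (nat_lit 340) (nat_lit 287) (nat_lit 273)) (XT.lf (nat_lit 0) (nat_lit 8901512729) (nat_lit 152) (nat_lit 16060208268) (nat_lit 0) (nat_lit 3075297553) (nat_lit 11) (nat_lit 5) (nat_lit 13) (nat_lit 4) (nat_lit 11) (nat_lit 4) (nat_lit 341) (nat_lit 287) (nat_lit 272))) (XT.nd (nat_lit 78) (nat_lit 76) (nat_lit 0) (XT.lf (nat_lit 0) (nat_lit 16545112079) (nat_lit 152) (nat_lit 2832247352) (nat_lit 0) (nat_lit 10520214631) (nat_lit 11) (nat_lit 5) (nat_lit 13) (nat_lit 4) (nat_lit 11) (nat_lit 4) (nat_lit 342) (nat_lit 287) (nat_lit 271)) (XT.nd (nat_lit 78) (nat_lit 0) (nat_lit 0) (XT.lf (nat_lit 0) (nat_lit 11413127356) (nat_lit 76) (nat_lit 13352250293) (nat_lit 76) (nat_lit 7143387778) (nat_lit 10) (nat_lit 4) (nat_lit 11) (nat_lit 5) (nat_lit 11) (nat_lit 4) (nat_lit 343) (nat_lit 287)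 (nat_lit 270)) (XT.lf (nat_lit 0) (nat_lit 26510805487) (nat_lit 76) (nat_lit 6978495949) (nat_lit 76) (nat_lit 599295410) (nat_lit 10) (nat_lit 4) (nat_lit 11) (nat_lit 5) (nat_lit 11) (nat_lit 4) (nat_lit 344) (nat_lit 287) (nat_lit 269))))) (XT.nd (nat_lit 234) (nat_lit 76) (nat_lit 0) (XT.nd (nat_lit 78) (nat_lit 0) (nat_lit 0) (XT.lf (nat_lit 0) (nat_lit 6101729305) (nat_lit 76) (nat_lit 63465932) (nat_lit 152) (nat_lit 30277416317) (nat_lit 8) (nat_lit 5) (nat_lit 9) (nat_lit 5) (nat_lit 10) (nat_lit 4) (nat_lit 345) (nat_lit 287) (nat_lit 268)) (XT.nd (nat_lit 78) (nat_lit 0) (nat_lit 0) (XT.lf (nat_lit 0) (nat_lit 13514628883) (nat_lit 152) (nat_lit 18316719708) (nat_lit 0) (nat_lit 7149906661) (nat_lit 8) (nat_lit 5) (nat_lit 10) (nat_lit 4) (nat_lit 8) (nat_lit 4) (nat_lit 346) (nat_lit 287) (nat_lit 267)) (XT.lf (nat_lit 0) (nat_lit 21281537469) (nat_lit 152) (nat_lit 5661977722)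 (nat_lit 0) (nat_lit 14788034470) (nat_lit 8) (nat_lit 5) (nat_lit 10) (nat_lit 4) (nat_lit 8) (nat_lit 4) (nat_lit 347) (nat_lit 287) (nat_lit 266)))) (XT.nd (nat_lit 78) (nat_lit 0) (nat_lit 0) (XT.lf (nat_lit 0) (nat_lit 7953900130) (nat_lit 76) (nat_lit 21681238781) (nat_lit 76) (nat_lit 15068494321) (nat_lit 7) (nat_lit 4) (nat_lit 8) (nat_lit 5) (nat_lit 8) (nat_lit 4) (nat_lit 348) (nat_lit 287) (nat_lit 265)) (XT.nd (nat_lit 78) (nat_lit 0) (nat_lit 0) (XT.lf (nat_lit 0) (nat_lit 22568708115) (nat_lit 76) (nat_lit 16035304787) (nat_lit 76) (nat_lit 9312151568) (nat_lit 7) (nat_lit 4) (nat_lit 8) (nat_lit 5) (nat_lit 8) (nat_lit 4) (nat_lit 349) (nat_lit 287) (nat_lit 264)) (XT.lf (nat_lit 0) (nat_lit 38081841949) (nat_lit 76) (nat_lit 10068144155) (nat_lit 76) (nat_lit 3242760604) (nat_lit 7) (nat_lit 4) (nat_lit 8) (nat_lit 5) (nat_lit 8) (nat_lit 4) (nat_lit 350) (nat_lit 287)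 (nat_lit 263)))))) (XT.nd (nat_lit 390) (nat_lit 76) (nat_lit 0) (XT.nd (nat_lit 156) (nat_lit 0) (nat_lit 0) (XT.nd (nat_lit 78) (nat_lit 76) (nat_lit 0) (XT.lf (nat_lit 0) (nat_lit 3074004849) (nat_lit 152) (nat_lit 618331325) (nat_lit 76) (nat_lit 51459166704) (nat_lit 6) (nat_lit 5) (nat_lit 8) (nat_lit 5) (nat_lit 7) (nat_lit 4) (nat_lit 351) (nat_lit 287) (nat_lit 262)) (XT.lf (nat_lit 0) (nat_lit 9920436092) (nat_lit 152) (nat_lit 46034543340) (nat_lit 0) (nat_lit 3246448188) (nat_lit 5) (nat_lit 5) (nat_lit 7) (nat_lit 4) (nat_lit 5) (nat_lit 4) (nat_lit 352) (nat_lit 287) (nat_lit 261))) (XT.nd (nat_lit 78) (nat_lit 0) (nat_lit 0) (XT.lf (nat_lit 0) (nat_lit 17269244229) (nat_lit 152) (nat_lit 35790423082) (nat_lit 0) (nat_lit 10517967054) (nat_lit 5) (nat_lit 5) (nat_lit 7) (nat_lit 4) (nat_lit 5) (nat_lit 4) (nat_lit 353) (nat_lit 287) (nat_lit 260)) (XT.nd (nat_lit 78) (nat_lit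 0) (nat_lit 0) (XT.lf (nat_lit 0) (nat_lit 25096193457) (nat_lit 152) (nat_lit 24939899803) (nat_lit 0) (nat_lit 18273352142) (nat_lit 5) (nat_lit 5) (nat_lit 7) (nat_lit 4) (nat_lit 5) (nat_lit 4) (nat_lit 354) (nat_lit 287) (nat_lit 259)) (XT.lf (nat_lit 0) (nat_lit 33447665698) (nat_lit 152) (nat_lit 13418674108) (nat_lit 0) (nat_lit 26558561291) (nat_lit 5) (nat_lit 5) (nat_lit 7) (nat_lit 4) (nat_lit 5) (nat_lit 4) (nat_lit 355) (nat_lit 287) (nat_lit 258))))) (XT.nd (nat_lit 234) (nat_lit 0) (nat_lit 0) (XT.nd (nat_lit 78) (nat_lit 76) (nat_lit 0) (XT.lf (nat_lit 0) (nat_lit 42373151158) (nat_lit 152) (nat_lit 1158472065) (nat_lit 0) (nat_lit 35422692036) (nat_lit 5) (nat_lit 5) (nat_lit 7) (nat_lit 4) (nat_lit 5) (nat_lit 4) (nat_lit 356) (nat_lit 287) (nat_lit 257)) (XT.nd (nat_lit 78) (nat_lit 0) (nat_lit 0) (XT.lf (nat_lit 0) (nat_lit 12307268837) (nat_lit 76) (nat_lit 39810423722)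 (nat_lit 76) (nat_lit 32803154679) (nat_lit 4) (nat_lit 4) (nat_lit 5) (nat_lit 5) (nat_lit 5) (nat_lit 4) (nat_lit 357) (nat_lit 287) (nat_lit 256)) (XT.lf (nat_lit 0) (nat_lit 26729803559) (nat_lit 76) (nat_lit 35848967373) (nat_lit 76) (nat_lit 28789096551) (nat_lit 4) (nat_lit 4) (nat_lit 5) (nat_lit 5) (nat_lit 5) (nat_lit 4) (nat_lit 358) (nat_lit 287) (nat_lit 255)))) (XT.nd (nat_lit 78) (nat_lit 0) (nat_lit 0) (XT.lf (nat_lit 0) (nat_lit 42156294655) (nat_lit 76) (nat_lit 31643398162) (nat_lit 76) (nat_lit 24534821989) (nat_lit 4) (nat_lit 4) (nat_lit 5) (nat_lit 5) (nat_lit 5) (nat_lit 4) (nat_lit 359) (nat_lit 287) (nat_lit 254)) (XT.nd (nat_lit 78) (nat_lit 0) (nat_lit 0) (XT.lf (nat_lit 0) (nat_lit 58678158369) (nat_lit 76) (nat_lit 27168794200) (nat_lit 76) (nat_lit 20015120480) (nat_lit 4) (nat_lit 4) (nat_lit 5) (nat_lit 5) (nat_lit 5) (nat_lit 4) (nat_lit 360) (nat_lit 287)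 (nat_lit 253)) (XT.lf (nat_lit 0) (nat_lit 76393302040) (nat_lit 76) (nat_lit 22398639313) (nat_lit 76) (nat_lit 15203208605) (nat_lit 4) (nat_lit 4) (nat_lit 5) (nat_lit 5) (nat_lit 5) (nat_lit 4) (nat_lit 361) (nat_lit 287) (nat_lit 252))))))))
noncomputable def xc25 : XT := (XT.nd (nat_lit 1716) (nat_lit 0) (nat_lit 0) (XT.nd (nat_lit 858) (nat_lit 0) (nat_lit 0) (XT.nd (nat_lit 390) (nat_lit 0) (nat_lit 0) (XT.nd (nat_lit 156) (nat_lit 152) (nat_lit 0) (XT.nd (nat_lit 78) (nat_lit 0) (nat_lit 0) (XT.lf (nat_lit 0) (nat_lit 95406704299) (nat_lit 76) (nat_lit 17304665918) (nat_lit 76) (nat_lit 10070571333) (nat_lit 4) (nat_lit 4) (nat_lit 5) (nat_lit 5) (nat_lit 5) (nat_lit 4) (nat_lit 362) (nat_lit 287) (nat_lit 251)) (XT.lf (nat_lit 0) (nat_lit 115831037158) (nat_lit 76) (nat_lit 11856687506) (nat_lit 76) (nat_lit 4586793033) (nat_lit 4) (nat_lit 4) (nat_lit 5) (nat_lit 5) (nat_lit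 5) (nat_lit 4) (nat_lit 363) (nat_lit 287) (nat_lit 250))) (XT.nd (nat_lit 78) (nat_lit 76) (nat_lit 0) (XT.lf (nat_lit 0) (nat_lit 1239634829) (nat_lit 152) (nat_lit 4761791114) (nat_lit 76) (nat_lit 136526705056) (nat_lit 3) (nat_lit 5) (nat_lit 5) (nat_lit 5) (nat_lit 4) (nat_lit 4) (nat_lit 364) (nat_lit 287) (nat_lit 249)) (XT.nd (nat_lit 78) (nat_lit 0) (nat_lit 0) (XT.lf (nat_lit 0) (nat_lit 7455760679) (nat_lit 152) (nat_lit 145667055872) (nat_lit 0) (nat_lit 471251013) (nat_lit 2) (nat_lit 5) (nat_lit 4) (nat_lit 4) (nat_lit 2) (nat_lit 4) (nat_lit 365) (nat_lit 287) (nat_lit 248)) (XT.lf (nat_lit 0) (nat_lit 14306846988) (nat_lit 152) (nat_lit 143936284440) (nat_lit 0) (nat_lit 7295271509) (nat_lit 2) (nat_lit 5) (nat_lit 4) (nat_lit 4) (nat_lit 2) (nat_lit 4) (nat_lit 366) (nat_lit 287) (nat_lit 247))))) (XT.nd (nat_lit 234) (nat_lit 0) (nat_lit 0) (XT.nd (nat_lit 78) (nat_lit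 0) (nat_lit 0) (XT.lf (nat_lit 0) (nat_lit 21661731561) (nat_lit 152) (nat_lit 142153679724) (nat_lit 0) (nat_lit 14625095143) (nat_lit 2) (nat_lit 5) (nat_lit 4) (nat_lit 4) (nat_lit 2) (nat_lit 4) (nat_lit 367) (nat_lit 287) (nat_lit 246)) (XT.nd (nat_lit 78) (nat_lit 0) (nat_lit 0) (XT.lf (nat_lit 0) (nat_lit 29563998897) (nat_lit 152) (nat_lit 140308678142) (nat_lit 0) (nat_lit 22504157907) (nat_lit 2) (nat_lit 5) (nat_lit 4) (nat_lit 4) (nat_lit 2) (nat_lit 4) (nat_lit 368) (nat_lit 287) (nat_lit 245)) (XT.lf (nat_lit 0) (nat_lit 38060477249) (nat_lit 152) (nat_lit 138390346349) (nat_lit 0) (nat_lit 30979150543) (nat_lit 2) (nat_lit 5) (nat_lit 4) (nat_lit 4) (nat_lit 2) (nat_lit 4) (nat_lit 369) (nat_lit 287) (nat_lit 244)))) (XT.nd (nat_lit 78) (nat_lit 0) (nat_lit 0) (XT.lf (nat_lit 0) (nat_lit 47201516117) (nat_lit 152) (nat_lit 136387316454) (nat_lit 0) (nat_lit 40100295230) (nat_lit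 2) (nat_lit 5) (nat_lit 4) (nat_lit 4) (nat_lit 2) (nat_lit 4) (nat_lit 370) (nat_lit 287) (nat_lit 243)) (XT.nd (nat_lit 78) (nat_lit 0) (nat_lit 0) (XT.lf (nat_lit 0) (nat_lit 57041284621) (nat_lit 152) (nat_lit 134287718651) (nat_lit 0) (nat_lit 49921643195) (nat_lit 2) (nat_lit 5) (nat_lit 4) (nat_lit 4) (nat_lit 2) (nat_lit 4) (nat_lit 371) (nat_lit 287) (nat_lit 242)) (XT.lf (nat_lit 0) (nat_lit 67638092499) (nat_lit 152) (nat_lit 132079110878) (nat_lit 0) (nat_lit 60501395020) (nat_lit 2) (nat_lit 5) (nat_lit 4) (nat_lit 4) (nat_lit 2) (nat_lit 4) (nat_lit 372) (nat_lit 287) (nat_lit 241)))))) (XT.nd (nat_lit 390) (nat_lit 0) (nat_lit 0) (XT.nd (nat_lit 156) (nat_lit 0) (nat_lit 0) (XT.nd (nat_lit 78) (nat_lit 0) (nat_lit 0) (XT.lf (nat_lit 0) (nat_lit 79054735651) (nat_lit 152) (nat_lit 129748405088) (nat_lit 0) (nat_lit 71902245530) (nat_lit 2) (nat_lit 5) (nat_lit 4) (nat_lit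 4) (nat_lit 2) (nat_lit 4) (nat_lit 373) (nat_lit 287) (nat_lit 240)) (XT.lf (nat_lit 0) (nat_lit 91358868258) (nat_lit 152) (nat_lit 127281789694) (nat_lit 0) (nat_lit 84191755320) (nat_lit 2) (nat_lit 5) (nat_lit 4) (nat_lit 4) (nat_lit 2) (nat_lit 4) (nat_lit 374) (nat_lit 287) (nat_lit 239))) (XT.nd (nat_lit 78) (nat_lit 0) (nat_lit 0) (XT.lf (nat_lit 0) (nat_lit 104623403698) (nat_lit 152) (nat_lit 124664647713) (nat_lit 0) (nat_lit 97442751115) (nat_lit 2) (nat_lit 5) (nat_lit 4) (nat_lit 4) (nat_lit 2) (nat_lit 4) (nat_lit 375) (nat_lit 287) (nat_lit 238)) (XT.nd (nat_lit 78) (nat_lit 0) (nat_lit 0) (XT.lf (nat_lit 0) (nat_lit 118926946627) (nat_lit 152) (nat_lit 121881470157) (nat_lit 0) (nat_lit 111733757334) (nat_lit 2) (nat_lit 5) (nat_lit 4) (nat_lit 4) (nat_lit 2) (nat_lit 4) (nat_lit 376) (nat_lit 287) (nat_lit 237)) (XT.lf (nat_lit 0) (nat_lit 134354258779) (nat_lit 152)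 (nat_lit 118915764122) (nat_lit 0) (nat_lit 127149461423) (nat_lit 2) (nat_lit 5) (nat_lit 4) (nat_lit 4) (nat_lit 2) (nat_lit 4) (nat_lit 377) (nat_lit 287) (nat_lit 236))))) (XT.nd (nat_lit 234) (nat_lit 0) (nat_lit 0) (XT.nd (nat_lit 78) (nat_lit 0) (nat_lit 0) (XT.lf (nat_lit 0) (nat_lit 150996761264) (nat_lit 152) (nat_lit 115749955053) (nat_lit 0) (nat_lit 143781215701) (nat_lit 2) (nat_lit 5) (nat_lit 4) (nat_lit 4) (nat_lit 2) (nat_lit 4) (nat_lit 378) (nat_lit 287) (nat_lit 235)) (XT.nd (nat_lit 78) (nat_lit 0) (nat_lit 0) (XT.lf (nat_lit 0) (nat_lit 168953076318) (nat_lit 152) (nat_lit 112365282600) (nat_lit 0) (nat_lit 161727578712) (nat_lit 2) (nat_lit 5) (nat_lit 4) (nat_lit 4) (nat_lit 2) (nat_lit 4) (nat_lit 379) (nat_lit 287) (nat_lit 234)) (XT.lf (nat_lit 0) (nat_lit 188329611736) (nat_lit 152) (nat_lit 108741689445) (nat_lit 0) (nat_lit 181094899274) (nat_lit 2) (nat_lit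 5) (nat_lit 4) (nat_lit 4) (nat_lit 2) (nat_lit 4) (nat_lit 380) (nat_lit 287) (nat_lit 233)))) (XT.nd (nat_lit 78) (nat_lit 0) (nat_lit 0) (XT.lf (nat_lit 0) (nat_lit 209241191429) (nat_lit 152) (nat_lit 104857702444) (nat_lit 0) (nat_lit 201997946695) (nat_lit 2) (nat_lit 5) (nat_lit 4) (nat_lit 4) (nat_lit 2) (nat_lit 4) (nat_lit 381) (nat_lit 287) (nat_lit 232)) (XT.nd (nat_lit 78) (nat_lit 0) (nat_lit 0) (XT.lf (nat_lit 0) (nat_lit 231811735872) (nat_lit 152) (nat_lit 100690305377) (nat_lit 0) (nat_lit 224560590884) (nat_lit 2) (nat_lit 5) (nat_lit 4) (nat_lit 4) (nat_lit 2) (nat_lit 4) (nat_lit 382) (nat_lit 287) (nat_lit 231)) (XT.lf (nat_lit 0) (nat_lit 256174996437) (nat_lit 152) (nat_lit 96214802558) (nat_lit 0) (nat_lit 248916536400) (nat_lit 2) (nat_lit 5) (nat_lit 4) (nat_lit 4) (nat_lit 2) (nat_lit 4) (nat_lit 383) (nat_lit 287) (nat_lit 230))))))) (XT.nd (nat_lit 42432) (nat_lit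 0) (nat_lit 988) (XT.nd (nat_lit 390) (nat_lit 0) (nat_lit 0) (XT.nd (nat_lit 156) (nat_lit 0) (nat_lit 0) (XT.nd (nat_lit 78) (nat_lit 0) (nat_lit 0) (XT.lf (nat_lit 0) (nat_lit 282475348003) (nat_lit 152) (nat_lit 91404672488) (nat_lit 0) (nat_lit 275210114772) (nat_lit 2) (nat_lit 5) (nat_lit 4) (nat_lit 4) (nat_lit 2) (nat_lit 4) (nat_lit 384) (nat_lit 287) (nat_lit 229)) (XT.lf (nat_lit 0) (nat_lit 310868644504) (nat_lit 152) (nat_lit 86231410694) (nat_lit 0) (nat_lit 303597139798) (nat_lit 2) (nat_lit 5) (nat_lit 4) (nat_lit 4) (nat_lit 2) (nat_lit 4) (nat_lit 385) (nat_lit 287) (nat_lit 228))) (XT.nd (nat_lit 78) (nat_lit 0) (nat_lit 0) (XT.lf (nat_lit 0) (nat_lit 341523142513) (nat_lit 152) (nat_lit 80664360808) (nat_lit 0) (nat_lit 334245830885) (nat_lit 2) (nat_lit 5) (nat_lit 4) (nat_lit 4) (nat_lit 2) (nat_lit 4) (nat_lit 386) (nat_lit 287) (nat_lit 227)) (XT.nd (nat_lit 78)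 (nat_lit 0) (nat_lit 0) (XT.lf (nat_lit 0) (nat_lit 374620498313) (nat_lit 152) (nat_lit 74670532907) (nat_lit 0) (nat_lit 367337809906) (nat_lit 2) (nat_lit 5) (nat_lit 4) (nat_lit 4) (nat_lit 2) (nat_lit 4) (nat_lit 387) (nat_lit 287) (nat_lit 226)) (XT.lf (nat_lit 0) (nat_lit 410356844385) (nat_lit 152) (nat_lit 68214408009) (nat_lit 0) (nat_lit 403069177478) (nat_lit 2) (nat_lit 5) (nat_lit 4) (nat_lit 4) (nat_lit 2) (nat_lit 4) (nat_lit 388) (nat_lit 287) (nat_lit 225))))) (XT.nd (nat_lit 41808) (nat_lit 0) (nat_lit 2280) (XT.nd (nat_lit 78) (nat_lit 0) (nat_lit 0) (XT.lf (nat_lit 0) (nat_lit 448943951667) (nat_lit 152) (nat_lit 61257727596) (nat_lit 0) (nat_lit 441651675039) (nat_lit 2) (nat_lit 5) (nat_lit 4) (nat_lit 4) (nat_lit 2) (nat_lit 4) (nat_lit 389) (nat_lit 287) (nat_lit 224)) (XT.nd (nat_lit 78) (nat_lit 0) (nat_lit 0) (XT.lf (nat_lit 0) (nat_lit 490610484499) (nat_lit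 152) (nat_lit 53759266896) (nat_lit 0) (nat_lit 483313939610) (nat_lit 2) (nat_lit 5) (nat_lit 4) (nat_lit 4) (nat_lit 2) (nat_lit 4) (nat_lit 390) (nat_lit 287) (nat_lit 223)) (XT.lf (nat_lit 0) (nat_lit 535603355669) (nat_lit 152) (nat_lit 45674590587) (nat_lit 0) (nat_lit 528302858686) (nat_lit 2) (nat_lit 5) (nat_lit 4) (nat_lit 4) (nat_lit 2) (nat_lit 4) (nat_lit 391) (nat_lit 287) (nat_lit 222)))) (XT.nd (nat_lit 78) (nat_lit 304) (nat_lit 0) (XT.lf (nat_lit 0) (nat_lit 419491660) (nat_lit 228) (nat_lit 4815963692) (nat_lit 0) (nat_lit 419491660) (nat_lit 36) (nat_lit 5) (nat_lit 39) (nat_lit 4) (nat_lit 36) (nat_lit 4) (nat_lit 324) (nat_lit 288) (nat_lit 288)) (XT.nd (nat_lit 78) (nat_lit 152) (nat_lit 0) (XT.lf (nat_lit 0) (nat_lit 3442107410) (nat_lit 152) (nat_lit 4657004492) (nat_lit 152) (nat_lit 3699227724) (nat_lit 34) (nat_lit 4) (nat_lit 36) (nat_lit 5) (nat_lit 36) (nat_lit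 4) (nat_lit 325) (nat_lit 288) (nat_lit 287)) (XT.lf (nat_lit 0) (nat_lit 3356370683) (nat_lit 152) (nat_lit 7374404971) (nat_lit 0) (nat_lit 1599602007) (nat_lit 32) (nat_lit 5) (nat_lit 34) (nat_lit 4) (nat_lit 32) (nat_lit 4) (nat_lit 326) (nat_lit 288) (nat_lit 286)))))) (XT.nd (nat_lit 390) (nat_lit 532) (nat_lit 0) (XT.nd (nat_lit 156) (nat_lit 456) (nat_lit 0) (XT.nd (nat_lit 78) (nat_lit 152) (nat_lit 0) (XT.lf (nat_lit 0) (nat_lit 6094861415) (nat_lit 152) (nat_lit 4674976947) (nat_lit 152) (nat_lit 2136170933) (nat_lit 30) (nat_lit 4) (nat_lit 32) (nat_lit 5) (nat_lit 32) (nat_lit 4) (nat_lit 327) (nat_lit 288) (nat_lit 285)) (XT.lf (nat_lit 0) (nat_lit 4960584582) (nat_lit 152) (nat_lit 6716157201) (nat_lit 0) (nat_lit 1853046811) (nat_lit 28) (nat_lit 5) (nat_lit 30) (nat_lit 4) (nat_lit 28) (nat_lit 4) (nat_lit 328) (nat_lit 288) (nat_lit 284))) (XT.nd (nat_lit 78) (nat_lit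 304) (nat_lit 0) (XT.lf (nat_lit 0) (nat_lit 7023289557) (nat_lit 152) (nat_lit 5463918751) (nat_lit 152) (nat_lit 1717837200) (nat_lit 26) (nat_lit 4) (nat_lit 28) (nat_lit 5) (nat_lit 28) (nat_lit 4) (nat_lit 329) (nat_lit 288) (nat_lit 283)) (XT.nd (nat_lit 78) (nat_lit 152) (nat_lit 0) (XT.lf (nat_lit 0) (nat_lit 5381462374) (nat_lit 152) (nat_lit 8303819848) (nat_lit 0) (nat_lit 1250675906) (nat_lit 24) (nat_lit 5) (nat_lit 26) (nat_lit 4) (nat_lit 24) (nat_lit 4) (nat_lit 330) (nat_lit 288) (nat_lit 282)) (XT.lf (nat_lit 0) (nat_lit 5514387264) (nat_lit 152) (nat_lit 7431982255) (nat_lit 152) (nat_lit 2779816386) (nat_lit 22) (nat_lit 4) (nat_lit 24) (nat_lit 5) (nat_lit 24) (nat_lit 4) (nat_lit 331) (nat_lit 288) (nat_lit 281))))) (XT.nd (nat_lit 234) (nat_lit 228) (nat_lit 0) (XT.nd (nat_lit 78) (nat_lit 152) (nat_lit 0) (XT.lf (nat_lit 0) (nat_lit 3592467831) (nat_lit 76) (nat_lit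 664796756) (nat_lit 152) (nat_lit 12325669732) (nat_lit 20) (nat_lit 5) (nat_lit 21) (nat_lit 5) (nat_lit 22) (nat_lit 4) (nat_lit 332) (nat_lit 288) (nat_lit 280)) (XT.nd (nat_lit 78) (nat_lit 76) (nat_lit 0) (XT.lf (nat_lit 0) (nat_lit 636255669) (nat_lit 76) (nat_lit 11093710052) (nat_lit 76) (nat_lit 5777592554) (nat_lit 19) (nat_lit 4) (nat_lit 20) (nat_lit 5) (nat_lit 20) (nat_lit 4) (nat_lit 333) (nat_lit 288) (nat_lit 279)) (XT.lf (nat_lit 0) (nat_lit 1178408123) (nat_lit 152) (nat_lit 3294559682) (nat_lit 76) (nat_lit 14036001429) (nat_lit 18) (nat_lit 5) (nat_lit 20) (nat_lit 5) (nat_lit 19) (nat_lit 4) (nat_lit 334) (nat_lit 288) (nat_lit 278)))) (XT.nd (nat_lit 78) (nat_lit 152) (nat_lit 0) (XT.lf (nat_lit 0) (nat_lit 8414356935) (nat_lit 152) (nat_lit 8546822063) (nat_lit 0) (nat_lit 2628379088) (nat_lit 17) (nat_lit 5) (nat_lit 19) (nat_lit 4) (nat_lit 17) (nat_lit 4) (nat_lit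 335) (nat_lit 288) (nat_lit 277)) (XT.nd (nat_lit 78) (nat_lit 76) (nat_lit 0) (XT.lf (nat_lit 0) (nat_lit 5464014455) (nat_lit 76) (nat_lit 10701832219) (nat_lit 76) (nat_lit 4594002164) (nat_lit 16) (nat_lit 4) (nat_lit 17) (nat_lit 5) (nat_lit 17) (nat_lit 4) (nat_lit 336) (nat_lit 288) (nat_lit 276)) (XT.lf (nat_lit 0) (nat_lit 2310740803) (nat_lit 152) (nat_lit 1668822710) (nat_lit 76) (nat_lit 18048439589) (nat_lit 15) (nat_lit 5) (nat_lit 17) (nat_lit 5) (nat_lit 16) (nat_lit 4) (nat_lit 337) (nat_lit 288) (nat_lit 275))))))))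
noncomputable def xc26 : XT := (XT.nd (nat_lit 1716) (nat_lit 152) (nat_lit 0) (XT.nd (nat_lit 858) (nat_lit 304) (nat_lit 0) (XT.nd (nat_lit 390) (nat_lit 228) (nat_lit 0) (XT.nd (nat_lit 156) (nat_lit 152) (nat_lit 0) (XT.nd (nat_lit 78) (nat_lit 76) (nat_lit 0) (XT.lf (nat_lit 0) (nat_lit 9609445291) (nat_lit 152) (nat_lit 10538496621) (nat_lit 0) (nat_lit 3245847433) (nat_lit 14) (nat_lit 5) (nat_lit 16) (nat_lit 4) (nat_lit 14) (nat_lit 4) (nat_lit 338) (nat_lit 288) (nat_lit 274)) (XT.lf (nat_lit 0) (nat_lit 3309802391) (nat_lit 76) (nat_lit 14085435539) (nat_lit 76) (nat_lit 7478507529) (nat_lit 13) (nat_lit 4) (nat_lit 14) (nat_lit 5) (nat_lit 14) (nat_lit 4) (nat_lit 339) (nat_lit 288) (nat_lit 273))) (XT.nd (nat_lit 78) (nat_lit 152) (nat_lit 0) (XT.lf (nat_lit 0) (nat_lit 18200275654) (nat_lit 76) (nat_lit 7553316421) (nat_lit 76) (nat_lit 721082715) (nat_lit 13) (nat_lit 4)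 (nat_lit 14) (nat_lit 5) (nat_lit 14) (nat_lit 4) (nat_lit 340) (nat_lit 288) (nat_lit 272)) (XT.nd (nat_lit 78) (nat_lit 0) (nat_lit 0) (XT.lf (nat_lit 0) (nat_lit 5742822292) (nat_lit 76) (nat_lit 493115455) (nat_lit 152) (nat_lit 21969185616) (nat_lit 11) (nat_lit 5) (nat_lit 12) (nat_lit 5) (nat_lit 13) (nat_lit 4) (nat_lit 341) (nat_lit 288) (nat_lit 271)) (XT.lf (nat_lit 0) (nat_lit 13769428265) (nat_lit 152) (nat_lit 9421888565) (nat_lit 0) (nat_lit 6879891682) (nat_lit 11) (nat_lit 5) (nat_lit 13) (nat_lit 4) (nat_lit 11) (nat_lit 4) (nat_lit 342) (nat_lit 288) (nat_lit 270))))) (XT.nd (nat_lit 234) (nat_lit 76) (nat_lit 0) (XT.nd (nat_lit 78) (nat_lit 76) (nat_lit 0) (XT.lf (nat_lit 0) (nat_lit 4418840732) (nat_lit 76) (nat_lit 17366828686) (nat_lit 76) (nat_lit 10306954080) (nat_lit 10) (nat_lit 4) (nat_lit 11) (nat_lit 5) (nat_lit 11) (nat_lit 4) (nat_lit 343) (nat_lit 288) (nat_lit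 269)) (XT.nd (nat_lit 78) (nat_lit 76) (nat_lit 0) (XT.lf (nat_lit 0) (nat_lit 19343590982) (nat_lit 76) (nat_lit 11075502337) (nat_lit 76) (nat_lit 3857907337) (nat_lit 10) (nat_lit 4) (nat_lit 11) (nat_lit 5) (nat_lit 11) (nat_lit 4) (nat_lit 344) (nat_lit 288) (nat_lit 268)) (XT.lf (nat_lit 0) (nat_lit 2830425656) (nat_lit 152) (nat_lit 1561259804) (nat_lit 76) (nat_lit 32250914677) (nat_lit 9) (nat_lit 5) (nat_lit 11) (nat_lit 5) (nat_lit 10) (nat_lit 4) (nat_lit 345) (nat_lit 288) (nat_lit 267)))) (XT.nd (nat_lit 78) (nat_lit 0) (nat_lit 0) (XT.lf (nat_lit 0) (nat_lit 10004213327) (nat_lit 152) (nat_lit 26323380432) (nat_lit 0) (nat_lit 2862449311) (nat_lit 8) (nat_lit 5) (nat_lit 10) (nat_lit 4) (nat_lit 8) (nat_lit 4) (nat_lit 346) (nat_lit 288) (nat_lit 266)) (XT.nd (nat_lit 78) (nat_lit 0) (nat_lit 0) (XT.lf (nat_lit 0) (nat_lit 17694755325) (nat_lit 152) (nat_lit 13815666315)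 (nat_lit 0) (nat_lit 10433749849) (nat_lit 8) (nat_lit 5) (nat_lit 10) (nat_lit 4) (nat_lit 8) (nat_lit 4) (nat_lit 347) (nat_lit 288) (nat_lit 265)) (XT.lf (nat_lit 0) (nat_lit 25853464292) (nat_lit 152) (nat_lit 590499857) (nat_lit 0) (nat_lit 18482050057) (nat_lit 8) (nat_lit 5) (nat_lit 10) (nat_lit 4) (nat_lit 8) (nat_lit 4) (nat_lit 348) (nat_lit 288) (nat_lit 264)))))) (XT.nd (nat_lit 390) (nat_lit 76) (nat_lit 0) (XT.nd (nat_lit 156) (nat_lit 152) (nat_lit 0) (XT.nd (nat_lit 78) (nat_lit 0) (nat_lit 0) (XT.lf (nat_lit 0) (nat_lit 13874562963) (nat_lit 76) (nat_lit 20870745981) (nat_lit 76) (nat_lit 13397101412) (nat_lit 7) (nat_lit 4) (nat_lit 8) (nat_lit 5) (nat_lit 8) (nat_lit 4) (nat_lit 349) (nat_lit 288) (nat_lit 263)) (XT.lf (nat_lit 0) (nat_lit 29267122192) (nat_lit 76) (nat_lit 14961655186) (nat_lit 76) (nat_lit 7393352902) (nat_lit 7) (nat_lit 4) (nat_lit 8) (nat_lit 5)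 (nat_lit 8) (nat_lit 4) (nat_lit 350) (nat_lit 288) (nat_lit 262))) (XT.nd (nat_lit 78) (nat_lit 152) (nat_lit 0) (XT.lf (nat_lit 0) (nat_lit 45658868405) (nat_lit 76) (nat_lit 8691675332) (nat_lit 76) (nat_lit 1035727016) (nat_lit 7) (nat_lit 4) (nat_lit 8) (nat_lit 5) (nat_lit 8) (nat_lit 4) (nat_lit 351) (nat_lit 288) (nat_lit 261)) (XT.nd (nat_lit 78) (nat_lit 0) (nat_lit 0) (XT.lf (nat_lit 0) (nat_lit 3719649101) (nat_lit 76) (nat_lit 1869009997) (nat_lit 152) (nat_lit 53861114835) (nat_lit 5) (nat_lit 5) (nat_lit 6) (nat_lit 5) (nat_lit 7) (nat_lit 4) (nat_lit 352) (nat_lit 288) (nat_lit 260)) (XT.lf (nat_lit 0) (nat_lit 12855515809) (nat_lit 152) (nat_lit 45559288803) (nat_lit 0) (nat_lit 5415283049) (nat_lit 5) (nat_lit 5) (nat_lit 7) (nat_lit 4) (nat_lit 5) (nat_lit 4) (nat_lit 353) (nat_lit 288) (nat_lit 259))))) (XT.nd (nat_lit 234) (nat_lit 76) (nat_lit 0) (XT.nd (nat_lit 78)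 (nat_lit 0) (nat_lit 0) (XT.lf (nat_lit 0) (nat_lit 20633603053) (nat_lit 152) (nat_lit 34803640258) (nat_lit 0) (nat_lit 13127107202) (nat_lit 5) (nat_lit 5) (nat_lit 7) (nat_lit 4) (nat_lit 5) (nat_lit 4) (nat_lit 354) (nat_lit 288) (nat_lit 258)) (XT.nd (nat_lit 78) (nat_lit 0) (nat_lit 0) (XT.lf (nat_lit 0) (nat_lit 28939832717) (nat_lit 152) (nat_lit 23370261537) (nat_lit 0) (nat_lit 21371982151) (nat_lit 5) (nat_lit 5) (nat_lit 7) (nat_lit 4) (nat_lit 5) (nat_lit 4) (nat_lit 355) (nat_lit 288) (nat_lit 257)) (XT.lf (nat_lit 0) (nat_lit 37823426901) (nat_lit 152) (nat_lit 11191399286) (nat_lit 0) (nat_lit 30198766414) (nat_lit 5) (nat_lit 5) (nat_lit 7) (nat_lit 4) (nat_lit 5) (nat_lit 4) (nat_lit 356) (nat_lit 288) (nat_lit 256)))) (XT.nd (nat_lit 78) (nat_lit 0) (nat_lit 0) (XT.lf (nat_lit 0) (nat_lit 1864802868) (nat_lit 76) (nat_lit 45501341058) (nat_lit 76) (nat_lit 37824078791)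 (nat_lit 4) (nat_lit 4) (nat_lit 5) (nat_lit 5) (nat_lit 5) (nat_lit 4) (nat_lit 357) (nat_lit 288) (nat_lit 255)) (XT.nd (nat_lit 78) (nat_lit 0) (nat_lit 0) (XT.lf (nat_lit 0) (nat_lit 16215296050) (nat_lit 76) (nat_lit 41574886462) (nat_lit 76) (nat_lit 33848918844) (nat_lit 4) (nat_lit 4) (nat_lit 5) (nat_lit 5) (nat_lit 5) (nat_lit 4) (nat_lit 358) (nat_lit 288) (nat_lit 254)) (XT.lf (nat_lit 0) (nat_lit 31575082016) (nat_lit 76) (nat_lit 37401726282) (nat_lit 76) (nat_lit 29630661118) (nat_lit 4) (nat_lit 4) (nat_lit 5) (nat_lit 5) (nat_lit 5) (nat_lit 4) (nat_lit 359) (nat_lit 288) (nat_lit 253))))))) (XT.nd (nat_lit 858) (nat_lit 0) (nat_lit 0) (XT.nd (nat_lit 390) (nat_lit 152) (nat_lit 0) (XT.nd (nat_lit 156) (nat_lit 0) (nat_lit 0) (XT.nd (nat_lit 78) (nat_lit 0) (nat_lit 0) (XT.lf (nat_lit 0) (nat_lit 48035181721) (nat_lit 76) (nat_lit 32957130682) (nat_lit 76) (nat_lit 25144308529)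 (nat_lit 4) (nat_lit 4) (nat_lit 5) (nat_lit 5) (nat_lit 5) (nat_lit 4) (nat_lit 360) (nat_lit 288) (nat_lit 252)) (XT.lf (nat_lit 0) (nat_lit 65693136495) (nat_lit 76) (nat_lit 28214761316) (nat_lit 76) (nat_lit 20363275286) (nat_lit 4) (nat_lit 4) (nat_lit 5) (nat_lit 5) (nat_lit 5) (nat_lit 4) (nat_lit 361) (nat_lit 288) (nat_lit 251))) (XT.nd (nat_lit 78) (nat_lit 0) (nat_lit 0) (XT.lf (nat_lit 0) (nat_lit 84653586071) (nat_lit 76) (nat_lit 23146515255) (nat_lit 76) (nat_lit 15259229338) (nat_lit 4) (nat_lit 4) (nat_lit 5) (nat_lit 5) (nat_lit 5) (nat_lit 4) (nat_lit 362) (nat_lit 288) (nat_lit 250)) (XT.nd (nat_lit 78) (nat_lit 0) (nat_lit 0) (XT.lf (nat_lit 0) (nat_lit 105028888669) (nat_lit 76) (nat_lit 17722358448) (nat_lit 76) (nat_lit 9801924487) (nat_lit 4) (nat_lit 4) (nat_lit 5) (nat_lit 5) (nat_lit 5) (nat_lit 4) (nat_lit 363) (nat_lit 288) (nat_lit 249)) (XT.lf (nat_lit 0)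 (nat_lit 126939786821) (nat_lit 76) (nat_lit 11910147744) (nat_lit 76) (nat_lit 3959021150) (nat_lit 4) (nat_lit 4) (nat_lit 5) (nat_lit 5) (nat_lit 5) (nat_lit 4) (nat_lit 364) (nat_lit 288) (nat_lit 248))))) (XT.nd (nat_lit 234) (nat_lit 0) (nat_lit 0) (XT.nd (nat_lit 78) (nat_lit 76) (nat_lit 0) (XT.lf (nat_lit 0) (nat_lit 2230359526) (nat_lit 152) (nat_lit 3407308667) (nat_lit 76) (nat_lit 148247991144) (nat_lit 3) (nat_lit 5) (nat_lit 5) (nat_lit 5) (nat_lit 4) (nat_lit 4) (nat_lit 365) (nat_lit 288) (nat_lit 247)) (XT.nd (nat_lit 78) (nat_lit 0) (nat_lit 0) (XT.lf (nat_lit 0) (nat_lit 8916275900) (nat_lit 152) (nat_lit 155630332973) (nat_lit 0) (nat_lit 1291647631) (nat_lit 2) (nat_lit 5) (nat_lit 4) (nat_lit 4) (nat_lit 2) (nat_lit 4) (nat_lit 366) (nat_lit 288) (nat_lit 246)) (XT.lf (nat_lit 0) (nat_lit 16251445087) (nat_lit 152) (nat_lit 153886291483) (nat_lit 0) (nat_lit 8603612245)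 (nat_lit 2) (nat_lit 5) (nat_lit 4) (nat_lit 4) (nat_lit 2) (nat_lit 4) (nat_lit 367) (nat_lit 288) (nat_lit 245)))) (XT.nd (nat_lit 78) (nat_lit 0) (nat_lit 0) (XT.lf (nat_lit 0) (nat_lit 24135457438) (nat_lit 152) (nat_lit 152076996591) (nat_lit 0) (nat_lit 16466138879) (nat_lit 2) (nat_lit 5) (nat_lit 4) (nat_lit 4) (nat_lit 2) (nat_lit 4) (nat_lit 368) (nat_lit 288) (nat_lit 244)) (XT.nd (nat_lit 78) (nat_lit 0) (nat_lit 0) (XT.lf (nat_lit 0) (nat_lit 32615033024) (nat_lit 152) (nat_lit 150191726549) (nat_lit 0) (nat_lit 24925820285) (nat_lit 2) (nat_lit 5) (nat_lit 4) (nat_lit 4) (nat_lit 2) (nat_lit 4) (nat_lit 369) (nat_lit 288) (nat_lit 243)) (XT.lf (nat_lit 0) (nat_lit 41740421183) (nat_lit 152) (nat_lit 148219309387) (nat_lit 0) (nat_lit 34032787906) (nat_lit 2) (nat_lit 5) (nat_lit 4) (nat_lit 4) (nat_lit 2) (nat_lit 4) (nat_lit 370) (nat_lit 288) (nat_lit 242)))))) (XT.nd (nat_lit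 390) (nat_lit 0) (nat_lit 0) (XT.nd (nat_lit 156) (nat_lit 0) (nat_lit 0) (XT.nd (nat_lit 78) (nat_lit 0) (nat_lit 0) (XT.lf (nat_lit 0) (nat_lit 51565698290) (nat_lit 152) (nat_lit 146148056706) (nat_lit 0) (nat_lit 43841008959) (nat_lit 2) (nat_lit 5) (nat_lit 4) (nat_lit 4) (nat_lit 2) (nat_lit 4) (nat_lit 371) (nat_lit 288) (nat_lit 241)) (XT.lf (nat_lit 0) (nat_lit 62149088209) (nat_lit 152) (nat_lit 143965694416) (nat_lit 0) (nat_lit 54408606235) (nat_lit 2) (nat_lit 5) (nat_lit 4) (nat_lit 4) (nat_lit 2) (nat_lit 4) (nat_lit 372) (nat_lit 288) (nat_lit 240))) (XT.nd (nat_lit 78) (nat_lit 0) (nat_lit 0) (XT.lf (nat_lit 0) (nat_lit 73553307324) (nat_lit 152) (nat_lit 141659290001) (nat_lit 0) (nat_lit 65798202533) (nat_lit 2) (nat_lit 5) (nat_lit 4) (nat_lit 4) (nat_lit 2) (nat_lit 4) (nat_lit 373) (nat_lit 288) (nat_lit 239)) (XT.nd (nat_lit 78) (nat_lit 0) (nat_lit 0) (XT.lf (nat_lit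 0) (nat_lit 85845936192) (nat_lit 152) (nat_lit 139215175878) (nat_lit 0) (nat_lit 78077291757) (nat_lit 2) (nat_lit 5) (nat_lit 4) (nat_lit 4) (nat_lit 2) (nat_lit 4) (nat_lit 374) (nat_lit 288) (nat_lit 238)) (XT.lf (nat_lit 0) (nat_lit 99099820024) (nat_lit 152) (nat_lit 136618868409) (nat_lit 0) (nat_lit 91318638879) (nat_lit 2) (nat_lit 5) (nat_lit 4) (nat_lit 4) (nat_lit 2) (nat_lit 4) (nat_lit 375) (nat_lit 288) (nat_lit 237))))) (XT.nd (nat_lit 234) (nat_lit 0) (nat_lit 0) (XT.nd (nat_lit 78) (nat_lit 0) (nat_lit 0) (XT.lf (nat_lit 0) (nat_lit 113393500351) (nat_lit 152) (nat_lit 133854982067) (nat_lit 0) (nat_lit 105600711143) (nat_lit 2) (nat_lit 5) (nat_lit 4) (nat_lit 4) (nat_lit 2) (nat_lit 4) (nat_lit 376) (nat_lit 288) (nat_lit 236)) (XT.nd (nat_lit 78) (nat_lit 0) (nat_lit 0) (XT.lf (nat_lit 0) (nat_lit 128811680465) (nat_lit 152) (nat_lit 130907138266) (nat_lit 0) (nat_lit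 121008143050) (nat_lit 2) (nat_lit 5) (nat_lit 4) (nat_lit 4) (nat_lit 2) (nat_lit 4) (nat_lit 377) (nat_lit 288) (nat_lit 235)) (XT.lf (nat_lit 0) (nat_lit 145445727359) (nat_lit 152) (nat_lit 127757868304) (nat_lit 0) (nat_lit 137632237900) (nat_lit 2) (nat_lit 5) (nat_lit 4) (nat_lit 4) (nat_lit 2) (nat_lit 4) (nat_lit 378) (nat_lit 288) (nat_lit 234)))) (XT.nd (nat_lit 78) (nat_lit 0) (nat_lit 0) (XT.lf (nat_lit 0) (nat_lit 163394213163) (nat_lit 152) (nat_lit 124388509839) (nat_lit 0) (nat_lit 155571508849) (nat_lit 2) (nat_lit 5) (nat_lit 4) (nat_lit 4) (nat_lit 2) (nat_lit 4) (nat_lit 379) (nat_lit 288) (nat_lit 233)) (XT.nd (nat_lit 78) (nat_lit 0) (nat_lit 0) (XT.lf (nat_lit 0) (nat_lit 182763499274) (nat_lit 152) (nat_lit 120779096302) (nat_lit 0) (nat_lit 174932262687) (nat_lit 2) (nat_lit 5) (nat_lit 4) (nat_lit 4) (nat_lit 2) (nat_lit 4) (nat_lit 380) (nat_lit 288) (nat_lit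 232)) (XT.lf (nat_lit 0) (nat_lit 203668366647) (nat_lit 152) (nat_lit 116908238577) (nat_lit 0) (nat_lit 195829229807) (nat_lit 2) (nat_lit 5) (nat_lit 4) (nat_lit 4) (nat_lit 2) (nat_lit 4) (nat_lit 381) (nat_lit 288) (nat_lit 231))))))))
noncomputable def xc27 : XT := (XT.nd (nat_lit 43134) (nat_lit 0) (nat_lit 228) (XT.nd (nat_lit 42276) (nat_lit 0) (nat_lit 1368) (XT.nd (nat_lit 390) (nat_lit 0) (nat_lit 0) (XT.nd (nat_lit 156) (nat_lit 0) (nat_lit 0) (XT.nd (nat_lit 78) (nat_lit 0) (nat_lit 0) (XT.lf (nat_lit 0) (nat_lit 226232695977) (nat_lit 152) (nat_lit 112752998247) (nat_lit 0) (nat_lit 218386244088) (nat_lit 2) (nat_lit 5) (nat_lit 4) (nat_lit 4) (nat_lit 2) (nat_lit 4) (nat_lit 382) (nat_lit 288) (nat_lit 230)) (XT.lf (nat_lit 0) (nat_lit 250590201809) (nat_lit 152) (nat_lit 108288751666) (nat_lit 0) (nat_lit 242736976727) (nat_lit 2) (nat_lit 5) (nat_lit 4) (nat_lit 4) (nat_lit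 2) (nat_lit 4) (nat_lit 383) (nat_lit 288) (nat_lit 229))) (XT.nd (nat_lit 78) (nat_lit 0) (nat_lit 0) (XT.lf (nat_lit 0) (nat_lit 276885224918) (nat_lit 152) (nat_lit 103489044039) (nat_lit 0) (nat_lit 269025728360) (nat_lit 2) (nat_lit 5) (nat_lit 4) (nat_lit 4) (nat_lit 2) (nat_lit 4) (nat_lit 384) (nat_lit 288) (nat_lit 228)) (XT.nd (nat_lit 78) (nat_lit 0) (nat_lit 0) (XT.lf (nat_lit 0) (nat_lit 305273587664) (nat_lit 152) (nat_lit 98325432655) (nat_lit 0) (nat_lit 297408284184) (nat_lit 2) (nat_lit 5) (nat_lit 4) (nat_lit 4) (nat_lit 2) (nat_lit 4) (nat_lit 385) (nat_lit 288) (nat_lit 227)) (XT.lf (nat_lit 0) (nat_lit 335923517380) (nat_lit 152) (nat_lit 92767318334) (nat_lit 0) (nat_lit 328052837120) (nat_lit 2) (nat_lit 5) (nat_lit 4) (nat_lit 4) (nat_lit 2) (nat_lit 4) (nat_lit 386) (nat_lit 288) (nat_lit 226))))) (XT.nd (nat_lit 234) (nat_lit 0) (nat_lit 0) (XT.nd (nat_lit 78)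 (nat_lit 0) (nat_lit 0) (XT.lf (nat_lit 0) (nat_lit 369016643280) (nat_lit 152) (nat_lit 86781764103) (nat_lit 0) (nat_lit 361140984521) (nat_lit 2) (nat_lit 5) (nat_lit 4) (nat_lit 4) (nat_lit 2) (nat_lit 4) (nat_lit 387) (nat_lit 288) (nat_lit 225)) (XT.nd (nat_lit 78) (nat_lit 0) (nat_lit 0) (XT.lf (nat_lit 0) (nat_lit 404749072777) (nat_lit 152) (nat_lit 80333300012) (nat_lit 0) (nat_lit 396868804296) (nat_lit 2) (nat_lit 5) (nat_lit 4) (nat_lit 4) (nat_lit 2) (nat_lit 4) (nat_lit 388) (nat_lit 288) (nat_lit 224)) (XT.lf (nat_lit 0) (nat_lit 443332553601) (nat_lit 152) (nat_lit 73383712939) (nat_lit 0) (nat_lit 435448016860) (nat_lit 2) (nat_lit 5) (nat_lit 4) (nat_lit 4) (nat_lit 2) (nat_lit 4) (nat_lit 389) (nat_lit 288) (nat_lit 223)))) (XT.nd (nat_lit 78) (nat_lit 0) (nat_lit 0) (XT.lf (nat_lit 0) (nat_lit 484995728602) (nat_lit 152) (nat_lit 65891820146) (nat_lit 0) (nat_lit 477107239767)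 (nat_lit 2) (nat_lit 5) (nat_lit 4) (nat_lit 4) (nat_lit 2) (nat_lit 4) (nat_lit 390) (nat_lit 288) (nat_lit 222)) (XT.nd (nat_lit 41496) (nat_lit 0) (nat_lit 3192) (XT.lf (nat_lit 0) (nat_lit 529985490668) (nat_lit 152) (nat_lit 57813225231) (nat_lit 0) (nat_lit 522093342487) (nat_lit 2) (nat_lit 5) (nat_lit 4) (nat_lit 4) (nat_lit 2) (nat_lit 4) (nat_lit 391) (nat_lit 288) (nat_lit 221)) (XT.lf (nat_lit 0) (nat_lit 4124569790) (nat_lit 228) (nat_lit 545729034) (nat_lit 228) (nat_lit 545729034) (nat_lit 44) (nat_lit 4) (nat_lit 47) (nat_lit 5) (nat_lit 47) (nat_lit 4) (nat_lit 322) (nat_lit 289) (nat_lit 289)))))) (XT.nd (nat_lit 390) (nat_lit 760) (nat_lit 0) (XT.nd (nat_lit 156) (nat_lit 456) (nat_lit 0) (XT.nd (nat_lit 78) (nat_lit 380) (nat_lit 0) (XT.lf (nat_lit 0) (nat_lit 5783683692) (nat_lit 228) (nat_lit 375762719) (nat_lit 0) (nat_lit 4697564837) (nat_lit 41) (nat_lit 5) (nat_lit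 44) (nat_lit 4) (nat_lit 41) (nat_lit 4) (nat_lit 323) (nat_lit 289) (nat_lit 288)) (XT.lf (nat_lit 0) (nat_lit 1335215927) (nat_lit 152) (nat_lit 336491579) (nat_lit 228) (nat_lit 9648396218) (nat_lit 36) (nat_lit 5) (nat_lit 38) (nat_lit 5) (nat_lit 39) (nat_lit 4) (nat_lit 324) (nat_lit 289) (nat_lit 287))) (XT.nd (nat_lit 78) (nat_lit 304) (nat_lit 0) (XT.lf (nat_lit 0) (nat_lit 2750307893) (nat_lit 152) (nat_lit 5973873410) (nat_lit 152) (nat_lit 3094867391) (nat_lit 34) (nat_lit 4) (nat_lit 36) (nat_lit 5) (nat_lit 36) (nat_lit 4) (nat_lit 325) (nat_lit 289) (nat_lit 286)) (XT.nd (nat_lit 78) (nat_lit 152) (nat_lit 0) (XT.lf (nat_lit 0) (nat_lit 3716676932) (nat_lit 152) (nat_lit 8452547298) (nat_lit 0) (nat_lit 192729099) (nat_lit 32) (nat_lit 5) (nat_lit 34) (nat_lit 4) (nat_lit 32) (nat_lit 4) (nat_lit 326) (nat_lit 289) (nat_lit 285)) (XT.lf (nat_lit 0) (nat_lit 4663399698) (nat_lit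 152) (nat_lit 6266182546) (nat_lit 152) (nat_lit 2018126068) (nat_lit 30) (nat_lit 4) (nat_lit 32) (nat_lit 5) (nat_lit 32) (nat_lit 4) (nat_lit 327) (nat_lit 289) (nat_lit 284))))) (XT.nd (nat_lit 234) (nat_lit 304) (nat_lit 0) (XT.nd (nat_lit 78) (nat_lit 304) (nat_lit 0) (XT.lf (nat_lit 0) (nat_lit 4846480778) (nat_lit 152) (nat_lit 8574248260) (nat_lit 0) (nat_lit 162168924) (nat_lit 28) (nat_lit 5) (nat_lit 30) (nat_lit 4) (nat_lit 28) (nat_lit 4) (nat_lit 328) (nat_lit 289) (nat_lit 283)) (XT.nd (nat_lit 78) (nat_lit 152) (nat_lit 0) (XT.lf (nat_lit 0) (nat_lit 4800802424) (nat_lit 152) (nat_lit 7371512883) (nat_lit 152) (nat_lit 2095956788) (nat_lit 26) (nat_lit 4) (nat_lit 28) (nat_lit 5) (nat_lit 28) (nat_lit 4) (nat_lit 329) (nat_lit 289) (nat_lit 282)) (XT.lf (nat_lit 0) (nat_lit 4002770687) (nat_lit 76) (nat_lit 790290362) (nat_lit 152) (nat_lit 10217606606) (nat_lit 24) (nat_lit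 5) (nat_lit 25) (nat_lit 5) (nat_lit 26) (nat_lit 4) (nat_lit 330) (nat_lit 289) (nat_lit 281)))) (XT.nd (nat_lit 78) (nat_lit 152) (nat_lit 0) (XT.lf (nat_lit 0) (nat_lit 2445088359) (nat_lit 152) (nat_lit 9697556975) (nat_lit 152) (nat_lit 3669079732) (nat_lit 22) (nat_lit 4) (nat_lit 24) (nat_lit 5) (nat_lit 24) (nat_lit 4) (nat_lit 331) (nat_lit 289) (nat_lit 280)) (XT.nd (nat_lit 78) (nat_lit 0) (nat_lit 0) (XT.lf (nat_lit 0) (nat_lit 66451268) (nat_lit 76) (nat_lit 3124732786) (nat_lit 152) (nat_lit 13488303565) (nat_lit 20) (nat_lit 5) (nat_lit 21) (nat_lit 5) (nat_lit 22) (nat_lit 4) (nat_lit 332) (nat_lit 289) (nat_lit 279)) (XT.lf (nat_lit 0) (nat_lit 10470549555) (nat_lit 152) (nat_lit 3234029965) (nat_lit 0) (nat_lit 3909250677) (nat_lit 20) (nat_lit 5) (nat_lit 22) (nat_lit 4) (nat_lit 20) (nat_lit 4) (nat_lit 333) (nat_lit 289) (nat_lit 278))))))) (XT.nd (nat_lit 858) (nat_lit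 380) (nat_lit 0) (XT.nd (nat_lit 390) (nat_lit 304) (nat_lit 0) (XT.nd (nat_lit 156) (nat_lit 228) (nat_lit 0) (XT.nd (nat_lit 78) (nat_lit 152) (nat_lit 0) (XT.lf (nat_lit 0) (nat_lit 11002940607) (nat_lit 76) (nat_lit 7274548723) (nat_lit 76) (nat_lit 348269441) (nat_lit 19) (nat_lit 4) (nat_lit 20) (nat_lit 5) (nat_lit 20) (nat_lit 4) (nat_lit 334) (nat_lit 289) (nat_lit 277)) (XT.lf (nat_lit 0) (nat_lit 6373846347) (nat_lit 76) (nat_lit 278870944) (nat_lit 152) (nat_lit 13066249977) (nat_lit 17) (nat_lit 5) (nat_lit 18) (nat_lit 5) (nat_lit 19) (nat_lit 4) (nat_lit 335) (nat_lit 289) (nat_lit 276))) (XT.nd (nat_lit 78) (nat_lit 152) (nat_lit 0) (XT.lf (nat_lit 0) (nat_lit 269921505) (nat_lit 76) (nat_lit 13923126807) (nat_lit 76) (nat_lit 6706806836) (nat_lit 16) (nat_lit 4) (nat_lit 17) (nat_lit 5) (nat_lit 17) (nat_lit 4) (nat_lit 336) (nat_lit 289) (nat_lit 275)) (XT.nd (nat_lit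 78) (nat_lit 76) (nat_lit 0) (XT.lf (nat_lit 0) (nat_lit 143666778) (nat_lit 152) (nat_lit 7197739466) (nat_lit 76) (nat_lit 14834381685) (nat_lit 15) (nat_lit 5) (nat_lit 17) (nat_lit 5) (nat_lit 16) (nat_lit 4) (nat_lit 337) (nat_lit 289) (nat_lit 274)) (XT.lf (nat_lit 0) (nat_lit 6980630808) (nat_lit 76) (nat_lit 203946670) (nat_lit 152) (nat_lit 16369918384) (nat_lit 14) (nat_lit 5) (nat_lit 15) (nat_lit 5) (nat_lit 16) (nat_lit 4) (nat_lit 338) (nat_lit 289) (nat_lit 273))))) (XT.nd (nat_lit 234) (nat_lit 152) (nat_lit 0) (XT.nd (nat_lit 78) (nat_lit 152) (nat_lit 0) (XT.lf (nat_lit 0) (nat_lit 14806388239) (nat_lit 152) (nat_lit 3034022322) (nat_lit 0) (nat_lit 7202270140) (nat_lit 14) (nat_lit 5) (nat_lit 16) (nat_lit 4) (nat_lit 14) (nat_lit 4) (nat_lit 339) (nat_lit 289) (nat_lit 272)) (XT.nd (nat_lit 78) (nat_lit 76) (nat_lit 0) (XT.lf (nat_lit 0) (nat_lit 11559366085) (nat_lit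 76) (nat_lit 11452329114) (nat_lit 76) (nat_lit 3639594629) (nat_lit 13) (nat_lit 4) (nat_lit 14) (nat_lit 5) (nat_lit 14) (nat_lit 4) (nat_lit 340) (nat_lit 289) (nat_lit 271)) (XT.lf (nat_lit 0) (nat_lit 3223170593) (nat_lit 152) (nat_lit 1398398088) (nat_lit 76) (nat_lit 23771855514) (nat_lit 12) (nat_lit 5) (nat_lit 14) (nat_lit 5) (nat_lit 13) (nat_lit 4) (nat_lit 341) (nat_lit 289) (nat_lit 270)))) (XT.nd (nat_lit 78) (nat_lit 76) (nat_lit 0) (XT.lf (nat_lit 0) (nat_lit 10574455827) (nat_lit 152) (nat_lit 16914732956) (nat_lit 0) (nat_lit 2779453227) (nat_lit 11) (nat_lit 5) (nat_lit 13) (nat_lit 4) (nat_lit 11) (nat_lit 4) (nat_lit 342) (nat_lit 289) (nat_lit 269)) (XT.nd (nat_lit 78) (nat_lit 76) (nat_lit 0) (XT.lf (nat_lit 0) (nat_lit 18433906495) (nat_lit 152) (nat_lit 3382827267) (nat_lit 0) (nat_lit 10481183501) (nat_lit 11) (nat_lit 5) (nat_lit 13) (nat_lit 4) (nat_lit 11)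 (nat_lit 4) (nat_lit 343) (nat_lit 289) (nat_lit 268)) (XT.lf (nat_lit 0) (nat_lit 11269953026) (nat_lit 76) (nat_lit 15659019445) (nat_lit 76) (nat_lit 7560259051) (nat_lit 10) (nat_lit 4) (nat_lit 11) (nat_lit 5) (nat_lit 11) (nat_lit 4) (nat_lit 344) (nat_lit 289) (nat_lit 267)))))) (XT.nd (nat_lit 468) (nat_lit 152) (nat_lit 0) (XT.nd (nat_lit 234) (nat_lit 76) (nat_lit 0) (XT.nd (nat_lit 78) (nat_lit 152) (nat_lit 0) (XT.lf (nat_lit 0) (nat_lit 26907379219) (nat_lit 76) (nat_lit 9093805916) (nat_lit 76) (nat_lit 859825706) (nat_lit 10) (nat_lit 4) (nat_lit 11) (nat_lit 5) (nat_lit 11) (nat_lit 4) (nat_lit 345) (nat_lit 289) (nat_lit 266)) (XT.nd (nat_lit 78) (nat_lit 0) (nat_lit 0) (XT.lf (nat_lit 0) (nat_lit 4114820617) (nat_lit 76) (nat_lit 1970059558) (nat_lit 152) (nat_lit 33337090575) (nat_lit 8) (nat_lit 5) (nat_lit 9) (nat_lit 5) (nat_lit 10) (nat_lit 4) (nat_lit 346) (nat_lit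 289) (nat_lit 265)) (XT.lf (nat_lit 0) (nat_lit 13673954219) (nat_lit 152) (nat_lit 22904814784) (nat_lit 0) (nat_lit 5602418085) (nat_lit 8) (nat_lit 5) (nat_lit 10) (nat_lit 4) (nat_lit 8) (nat_lit 4) (nat_lit 347) (nat_lit 289) (nat_lit 264)))) (XT.nd (nat_lit 78) (nat_lit 76) (nat_lit 0) (XT.lf (nat_lit 0) (nat_lit 21767191146) (nat_lit 152) (nat_lit 9805701026) (nat_lit 0) (nat_lit 13593424679) (nat_lit 8) (nat_lit 5) (nat_lit 10) (nat_lit 4) (nat_lit 8) (nat_lit 4) (nat_lit 348) (nat_lit 289) (nat_lit 263)) (XT.nd (nat_lit 78) (nat_lit 0) (nat_lit 0) (XT.lf (nat_lit 0) (nat_lit 4234091022) (nat_lit 76) (nat_lit 26213807731) (nat_lit 76) (nat_lit 17945383549) (nat_lit 7) (nat_lit 4) (nat_lit 8) (nat_lit 5) (nat_lit 8) (nat_lit 4) (nat_lit 349) (nat_lit 289) (nat_lit 262)) (XT.lf (nat_lit 0) (nat_lit 19515007100) (nat_lit 76) (nat_lit 20358485304) (nat_lit 76) (nat_lit 12002415089)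 (nat_lit 7) (nat_lit 4) (nat_lit 8) (nat_lit 5) (nat_lit 8) (nat_lit 4) (nat_lit 350) (nat_lit 289) (nat_lit 261))))) (XT.nd (nat_lit 234) (nat_lit 0) (nat_lit 0) (XT.nd (nat_lit 78) (nat_lit 152) (nat_lit 0) (XT.lf (nat_lit 0) (nat_lit 35803380024) (nat_lit 76) (nat_lit 14138290976) (nat_lit 76) (nat_lit 5701067026) (nat_lit 7) (nat_lit 4) (nat_lit 8) (nat_lit 5) (nat_lit 8) (nat_lit 4) (nat_lit 351) (nat_lit 289) (nat_lit 260)) (XT.nd (nat_lit 78) (nat_lit 76) (nat_lit 0) (XT.lf (nat_lit 0) (nat_lit 964123676) (nat_lit 152) (nat_lit 6535912758) (nat_lit 76) (nat_lit 52215281907) (nat_lit 6) (nat_lit 5) (nat_lit 8) (nat_lit 5) (nat_lit 7) (nat_lit 4) (nat_lit 352) (nat_lit 289) (nat_lit 259)) (XT.lf (nat_lit 0) (nat_lit 7797680000) (nat_lit 76) (nat_lit 192379776) (nat_lit 152) (nat_lit 56117627037) (nat_lit 5) (nat_lit 5) (nat_lit 6) (nat_lit 5) (nat_lit 7) (nat_lit 4) (nat_lit 353) (nat_lit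 289) (nat_lit 258)))) (XT.nd (nat_lit 78) (nat_lit 0) (nat_lit 0) (XT.lf (nat_lit 0) (nat_lit 15719900857) (nat_lit 152) (nat_lit 45639201656) (nat_lit 0) (nat_lit 7485267530) (nat_lit 5) (nat_lit 5) (nat_lit 7) (nat_lit 4) (nat_lit 5) (nat_lit 4) (nat_lit 354) (nat_lit 289) (nat_lit 257)) (XT.nd (nat_lit 78) (nat_lit 0) (nat_lit 0) (XT.lf (nat_lit 0) (nat_lit 23984239245) (nat_lit 152) (nat_lit 34287162727) (nat_lit 0) (nat_lit 15692795997) (nat_lit 5) (nat_lit 5) (nat_lit 7) (nat_lit 4) (nat_lit 5) (nat_lit 4) (nat_lit 355) (nat_lit 289) (nat_lit 256)) (XT.lf (nat_lit 0) (nat_lit 32829045212) (nat_lit 152) (nat_lit 22183615098) (nat_lit 0) (nat_lit 24485000185) (nat_lit 5) (nat_lit 5) (nat_lit 7) (nat_lit 4) (nat_lit 5) (nat_lit 4) (nat_lit 356) (nat_lit 289) (nat_lit 255))))))))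
noncomputable def xc28 : XT := (XT.nd (nat_lit 1716) (nat_lit 0) (nat_lit 0) (XT.nd (nat_lit 858) (nat_lit 0) (nat_lit 0) (XT.nd (nat_lit 390) (nat_lit 152) (nat_lit 0) (XT.nd (nat_lit 156) (nat_lit 0) (nat_lit 0) (XT.nd (nat_lit 78) (nat_lit 76) (nat_lit 0) (XT.lf (nat_lit 0) (nat_lit 42306732421) (nat_lit 152) (nat_lit 9256834042) (nat_lit 0) (nat_lit 33913982044) (nat_lit 5) (nat_lit 5) (nat_lit 7) (nat_lit 4) (nat_lit 5) (nat_lit 4) (nat_lit 357) (nat_lit 289) (nat_lit 254)) (XT.lf (nat_lit 0) (nat_lit 4720881270) (nat_lit 76) (nat_lit 47826289863) (nat_lit 76) (nat_lit 39388441938) (nat_lit 4) (nat_lit 4) (nat_lit 5) (nat_lit 5) (nat_lit 5) (nat_lit 4) (nat_lit 358) (nat_lit 289) (nat_lit 253))) (XT.nd (nat_lit 78) (nat_lit 0) (nat_lit 0) (XT.lf (nat_lit 0) (nat_lit 20018903228) (nat_lit 76) (nat_lit 43683138045) (nat_lit 76) (nat_lit 35203533133) (nat_lit 4) (nat_lit 4) (nat_lit 5)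 (nat_lit 5) (nat_lit 5) (nat_lit 4) (nat_lit 359) (nat_lit 289) (nat_lit 252)) (XT.nd (nat_lit 78) (nat_lit 0) (nat_lit 0) (XT.lf (nat_lit 0) (nat_lit 36421814035) (nat_lit 76) (nat_lit 39266327965) (nat_lit 76) (nat_lit 30748059175) (nat_lit 4) (nat_lit 4) (nat_lit 5) (nat_lit 5) (nat_lit 5) (nat_lit 4) (nat_lit 360) (nat_lit 289) (nat_lit 251)) (XT.lf (nat_lit 0) (nat_lit 54026816126) (nat_lit 76) (nat_lit 34549685933) (nat_lit 76) (nat_lit 25995617256) (nat_lit 4) (nat_lit 4) (nat_lit 5) (nat_lit 5) (nat_lit 5) (nat_lit 4) (nat_lit 361) (nat_lit 289) (nat_lit 250))))) (XT.nd (nat_lit 234) (nat_lit 152) (nat_lit 0) (XT.nd (nat_lit 78) (nat_lit 0) (nat_lit 0) (XT.lf (nat_lit 0) (nat_lit 72938235440) (nat_lit 76) (nat_lit 29505261477) (nat_lit 76) (nat_lit 20918044756) (nat_lit 4) (nat_lit 4) (nat_lit 5) (nat_lit 5) (nat_lit 5) (nat_lit 4) (nat_lit 362) (nat_lit 289) (nat_lit 249)) (XT.nd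 (nat_lit 78) (nat_lit 0) (nat_lit 0) (XT.lf (nat_lit 0) (nat_lit 93268139647) (nat_lit 76) (nat_lit 24103161712) (nat_lit 76) (nat_lit 15485252359) (nat_lit 4) (nat_lit 4) (nat_lit 5) (nat_lit 5) (nat_lit 5) (nat_lit 4) (nat_lit 363) (nat_lit 289) (nat_lit 248)) (XT.lf (nat_lit 0) (nat_lit 115137002253) (nat_lit 76) (nat_lit 18311374195) (nat_lit 76) (nat_lit 9665045737) (nat_lit 4) (nat_lit 4) (nat_lit 5) (nat_lit 5) (nat_lit 5) (nat_lit 4) (nat_lit 364) (nat_lit 289) (nat_lit 247)))) (XT.nd (nat_lit 78) (nat_lit 152) (nat_lit 0) (XT.lf (nat_lit 0) (nat_lit 138674416518) (nat_lit 76) (nat_lit 12095577222) (nat_lit 76) (nat_lit 3422934778) (nat_lit 4) (nat_lit 4) (nat_lit 5) (nat_lit 5) (nat_lit 5) (nat_lit 4) (nat_lit 365) (nat_lit 289) (nat_lit 246)) (XT.nd (nat_lit 78) (nat_lit 76) (nat_lit 0) (XT.lf (nat_lit 0) (nat_lit 3173152066) (nat_lit 152) (nat_lit 2192045508) (nat_lit 76) (nat_lit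 160792972483) (nat_lit 3) (nat_lit 5) (nat_lit 5) (nat_lit 5) (nat_lit 4) (nat_lit 4) (nat_lit 366) (nat_lit 289) (nat_lit 245)) (XT.lf (nat_lit 0) (nat_lit 10370365324) (nat_lit 152) (nat_lit 166631782100) (nat_lit 0) (nat_lit 2066015566) (nat_lit 2) (nat_lit 5) (nat_lit 4) (nat_lit 4) (nat_lit 2) (nat_lit 4) (nat_lit 367) (nat_lit 289) (nat_lit 244)))))) (XT.nd (nat_lit 390) (nat_lit 0) (nat_lit 0) (XT.nd (nat_lit 156) (nat_lit 0) (nat_lit 0) (XT.nd (nat_lit 78) (nat_lit 0) (nat_lit 0) (XT.lf (nat_lit 0) (nat_lit 18237474909) (nat_lit 152) (nat_lit 164855548959) (nat_lit 0) (nat_lit 9913230970) (nat_lit 2) (nat_lit 5) (nat_lit 4) (nat_lit 4) (nat_lit 2) (nat_lit 4) (nat_lit 368) (nat_lit 289) (nat_lit 243)) (XT.lf (nat_lit 0) (nat_lit 26701399787) (nat_lit 152) (nat_lit 163000891649) (nat_lit 0) (nat_lit 18358735310) (nat_lit 2) (nat_lit 5) (nat_lit 4) (nat_lit 4) (nat_lit 2) (nat_lit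 4) (nat_lit 369) (nat_lit 289) (nat_lit 242))) (XT.nd (nat_lit 78) (nat_lit 0) (nat_lit 0) (XT.lf (nat_lit 0) (nat_lit 35812296550) (nat_lit 152) (nat_lit 161056819609) (nat_lit 0) (nat_lit 27452576019) (nat_lit 2) (nat_lit 5) (nat_lit 4) (nat_lit 4) (nat_lit 2) (nat_lit 4) (nat_lit 370) (nat_lit 289) (nat_lit 241)) (XT.nd (nat_lit 78) (nat_lit 0) (nat_lit 0) (XT.lf (nat_lit 0) (nat_lit 45624155697) (nat_lit 152) (nat_lit 159011812411) (nat_lit 0) (nat_lit 37248642523) (nat_lit 2) (nat_lit 5) (nat_lit 4) (nat_lit 4) (nat_lit 2) (nat_lit 4) (nat_lit 371) (nat_lit 289) (nat_lit 240)) (XT.lf (nat_lit 0) (nat_lit 56195121578) (nat_lit 152) (nat_lit 156853751495) (nat_lit 0) (nat_lit 47804985587) (nat_lit 2) (nat_lit 5) (nat_lit 4) (nat_lit 4) (nat_lit 2) (nat_lit 4) (nat_lit 372) (nat_lit 289) (nat_lit 239))))) (XT.nd (nat_lit 234) (nat_lit 0) (nat_lit 0) (XT.nd (nat_lit 78) (nat_lit 0) (nat_lit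 0) (XT.lf (nat_lit 0) (nat_lit 67587836955) (nat_lit 152) (nat_lit 154569848352) (nat_lit 0) (nat_lit 59184161319) (nat_lit 2) (nat_lit 5) (nat_lit 4) (nat_lit 4) (nat_lit 2) (nat_lit 4) (nat_lit 373) (nat_lit 289) (nat_lit 238)) (XT.nd (nat_lit 78) (nat_lit 0) (nat_lit 0) (XT.lf (nat_lit 0) (nat_lit 79869814214) (nat_lit 152) (nat_lit 152146568740) (nat_lit 0) (nat_lit 71453601870) (nat_lit 2) (nat_lit 5) (nat_lit 4) (nat_lit 4) (nat_lit 2) (nat_lit 4) (nat_lit 374) (nat_lit 289) (nat_lit 237)) (XT.lf (nat_lit 0) (nat_lit 93113835444) (nat_lit 152) (nat_lit 149569552485) (nat_lit 0) (nat_lit 84686015036) (nat_lit 2) (nat_lit 5) (nat_lit 4) (nat_lit 4) (nat_lit 2) (nat_lit 4) (nat_lit 375) (nat_lit 289) (nat_lit 236)))) (XT.nd (nat_lit 78) (nat_lit 0) (nat_lit 0) (XT.lf (nat_lit 0) (nat_lit 107398383733) (nat_lit 152) (nat_lit 146823528378) (nat_lit 0) (nat_lit 98959815118) (nat_lit 2)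 (nat_lit 5) (nat_lit 4) (nat_lit 4) (nat_lit 2) (nat_lit 4) (nat_lit 376) (nat_lit 289) (nat_lit 235)) (XT.nd (nat_lit 78) (nat_lit 0) (nat_lit 0) (XT.lf (nat_lit 0) (nat_lit 122808108256) (nat_lit 152) (nat_lit 143892223684) (nat_lit 0) (nat_lit 114359587598) (nat_lit 2) (nat_lit 5) (nat_lit 4) (nat_lit 4) (nat_lit 2) (nat_lit 4) (nat_lit 377) (nat_lit 289) (nat_lit 234)) (XT.lf (nat_lit 0) (nat_lit 139434325900) (nat_lit 152) (nat_lit 140758267710) (nat_lit 0) (nat_lit 130976590386) (nat_lit 2) (nat_lit 5) (nat_lit 4) (nat_lit 4) (nat_lit 2) (nat_lit 4) (nat_lit 378) (nat_lit 289) (nat_lit 233))))))) (XT.nd (nat_lit 858) (nat_lit 0) (nat_lit 0) (XT.nd (nat_lit 390) (nat_lit 0) (nat_lit 0) (XT.nd (nat_lit 156) (nat_lit 0) (nat_lit 0) (XT.nd (nat_lit 78) (nat_lit 0) (nat_lit 0) (XT.lf (nat_lit 0) (nat_lit 157375562397) (nat_lit 152) (nat_lit 137403088863) (nat_lit 0) (nat_lit 148909294610)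 (nat_lit 2) (nat_lit 5) (nat_lit 4) (nat_lit 4) (nat_lit 2) (nat_lit 4) (nat_lit 379) (nat_lit 289) (nat_lit 232)) (XT.lf (nat_lit 0) (nat_lit 176738136188) (nat_lit 152) (nat_lit 133806804602) (nat_lit 0) (nat_lit 168263968147) (nat_lit 2) (nat_lit 5) (nat_lit 4) (nat_lit 4) (nat_lit 2) (nat_lit 4) (nat_lit 380) (nat_lit 289) (nat_lit 231))) (XT.nd (nat_lit 78) (nat_lit 0) (nat_lit 0) (XT.lf (nat_lit 0) (nat_lit 197636788449) (nat_lit 152) (nat_lit 129948103614) (nat_lit 0) (nat_lit 189155305360) (nat_lit 2) (nat_lit 5) (nat_lit 4) (nat_lit 4) (nat_lit 2) (nat_lit 4) (nat_lit 381) (nat_lit 289) (nat_lit 230)) (XT.nd (nat_lit 78) (nat_lit 0) (nat_lit 0) (XT.lf (nat_lit 0) (nat_lit 220195363046) (nat_lit 152) (nat_lit 125804119522) (nat_lit 0) (nat_lit 211707106764) (nat_lit 2) (nat_lit 5) (nat_lit 4) (nat_lit 4) (nat_lit 2) (nat_lit 4) (nat_lit 382) (nat_lit 289) (nat_lit 229)) (XT.lf (nat_lit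 0) (nat_lit 244547540422) (nat_lit 152) (nat_lit 121350295384) (nat_lit 0) (nat_lit 236053012664) (nat_lit 2) (nat_lit 5) (nat_lit 4) (nat_lit 4) (nat_lit 2) (nat_lit 4) (nat_lit 383) (nat_lit 289) (nat_lit 228))))) (XT.nd (nat_lit 234) (nat_lit 0) (nat_lit 0) (XT.nd (nat_lit 78) (nat_lit 0) (nat_lit 0) (XT.lf (nat_lit 0) (nat_lit 270837629775) (nat_lit 152) (nat_lit 116560238167) (nat_lit 0) (nat_lit 262337295095) (nat_lit 2) (nat_lit 5) (nat_lit 4) (nat_lit 4) (nat_lit 2) (nat_lit 4) (nat_lit 384) (nat_lit 289) (nat_lit 227)) (XT.nd (nat_lit 78) (nat_lit 0) (nat_lit 0) (XT.lf (nat_lit 0) (nat_lit 299221424228) (nat_lit 152) (nat_lit 111405562347) (nat_lit 0) (nat_lit 290715712768) (nat_lit 2) (nat_lit 5) (nat_lit 4) (nat_lit 4) (nat_lit 2) (nat_lit 4) (nat_lit 385) (nat_lit 289) (nat_lit 226)) (XT.lf (nat_lit 0) (nat_lit 329867124043) (nat_lit 152) (nat_lit 105855721697) (nat_lit 0) (nat_lit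 321356434084) (nat_lit 2) (nat_lit 5) (nat_lit 4) (nat_lit 4) (nat_lit 2) (nat_lit 4) (nat_lit 386) (nat_lit 289) (nat_lit 225)))) (XT.nd (nat_lit 78) (nat_lit 0) (nat_lit 0) (XT.lf (nat_lit 0) (nat_lit 362956333369) (nat_lit 152) (nat_lit 99877828273) (nat_lit 0) (nat_lit 354441033688) (nat_lit 2) (nat_lit 5) (nat_lit 4) (nat_lit 4) (nat_lit 2) (nat_lit 4) (nat_lit 387) (nat_lit 289) (nat_lit 224)) (XT.nd (nat_lit 78) (nat_lit 0) (nat_lit 0) (XT.lf (nat_lit 0) (nat_lit 398685136408) (nat_lit 152) (nat_lit 93436457521) (nat_lit 0) (nat_lit 390165568466) (nat_lit 2) (nat_lit 5) (nat_lit 4) (nat_lit 4) (nat_lit 2) (nat_lit 4) (nat_lit 388) (nat_lit 289) (nat_lit 223)) (XT.lf (nat_lit 0) (nat_lit 437265259400) (nat_lit 152) (nat_lit 86493438355) (nat_lit 0) (nat_lit 428741739365) (nat_lit 2) (nat_lit 5) (nat_lit 4) (nat_lit 4) (nat_lit 2) (nat_lit 4) (nat_lit 389) (nat_lit 289) (nat_lit 222))))))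 (XT.nd (nat_lit 41652) (nat_lit 0) (nat_lit 1976) (XT.nd (nat_lit 41418) (nat_lit 0) (nat_lit 3192) (XT.nd (nat_lit 78) (nat_lit 0) (nat_lit 0) (XT.lf (nat_lit 0) (nat_lit 478925325298) (nat_lit 152) (nat_lit 79007626957) (nat_lit 0) (nat_lit 470398145917) (nat_lit 2) (nat_lit 5) (nat_lit 4) (nat_lit 4) (nat_lit 2) (nat_lit 4) (nat_lit 390) (nat_lit 289) (nat_lit 221)) (XT.lf (nat_lit 0) (nat_lit 523912208565) (nat_lit 152) (nat_lit 70934662964) (nat_lit 0) (nat_lit 515381640900) (nat_lit 2) (nat_lit 5) (nat_lit 4) (nat_lit 4) (nat_lit 2) (nat_lit 4) (nat_lit 391) (nat_lit 289) (nat_lit 220))) (XT.nd (nat_lit 78) (nat_lit 456) (nat_lit 0) (XT.lf (nat_lit 0) (nat_lit 1841931426) (nat_lit 228) (nat_lit 1496382879) (nat_lit 228) (nat_lit 1496382879) (nat_lit 50) (nat_lit 4) (nat_lit 53) (nat_lit 5) (nat_lit 53) (nat_lit 4) (nat_lit 320) (nat_lit 290) (nat_lit 290)) (XT.nd (nat_lit 78) (nat_lit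 228) (nat_lit 0) (XT.lf (nat_lit 0) (nat_lit 3540757048) (nat_lit 228) (nat_lit 4189231263) (nat_lit 0) (nat_lit 2309098266) (nat_lit 47) (nat_lit 5) (nat_lit 50) (nat_lit 4) (nat_lit 47) (nat_lit 4) (nat_lit 321) (nat_lit 290) (nat_lit 289)) (XT.lf (nat_lit 0) (nat_lit 7938338584) (nat_lit 228) (nat_lit 2437876385) (nat_lit 228) (nat_lit 65792805) (nat_lit 44) (nat_lit 4) (nat_lit 47) (nat_lit 5) (nat_lit 47) (nat_lit 4) (nat_lit 322) (nat_lit 290) (nat_lit 288))))) (XT.nd (nat_lit 234) (nat_lit 456) (nat_lit 0) (XT.nd (nat_lit 78) (nat_lit 532) (nat_lit 0) (XT.lf (nat_lit 0) (nat_lit 6559083871) (nat_lit 228) (nat_lit 1023791842) (nat_lit 0) (nat_lit 3294291045) (nat_lit 41) (nat_lit 5) (nat_lit 44) (nat_lit 4) (nat_lit 41) (nat_lit 4) (nat_lit 323) (nat_lit 290) (nat_lit 287)) (XT.nd (nat_lit 78) (nat_lit 152) (nat_lit 0) (XT.lf (nat_lit 0) (nat_lit 295961159) (nat_lit 152) (nat_lit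 1895222178) (nat_lit 228) (nat_lit 9159182767) (nat_lit 36) (nat_lit 5) (nat_lit 38) (nat_lit 5) (nat_lit 39) (nat_lit 4) (nat_lit 324) (nat_lit 290) (nat_lit 286)) (XT.lf (nat_lit 0) (nat_lit 1362609308) (nat_lit 152) (nat_lit 7657638145) (nat_lit 152) (nat_lit 2840342098) (nat_lit 34) (nat_lit 4) (nat_lit 36) (nat_lit 5) (nat_lit 36) (nat_lit 4) (nat_lit 325) (nat_lit 290) (nat_lit 285)))) (XT.nd (nat_lit 78) (nat_lit 304) (nat_lit 0) (XT.lf (nat_lit 0) (nat_lit 2131533333) (nat_lit 76) (nat_lit 1629024451) (nat_lit 152) (nat_lit 8652957842) (nat_lit 32) (nat_lit 5) (nat_lit 33) (nat_lit 5) (nat_lit 34) (nat_lit 4) (nat_lit 326) (nat_lit 290) (nat_lit 284)) (XT.nd (nat_lit 78) (nat_lit 152) (nat_lit 0) (XT.lf (nat_lit 0) (nat_lit 2505609967) (nat_lit 152) (nat_lit 8243718091) (nat_lit 152) (nat_lit 2261237479) (nat_lit 30) (nat_lit 4) (nat_lit 32) (nat_lit 5) (nat_lit 32) (nat_lit 4)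 (nat_lit 327) (nat_lit 290) (nat_lit 283)) (XT.lf (nat_lit 0) (nat_lit 2434353566) (nat_lit 76) (nat_lit 1974251619) (nat_lit 152) (nat_lit 9247544806) (nat_lit 28) (nat_lit 5) (nat_lit 29) (nat_lit 5) (nat_lit 30) (nat_lit 4) (nat_lit 328) (nat_lit 290) (nat_lit 282))))))))
noncomputable def xc29 : XT := (XT.nd (nat_lit 1716) (nat_lit 380) (nat_lit 0) (XT.nd (nat_lit 858) (nat_lit 532) (nat_lit 0) (XT.nd (nat_lit 390) (nat_lit 456) (nat_lit 0) (XT.nd (nat_lit 156) (nat_lit 304) (nat_lit 0) (XT.nd (nat_lit 78) (nat_lit 152) (nat_lit 0) (XT.lf (nat_lit 0) (nat_lit 1817039358) (nat_lit 152) (nat_lit 9686204865) (nat_lit 152) (nat_lit 2849911672) (nat_lit 26) (nat_lit 4) (nat_lit 28) (nat_lit 5) (nat_lit 28) (nat_lit 4) (nat_lit 329) (nat_lit 290) (nat_lit 281)) (XT.lf (nat_lit 0) (nat_lit 571342022) (nat_lit 76) (nat_lit 3289405224) (nat_lit 152) (nat_lit 11245580776) (nat_lit 24) (nat_lit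 5) (nat_lit 25) (nat_lit 5) (nat_lit 26) (nat_lit 4) (nat_lit 330) (nat_lit 290) (nat_lit 280))) (XT.nd (nat_lit 78) (nat_lit 304) (nat_lit 0) (XT.lf (nat_lit 0) (nat_lit 10989561017) (nat_lit 152) (nat_lit 1379873637) (nat_lit 0) (nat_lit 3549048090) (nat_lit 24) (nat_lit 5) (nat_lit 26) (nat_lit 4) (nat_lit 24) (nat_lit 4) (nat_lit 331) (nat_lit 290) (nat_lit 279)) (XT.nd (nat_lit 78) (nat_lit 76) (nat_lit 0) (XT.lf (nat_lit 0) (nat_lit 1808906345) (nat_lit 228) (nat_lit 4146142698) (nat_lit 76) (nat_lit 10840369505) (nat_lit 21) (nat_lit 5) (nat_lit 24) (nat_lit 5) (nat_lit 22) (nat_lit 4) (nat_lit 332) (nat_lit 290) (nat_lit 278)) (XT.lf (nat_lit 0) (nat_lit 8841858121) (nat_lit 152) (nat_lit 7903775599) (nat_lit 0) (nat_lit 996496092) (nat_lit 20) (nat_lit 5) (nat_lit 22) (nat_lit 4) (nat_lit 20) (nat_lit 4) (nat_lit 333) (nat_lit 290) (nat_lit 277))))) (XT.nd (nat_lit 234) (nat_lit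 228) (nat_lit 0) (XT.nd (nat_lit 78) (nat_lit 152) (nat_lit 0) (XT.lf (nat_lit 0) (nat_lit 5943413771) (nat_lit 76) (nat_lit 10502080542) (nat_lit 76) (nat_lit 2318773696) (nat_lit 19) (nat_lit 4) (nat_lit 20) (nat_lit 5) (nat_lit 20) (nat_lit 4) (nat_lit 334) (nat_lit 290) (nat_lit 276)) (XT.nd (nat_lit 78) (nat_lit 0) (nat_lit 0) (XT.lf (nat_lit 0) (nat_lit 806416918) (nat_lit 76) (nat_lit 3731454122) (nat_lit 152) (nat_lit 15331553435) (nat_lit 17) (nat_lit 5) (nat_lit 18) (nat_lit 5) (nat_lit 19) (nat_lit 4) (nat_lit 335) (nat_lit 290) (nat_lit 275)) (XT.lf (nat_lit 0) (nat_lit 11903684800) (nat_lit 152) (nat_lit 5619278173) (nat_lit 0) (nat_lit 3536111535) (nat_lit 17) (nat_lit 5) (nat_lit 19) (nat_lit 4) (nat_lit 17) (nat_lit 4) (nat_lit 336) (nat_lit 290) (nat_lit 274)))) (XT.nd (nat_lit 78) (nat_lit 152) (nat_lit 0) (XT.lf (nat_lit 0) (nat_lit 8698317002) (nat_lit 76) (nat_lit 11134995947)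 (nat_lit 76) (nat_lit 2511926023) (nat_lit 16) (nat_lit 4) (nat_lit 17) (nat_lit 5) (nat_lit 17) (nat_lit 4) (nat_lit 337) (nat_lit 290) (nat_lit 273)) (XT.nd (nat_lit 78) (nat_lit 0) (nat_lit 0) (XT.lf (nat_lit 0) (nat_lit 156960992) (nat_lit 76) (nat_lit 4241381396) (nat_lit 152) (nat_lit 19338147037) (nat_lit 14) (nat_lit 5) (nat_lit 15) (nat_lit 5) (nat_lit 16) (nat_lit 4) (nat_lit 338) (nat_lit 290) (nat_lit 272)) (XT.lf (nat_lit 0) (nat_lit 11856078212) (nat_lit 152) (nat_lit 10167118652) (nat_lit 0) (nat_lit 3209708584) (nat_lit 14) (nat_lit 5) (nat_lit 16) (nat_lit 4) (nat_lit 14) (nat_lit 4) (nat_lit 339) (nat_lit 290) (nat_lit 271)))))) (XT.nd (nat_lit 390) (nat_lit 228) (nat_lit 0) (XT.nd (nat_lit 156) (nat_lit 228) (nat_lit 0) (XT.nd (nat_lit 78) (nat_lit 0) (nat_lit 0) (XT.lf (nat_lit 0) (nat_lit 4008226288) (nat_lit 76) (nat_lit 15841709553) (nat_lit 76) (nat_lit 7002176604)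 (nat_lit 13) (nat_lit 4) (nat_lit 14) (nat_lit 5) (nat_lit 14) (nat_lit 4) (nat_lit 340) (nat_lit 290) (nat_lit 270)) (XT.lf (nat_lit 0) (nat_lit 19329776812) (nat_lit 76) (nat_lit 9144971831) (nat_lit 76) (nat_lit 126583957) (nat_lit 13) (nat_lit 4) (nat_lit 14) (nat_lit 5) (nat_lit 14) (nat_lit 4) (nat_lit 341) (nat_lit 290) (nat_lit 269))) (XT.nd (nat_lit 78) (nat_lit 76) (nat_lit 0) (XT.lf (nat_lit 0) (nat_lit 5105286649) (nat_lit 76) (nat_lit 1865094295) (nat_lit 152) (nat_lit 23519207620) (nat_lit 11) (nat_lit 5) (nat_lit 12) (nat_lit 5) (nat_lit 13) (nat_lit 4) (nat_lit 342) (nat_lit 290) (nat_lit 268)) (XT.nd (nat_lit 78) (nat_lit 76) (nat_lit 0) (XT.lf (nat_lit 0) (nat_lit 14719415968) (nat_lit 152) (nat_lit 11978270497) (nat_lit 0) (nat_lit 5826717341) (nat_lit 11) (nat_lit 5) (nat_lit 13) (nat_lit 4) (nat_lit 11) (nat_lit 4) (nat_lit 343) (nat_lit 290) (nat_lit 267)) (XT.lf (nat_lit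 0) (nat_lit 2242047839) (nat_lit 76) (nat_lit 20756208857) (nat_lit 76) (nat_lit 11728290415) (nat_lit 10) (nat_lit 4) (nat_lit 11) (nat_lit 5) (nat_lit 11) (nat_lit 4) (nat_lit 344) (nat_lit 290) (nat_lit 266))))) (XT.nd (nat_lit 234) (nat_lit 76) (nat_lit 0) (XT.nd (nat_lit 78) (nat_lit 152) (nat_lit 0) (XT.lf (nat_lit 0) (nat_lit 17742198304) (nat_lit 76) (nat_lit 14256429327) (nat_lit 76) (nat_lit 5103307351) (nat_lit 10) (nat_lit 4) (nat_lit 11) (nat_lit 5) (nat_lit 11) (nat_lit 4) (nat_lit 345) (nat_lit 290) (nat_lit 265)) (XT.nd (nat_lit 78) (nat_lit 76) (nat_lit 0) (XT.lf (nat_lit 0) (nat_lit 1845347191) (nat_lit 152) (nat_lit 5486089431) (nat_lit 76) (nat_lit 32341378885) (nat_lit 9) (nat_lit 5) (nat_lit 11) (nat_lit 5) (nat_lit 10) (nat_lit 4) (nat_lit 346) (nat_lit 290) (nat_lit 264)) (XT.lf (nat_lit 0) (nat_lit 9195307181) (nat_lit 152) (nat_lit 32983284747) (nat_lit 0) (nat_lit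 265409064) (nat_lit 8) (nat_lit 5) (nat_lit 10) (nat_lit 4) (nat_lit 8) (nat_lit 4) (nat_lit 347) (nat_lit 290) (nat_lit 263)))) (XT.nd (nat_lit 78) (nat_lit 76) (nat_lit 0) (XT.lf (nat_lit 0) (nat_lit 17227921848) (nat_lit 152) (nat_lit 20000886453) (nat_lit 0) (nat_lit 8203366016) (nat_lit 8) (nat_lit 5) (nat_lit 10) (nat_lit 4) (nat_lit 8) (nat_lit 4) (nat_lit 348) (nat_lit 290) (nat_lit 262)) (XT.nd (nat_lit 78) (nat_lit 76) (nat_lit 0) (XT.lf (nat_lit 0) (nat_lit 25786391707) (nat_lit 152) (nat_lit 6204681632) (nat_lit 0) (nat_lit 16674189842) (nat_lit 8) (nat_lit 5) (nat_lit 10) (nat_lit 4) (nat_lit 8) (nat_lit 4) (nat_lit 349) (nat_lit 290) (nat_lit 261)) (XT.lf (nat_lit 0) (nat_lit 8767706360) (nat_lit 76) (nat_lit 26290615724) (nat_lit 76) (nat_lit 17097260125) (nat_lit 7) (nat_lit 4) (nat_lit 8) (nat_lit 5) (nat_lit 8) (nat_lit 4) (nat_lit 350) (nat_lit 290) (nat_lit 260)))))))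 (XT.nd (nat_lit 858) (nat_lit 152) (nat_lit 0) (XT.nd (nat_lit 390) (nat_lit 76) (nat_lit 0) (XT.nd (nat_lit 156) (nat_lit 152) (nat_lit 0) (XT.nd (nat_lit 78) (nat_lit 0) (nat_lit 0) (XT.lf (nat_lit 0) (nat_lit 24960363275) (nat_lit 76) (nat_lit 20116519105) (nat_lit 76) (nat_lit 10848021159) (nat_lit 7) (nat_lit 4) (nat_lit 8) (nat_lit 5) (nat_lit 8) (nat_lit 4) (nat_lit 351) (nat_lit 290) (nat_lit 259)) (XT.lf (nat_lit 0) (nat_lit 42264090803) (nat_lit 76) (nat_lit 13537275528) (nat_lit 76) (nat_lit 4199201336) (nat_lit 7) (nat_lit 4) (nat_lit 8) (nat_lit 5) (nat_lit 8) (nat_lit 4) (nat_lit 352) (nat_lit 290) (nat_lit 258))) (XT.nd (nat_lit 78) (nat_lit 76) (nat_lit 0) (XT.lf (nat_lit 0) (nat_lit 2796146526) (nat_lit 152) (nat_lit 3670396264) (nat_lit 76) (nat_lit 57937928929) (nat_lit 6) (nat_lit 5) (nat_lit 8) (nat_lit 5) (nat_lit 7) (nat_lit 4) (nat_lit 353) (nat_lit 290) (nat_lit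 257)) (XT.nd (nat_lit 78) (nat_lit 0) (nat_lit 0) (XT.lf (nat_lit 0) (nat_lit 10325968632) (nat_lit 152) (nat_lit 57510794733) (nat_lit 0) (nat_lit 1314400003) (nat_lit 5) (nat_lit 5) (nat_lit 7) (nat_lit 4) (nat_lit 5) (nat_lit 4) (nat_lit 354) (nat_lit 290) (nat_lit 256)) (XT.lf (nat_lit 0) (nat_lit 18551518803) (nat_lit 152) (nat_lit 46234070427) (nat_lit 0) (nat_lit 9487348395) (nat_lit 5) (nat_lit 5) (nat_lit 7) (nat_lit 4) (nat_lit 5) (nat_lit 4) (nat_lit 355) (nat_lit 290) (nat_lit 255))))) (XT.nd (nat_lit 234) (nat_lit 76) (nat_lit 0) (XT.nd (nat_lit 78) (nat_lit 0) (nat_lit 0) (XT.lf (nat_lit 0) (nat_lit 27360409753) (nat_lit 152) (nat_lit 34200258559) (nat_lit 0) (nat_lit 18247533994) (nat_lit 5) (nat_lit 5) (nat_lit 7) (nat_lit 4) (nat_lit 5) (nat_lit 4) (nat_lit 356) (nat_lit 290) (nat_lit 254)) (XT.nd (nat_lit 78) (nat_lit 0) (nat_lit 0) (XT.lf (nat_lit 0) (nat_lit 36804842318)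 (nat_lit 152) (nat_lit 21338047652) (nat_lit 0) (nat_lit 27646869012) (nat_lit 5) (nat_lit 5) (nat_lit 7) (nat_lit 4) (nat_lit 5) (nat_lit 4) (nat_lit 357) (nat_lit 290) (nat_lit 253)) (XT.lf (nat_lit 0) (nat_lit 46940783505) (nat_lit 152) (nat_lit 7571217197) (nat_lit 0) (nat_lit 37741053211) (nat_lit 5) (nat_lit 5) (nat_lit 7) (nat_lit 4) (nat_lit 5) (nat_lit 4) (nat_lit 358) (nat_lit 290) (nat_lit 252)))) (XT.nd (nat_lit 78) (nat_lit 0) (nat_lit 0) (XT.lf (nat_lit 0) (nat_lit 7419277229) (nat_lit 76) (nat_lit 50524856632) (nat_lit 76) (nat_lit 41286462460) (nat_lit 4) (nat_lit 4) (nat_lit 5) (nat_lit 5) (nat_lit 5) (nat_lit 4) (nat_lit 359) (nat_lit 290) (nat_lit 251)) (XT.nd (nat_lit 78) (nat_lit 0) (nat_lit 0) (XT.lf (nat_lit 0) (nat_lit 23769235353) (nat_lit 76) (nat_lit 46133773886) (nat_lit 76) (nat_lit 36859579827) (nat_lit 4) (nat_lit 4) (nat_lit 5) (nat_lit 5) (nat_lit 5) (nat_lit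 4) (nat_lit 360) (nat_lit 290) (nat_lit 250)) (XT.lf (nat_lit 0) (nat_lit 41325207183) (nat_lit 76) (nat_lit 41440953459) (nat_lit 76) (nat_lit 32133611357) (nat_lit 4) (nat_lit 4) (nat_lit 5) (nat_lit 5) (nat_lit 5) (nat_lit 4) (nat_lit 361) (nat_lit 290) (nat_lit 249)))))) (XT.nd (nat_lit 390) (nat_lit 152) (nat_lit 0) (XT.nd (nat_lit 156) (nat_lit 0) (nat_lit 0) (XT.nd (nat_lit 78) (nat_lit 0) (nat_lit 0) (XT.lf (nat_lit 0) (nat_lit 60191228106) (nat_lit 76) (nat_lit 36418586045) (nat_lit 76) (nat_lit 27080551310) (nat_lit 4) (nat_lit 4) (nat_lit 5) (nat_lit 5) (nat_lit 5) (nat_lit 4) (nat_lit 362) (nat_lit 290) (nat_lit 248)) (XT.lf (nat_lit 0) (nat_lit 80479096766) (nat_lit 76) (nat_lit 31036909467) (nat_lit 76) (nat_lit 21670455628) (nat_lit 4) (nat_lit 4) (nat_lit 5) (nat_lit 5) (nat_lit 5) (nat_lit 4) (nat_lit 363) (nat_lit 290) (nat_lit 247))) (XT.nd (nat_lit 78) (nat_lit 0) (nat_lit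 0) (XT.lf (nat_lit 0) (nat_lit 102309037570) (nat_lit 76) (nat_lit 25264032308) (nat_lit 76) (nat_lit 15871264483) (nat_lit 4) (nat_lit 4) (nat_lit 5) (nat_lit 5) (nat_lit 5) (nat_lit 4) (nat_lit 364) (nat_lit 290) (nat_lit 246)) (XT.nd (nat_lit 78) (nat_lit 0) (nat_lit 0) (XT.lf (nat_lit 0) (nat_lit 125810413128) (nat_lit 76) (nat_lit 19065744926) (nat_lit 76) (nat_lit 9648612300) (nat_lit 4) (nat_lit 4) (nat_lit 5) (nat_lit 5) (nat_lit 5) (nat_lit 4) (nat_lit 365) (nat_lit 290) (nat_lit 245)) (XT.lf (nat_lit 0) (nat_lit 151122490853) (nat_lit 76) (nat_lit 12405316728) (nat_lit 76) (nat_lit 2965624101) (nat_lit 4) (nat_lit 4) (nat_lit 5) (nat_lit 5) (nat_lit 5) (nat_lit 4) (nat_lit 366) (nat_lit 290) (nat_lit 244))))) (XT.nd (nat_lit 234) (nat_lit 0) (nat_lit 0) (XT.nd (nat_lit 78) (nat_lit 76) (nat_lit 0) (XT.lf (nat_lit 0) (nat_lit 4082322971) (nat_lit 152) (nat_lit 1091819425) (nat_lit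 76) (nat_lit 174243809156) (nat_lit 3) (nat_lit 5) (nat_lit 5) (nat_lit 5) (nat_lit 4) (nat_lit 4) (nat_lit 367) (nat_lit 290) (nat_lit 243)) (XT.nd (nat_lit 78) (nat_lit 0) (nat_lit 0) (XT.lf (nat_lit 0) (nat_lit 11835100305) (nat_lit 152) (nat_lit 178720059998) (nat_lit 0) (nat_lit 2806602131) (nat_lit 2) (nat_lit 5) (nat_lit 4) (nat_lit 4) (nat_lit 2) (nat_lit 4) (nat_lit 368) (nat_lit 290) (nat_lit 242)) (XT.lf (nat_lit 0) (nat_lit 20284533786) (nat_lit 152) (nat_lit 176893747811) (nat_lit 0) (nat_lit 11238979559) (nat_lit 2) (nat_lit 5) (nat_lit 4) (nat_lit 4) (nat_lit 2) (nat_lit 4) (nat_lit 369) (nat_lit 290) (nat_lit 241)))) (XT.nd (nat_lit 78) (nat_lit 0) (nat_lit 0) (XT.lf (nat_lit 0) (nat_lit 29382012589) (nat_lit 152) (nat_lit 174975921254) (nat_lit 0) (nat_lit 20320665719) (nat_lit 2) (nat_lit 5) (nat_lit 4) (nat_lit 4) (nat_lit 2) (nat_lit 4) (nat_lit 370) (nat_lit 290) (nat_lit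 240)) (XT.nd (nat_lit 78) (nat_lit 0) (nat_lit 0) (XT.lf (nat_lit 0) (nat_lit 39181447698) (nat_lit 152) (nat_lit 172955215430) (nat_lit 0) (nat_lit 30105478012) (nat_lit 2) (nat_lit 5) (nat_lit 4) (nat_lit 4) (nat_lit 2) (nat_lit 4) (nat_lit 371) (nat_lit 290) (nat_lit 239)) (XT.lf (nat_lit 0) (nat_lit 49740909842) (nat_lit 152) (nat_lit 170819655787) (nat_lit 0) (nat_lit 40651400510) (nat_lit 2) (nat_lit 5) (nat_lit 4) (nat_lit 4) (nat_lit 2) (nat_lit 4) (nat_lit 372) (nat_lit 290) (nat_lit 238))))))))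
noncomputable def xc30 : XT := (XT.nd (nat_lit 42900) (nat_lit 0) (nat_lit 684) (XT.nd (nat_lit 858) (nat_lit 0) (nat_lit 0) (XT.nd (nat_lit 390) (nat_lit 0) (nat_lit 0) (XT.nd (nat_lit 156) (nat_lit 0) (nat_lit 0) (XT.nd (nat_lit 78) (nat_lit 0) (nat_lit 0) (XT.lf (nat_lit 0) (nat_lit 61122973609) (nat_lit 152) (nat_lit 168556587154) (nat_lit 0) (nat_lit 52020927568) (nat_lit 2) (nat_lit 5) (nat_lit 4) (nat_lit 4) (nat_lit 2) (nat_lit 4) (nat_lit 373) (nat_lit 290) (nat_lit 237)) (XT.lf (nat_lit 0) (nat_lit 73395088268) (nat_lit 152) (nat_lit 166152598757) (nat_lit 0) (nat_lit 64281434163) (nat_lit 2) (nat_lit 5) (nat_lit 4) (nat_lit 4) (nat_lit 2) (nat_lit 4) (nat_lit 374) (nat_lit 290) (nat_lit 236))) (XT.nd (nat_lit 78) (nat_lit 0) (nat_lit 0) (XT.lf (nat_lit 0) (nat_lit 86629977459) (nat_lit 152) (nat_lit 163593444736) (nat_lit 0) (nat_lit 77505575148) (nat_lit 2) (nat_lit 5) (nat_lit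 4) (nat_lit 4) (nat_lit 2) (nat_lit 4) (nat_lit 375) (nat_lit 290) (nat_lit 235)) (XT.nd (nat_lit 78) (nat_lit 0) (nat_lit 0) (XT.lf (nat_lit 0) (nat_lit 100906070157) (nat_lit 152) (nat_lit 160863959736) (nat_lit 0) (nat_lit 91771715802) (nat_lit 2) (nat_lit 5) (nat_lit 4) (nat_lit 4) (nat_lit 2) (nat_lit 4) (nat_lit 376) (nat_lit 290) (nat_lit 234)) (XT.lf (nat_lit 0) (nat_lit 116307965430) (nat_lit 152) (nat_lit 157947969030) (nat_lit 0) (nat_lit 107164396220) (nat_lit 2) (nat_lit 5) (nat_lit 4) (nat_lit 4) (nat_lit 2) (nat_lit 4) (nat_lit 377) (nat_lit 290) (nat_lit 233))))) (XT.nd (nat_lit 234) (nat_lit 0) (nat_lit 0) (XT.nd (nat_lit 78) (nat_lit 0) (nat_lit 0) (XT.lf (nat_lit 0) (nat_lit 132926933767) (nat_lit 152) (nat_lit 154828192674) (nat_lit 0) (nat_lit 123774832283) (nat_lit 2) (nat_lit 5) (nat_lit 4) (nat_lit 4) (nat_lit 2) (nat_lit 4) (nat_lit 378) (nat_lit 290) (nat_lit 232))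 (XT.nd (nat_lit 78) (nat_lit 0) (nat_lit 0) (XT.lf (nat_lit 0) (nat_lit 150861457944) (nat_lit 152) (nat_lit 151486143103) (nat_lit 0) (nat_lit 141701456207) (nat_lit 2) (nat_lit 5) (nat_lit 4) (nat_lit 4) (nat_lit 2) (nat_lit 4) (nat_lit 379) (nat_lit 290) (nat_lit 231)) (XT.lf (nat_lit 0) (nat_lit 170217816622) (nat_lit 152) (nat_lit 147902015580) (nat_lit 0) (nat_lit 161050499837) (nat_lit 2) (nat_lit 5) (nat_lit 4) (nat_lit 4) (nat_lit 2) (nat_lit 4) (nat_lit 380) (nat_lit 290) (nat_lit 230)))) (XT.nd (nat_lit 78) (nat_lit 0) (nat_lit 0) (XT.lf (nat_lit 0) (nat_lit 191110714151) (nat_lit 152) (nat_lit 144054570830) (nat_lit 0) (nat_lit 181936624171) (nat_lit 2) (nat_lit 5) (nat_lit 4) (nat_lit 4) (nat_lit 2) (nat_lit 4) (nat_lit 381) (nat_lit 290) (nat_lit 229)) (XT.nd (nat_lit 78) (nat_lit 0) (nat_lit 0) (XT.lf (nat_lit 0) (nat_lit 213663960291) (nat_lit 152) (nat_lit 139921009180)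 (nat_lit 0) (nat_lit 204483598837) (nat_lit 2) (nat_lit 5) (nat_lit 4) (nat_lit 4) (nat_lit 2) (nat_lit 4) (nat_lit 382) (nat_lit 290) (nat_lit 228)) (XT.lf (nat_lit 0) (nat_lit 238011203911) (nat_lit 152) (nat_lit 135476835452) (nat_lit 0) (nat_lit 228825035535) (nat_lit 2) (nat_lit 5) (nat_lit 4) (nat_lit 4) (nat_lit 2) (nat_lit 4) (nat_lit 383) (nat_lit 290) (nat_lit 227)))))) (XT.nd (nat_lit 390) (nat_lit 0) (nat_lit 0) (XT.nd (nat_lit 156) (nat_lit 0) (nat_lit 0) (XT.nd (nat_lit 78) (nat_lit 0) (nat_lit 0) (XT.lf (nat_lit 0) (nat_lit 264296724971) (nat_lit 152) (nat_lit 130695713799) (nat_lit 0) (nat_lit 255105179816) (nat_lit 2) (nat_lit 5) (nat_lit 4) (nat_lit 4) (nat_lit 2) (nat_lit 4) (nat_lit 384) (nat_lit 290) (nat_lit 226)) (XT.lf (nat_lit 0) (nat_lit 292676289523) (nat_lit 152) (nat_lit 125549311651) (nat_lit 0) (nat_lit 283479765868) (nat_lit 2) (nat_lit 5) (nat_lit 4) (nat_lit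 4) (nat_lit 2) (nat_lit 4) (nat_lit 385) (nat_lit 290) (nat_lit 225))) (XT.nd (nat_lit 78) (nat_lit 0) (nat_lit 0) (XT.lf (nat_lit 0) (nat_lit 323318072764) (nat_lit 152) (nat_lit 120007131807) (nat_lit 0) (nat_lit 314116939387) (nat_lit 2) (nat_lit 5) (nat_lit 4) (nat_lit 4) (nat_lit 2) (nat_lit 4) (nat_lit 386) (nat_lit 290) (nat_lit 224)) (XT.nd (nat_lit 78) (nat_lit 0) (nat_lit 0) (XT.lf (nat_lit 0) (nat_lit 356403655632) (nat_lit 152) (nat_lit 114036331722) (nat_lit 0) (nat_lit 347198253994) (nat_lit 2) (nat_lit 5) (nat_lit 4) (nat_lit 4) (nat_lit 2) (nat_lit 4) (nat_lit 387) (nat_lit 290) (nat_lit 223)) (XT.lf (nat_lit 0) (nat_lit 392129100839) (nat_lit 152) (nat_lit 107601528877) (nat_lit 0) (nat_lit 382919747108) (nat_lit 2) (nat_lit 5) (nat_lit 4) (nat_lit 4) (nat_lit 2) (nat_lit 4) (nat_lit 388) (nat_lit 290) (nat_lit 222))))) (XT.nd (nat_lit 41418) (nat_lit 0) (nat_lit 3420)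 (XT.nd (nat_lit 78) (nat_lit 0) (nat_lit 0) (XT.lf (nat_lit 0) (nat_lit 430706114729) (nat_lit 152) (nat_lit 100664591106) (nat_lit 0) (nat_lit 421493101652) (nat_lit 2) (nat_lit 5) (nat_lit 4) (nat_lit 4) (nat_lit 2) (nat_lit 4) (nat_lit 389) (nat_lit 290) (nat_lit 221)) (XT.nd (nat_lit 41262) (nat_lit 0) (nat_lit 4332) (XT.lf (nat_lit 0) (nat_lit 472363301827) (nat_lit 152) (nat_lit 93184410630) (nat_lit 0) (nat_lit 463146900467) (nat_lit 2) (nat_lit 5) (nat_lit 4) (nat_lit 4) (nat_lit 2) (nat_lit 4) (nat_lit 390) (nat_lit 290) (nat_lit 220)) (XT.lf (nat_lit 0) (nat_lit 2124817433) (nat_lit 304) (nat_lit 255359097) (nat_lit 0) (nat_lit 2124817433) (nat_lit 59) (nat_lit 5) (nat_lit 63) (nat_lit 4) (nat_lit 59) (nat_lit 4) (nat_lit 318) (nat_lit 291) (nat_lit 291)))) (XT.nd (nat_lit 78) (nat_lit 456) (nat_lit 0) (XT.lf (nat_lit 0) (nat_lit 1436511135) (nat_lit 228) (nat_lit 7855144566)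 (nat_lit 0) (nat_lit 39810076) (nat_lit 53) (nat_lit 5) (nat_lit 56) (nat_lit 4) (nat_lit 53) (nat_lit 4) (nat_lit 319) (nat_lit 291) (nat_lit 290)) (XT.nd (nat_lit 78) (nat_lit 228) (nat_lit 0) (XT.lf (nat_lit 0) (nat_lit 3384489989) (nat_lit 228) (nat_lit 4492419134) (nat_lit 228) (nat_lit 1802476355) (nat_lit 50) (nat_lit 4) (nat_lit 53) (nat_lit 5) (nat_lit 53) (nat_lit 4) (nat_lit 320) (nat_lit 291) (nat_lit 289)) (XT.lf (nat_lit 0) (nat_lit 4473275437) (nat_lit 228) (nat_lit 4815006385) (nat_lit 0) (nat_lit 771000373) (nat_lit 47) (nat_lit 5) (nat_lit 50) (nat_lit 4) (nat_lit 47) (nat_lit 4) (nat_lit 321) (nat_lit 291) (nat_lit 288))))))) (XT.nd (nat_lit 858) (nat_lit 760) (nat_lit 0) (XT.nd (nat_lit 390) (nat_lit 912) (nat_lit 0) (XT.nd (nat_lit 156) (nat_lit 608) (nat_lit 0) (XT.nd (nat_lit 78) (nat_lit 152) (nat_lit 0) (XT.lf (nat_lit 0) (nat_lit 624547075) (nat_lit 304) (nat_lit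 3477902446) (nat_lit 76) (nat_lit 6368969728) (nat_lit 43) (nat_lit 5) (nat_lit 47) (nat_lit 5) (nat_lit 44) (nat_lit 4) (nat_lit 322) (nat_lit 291) (nat_lit 287)) (XT.lf (nat_lit 0) (nat_lit 7028360337) (nat_lit 228) (nat_lit 2323690259) (nat_lit 0) (nat_lit 1565546620) (nat_lit 41) (nat_lit 5) (nat_lit 44) (nat_lit 4) (nat_lit 41) (nat_lit 4) (nat_lit 323) (nat_lit 291) (nat_lit 286))) (XT.nd (nat_lit 78) (nat_lit 380) (nat_lit 0) (XT.lf (nat_lit 0) (nat_lit 2409310794) (nat_lit 228) (nat_lit 1385922752) (nat_lit 76) (nat_lit 7605185874) (nat_lit 38) (nat_lit 5) (nat_lit 41) (nat_lit 5) (nat_lit 39) (nat_lit 4) (nat_lit 324) (nat_lit 291) (nat_lit 285)) (XT.nd (nat_lit 78) (nat_lit 228) (nat_lit 0) (XT.lf (nat_lit 0) (nat_lit 9000449855) (nat_lit 228) (nat_lit 705872415) (nat_lit 0) (nat_lit 2216316841) (nat_lit 36) (nat_lit 5) (nat_lit 39) (nat_lit 4) (nat_lit 36) (nat_lit 4) (nat_lit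 325) (nat_lit 291) (nat_lit 284)) (XT.lf (nat_lit 0) (nat_lit 3477608087) (nat_lit 228) (nat_lit 359030952) (nat_lit 76) (nat_lit 8649264326) (nat_lit 33) (nat_lit 5) (nat_lit 36) (nat_lit 5) (nat_lit 34) (nat_lit 4) (nat_lit 326) (nat_lit 291) (nat_lit 283))))) (XT.nd (nat_lit 234) (nat_lit 532) (nat_lit 0) (XT.nd (nat_lit 78) (nat_lit 304) (nat_lit 0) (XT.lf (nat_lit 0) (nat_lit 10234116837) (nat_lit 152) (nat_lit 378770805) (nat_lit 0) (nat_lit 2481760356) (nat_lit 32) (nat_lit 5) (nat_lit 34) (nat_lit 4) (nat_lit 32) (nat_lit 4) (nat_lit 327) (nat_lit 291) (nat_lit 282)) (XT.nd (nat_lit 78) (nat_lit 76) (nat_lit 0) (XT.lf (nat_lit 0) (nat_lit 3636410667) (nat_lit 228) (nat_lit 872535402) (nat_lit 76) (nat_lit 9241430311) (nat_lit 29) (nat_lit 5) (nat_lit 32) (nat_lit 5) (nat_lit 30) (nat_lit 4) (nat_lit 328) (nat_lit 291) (nat_lit 281)) (XT.lf (nat_lit 0) (nat_lit 10506407729) (nat_lit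 152) (nat_lit 1883407249) (nat_lit 0) (nat_lit 2068866069) (nat_lit 28) (nat_lit 5) (nat_lit 30) (nat_lit 4) (nat_lit 28) (nat_lit 4) (nat_lit 329) (nat_lit 291) (nat_lit 280)))) (XT.nd (nat_lit 78) (nat_lit 304) (nat_lit 0) (XT.lf (nat_lit 0) (nat_lit 2615987123) (nat_lit 228) (nat_lit 3544116796) (nat_lit 76) (nat_lit 9061552636) (nat_lit 25) (nat_lit 5) (nat_lit 28) (nat_lit 5) (nat_lit 26) (nat_lit 4) (nat_lit 330) (nat_lit 291) (nat_lit 279)) (XT.nd (nat_lit 78) (nat_lit 228) (nat_lit 0) (XT.lf (nat_lit 0) (nat_lit 9508938703) (nat_lit 152) (nat_lit 5924421953) (nat_lit 0) (nat_lit 612298163) (nat_lit 24) (nat_lit 5) (nat_lit 26) (nat_lit 4) (nat_lit 24) (nat_lit 4) (nat_lit 331) (nat_lit 291) (nat_lit 278)) (XT.lf (nat_lit 0) (nat_lit 49270312) (nat_lit 228) (nat_lit 9178865823) (nat_lit 76) (nat_lit 7705926461) (nat_lit 21) (nat_lit 5) (nat_lit 24) (nat_lit 5) (nat_lit 22) (nat_lit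 4) (nat_lit 332) (nat_lit 291) (nat_lit 277)))))) (XT.nd (nat_lit 390) (nat_lit 380) (nat_lit 0) (XT.nd (nat_lit 156) (nat_lit 228) (nat_lit 0) (XT.nd (nat_lit 78) (nat_lit 76) (nat_lit 0) (XT.lf (nat_lit 0) (nat_lit 4432870493) (nat_lit 76) (nat_lit 2429364880) (nat_lit 152) (nat_lit 11029582268) (nat_lit 20) (nat_lit 5) (nat_lit 21) (nat_lit 5) (nat_lit 22) (nat_lit 4) (nat_lit 333) (nat_lit 291) (nat_lit 276)) (XT.lf (nat_lit 0) (nat_lit 25803575) (nat_lit 76) (nat_lit 14194646291) (nat_lit 76) (nat_lit 4705818209) (nat_lit 19) (nat_lit 4) (nat_lit 20) (nat_lit 5) (nat_lit 20) (nat_lit 4) (nat_lit 334) (nat_lit 291) (nat_lit 275))) (XT.nd (nat_lit 78) (nat_lit 152) (nat_lit 0) (XT.lf (nat_lit 0) (nat_lit 2103074152) (nat_lit 152) (nat_lit 5467259281) (nat_lit 76) (nat_lit 12469198457) (nat_lit 18) (nat_lit 5) (nat_lit 20) (nat_lit 5) (nat_lit 19) (nat_lit 4) (nat_lit 335) (nat_lit 291)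 (nat_lit 274)) (XT.nd (nat_lit 78) (nat_lit 76) (nat_lit 0) (XT.lf (nat_lit 0) (nat_lit 8848641421) (nat_lit 76) (nat_lit 368663070) (nat_lit 152) (nat_lit 12024490205) (nat_lit 17) (nat_lit 5) (nat_lit 18) (nat_lit 5) (nat_lit 19) (nat_lit 4) (nat_lit 336) (nat_lit 291) (nat_lit 273)) (XT.lf (nat_lit 0) (nat_lit 1514592680) (nat_lit 76) (nat_lit 15414633047) (nat_lit 76) (nat_lit 5609649889) (nat_lit 16) (nat_lit 4) (nat_lit 17) (nat_lit 5) (nat_lit 17) (nat_lit 4) (nat_lit 337) (nat_lit 291) (nat_lit 272))))) (XT.nd (nat_lit 234) (nat_lit 228) (nat_lit 0) (XT.nd (nat_lit 78) (nat_lit 76) (nat_lit 0) (XT.lf (nat_lit 0) (nat_lit 1300552396) (nat_lit 152) (nat_lit 7357897951) (nat_lit 76) (nat_lit 15279081999) (nat_lit 15) (nat_lit 5) (nat_lit 17) (nat_lit 5) (nat_lit 16) (nat_lit 4) (nat_lit 338) (nat_lit 291) (nat_lit 271)) (XT.nd (nat_lit 78) (nat_lit 0) (nat_lit 0) (XT.lf (nat_lit 0)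 (nat_lit 7189021105) (nat_lit 76) (nat_lit 1306526677) (nat_lit 152) (nat_lit 16951563012) (nat_lit 14) (nat_lit 5) (nat_lit 15) (nat_lit 5) (nat_lit 16) (nat_lit 4) (nat_lit 339) (nat_lit 291) (nat_lit 270)) (XT.lf (nat_lit 0) (nat_lit 16319802337) (nat_lit 152) (nat_lit 4353930622) (nat_lit 0) (nat_lit 6401088507) (nat_lit 14) (nat_lit 5) (nat_lit 16) (nat_lit 4) (nat_lit 14) (nat_lit 4) (nat_lit 340) (nat_lit 291) (nat_lit 269)))) (XT.nd (nat_lit 78) (nat_lit 152) (nat_lit 0) (XT.lf (nat_lit 0) (nat_lit 10667459798) (nat_lit 76) (nat_lit 14124283713) (nat_lit 76) (nat_lit 4039963470) (nat_lit 13) (nat_lit 4) (nat_lit 14) (nat_lit 5) (nat_lit 14) (nat_lit 4) (nat_lit 341) (nat_lit 291) (nat_lit 268)) (XT.nd (nat_lit 78) (nat_lit 76) (nat_lit 0) (XT.lf (nat_lit 0) (nat_lit 3024747210) (nat_lit 152) (nat_lit 4036927732) (nat_lit 76) (nat_lit 23669237492) (nat_lit 12) (nat_lit 5) (nat_lit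 14) (nat_lit 5) (nat_lit 13) (nat_lit 4) (nat_lit 342) (nat_lit 291) (nat_lit 267)) (XT.lf (nat_lit 0) (nat_lit 10551195555) (nat_lit 152) (nat_lit 21559855416) (nat_lit 0) (nat_lit 665823821) (nat_lit 11) (nat_lit 5) (nat_lit 13) (nat_lit 4) (nat_lit 11) (nat_lit 4) (nat_lit 343) (nat_lit 291) (nat_lit 266))))))))
noncomputable def xc31 : XT := (XT.nd (nat_lit 1716) (nat_lit 152) (nat_lit 0) (XT.nd (nat_lit 858) (nat_lit 152) (nat_lit 0) (XT.nd (nat_lit 390) (nat_lit 152) (nat_lit 0) (XT.nd (nat_lit 156) (nat_lit 152) (nat_lit 0) (XT.nd (nat_lit 78) (nat_lit 76) (nat_lit 0) (XT.lf (nat_lit 0) (nat_lit 18725333164) (nat_lit 152) (nat_lit 7544178659) (nat_lit 0) (nat_lit 8714757897) (nat_lit 11) (nat_lit 5) (nat_lit 13) (nat_lit 4) (nat_lit 11) (nat_lit 4) (nat_lit 344) (nat_lit 291) (nat_lit 265)) (XT.lf (nat_lit 0) (nat_lit 7579420032) (nat_lit 76) (nat_lit 19958083646) (nat_lit 76) (nat_lit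 9831579181) (nat_lit 10) (nat_lit 4) (nat_lit 11) (nat_lit 5) (nat_lit 11) (nat_lit 4) (nat_lit 345) (nat_lit 291) (nat_lit 264))) (XT.nd (nat_lit 78) (nat_lit 152) (nat_lit 0) (XT.lf (nat_lit 0) (nat_lit 23937507841) (nat_lit 76) (nat_lit 13120441896) (nat_lit 76) (nat_lit 2886595582) (nat_lit 10) (nat_lit 4) (nat_lit 11) (nat_lit 5) (nat_lit 11) (nat_lit 4) (nat_lit 346) (nat_lit 291) (nat_lit 263)) (XT.nd (nat_lit 78) (nat_lit 76) (nat_lit 0) (XT.lf (nat_lit 0) (nat_lit 4345716374) (nat_lit 152) (nat_lit 1424518346) (nat_lit 76) (nat_lit 36958263781) (nat_lit 9) (nat_lit 5) (nat_lit 11) (nat_lit 5) (nat_lit 10) (nat_lit 4) (nat_lit 347) (nat_lit 291) (nat_lit 262)) (XT.lf (nat_lit 0) (nat_lit 12208757025) (nat_lit 152) (nat_lit 31236472051) (nat_lit 0) (nat_lit 2279932977) (nat_lit 8) (nat_lit 5) (nat_lit 10) (nat_lit 4) (nat_lit 8) (nat_lit 4) (nat_lit 348) (nat_lit 291) (nat_lit 261)))))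 (XT.nd (nat_lit 234) (nat_lit 76) (nat_lit 0) (XT.nd (nat_lit 78) (nat_lit 76) (nat_lit 0) (XT.lf (nat_lit 0) (nat_lit 20715253067) (nat_lit 152) (nat_lit 17540331929) (nat_lit 0) (nat_lit 10705275286) (nat_lit 8) (nat_lit 5) (nat_lit 10) (nat_lit 4) (nat_lit 8) (nat_lit 4) (nat_lit 349) (nat_lit 291) (nat_lit 260)) (XT.nd (nat_lit 78) (nat_lit 76) (nat_lit 0) (XT.lf (nat_lit 0) (nat_lit 29802171073) (nat_lit 152) (nat_lit 2941217792) (nat_lit 0) (nat_lit 19717050945) (nat_lit 8) (nat_lit 5) (nat_lit 10) (nat_lit 4) (nat_lit 8) (nat_lit 4) (nat_lit 350) (nat_lit 291) (nat_lit 259)) (XT.lf (nat_lit 0) (nat_lit 13065563246) (nat_lit 76) (nat_lit 26661786257) (nat_lit 76) (nat_lit 16507089882) (nat_lit 7) (nat_lit 4) (nat_lit 8) (nat_lit 5) (nat_lit 8) (nat_lit 4) (nat_lit 351) (nat_lit 291) (nat_lit 258)))) (XT.nd (nat_lit 78) (nat_lit 76) (nat_lit 0) (XT.lf (nat_lit 0) (nat_lit 30287229724)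 (nat_lit 76) (nat_lit 20122064035) (nat_lit 76) (nat_lit 9902945210) (nat_lit 7) (nat_lit 4) (nat_lit 8) (nat_lit 5) (nat_lit 8) (nat_lit 4) (nat_lit 352) (nat_lit 291) (nat_lit 257)) (XT.nd (nat_lit 78) (nat_lit 76) (nat_lit 0) (XT.lf (nat_lit 0) (nat_lit 48728586017) (nat_lit 76) (nat_lit 13135279239) (nat_lit 76) (nat_lit 2856509997) (nat_lit 7) (nat_lit 4) (nat_lit 8) (nat_lit 5) (nat_lit 8) (nat_lit 4) (nat_lit 353) (nat_lit 291) (nat_lit 256)) (XT.lf (nat_lit 0) (nat_lit 4524376103) (nat_lit 152) (nat_lit 1059030097) (nat_lit 76) (nat_lit 63897915635) (nat_lit 6) (nat_lit 5) (nat_lit 8) (nat_lit 5) (nat_lit 7) (nat_lit 4) (nat_lit 354) (nat_lit 291) (nat_lit 255)))))) (XT.nd (nat_lit 390) (nat_lit 76) (nat_lit 0) (XT.nd (nat_lit 156) (nat_lit 0) (nat_lit 0) (XT.nd (nat_lit 78) (nat_lit 0) (nat_lit 0) (XT.lf (nat_lit 0) (nat_lit 12609477490) (nat_lit 152) (nat_lit 59281781125) (nat_lit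 0) (nat_lit 2718866320) (nat_lit 5) (nat_lit 5) (nat_lit 7) (nat_lit 4) (nat_lit 5) (nat_lit 4) (nat_lit 355) (nat_lit 291) (nat_lit 254)) (XT.lf (nat_lit 0) (nat_lit 21385113796) (nat_lit 152) (nat_lit 47312539407) (nat_lit 0) (nat_lit 11449405078) (nat_lit 5) (nat_lit 5) (nat_lit 7) (nat_lit 4) (nat_lit 5) (nat_lit 4) (nat_lit 356) (nat_lit 291) (nat_lit 253))) (XT.nd (nat_lit 78) (nat_lit 0) (nat_lit 0) (XT.lf (nat_lit 0) (nat_lit 30798755023) (nat_lit 152) (nat_lit 34510115675) (nat_lit 0) (nat_lit 20821289317) (nat_lit 5) (nat_lit 5) (nat_lit 7) (nat_lit 4) (nat_lit 5) (nat_lit 4) (nat_lit 357) (nat_lit 291) (nat_lit 252)) (XT.nd (nat_lit 78) (nat_lit 0) (nat_lit 0) (XT.lf (nat_lit 0) (nat_lit 40906185712) (nat_lit 152) (nat_lit 20798643715) (nat_lit 0) (nat_lit 30890056129) (nat_lit 5) (nat_lit 5) (nat_lit 7) (nat_lit 4) (nat_lit 5) (nat_lit 4) (nat_lit 358) (nat_lit 291) (nat_lit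 251)) (XT.lf (nat_lit 0) (nat_lit 51767301749) (nat_lit 152) (nat_lit 6096870360) (nat_lit 0) (nat_lit 41715372279) (nat_lit 5) (nat_lit 5) (nat_lit 7) (nat_lit 4) (nat_lit 5) (nat_lit 4) (nat_lit 359) (nat_lit 291) (nat_lit 250))))) (XT.nd (nat_lit 234) (nat_lit 0) (nat_lit 0) (XT.nd (nat_lit 78) (nat_lit 0) (nat_lit 0) (XT.lf (nat_lit 0) (nat_lit 10002467433) (nat_lit 76) (nat_lit 53600164419) (nat_lit 76) (nat_lit 43515086905) (nat_lit 4) (nat_lit 4) (nat_lit 5) (nat_lit 5) (nat_lit 5) (nat_lit 4) (nat_lit 360) (nat_lit 291) (nat_lit 249)) (XT.nd (nat_lit 78) (nat_lit 0) (nat_lit 0) (XT.lf (nat_lit 0) (nat_lit 27513040872) (nat_lit 76) (nat_lit 48929401034) (nat_lit 76) (nat_lit 38813630888) (nat_lit 4) (nat_lit 4) (nat_lit 5) (nat_lit 5) (nat_lit 5) (nat_lit 4) (nat_lit 361) (nat_lit 291) (nat_lit 248)) (XT.lf (nat_lit 0) (nat_lit 46337026248) (nat_lit 76) (nat_lit 43927456807) (nat_lit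 76) (nat_lit 33783267556) (nat_lit 4) (nat_lit 4) (nat_lit 5) (nat_lit 5) (nat_lit 5) (nat_lit 4) (nat_lit 362) (nat_lit 291) (nat_lit 247)))) (XT.nd (nat_lit 78) (nat_lit 0) (nat_lit 0) (XT.lf (nat_lit 0) (nat_lit 66585973106) (nat_lit 76) (nat_lit 38564690587) (nat_lit 76) (nat_lit 28394187351) (nat_lit 4) (nat_lit 4) (nat_lit 5) (nat_lit 5) (nat_lit 5) (nat_lit 4) (nat_lit 363) (nat_lit 291) (nat_lit 246)) (XT.nd (nat_lit 78) (nat_lit 0) (nat_lit 0) (XT.lf (nat_lit 0) (nat_lit 88379875203) (nat_lit 76) (nat_lit 32809323019) (nat_lit 76) (nat_lit 22614454982) (nat_lit 4) (nat_lit 4) (nat_lit 5) (nat_lit 5) (nat_lit 5) (nat_lit 4) (nat_lit 364) (nat_lit 291) (nat_lit 245)) (XT.lf (nat_lit 0) (nat_lit 111847881589) (nat_lit 76) (nat_lit 26627248221) (nat_lit 76) (nat_lit 16409820183) (nat_lit 4) (nat_lit 4) (nat_lit 5) (nat_lit 5) (nat_lit 5) (nat_lit 4) (nat_lit 365) (nat_lit 291) (nat_lit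 244))))))) (XT.nd (nat_lit 858) (nat_lit 0) (nat_lit 0) (XT.nd (nat_lit 390) (nat_lit 0) (nat_lit 0) (XT.nd (nat_lit 156) (nat_lit 152) (nat_lit 0) (XT.nd (nat_lit 78) (nat_lit 0) (nat_lit 0) (XT.lf (nat_lit 0) (nat_lit 137129061933) (nat_lit 76) (nat_lit 19981831676) (nat_lit 76) (nat_lit 9743514747) (nat_lit 4) (nat_lit 4) (nat_lit 5) (nat_lit 5) (nat_lit 5) (nat_lit 4) (nat_lit 366) (nat_lit 291) (nat_lit 243)) (XT.lf (nat_lit 0) (nat_lit 164373230635) (nat_lit 76) (nat_lit 12833693137) (nat_lit 76) (nat_lit 2576034643) (nat_lit 4) (nat_lit 4) (nat_lit 5) (nat_lit 5) (nat_lit 5) (nat_lit 4) (nat_lit 367) (nat_lit 291) (nat_lit 242))) (XT.nd (nat_lit 78) (nat_lit 76) (nat_lit 0) (XT.lf (nat_lit 0) (nat_lit 4970739004) (nat_lit 152) (nat_lit 85552391) (nat_lit 76) (nat_lit 188686913746) (nat_lit 3) (nat_lit 5) (nat_lit 5) (nat_lit 5) (nat_lit 4) (nat_lit 4) (nat_lit 368) (nat_lit 291)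 (nat_lit 241)) (XT.nd (nat_lit 78) (nat_lit 0) (nat_lit 0) (XT.lf (nat_lit 0) (nat_lit 13326409148) (nat_lit 152) (nat_lit 191952623071) (nat_lit 0) (nat_lit 3524361886) (nat_lit 2) (nat_lit 5) (nat_lit 4) (nat_lit 4) (nat_lit 2) (nat_lit 4) (nat_lit 369) (nat_lit 291) (nat_lit 240)) (XT.lf (nat_lit 0) (nat_lit 22411463913) (nat_lit 152) (nat_lit 190059097889) (nat_lit 0) (nat_lit 12594793835) (nat_lit 2) (nat_lit 5) (nat_lit 4) (nat_lit 4) (nat_lit 2) (nat_lit 4) (nat_lit 370) (nat_lit 291) (nat_lit 239))))) (XT.nd (nat_lit 234) (nat_lit 0) (nat_lit 0) (XT.nd (nat_lit 78) (nat_lit 0) (nat_lit 0) (XT.lf (nat_lit 0) (nat_lit 32199395285) (nat_lit 152) (nat_lit 188060893337) (nat_lit 0) (nat_lit 22369185561) (nat_lit 2) (nat_lit 5) (nat_lit 4) (nat_lit 4) (nat_lit 2) (nat_lit 4) (nat_lit 371) (nat_lit 291) (nat_lit 238)) (XT.nd (nat_lit 78) (nat_lit 0) (nat_lit 0) (XT.lf (nat_lit 0) (nat_lit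 42748205819) (nat_lit 152) (nat_lit 185946168204) (nat_lit 0) (nat_lit 32905459386) (nat_lit 2) (nat_lit 5) (nat_lit 4) (nat_lit 4) (nat_lit 2) (nat_lit 4) (nat_lit 372) (nat_lit 291) (nat_lit 237)) (XT.lf (nat_lit 0) (nat_lit 54120406985) (nat_lit 152) (nat_lit 183702390786) (nat_lit 0) (nat_lit 44266052489) (nat_lit 2) (nat_lit 5) (nat_lit 4) (nat_lit 4) (nat_lit 2) (nat_lit 4) (nat_lit 373) (nat_lit 291) (nat_lit 236)))) (XT.nd (nat_lit 78) (nat_lit 0) (nat_lit 0) (XT.lf (nat_lit 0) (nat_lit 66383389606) (nat_lit 152) (nat_lit 181316264623) (nat_lit 0) (nat_lit 56518286902) (nat_lit 2) (nat_lit 5) (nat_lit 4) (nat_lit 4) (nat_lit 2) (nat_lit 4) (nat_lit 374) (nat_lit 291) (nat_lit 235)) (XT.nd (nat_lit 78) (nat_lit 0) (nat_lit 0) (XT.lf (nat_lit 0) (nat_lit 79609823207) (nat_lit 152) (nat_lit 178773649710) (nat_lit 0) (nat_lit 69734768460) (nat_lit 2) (nat_lit 5) (nat_lit 4) (nat_lit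 4) (nat_lit 2) (nat_lit 4) (nat_lit 375) (nat_lit 291) (nat_lit 234)) (XT.lf (nat_lit 0) (nat_lit 93878086654) (nat_lit 152) (nat_lit 176059478697) (nat_lit 0) (nat_lit 83993817052) (nat_lit 2) (nat_lit 5) (nat_lit 4) (nat_lit 4) (nat_lit 2) (nat_lit 4) (nat_lit 376) (nat_lit 291) (nat_lit 233)))))) (XT.nd (nat_lit 468) (nat_lit 0) (nat_lit 0) (XT.nd (nat_lit 234) (nat_lit 0) (nat_lit 0) (XT.nd (nat_lit 78) (nat_lit 0) (nat_lit 0) (XT.lf (nat_lit 0) (nat_lit 109272732620) (nat_lit 152) (nat_lit 173157667609) (nat_lit 0) (nat_lit 99379930745) (nat_lit 2) (nat_lit 5) (nat_lit 4) (nat_lit 4) (nat_lit 2) (nat_lit 4) (nat_lit 377) (nat_lit 291) (nat_lit 232)) (XT.nd (nat_lit 78) (nat_lit 0) (nat_lit 0) (XT.lf (nat_lit 0) (nat_lit 125884988636) (nat_lit 152) (nat_lit 170051020529) (nat_lit 0) (nat_lit 115984286508) (nat_lit 2) (nat_lit 5) (nat_lit 4) (nat_lit 4) (nat_lit 2) (nat_lit 4) (nat_lit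 378) (nat_lit 291) (nat_lit 231)) (XT.lf (nat_lit 0) (nat_lit 143813297701) (nat_lit 152) (nat_lit 166721127695) (nat_lit 0) (nat_lit 133905280524) (nat_lit 2) (nat_lit 5) (nat_lit 4) (nat_lit 4) (nat_lit 2) (nat_lit 4) (nat_lit 379) (nat_lit 291) (nat_lit 230)))) (XT.nd (nat_lit 78) (nat_lit 0) (nat_lit 0) (XT.lf (nat_lit 0) (nat_lit 163163901647) (nat_lit 152) (nat_lit 163148256410) (nat_lit 0) (nat_lit 153249111276) (nat_lit 2) (nat_lit 5) (nat_lit 4) (nat_lit 4) (nat_lit 2) (nat_lit 4) (nat_lit 380) (nat_lit 291) (nat_lit 229)) (XT.nd (nat_lit 78) (nat_lit 0) (nat_lit 0) (XT.lf (nat_lit 0) (nat_lit 184051470719) (nat_lit 152) (nat_lit 159311234103) (nat_lit 0) (nat_lit 174130408872) (nat_lit 2) (nat_lit 5) (nat_lit 4) (nat_lit 4) (nat_lit 2) (nat_lit 4) (nat_lit 381) (nat_lit 291) (nat_lit 228)) (XT.lf (nat_lit 0) (nat_lit 206599783103) (nat_lit 152) (nat_lit 155187322863) (nat_lit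 0) (nat_lit 196672914335) (nat_lit 2) (nat_lit 5) (nat_lit 4) (nat_lit 4) (nat_lit 2) (nat_lit 4) (nat_lit 382) (nat_lit 291) (nat_lit 227))))) (XT.nd (nat_lit 234) (nat_lit 0) (nat_lit 0) (XT.nd (nat_lit 78) (nat_lit 0) (nat_lit 0) (XT.lf (nat_lit 0) (nat_lit 230942458430) (nat_lit 152) (nat_lit 150752084699) (nat_lit 0) (nat_lit 221010212883) (nat_lit 2) (nat_lit 5) (nat_lit 4) (nat_lit 4) (nat_lit 2) (nat_lit 4) (nat_lit 383) (nat_lit 291) (nat_lit 226)) (XT.nd (nat_lit 78) (nat_lit 0) (nat_lit 0) (XT.lf (nat_lit 0) (nat_lit 257223749590) (nat_lit 152) (nat_lit 145979236718) (nat_lit 0) (nat_lit 247286525543) (nat_lit 2) (nat_lit 5) (nat_lit 4) (nat_lit 4) (nat_lit 2) (nat_lit 4) (nat_lit 384) (nat_lit 291) (nat_lit 225)) (XT.lf (nat_lit 0) (nat_lit 285599397568) (nat_lit 152) (nat_lit 140840495376) (nat_lit 0) (nat_lit 275657563799) (nat_lit 2) (nat_lit 5) (nat_lit 4) (nat_lit 4) (nat_lit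 2) (nat_lit 4) (nat_lit 385) (nat_lit 291) (nat_lit 224)))) (XT.nd (nat_lit 78) (nat_lit 0) (nat_lit 0) (XT.lf (nat_lit 0) (nat_lit 316237554351) (nat_lit 152) (nat_lit 135305408872) (nat_lit 0) (nat_lit 306291452321) (nat_lit 2) (nat_lit 5) (nat_lit 4) (nat_lit 4) (nat_lit 2) (nat_lit 4) (nat_lit 386) (nat_lit 291) (nat_lit 223)) (XT.nd (nat_lit 78) (nat_lit 0) (nat_lit 0) (XT.lf (nat_lit 0) (nat_lit 349319779387) (nat_lit 152) (nat_lit 129341176694) (nat_lit 0) (nat_lit 339369725263) (nat_lit 2) (nat_lit 5) (nat_lit 4) (nat_lit 4) (nat_lit 2) (nat_lit 4) (nat_lit 387) (nat_lit 291) (nat_lit 222)) (XT.lf (nat_lit 0) (nat_lit 385042115491) (nat_lit 152) (nat_lit 122912455244) (nat_lit 0) (nat_lit 375088402022) (nat_lit 2) (nat_lit 5) (nat_lit 4) (nat_lit 4) (nat_lit 2) (nat_lit 4) (nat_lit 388) (nat_lit 291) (nat_lit 221))))))))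
noncomputable def xc32 : XT := (XT.nd (nat_lit 42744) (nat_lit 0) (nat_lit 228) (XT.nd (nat_lit 41886) (nat_lit 0) (nat_lit 1292) (XT.nd (nat_lit 41418) (nat_lit 0) (nat_lit 2736) (XT.nd (nat_lit 41184) (nat_lit 0) (nat_lit 4332) (XT.nd (nat_lit 78) (nat_lit 0) (nat_lit 0) (XT.lf (nat_lit 0) (nat_lit 423616250581) (nat_lit 152) (nat_lit 115981148394) (nat_lit 0) (nat_lit 413659148829) (nat_lit 2) (nat_lit 5) (nat_lit 4) (nat_lit 4) (nat_lit 2) (nat_lit 4) (nat_lit 389) (nat_lit 291) (nat_lit 220)) (XT.lf (nat_lit 0) (nat_lit 465270772124) (nat_lit 152) (nat_lit 108506181734) (nat_lit 0) (nat_lit 455310533073) (nat_lit 2) (nat_lit 5) (nat_lit 4) (nat_lit 4) (nat_lit 2) (nat_lit 4) (nat_lit 390) (nat_lit 291) (nat_lit 219))) (XT.nd (nat_lit 78) (nat_lit 608) (nat_lit 0) (XT.lf (nat_lit 0) (nat_lit 1084991205) (nat_lit 304) (nat_lit 2050155329) (nat_lit 0) (nat_lit 1084991205) (nat_lit 67)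 (nat_lit 5) (nat_lit 71) (nat_lit 4) (nat_lit 67) (nat_lit 4) (nat_lit 316) (nat_lit 292) (nat_lit 292)) (XT.nd (nat_lit 78) (nat_lit 304) (nat_lit 0) (XT.lf (nat_lit 0) (nat_lit 6291292468) (nat_lit 304) (nat_lit 2044598714) (nat_lit 304) (nat_lit 381546763) (nat_lit 63) (nat_lit 4) (nat_lit 67) (nat_lit 5) (nat_lit 67) (nat_lit 4) (nat_lit 317) (nat_lit 292) (nat_lit 291)) (XT.lf (nat_lit 0) (nat_lit 5640603689) (nat_lit 304) (nat_lit 789013044) (nat_lit 0) (nat_lit 2590208576) (nat_lit 59) (nat_lit 5) (nat_lit 63) (nat_lit 4) (nat_lit 59) (nat_lit 4) (nat_lit 318) (nat_lit 292) (nat_lit 290))))) (XT.nd (nat_lit 234) (nat_lit 684) (nat_lit 0) (XT.nd (nat_lit 78) (nat_lit 456) (nat_lit 0) (XT.lf (nat_lit 0) (nat_lit 865869308) (nat_lit 152) (nat_lit 1706895680) (nat_lit 228) (nat_lit 6777663720) (nat_lit 53) (nat_lit 5) (nat_lit 55) (nat_lit 5) (nat_lit 56) (nat_lit 4) (nat_lit 319) (nat_lit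 292) (nat_lit 289)) (XT.nd (nat_lit 78) (nat_lit 228) (nat_lit 0) (XT.lf (nat_lit 0) (nat_lit 2484597337) (nat_lit 228) (nat_lit 6310323315) (nat_lit 228) (nat_lit 914497354) (nat_lit 50) (nat_lit 4) (nat_lit 53) (nat_lit 5) (nat_lit 53) (nat_lit 4) (nat_lit 320) (nat_lit 292) (nat_lit 288)) (XT.lf (nat_lit 0) (nat_lit 4011192961) (nat_lit 152) (nat_lit 1118448626) (nat_lit 228) (nat_lit 4969278416) (nat_lit 47) (nat_lit 5) (nat_lit 49) (nat_lit 5) (nat_lit 50) (nat_lit 4) (nat_lit 321) (nat_lit 292) (nat_lit 287)))) (XT.nd (nat_lit 78) (nat_lit 380) (nat_lit 0) (XT.lf (nat_lit 0) (nat_lit 1012256131) (nat_lit 304) (nat_lit 5097436137) (nat_lit 76) (nat_lit 4411469816) (nat_lit 43) (nat_lit 5) (nat_lit 47) (nat_lit 5) (nat_lit 44) (nat_lit 4) (nat_lit 322) (nat_lit 292) (nat_lit 286)) (XT.nd (nat_lit 78) (nat_lit 228) (nat_lit 0) (XT.lf (nat_lit 0) (nat_lit 6686931810) (nat_lit 152) (nat_lit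 515409160) (nat_lit 228) (nat_lit 3775798893) (nat_lit 41) (nat_lit 5) (nat_lit 43) (nat_lit 5) (nat_lit 44) (nat_lit 4) (nat_lit 323) (nat_lit 292) (nat_lit 285)) (XT.lf (nat_lit 0) (nat_lit 2320425752) (nat_lit 228) (nat_lit 3734663828) (nat_lit 76) (nat_lit 5415818541) (nat_lit 38) (nat_lit 5) (nat_lit 41) (nat_lit 5) (nat_lit 39) (nat_lit 4) (nat_lit 324) (nat_lit 292) (nat_lit 284)))))) (XT.nd (nat_lit 390) (nat_lit 684) (nat_lit 0) (XT.nd (nat_lit 156) (nat_lit 380) (nat_lit 0) (XT.nd (nat_lit 78) (nat_lit 228) (nat_lit 0) (XT.lf (nat_lit 0) (nat_lit 8578400574) (nat_lit 152) (nat_lit 108980614) (nat_lit 228) (nat_lit 3317048390) (nat_lit 36) (nat_lit 5) (nat_lit 38) (nat_lit 5) (nat_lit 39) (nat_lit 4) (nat_lit 325) (nat_lit 292) (nat_lit 283)) (XT.lf (nat_lit 0) (nat_lit 2901989659) (nat_lit 228) (nat_lit 3493940222) (nat_lit 76) (nat_lit 6181823700) (nat_lit 33) (nat_lit 5) (nat_lit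 36) (nat_lit 5) (nat_lit 34) (nat_lit 4) (nat_lit 326) (nat_lit 292) (nat_lit 282))) (XT.nd (nat_lit 78) (nat_lit 304) (nat_lit 0) (XT.lf (nat_lit 0) (nat_lit 9280769216) (nat_lit 76) (nat_lit 147206427) (nat_lit 152) (nat_lit 3770124308) (nat_lit 32) (nat_lit 5) (nat_lit 33) (nat_lit 5) (nat_lit 34) (nat_lit 4) (nat_lit 327) (nat_lit 292) (nat_lit 281)) (XT.nd (nat_lit 78) (nat_lit 76) (nat_lit 0) (XT.lf (nat_lit 0) (nat_lit 2558710163) (nat_lit 228) (nat_lit 4855057878) (nat_lit 76) (nat_lit 6450698021) (nat_lit 29) (nat_lit 5) (nat_lit 32) (nat_lit 5) (nat_lit 30) (nat_lit 4) (nat_lit 328) (nat_lit 292) (nat_lit 280)) (XT.lf (nat_lit 0) (nat_lit 8268364173) (nat_lit 76) (nat_lit 932413418) (nat_lit 152) (nat_lit 5383451347) (nat_lit 28) (nat_lit 5) (nat_lit 29) (nat_lit 5) (nat_lit 30) (nat_lit 4) (nat_lit 329) (nat_lit 292) (nat_lit 279))))) (XT.nd (nat_lit 234) (nat_lit 228) (nat_lit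 0) (XT.nd (nat_lit 78) (nat_lit 228) (nat_lit 0) (XT.lf (nat_lit 0) (nat_lit 1015723466) (nat_lit 228) (nat_lit 8441139432) (nat_lit 76) (nat_lit 5902257829) (nat_lit 25) (nat_lit 5) (nat_lit 28) (nat_lit 5) (nat_lit 26) (nat_lit 4) (nat_lit 330) (nat_lit 292) (nat_lit 278)) (XT.nd (nat_lit 78) (nat_lit 152) (nat_lit 0) (XT.lf (nat_lit 0) (nat_lit 4855569636) (nat_lit 76) (nat_lit 2842641617) (nat_lit 152) (nat_lit 8495485327) (nat_lit 24) (nat_lit 5) (nat_lit 25) (nat_lit 5) (nat_lit 26) (nat_lit 4) (nat_lit 331) (nat_lit 292) (nat_lit 277)) (XT.lf (nat_lit 0) (nat_lit 1997073946) (nat_lit 152) (nat_lit 12928928719) (nat_lit 152) (nat_lit 2168597674) (nat_lit 22) (nat_lit 4) (nat_lit 24) (nat_lit 5) (nat_lit 24) (nat_lit 4) (nat_lit 332) (nat_lit 292) (nat_lit 276)))) (XT.nd (nat_lit 78) (nat_lit 152) (nat_lit 0) (XT.lf (nat_lit 0) (nat_lit 4534144335) (nat_lit 228) (nat_lit 1793892618)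 (nat_lit 76) (nat_lit 11735034064) (nat_lit 21) (nat_lit 5) (nat_lit 24) (nat_lit 5) (nat_lit 22) (nat_lit 4) (nat_lit 333) (nat_lit 292) (nat_lit 275)) (XT.nd (nat_lit 78) (nat_lit 76) (nat_lit 0) (XT.lf (nat_lit 0) (nat_lit 11695102739) (nat_lit 152) (nat_lit 6567796291) (nat_lit 0) (nat_lit 844523330) (nat_lit 20) (nat_lit 5) (nat_lit 22) (nat_lit 4) (nat_lit 20) (nat_lit 4) (nat_lit 334) (nat_lit 292) (nat_lit 274)) (XT.lf (nat_lit 0) (nat_lit 7610277413) (nat_lit 76) (nat_lit 11870683759) (nat_lit 76) (nat_lit 751832857) (nat_lit 19) (nat_lit 4) (nat_lit 20) (nat_lit 5) (nat_lit 20) (nat_lit 4) (nat_lit 335) (nat_lit 292) (nat_lit 273))))))) (XT.nd (nat_lit 858) (nat_lit 380) (nat_lit 0) (XT.nd (nat_lit 390) (nat_lit 304) (nat_lit 0) (XT.nd (nat_lit 156) (nat_lit 228) (nat_lit 0) (XT.nd (nat_lit 78) (nat_lit 0) (nat_lit 0) (XT.lf (nat_lit 0) (nat_lit 1286895493) (nat_lit 76) (nat_lit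 4885858616) (nat_lit 152) (nat_lit 15273606085) (nat_lit 17) (nat_lit 5) (nat_lit 18) (nat_lit 5) (nat_lit 19) (nat_lit 4) (nat_lit 336) (nat_lit 292) (nat_lit 272)) (XT.lf (nat_lit 0) (nat_lit 13698101321) (nat_lit 152) (nat_lit 6401595979) (nat_lit 0) (nat_lit 2653101324) (nat_lit 17) (nat_lit 5) (nat_lit 19) (nat_lit 4) (nat_lit 17) (nat_lit 4) (nat_lit 337) (nat_lit 292) (nat_lit 271))) (XT.nd (nat_lit 78) (nat_lit 152) (nat_lit 0) (XT.lf (nat_lit 0) (nat_lit 8309350389) (nat_lit 76) (nat_lit 13550285366) (nat_lit 76) (nat_lit 2302463883) (nat_lit 16) (nat_lit 4) (nat_lit 17) (nat_lit 5) (nat_lit 17) (nat_lit 4) (nat_lit 338) (nat_lit 292) (nat_lit 270)) (XT.nd (nat_lit 78) (nat_lit 76) (nat_lit 0) (XT.lf (nat_lit 0) (nat_lit 4771026110) (nat_lit 152) (nat_lit 1655015628) (nat_lit 76) (nat_lit 19257217196) (nat_lit 15) (nat_lit 5) (nat_lit 17) (nat_lit 5) (nat_lit 16) (nat_lit 4) (nat_lit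 339) (nat_lit 292) (nat_lit 269)) (XT.lf (nat_lit 0) (nat_lit 12408011056) (nat_lit 152) (nat_lit 13561005029) (nat_lit 0) (nat_lit 1351338781) (nat_lit 14) (nat_lit 5) (nat_lit 16) (nat_lit 4) (nat_lit 14) (nat_lit 4) (nat_lit 340) (nat_lit 292) (nat_lit 268))))) (XT.nd (nat_lit 234) (nat_lit 76) (nat_lit 0) (XT.nd (nat_lit 78) (nat_lit 152) (nat_lit 0) (XT.lf (nat_lit 0) (nat_lit 1011328772) (nat_lit 76) (nat_lit 19643597315) (nat_lit 76) (nat_lit 8433585769) (nat_lit 13) (nat_lit 4) (nat_lit 14) (nat_lit 5) (nat_lit 14) (nat_lit 4) (nat_lit 341) (nat_lit 292) (nat_lit 267)) (XT.nd (nat_lit 78) (nat_lit 152) (nat_lit 0) (XT.lf (nat_lit 0) (nat_lit 16955163344) (nat_lit 76) (nat_lit 12695273561) (nat_lit 76) (nat_lit 1343281208) (nat_lit 13) (nat_lit 4) (nat_lit 14) (nat_lit 5) (nat_lit 14) (nat_lit 4) (nat_lit 342) (nat_lit 292) (nat_lit 266)) (XT.lf (nat_lit 0) (nat_lit 787243851) (nat_lit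 76) (nat_lit 5198463423) (nat_lit 152) (nat_lit 27067060946) (nat_lit 11) (nat_lit 5) (nat_lit 12) (nat_lit 5) (nat_lit 13) (nat_lit 4) (nat_lit 343) (nat_lit 292) (nat_lit 265)))) (XT.nd (nat_lit 78) (nat_lit 76) (nat_lit 0) (XT.lf (nat_lit 0) (nat_lit 14014146680) (nat_lit 152) (nat_lit 18291723963) (nat_lit 0) (nat_lit 2961592661) (nat_lit 11) (nat_lit 5) (nat_lit 13) (nat_lit 4) (nat_lit 11) (nat_lit 4) (nat_lit 344) (nat_lit 292) (nat_lit 264)) (XT.nd (nat_lit 78) (nat_lit 76) (nat_lit 0) (XT.lf (nat_lit 0) (nat_lit 22648226003) (nat_lit 152) (nat_lit 3524638983) (nat_lit 0) (nat_lit 11488330134) (nat_lit 11) (nat_lit 5) (nat_lit 13) (nat_lit 4) (nat_lit 11) (nat_lit 4) (nat_lit 345) (nat_lit 292) (nat_lit 263)) (XT.lf (nat_lit 0) (nat_lit 12607934443) (nat_lit 76) (nat_lit 19446858321) (nat_lit 76) (nat_lit 8187571851) (nat_lit 10) (nat_lit 4) (nat_lit 11) (nat_lit 5) (nat_lit 11)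 (nat_lit 4) (nat_lit 346) (nat_lit 292) (nat_lit 262)))))) (XT.nd (nat_lit 390) (nat_lit 152) (nat_lit 0) (XT.nd (nat_lit 156) (nat_lit 76) (nat_lit 0) (XT.nd (nat_lit 78) (nat_lit 152) (nat_lit 0) (XT.lf (nat_lit 0) (nat_lit 29947101809) (nat_lit 76) (nat_lit 12218343899) (nat_lit 76) (nat_lit 867029094) (nat_lit 10) (nat_lit 4) (nat_lit 11) (nat_lit 5) (nat_lit 11) (nat_lit 4) (nat_lit 347) (nat_lit 292) (nat_lit 261)) (XT.lf (nat_lit 0) (nat_lit 2396645361) (nat_lit 76) (nat_lit 4351243217) (nat_lit 152) (nat_lit 39295730953) (nat_lit 8) (nat_lit 5) (nat_lit 9) (nat_lit 5) (nat_lit 10) (nat_lit 4) (nat_lit 348) (nat_lit 292) (nat_lit 260))) (XT.nd (nat_lit 78) (nat_lit 76) (nat_lit 0) (XT.lf (nat_lit 0) (nat_lit 15138325616) (nat_lit 152) (nat_lit 29975551444) (nat_lit 0) (nat_lit 4171253532) (nat_lit 8) (nat_lit 5) (nat_lit 10) (nat_lit 4) (nat_lit 8) (nat_lit 4) (nat_lit 349) (nat_lit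 292) (nat_lit 259)) (XT.nd (nat_lit 78) (nat_lit 76) (nat_lit 0) (XT.lf (nat_lit 0) (nat_lit 24180684451) (nat_lit 152) (nat_lit 15462226658) (nat_lit 0) (nat_lit 13144036120) (nat_lit 8) (nat_lit 5) (nat_lit 10) (nat_lit 4) (nat_lit 8) (nat_lit 4) (nat_lit 350) (nat_lit 292) (nat_lit 258)) (XT.lf (nat_lit 0) (nat_lit 48492231) (nat_lit 76) (nat_lit 33812879200) (nat_lit 76) (nat_lit 22711808418) (nat_lit 7) (nat_lit 4) (nat_lit 8) (nat_lit 5) (nat_lit 8) (nat_lit 4) (nat_lit 351) (nat_lit 292) (nat_lit 257))))) (XT.nd (nat_lit 234) (nat_lit 152) (nat_lit 0) (XT.nd (nat_lit 78) (nat_lit 0) (nat_lit 0) (XT.lf (nat_lit 0) (nat_lit 17194176255) (nat_lit 76) (nat_lit 27309750826) (nat_lit 76) (nat_lit 16149029627) (nat_lit 7) (nat_lit 4) (nat_lit 8) (nat_lit 5) (nat_lit 8) (nat_lit 4) (nat_lit 352) (nat_lit 292) (nat_lit 256)) (XT.nd (nat_lit 78) (nat_lit 0) (nat_lit 0) (XT.lf (nat_lit 0) (nat_lit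 35565178426) (nat_lit 76) (nat_lit 20356849222) (nat_lit 76) (nat_lit 9140896155) (nat_lit 7) (nat_lit 4) (nat_lit 8) (nat_lit 5) (nat_lit 8) (nat_lit 4) (nat_lit 353) (nat_lit 292) (nat_lit 255)) (XT.lf (nat_lit 0) (nat_lit 55270363939) (nat_lit 76) (nat_lit 12912972008) (nat_lit 76) (nat_lit 1645878323) (nat_lit 7) (nat_lit 4) (nat_lit 8) (nat_lit 5) (nat_lit 8) (nat_lit 4) (nat_lit 354) (nat_lit 292) (nat_lit 254)))) (XT.nd (nat_lit 78) (nat_lit 0) (nat_lit 0) (XT.lf (nat_lit 0) (nat_lit 1391346725) (nat_lit 76) (nat_lit 4806600999) (nat_lit 152) (nat_lit 68776058103) (nat_lit 5) (nat_lit 5) (nat_lit 6) (nat_lit 5) (nat_lit 7) (nat_lit 4) (nat_lit 355) (nat_lit 292) (nat_lit 253)) (XT.nd (nat_lit 78) (nat_lit 0) (nat_lit 0) (XT.lf (nat_lit 0) (nat_lit 14867748179) (nat_lit 152) (nat_lit 61598160047) (nat_lit 0) (nat_lit 4050328229) (nat_lit 5) (nat_lit 5) (nat_lit 7) (nat_lit 4) (nat_lit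 5) (nat_lit 4) (nat_lit 356) (nat_lit 292) (nat_lit 252)) (XT.lf (nat_lit 0) (nat_lit 24252878908) (nat_lit 152) (nat_lit 48851094810) (nat_lit 0) (nat_lit 13396795081) (nat_lit 5) (nat_lit 5) (nat_lit 7) (nat_lit 4) (nat_lit 5) (nat_lit 4) (nat_lit 357) (nat_lit 292) (nat_lit 251))))))))
noncomputable def xc33 : XT := (XT.nd (nat_lit 1716) (nat_lit 0) (nat_lit 0) (XT.nd (nat_lit 858) (nat_lit 152) (nat_lit 0) (XT.nd (nat_lit 390) (nat_lit 0) (nat_lit 0) (XT.nd (nat_lit 156) (nat_lit 76) (nat_lit 0) (XT.nd (nat_lit 78) (nat_lit 0) (nat_lit 0) (XT.lf (nat_lit 0) (nat_lit 34333910988) (nat_lit 152) (nat_lit 35190880717) (nat_lit 0) (nat_lit 23442027274) (nat_lit 5) (nat_lit 5) (nat_lit 7) (nat_lit 4) (nat_lit 5) (nat_lit 4) (nat_lit 358) (nat_lit 292) (nat_lit 250)) (XT.lf (nat_lit 0) (nat_lit 45170583869) (nat_lit 152) (nat_lit 20536568349) (nat_lit 0) (nat_lit 34245552111) (nat_lit 5) (nat_lit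 5) (nat_lit 7) (nat_lit 4) (nat_lit 5) (nat_lit 4) (nat_lit 359) (nat_lit 292) (nat_lit 249))) (XT.nd (nat_lit 78) (nat_lit 76) (nat_lit 0) (XT.lf (nat_lit 0) (nat_lit 56827114870) (nat_lit 152) (nat_lit 4801317338) (nat_lit 0) (nat_lit 45871390480) (nat_lit 5) (nat_lit 5) (nat_lit 7) (nat_lit 4) (nat_lit 5) (nat_lit 4) (nat_lit 360) (nat_lit 292) (nat_lit 248)) (XT.nd (nat_lit 78) (nat_lit 0) (nat_lit 0) (XT.lf (nat_lit 0) (nat_lit 12508467318) (nat_lit 76) (nat_lit 57059404643) (nat_lit 76) (nat_lit 46075261149) (nat_lit 4) (nat_lit 4) (nat_lit 5) (nat_lit 5) (nat_lit 5) (nat_lit 4) (nat_lit 361) (nat_lit 292) (nat_lit 247)) (XT.lf (nat_lit 0) (nat_lit 31293530892) (nat_lit 76) (nat_lit 52076370775) (nat_lit 76) (nat_lit 41065913295) (nat_lit 4) (nat_lit 4) (nat_lit 5) (nat_lit 5) (nat_lit 5) (nat_lit 4) (nat_lit 362) (nat_lit 292) (nat_lit 246))))) (XT.nd (nat_lit 234) (nat_lit 0) (nat_lit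 0) (XT.nd (nat_lit 78) (nat_lit 0) (nat_lit 0) (XT.lf (nat_lit 0) (nat_lit 51506439044) (nat_lit 76) (nat_lit 46731114146) (nat_lit 76) (nat_lit 35696291864) (nat_lit 4) (nat_lit 4) (nat_lit 5) (nat_lit 5) (nat_lit 5) (nat_lit 4) (nat_lit 363) (nat_lit 292) (nat_lit 245)) (XT.nd (nat_lit 78) (nat_lit 0) (nat_lit 0) (XT.lf (nat_lit 0) (nat_lit 73266971968) (nat_lit 76) (nat_lit 40991959163) (nat_lit 76) (nat_lit 29934576880) (nat_lit 4) (nat_lit 4) (nat_lit 5) (nat_lit 5) (nat_lit 5) (nat_lit 4) (nat_lit 364) (nat_lit 292) (nat_lit 244)) (XT.lf (nat_lit 0) (nat_lit 96704080973) (nat_lit 76) (nat_lit 34824896017) (nat_lit 76) (nat_lit 23746624844) (nat_lit 4) (nat_lit 4) (nat_lit 5) (nat_lit 5) (nat_lit 5) (nat_lit 4) (nat_lit 365) (nat_lit 292) (nat_lit 243)))) (XT.nd (nat_lit 78) (nat_lit 0) (nat_lit 0) (XT.lf (nat_lit 0) (nat_lit 121956652629) (nat_lit 76) (nat_lit 28193379150) (nat_lit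 76) (nat_lit 17095766411) (nat_lit 4) (nat_lit 4) (nat_lit 5) (nat_lit 5) (nat_lit 5) (nat_lit 4) (nat_lit 366) (nat_lit 292) (nat_lit 242)) (XT.nd (nat_lit 78) (nat_lit 0) (nat_lit 0) (XT.lf (nat_lit 0) (nat_lit 149174331806) (nat_lit 76) (nat_lit 21058110683) (nat_lit 76) (nat_lit 9942589088) (nat_lit 4) (nat_lit 4) (nat_lit 5) (nat_lit 5) (nat_lit 5) (nat_lit 4) (nat_lit 367) (nat_lit 292) (nat_lit 241)) (XT.lf (nat_lit 0) (nat_lit 178518408455) (nat_lit 76) (nat_lit 13376807545) (nat_lit 76) (nat_lit 2244703675) (nat_lit 4) (nat_lit 4) (nat_lit 5) (nat_lit 5) (nat_lit 5) (nat_lit 4) (nat_lit 368) (nat_lit 292) (nat_lit 240)))))) (XT.nd (nat_lit 390) (nat_lit 0) (nat_lit 0) (XT.nd (nat_lit 156) (nat_lit 0) (nat_lit 0) (XT.nd (nat_lit 78) (nat_lit 0) (nat_lit 0) (XT.lf (nat_lit 0) (nat_lit 873146071) (nat_lit 76) (nat_lit 4990563147) (nat_lit 152) (nat_lit 203354108740) (nat_lit 2) (nat_lit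 5) (nat_lit 3) (nat_lit 5) (nat_lit 4) (nat_lit 4) (nat_lit 369) (nat_lit 292) (nat_lit 239)) (XT.lf (nat_lit 0) (nat_lit 14859343569) (nat_lit 152) (nat_lit 206395731300) (nat_lit 0) (nat_lit 4229177422) (nat_lit 2) (nat_lit 5) (nat_lit 4) (nat_lit 4) (nat_lit 2) (nat_lit 4) (nat_lit 370) (nat_lit 292) (nat_lit 238))) (XT.nd (nat_lit 78) (nat_lit 0) (nat_lit 0) (XT.lf (nat_lit 0) (nat_lit 24636623331) (nat_lit 152) (nat_lit 204418361259) (nat_lit 0) (nat_lit 13993920475) (nat_lit 2) (nat_lit 5) (nat_lit 4) (nat_lit 4) (nat_lit 2) (nat_lit 4) (nat_lit 371) (nat_lit 292) (nat_lit 237)) (XT.nd (nat_lit 78) (nat_lit 0) (nat_lit 0) (XT.lf (nat_lit 0) (nat_lit 35175571264) (nat_lit 152) (nat_lit 202322927340) (nat_lit 0) (nat_lit 24521260345) (nat_lit 2) (nat_lit 5) (nat_lit 4) (nat_lit 4) (nat_lit 2) (nat_lit 4) (nat_lit 372) (nat_lit 292) (nat_lit 236)) (XT.lf (nat_lit 0) (nat_lit 46538640392)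 (nat_lit 152) (nat_lit 200097012157) (nat_lit 0) (nat_lit 35873581266) (nat_lit 2) (nat_lit 5) (nat_lit 4) (nat_lit 4) (nat_lit 2) (nat_lit 4) (nat_lit 373) (nat_lit 292) (nat_lit 235))))) (XT.nd (nat_lit 234) (nat_lit 0) (nat_lit 0) (XT.nd (nat_lit 78) (nat_lit 0) (nat_lit 0) (XT.lf (nat_lit 0) (nat_lit 58793167422) (nat_lit 152) (nat_lit 197727425101) (nat_lit 0) (nat_lit 48118156252) (nat_lit 2) (nat_lit 5) (nat_lit 4) (nat_lit 4) (nat_lit 2) (nat_lit 4) (nat_lit 374) (nat_lit 292) (nat_lit 234)) (XT.nd (nat_lit 78) (nat_lit 0) (nat_lit 0) (XT.lf (nat_lit 0) (nat_lit 72011771772) (nat_lit 152) (nat_lit 195200124175) (nat_lit 0) (nat_lit 61327545747) (nat_lit 2) (nat_lit 5) (nat_lit 4) (nat_lit 4) (nat_lit 2) (nat_lit 4) (nat_lit 375) (nat_lit 292) (nat_lit 233)) (XT.lf (nat_lit 0) (nat_lit 86272785913) (nat_lit 152) (nat_lit 192500132781) (nat_lit 0) (nat_lit 75580027614) (nat_lit 2)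 (nat_lit 5) (nat_lit 4) (nat_lit 4) (nat_lit 2) (nat_lit 4) (nat_lit 376) (nat_lit 292) (nat_lit 232)))) (XT.nd (nat_lit 78) (nat_lit 0) (nat_lit 0) (XT.lf (nat_lit 0) (nat_lit 101660719558) (nat_lit 152) (nat_lit 189611450969) (nat_lit 0) (nat_lit 90960061007) (nat_lit 2) (nat_lit 5) (nat_lit 4) (nat_lit 4) (nat_lit 2) (nat_lit 4) (nat_lit 377) (nat_lit 292) (nat_lit 231)) (XT.nd (nat_lit 78) (nat_lit 0) (nat_lit 0) (XT.lf (nat_lit 0) (nat_lit 118266760463) (nat_lit 152) (nat_lit 186516960626) (nat_lit 0) (nat_lit 107558786862) (nat_lit 2) (nat_lit 5) (nat_lit 4) (nat_lit 4) (nat_lit 2) (nat_lit 4) (nat_lit 378) (nat_lit 292) (nat_lit 230)) (XT.lf (nat_lit 0) (nat_lit 136189314795) (nat_lit 152) (nat_lit 183198324030) (nat_lit 0) (nat_lit 125474568001) (nat_lit 2) (nat_lit 5) (nat_lit 4) (nat_lit 4) (nat_lit 2) (nat_lit 4) (nat_lit 379) (nat_lit 292) (nat_lit 229))))))) (XT.nd (nat_lit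 41730) (nat_lit 0) (nat_lit 2736) (XT.nd (nat_lit 390) (nat_lit 0) (nat_lit 0) (XT.nd (nat_lit 156) (nat_lit 0) (nat_lit 0) (XT.nd (nat_lit 78) (nat_lit 0) (nat_lit 0) (XT.lf (nat_lit 0) (nat_lit 155534590284) (nat_lit 152) (nat_lit 179635875188) (nat_lit 0) (nat_lit 144813572014) (nat_lit 2) (nat_lit 5) (nat_lit 4) (nat_lit 4) (nat_lit 2) (nat_lit 4) (nat_lit 380) (nat_lit 292) (nat_lit 228)) (XT.lf (nat_lit 0) (nat_lit 176417225600) (nat_lit 152) (nat_lit 175808503290) (nat_lit 0) (nat_lit 165690400408) (nat_lit 2) (nat_lit 5) (nat_lit 4) (nat_lit 4) (nat_lit 2) (nat_lit 4) (nat_lit 381) (nat_lit 292) (nat_lit 227))) (XT.nd (nat_lit 78) (nat_lit 0) (nat_lit 0) (XT.lf (nat_lit 0) (nat_lit 198960969692) (nat_lit 152) (nat_lit 171693527616) (nat_lit 0) (nat_lit 188228767721) (nat_lit 2) (nat_lit 5) (nat_lit 4) (nat_lit 4) (nat_lit 2) (nat_lit 4) (nat_lit 382) (nat_lit 292) (nat_lit 226))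 (XT.nd (nat_lit 78) (nat_lit 0) (nat_lit 0) (XT.lf (nat_lit 0) (nat_lit 223299415118) (nat_lit 152) (nat_lit 167266563123) (nat_lit 0) (nat_lit 212562234648) (nat_lit 2) (nat_lit 5) (nat_lit 4) (nat_lit 4) (nat_lit 2) (nat_lit 4) (nat_lit 383) (nat_lit 292) (nat_lit 225)) (XT.lf (nat_lit 0) (nat_lit 249576789703) (nat_lit 152) (nat_lit 162501375948) (nat_lit 0) (nat_lit 238834999511) (nat_lit 2) (nat_lit 5) (nat_lit 4) (nat_lit 4) (nat_lit 2) (nat_lit 4) (nat_lit 384) (nat_lit 292) (nat_lit 224))))) (XT.nd (nat_lit 234) (nat_lit 0) (nat_lit 0) (XT.nd (nat_lit 78) (nat_lit 0) (nat_lit 0) (XT.lf (nat_lit 0) (nat_lit 277948811223) (nat_lit 152) (nat_lit 157369727945) (nat_lit 0) (nat_lit 267202752769) (nat_lit 2) (nat_lit 5) (nat_lit 4) (nat_lit 4) (nat_lit 2) (nat_lit 4) (nat_lit 385) (nat_lit 292) (nat_lit 223)) (XT.nd (nat_lit 78) (nat_lit 0) (nat_lit 0) (XT.lf (nat_lit 0) (nat_lit 308583610174)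 (nat_lit 152) (nat_lit 151841209348) (nat_lit 0) (nat_lit 297833599628) (nat_lit 2) (nat_lit 5) (nat_lit 4) (nat_lit 4) (nat_lit 2) (nat_lit 4) (nat_lit 386) (nat_lit 292) (nat_lit 222)) (XT.lf (nat_lit 0) (nat_lit 341662726107) (nat_lit 152) (nat_lit 145883058565) (nat_lit 0) (nat_lit 330909056215) (nat_lit 2) (nat_lit 5) (nat_lit 4) (nat_lit 4) (nat_lit 2) (nat_lit 4) (nat_lit 387) (nat_lit 292) (nat_lit 221)))) (XT.nd (nat_lit 78) (nat_lit 0) (nat_lit 0) (XT.lf (nat_lit 0) (nat_lit 377382183412) (nat_lit 152) (nat_lit 139459968036) (nat_lit 0) (nat_lit 366625125237) (nat_lit 2) (nat_lit 5) (nat_lit 4) (nat_lit 4) (nat_lit 2) (nat_lit 4) (nat_lit 388) (nat_lit 292) (nat_lit 220)) (XT.nd (nat_lit 78) (nat_lit 0) (nat_lit 0) (XT.lf (nat_lit 0) (nat_lit 415953652947) (nat_lit 152) (nat_lit 132533875003) (nat_lit 0) (nat_lit 405193457473) (nat_lit 2) (nat_lit 5) (nat_lit 4) (nat_lit 4) (nat_lit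 2) (nat_lit 4) (nat_lit 389) (nat_lit 292) (nat_lit 219)) (XT.lf (nat_lit 0) (nat_lit 457605706384) (nat_lit 152) (nat_lit 125063735950) (nat_lit 0) (nat_lit 446842606003) (nat_lit 2) (nat_lit 5) (nat_lit 4) (nat_lit 4) (nat_lit 2) (nat_lit 4) (nat_lit 390) (nat_lit 292) (nat_lit 218)))))) (XT.nd (nat_lit 390) (nat_lit 1596) (nat_lit 0) (XT.nd (nat_lit 156) (nat_lit 912) (nat_lit 0) (XT.nd (nat_lit 78) (nat_lit 304) (nat_lit 0) (XT.lf (nat_lit 0) (nat_lit 214219688) (nat_lit 380) (nat_lit 3548530684) (nat_lit 0) (nat_lit 214219688) (nat_lit 75) (nat_lit 5) (nat_lit 80) (nat_lit 4) (nat_lit 75) (nat_lit 4) (nat_lit 314) (nat_lit 293) (nat_lit 293)) (XT.lf (nat_lit 0) (nat_lit 2433112580) (nat_lit 304) (nat_lit 3820921068) (nat_lit 304) (nat_lit 1935020156) (nat_lit 71) (nat_lit 4) (nat_lit 75) (nat_lit 5) (nat_lit 75) (nat_lit 4) (nat_lit 315) (nat_lit 293) (nat_lit 292))) (XT.nd (nat_lit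 78) (nat_lit 608) (nat_lit 0) (XT.lf (nat_lit 0) (nat_lit 3771390377) (nat_lit 304) (nat_lit 4366595908) (nat_lit 0) (nat_lit 312242319) (nat_lit 67) (nat_lit 5) (nat_lit 71) (nat_lit 4) (nat_lit 67) (nat_lit 4) (nat_lit 316) (nat_lit 293) (nat_lit 291)) (XT.nd (nat_lit 78) (nat_lit 228) (nat_lit 0) (XT.lf (nat_lit 0) (nat_lit 979358135) (nat_lit 380) (nat_lit 2991326797) (nat_lit 76) (nat_lit 4765545771) (nat_lit 62) (nat_lit 5) (nat_lit 67) (nat_lit 5) (nat_lit 63) (nat_lit 4) (nat_lit 317) (nat_lit 293) (nat_lit 290)) (XT.lf (nat_lit 0) (nat_lit 6771357820) (nat_lit 304) (nat_lit 1625546744) (nat_lit 0) (nat_lit 652491179) (nat_lit 59) (nat_lit 5) (nat_lit 63) (nat_lit 4) (nat_lit 59) (nat_lit 4) (nat_lit 318) (nat_lit 293) (nat_lit 289))))) (XT.nd (nat_lit 234) (nat_lit 684) (nat_lit 0) (XT.nd (nat_lit 78) (nat_lit 608) (nat_lit 0) (XT.lf (nat_lit 0) (nat_lit 3439316934) (nat_lit 304)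 (nat_lit 325585264) (nat_lit 76) (nat_lit 5624364148) (nat_lit 55) (nat_lit 5) (nat_lit 59) (nat_lit 5) (nat_lit 56) (nat_lit 4) (nat_lit 319) (nat_lit 293) (nat_lit 288)) (XT.nd (nat_lit 78) (nat_lit 228) (nat_lit 0) (XT.lf (nat_lit 0) (nat_lit 978852200) (nat_lit 228) (nat_lit 8457251068) (nat_lit 228) (nat_lit 323566660) (nat_lit 50) (nat_lit 4) (nat_lit 53) (nat_lit 5) (nat_lit 53) (nat_lit 4) (nat_lit 320) (nat_lit 293) (nat_lit 287)) (XT.lf (nat_lit 0) (nat_lit 2143156134) (nat_lit 152) (nat_lit 3370725580) (nat_lit 228) (nat_lit 4644346345) (nat_lit 47) (nat_lit 5) (nat_lit 49) (nat_lit 5) (nat_lit 50) (nat_lit 4) (nat_lit 321) (nat_lit 293) (nat_lit 286)))) (XT.nd (nat_lit 78) (nat_lit 380) (nat_lit 0) (XT.lf (nat_lit 0) (nat_lit 1101737676) (nat_lit 304) (nat_lit 7370840290) (nat_lit 76) (nat_lit 2119004444) (nat_lit 43) (nat_lit 5) (nat_lit 47) (nat_lit 5) (nat_lit 44) (nat_lit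 4) (nat_lit 322) (nat_lit 293) (nat_lit 285)) (XT.nd (nat_lit 78) (nat_lit 228) (nat_lit 0) (XT.lf (nat_lit 0) (nat_lit 4097242307) (nat_lit 152) (nat_lit 3007582622) (nat_lit 228) (nat_lit 3953190132) (nat_lit 41) (nat_lit 5) (nat_lit 43) (nat_lit 5) (nat_lit 44) (nat_lit 4) (nat_lit 323) (nat_lit 293) (nat_lit 284)) (XT.lf (nat_lit 0) (nat_lit 1919380701) (nat_lit 228) (nat_lit 6773653136) (nat_lit 76) (nat_lit 2869447117) (nat_lit 38) (nat_lit 5) (nat_lit 41) (nat_lit 5) (nat_lit 39) (nat_lit 4) (nat_lit 324) (nat_lit 293) (nat_lit 283))))))))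
noncomputable def xc34 : XT := (XT.nd (nat_lit 1716) (nat_lit 456) (nat_lit 0) (XT.nd (nat_lit 858) (nat_lit 760) (nat_lit 0) (XT.nd (nat_lit 390) (nat_lit 608) (nat_lit 0) (XT.nd (nat_lit 156) (nat_lit 380) (nat_lit 0) (XT.nd (nat_lit 78) (nat_lit 228) (nat_lit 0) (XT.lf (nat_lit 0) (nat_lit 5207910538) (nat_lit 152) (nat_lit 2890008108) (nat_lit 228) (nat_lit 4007590368) (nat_lit 36) (nat_lit 5) (nat_lit 38) (nat_lit 5) (nat_lit 39) (nat_lit 4) (nat_lit 325) (nat_lit 293) (nat_lit 282)) (XT.lf (nat_lit 0) (nat_lit 1997012221) (nat_lit 228) (nat_lit 7359994096) (nat_lit 76) (nat_lit 3334268218) (nat_lit 33) (nat_lit 5) (nat_lit 36) (nat_lit 5) (nat_lit 34) (nat_lit 4) (nat_lit 326) (nat_lit 293) (nat_lit 281))) (XT.nd (nat_lit 78) (nat_lit 304) (nat_lit 0) (XT.lf (nat_lit 0) (nat_lit 5065984048) (nat_lit 76) (nat_lit 3265092412) (nat_lit 152) (nat_lit 4990210529) (nat_lit 32) (nat_lit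 5) (nat_lit 33) (nat_lit 5) (nat_lit 34) (nat_lit 4) (nat_lit 327) (nat_lit 293) (nat_lit 280)) (XT.nd (nat_lit 78) (nat_lit 76) (nat_lit 0) (XT.lf (nat_lit 0) (nat_lit 1131110217) (nat_lit 228) (nat_lit 9614728513) (nat_lit 76) (nat_lit 3255156751) (nat_lit 29) (nat_lit 5) (nat_lit 32) (nat_lit 5) (nat_lit 30) (nat_lit 4) (nat_lit 328) (nat_lit 293) (nat_lit 279)) (XT.lf (nat_lit 0) (nat_lit 3140443056) (nat_lit 76) (nat_lit 4435292939) (nat_lit 152) (nat_lit 7154951598) (nat_lit 28) (nat_lit 5) (nat_lit 29) (nat_lit 5) (nat_lit 30) (nat_lit 4) (nat_lit 329) (nat_lit 293) (nat_lit 278))))) (XT.nd (nat_lit 234) (nat_lit 304) (nat_lit 0) (XT.nd (nat_lit 78) (nat_lit 152) (nat_lit 0) (XT.lf (nat_lit 0) (nat_lit 1336717599) (nat_lit 152) (nat_lit 13192353008) (nat_lit 152) (nat_lit 990137603) (nat_lit 26) (nat_lit 4) (nat_lit 28) (nat_lit 5) (nat_lit 28) (nat_lit 4) (nat_lit 330) (nat_lit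 293) (nat_lit 277)) (XT.nd (nat_lit 78) (nat_lit 76) (nat_lit 0) (XT.lf (nat_lit 0) (nat_lit 5538774039) (nat_lit 228) (nat_lit 1220312785) (nat_lit 76) (nat_lit 9604780184) (nat_lit 25) (nat_lit 5) (nat_lit 28) (nat_lit 5) (nat_lit 26) (nat_lit 4) (nat_lit 331) (nat_lit 293) (nat_lit 276)) (XT.lf (nat_lit 0) (nat_lit 12548699862) (nat_lit 152) (nat_lit 4482864583) (nat_lit 0) (nat_lit 244142812) (nat_lit 24) (nat_lit 5) (nat_lit 26) (nat_lit 4) (nat_lit 24) (nat_lit 4) (nat_lit 332) (nat_lit 293) (nat_lit 275)))) (XT.nd (nat_lit 78) (nat_lit 76) (nat_lit 0) (XT.lf (nat_lit 0) (nat_lit 1881887353) (nat_lit 228) (nat_lit 8750907848) (nat_lit 76) (nat_lit 7622204653) (nat_lit 21) (nat_lit 5) (nat_lit 24) (nat_lit 5) (nat_lit 22) (nat_lit 4) (nat_lit 333) (nat_lit 293) (nat_lit 274)) (XT.nd (nat_lit 78) (nat_lit 0) (nat_lit 0) (XT.lf (nat_lit 0) (nat_lit 5189674004) (nat_lit 76) (nat_lit 3629904529)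 (nat_lit 152) (nat_lit 10490971306) (nat_lit 20) (nat_lit 5) (nat_lit 21) (nat_lit 5) (nat_lit 22) (nat_lit 4) (nat_lit 334) (nat_lit 293) (nat_lit 273)) (XT.lf (nat_lit 0) (nat_lit 16338574526) (nat_lit 152) (nat_lit 297178242) (nat_lit 0) (nat_lit 3813544529) (nat_lit 20) (nat_lit 5) (nat_lit 22) (nat_lit 4) (nat_lit 20) (nat_lit 4) (nat_lit 335) (nat_lit 293) (nat_lit 272)))))) (XT.nd (nat_lit 390) (nat_lit 304) (nat_lit 0) (XT.nd (nat_lit 156) (nat_lit 228) (nat_lit 0) (XT.nd (nat_lit 78) (nat_lit 76) (nat_lit 0) (XT.lf (nat_lit 0) (nat_lit 2807844095) (nat_lit 152) (nat_lit 6998949166) (nat_lit 76) (nat_lit 11864397372) (nat_lit 18) (nat_lit 5) (nat_lit 20) (nat_lit 5) (nat_lit 19) (nat_lit 4) (nat_lit 336) (nat_lit 293) (nat_lit 271)) (XT.lf (nat_lit 0) (nat_lit 7722811452) (nat_lit 76) (nat_lit 2370263461) (nat_lit 152) (nat_lit 12896586642) (nat_lit 17) (nat_lit 5) (nat_lit 18)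 (nat_lit 5) (nat_lit 19) (nat_lit 4) (nat_lit 337) (nat_lit 293) (nat_lit 270))) (XT.nd (nat_lit 78) (nat_lit 228) (nat_lit 0) (XT.lf (nat_lit 0) (nat_lit 18008651762) (nat_lit 152) (nat_lit 932247983) (nat_lit 0) (nat_lit 5470385402) (nat_lit 17) (nat_lit 5) (nat_lit 19) (nat_lit 4) (nat_lit 17) (nat_lit 4) (nat_lit 338) (nat_lit 293) (nat_lit 269)) (XT.nd (nat_lit 78) (nat_lit 76) (nat_lit 0) (XT.lf (nat_lit 0) (nat_lit 709992060) (nat_lit 152) (nat_lit 11256669369) (nat_lit 76) (nat_lit 13973610330) (nat_lit 15) (nat_lit 5) (nat_lit 17) (nat_lit 5) (nat_lit 16) (nat_lit 4) (nat_lit 339) (nat_lit 293) (nat_lit 268)) (XT.lf (nat_lit 0) (nat_lit 3725791029) (nat_lit 76) (nat_lit 4371257925) (nat_lit 152) (nat_lit 19492835307) (nat_lit 14) (nat_lit 5) (nat_lit 15) (nat_lit 5) (nat_lit 16) (nat_lit 4) (nat_lit 340) (nat_lit 293) (nat_lit 267))))) (XT.nd (nat_lit 234) (nat_lit 152) (nat_lit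 0) (XT.nd (nat_lit 78) (nat_lit 152) (nat_lit 0) (XT.lf (nat_lit 0) (nat_lit 16191161095) (nat_lit 152) (nat_lit 9385510424) (nat_lit 0) (nat_lit 3789028548) (nat_lit 14) (nat_lit 5) (nat_lit 16) (nat_lit 4) (nat_lit 14) (nat_lit 4) (nat_lit 341) (nat_lit 293) (nat_lit 266)) (XT.nd (nat_lit 78) (nat_lit 76) (nat_lit 0) (XT.lf (nat_lit 0) (nat_lit 6124000594) (nat_lit 76) (nat_lit 18845684314) (nat_lit 76) (nat_lit 6312088057) (nat_lit 13) (nat_lit 4) (nat_lit 14) (nat_lit 5) (nat_lit 14) (nat_lit 4) (nat_lit 342) (nat_lit 293) (nat_lit 265)) (XT.lf (nat_lit 0) (nat_lit 1101882861) (nat_lit 152) (nat_lit 10396462048) (nat_lit 76) (nat_lit 21850074780) (nat_lit 12) (nat_lit 5) (nat_lit 14) (nat_lit 5) (nat_lit 13) (nat_lit 4) (nat_lit 343) (nat_lit 293) (nat_lit 264)))) (XT.nd (nat_lit 78) (nat_lit 76) (nat_lit 0) (XT.lf (nat_lit 0) (nat_lit 5386645847) (nat_lit 76) (nat_lit 3469294008) (nat_lit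 152) (nat_lit 26720908156) (nat_lit 11) (nat_lit 5) (nat_lit 12) (nat_lit 5) (nat_lit 13) (nat_lit 4) (nat_lit 344) (nat_lit 293) (nat_lit 263)) (XT.nd (nat_lit 78) (nat_lit 76) (nat_lit 0) (XT.lf (nat_lit 0) (nat_lit 17380524883) (nat_lit 152) (nat_lit 15474437835) (nat_lit 0) (nat_lit 5121104894) (nat_lit 11) (nat_lit 5) (nat_lit 13) (nat_lit 4) (nat_lit 11) (nat_lit 4) (nat_lit 345) (nat_lit 293) (nat_lit 262)) (XT.lf (nat_lit 0) (nat_lit 162119516) (nat_lit 76) (nat_lit 26379427621) (nat_lit 76) (nat_lit 14027979298) (nat_lit 10) (nat_lit 4) (nat_lit 11) (nat_lit 5) (nat_lit 11) (nat_lit 4) (nat_lit 346) (nat_lit 293) (nat_lit 261))))))) (XT.nd (nat_lit 858) (nat_lit 76) (nat_lit 0) (XT.nd (nat_lit 390) (nat_lit 228) (nat_lit 0) (XT.nd (nat_lit 156) (nat_lit 76) (nat_lit 0) (XT.nd (nat_lit 78) (nat_lit 76) (nat_lit 0) (XT.lf (nat_lit 0) (nat_lit 17407859329) (nat_lit 76) (nat_lit 19195446479)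 (nat_lit 76) (nat_lit 6758786735) (nat_lit 10) (nat_lit 4) (nat_lit 11) (nat_lit 5) (nat_lit 11) (nat_lit 4) (nat_lit 347) (nat_lit 293) (nat_lit 260)) (XT.lf (nat_lit 0) (nat_lit 961260935) (nat_lit 152) (nat_lit 10544974289) (nat_lit 76) (nat_lit 34875783424) (nat_lit 9) (nat_lit 5) (nat_lit 11) (nat_lit 5) (nat_lit 10) (nat_lit 4) (nat_lit 348) (nat_lit 293) (nat_lit 259))) (XT.nd (nat_lit 78) (nat_lit 0) (nat_lit 0) (XT.lf (nat_lit 0) (nat_lit 6005724613) (nat_lit 76) (nat_lit 3064684596) (nat_lit 152) (nat_lit 40567194089) (nat_lit 8) (nat_lit 5) (nat_lit 9) (nat_lit 5) (nat_lit 10) (nat_lit 4) (nat_lit 349) (nat_lit 293) (nat_lit 258)) (XT.nd (nat_lit 78) (nat_lit 0) (nat_lit 0) (XT.lf (nat_lit 0) (nat_lit 18023661238) (nat_lit 152) (nat_lit 29150140167) (nat_lit 0) (nat_lit 5970082343) (nat_lit 8) (nat_lit 5) (nat_lit 10) (nat_lit 4) (nat_lit 8) (nat_lit 4) (nat_lit 350) (nat_lit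 293) (nat_lit 257)) (XT.lf (nat_lit 0) (nat_lit 27665388811) (nat_lit 152) (nat_lit 13714523871) (nat_lit 0) (nat_lit 15552159499) (nat_lit 8) (nat_lit 5) (nat_lit 10) (nat_lit 4) (nat_lit 8) (nat_lit 4) (nat_lit 351) (nat_lit 293) (nat_lit 256))))) (XT.nd (nat_lit 234) (nat_lit 152) (nat_lit 0) (XT.nd (nat_lit 78) (nat_lit 0) (nat_lit 0) (XT.lf (nat_lit 0) (nat_lit 2907341933) (nat_lit 76) (nat_lit 35142929599) (nat_lit 76) (nat_lit 22974468419) (nat_lit 7) (nat_lit 4) (nat_lit 8) (nat_lit 5) (nat_lit 8) (nat_lit 4) (nat_lit 352) (nat_lit 293) (nat_lit 255)) (XT.nd (nat_lit 78) (nat_lit 0) (nat_lit 0) (XT.lf (nat_lit 0) (nat_lit 21213201397) (nat_lit 76) (nat_lit 28221401321) (nat_lit 76) (nat_lit 16001799523) (nat_lit 7) (nat_lit 4) (nat_lit 8) (nat_lit 5) (nat_lit 8) (nat_lit 4) (nat_lit 353) (nat_lit 293) (nat_lit 254)) (XT.lf (nat_lit 0) (nat_lit 40858069589) (nat_lit 76) (nat_lit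 20806573483) (nat_lit 76) (nat_lit 8539619260) (nat_lit 7) (nat_lit 4) (nat_lit 8) (nat_lit 5) (nat_lit 8) (nat_lit 4) (nat_lit 354) (nat_lit 293) (nat_lit 253)))) (XT.nd (nat_lit 78) (nat_lit 152) (nat_lit 0) (XT.lf (nat_lit 0) (nat_lit 61958360545) (nat_lit 76) (nat_lit 12854506364) (nat_lit 76) (nat_lit 543707304) (nat_lit 7) (nat_lit 4) (nat_lit 8) (nat_lit 5) (nat_lit 8) (nat_lit 4) (nat_lit 355) (nat_lit 293) (nat_lit 252)) (XT.nd (nat_lit 78) (nat_lit 0) (nat_lit 0) (XT.lf (nat_lit 0) (nat_lit 3708515962) (nat_lit 76) (nat_lit 4125587498) (nat_lit 152) (nat_lit 73080600493) (nat_lit 5) (nat_lit 5) (nat_lit 6) (nat_lit 5) (nat_lit 7) (nat_lit 4) (nat_lit 356) (nat_lit 293) (nat_lit 251)) (XT.lf (nat_lit 0) (nat_lit 17128423597) (nat_lit 152) (nat_lit 64445968638) (nat_lit 0) (nat_lit 5329389299) (nat_lit 5) (nat_lit 5) (nat_lit 7) (nat_lit 4) (nat_lit 5) (nat_lit 4) (nat_lit 357)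 (nat_lit 293) (nat_lit 250)))))) (XT.nd (nat_lit 390) (nat_lit 0) (nat_lit 0) (XT.nd (nat_lit 156) (nat_lit 76) (nat_lit 0) (XT.nd (nat_lit 78) (nat_lit 0) (nat_lit 0) (XT.lf (nat_lit 0) (nat_lit 27185012521) (nat_lit 152) (nat_lit 50833215532) (nat_lit 0) (nat_lit 15352830179) (nat_lit 5) (nat_lit 5) (nat_lit 7) (nat_lit 4) (nat_lit 5) (nat_lit 4) (nat_lit 358) (nat_lit 293) (nat_lit 249)) (XT.lf (nat_lit 0) (nat_lit 37999052849) (nat_lit 152) (nat_lit 36222848523) (nat_lit 0) (nat_lit 26136177874) (nat_lit 5) (nat_lit 5) (nat_lit 7) (nat_lit 4) (nat_lit 5) (nat_lit 4) (nat_lit 359) (nat_lit 293) (nat_lit 248))) (XT.nd (nat_lit 78) (nat_lit 76) (nat_lit 0) (XT.lf (nat_lit 0) (nat_lit 49634627783) (nat_lit 152) (nat_lit 20528287659) (nat_lit 0) (nat_lit 37743333704) (nat_lit 5) (nat_lit 5) (nat_lit 7) (nat_lit 4) (nat_lit 5) (nat_lit 4) (nat_lit 360) (nat_lit 293) (nat_lit 247)) (XT.nd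 (nat_lit 78) (nat_lit 76) (nat_lit 0) (XT.lf (nat_lit 0) (nat_lit 62160688879) (nat_lit 152) (nat_lit 3656528134) (nat_lit 0) (nat_lit 50243080815) (nat_lit 5) (nat_lit 5) (nat_lit 7) (nat_lit 4) (nat_lit 5) (nat_lit 4) (nat_lit 361) (nat_lit 293) (nat_lit 246)) (XT.lf (nat_lit 0) (nat_lit 14971595399) (nat_lit 76) (nat_lit 60913617810) (nat_lit 76) (nat_lit 48971644944) (nat_lit 4) (nat_lit 4) (nat_lit 5) (nat_lit 5) (nat_lit 5) (nat_lit 4) (nat_lit 362) (nat_lit 293) (nat_lit 245))))) (XT.nd (nat_lit 234) (nat_lit 0) (nat_lit 0) (XT.nd (nat_lit 78) (nat_lit 0) (nat_lit 0) (XT.lf (nat_lit 0) (nat_lit 35151134378) (nat_lit 76) (nat_lit 55584573766) (nat_lit 76) (nat_lit 43620040899) (nat_lit 4) (nat_lit 4) (nat_lit 5) (nat_lit 5) (nat_lit 5) (nat_lit 4) (nat_lit 363) (nat_lit 293) (nat_lit 244)) (XT.nd (nat_lit 78) (nat_lit 0) (nat_lit 0) (XT.lf (nat_lit 0) (nat_lit 56880769921) (nat_lit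 76) (nat_lit 49860430434) (nat_lit 76) (nat_lit 37875008677) (nat_lit 4) (nat_lit 4) (nat_lit 5) (nat_lit 5) (nat_lit 5) (nat_lit 4) (nat_lit 364) (nat_lit 293) (nat_lit 243)) (XT.lf (nat_lit 0) (nat_lit 80289270239) (nat_lit 76) (nat_lit 43707266967) (nat_lit 76) (nat_lit 31702503644) (nat_lit 4) (nat_lit 4) (nat_lit 5) (nat_lit 5) (nat_lit 5) (nat_lit 4) (nat_lit 365) (nat_lit 293) (nat_lit 242)))) (XT.nd (nat_lit 78) (nat_lit 0) (nat_lit 0) (XT.lf (nat_lit 0) (nat_lit 105515352370) (nat_lit 76) (nat_lit 37088620171) (nat_lit 76) (nat_lit 25065947993) (nat_lit 4) (nat_lit 4) (nat_lit 5) (nat_lit 5) (nat_lit 5) (nat_lit 4) (nat_lit 366) (nat_lit 293) (nat_lit 241)) (XT.nd (nat_lit 78) (nat_lit 0) (nat_lit 0) (XT.lf (nat_lit 0) (nat_lit 132708504209) (nat_lit 76) (nat_lit 29965268438) (nat_lit 76) (nat_lit 17926013985) (nat_lit 4) (nat_lit 4) (nat_lit 5) (nat_lit 5) (nat_lit 5) (nat_lit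 4) (nat_lit 367) (nat_lit 293) (nat_lit 240)) (XT.lf (nat_lit 0) (nat_lit 162029870360) (nat_lit 76) (nat_lit 22294999312) (nat_lit 76) (nat_lit 10240390901) (nat_lit 4) (nat_lit 4) (nat_lit 5) (nat_lit 5) (nat_lit 5) (nat_lit 4) (nat_lit 368) (nat_lit 293) (nat_lit 239))))))))
noncomputable def xc35 : XT := (XT.nd (nat_lit 42432) (nat_lit 0) (nat_lit 1520) (XT.nd (nat_lit 858) (nat_lit 0) (nat_lit 0) (XT.nd (nat_lit 390) (nat_lit 0) (nat_lit 0) (XT.nd (nat_lit 156) (nat_lit 0) (nat_lit 0) (XT.nd (nat_lit 78) (nat_lit 152) (nat_lit 0) (XT.lf (nat_lit 0) (nat_lit 193653207066) (nat_lit 76) (nat_lit 14032359347) (nat_lit 76) (nat_lit 1963534308) (nat_lit 4) (nat_lit 4) (nat_lit 5) (nat_lit 5) (nat_lit 5) (nat_lit 4) (nat_lit 369) (nat_lit 293) (nat_lit 238)) (XT.lf (nat_lit 0) (nat_lit 1773414168) (nat_lit 76) (nat_lit 4985318881) (nat_lit 152) (nat_lit 219175147085) (nat_lit 2) (nat_lit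 5) (nat_lit 3) (nat_lit 5) (nat_lit 4) (nat_lit 4) (nat_lit 370) (nat_lit 293) (nat_lit 237))) (XT.nd (nat_lit 78) (nat_lit 0) (nat_lit 0) (XT.lf (nat_lit 0) (nat_lit 16448315411) (nat_lit 152) (nat_lit 222124552340) (nat_lit 0) (nat_lit 4930051554) (nat_lit 2) (nat_lit 5) (nat_lit 4) (nat_lit 4) (nat_lit 2) (nat_lit 4) (nat_lit 371) (nat_lit 293) (nat_lit 236)) (XT.nd (nat_lit 78) (nat_lit 0) (nat_lit 0) (XT.lf (nat_lit 0) (nat_lit 26978131306) (nat_lit 152) (nat_lit 220046980657) (nat_lit 0) (nat_lit 15449119242) (nat_lit 2) (nat_lit 5) (nat_lit 4) (nat_lit 4) (nat_lit 2) (nat_lit 4) (nat_lit 372) (nat_lit 293) (nat_lit 235)) (XT.lf (nat_lit 0) (nat_lit 38332744843) (nat_lit 152) (nat_lit 217837604580) (nat_lit 0) (nat_lit 26793780736) (nat_lit 2) (nat_lit 5) (nat_lit 4) (nat_lit 4) (nat_lit 2) (nat_lit 4) (nat_lit 373) (nat_lit 293) (nat_lit 234))))) (XT.nd (nat_lit 234) (nat_lit 0)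 (nat_lit 0) (XT.nd (nat_lit 78) (nat_lit 0) (nat_lit 0) (XT.lf (nat_lit 0) (nat_lit 50579442622) (nat_lit 152) (nat_lit 215483331512) (nat_lit 0) (nat_lit 39031263659) (nat_lit 2) (nat_lit 5) (nat_lit 4) (nat_lit 4) (nat_lit 2) (nat_lit 4) (nat_lit 374) (nat_lit 293) (nat_lit 233)) (XT.nd (nat_lit 78) (nat_lit 0) (nat_lit 0) (XT.lf (nat_lit 0) (nat_lit 63790797665) (nat_lit 152) (nat_lit 212970210204) (nat_lit 0) (nat_lit 52234086430) (nat_lit 2) (nat_lit 5) (nat_lit 4) (nat_lit 4) (nat_lit 2) (nat_lit 4) (nat_lit 375) (nat_lit 293) (nat_lit 232)) (XT.lf (nat_lit 0) (nat_lit 78045099486) (nat_lit 152) (nat_lit 210283348086) (nat_lit 0) (nat_lit 66480487997) (nat_lit 2) (nat_lit 5) (nat_lit 4) (nat_lit 4) (nat_lit 2) (nat_lit 4) (nat_lit 376) (nat_lit 293) (nat_lit 231)))) (XT.nd (nat_lit 78) (nat_lit 0) (nat_lit 0) (XT.lf (nat_lit 0) (nat_lit 93426818019) (nat_lit 152) (nat_lit 207406823011)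 (nat_lit 0) (nat_lit 81854891481) (nat_lit 2) (nat_lit 5) (nat_lit 4) (nat_lit 4) (nat_lit 2) (nat_lit 4) (nat_lit 377) (nat_lit 293) (nat_lit 230)) (XT.nd (nat_lit 78) (nat_lit 0) (nat_lit 0) (XT.lf (nat_lit 0) (nat_lit 110027104191) (nat_lit 152) (nat_lit 204323588906) (nat_lit 0) (nat_lit 98448404459) (nat_lit 2) (nat_lit 5) (nat_lit 4) (nat_lit 4) (nat_lit 2) (nat_lit 4) (nat_lit 378) (nat_lit 293) (nat_lit 229)) (XT.lf (nat_lit 0) (nat_lit 127944330066) (nat_lit 152) (nat_lit 201015374753) (nat_lit 0) (nat_lit 116359358859) (nat_lit 2) (nat_lit 5) (nat_lit 4) (nat_lit 4) (nat_lit 2) (nat_lit 4) (nat_lit 379) (nat_lit 293) (nat_lit 228)))))) (XT.nd (nat_lit 390) (nat_lit 0) (nat_lit 0) (XT.nd (nat_lit 156) (nat_lit 0) (nat_lit 0) (XT.nd (nat_lit 78) (nat_lit 0) (nat_lit 0) (XT.lf (nat_lit 0) (nat_lit 147284671799) (nat_lit 152) (nat_lit 197462576320) (nat_lit 0) (nat_lit 135693893671)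 (nat_lit 2) (nat_lit 5) (nat_lit 4) (nat_lit 4) (nat_lit 2) (nat_lit 4) (nat_lit 380) (nat_lit 293) (nat_lit 227)) (XT.lf (nat_lit 0) (nat_lit 168162738822) (nat_lit 152) (nat_lit 193644139987) (nat_lit 0) (nat_lit 156566583914) (nat_lit 2) (nat_lit 5) (nat_lit 4) (nat_lit 4) (nat_lit 2) (nat_lit 4) (nat_lit 381) (nat_lit 293) (nat_lit 226))) (XT.nd (nat_lit 78) (nat_lit 0) (nat_lit 0) (XT.lf (nat_lit 0) (nat_lit 190702253014) (nat_lit 152) (nat_lit 189537437984) (nat_lit 0) (nat_lit 179101119606) (nat_lit 2) (nat_lit 5) (nat_lit 4) (nat_lit 4) (nat_lit 2) (nat_lit 4) (nat_lit 382) (nat_lit 293) (nat_lit 225)) (XT.nd (nat_lit 78) (nat_lit 0) (nat_lit 0) (XT.lf (nat_lit 0) (nat_lit 215036781866) (nat_lit 152) (nat_lit 185118134297) (nat_lit 0) (nat_lit 203431038736) (nat_lit 2) (nat_lit 5) (nat_lit 4) (nat_lit 4) (nat_lit 2) (nat_lit 4) (nat_lit 383) (nat_lit 293) (nat_lit 224)) (XT.lf (nat_lit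 0) (nat_lit 241310529993) (nat_lit 152) (nat_lit 180360040462) (nat_lit 0) (nat_lit 229700518603) (nat_lit 2) (nat_lit 5) (nat_lit 4) (nat_lit 4) (nat_lit 2) (nat_lit 4) (nat_lit 384) (nat_lit 293) (nat_lit 223))))) (XT.nd (nat_lit 234) (nat_lit 0) (nat_lit 0) (XT.nd (nat_lit 78) (nat_lit 0) (nat_lit 0) (XT.lf (nat_lit 0) (nat_lit 269679193681) (nat_lit 152) (nat_lit 175234960366) (nat_lit 0) (nat_lit 258065230197) (nat_lit 2) (nat_lit 5) (nat_lit 4) (nat_lit 4) (nat_lit 2) (nat_lit 4) (nat_lit 385) (nat_lit 293) (nat_lit 222)) (XT.nd (nat_lit 78) (nat_lit 0) (nat_lit 0) (XT.lf (nat_lit 0) (nat_lit 300310883529) (nat_lit 152) (nat_lit 169712523164) (nat_lit 0) (nat_lit 288693260700) (nat_lit 2) (nat_lit 5) (nat_lit 4) (nat_lit 4) (nat_lit 2) (nat_lit 4) (nat_lit 386) (nat_lit 293) (nat_lit 221)) (XT.lf (nat_lit 0) (nat_lit 333387120663) (nat_lit 152) (nat_lit 163760003302) (nat_lit 0) (nat_lit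 321766109550) (nat_lit 2) (nat_lit 5) (nat_lit 4) (nat_lit 4) (nat_lit 2) (nat_lit 4) (nat_lit 387) (nat_lit 293) (nat_lit 220)))) (XT.nd (nat_lit 78) (nat_lit 0) (nat_lit 0) (XT.lf (nat_lit 0) (nat_lit 369103912413) (nat_lit 152) (nat_lit 157342126590) (nat_lit 0) (nat_lit 357479764001) (nat_lit 2) (nat_lit 5) (nat_lit 4) (nat_lit 4) (nat_lit 2) (nat_lit 4) (nat_lit 388) (nat_lit 293) (nat_lit 219)) (XT.nd (nat_lit 78) (nat_lit 0) (nat_lit 0) (XT.lf (nat_lit 0) (nat_lit 407672913842) (nat_lit 152) (nat_lit 150420861164) (nat_lit 0) (nat_lit 396045860523) (nat_lit 2) (nat_lit 5) (nat_lit 4) (nat_lit 4) (nat_lit 2) (nat_lit 4) (nat_lit 389) (nat_lit 293) (nat_lit 218)) (XT.lf (nat_lit 0) (nat_lit 449322681995) (nat_lit 152) (nat_lit 142955192119) (nat_lit 0) (nat_lit 437692938948) (nat_lit 2) (nat_lit 5) (nat_lit 4) (nat_lit 4) (nat_lit 2) (nat_lit 4) (nat_lit 390) (nat_lit 293) (nat_lit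 217))))))) (XT.nd (nat_lit 858) (nat_lit 1596) (nat_lit 0) (XT.nd (nat_lit 390) (nat_lit 1824) (nat_lit 0) (XT.nd (nat_lit 156) (nat_lit 1368) (nat_lit 0) (XT.nd (nat_lit 78) (nat_lit 380) (nat_lit 0) (XT.lf (nat_lit 0) (nat_lit 2846014455) (nat_lit 380) (nat_lit 462159941) (nat_lit 380) (nat_lit 462159941) (nat_lit 90) (nat_lit 4) (nat_lit 95) (nat_lit 5) (nat_lit 95) (nat_lit 4) (nat_lit 312) (nat_lit 294) (nat_lit 294)) (XT.lf (nat_lit 0) (nat_lit 4598076888) (nat_lit 380) (nat_lit 682344993) (nat_lit 0) (nat_lit 2459465253) (nat_lit 85) (nat_lit 5) (nat_lit 90) (nat_lit 4) (nat_lit 85) (nat_lit 4) (nat_lit 313) (nat_lit 294) (nat_lit 293))) (XT.nd (nat_lit 78) (nat_lit 608) (nat_lit 0) (XT.lf (nat_lit 0) (nat_lit 585292365) (nat_lit 304) (nat_lit 1709390540) (nat_lit 380) (nat_lit 5668031714) (nat_lit 75) (nat_lit 5) (nat_lit 79) (nat_lit 5) (nat_lit 80) (nat_lit 4) (nat_lit 314) (nat_lit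 294) (nat_lit 292)) (XT.nd (nat_lit 78) (nat_lit 304) (nat_lit 0) (XT.lf (nat_lit 0) (nat_lit 1928404303) (nat_lit 304) (nat_lit 5974695482) (nat_lit 304) (nat_lit 305817036) (nat_lit 71) (nat_lit 4) (nat_lit 75) (nat_lit 5) (nat_lit 75) (nat_lit 4) (nat_lit 315) (nat_lit 294) (nat_lit 291)) (XT.lf (nat_lit 0) (nat_lit 3282416011) (nat_lit 228) (nat_lit 1872779363) (nat_lit 304) (nat_lit 3323489612) (nat_lit 67) (nat_lit 5) (nat_lit 70) (nat_lit 5) (nat_lit 71) (nat_lit 4) (nat_lit 316) (nat_lit 294) (nat_lit 290))))) (XT.nd (nat_lit 234) (nat_lit 912) (nat_lit 0) (XT.nd (nat_lit 78) (nat_lit 532) (nat_lit 0) (XT.lf (nat_lit 0) (nat_lit 2074912527) (nat_lit 380) (nat_lit 4111023085) (nat_lit 76) (nat_lit 2588692747) (nat_lit 62) (nat_lit 5) (nat_lit 67) (nat_lit 5) (nat_lit 63) (nat_lit 4) (nat_lit 317) (nat_lit 294) (nat_lit 289)) (XT.nd (nat_lit 78) (nat_lit 304) (nat_lit 0) (XT.lf (nat_lit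 0) (nat_lit 6046924544) (nat_lit 228) (nat_lit 1627076708) (nat_lit 304) (nat_lit 1423603052) (nat_lit 59) (nat_lit 5) (nat_lit 62) (nat_lit 5) (nat_lit 63) (nat_lit 4) (nat_lit 318) (nat_lit 294) (nat_lit 288)) (XT.lf (nat_lit 0) (nat_lit 4058236007) (nat_lit 304) (nat_lit 2068397951) (nat_lit 76) (nat_lit 3320728186) (nat_lit 55) (nat_lit 5) (nat_lit 59) (nat_lit 5) (nat_lit 56) (nat_lit 4) (nat_lit 319) (nat_lit 294) (nat_lit 287)))) (XT.nd (nat_lit 78) (nat_lit 684) (nat_lit 0) (XT.lf (nat_lit 0) (nat_lit 10766837) (nat_lit 228) (nat_lit 1123005711) (nat_lit 76) (nat_lit 8694881355) (nat_lit 52) (nat_lit 5) (nat_lit 55) (nat_lit 5) (nat_lit 53) (nat_lit 5) (nat_lit 320) (nat_lit 294) (nat_lit 286)) (XT.nd (nat_lit 78) (nat_lit 456) (nat_lit 0) (XT.lf (nat_lit 0) (nat_lit 5621424308) (nat_lit 304) (nat_lit 346393904) (nat_lit 76) (nat_lit 4270082033) (nat_lit 49) (nat_lit 5) (nat_lit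 53) (nat_lit 5) (nat_lit 50) (nat_lit 4) (nat_lit 321) (nat_lit 294) (nat_lit 285)) (XT.lf (nat_lit 0) (nat_lit 362670090) (nat_lit 228) (nat_lit 539271419) (nat_lit 304) (nat_lit 9780735048) (nat_lit 43) (nat_lit 5) (nat_lit 46) (nat_lit 5) (nat_lit 47) (nat_lit 5) (nat_lit 322) (nat_lit 294) (nat_lit 284)))))) (XT.nd (nat_lit 390) (nat_lit 760) (nat_lit 0) (XT.nd (nat_lit 156) (nat_lit 456) (nat_lit 0) (XT.nd (nat_lit 78) (nat_lit 228) (nat_lit 0) (XT.lf (nat_lit 0) (nat_lit 836005431) (nat_lit 152) (nat_lit 5873978158) (nat_lit 228) (nat_lit 4448975093) (nat_lit 41) (nat_lit 5) (nat_lit 43) (nat_lit 5) (nat_lit 44) (nat_lit 4) (nat_lit 323) (nat_lit 294) (nat_lit 283)) (XT.lf (nat_lit 0) (nat_lit 1153950929) (nat_lit 152) (nat_lit 50638762) (nat_lit 228) (nat_lit 10471051355) (nat_lit 38) (nat_lit 5) (nat_lit 40) (nat_lit 5) (nat_lit 41) (nat_lit 5) (nat_lit 324) (nat_lit 294) (nat_lit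 282))) (XT.nd (nat_lit 78) (nat_lit 304) (nat_lit 0) (XT.lf (nat_lit 0) (nat_lit 1122857711) (nat_lit 152) (nat_lit 6069964361) (nat_lit 228) (nat_lit 5035441689) (nat_lit 36) (nat_lit 5) (nat_lit 38) (nat_lit 5) (nat_lit 39) (nat_lit 4) (nat_lit 325) (nat_lit 294) (nat_lit 281)) (XT.nd (nat_lit 78) (nat_lit 76) (nat_lit 0) (XT.lf (nat_lit 0) (nat_lit 757312943) (nat_lit 228) (nat_lit 11980102522) (nat_lit 76) (nat_lit 89723478) (nat_lit 33) (nat_lit 5) (nat_lit 36) (nat_lit 5) (nat_lit 34) (nat_lit 4) (nat_lit 326) (nat_lit 294) (nat_lit 280)) (XT.lf (nat_lit 0) (nat_lit 88574997) (nat_lit 76) (nat_lit 6808315754) (nat_lit 152) (nat_lit 6570049780) (nat_lit 32) (nat_lit 5) (nat_lit 33) (nat_lit 5) (nat_lit 34) (nat_lit 4) (nat_lit 327) (nat_lit 294) (nat_lit 279))))) (XT.nd (nat_lit 234) (nat_lit 456) (nat_lit 0) (XT.nd (nat_lit 78) (nat_lit 304) (nat_lit 0) (XT.lf (nat_lit 0) (nat_lit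 13156625398) (nat_lit 76) (nat_lit 348644494) (nat_lit 152) (nat_lit 653899422) (nat_lit 32) (nat_lit 5) (nat_lit 33) (nat_lit 5) (nat_lit 34) (nat_lit 4) (nat_lit 328) (nat_lit 294) (nat_lit 278)) (XT.nd (nat_lit 78) (nat_lit 76) (nat_lit 0) (XT.lf (nat_lit 0) (nat_lit 5632060055) (nat_lit 228) (nat_lit 2714099594) (nat_lit 76) (nat_lit 6552244915) (nat_lit 29) (nat_lit 5) (nat_lit 32) (nat_lit 5) (nat_lit 30) (nat_lit 4) (nat_lit 329) (nat_lit 294) (nat_lit 277)) (XT.lf (nat_lit 0) (nat_lit 10728165226) (nat_lit 76) (nat_lit 1651932971) (nat_lit 152) (nat_lit 3317140808) (nat_lit 28) (nat_lit 5) (nat_lit 29) (nat_lit 5) (nat_lit 30) (nat_lit 4) (nat_lit 330) (nat_lit 294) (nat_lit 276)))) (XT.nd (nat_lit 78) (nat_lit 228) (nat_lit 0) (XT.lf (nat_lit 0) (nat_lit 3077648236) (nat_lit 228) (nat_lit 7989174146) (nat_lit 76) (nat_lit 5487365246) (nat_lit 25) (nat_lit 5) (nat_lit 28) (nat_lit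 5) (nat_lit 26) (nat_lit 4) (nat_lit 331) (nat_lit 294) (nat_lit 275)) (XT.nd (nat_lit 78) (nat_lit 152) (nat_lit 0) (XT.lf (nat_lit 0) (nat_lit 5631968682) (nat_lit 76) (nat_lit 4245959404) (nat_lit 152) (nat_lit 7598622098) (nat_lit 24) (nat_lit 5) (nat_lit 25) (nat_lit 5) (nat_lit 26) (nat_lit 4) (nat_lit 332) (nat_lit 294) (nat_lit 274)) (XT.lf (nat_lit 0) (nat_lit 1830945728) (nat_lit 152) (nat_lit 15421844546) (nat_lit 152) (nat_lit 1218460529) (nat_lit 22) (nat_lit 4) (nat_lit 24) (nat_lit 5) (nat_lit 24) (nat_lit 4) (nat_lit 333) (nat_lit 294) (nat_lit 273))))))))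
noncomputable def xc36 : XT := (XT.nd (nat_lit 1716) (nat_lit 380) (nat_lit 0) (XT.nd (nat_lit 858) (nat_lit 380) (nat_lit 0) (XT.nd (nat_lit 390) (nat_lit 380) (nat_lit 0) (XT.nd (nat_lit 156) (nat_lit 228) (nat_lit 0) (XT.nd (nat_lit 78) (nat_lit 76) (nat_lit 0) (XT.lf (nat_lit 0) (nat_lit 5589546949) (nat_lit 228) (nat_lit 3005632277) (nat_lit 76) (nat_lit 10941039513) (nat_lit 21) (nat_lit 5) (nat_lit 24) (nat_lit 5) (nat_lit 22) (nat_lit 4) (nat_lit 334) (nat_lit 294) (nat_lit 272)) (XT.lf (nat_lit 0) (nat_lit 11770089145) (nat_lit 76) (nat_lit 1144931445) (nat_lit 152) (nat_lit 7769651972) (nat_lit 20) (nat_lit 5) (nat_lit 21) (nat_lit 5) (nat_lit 22) (nat_lit 4) (nat_lit 335) (nat_lit 294) (nat_lit 271))) (XT.nd (nat_lit 78) (nat_lit 152) (nat_lit 0) (XT.lf (nat_lit 0) (nat_lit 5687596524) (nat_lit 76) (nat_lit 15225758662) (nat_lit 76) (nat_lit 1007364610) (nat_lit 19) (nat_lit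 4) (nat_lit 20) (nat_lit 5) (nat_lit 20) (nat_lit 4) (nat_lit 336) (nat_lit 294) (nat_lit 270)) (XT.nd (nat_lit 78) (nat_lit 76) (nat_lit 0) (XT.lf (nat_lit 0) (nat_lit 6113606025) (nat_lit 152) (nat_lit 1882689255) (nat_lit 76) (nat_lit 15253531633) (nat_lit 18) (nat_lit 5) (nat_lit 20) (nat_lit 5) (nat_lit 19) (nat_lit 4) (nat_lit 337) (nat_lit 294) (nat_lit 269)) (XT.lf (nat_lit 0) (nat_lit 13770132528) (nat_lit 76) (nat_lit 68060255) (nat_lit 152) (nat_lit 10842830095) (nat_lit 17) (nat_lit 5) (nat_lit 18) (nat_lit 5) (nat_lit 19) (nat_lit 4) (nat_lit 338) (nat_lit 294) (nat_lit 268))))) (XT.nd (nat_lit 234) (nat_lit 152) (nat_lit 0) (XT.nd (nat_lit 78) (nat_lit 152) (nat_lit 0) (XT.lf (nat_lit 0) (nat_lit 4257593041) (nat_lit 76) (nat_lit 18014312928) (nat_lit 76) (nat_lit 3950294619) (nat_lit 16) (nat_lit 4) (nat_lit 17) (nat_lit 5) (nat_lit 17) (nat_lit 4) (nat_lit 339) (nat_lit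 294) (nat_lit 267)) (XT.nd (nat_lit 78) (nat_lit 76) (nat_lit 0) (XT.lf (nat_lit 0) (nat_lit 3439171717) (nat_lit 152) (nat_lit 7162796134) (nat_lit 76) (nat_lit 17279148903) (nat_lit 15) (nat_lit 5) (nat_lit 17) (nat_lit 5) (nat_lit 16) (nat_lit 4) (nat_lit 340) (nat_lit 294) (nat_lit 266)) (XT.lf (nat_lit 0) (nat_lit 8801210264) (nat_lit 76) (nat_lit 2492616718) (nat_lit 152) (nat_lit 18375095711) (nat_lit 14) (nat_lit 5) (nat_lit 15) (nat_lit 5) (nat_lit 16) (nat_lit 4) (nat_lit 341) (nat_lit 294) (nat_lit 265)))) (XT.nd (nat_lit 78) (nat_lit 152) (nat_lit 0) (XT.lf (nat_lit 0) (nat_lit 19878865810) (nat_lit 152) (nat_lit 5626427554) (nat_lit 0) (nat_lit 6089392485) (nat_lit 14) (nat_lit 5) (nat_lit 16) (nat_lit 4) (nat_lit 14) (nat_lit 4) (nat_lit 342) (nat_lit 294) (nat_lit 264)) (XT.nd (nat_lit 78) (nat_lit 76) (nat_lit 0) (XT.lf (nat_lit 0) (nat_lit 10927848557) (nat_lit 76) (nat_lit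 18321959784) (nat_lit 76) (nat_lit 4419777517) (nat_lit 13) (nat_lit 4) (nat_lit 14) (nat_lit 5) (nat_lit 14) (nat_lit 4) (nat_lit 343) (nat_lit 294) (nat_lit 263)) (XT.lf (nat_lit 0) (nat_lit 3338690647) (nat_lit 152) (nat_lit 7162226570) (nat_lit 76) (nat_lit 25407412755) (nat_lit 12) (nat_lit 5) (nat_lit 14) (nat_lit 5) (nat_lit 13) (nat_lit 4) (nat_lit 344) (nat_lit 294) (nat_lit 262)))))) (XT.nd (nat_lit 390) (nat_lit 152) (nat_lit 0) (XT.nd (nat_lit 156) (nat_lit 152) (nat_lit 0) (XT.nd (nat_lit 78) (nat_lit 0) (nat_lit 0) (XT.lf (nat_lit 0) (nat_lit 9706828619) (nat_lit 76) (nat_lit 1907805902) (nat_lit 152) (nat_lit 26705359215) (nat_lit 11) (nat_lit 5) (nat_lit 12) (nat_lit 5) (nat_lit 13) (nat_lit 4) (nat_lit 345) (nat_lit 294) (nat_lit 261)) (XT.lf (nat_lit 0) (nat_lit 20695903832) (nat_lit 152) (nat_lit 13042447693) (nat_lit 0) (nat_lit 7179099887) (nat_lit 11) (nat_lit 5) (nat_lit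 13) (nat_lit 4) (nat_lit 11) (nat_lit 4) (nat_lit 346) (nat_lit 294) (nat_lit 260))) (XT.nd (nat_lit 78) (nat_lit 76) (nat_lit 0) (XT.lf (nat_lit 0) (nat_lit 3685542902) (nat_lit 76) (nat_lit 26816485064) (nat_lit 76) (nat_lit 13220781656) (nat_lit 10) (nat_lit 4) (nat_lit 11) (nat_lit 5) (nat_lit 11) (nat_lit 4) (nat_lit 347) (nat_lit 294) (nat_lit 259)) (XT.nd (nat_lit 78) (nat_lit 76) (nat_lit 0) (XT.lf (nat_lit 0) (nat_lit 22050908283) (nat_lit 76) (nat_lit 19181733339) (nat_lit 76) (nat_lit 5512974872) (nat_lit 10) (nat_lit 4) (nat_lit 11) (nat_lit 5) (nat_lit 11) (nat_lit 4) (nat_lit 348) (nat_lit 294) (nat_lit 258)) (XT.lf (nat_lit 0) (nat_lit 2639398079) (nat_lit 152) (nat_lit 8325635976) (nat_lit 76) (nat_lit 39047140457) (nat_lit 9) (nat_lit 5) (nat_lit 11) (nat_lit 5) (nat_lit 10) (nat_lit 4) (nat_lit 349) (nat_lit 294) (nat_lit 257))))) (XT.nd (nat_lit 234) (nat_lit 76) (nat_lit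 0) (XT.nd (nat_lit 78) (nat_lit 0) (nat_lit 0) (XT.lf (nat_lit 0) (nat_lit 9416007362) (nat_lit 76) (nat_lit 1908403535) (nat_lit 152) (nat_lit 42207463871) (nat_lit 8) (nat_lit 5) (nat_lit 9) (nat_lit 5) (nat_lit 10) (nat_lit 4) (nat_lit 350) (nat_lit 294) (nat_lit 256)) (XT.nd (nat_lit 78) (nat_lit 0) (nat_lit 0) (XT.lf (nat_lit 0) (nat_lit 20900970437) (nat_lit 152) (nat_lit 28718557936) (nat_lit 0) (nat_lit 7703800495) (nat_lit 8) (nat_lit 5) (nat_lit 10) (nat_lit 4) (nat_lit 8) (nat_lit 4) (nat_lit 351) (nat_lit 294) (nat_lit 255)) (XT.lf (nat_lit 0) (nat_lit 31207709083) (nat_lit 152) (nat_lit 12252802962) (nat_lit 0) (nat_lit 17959398522) (nat_lit 8) (nat_lit 5) (nat_lit 10) (nat_lit 4) (nat_lit 8) (nat_lit 4) (nat_lit 352) (nat_lit 294) (nat_lit 254)))) (XT.nd (nat_lit 78) (nat_lit 0) (nat_lit 0) (XT.lf (nat_lit 0) (nat_lit 5587606178) (nat_lit 76) (nat_lit 36775540291) (nat_lit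 76) (nat_lit 23479877306) (nat_lit 7) (nat_lit 4) (nat_lit 8) (nat_lit 5) (nat_lit 8) (nat_lit 4) (nat_lit 353) (nat_lit 294) (nat_lit 253)) (XT.nd (nat_lit 78) (nat_lit 0) (nat_lit 0) (XT.lf (nat_lit 0) (nat_lit 25176624999) (nat_lit 76) (nat_lit 29387610023) (nat_lit 76) (nat_lit 16048102200) (nat_lit 7) (nat_lit 4) (nat_lit 8) (nat_lit 5) (nat_lit 8) (nat_lit 4) (nat_lit 354) (nat_lit 294) (nat_lit 252)) (XT.lf (nat_lit 0) (nat_lit 46225203574) (nat_lit 76) (nat_lit 21460448062) (nat_lit 76) (nat_lit 8080343167) (nat_lit 7) (nat_lit 4) (nat_lit 8) (nat_lit 5) (nat_lit 8) (nat_lit 4) (nat_lit 355) (nat_lit 294) (nat_lit 251))))))) (XT.nd (nat_lit 858) (nat_lit 152) (nat_lit 0) (XT.nd (nat_lit 390) (nat_lit 76) (nat_lit 0) (XT.nd (nat_lit 156) (nat_lit 0) (nat_lit 0) (XT.nd (nat_lit 78) (nat_lit 76) (nat_lit 0) (XT.lf (nat_lit 0) (nat_lit 455553486) (nat_lit 152) (nat_lit 12483810127)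 (nat_lit 76) (nat_lit 68394805714) (nat_lit 6) (nat_lit 5) (nat_lit 8) (nat_lit 5) (nat_lit 7) (nat_lit 4) (nat_lit 356) (nat_lit 294) (nat_lit 250)) (XT.lf (nat_lit 0) (nat_lit 5896367935) (nat_lit 76) (nat_lit 3542104336) (nat_lit 152) (nat_lit 77900349066) (nat_lit 5) (nat_lit 5) (nat_lit 6) (nat_lit 5) (nat_lit 7) (nat_lit 4) (nat_lit 357) (nat_lit 294) (nat_lit 249))) (XT.nd (nat_lit 78) (nat_lit 0) (nat_lit 0) (XT.lf (nat_lit 0) (nat_lit 19417126466) (nat_lit 152) (nat_lit 67818343479) (nat_lit 0) (nat_lit 6574528861) (nat_lit 5) (nat_lit 5) (nat_lit 7) (nat_lit 4) (nat_lit 5) (nat_lit 4) (nat_lit 358) (nat_lit 294) (nat_lit 248)) (XT.nd (nat_lit 78) (nat_lit 0) (nat_lit 0) (XT.lf (nat_lit 0) (nat_lit 30210210727) (nat_lit 152) (nat_lit 53248666616) (nat_lit 0) (nat_lit 17339194018) (nat_lit 5) (nat_lit 5) (nat_lit 7) (nat_lit 4) (nat_lit 5) (nat_lit 4) (nat_lit 359) (nat_lit 294)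 (nat_lit 247)) (XT.lf (nat_lit 0) (nat_lit 41826381896) (nat_lit 152) (nat_lit 37591781814) (nat_lit 0) (nat_lit 28929051201) (nat_lit 5) (nat_lit 5) (nat_lit 7) (nat_lit 4) (nat_lit 5) (nat_lit 4) (nat_lit 360) (nat_lit 294) (nat_lit 246))))) (XT.nd (nat_lit 234) (nat_lit 0) (nat_lit 0) (XT.nd (nat_lit 78) (nat_lit 76) (nat_lit 0) (XT.lf (nat_lit 0) (nat_lit 54334476542) (nat_lit 152) (nat_lit 20754907532) (nat_lit 0) (nat_lit 41412781046) (nat_lit 5) (nat_lit 5) (nat_lit 7) (nat_lit 4) (nat_lit 5) (nat_lit 4) (nat_lit 361) (nat_lit 294) (nat_lit 245)) (XT.nd (nat_lit 78) (nat_lit 76) (nat_lit 0) (XT.lf (nat_lit 0) (nat_lit 67808616709) (nat_lit 152) (nat_lit 2638269700) (nat_lit 0) (nat_lit 54864361211) (nat_lit 5) (nat_lit 5) (nat_lit 7) (nat_lit 4) (nat_lit 5) (nat_lit 4) (nat_lit 362) (nat_lit 294) (nat_lit 244)) (XT.lf (nat_lit 0) (nat_lit 17423138785) (nat_lit 76) (nat_lit 65177534391)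 (nat_lit 76) (nat_lit 52212390003) (nat_lit 4) (nat_lit 4) (nat_lit 5) (nat_lit 5) (nat_lit 5) (nat_lit 4) (nat_lit 363) (nat_lit 294) (nat_lit 243)))) (XT.nd (nat_lit 78) (nat_lit 0) (nat_lit 0) (XT.lf (nat_lit 0) (nat_lit 39124165641) (nat_lit 76) (nat_lit 59467290738) (nat_lit 76) (nat_lit 46482804785) (nat_lit 4) (nat_lit 4) (nat_lit 5) (nat_lit 5) (nat_lit 5) (nat_lit 4) (nat_lit 364) (nat_lit 294) (nat_lit 242)) (XT.nd (nat_lit 78) (nat_lit 0) (nat_lit 0) (XT.lf (nat_lit 0) (nat_lit 62506176434) (nat_lit 76) (nat_lit 53326997342) (nat_lit 76) (nat_lit 40324602533) (nat_lit 4) (nat_lit 4) (nat_lit 5) (nat_lit 5) (nat_lit 5) (nat_lit 4) (nat_lit 365) (nat_lit 294) (nat_lit 241)) (XT.lf (nat_lit 0) (nat_lit 87707731227) (nat_lit 76) (nat_lit 46720267280) (nat_lit 76) (nat_lit 33701290196) (nat_lit 4) (nat_lit 4) (nat_lit 5) (nat_lit 5) (nat_lit 5) (nat_lit 4) (nat_lit 366) (nat_lit 294)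 (nat_lit 240)))))) (XT.nd (nat_lit 390) (nat_lit 0) (nat_lit 0) (XT.nd (nat_lit 156) (nat_lit 152) (nat_lit 0) (XT.nd (nat_lit 78) (nat_lit 0) (nat_lit 0) (XT.lf (nat_lit 0) (nat_lit 114878172569) (nat_lit 76) (nat_lit 39607949559) (nat_lit 76) (nat_lit 26573618518) (nat_lit 4) (nat_lit 4) (nat_lit 5) (nat_lit 5) (nat_lit 5) (nat_lit 4) (nat_lit 367) (nat_lit 294) (nat_lit 239)) (XT.lf (nat_lit 0) (nat_lit 144178510480) (nat_lit 76) (nat_lit 31947897112) (nat_lit 76) (nat_lit 18899349442) (nat_lit 4) (nat_lit 4) (nat_lit 5) (nat_lit 5) (nat_lit 5) (nat_lit 4) (nat_lit 368) (nat_lit 294) (nat_lit 238))) (XT.nd (nat_lit 78) (nat_lit 152) (nat_lit 0) (XT.lf (nat_lit 0) (nat_lit 175782376595) (nat_lit 76) (nat_lit 23694717033) (nat_lit 76) (nat_lit 10633005820) (nat_lit 4) (nat_lit 4) (nat_lit 5) (nat_lit 5) (nat_lit 5) (nat_lit 4) (nat_lit 369) (nat_lit 294) (nat_lit 237)) (XT.nd (nat_lit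 78) (nat_lit 152) (nat_lit 0) (XT.lf (nat_lit 0) (nat_lit 209877053081) (nat_lit 76) (nat_lit 14799501591) (nat_lit 76) (nat_lit 1725601911) (nat_lit 4) (nat_lit 4) (nat_lit 5) (nat_lit 5) (nat_lit 5) (nat_lit 4) (nat_lit 370) (nat_lit 294) (nat_lit 236)) (XT.lf (nat_lit 0) (nat_lit 2627235528) (nat_lit 76) (nat_lit 5037359996) (nat_lit 152) (nat_lit 236325679467) (nat_lit 2) (nat_lit 5) (nat_lit 3) (nat_lit 5) (nat_lit 4) (nat_lit 4) (nat_lit 371) (nat_lit 294) (nat_lit 235))))) (XT.nd (nat_lit 234) (nat_lit 0) (nat_lit 0) (XT.nd (nat_lit 78) (nat_lit 0) (nat_lit 0) (XT.lf (nat_lit 0) (nat_lit 18107308521) (nat_lit 152) (nat_lit 239223359580) (nat_lit 0) (nat_lit 5635275242) (nat_lit 2) (nat_lit 5) (nat_lit 4) (nat_lit 4) (nat_lit 2) (nat_lit 4) (nat_lit 372) (nat_lit 294) (nat_lit 234)) (XT.nd (nat_lit 78) (nat_lit 0) (nat_lit 0) (XT.lf (nat_lit 0) (nat_lit 29454092808) (nat_lit 152)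 (nat_lit 237029297491) (nat_lit 0) (nat_lit 16972844673) (nat_lit 2) (nat_lit 5) (nat_lit 4) (nat_lit 4) (nat_lit 2) (nat_lit 4) (nat_lit 373) (nat_lit 294) (nat_lit 233)) (XT.lf (nat_lit 0) (nat_lit 41693541280) (nat_lit 152) (nat_lit 234689204041) (nat_lit 0) (nat_lit 29203760872) (nat_lit 2) (nat_lit 5) (nat_lit 4) (nat_lit 4) (nat_lit 2) (nat_lit 4) (nat_lit 374) (nat_lit 294) (nat_lit 232)))) (XT.nd (nat_lit 78) (nat_lit 0) (nat_lit 0) (XT.lf (nat_lit 0) (nat_lit 54898184003) (nat_lit 152) (nat_lit 232189212009) (nat_lit 0) (nat_lit 42400503342) (nat_lit 2) (nat_lit 5) (nat_lit 4) (nat_lit 4) (nat_lit 2) (nat_lit 4) (nat_lit 375) (nat_lit 294) (nat_lit 231)) (XT.nd (nat_lit 78) (nat_lit 0) (nat_lit 0) (XT.lf (nat_lit 0) (nat_lit 69146270712) (nat_lit 152) (nat_lit 229514506628) (nat_lit 0) (nat_lit 56641275002) (nat_lit 2) (nat_lit 5) (nat_lit 4) (nat_lit 4) (nat_lit 2) (nat_lit 4)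 (nat_lit 376) (nat_lit 294) (nat_lit 230)) (XT.lf (nat_lit 0) (nat_lit 84522234512) (nat_lit 152) (nat_lit 226649237792) (nat_lit 0) (nat_lit 72010465609) (nat_lit 2) (nat_lit 5) (nat_lit 4) (nat_lit 4) (nat_lit 2) (nat_lit 4) (nat_lit 377) (nat_lit 294) (nat_lit 229))))))))
noncomputable def xc37 : XT := (XT.nd (nat_lit 42276) (nat_lit 0) (nat_lit 1064) (XT.nd (nat_lit 858) (nat_lit 0) (nat_lit 0) (XT.nd (nat_lit 390) (nat_lit 0) (nat_lit 0) (XT.nd (nat_lit 156) (nat_lit 0) (nat_lit 0) (XT.nd (nat_lit 78) (nat_lit 0) (nat_lit 0) (XT.lf (nat_lit 0) (nat_lit 101117192227) (nat_lit 152) (nat_lit 223576426129) (nat_lit 0) (nat_lit 88599151848) (nat_lit 2) (nat_lit 5) (nat_lit 4) (nat_lit 4) (nat_lit 2) (nat_lit 4) (nat_lit 378) (nat_lit 294) (nat_lit 228)) (XT.lf (nat_lit 0) (nat_lit 119029484347) (nat_lit 152) (nat_lit 220277862386) (nat_lit 0) (nat_lit 106505637046) (nat_lit 2) (nat_lit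 5) (nat_lit 4) (nat_lit 4) (nat_lit 2) (nat_lit 4) (nat_lit 379) (nat_lit 294) (nat_lit 227))) (XT.nd (nat_lit 78) (nat_lit 0) (nat_lit 0) (XT.lf (nat_lit 0) (nat_lit 138365257787) (nat_lit 152) (nat_lit 216733999518) (nat_lit 0) (nat_lit 125836033707) (nat_lit 2) (nat_lit 5) (nat_lit 4) (nat_lit 4) (nat_lit 2) (nat_lit 4) (nat_lit 380) (nat_lit 294) (nat_lit 226)) (XT.nd (nat_lit 78) (nat_lit 0) (nat_lit 0) (XT.lf (nat_lit 0) (nat_lit 159239094910) (nat_lit 152) (nat_lit 212923836856) (nat_lit 0) (nat_lit 146704892330) (nat_lit 2) (nat_lit 5) (nat_lit 4) (nat_lit 4) (nat_lit 2) (nat_lit 4) (nat_lit 381) (nat_lit 294) (nat_lit 225)) (XT.lf (nat_lit 0) (nat_lit 181774692527) (nat_lit 152) (nat_lit 208824795659) (nat_lit 0) (nat_lit 169235880225) (nat_lit 2) (nat_lit 5) (nat_lit 4) (nat_lit 4) (nat_lit 2) (nat_lit 4) (nat_lit 382) (nat_lit 294) (nat_lit 224))))) (XT.nd (nat_lit 234) (nat_lit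 0) (nat_lit 0) (XT.nd (nat_lit 78) (nat_lit 0) (nat_lit 0) (XT.lf (nat_lit 0) (nat_lit 206105594920) (nat_lit 152) (nat_lit 204412585312) (nat_lit 0) (nat_lit 193562514358) (nat_lit 2) (nat_lit 5) (nat_lit 4) (nat_lit 4) (nat_lit 2) (nat_lit 4) (nat_lit 383) (nat_lit 294) (nat_lit 223)) (XT.nd (nat_lit 78) (nat_lit 0) (nat_lit 0) (XT.lf (nat_lit 0) (nat_lit 232375985216) (nat_lit 152) (nat_lit 199661059383) (nat_lit 0) (nat_lit 219828952560) (nat_lit 2) (nat_lit 5) (nat_lit 4) (nat_lit 4) (nat_lit 2) (nat_lit 4) (nat_lit 384) (nat_lit 294) (nat_lit 222)) (XT.lf (nat_lit 0) (nat_lit 260741539801) (nat_lit 152) (nat_lit 194542060682) (nat_lit 0) (nat_lit 248190847799) (nat_lit 2) (nat_lit 5) (nat_lit 4) (nat_lit 4) (nat_lit 2) (nat_lit 4) (nat_lit 385) (nat_lit 294) (nat_lit 221)))) (XT.nd (nat_lit 78) (nat_lit 0) (nat_lit 0) (XT.lf (nat_lit 0) (nat_lit 291370350850) (nat_lit 152) (nat_lit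 189025254402) (nat_lit 0) (nat_lit 278816270565) (nat_lit 2) (nat_lit 5) (nat_lit 4) (nat_lit 4) (nat_lit 2) (nat_lit 4) (nat_lit 386) (nat_lit 294) (nat_lit 220)) (XT.nd (nat_lit 78) (nat_lit 0) (nat_lit 0) (XT.lf (nat_lit 0) (nat_lit 324443922429) (nat_lit 152) (nat_lit 183077948357) (nat_lit 0) (nat_lit 311886704845) (nat_lit 2) (nat_lit 5) (nat_lit 4) (nat_lit 4) (nat_lit 2) (nat_lit 4) (nat_lit 387) (nat_lit 294) (nat_lit 219)) (XT.lf (nat_lit 0) (nat_lit 360158246072) (nat_lit 152) (nat_lit 176664899252) (nat_lit 0) (nat_lit 347598123582) (nat_lit 2) (nat_lit 5) (nat_lit 4) (nat_lit 4) (nat_lit 2) (nat_lit 4) (nat_lit 388) (nat_lit 294) (nat_lit 218)))))) (XT.nd (nat_lit 40950) (nat_lit 0) (nat_lit 4332) (XT.nd (nat_lit 40716) (nat_lit 0) (nat_lit 6612) (XT.nd (nat_lit 78) (nat_lit 0) (nat_lit 0) (XT.lf (nat_lit 0) (nat_lit 398724962218) (nat_lit 152) (nat_lit 169748103833) (nat_lit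 0) (nat_lit 386162149999) (nat_lit 2) (nat_lit 5) (nat_lit 4) (nat_lit 4) (nat_lit 2) (nat_lit 4) (nat_lit 389) (nat_lit 294) (nat_lit 217)) (XT.lf (nat_lit 0) (nat_lit 440372614367) (nat_lit 152) (nat_lit 162286573683) (nat_lit 0) (nat_lit 427807311659) (nat_lit 2) (nat_lit 5) (nat_lit 4) (nat_lit 4) (nat_lit 2) (nat_lit 4) (nat_lit 390) (nat_lit 294) (nat_lit 216))) (XT.nd (nat_lit 78) (nat_lit 1292) (nat_lit 0) (XT.lf (nat_lit 0) (nat_lit 1722864506) (nat_lit 684) (nat_lit 937955048) (nat_lit 684) (nat_lit 937955048) (nat_lit 106) (nat_lit 4) (nat_lit 115) (nat_lit 5) (nat_lit 115) (nat_lit 4) (nat_lit 310) (nat_lit 295) (nat_lit 295)) (XT.nd (nat_lit 78) (nat_lit 456) (nat_lit 0) (XT.lf (nat_lit 0) (nat_lit 3412647438) (nat_lit 836) (nat_lit 2962577678) (nat_lit 0) (nat_lit 987461844) (nat_lit 95) (nat_lit 5) (nat_lit 106) (nat_lit 4) (nat_lit 95) (nat_lit 4) (nat_lit 311) (nat_lit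 295) (nat_lit 294)) (XT.lf (nat_lit 0) (nat_lit 1256336254) (nat_lit 456) (nat_lit 2095238486) (nat_lit 76) (nat_lit 4198028174) (nat_lit 89) (nat_lit 5) (nat_lit 95) (nat_lit 5) (nat_lit 90) (nat_lit 4) (nat_lit 312) (nat_lit 295) (nat_lit 293))))) (XT.nd (nat_lit 234) (nat_lit 836) (nat_lit 0) (XT.nd (nat_lit 78) (nat_lit 1140) (nat_lit 0) (XT.lf (nat_lit 0) (nat_lit 6521499710) (nat_lit 380) (nat_lit 1145251441) (nat_lit 0) (nat_lit 92991553) (nat_lit 85) (nat_lit 5) (nat_lit 90) (nat_lit 4) (nat_lit 85) (nat_lit 4) (nat_lit 313) (nat_lit 295) (nat_lit 292)) (XT.nd (nat_lit 78) (nat_lit 684) (nat_lit 0) (XT.lf (nat_lit 0) (nat_lit 3942212844) (nat_lit 456) (nat_lit 180486601) (nat_lit 76) (nat_lit 3868369958) (nat_lit 79) (nat_lit 5) (nat_lit 85) (nat_lit 5) (nat_lit 80) (nat_lit 4) (nat_lit 314) (nat_lit 295) (nat_lit 291)) (XT.lf (nat_lit 0) (nat_lit 895920982) (nat_lit 304) (nat_lit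 148287333) (nat_lit 380) (nat_lit 7203596252) (nat_lit 70) (nat_lit 5) (nat_lit 74) (nat_lit 5) (nat_lit 75) (nat_lit 5) (nat_lit 315) (nat_lit 295) (nat_lit 290)))) (XT.nd (nat_lit 78) (nat_lit 608) (nat_lit 0) (XT.lf (nat_lit 0) (nat_lit 1952421258) (nat_lit 228) (nat_lit 4357315101) (nat_lit 304) (nat_lit 2217069969) (nat_lit 67) (nat_lit 5) (nat_lit 70) (nat_lit 5) (nat_lit 71) (nat_lit 4) (nat_lit 316) (nat_lit 295) (nat_lit 289)) (XT.nd (nat_lit 78) (nat_lit 228) (nat_lit 0) (XT.lf (nat_lit 0) (nat_lit 2923820466) (nat_lit 380) (nat_lit 5785912567) (nat_lit 76) (nat_lit 123423276) (nat_lit 62) (nat_lit 5) (nat_lit 67) (nat_lit 5) (nat_lit 63) (nat_lit 4) (nat_lit 317) (nat_lit 295) (nat_lit 288)) (XT.lf (nat_lit 0) (nat_lit 4102529536) (nat_lit 228) (nat_lit 4241210409) (nat_lit 304) (nat_lit 821503878) (nat_lit 59) (nat_lit 5) (nat_lit 62) (nat_lit 5) (nat_lit 63) (nat_lit 4) (nat_lit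 318) (nat_lit 295) (nat_lit 287))))))) (XT.nd (nat_lit 858) (nat_lit 988) (nat_lit 0) (XT.nd (nat_lit 390) (nat_lit 1064) (nat_lit 0) (XT.nd (nat_lit 156) (nat_lit 684) (nat_lit 0) (XT.nd (nat_lit 78) (nat_lit 228) (nat_lit 0) (XT.lf (nat_lit 0) (nat_lit 4419671230) (nat_lit 304) (nat_lit 4400609756) (nat_lit 76) (nat_lit 705455320) (nat_lit 55) (nat_lit 5) (nat_lit 59) (nat_lit 5) (nat_lit 56) (nat_lit 4) (nat_lit 319) (nat_lit 295) (nat_lit 286)) (XT.lf (nat_lit 0) (nat_lit 104228133) (nat_lit 228) (nat_lit 3828145143) (nat_lit 76) (nat_lit 5983579884) (nat_lit 52) (nat_lit 5) (nat_lit 55) (nat_lit 5) (nat_lit 53) (nat_lit 5) (nat_lit 320) (nat_lit 295) (nat_lit 285))) (XT.nd (nat_lit 78) (nat_lit 456) (nat_lit 0) (XT.lf (nat_lit 0) (nat_lit 5490860999) (nat_lit 304) (nat_lit 3394403644) (nat_lit 76) (nat_lit 1451246330) (nat_lit 49) (nat_lit 5) (nat_lit 53) (nat_lit 5) (nat_lit 50) (nat_lit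 4) (nat_lit 321) (nat_lit 295) (nat_lit 284)) (XT.nd (nat_lit 78) (nat_lit 228) (nat_lit 0) (XT.lf (nat_lit 0) (nat_lit 493236076) (nat_lit 228) (nat_lit 3098149435) (nat_lit 76) (nat_lit 7199521212) (nat_lit 46) (nat_lit 5) (nat_lit 49) (nat_lit 5) (nat_lit 47) (nat_lit 5) (nat_lit 322) (nat_lit 295) (nat_lit 283)) (XT.lf (nat_lit 0) (nat_lit 6064128278) (nat_lit 304) (nat_lit 3016369856) (nat_lit 76) (nat_lit 2198638221) (nat_lit 43) (nat_lit 5) (nat_lit 47) (nat_lit 5) (nat_lit 44) (nat_lit 4) (nat_lit 323) (nat_lit 295) (nat_lit 282))))) (XT.nd (nat_lit 234) (nat_lit 532) (nat_lit 0) (XT.nd (nat_lit 78) (nat_lit 304) (nat_lit 0) (XT.lf (nat_lit 0) (nat_lit 274235812) (nat_lit 228) (nat_lit 3140444016) (nat_lit 76) (nat_lit 8391258201) (nat_lit 40) (nat_lit 5) (nat_lit 43) (nat_lit 5) (nat_lit 41) (nat_lit 5) (nat_lit 324) (nat_lit 295) (nat_lit 281)) (XT.nd (nat_lit 78) (nat_lit 152)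 (nat_lit 0) (XT.lf (nat_lit 0) (nat_lit 6024510375) (nat_lit 228) (nat_lit 3582511613) (nat_lit 76) (nat_lit 2763510144) (nat_lit 38) (nat_lit 5) (nat_lit 41) (nat_lit 5) (nat_lit 39) (nat_lit 4) (nat_lit 325) (nat_lit 295) (nat_lit 280)) (XT.lf (nat_lit 0) (nat_lit 8654634260) (nat_lit 152) (nat_lit 3604254509) (nat_lit 228) (nat_lit 720342451) (nat_lit 36) (nat_lit 5) (nat_lit 38) (nat_lit 5) (nat_lit 39) (nat_lit 4) (nat_lit 326) (nat_lit 295) (nat_lit 279)))) (XT.nd (nat_lit 78) (nat_lit 304) (nat_lit 0) (XT.lf (nat_lit 0) (nat_lit 5205615246) (nat_lit 228) (nat_lit 5499127697) (nat_lit 76) (nat_lit 2926745983) (nat_lit 33) (nat_lit 5) (nat_lit 36) (nat_lit 5) (nat_lit 34) (nat_lit 4) (nat_lit 327) (nat_lit 295) (nat_lit 278)) (XT.nd (nat_lit 78) (nat_lit 228) (nat_lit 0) (XT.lf (nat_lit 0) (nat_lit 7211737502) (nat_lit 76) (nat_lit 4410707578) (nat_lit 152) (nat_lit 2710905660) (nat_lit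 32) (nat_lit 5) (nat_lit 33) (nat_lit 5) (nat_lit 34) (nat_lit 4) (nat_lit 328) (nat_lit 295) (nat_lit 277)) (XT.lf (nat_lit 0) (nat_lit 3376523262) (nat_lit 228) (nat_lit 9292459649) (nat_lit 76) (nat_lit 2418476243) (nat_lit 29) (nat_lit 5) (nat_lit 32) (nat_lit 5) (nat_lit 30) (nat_lit 4) (nat_lit 329) (nat_lit 295) (nat_lit 276)))))) (XT.nd (nat_lit 390) (nat_lit 380) (nat_lit 0) (XT.nd (nat_lit 156) (nat_lit 304) (nat_lit 0) (XT.nd (nat_lit 78) (nat_lit 228) (nat_lit 0) (XT.lf (nat_lit 0) (nat_lit 3764896080) (nat_lit 76) (nat_lit 6157768806) (nat_lit 152) (nat_lit 5973768904) (nat_lit 28) (nat_lit 5) (nat_lit 29) (nat_lit 5) (nat_lit 30) (nat_lit 4) (nat_lit 330) (nat_lit 295) (nat_lit 275)) (XT.lf (nat_lit 0) (nat_lit 224440344) (nat_lit 228) (nat_lit 15646534768) (nat_lit 76) (nat_lit 898601605) (nat_lit 25) (nat_lit 5) (nat_lit 28) (nat_lit 5) (nat_lit 26) (nat_lit 4) (nat_lit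 331) (nat_lit 295) (nat_lit 274))) (XT.nd (nat_lit 78) (nat_lit 304) (nat_lit 0) (XT.lf (nat_lit 0) (nat_lit 6849898345) (nat_lit 228) (nat_lit 2360115188) (nat_lit 76) (nat_lit 8490703880) (nat_lit 25) (nat_lit 5) (nat_lit 28) (nat_lit 5) (nat_lit 26) (nat_lit 4) (nat_lit 332) (nat_lit 295) (nat_lit 273)) (XT.nd (nat_lit 78) (nat_lit 228) (nat_lit 0) (XT.lf (nat_lit 0) (nat_lit 12078311042) (nat_lit 76) (nat_lit 1948312528) (nat_lit 152) (nat_lit 4678735610) (nat_lit 24) (nat_lit 5) (nat_lit 25) (nat_lit 5) (nat_lit 26) (nat_lit 4) (nat_lit 333) (nat_lit 295) (nat_lit 272)) (XT.lf (nat_lit 0) (nat_lit 2019799923) (nat_lit 228) (nat_lit 11983069012) (nat_lit 76) (nat_lit 5781200777) (nat_lit 21) (nat_lit 5) (nat_lit 24) (nat_lit 5) (nat_lit 22) (nat_lit 4) (nat_lit 334) (nat_lit 295) (nat_lit 271))))) (XT.nd (nat_lit 234) (nat_lit 152) (nat_lit 0) (XT.nd (nat_lit 78) (nat_lit 152) (nat_lit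 0) (XT.lf (nat_lit 0) (nat_lit 2355143666) (nat_lit 76) (nat_lit 6767984728) (nat_lit 152) (nat_lit 11820530408) (nat_lit 20) (nat_lit 5) (nat_lit 21) (nat_lit 5) (nat_lit 22) (nat_lit 4) (nat_lit 335) (nat_lit 295) (nat_lit 270)) (XT.nd (nat_lit 78) (nat_lit 152) (nat_lit 0) (XT.lf (nat_lit 0) (nat_lit 16872338248) (nat_lit 152) (nat_lit 4213527402) (nat_lit 0) (nat_lit 1106322556) (nat_lit 20) (nat_lit 5) (nat_lit 22) (nat_lit 4) (nat_lit 20) (nat_lit 4) (nat_lit 336) (nat_lit 295) (nat_lit 269)) (XT.lf (nat_lit 0) (nat_lit 1799769760) (nat_lit 152) (nat_lit 12259068752) (nat_lit 76) (nat_lit 9472815047) (nat_lit 18) (nat_lit 5) (nat_lit 20) (nat_lit 5) (nat_lit 19) (nat_lit 4) (nat_lit 337) (nat_lit 295) (nat_lit 268)))) (XT.nd (nat_lit 78) (nat_lit 76) (nat_lit 0) (XT.lf (nat_lit 0) (nat_lit 2926776635) (nat_lit 76) (nat_lit 6363189190) (nat_lit 152) (nat_lit 15684624407) (nat_lit 17)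 (nat_lit 5) (nat_lit 18) (nat_lit 5) (nat_lit 19) (nat_lit 4) (nat_lit 338) (nat_lit 295) (nat_lit 267)) (XT.nd (nat_lit 78) (nat_lit 76) (nat_lit 0) (XT.lf (nat_lit 0) (nat_lit 17496034944) (nat_lit 152) (nat_lit 7034325720) (nat_lit 0) (nat_lit 1996809089) (nat_lit 17) (nat_lit 5) (nat_lit 19) (nat_lit 4) (nat_lit 17) (nat_lit 4) (nat_lit 339) (nat_lit 295) (nat_lit 266)) (XT.lf (nat_lit 0) (nat_lit 9140133902) (nat_lit 76) (nat_lit 17347339038) (nat_lit 76) (nat_lit 1710076287) (nat_lit 16) (nat_lit 4) (nat_lit 17) (nat_lit 5) (nat_lit 17) (nat_lit 4) (nat_lit 340) (nat_lit 295) (nat_lit 265))))))))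
noncomputable def xc38 : XT := (XT.nd (nat_lit 1716) (nat_lit 228) (nat_lit 0) (XT.nd (nat_lit 858) (nat_lit 228) (nat_lit 0) (XT.nd (nat_lit 390) (nat_lit 304) (nat_lit 0) (XT.nd (nat_lit 156) (nat_lit 152) (nat_lit 0) (XT.nd (nat_lit 78) (nat_lit 76) (nat_lit 0) (XT.lf (nat_lit 0) (nat_lit 6005440822) (nat_lit 152) (nat_lit 3453921004) (nat_lit 76) (nat_lit 20537037867) (nat_lit 15) (nat_lit 5) (nat_lit 17) (nat_lit 5) (nat_lit 16) (nat_lit 4) (nat_lit 341) (nat_lit 295) (nat_lit 264)) (XT.lf (nat_lit 0) (nat_lit 13601119801) (nat_lit 76) (nat_lit 781582091) (nat_lit 152) (nat_lit 17549864667) (nat_lit 14) (nat_lit 5) (nat_lit 15) (nat_lit 5) (nat_lit 16) (nat_lit 4) (nat_lit 342) (nat_lit 295) (nat_lit 263))) (XT.nd (nat_lit 78) (nat_lit 152) (nat_lit 0) (XT.lf (nat_lit 0) (nat_lit 23520282607) (nat_lit 152) (nat_lit 2210009091) (nat_lit 0) (nat_lit 8288856686) (nat_lit 14) (nat_lit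 5) (nat_lit 16) (nat_lit 4) (nat_lit 14) (nat_lit 4) (nat_lit 343) (nat_lit 295) (nat_lit 262)) (XT.nd (nat_lit 78) (nat_lit 76) (nat_lit 0) (XT.lf (nat_lit 0) (nat_lit 15500574311) (nat_lit 76) (nat_lit 18046136256) (nat_lit 76) (nat_lit 2718080583) (nat_lit 13) (nat_lit 4) (nat_lit 14) (nat_lit 5) (nat_lit 14) (nat_lit 4) (nat_lit 344) (nat_lit 295) (nat_lit 261)) (XT.lf (nat_lit 0) (nat_lit 5447913092) (nat_lit 152) (nat_lit 4249305825) (nat_lit 76) (nat_lit 28991216332) (nat_lit 12) (nat_lit 5) (nat_lit 14) (nat_lit 5) (nat_lit 13) (nat_lit 4) (nat_lit 345) (nat_lit 295) (nat_lit 260))))) (XT.nd (nat_lit 234) (nat_lit 152) (nat_lit 0) (XT.nd (nat_lit 78) (nat_lit 76) (nat_lit 0) (XT.lf (nat_lit 0) (nat_lit 13817780862) (nat_lit 76) (nat_lit 483757169) (nat_lit 152) (nat_lit 26995747491) (nat_lit 11) (nat_lit 5) (nat_lit 12) (nat_lit 5) (nat_lit 13) (nat_lit 4) (nat_lit 346) (nat_lit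 295) (nat_lit 259)) (XT.nd (nat_lit 78) (nat_lit 76) (nat_lit 0) (XT.lf (nat_lit 0) (nat_lit 24001899319) (nat_lit 152) (nat_lit 10939457047) (nat_lit 0) (nat_lit 9166585116) (nat_lit 11) (nat_lit 5) (nat_lit 13) (nat_lit 4) (nat_lit 11) (nat_lit 4) (nat_lit 347) (nat_lit 295) (nat_lit 258)) (XT.lf (nat_lit 0) (nat_lit 6990034675) (nat_lit 76) (nat_lit 27527221593) (nat_lit 76) (nat_lit 12624263817) (nat_lit 10) (nat_lit 4) (nat_lit 11) (nat_lit 5) (nat_lit 11) (nat_lit 4) (nat_lit 348) (nat_lit 295) (nat_lit 257)))) (XT.nd (nat_lit 78) (nat_lit 152) (nat_lit 0) (XT.lf (nat_lit 0) (nat_lit 26601692372) (nat_lit 76) (nat_lit 19387955084) (nat_lit 76) (nat_lit 4422364369) (nat_lit 10) (nat_lit 4) (nat_lit 11) (nat_lit 5) (nat_lit 11) (nat_lit 4) (nat_lit 349) (nat_lit 295) (nat_lit 256)) (XT.nd (nat_lit 78) (nat_lit 76) (nat_lit 0) (XT.lf (nat_lit 0) (nat_lit 4223351940) (nat_lit 152) (nat_lit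 6365712697) (nat_lit 76) (nat_lit 43355148971) (nat_lit 9) (nat_lit 5) (nat_lit 11) (nat_lit 5) (nat_lit 10) (nat_lit 4) (nat_lit 350) (nat_lit 295) (nat_lit 255)) (XT.lf (nat_lit 0) (nat_lit 12681140471) (nat_lit 76) (nat_lit 859553332) (nat_lit 152) (nat_lit 44207941516) (nat_lit 8) (nat_lit 5) (nat_lit 9) (nat_lit 5) (nat_lit 10) (nat_lit 4) (nat_lit 351) (nat_lit 295) (nat_lit 254)))))) (XT.nd (nat_lit 390) (nat_lit 152) (nat_lit 0) (XT.nd (nat_lit 156) (nat_lit 76) (nat_lit 0) (XT.nd (nat_lit 78) (nat_lit 0) (nat_lit 0) (XT.lf (nat_lit 0) (nat_lit 23803686189) (nat_lit 152) (nat_lit 28646706628) (nat_lit 0) (nat_lit 9397017741) (nat_lit 8) (nat_lit 5) (nat_lit 10) (nat_lit 4) (nat_lit 8) (nat_lit 4) (nat_lit 352) (nat_lit 295) (nat_lit 253)) (XT.lf (nat_lit 0) (nat_lit 34843805548) (nat_lit 152) (nat_lit 11039197622) (nat_lit 0) (nat_lit 20393292262) (nat_lit 8) (nat_lit 5) (nat_lit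 10) (nat_lit 4) (nat_lit 8) (nat_lit 4) (nat_lit 353) (nat_lit 295) (nat_lit 252))) (XT.nd (nat_lit 78) (nat_lit 0) (nat_lit 0) (XT.lf (nat_lit 0) (nat_lit 8133103089) (nat_lit 76) (nat_lit 38706932214) (nat_lit 76) (nat_lit 24215821856) (nat_lit 7) (nat_lit 4) (nat_lit 8) (nat_lit 5) (nat_lit 8) (nat_lit 4) (nat_lit 354) (nat_lit 295) (nat_lit 251)) (XT.nd (nat_lit 78) (nat_lit 0) (nat_lit 0) (XT.lf (nat_lit 0) (nat_lit 29133799830) (nat_lit 76) (nat_lit 30802830584) (nat_lit 76) (nat_lit 16274130345) (nat_lit 7) (nat_lit 4) (nat_lit 8) (nat_lit 5) (nat_lit 8) (nat_lit 4) (nat_lit 355) (nat_lit 295) (nat_lit 250)) (XT.lf (nat_lit 0) (nat_lit 51722335444) (nat_lit 76) (nat_lit 22310813313) (nat_lit 76) (nat_lit 7747307629) (nat_lit 7) (nat_lit 4) (nat_lit 8) (nat_lit 5) (nat_lit 8) (nat_lit 4) (nat_lit 356) (nat_lit 295) (nat_lit 249))))) (XT.nd (nat_lit 234) (nat_lit 0) (nat_lit 0) (XT.nd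 (nat_lit 78) (nat_lit 76) (nat_lit 0) (XT.lf (nat_lit 0) (nat_lit 1369881153) (nat_lit 152) (nat_lit 11787476583) (nat_lit 76) (nat_lit 74639487166) (nat_lit 6) (nat_lit 5) (nat_lit 8) (nat_lit 5) (nat_lit 7) (nat_lit 4) (nat_lit 357) (nat_lit 295) (nat_lit 248)) (XT.nd (nat_lit 78) (nat_lit 0) (nat_lit 0) (XT.lf (nat_lit 0) (nat_lit 7989451423) (nat_lit 76) (nat_lit 3042267811) (nat_lit 152) (nat_lit 83252147681) (nat_lit 5) (nat_lit 5) (nat_lit 6) (nat_lit 5) (nat_lit 7) (nat_lit 4) (nat_lit 358) (nat_lit 295) (nat_lit 247)) (XT.lf (nat_lit 0) (nat_lit 21757901403) (nat_lit 152) (nat_lit 71714916366) (nat_lit 0) (nat_lit 7802470267) (nat_lit 5) (nat_lit 5) (nat_lit 7) (nat_lit 4) (nat_lit 5) (nat_lit 4) (nat_lit 359) (nat_lit 295) (nat_lit 246)))) (XT.nd (nat_lit 78) (nat_lit 0) (nat_lit 0) (XT.lf (nat_lit 0) (nat_lit 33356106122) (nat_lit 152) (nat_lit 56092916806) (nat_lit 0) (nat_lit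 19376310184) (nat_lit 5) (nat_lit 5) (nat_lit 7) (nat_lit 4) (nat_lit 5) (nat_lit 4) (nat_lit 360) (nat_lit 295) (nat_lit 245)) (XT.nd (nat_lit 78) (nat_lit 0) (nat_lit 0) (XT.lf (nat_lit 0) (nat_lit 45847565166) (nat_lit 152) (nat_lit 39288343674) (nat_lit 0) (nat_lit 31845209227) (nat_lit 5) (nat_lit 5) (nat_lit 7) (nat_lit 4) (nat_lit 5) (nat_lit 4) (nat_lit 361) (nat_lit 295) (nat_lit 244)) (XT.lf (nat_lit 0) (nat_lit 59306301998) (nat_lit 152) (nat_lit 21201614315) (nat_lit 0) (nat_lit 45283057169) (nat_lit 5) (nat_lit 5) (nat_lit 7) (nat_lit 4) (nat_lit 5) (nat_lit 4) (nat_lit 362) (nat_lit 295) (nat_lit 243))))))) (XT.nd (nat_lit 858) (nat_lit 0) (nat_lit 0) (XT.nd (nat_lit 390) (nat_lit 152) (nat_lit 0) (XT.nd (nat_lit 156) (nat_lit 0) (nat_lit 0) (XT.nd (nat_lit 78) (nat_lit 76) (nat_lit 0) (XT.lf (nat_lit 0) (nat_lit 73812072094) (nat_lit 152) (nat_lit 1725548110) (nat_lit 0)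 (nat_lit 59769485700) (nat_lit 5) (nat_lit 5) (nat_lit 7) (nat_lit 4) (nat_lit 5) (nat_lit 4) (nat_lit 363) (nat_lit 295) (nat_lit 242)) (XT.lf (nat_lit 0) (nat_lit 19891934807) (nat_lit 76) (nat_lit 69869469615) (nat_lit 76) (nat_lit 55808974365) (nat_lit 4) (nat_lit 4) (nat_lit 5) (nat_lit 5) (nat_lit 5) (nat_lit 4) (nat_lit 364) (nat_lit 295) (nat_lit 241))) (XT.nd (nat_lit 78) (nat_lit 0) (nat_lit 0) (XT.lf (nat_lit 0) (nat_lit 43249418262) (nat_lit 76) (nat_lit 63741092953) (nat_lit 76) (nat_lit 49664015428) (nat_lit 4) (nat_lit 4) (nat_lit 5) (nat_lit 5) (nat_lit 5) (nat_lit 4) (nat_lit 365) (nat_lit 295) (nat_lit 240)) (XT.nd (nat_lit 78) (nat_lit 0) (nat_lit 0) (XT.lf (nat_lit 0) (nat_lit 68428262557) (nat_lit 76) (nat_lit 57145396904) (nat_lit 76) (nat_lit 43052965421) (nat_lit 4) (nat_lit 4) (nat_lit 5) (nat_lit 5) (nat_lit 5) (nat_lit 4) (nat_lit 366) (nat_lit 295) (nat_lit 239))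 (XT.lf (nat_lit 0) (nat_lit 95577675660) (nat_lit 76) (nat_lit 50043295861) (nat_lit 76) (nat_lit 35936647751) (nat_lit 4) (nat_lit 4) (nat_lit 5) (nat_lit 5) (nat_lit 5) (nat_lit 4) (nat_lit 367) (nat_lit 295) (nat_lit 238))))) (XT.nd (nat_lit 234) (nat_lit 152) (nat_lit 0) (XT.nd (nat_lit 78) (nat_lit 0) (nat_lit 0) (XT.lf (nat_lit 0) (nat_lit 124858542980) (nat_lit 76) (nat_lit 42392703301) (nat_lit 76) (nat_lit 28272891646) (nat_lit 4) (nat_lit 4) (nat_lit 5) (nat_lit 5) (nat_lit 5) (nat_lit 4) (nat_lit 368) (nat_lit 295) (nat_lit 237)) (XT.nd (nat_lit 78) (nat_lit 0) (nat_lit 0) (XT.lf (nat_lit 0) (nat_lit 156444380769) (nat_lit 76) (nat_lit 34148282377) (nat_lit 76) (nat_lit 20016282256) (nat_lit 4) (nat_lit 4) (nat_lit 5) (nat_lit 5) (nat_lit 5) (nat_lit 4) (nat_lit 369) (nat_lit 295) (nat_lit 236)) (XT.lf (nat_lit 0) (nat_lit 190522364361) (nat_lit 76) (nat_lit 25261177263) (nat_lit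 76) (nat_lit 11117891525) (nat_lit 4) (nat_lit 4) (nat_lit 5) (nat_lit 5) (nat_lit 5) (nat_lit 4) (nat_lit 370) (nat_lit 295) (nat_lit 235)))) (XT.nd (nat_lit 78) (nat_lit 152) (nat_lit 0) (XT.lf (nat_lit 0) (nat_lit 227294437363) (nat_lit 76) (nat_lit 15678723632) (nat_lit 76) (nat_lit 1524988248) (nat_lit 4) (nat_lit 4) (nat_lit 5) (nat_lit 5) (nat_lit 5) (nat_lit 4) (nat_lit 371) (nat_lit 295) (nat_lit 234)) (XT.nd (nat_lit 78) (nat_lit 0) (nat_lit 0) (XT.lf (nat_lit 0) (nat_lit 3447795222) (nat_lit 76) (nat_lit 5143037072) (nat_lit 152) (nat_lit 254902962061) (nat_lit 2) (nat_lit 5) (nat_lit 3) (nat_lit 5) (nat_lit 4) (nat_lit 4) (nat_lit 372) (nat_lit 295) (nat_lit 233)) (XT.lf (nat_lit 0) (nat_lit 19850070053) (nat_lit 152) (nat_lit 257785819441) (nat_lit 0) (nat_lit 6352574939) (nat_lit 2) (nat_lit 5) (nat_lit 4) (nat_lit 4) (nat_lit 2) (nat_lit 4) (nat_lit 373) (nat_lit 295) (nat_lit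 232)))))) (XT.nd (nat_lit 390) (nat_lit 0) (nat_lit 0) (XT.nd (nat_lit 156) (nat_lit 0) (nat_lit 0) (XT.nd (nat_lit 78) (nat_lit 0) (nat_lit 0) (XT.lf (nat_lit 0) (nat_lit 32082806204) (nat_lit 152) (nat_lit 255458855267) (nat_lit 0) (nat_lit 18577410838) (nat_lit 2) (nat_lit 5) (nat_lit 4) (nat_lit 4) (nat_lit 2) (nat_lit 4) (nat_lit 374) (nat_lit 295) (nat_lit 231)) (XT.lf (nat_lit 0) (nat_lit 45281233816) (nat_lit 152) (nat_lit 252971019972) (nat_lit 0) (nat_lit 31768523400) (nat_lit 2) (nat_lit 5) (nat_lit 4) (nat_lit 4) (nat_lit 2) (nat_lit 4) (nat_lit 375) (nat_lit 295) (nat_lit 230))) (XT.nd (nat_lit 78) (nat_lit 0) (nat_lit 0) (XT.lf (nat_lit 0) (nat_lit 59523565791) (nat_lit 152) (nat_lit 250307570829) (nat_lit 0) (nat_lit 46004082182) (nat_lit 2) (nat_lit 5) (nat_lit 4) (nat_lit 4) (nat_lit 2) (nat_lit 4) (nat_lit 376) (nat_lit 295) (nat_lit 229)) (XT.nd (nat_lit 78) (nat_lit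 0) (nat_lit 0) (XT.lf (nat_lit 0) (nat_lit 74894201135) (nat_lit 152) (nat_lit 247452724435) (nat_lit 0) (nat_lit 61368446051) (nat_lit 2) (nat_lit 5) (nat_lit 4) (nat_lit 4) (nat_lit 2) (nat_lit 4) (nat_lit 377) (nat_lit 295) (nat_lit 228)) (XT.lf (nat_lit 0) (nat_lit 91484225094) (nat_lit 152) (nat_lit 244389563182) (nat_lit 0) (nat_lit 77952663088) (nat_lit 2) (nat_lit 5) (nat_lit 4) (nat_lit 4) (nat_lit 2) (nat_lit 4) (nat_lit 378) (nat_lit 295) (nat_lit 227))))) (XT.nd (nat_lit 234) (nat_lit 0) (nat_lit 0) (XT.nd (nat_lit 78) (nat_lit 0) (nat_lit 0) (XT.lf (nat_lit 0) (nat_lit 109391948921) (nat_lit 152) (nat_lit 241099935004) (nat_lit 0) (nat_lit 95855010135) (nat_lit 2) (nat_lit 5) (nat_lit 4) (nat_lit 4) (nat_lit 2) (nat_lit 4) (nat_lit 379) (nat_lit 295) (nat_lit 226)) (XT.nd (nat_lit 78) (nat_lit 0) (nat_lit 0) (XT.lf (nat_lit 0) (nat_lit 128723492461) (nat_lit 152) (nat_lit 237564345807)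 (nat_lit 0) (nat_lit 115181575175) (nat_lit 2) (nat_lit 5) (nat_lit 4) (nat_lit 4) (nat_lit 2) (nat_lit 4) (nat_lit 380) (nat_lit 295) (nat_lit 225)) (XT.lf (nat_lit 0) (nat_lit 149593413009) (nat_lit 152) (nat_lit 233761843952) (nat_lit 0) (nat_lit 136046886001) (nat_lit 2) (nat_lit 5) (nat_lit 4) (nat_lit 4) (nat_lit 2) (nat_lit 4) (nat_lit 381) (nat_lit 295) (nat_lit 224)))) (XT.nd (nat_lit 78) (nat_lit 0) (nat_lit 0) (XT.lf (nat_lit 0) (nat_lit 172125384168) (nat_lit 152) (nat_lit 229669896094) (nat_lit 0) (nat_lit 158574588899) (nat_lit 2) (nat_lit 5) (nat_lit 4) (nat_lit 4) (nat_lit 2) (nat_lit 4) (nat_lit 382) (nat_lit 295) (nat_lit 223)) (XT.nd (nat_lit 78) (nat_lit 0) (nat_lit 0) (XT.lf (nat_lit 0) (nat_lit 196452928730) (nat_lit 152) (nat_lit 225264253654) (nat_lit 0) (nat_lit 182898181368) (nat_lit 2) (nat_lit 5) (nat_lit 4) (nat_lit 4) (nat_lit 2) (nat_lit 4) (nat_lit 383) (nat_lit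 295) (nat_lit 222)) (XT.lf (nat_lit 0) (nat_lit 222720209923) (nat_lit 152) (nat_lit 220518809120) (nat_lit 0) (nat_lit 209161803215) (nat_lit 2) (nat_lit 5) (nat_lit 4) (nat_lit 4) (nat_lit 2) (nat_lit 4) (nat_lit 384) (nat_lit 295) (nat_lit 221))))))))
noncomputable def xc39 : XT := (XT.nd (nat_lit 42120) (nat_lit 0) (nat_lit 760) (XT.nd (nat_lit 41262) (nat_lit 0) (nat_lit 3116) (XT.nd (nat_lit 390) (nat_lit 0) (nat_lit 0) (XT.nd (nat_lit 156) (nat_lit 0) (nat_lit 0) (XT.nd (nat_lit 78) (nat_lit 0) (nat_lit 0) (XT.lf (nat_lit 0) (nat_lit 251082885708) (nat_lit 152) (nat_lit 215405441341) (nat_lit 0) (nat_lit 237521090717) (nat_lit 2) (nat_lit 5) (nat_lit 4) (nat_lit 4) (nat_lit 2) (nat_lit 4) (nat_lit 385) (nat_lit 295) (nat_lit 220)) (XT.lf (nat_lit 0) (nat_lit 281709031202) (nat_lit 152) (nat_lit 209893848876) (nat_lit 0) (nat_lit 268144098912) (nat_lit 2) (nat_lit 5) (nat_lit 4) (nat_lit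 4) (nat_lit 2) (nat_lit 4) (nat_lit 386) (nat_lit 295) (nat_lit 219))) (XT.nd (nat_lit 78) (nat_lit 0) (nat_lit 0) (XT.lf (nat_lit 0) (nat_lit 314780134674) (nat_lit 152) (nat_lit 203951370439) (nat_lit 0) (nat_lit 301212297478) (nat_lit 2) (nat_lit 5) (nat_lit 4) (nat_lit 4) (nat_lit 2) (nat_lit 4) (nat_lit 387) (nat_lit 295) (nat_lit 218)) (XT.nd (nat_lit 78) (nat_lit 0) (nat_lit 0) (XT.lf (nat_lit 0) (nat_lit 350492173035) (nat_lit 152) (nat_lit 197542791341) (nat_lit 0) (nat_lit 336921646110) (nat_lit 2) (nat_lit 5) (nat_lit 4) (nat_lit 4) (nat_lit 2) (nat_lit 4) (nat_lit 388) (nat_lit 295) (nat_lit 217)) (XT.lf (nat_lit 0) (nat_lit 389056773176) (nat_lit 152) (nat_lit 190630134817) (nat_lit 0) (nat_lit 375483755762) (nat_lit 2) (nat_lit 5) (nat_lit 4) (nat_lit 4) (nat_lit 2) (nat_lit 4) (nat_lit 389) (nat_lit 295) (nat_lit 216))))) (XT.nd (nat_lit 40638) (nat_lit 0) (nat_lit 6612)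 (XT.nd (nat_lit 40482) (nat_lit 0) (nat_lit 8588) (XT.lf (nat_lit 0) (nat_lit 430702466064) (nat_lit 152) (nat_lit 183172436978) (nat_lit 0) (nat_lit 417127142641) (nat_lit 2) (nat_lit 5) (nat_lit 4) (nat_lit 4) (nat_lit 2) (nat_lit 4) (nat_lit 390) (nat_lit 295) (nat_lit 215)) (XT.nd (nat_lit 78) (nat_lit 684) (nat_lit 0) (XT.lf (nat_lit 0) (nat_lit 1049246383) (nat_lit 532) (nat_lit 1205772852) (nat_lit 532) (nat_lit 1205772852) (nat_lit 124) (nat_lit 4) (nat_lit 131) (nat_lit 5) (nat_lit 131) (nat_lit 4) (nat_lit 308) (nat_lit 296) (nat_lit 296)) (XT.lf (nat_lit 0) (nat_lit 2615027715) (nat_lit 608) (nat_lit 69214334) (nat_lit 684) (nat_lit 4370039145) (nat_lit 115) (nat_lit 5) (nat_lit 123) (nat_lit 5) (nat_lit 124) (nat_lit 4) (nat_lit 309) (nat_lit 296) (nat_lit 295)))) (XT.nd (nat_lit 78) (nat_lit 1216) (nat_lit 0) (XT.lf (nat_lit 0) (nat_lit 644976781) (nat_lit 760) (nat_lit 3974402933)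 (nat_lit 76) (nat_lit 2587870568) (nat_lit 105) (nat_lit 5) (nat_lit 115) (nat_lit 5) (nat_lit 106) (nat_lit 4) (nat_lit 310) (nat_lit 296) (nat_lit 294)) (XT.nd (nat_lit 78) (nat_lit 456) (nat_lit 0) (XT.lf (nat_lit 0) (nat_lit 3956780224) (nat_lit 760) (nat_lit 1707222159) (nat_lit 836) (nat_lit 1717691120) (nat_lit 95) (nat_lit 5) (nat_lit 105) (nat_lit 5) (nat_lit 106) (nat_lit 4) (nat_lit 311) (nat_lit 296) (nat_lit 293)) (XT.lf (nat_lit 0) (nat_lit 3201064383) (nat_lit 456) (nat_lit 2806952018) (nat_lit 76) (nat_lit 1569919380) (nat_lit 89) (nat_lit 5) (nat_lit 95) (nat_lit 5) (nat_lit 90) (nat_lit 4) (nat_lit 312) (nat_lit 296) (nat_lit 292)))))) (XT.nd (nat_lit 390) (nat_lit 1444) (nat_lit 0) (XT.nd (nat_lit 156) (nat_lit 1292) (nat_lit 0) (XT.nd (nat_lit 78) (nat_lit 380) (nat_lit 0) (XT.lf (nat_lit 0) (nat_lit 468663124) (nat_lit 380) (nat_lit 2121937017) (nat_lit 76) (nat_lit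 5206564890) (nat_lit 84) (nat_lit 5) (nat_lit 89) (nat_lit 5) (nat_lit 85) (nat_lit 5) (nat_lit 313) (nat_lit 296) (nat_lit 291)) (XT.lf (nat_lit 0) (nat_lit 5387858772) (nat_lit 456) (nat_lit 1409087926) (nat_lit 76) (nat_lit 1241872484) (nat_lit 79) (nat_lit 5) (nat_lit 85) (nat_lit 5) (nat_lit 80) (nat_lit 4) (nat_lit 314) (nat_lit 296) (nat_lit 290))) (XT.nd (nat_lit 78) (nat_lit 912) (nat_lit 0) (XT.lf (nat_lit 0) (nat_lit 2204522358) (nat_lit 380) (nat_lit 671626270) (nat_lit 76) (nat_lit 5428144011) (nat_lit 74) (nat_lit 5) (nat_lit 79) (nat_lit 5) (nat_lit 75) (nat_lit 5) (nat_lit 315) (nat_lit 296) (nat_lit 289)) (XT.nd (nat_lit 78) (nat_lit 380) (nat_lit 0) (XT.lf (nat_lit 0) (nat_lit 91054961) (nat_lit 228) (nat_lit 7145763926) (nat_lit 304) (nat_lit 1358310713) (nat_lit 67) (nat_lit 5) (nat_lit 70) (nat_lit 5) (nat_lit 71) (nat_lit 4) (nat_lit 316) (nat_lit 296) (nat_lit 288))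 (XT.lf (nat_lit 0) (nat_lit 841448691) (nat_lit 304) (nat_lit 2732323045) (nat_lit 380) (nat_lit 5336256686) (nat_lit 62) (nat_lit 5) (nat_lit 66) (nat_lit 5) (nat_lit 67) (nat_lit 5) (nat_lit 317) (nat_lit 296) (nat_lit 287))))) (XT.nd (nat_lit 234) (nat_lit 760) (nat_lit 0) (XT.nd (nat_lit 78) (nat_lit 456) (nat_lit 0) (XT.lf (nat_lit 0) (nat_lit 1590191890) (nat_lit 228) (nat_lit 7183826780) (nat_lit 304) (nat_lit 479222659) (nat_lit 59) (nat_lit 5) (nat_lit 62) (nat_lit 5) (nat_lit 63) (nat_lit 4) (nat_lit 318) (nat_lit 296) (nat_lit 286)) (XT.nd (nat_lit 78) (nat_lit 152) (nat_lit 0) (XT.lf (nat_lit 0) (nat_lit 2250928209) (nat_lit 228) (nat_lit 2310916109) (nat_lit 304) (nat_lit 5061204960) (nat_lit 55) (nat_lit 5) (nat_lit 58) (nat_lit 5) (nat_lit 59) (nat_lit 5) (nat_lit 319) (nat_lit 296) (nat_lit 285)) (XT.lf (nat_lit 0) (nat_lit 2865479315) (nat_lit 152) (nat_lit 7087449527)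 (nat_lit 228) (nat_lit 71184891) (nat_lit 53) (nat_lit 5) (nat_lit 55) (nat_lit 5) (nat_lit 56) (nat_lit 4) (nat_lit 320) (nat_lit 296) (nat_lit 284)))) (XT.nd (nat_lit 78) (nat_lit 456) (nat_lit 0) (XT.lf (nat_lit 0) (nat_lit 3339672924) (nat_lit 228) (nat_lit 1776013020) (nat_lit 304) (nat_lit 5339245266) (nat_lit 49) (nat_lit 5) (nat_lit 52) (nat_lit 5) (nat_lit 53) (nat_lit 5) (nat_lit 321) (nat_lit 296) (nat_lit 283)) (XT.nd (nat_lit 78) (nat_lit 304) (nat_lit 0) (XT.lf (nat_lit 0) (nat_lit 3701336108) (nat_lit 152) (nat_lit 7017577383) (nat_lit 228) (nat_lit 201243787) (nat_lit 47) (nat_lit 5) (nat_lit 49) (nat_lit 5) (nat_lit 50) (nat_lit 4) (nat_lit 322) (nat_lit 296) (nat_lit 282)) (XT.lf (nat_lit 0) (nat_lit 3865881178) (nat_lit 228) (nat_lit 1293003001) (nat_lit 304) (nat_lit 6260603441) (nat_lit 43) (nat_lit 5) (nat_lit 46) (nat_lit 5) (nat_lit 47) (nat_lit 5) (nat_lit 323)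 (nat_lit 296) (nat_lit 281))))))) (XT.nd (nat_lit 858) (nat_lit 912) (nat_lit 0) (XT.nd (nat_lit 390) (nat_lit 608) (nat_lit 0) (XT.nd (nat_lit 156) (nat_lit 456) (nat_lit 0) (XT.nd (nat_lit 78) (nat_lit 228) (nat_lit 0) (XT.lf (nat_lit 0) (nat_lit 3826507390) (nat_lit 152) (nat_lit 7154171079) (nat_lit 228) (nat_lit 976086149) (nat_lit 41) (nat_lit 5) (nat_lit 43) (nat_lit 5) (nat_lit 44) (nat_lit 4) (nat_lit 324) (nat_lit 296) (nat_lit 280)) (XT.lf (nat_lit 0) (nat_lit 3522615940) (nat_lit 152) (nat_lit 1051243825) (nat_lit 228) (nat_lit 7959907458) (nat_lit 38) (nat_lit 5) (nat_lit 40) (nat_lit 5) (nat_lit 41) (nat_lit 5) (nat_lit 325) (nat_lit 296) (nat_lit 279))) (XT.nd (nat_lit 78) (nat_lit 304) (nat_lit 0) (XT.lf (nat_lit 0) (nat_lit 2893649653) (nat_lit 152) (nat_lit 7708417374) (nat_lit 228) (nat_lit 2550770852) (nat_lit 36) (nat_lit 5) (nat_lit 38) (nat_lit 5) (nat_lit 39) (nat_lit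 4) (nat_lit 326) (nat_lit 296) (nat_lit 278)) (XT.nd (nat_lit 78) (nat_lit 76) (nat_lit 0) (XT.lf (nat_lit 0) (nat_lit 1914855703) (nat_lit 152) (nat_lit 1277378016) (nat_lit 228) (nat_lit 10626423251) (nat_lit 33) (nat_lit 5) (nat_lit 35) (nat_lit 5) (nat_lit 36) (nat_lit 5) (nat_lit 327) (nat_lit 296) (nat_lit 277)) (XT.lf (nat_lit 0) (nat_lit 453529737) (nat_lit 76) (nat_lit 8937375943) (nat_lit 152) (nat_lit 5140572449) (nat_lit 32) (nat_lit 5) (nat_lit 33) (nat_lit 5) (nat_lit 34) (nat_lit 4) (nat_lit 328) (nat_lit 296) (nat_lit 276))))) (XT.nd (nat_lit 234) (nat_lit 304) (nat_lit 0) (XT.nd (nat_lit 78) (nat_lit 228) (nat_lit 0) (XT.lf (nat_lit 0) (nat_lit 804825486) (nat_lit 152) (nat_lit 1422583353) (nat_lit 76) (nat_lit 13071109544) (nat_lit 31) (nat_lit 5) (nat_lit 33) (nat_lit 5) (nat_lit 32) (nat_lit 5) (nat_lit 329) (nat_lit 296) (nat_lit 275)) (XT.nd (nat_lit 78) (nat_lit 76)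 (nat_lit 0) (XT.lf (nat_lit 0) (nat_lit 7147811279) (nat_lit 228) (nat_lit 3947316184) (nat_lit 76) (nat_lit 5022565359) (nat_lit 29) (nat_lit 5) (nat_lit 32) (nat_lit 5) (nat_lit 30) (nat_lit 4) (nat_lit 330) (nat_lit 296) (nat_lit 274)) (XT.lf (nat_lit 0) (nat_lit 9890027465) (nat_lit 76) (nat_lit 4159199148) (nat_lit 152) (nat_lit 2950705975) (nat_lit 28) (nat_lit 5) (nat_lit 29) (nat_lit 5) (nat_lit 30) (nat_lit 4) (nat_lit 331) (nat_lit 296) (nat_lit 273)))) (XT.nd (nat_lit 78) (nat_lit 76) (nat_lit 0) (XT.lf (nat_lit 0) (nat_lit 3507245803) (nat_lit 228) (nat_lit 11094375244) (nat_lit 76) (nat_lit 3344887339) (nat_lit 25) (nat_lit 5) (nat_lit 28) (nat_lit 5) (nat_lit 26) (nat_lit 4) (nat_lit 332) (nat_lit 296) (nat_lit 272)) (XT.nd (nat_lit 78) (nat_lit 0) (nat_lit 0) (XT.lf (nat_lit 0) (nat_lit 2918449297) (nat_lit 76) (nat_lit 7548015560) (nat_lit 152) (nat_lit 8495592366) (nat_lit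 24) (nat_lit 5) (nat_lit 25) (nat_lit 5) (nat_lit 26) (nat_lit 4) (nat_lit 333) (nat_lit 296) (nat_lit 271)) (XT.lf (nat_lit 0) (nat_lit 18030542336) (nat_lit 152) (nat_lit 1874082215) (nat_lit 0) (nat_lit 151880541) (nat_lit 24) (nat_lit 5) (nat_lit 26) (nat_lit 4) (nat_lit 24) (nat_lit 4) (nat_lit 334) (nat_lit 296) (nat_lit 270)))))) (XT.nd (nat_lit 468) (nat_lit 380) (nat_lit 0) (XT.nd (nat_lit 234) (nat_lit 152) (nat_lit 0) (XT.nd (nat_lit 78) (nat_lit 152) (nat_lit 0) (XT.lf (nat_lit 0) (nat_lit 5005131414) (nat_lit 228) (nat_lit 7825189328) (nat_lit 76) (nat_lit 8394234809) (nat_lit 21) (nat_lit 5) (nat_lit 24) (nat_lit 5) (nat_lit 22) (nat_lit 4) (nat_lit 335) (nat_lit 296) (nat_lit 269)) (XT.nd (nat_lit 78) (nat_lit 76) (nat_lit 0) (XT.lf (nat_lit 0) (nat_lit 7437722414) (nat_lit 76) (nat_lit 5106248934) (nat_lit 152) (nat_lit 9939656114) (nat_lit 20) (nat_lit 5) (nat_lit 21) (nat_lit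 5) (nat_lit 22) (nat_lit 4) (nat_lit 336) (nat_lit 296) (nat_lit 268)) (XT.lf (nat_lit 0) (nat_lit 77130899) (nat_lit 76) (nat_lit 20669708279) (nat_lit 76) (nat_lit 3093586159) (nat_lit 19) (nat_lit 4) (nat_lit 20) (nat_lit 5) (nat_lit 20) (nat_lit 4) (nat_lit 337) (nat_lit 296) (nat_lit 267)))) (XT.nd (nat_lit 78) (nat_lit 76) (nat_lit 0) (XT.lf (nat_lit 0) (nat_lit 4389655169) (nat_lit 152) (nat_lit 8733862862) (nat_lit 76) (nat_lit 12167577005) (nat_lit 18) (nat_lit 5) (nat_lit 20) (nat_lit 5) (nat_lit 19) (nat_lit 4) (nat_lit 338) (nat_lit 296) (nat_lit 266)) (XT.nd (nat_lit 78) (nat_lit 0) (nat_lit 0) (XT.lf (nat_lit 0) (nat_lit 7471027870) (nat_lit 76) (nat_lit 4894153870) (nat_lit 152) (nat_lit 14490038096) (nat_lit 17) (nat_lit 5) (nat_lit 18) (nat_lit 5) (nat_lit 19) (nat_lit 4) (nat_lit 339) (nat_lit 296) (nat_lit 265)) (XT.lf (nat_lit 0) (nat_lit 21083590132) (nat_lit 152) (nat_lit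 3526179941) (nat_lit 0) (nat_lit 3929497526) (nat_lit 17) (nat_lit 5) (nat_lit 19) (nat_lit 4) (nat_lit 17) (nat_lit 4) (nat_lit 340) (nat_lit 296) (nat_lit 264))))) (XT.nd (nat_lit 234) (nat_lit 152) (nat_lit 0) (XT.nd (nat_lit 78) (nat_lit 76) (nat_lit 0) (XT.lf (nat_lit 0) (nat_lit 333651016) (nat_lit 152) (nat_lit 16588452411) (nat_lit 76) (nat_lit 13426018896) (nat_lit 15) (nat_lit 5) (nat_lit 17) (nat_lit 5) (nat_lit 16) (nat_lit 4) (nat_lit 341) (nat_lit 296) (nat_lit 263)) (XT.nd (nat_lit 78) (nat_lit 76) (nat_lit 0) (XT.lf (nat_lit 0) (nat_lit 8450155381) (nat_lit 152) (nat_lit 59196601) (nat_lit 76) (nat_lit 23787988767) (nat_lit 15) (nat_lit 5) (nat_lit 17) (nat_lit 5) (nat_lit 16) (nat_lit 4) (nat_lit 342) (nat_lit 296) (nat_lit 262)) (XT.lf (nat_lit 0) (nat_lit 17419312784) (nat_lit 152) (nat_lit 16204660758) (nat_lit 0) (nat_lit 768382906) (nat_lit 14) (nat_lit 5) (nat_lit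 16) (nat_lit 4) (nat_lit 14) (nat_lit 4) (nat_lit 343) (nat_lit 296) (nat_lit 261)))) (XT.nd (nat_lit 78) (nat_lit 76) (nat_lit 0) (XT.lf (nat_lit 0) (nat_lit 958806533) (nat_lit 76) (nat_lit 26216562452) (nat_lit 76) (nat_lit 9476160582) (nat_lit 13) (nat_lit 4) (nat_lit 14) (nat_lit 5) (nat_lit 14) (nat_lit 4) (nat_lit 344) (nat_lit 296) (nat_lit 260)) (XT.nd (nat_lit 78) (nat_lit 76) (nat_lit 0) (XT.lf (nat_lit 0) (nat_lit 19911486057) (nat_lit 76) (nat_lit 17996702747) (nat_lit 76) (nat_lit 1173456440) (nat_lit 13) (nat_lit 4) (nat_lit 14) (nat_lit 5) (nat_lit 14) (nat_lit 4) (nat_lit 345) (nat_lit 296) (nat_lit 259)) (XT.lf (nat_lit 0) (nat_lit 7463073293) (nat_lit 152) (nat_lit 1600653866) (nat_lit 76) (nat_lit 32640426668) (nat_lit 12) (nat_lit 5) (nat_lit 14) (nat_lit 5) (nat_lit 13) (nat_lit 4) (nat_lit 346) (nat_lit 296) (nat_lit 258))))))))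
noncomputable def xc40 : XT := (XT.nd (nat_lit 1716) (nat_lit 152) (nat_lit 0) (XT.nd (nat_lit 858) (nat_lit 228) (nat_lit 0) (XT.nd (nat_lit 390) (nat_lit 152) (nat_lit 0) (XT.nd (nat_lit 156) (nat_lit 152) (nat_lit 0) (XT.nd (nat_lit 78) (nat_lit 0) (nat_lit 0) (XT.lf (nat_lit 0) (nat_lit 16965581063) (nat_lit 152) (nat_lit 26756387205) (nat_lit 0) (nat_lit 802743091) (nat_lit 11) (nat_lit 5) (nat_lit 13) (nat_lit 4) (nat_lit 11) (nat_lit 4) (nat_lit 347) (nat_lit 296) (nat_lit 257)) (XT.lf (nat_lit 0) (nat_lit 27336937394) (nat_lit 152) (nat_lit 9117094353) (nat_lit 0) (nat_lit 11111466484) (nat_lit 11) (nat_lit 5) (nat_lit 13) (nat_lit 4) (nat_lit 11) (nat_lit 4) (nat_lit 348) (nat_lit 296) (nat_lit 256))) (XT.nd (nat_lit 78) (nat_lit 76) (nat_lit 0) (XT.lf (nat_lit 0) (nat_lit 10129525806) (nat_lit 76) (nat_lit 28499476245) (nat_lit 76) (nat_lit 12216011873) (nat_lit 10) (nat_lit 4)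 (nat_lit 11) (nat_lit 5) (nat_lit 11) (nat_lit 4) (nat_lit 349) (nat_lit 296) (nat_lit 255)) (XT.nd (nat_lit 78) (nat_lit 76) (nat_lit 0) (XT.lf (nat_lit 0) (nat_lit 31118983648) (nat_lit 76) (nat_lit 19800173828) (nat_lit 76) (nat_lit 3463011807) (nat_lit 10) (nat_lit 4) (nat_lit 11) (nat_lit 5) (nat_lit 11) (nat_lit 4) (nat_lit 350) (nat_lit 296) (nat_lit 254)) (XT.lf (nat_lit 0) (nat_lit 5738176555) (nat_lit 152) (nat_lit 4623620127) (nat_lit 76) (nat_lit 47838853479) (nat_lit 9) (nat_lit 5) (nat_lit 11) (nat_lit 5) (nat_lit 10) (nat_lit 4) (nat_lit 351) (nat_lit 296) (nat_lit 253))))) (XT.nd (nat_lit 234) (nat_lit 76) (nat_lit 0) (XT.nd (nat_lit 78) (nat_lit 0) (nat_lit 0) (XT.lf (nat_lit 0) (nat_lit 15748935406) (nat_lit 152) (nat_lit 46464571219) (nat_lit 0) (nat_lit 98536220) (nat_lit 8) (nat_lit 5) (nat_lit 10) (nat_lit 4) (nat_lit 8) (nat_lit 4) (nat_lit 352) (nat_lit 296) (nat_lit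 252)) (XT.nd (nat_lit 78) (nat_lit 0) (nat_lit 0) (XT.lf (nat_lit 0) (nat_lit 26763054916) (nat_lit 152) (nat_lit 28907119475) (nat_lit 0) (nat_lit 11072058659) (nat_lit 8) (nat_lit 5) (nat_lit 10) (nat_lit 4) (nat_lit 8) (nat_lit 4) (nat_lit 353) (nat_lit 296) (nat_lit 251)) (XT.lf (nat_lit 0) (nat_lit 38608230207) (nat_lit 152) (nat_lit 10041478170) (nat_lit 0) (nat_lit 22879644067) (nat_lit 8) (nat_lit 5) (nat_lit 10) (nat_lit 4) (nat_lit 8) (nat_lit 4) (nat_lit 354) (nat_lit 296) (nat_lit 250)))) (XT.nd (nat_lit 78) (nat_lit 0) (nat_lit 0) (XT.lf (nat_lit 0) (nat_lit 10582866920) (nat_lit 76) (nat_lit 40937016198) (nat_lit 76) (nat_lit 25173624613) (nat_lit 7) (nat_lit 4) (nat_lit 8) (nat_lit 5) (nat_lit 8) (nat_lit 4) (nat_lit 355) (nat_lit 296) (nat_lit 249)) (XT.nd (nat_lit 78) (nat_lit 0) (nat_lit 0) (XT.lf (nat_lit 0) (nat_lit 33130351579) (nat_lit 76) (nat_lit 32464769444) (nat_lit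 76) (nat_lit 16669150595) (nat_lit 7) (nat_lit 4) (nat_lit 8) (nat_lit 5) (nat_lit 8) (nat_lit 4) (nat_lit 356) (nat_lit 296) (nat_lit 248)) (XT.lf (nat_lit 0) (nat_lit 57402573912) (nat_lit 76) (nat_lit 23352819502) (nat_lit 76) (nat_lit 7527360594) (nat_lit 7) (nat_lit 4) (nat_lit 8) (nat_lit 5) (nat_lit 8) (nat_lit 4) (nat_lit 357) (nat_lit 296) (nat_lit 247)))))) (XT.nd (nat_lit 390) (nat_lit 76) (nat_lit 0) (XT.nd (nat_lit 156) (nat_lit 0) (nat_lit 0) (XT.nd (nat_lit 78) (nat_lit 76) (nat_lit 0) (XT.lf (nat_lit 0) (nat_lit 2232115154) (nat_lit 152) (nat_lit 11277252526) (nat_lit 76) (nat_lit 81273452205) (nat_lit 6) (nat_lit 5) (nat_lit 8) (nat_lit 5) (nat_lit 7) (nat_lit 4) (nat_lit 358) (nat_lit 296) (nat_lit 246)) (XT.lf (nat_lit 0) (nat_lit 10018674455) (nat_lit 76) (nat_lit 2614177295) (nat_lit 152) (nat_lit 89157664738) (nat_lit 5) (nat_lit 5) (nat_lit 6) (nat_lit 5) (nat_lit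 7) (nat_lit 4) (nat_lit 359) (nat_lit 296) (nat_lit 245))) (XT.nd (nat_lit 78) (nat_lit 0) (nat_lit 0) (XT.lf (nat_lit 0) (nat_lit 24173606234) (nat_lit 152) (nat_lit 76141328990) (nat_lit 0) (nat_lit 9028501819) (nat_lit 5) (nat_lit 5) (nat_lit 7) (nat_lit 4) (nat_lit 5) (nat_lit 4) (nat_lit 360) (nat_lit 296) (nat_lit 244)) (XT.nd (nat_lit 78) (nat_lit 0) (nat_lit 0) (XT.lf (nat_lit 0) (nat_lit 36649661944) (nat_lit 152) (nat_lit 59366664331) (nat_lit 0) (nat_lit 21483668638) (nat_lit 5) (nat_lit 5) (nat_lit 7) (nat_lit 4) (nat_lit 5) (nat_lit 4) (nat_lit 361) (nat_lit 296) (nat_lit 243)) (XT.lf (nat_lit 0) (nat_lit 50094136428) (nat_lit 152) (nat_lit 41307628002) (nat_lit 0) (nat_lit 34908801558) (nat_lit 5) (nat_lit 5) (nat_lit 7) (nat_lit 4) (nat_lit 5) (nat_lit 4) (nat_lit 362) (nat_lit 296) (nat_lit 242))))) (XT.nd (nat_lit 234) (nat_lit 0) (nat_lit 0) (XT.nd (nat_lit 78) (nat_lit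 76) (nat_lit 0) (XT.lf (nat_lit 0) (nat_lit 64586700647) (nat_lit 152) (nat_lit 21857203492) (nat_lit 0) (nat_lit 49383456920) (nat_lit 5) (nat_lit 5) (nat_lit 7) (nat_lit 4) (nat_lit 5) (nat_lit 4) (nat_lit 363) (nat_lit 296) (nat_lit 241)) (XT.nd (nat_lit 78) (nat_lit 76) (nat_lit 0) (XT.lf (nat_lit 0) (nat_lit 80213236463) (nat_lit 152) (nat_lit 900129025) (nat_lit 0) (nat_lit 64993410461) (nat_lit 5) (nat_lit 5) (nat_lit 7) (nat_lit 4) (nat_lit 5) (nat_lit 4) (nat_lit 364) (nat_lit 296) (nat_lit 240)) (XT.lf (nat_lit 0) (nat_lit 22404881600) (nat_lit 76) (nat_lit 75011266959) (nat_lit 76) (nat_lit 59776087000) (nat_lit 4) (nat_lit 4) (nat_lit 5) (nat_lit 5) (nat_lit 5) (nat_lit 4) (nat_lit 365) (nat_lit 296) (nat_lit 239)))) (XT.nd (nat_lit 78) (nat_lit 0) (nat_lit 0) (XT.lf (nat_lit 0) (nat_lit 47562697657) (nat_lit 76) (nat_lit 68425787588) (nat_lit 76) (nat_lit 53176391001) (nat_lit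 4) (nat_lit 4) (nat_lit 5) (nat_lit 5) (nat_lit 5) (nat_lit 4) (nat_lit 366) (nat_lit 296) (nat_lit 238)) (XT.nd (nat_lit 78) (nat_lit 0) (nat_lit 0) (XT.lf (nat_lit 0) (nat_lit 74692640168) (nat_lit 76) (nat_lit 61333146432) (nat_lit 76) (nat_lit 46070586301) (nat_lit 4) (nat_lit 4) (nat_lit 5) (nat_lit 5) (nat_lit 5) (nat_lit 4) (nat_lit 367) (nat_lit 296) (nat_lit 237)) (XT.lf (nat_lit 0) (nat_lit 103955479162) (nat_lit 76) (nat_lit 53691313027) (nat_lit 76) (nat_lit 38416564429) (nat_lit 4) (nat_lit 4) (nat_lit 5) (nat_lit 5) (nat_lit 5) (nat_lit 4) (nat_lit 368) (nat_lit 296) (nat_lit 236))))))) (XT.nd (nat_lit 858) (nat_lit 0) (nat_lit 0) (XT.nd (nat_lit 390) (nat_lit 0) (nat_lit 0) (XT.nd (nat_lit 156) (nat_lit 152) (nat_lit 0) (XT.nd (nat_lit 78) (nat_lit 0) (nat_lit 0) (XT.lf (nat_lit 0) (nat_lit 135524624057) (nat_lit 76) (nat_lit 45455002432) (nat_lit 76) (nat_lit 30168968217)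 (nat_lit 4) (nat_lit 4) (nat_lit 5) (nat_lit 5) (nat_lit 5) (nat_lit 4) (nat_lit 369) (nat_lit 296) (nat_lit 235)) (XT.lf (nat_lit 0) (nat_lit 169587151266) (nat_lit 76) (nat_lit 36575406882) (nat_lit 76) (nat_lit 21278923021) (nat_lit 4) (nat_lit 4) (nat_lit 5) (nat_lit 5) (nat_lit 5) (nat_lit 4) (nat_lit 370) (nat_lit 296) (nat_lit 234))) (XT.nd (nat_lit 78) (nat_lit 152) (nat_lit 0) (XT.lf (nat_lit 0) (nat_lit 206344912802) (nat_lit 76) (nat_lit 26999906550) (nat_lit 76) (nat_lit 11693747091) (nat_lit 4) (nat_lit 4) (nat_lit 5) (nat_lit 5) (nat_lit 5) (nat_lit 4) (nat_lit 371) (nat_lit 296) (nat_lit 233)) (XT.nd (nat_lit 78) (nat_lit 152) (nat_lit 0) (XT.lf (nat_lit 0) (nat_lit 246015732438) (nat_lit 76) (nat_lit 16671757732) (nat_lit 76) (nat_lit 1356639386) (nat_lit 4) (nat_lit 4) (nat_lit 5) (nat_lit 5) (nat_lit 5) (nat_lit 4) (nat_lit 372) (nat_lit 296) (nat_lit 232)) (XT.lf (nat_lit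 0) (nat_lit 4246922040) (nat_lit 76) (nat_lit 5299583155) (nat_lit 152) (nat_lit 275013330230) (nat_lit 2) (nat_lit 5) (nat_lit 3) (nat_lit 5) (nat_lit 4) (nat_lit 4) (nat_lit 373) (nat_lit 296) (nat_lit 231))))) (XT.nd (nat_lit 234) (nat_lit 0) (nat_lit 0) (XT.nd (nat_lit 78) (nat_lit 0) (nat_lit 0) (XT.lf (nat_lit 0) (nat_lit 21690284890) (nat_lit 152) (nat_lit 277915364604) (nat_lit 0) (nat_lit 7089242592) (nat_lit 2) (nat_lit 5) (nat_lit 4) (nat_lit 4) (nat_lit 2) (nat_lit 4) (nat_lit 374) (nat_lit 296) (nat_lit 230)) (XT.nd (nat_lit 78) (nat_lit 0) (nat_lit 0) (XT.lf (nat_lit 0) (nat_lit 34882957769) (nat_lit 152) (nat_lit 275438785547) (nat_lit 0) (nat_lit 20275142277) (nat_lit 2) (nat_lit 5) (nat_lit 4) (nat_lit 4) (nat_lit 2) (nat_lit 4) (nat_lit 375) (nat_lit 296) (nat_lit 229)) (XT.lf (nat_lit 0) (nat_lit 49119961288) (nat_lit 152) (nat_lit 272785758847) (nat_lit 0) (nat_lit 34505874320)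 (nat_lit 2) (nat_lit 5) (nat_lit 4) (nat_lit 4) (nat_lit 2) (nat_lit 4) (nat_lit 376) (nat_lit 296) (nat_lit 228)))) (XT.nd (nat_lit 78) (nat_lit 0) (nat_lit 0) (XT.lf (nat_lit 0) (nat_lit 64485662876) (nat_lit 152) (nat_lit 269940562863) (nat_lit 0) (nat_lit 49865768987) (nat_lit 2) (nat_lit 5) (nat_lit 4) (nat_lit 4) (nat_lit 2) (nat_lit 4) (nat_lit 377) (nat_lit 296) (nat_lit 227)) (XT.nd (nat_lit 78) (nat_lit 0) (nat_lit 0) (XT.lf (nat_lit 0) (nat_lit 81071118542) (nat_lit 152) (nat_lit 266886337175) (nat_lit 0) (nat_lit 66445847873) (nat_lit 2) (nat_lit 5) (nat_lit 4) (nat_lit 4) (nat_lit 2) (nat_lit 4) (nat_lit 378) (nat_lit 296) (nat_lit 226)) (XT.lf (nat_lit 0) (nat_lit 98974612468) (nat_lit 152) (nat_lit 263604982667) (nat_lit 0) (nat_lit 84344363300) (nat_lit 2) (nat_lit 5) (nat_lit 4) (nat_lit 4) (nat_lit 2) (nat_lit 4) (nat_lit 379) (nat_lit 296) (nat_lit 225)))))) (XT.nd (nat_lit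 390) (nat_lit 0) (nat_lit 0) (XT.nd (nat_lit 156) (nat_lit 0) (nat_lit 0) (XT.nd (nat_lit 78) (nat_lit 0) (nat_lit 0) (XT.lf (nat_lit 0) (nat_lit 118302239433) (nat_lit 152) (nat_lit 260077054277) (nat_lit 0) (nat_lit 103667380544) (nat_lit 2) (nat_lit 5) (nat_lit 4) (nat_lit 4) (nat_lit 2) (nat_lit 4) (nat_lit 380) (nat_lit 296) (nat_lit 224)) (XT.lf (nat_lit 0) (nat_lit 139168533523) (nat_lit 152) (nat_lit 256281645761) (nat_lit 0) (nat_lit 124529406373) (nat_lit 2) (nat_lit 5) (nat_lit 4) (nat_lit 4) (nat_lit 2) (nat_lit 4) (nat_lit 381) (nat_lit 296) (nat_lit 223))) (XT.nd (nat_lit 78) (nat_lit 0) (nat_lit 0) (XT.lf (nat_lit 0) (nat_lit 161697146851) (nat_lit 152) (nat_lit 252196265810) (nat_lit 0) (nat_lit 147054067607) (nat_lit 2) (nat_lit 5) (nat_lit 4) (nat_lit 4) (nat_lit 2) (nat_lit 4) (nat_lit 382) (nat_lit 296) (nat_lit 222)) (XT.nd (nat_lit 78) (nat_lit 0) (nat_lit 0) (XT.lf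 (nat_lit 0) (nat_lit 186021582310) (nat_lit 152) (nat_lit 247796704765) (nat_lit 0) (nat_lit 171374843720) (nat_lit 2) (nat_lit 5) (nat_lit 4) (nat_lit 4) (nat_lit 2) (nat_lit 4) (nat_lit 383) (nat_lit 296) (nat_lit 221)) (XT.lf (nat_lit 0) (nat_lit 212285984703) (nat_lit 152) (nat_lit 243056891153) (nat_lit 0) (nat_lit 197635857830) (nat_lit 2) (nat_lit 5) (nat_lit 4) (nat_lit 4) (nat_lit 2) (nat_lit 4) (nat_lit 384) (nat_lit 296) (nat_lit 220))))) (XT.nd (nat_lit 234) (nat_lit 0) (nat_lit 0) (XT.nd (nat_lit 78) (nat_lit 0) (nat_lit 0) (XT.lf (nat_lit 0) (nat_lit 240645994934) (nat_lit 152) (nat_lit 237948737189) (nat_lit 0) (nat_lit 225992730761) (nat_lit 2) (nat_lit 5) (nat_lit 4) (nat_lit 4) (nat_lit 2) (nat_lit 4) (nat_lit 385) (nat_lit 296) (nat_lit 219)) (XT.nd (nat_lit 78) (nat_lit 0) (nat_lit 0) (XT.lf (nat_lit 0) (nat_lit 271269672321) (nat_lit 152) (nat_lit 232441972333) (nat_lit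 0) (nat_lit 256613503242) (nat_lit 2) (nat_lit 5) (nat_lit 4) (nat_lit 4) (nat_lit 2) (nat_lit 4) (nat_lit 386) (nat_lit 296) (nat_lit 218)) (XT.lf (nat_lit 0) (nat_lit 304338490510) (nat_lit 152) (nat_lit 226503963902) (nat_lit 0) (nat_lit 289679631703) (nat_lit 2) (nat_lit 5) (nat_lit 4) (nat_lit 4) (nat_lit 2) (nat_lit 4) (nat_lit 387) (nat_lit 296) (nat_lit 217)))) (XT.nd (nat_lit 78) (nat_lit 0) (nat_lit 0) (XT.lf (nat_lit 0) (nat_lit 340048412867) (nat_lit 152) (nat_lit 220099523699) (nat_lit 0) (nat_lit 325387063570) (nat_lit 2) (nat_lit 5) (nat_lit 4) (nat_lit 4) (nat_lit 2) (nat_lit 4) (nat_lit 388) (nat_lit 296) (nat_lit 216)) (XT.nd (nat_lit 78) (nat_lit 0) (nat_lit 0) (XT.lf (nat_lit 0) (nat_lit 378611053746) (nat_lit 152) (nat_lit 213190699486) (nat_lit 0) (nat_lit 363947398441) (nat_lit 2) (nat_lit 5) (nat_lit 4) (nat_lit 4) (nat_lit 2) (nat_lit 4) (nat_lit 389) (nat_lit 296)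 (nat_lit 215)) (XT.lf (nat_lit 0) (nat_lit 420254932502) (nat_lit 152) (nat_lit 205736550083) (nat_lit 0) (nat_lit 405589142003) (nat_lit 2) (nat_lit 5) (nat_lit 4) (nat_lit 4) (nat_lit 2) (nat_lit 4) (nat_lit 390) (nat_lit 296) (nat_lit 214))))))))
noncomputable def xc41 : XT := (XT.nd (nat_lit 1716) (nat_lit 1824) (nat_lit 0) (XT.nd (nat_lit 858) (nat_lit 2660) (nat_lit 0) (XT.nd (nat_lit 390) (nat_lit 2660) (nat_lit 0) (XT.nd (nat_lit 156) (nat_lit 1976) (nat_lit 0) (XT.nd (nat_lit 78) (nat_lit 532) (nat_lit 0) (XT.lf (nat_lit 0) (nat_lit 842964085) (nat_lit 380) (nat_lit 1255925772) (nat_lit 380) (nat_lit 1255925772) (nat_lit 138) (nat_lit 4) (nat_lit 143) (nat_lit 5) (nat_lit 143) (nat_lit 4) (nat_lit 306) (nat_lit 297) (nat_lit 297)) (XT.lf (nat_lit 0) (nat_lit 1730517643) (nat_lit 456) (nat_lit 711010993) (nat_lit 532) (nat_lit 4369005925) (nat_lit 131) (nat_lit 5) (nat_lit 137)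 (nat_lit 5) (nat_lit 138) (nat_lit 4) (nat_lit 307) (nat_lit 297) (nat_lit 296))) (XT.nd (nat_lit 78) (nat_lit 1368) (nat_lit 0) (XT.lf (nat_lit 0) (nat_lit 477329081) (nat_lit 608) (nat_lit 5027825834) (nat_lit 76) (nat_lit 1426597648) (nat_lit 123) (nat_lit 5) (nat_lit 131) (nat_lit 5) (nat_lit 124) (nat_lit 4) (nat_lit 308) (nat_lit 297) (nat_lit 295)) (XT.nd (nat_lit 78) (nat_lit 760) (nat_lit 0) (XT.lf (nat_lit 0) (nat_lit 2179351609) (nat_lit 608) (nat_lit 3117950427) (nat_lit 684) (nat_lit 1775531403) (nat_lit 115) (nat_lit 5) (nat_lit 123) (nat_lit 5) (nat_lit 124) (nat_lit 4) (nat_lit 309) (nat_lit 297) (nat_lit 294)) (XT.lf (nat_lit 0) (nat_lit 2581780799) (nat_lit 684) (nat_lit 338521272) (nat_lit 760) (nat_lit 4315577502) (nat_lit 105) (nat_lit 5) (nat_lit 114) (nat_lit 5) (nat_lit 115) (nat_lit 5) (nat_lit 310) (nat_lit 297) (nat_lit 293))))) (XT.nd (nat_lit 234) (nat_lit 1064)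 (nat_lit 0) (XT.nd (nat_lit 78) (nat_lit 760) (nat_lit 0) (XT.lf (nat_lit 0) (nat_lit 317039754) (nat_lit 836) (nat_lit 4350269884) (nat_lit 76) (nat_lit 2752612301) (nat_lit 94) (nat_lit 5) (nat_lit 105) (nat_lit 5) (nat_lit 95) (nat_lit 5) (nat_lit 311) (nat_lit 297) (nat_lit 292)) (XT.nd (nat_lit 78) (nat_lit 380) (nat_lit 0) (XT.lf (nat_lit 0) (nat_lit 3631008068) (nat_lit 380) (nat_lit 1340899966) (nat_lit 456) (nat_lit 2653601938) (nat_lit 89) (nat_lit 5) (nat_lit 94) (nat_lit 5) (nat_lit 95) (nat_lit 5) (nat_lit 312) (nat_lit 297) (nat_lit 291)) (XT.lf (nat_lit 0) (nat_lit 1934714565) (nat_lit 380) (nat_lit 3591512203) (nat_lit 76) (nat_lit 2327482971) (nat_lit 84) (nat_lit 5) (nat_lit 89) (nat_lit 5) (nat_lit 85) (nat_lit 5) (nat_lit 313) (nat_lit 297) (nat_lit 290)))) (XT.nd (nat_lit 78) (nat_lit 684) (nat_lit 0) (XT.lf (nat_lit 0) (nat_lit 4952220301) (nat_lit 380) (nat_lit 1705456072)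 (nat_lit 456) (nat_lit 1447696097) (nat_lit 79) (nat_lit 5) (nat_lit 84) (nat_lit 5) (nat_lit 85) (nat_lit 5) (nat_lit 314) (nat_lit 297) (nat_lit 289)) (XT.nd (nat_lit 78) (nat_lit 304) (nat_lit 0) (XT.lf (nat_lit 0) (nat_lit 3167101109) (nat_lit 380) (nat_lit 2717651239) (nat_lit 76) (nat_lit 2495436567) (nat_lit 74) (nat_lit 5) (nat_lit 79) (nat_lit 5) (nat_lit 75) (nat_lit 5) (nat_lit 315) (nat_lit 297) (nat_lit 288)) (XT.lf (nat_lit 0) (nat_lit 6417575151) (nat_lit 304) (nat_lit 1585219280) (nat_lit 380) (nat_lit 678222368) (nat_lit 70) (nat_lit 5) (nat_lit 74) (nat_lit 5) (nat_lit 75) (nat_lit 5) (nat_lit 316) (nat_lit 297) (nat_lit 287)))))) (XT.nd (nat_lit 390) (nat_lit 1292) (nat_lit 0) (XT.nd (nat_lit 156) (nat_lit 760) (nat_lit 0) (XT.nd (nat_lit 78) (nat_lit 304) (nat_lit 0) (XT.lf (nat_lit 0) (nat_lit 4022970365) (nat_lit 304) (nat_lit 1867544136) (nat_lit 76) (nat_lit 3115468114)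 (nat_lit 66) (nat_lit 5) (nat_lit 70) (nat_lit 5) (nat_lit 67) (nat_lit 5) (nat_lit 317) (nat_lit 297) (nat_lit 286)) (XT.lf (nat_lit 0) (nat_lit 7885731158) (nat_lit 304) (nat_lit 1122681166) (nat_lit 380) (nat_lit 351654711) (nat_lit 62) (nat_lit 5) (nat_lit 66) (nat_lit 5) (nat_lit 67) (nat_lit 5) (nat_lit 318) (nat_lit 297) (nat_lit 285))) (XT.nd (nat_lit 78) (nat_lit 456) (nat_lit 0) (XT.lf (nat_lit 0) (nat_lit 4485605153) (nat_lit 304) (nat_lit 1200638914) (nat_lit 76) (nat_lit 4053633293) (nat_lit 58) (nat_lit 5) (nat_lit 62) (nat_lit 5) (nat_lit 59) (nat_lit 5) (nat_lit 319) (nat_lit 297) (nat_lit 284)) (XT.nd (nat_lit 78) (nat_lit 228) (nat_lit 0) (XT.lf (nat_lit 0) (nat_lit 9191236920) (nat_lit 228) (nat_lit 458323795) (nat_lit 304) (nat_lit 502844727) (nat_lit 55) (nat_lit 5) (nat_lit 58) (nat_lit 5) (nat_lit 59) (nat_lit 5) (nat_lit 320) (nat_lit 297) (nat_lit 283)) (XT.lf (nat_lit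 0) (nat_lit 4509819750) (nat_lit 228) (nat_lit 908662559) (nat_lit 76) (nat_lit 5174573204) (nat_lit 52) (nat_lit 5) (nat_lit 55) (nat_lit 5) (nat_lit 53) (nat_lit 5) (nat_lit 321) (nat_lit 297) (nat_lit 282))))) (XT.nd (nat_lit 234) (nat_lit 608) (nat_lit 0) (XT.nd (nat_lit 78) (nat_lit 456) (nat_lit 0) (XT.lf (nat_lit 0) (nat_lit 9875545277) (nat_lit 304) (nat_lit 942656039) (nat_lit 76) (nat_lit 252042879) (nat_lit 49) (nat_lit 5) (nat_lit 53) (nat_lit 5) (nat_lit 50) (nat_lit 4) (nat_lit 322) (nat_lit 297) (nat_lit 281)) (XT.nd (nat_lit 78) (nat_lit 228) (nat_lit 0) (XT.lf (nat_lit 0) (nat_lit 4017235254) (nat_lit 228) (nat_lit 1229831463) (nat_lit 76) (nat_lit 6332360051) (nat_lit 46) (nat_lit 5) (nat_lit 49) (nat_lit 5) (nat_lit 47) (nat_lit 5) (nat_lit 323) (nat_lit 297) (nat_lit 280)) (XT.lf (nat_lit 0) (nat_lit 9597641989) (nat_lit 304) (nat_lit 1690060434) (nat_lit 76) (nat_lit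 841142178) (nat_lit 43) (nat_lit 5) (nat_lit 47) (nat_lit 5) (nat_lit 44) (nat_lit 4) (nat_lit 324) (nat_lit 297) (nat_lit 279)))) (XT.nd (nat_lit 78) (nat_lit 380) (nat_lit 0) (XT.lf (nat_lit 0) (nat_lit 2889462616) (nat_lit 228) (nat_lit 2466487945) (nat_lit 76) (nat_lit 7360126347) (nat_lit 40) (nat_lit 5) (nat_lit 43) (nat_lit 5) (nat_lit 41) (nat_lit 5) (nat_lit 325) (nat_lit 297) (nat_lit 278)) (XT.nd (nat_lit 78) (nat_lit 228) (nat_lit 0) (XT.lf (nat_lit 0) (nat_lit 8672429545) (nat_lit 228) (nat_lit 3538255146) (nat_lit 76) (nat_lit 1136783236) (nat_lit 38) (nat_lit 5) (nat_lit 41) (nat_lit 5) (nat_lit 39) (nat_lit 4) (nat_lit 326) (nat_lit 297) (nat_lit 277)) (XT.lf (nat_lit 0) (nat_lit 958716555) (nat_lit 228) (nat_lit 5007295229) (nat_lit 76) (nat_lit 8057846946) (nat_lit 35) (nat_lit 5) (nat_lit 38) (nat_lit 5) (nat_lit 36) (nat_lit 5) (nat_lit 327) (nat_lit 297) (nat_lit 276)))))))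 (XT.nd (nat_lit 858) (nat_lit 608) (nat_lit 0) (XT.nd (nat_lit 390) (nat_lit 684) (nat_lit 0) (XT.nd (nat_lit 156) (nat_lit 304) (nat_lit 0) (XT.nd (nat_lit 78) (nat_lit 76) (nat_lit 0) (XT.lf (nat_lit 0) (nat_lit 6909184921) (nat_lit 228) (nat_lit 6928944343) (nat_lit 76) (nat_lit 911008444) (nat_lit 33) (nat_lit 5) (nat_lit 36) (nat_lit 5) (nat_lit 34) (nat_lit 4) (nat_lit 328) (nat_lit 297) (nat_lit 275)) (XT.lf (nat_lit 0) (nat_lit 6138783076) (nat_lit 76) (nat_lit 7316694503) (nat_lit 152) (nat_lit 2071063832) (nat_lit 32) (nat_lit 5) (nat_lit 33) (nat_lit 5) (nat_lit 34) (nat_lit 4) (nat_lit 329) (nat_lit 297) (nat_lit 274))) (XT.nd (nat_lit 78) (nat_lit 76) (nat_lit 0) (XT.lf (nat_lit 0) (nat_lit 3924478537) (nat_lit 152) (nat_lit 125772256) (nat_lit 228) (nat_lit 12311518618) (nat_lit 29) (nat_lit 5) (nat_lit 31) (nat_lit 5) (nat_lit 32) (nat_lit 5) (nat_lit 330) (nat_lit 297) (nat_lit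 273)) (XT.nd (nat_lit 78) (nat_lit 0) (nat_lit 0) (XT.lf (nat_lit 0) (nat_lit 988477891) (nat_lit 76) (nat_lit 9748276861) (nat_lit 152) (nat_lit 6518036011) (nat_lit 28) (nat_lit 5) (nat_lit 29) (nat_lit 5) (nat_lit 30) (nat_lit 4) (nat_lit 331) (nat_lit 297) (nat_lit 272)) (XT.lf (nat_lit 0) (nat_lit 15674319253) (nat_lit 76) (nat_lit 2356140186) (nat_lit 152) (nat_lit 185249729) (nat_lit 28) (nat_lit 5) (nat_lit 29) (nat_lit 5) (nat_lit 30) (nat_lit 4) (nat_lit 332) (nat_lit 297) (nat_lit 271))))) (XT.nd (nat_lit 234) (nat_lit 152) (nat_lit 0) (XT.nd (nat_lit 78) (nat_lit 304) (nat_lit 0) (XT.lf (nat_lit 0) (nat_lit 6586908313) (nat_lit 228) (nat_lit 7006031655) (nat_lit 76) (nat_lit 5648141568) (nat_lit 25) (nat_lit 5) (nat_lit 28) (nat_lit 5) (nat_lit 26) (nat_lit 4) (nat_lit 333) (nat_lit 297) (nat_lit 270)) (XT.nd (nat_lit 78) (nat_lit 228) (nat_lit 0) (XT.lf (nat_lit 0) (nat_lit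 7911572577) (nat_lit 76) (nat_lit 6058264278) (nat_lit 152) (nat_lit 6374777225) (nat_lit 24) (nat_lit 5) (nat_lit 25) (nat_lit 5) (nat_lit 26) (nat_lit 4) (nat_lit 334) (nat_lit 297) (nat_lit 269)) (XT.lf (nat_lit 0) (nat_lit 463391704) (nat_lit 228) (nat_lit 18981369490) (nat_lit 76) (nat_lit 2087927941) (nat_lit 21) (nat_lit 5) (nat_lit 24) (nat_lit 5) (nat_lit 22) (nat_lit 4) (nat_lit 335) (nat_lit 297) (nat_lit 268)))) (XT.nd (nat_lit 78) (nat_lit 152) (nat_lit 0) (XT.lf (nat_lit 0) (nat_lit 7826450275) (nat_lit 228) (nat_lit 4064608791) (nat_lit 76) (nat_lit 10909513280) (nat_lit 21) (nat_lit 5) (nat_lit 24) (nat_lit 5) (nat_lit 22) (nat_lit 4) (nat_lit 336) (nat_lit 297) (nat_lit 267)) (XT.nd (nat_lit 78) (nat_lit 76) (nat_lit 0) (XT.lf (nat_lit 0) (nat_lit 12228699788) (nat_lit 76) (nat_lit 3625881761) (nat_lit 152) (nat_lit 8311546087) (nat_lit 20) (nat_lit 5) (nat_lit 21) (nat_lit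 5) (nat_lit 22) (nat_lit 4) (nat_lit 337) (nat_lit 297) (nat_lit 266)) (XT.lf (nat_lit 0) (nat_lit 4179841321) (nat_lit 76) (nat_lit 20454206239) (nat_lit 76) (nat_lit 1001465224) (nat_lit 19) (nat_lit 4) (nat_lit 20) (nat_lit 5) (nat_lit 20) (nat_lit 4) (nat_lit 338) (nat_lit 297) (nat_lit 265)))))) (XT.nd (nat_lit 390) (nat_lit 228) (nat_lit 0) (XT.nd (nat_lit 156) (nat_lit 228) (nat_lit 0) (XT.nd (nat_lit 78) (nat_lit 76) (nat_lit 0) (XT.lf (nat_lit 0) (nat_lit 6837795884) (nat_lit 152) (nat_lit 5569461988) (nat_lit 76) (nat_lit 14801594236) (nat_lit 18) (nat_lit 5) (nat_lit 20) (nat_lit 5) (nat_lit 19) (nat_lit 4) (nat_lit 339) (nat_lit 297) (nat_lit 264)) (XT.lf (nat_lit 0) (nat_lit 11763933954) (nat_lit 76) (nat_lit 3589792443) (nat_lit 152) (nat_lit 13549312933) (nat_lit 17) (nat_lit 5) (nat_lit 18) (nat_lit 5) (nat_lit 19) (nat_lit 4) (nat_lit 340) (nat_lit 297) (nat_lit 263)))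 (XT.nd (nat_lit 78) (nat_lit 228) (nat_lit 0) (XT.lf (nat_lit 0) (nat_lit 24646025279) (nat_lit 152) (nat_lit 318140731) (nat_lit 0) (nat_lit 5763870798) (nat_lit 17) (nat_lit 5) (nat_lit 19) (nat_lit 4) (nat_lit 17) (nat_lit 4) (nat_lit 341) (nat_lit 297) (nat_lit 262)) (XT.nd (nat_lit 78) (nat_lit 76) (nat_lit 0) (XT.lf (nat_lit 0) (nat_lit 2179120220) (nat_lit 152) (nat_lit 14516419267) (nat_lit 76) (nat_lit 15988978065) (nat_lit 15) (nat_lit 5) (nat_lit 17) (nat_lit 5) (nat_lit 16) (nat_lit 4) (nat_lit 342) (nat_lit 297) (nat_lit 261)) (XT.lf (nat_lit 0) (nat_lit 3185341966) (nat_lit 76) (nat_lit 7674610852) (nat_lit 152) (nat_lit 23934008441) (nat_lit 14) (nat_lit 5) (nat_lit 15) (nat_lit 5) (nat_lit 16) (nat_lit 4) (nat_lit 343) (nat_lit 297) (nat_lit 260))))) (XT.nd (nat_lit 234) (nat_lit 76) (nat_lit 0) (XT.nd (nat_lit 78) (nat_lit 152) (nat_lit 0) (XT.lf (nat_lit 0) (nat_lit 20441093096)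 (nat_lit 152) (nat_lit 14431655326) (nat_lit 0) (nat_lit 2189142648) (nat_lit 14) (nat_lit 5) (nat_lit 16) (nat_lit 4) (nat_lit 14) (nat_lit 4) (nat_lit 344) (nat_lit 297) (nat_lit 259)) (XT.nd (nat_lit 78) (nat_lit 76) (nat_lit 0) (XT.lf (nat_lit 0) (nat_lit 3971497908) (nat_lit 76) (nat_lit 26931364847) (nat_lit 76) (nat_lit 8602706587) (nat_lit 13) (nat_lit 4) (nat_lit 14) (nat_lit 5) (nat_lit 14) (nat_lit 4) (nat_lit 345) (nat_lit 297) (nat_lit 258)) (XT.lf (nat_lit 0) (nat_lit 235569571) (nat_lit 152) (nat_lit 17916766391) (nat_lit 76) (nat_lit 23983352230) (nat_lit 12) (nat_lit 5) (nat_lit 14) (nat_lit 5) (nat_lit 13) (nat_lit 4) (nat_lit 346) (nat_lit 297) (nat_lit 257)))) (XT.nd (nat_lit 78) (nat_lit 0) (nat_lit 0) (XT.lf (nat_lit 0) (nat_lit 861093941) (nat_lit 76) (nat_lit 8566487784) (nat_lit 152) (nat_lit 35544197016) (nat_lit 11) (nat_lit 5) (nat_lit 12) (nat_lit 5) (nat_lit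 13) (nat_lit 4) (nat_lit 347) (nat_lit 297) (nat_lit 256)) (XT.nd (nat_lit 78) (nat_lit 0) (nat_lit 0) (XT.lf (nat_lit 0) (nat_lit 19632907297) (nat_lit 152) (nat_lit 26399195166) (nat_lit 0) (nat_lit 1988772315) (nat_lit 11) (nat_lit 5) (nat_lit 13) (nat_lit 4) (nat_lit 11) (nat_lit 4) (nat_lit 348) (nat_lit 297) (nat_lit 255)) (XT.lf (nat_lit 0) (nat_lit 30736929190) (nat_lit 152) (nat_lit 7533773924) (nat_lit 0) (nat_lit 13039096558) (nat_lit 11) (nat_lit 5) (nat_lit 13) (nat_lit 4) (nat_lit 11) (nat_lit 4) (nat_lit 349) (nat_lit 297) (nat_lit 254))))))))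
noncomputable def xc42 : XT := (XT.nd (nat_lit 1716) (nat_lit 152) (nat_lit 0) (XT.nd (nat_lit 858) (nat_lit 76) (nat_lit 0) (XT.nd (nat_lit 390) (nat_lit 228) (nat_lit 0) (XT.nd (nat_lit 156) (nat_lit 152) (nat_lit 0) (XT.nd (nat_lit 78) (nat_lit 0) (nat_lit 0) (XT.lf (nat_lit 0) (nat_lit 13152069248) (nat_lit 76) (nat_lit 29724973545) (nat_lit 76) (nat_lit 11977420868) (nat_lit 10) (nat_lit 4) (nat_lit 11) (nat_lit 5) (nat_lit 11) (nat_lit 4) (nat_lit 350) (nat_lit 297) (nat_lit 253)) (XT.lf (nat_lit 0) (nat_lit 35656818430) (nat_lit 76) (nat_lit 20407835142) (nat_lit 76) (nat_lit 2614245386) (nat_lit 10) (nat_lit 4) (nat_lit 11) (nat_lit 5) (nat_lit 11) (nat_lit 4) (nat_lit 351) (nat_lit 297) (nat_lit 252))) (XT.nd (nat_lit 78) (nat_lit 76) (nat_lit 0) (XT.lf (nat_lit 0) (nat_lit 7206281142) (nat_lit 152) (nat_lit 3063340340) (nat_lit 76) (nat_lit 52536411509) (nat_lit 9) (nat_lit 5)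 (nat_lit 11) (nat_lit 5) (nat_lit 10) (nat_lit 4) (nat_lit 352) (nat_lit 297) (nat_lit 251)) (XT.nd (nat_lit 78) (nat_lit 0) (nat_lit 0) (XT.lf (nat_lit 0) (nat_lit 17985770453) (nat_lit 152) (nat_lit 48300881655) (nat_lit 0) (nat_lit 961307542) (nat_lit 8) (nat_lit 5) (nat_lit 10) (nat_lit 4) (nat_lit 8) (nat_lit 4) (nat_lit 353) (nat_lit 297) (nat_lit 250)) (XT.lf (nat_lit 0) (nat_lit 29808655064) (nat_lit 152) (nat_lit 29478156384) (nat_lit 0) (nat_lit 12749386707) (nat_lit 8) (nat_lit 5) (nat_lit 10) (nat_lit 4) (nat_lit 8) (nat_lit 4) (nat_lit 354) (nat_lit 297) (nat_lit 249))))) (XT.nd (nat_lit 234) (nat_lit 152) (nat_lit 0) (XT.nd (nat_lit 78) (nat_lit 76) (nat_lit 0) (XT.lf (nat_lit 0) (nat_lit 42534440247) (nat_lit 152) (nat_lit 9232266193) (nat_lit 0) (nat_lit 25442944626) (nat_lit 8) (nat_lit 5) (nat_lit 10) (nat_lit 4) (nat_lit 8) (nat_lit 4) (nat_lit 355) (nat_lit 297) (nat_lit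 248)) (XT.nd (nat_lit 78) (nat_lit 0) (nat_lit 0) (XT.lf (nat_lit 0) (nat_lit 12971947906) (nat_lit 76) (nat_lit 43469118617) (nat_lit 76) (nat_lit 26347782936) (nat_lit 7) (nat_lit 4) (nat_lit 8) (nat_lit 5) (nat_lit 8) (nat_lit 4) (nat_lit 356) (nat_lit 297) (nat_lit 247)) (XT.lf (nat_lit 0) (nat_lit 37208975661) (nat_lit 76) (nat_lit 34374118707) (nat_lit 76) (nat_lit 17225153341) (nat_lit 7) (nat_lit 4) (nat_lit 8) (nat_lit 5) (nat_lit 8) (nat_lit 4) (nat_lit 357) (nat_lit 297) (nat_lit 246)))) (XT.nd (nat_lit 78) (nat_lit 152) (nat_lit 0) (XT.lf (nat_lit 0) (nat_lit 63317183487) (nat_lit 76) (nat_lit 24584163310) (nat_lit 76) (nat_lit 7409614902) (nat_lit 7) (nat_lit 4) (nat_lit 8) (nat_lit 5) (nat_lit 8) (nat_lit 4) (nat_lit 358) (nat_lit 297) (nat_lit 245)) (XT.nd (nat_lit 78) (nat_lit 76) (nat_lit 0) (XT.lf (nat_lit 0) (nat_lit 3055954864) (nat_lit 152) (nat_lit 10933528936) (nat_lit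 76) (nat_lit 88343577751) (nat_lit 6) (nat_lit 5) (nat_lit 8) (nat_lit 5) (nat_lit 7) (nat_lit 4) (nat_lit 359) (nat_lit 297) (nat_lit 244)) (XT.lf (nat_lit 0) (nat_lit 12011926744) (nat_lit 76) (nat_lit 2247632518) (nat_lit 152) (nat_lit 95643283097) (nat_lit 5) (nat_lit 5) (nat_lit 6) (nat_lit 5) (nat_lit 7) (nat_lit 4) (nat_lit 360) (nat_lit 297) (nat_lit 243)))))) (XT.nd (nat_lit 390) (nat_lit 76) (nat_lit 0) (XT.nd (nat_lit 156) (nat_lit 0) (nat_lit 0) (XT.nd (nat_lit 78) (nat_lit 0) (nat_lit 0) (XT.lf (nat_lit 0) (nat_lit 26686260782) (nat_lit 152) (nat_lit 81108852143) (nat_lit 0) (nat_lit 10266757556) (nat_lit 5) (nat_lit 5) (nat_lit 7) (nat_lit 4) (nat_lit 5) (nat_lit 4) (nat_lit 361) (nat_lit 297) (nat_lit 242)) (XT.lf (nat_lit 0) (nat_lit 40117529389) (nat_lit 152) (nat_lit 63075457509) (nat_lit 0) (nat_lit 23680117307) (nat_lit 5) (nat_lit 5) (nat_lit 7) (nat_lit 4) (nat_lit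 5) (nat_lit 4) (nat_lit 362) (nat_lit 297) (nat_lit 241))) (XT.nd (nat_lit 78) (nat_lit 0) (nat_lit 0) (XT.lf (nat_lit 0) (nat_lit 54597865944) (nat_lit 152) (nat_lit 43648775308) (nat_lit 0) (nat_lit 38143871588) (nat_lit 5) (nat_lit 5) (nat_lit 7) (nat_lit 4) (nat_lit 5) (nat_lit 4) (nat_lit 363) (nat_lit 297) (nat_lit 240)) (XT.nd (nat_lit 78) (nat_lit 0) (nat_lit 0) (XT.lf (nat_lit 0) (nat_lit 70213079848) (nat_lit 152) (nat_lit 22713684462) (nat_lit 0) (nat_lit 53743731534) (nat_lit 5) (nat_lit 5) (nat_lit 7) (nat_lit 4) (nat_lit 5) (nat_lit 4) (nat_lit 364) (nat_lit 297) (nat_lit 239)) (XT.lf (nat_lit 0) (nat_lit 87055705703) (nat_lit 152) (nat_lit 146125172) (nat_lit 0) (nat_lit 70572140761) (nat_lit 5) (nat_lit 5) (nat_lit 7) (nat_lit 4) (nat_lit 5) (nat_lit 4) (nat_lit 365) (nat_lit 297) (nat_lit 238))))) (XT.nd (nat_lit 234) (nat_lit 0) (nat_lit 0) (XT.nd (nat_lit 78) (nat_lit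 0) (nat_lit 0) (XT.lf (nat_lit 0) (nat_lit 24987388734) (nat_lit 76) (nat_lit 80628286092) (nat_lit 76) (nat_lit 64131557606) (nat_lit 4) (nat_lit 4) (nat_lit 5) (nat_lit 5) (nat_lit 5) (nat_lit 4) (nat_lit 366) (nat_lit 297) (nat_lit 237)) (XT.nd (nat_lit 78) (nat_lit 0) (nat_lit 0) (XT.lf (nat_lit 0) (nat_lit 52099302919) (nat_lit 76) (nat_lit 73544404092) (nat_lit 76) (nat_lit 57035487139) (nat_lit 4) (nat_lit 4) (nat_lit 5) (nat_lit 5) (nat_lit 5) (nat_lit 4) (nat_lit 367) (nat_lit 297) (nat_lit 236)) (XT.lf (nat_lit 0) (nat_lit 81345449020) (nat_lit 76) (nat_lit 65910681014) (nat_lit 76) (nat_lit 49390478444) (nat_lit 4) (nat_lit 4) (nat_lit 5) (nat_lit 5) (nat_lit 5) (nat_lit 4) (nat_lit 368) (nat_lit 297) (nat_lit 235)))) (XT.nd (nat_lit 78) (nat_lit 0) (nat_lit 0) (XT.lf (nat_lit 0) (nat_lit 112899137531) (nat_lit 76) (nat_lit 57681879983) (nat_lit 76) (nat_lit 41151227767) (nat_lit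 4) (nat_lit 4) (nat_lit 5) (nat_lit 5) (nat_lit 5) (nat_lit 4) (nat_lit 369) (nat_lit 297) (nat_lit 234)) (XT.nd (nat_lit 78) (nat_lit 0) (nat_lit 0) (XT.lf (nat_lit 0) (nat_lit 146947353274) (nat_lit 76) (nat_lit 48809237732) (nat_lit 76) (nat_lit 32268909919) (nat_lit 4) (nat_lit 4) (nat_lit 5) (nat_lit 5) (nat_lit 5) (nat_lit 4) (nat_lit 370) (nat_lit 297) (nat_lit 233)) (XT.lf (nat_lit 0) (nat_lit 183691863453) (nat_lit 76) (nat_lit 39240175641) (nat_lit 76) (nat_lit 22690888941) (nat_lit 4) (nat_lit 4) (nat_lit 5) (nat_lit 5) (nat_lit 5) (nat_lit 4) (nat_lit 371) (nat_lit 297) (nat_lit 232))))))) (XT.nd (nat_lit 858) (nat_lit 0) (nat_lit 0) (XT.nd (nat_lit 390) (nat_lit 0) (nat_lit 0) (XT.nd (nat_lit 156) (nat_lit 152) (nat_lit 0) (XT.nd (nat_lit 78) (nat_lit 0) (nat_lit 0) (XT.lf (nat_lit 0) (nat_lit 223350413313) (nat_lit 76) (nat_lit 28917988157) (nat_lit 76) (nat_lit 12360406191)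 (nat_lit 4) (nat_lit 4) (nat_lit 5) (nat_lit 5) (nat_lit 5) (nat_lit 4) (nat_lit 372) (nat_lit 297) (nat_lit 231)) (XT.lf (nat_lit 0) (nat_lit 266158016483) (nat_lit 76) (nat_lit 17781506760) (nat_lit 76) (nat_lit 1216243993) (nat_lit 4) (nat_lit 4) (nat_lit 5) (nat_lit 5) (nat_lit 5) (nat_lit 4) (nat_lit 373) (nat_lit 297) (nat_lit 230))) (XT.nd (nat_lit 78) (nat_lit 0) (nat_lit 0) (XT.lf (nat_lit 0) (nat_lit 5035323951) (nat_lit 76) (nat_lit 5505016815) (nat_lit 152) (nat_lit 296772739588) (nat_lit 2) (nat_lit 5) (nat_lit 3) (nat_lit 5) (nat_lit 4) (nat_lit 4) (nat_lit 374) (nat_lit 297) (nat_lit 229)) (XT.nd (nat_lit 78) (nat_lit 0) (nat_lit 0) (XT.lf (nat_lit 0) (nat_lit 23641736448) (nat_lit 152) (nat_lit 299725651049) (nat_lit 0) (nat_lit 7852251048) (nat_lit 2) (nat_lit 5) (nat_lit 4) (nat_lit 4) (nat_lit 2) (nat_lit 4) (nat_lit 375) (nat_lit 297) (nat_lit 228)) (XT.lf (nat_lit 0)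 (nat_lit 37873806211) (nat_lit 152) (nat_lit 297082274758) (nat_lit 0) (nat_lit 22078513889) (nat_lit 2) (nat_lit 5) (nat_lit 4) (nat_lit 4) (nat_lit 2) (nat_lit 4) (nat_lit 376) (nat_lit 297) (nat_lit 227))))) (XT.nd (nat_lit 234) (nat_lit 0) (nat_lit 0) (XT.nd (nat_lit 78) (nat_lit 0) (nat_lit 0) (XT.lf (nat_lit 0) (nat_lit 53234939507) (nat_lit 152) (nat_lit 294246014339) (nat_lit 0) (nat_lit 37434270405) (nat_lit 2) (nat_lit 5) (nat_lit 4) (nat_lit 4) (nat_lit 2) (nat_lit 4) (nat_lit 377) (nat_lit 297) (nat_lit 226)) (XT.nd (nat_lit 78) (nat_lit 0) (nat_lit 0) (XT.lf (nat_lit 0) (nat_lit 69816165272) (nat_lit 152) (nat_lit 291200062322) (nat_lit 0) (nat_lit 54010517671) (nat_lit 2) (nat_lit 5) (nat_lit 4) (nat_lit 4) (nat_lit 2) (nat_lit 4) (nat_lit 378) (nat_lit 297) (nat_lit 225)) (XT.lf (nat_lit 0) (nat_lit 87715742624) (nat_lit 152) (nat_lit 287926368621) (nat_lit 0) (nat_lit 71905485301)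 (nat_lit 2) (nat_lit 5) (nat_lit 4) (nat_lit 4) (nat_lit 2) (nat_lit 4) (nat_lit 379) (nat_lit 297) (nat_lit 224)))) (XT.nd (nat_lit 78) (nat_lit 0) (nat_lit 0) (XT.lf (nat_lit 0) (nat_lit 107039743131) (nat_lit 152) (nat_lit 284405533570) (nat_lit 0) (nat_lit 91225217547) (nat_lit 2) (nat_lit 5) (nat_lit 4) (nat_lit 4) (nat_lit 2) (nat_lit 4) (nat_lit 380) (nat_lit 297) (nat_lit 223)) (XT.nd (nat_lit 78) (nat_lit 0) (nat_lit 0) (XT.lf (nat_lit 0) (nat_lit 127902679389) (nat_lit 152) (nat_lit 280616692961) (nat_lit 0) (nat_lit 112084201712) (nat_lit 2) (nat_lit 5) (nat_lit 4) (nat_lit 4) (nat_lit 2) (nat_lit 4) (nat_lit 381) (nat_lit 297) (nat_lit 222)) (XT.lf (nat_lit 0) (nat_lit 150428183614) (nat_lit 152) (nat_lit 276537394405) (nat_lit 0) (nat_lit 134606046591) (nat_lit 2) (nat_lit 5) (nat_lit 4) (nat_lit 4) (nat_lit 2) (nat_lit 4) (nat_lit 382) (nat_lit 297) (nat_lit 221)))))) (XT.nd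 (nat_lit 390) (nat_lit 0) (nat_lit 0) (XT.nd (nat_lit 156) (nat_lit 0) (nat_lit 0) (XT.nd (nat_lit 78) (nat_lit 0) (nat_lit 0) (XT.lf (nat_lit 0) (nat_lit 174749740273) (nat_lit 152) (nat_lit 272143464281) (nat_lit 0) (nat_lit 158924214967) (nat_lit 2) (nat_lit 5) (nat_lit 4) (nat_lit 4) (nat_lit 2) (nat_lit 4) (nat_lit 383) (nat_lit 297) (nat_lit 220)) (XT.lf (nat_lit 0) (nat_lit 201011477112) (nat_lit 152) (nat_lit 267408864486) (nat_lit 0) (nat_lit 185182814507) (nat_lit 2) (nat_lit 5) (nat_lit 4) (nat_lit 4) (nat_lit 2) (nat_lit 4) (nat_lit 384) (nat_lit 297) (nat_lit 219))) (XT.nd (nat_lit 78) (nat_lit 0) (nat_lit 0) (XT.lf (nat_lit 0) (nat_lit 229369019236) (nat_lit 152) (nat_lit 262305538130) (nat_lit 0) (nat_lit 213537451724) (nat_lit 2) (nat_lit 5) (nat_lit 4) (nat_lit 4) (nat_lit 2) (nat_lit 4) (nat_lit 385) (nat_lit 297) (nat_lit 218)) (XT.nd (nat_lit 78) (nat_lit 0) (nat_lit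 0) (XT.lf (nat_lit 0) (nat_lit 259990411340) (nat_lit 152) (nat_lit 256803243280) (nat_lit 0) (nat_lit 244156154100) (nat_lit 2) (nat_lit 5) (nat_lit 4) (nat_lit 4) (nat_lit 2) (nat_lit 4) (nat_lit 386) (nat_lit 297) (nat_lit 217)) (XT.lf (nat_lit 0) (nat_lit 293057113525) (nat_lit 152) (nat_lit 250869373745) (nat_lit 0) (nat_lit 277220365796) (nat_lit 2) (nat_lit 5) (nat_lit 4) (nat_lit 4) (nat_lit 2) (nat_lit 4) (nat_lit 387) (nat_lit 297) (nat_lit 216))))) (XT.nd (nat_lit 40326) (nat_lit 0) (nat_lit 10260) (XT.nd (nat_lit 78) (nat_lit 0) (nat_lit 0) (XT.lf (nat_lit 0) (nat_lit 328765076619) (nat_lit 152) (nat_lit 244468765853) (nat_lit 0) (nat_lit 312926022882) (nat_lit 2) (nat_lit 5) (nat_lit 4) (nat_lit 4) (nat_lit 2) (nat_lit 4) (nat_lit 388) (nat_lit 297) (nat_lit 215)) (XT.nd (nat_lit 78) (nat_lit 0) (nat_lit 0) (XT.lf (nat_lit 0) (nat_lit 367325903367) (nat_lit 152) (nat_lit 237563490075)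 (nat_lit 0) (nat_lit 351484714436) (nat_lit 2) (nat_lit 5) (nat_lit 4) (nat_lit 4) (nat_lit 2) (nat_lit 4) (nat_lit 389) (nat_lit 297) (nat_lit 214)) (XT.lf (nat_lit 0) (nat_lit 408968102371) (nat_lit 152) (nat_lit 230112626260) (nat_lit 0) (nat_lit 393124936409) (nat_lit 2) (nat_lit 5) (nat_lit 4) (nat_lit 4) (nat_lit 2) (nat_lit 4) (nat_lit 390) (nat_lit 297) (nat_lit 213)))) (XT.nd (nat_lit 78) (nat_lit 836) (nat_lit 0) (XT.lf (nat_lit 0) (nat_lit 1122164631) (nat_lit 228) (nat_lit 1078828900) (nat_lit 228) (nat_lit 1078828900) (nat_lit 148) (nat_lit 4) (nat_lit 151) (nat_lit 5) (nat_lit 151) (nat_lit 4) (nat_lit 304) (nat_lit 298) (nat_lit 298)) (XT.nd (nat_lit 78) (nat_lit 456) (nat_lit 0) (XT.lf (nat_lit 0) (nat_lit 1798774946) (nat_lit 304) (nat_lit 890098010) (nat_lit 380) (nat_lit 3940787047) (nat_lit 143) (nat_lit 5) (nat_lit 147) (nat_lit 5) (nat_lit 148) (nat_lit 4) (nat_lit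 305) (nat_lit 298) (nat_lit 297)) (XT.lf (nat_lit 0) (nat_lit 777660578) (nat_lit 456) (nat_lit 5216997224) (nat_lit 76) (nat_lit 725297426) (nat_lit 137) (nat_lit 5) (nat_lit 143) (nat_lit 5) (nat_lit 138) (nat_lit 4) (nat_lit 306) (nat_lit 298) (nat_lit 296))))))))
noncomputable def xc43 : XT := (XT.nd (nat_lit 1716) (nat_lit 1900) (nat_lit 0) (XT.nd (nat_lit 858) (nat_lit 2356) (nat_lit 0) (XT.nd (nat_lit 390) (nat_lit 2128) (nat_lit 0) (XT.nd (nat_lit 156) (nat_lit 2204) (nat_lit 0) (XT.nd (nat_lit 78) (nat_lit 608) (nat_lit 0) (XT.lf (nat_lit 0) (nat_lit 1320728458) (nat_lit 456) (nat_lit 4125116312) (nat_lit 532) (nat_lit 1383672734) (nat_lit 131) (nat_lit 5) (nat_lit 137) (nat_lit 5) (nat_lit 138) (nat_lit 4) (nat_lit 307) (nat_lit 298) (nat_lit 295)) (XT.lf (nat_lit 0) (nat_lit 1267946502) (nat_lit 532) (nat_lit 1876299809) (nat_lit 608) (nat_lit 3815636950) (nat_lit 123) (nat_lit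 5) (nat_lit 130) (nat_lit 5) (nat_lit 131) (nat_lit 5) (nat_lit 308) (nat_lit 298) (nat_lit 294))) (XT.nd (nat_lit 78) (nat_lit 1520) (nat_lit 0) (XT.lf (nat_lit 0) (nat_lit 611891291) (nat_lit 684) (nat_lit 5770142045) (nat_lit 76) (nat_lit 729738946) (nat_lit 114) (nat_lit 5) (nat_lit 123) (nat_lit 5) (nat_lit 115) (nat_lit 5) (nat_lit 309) (nat_lit 298) (nat_lit 293)) (XT.nd (nat_lit 78) (nat_lit 836) (nat_lit 0) (XT.lf (nat_lit 0) (nat_lit 1477312099) (nat_lit 684) (nat_lit 3586384315) (nat_lit 760) (nat_lit 2219369409) (nat_lit 105) (nat_lit 5) (nat_lit 114) (nat_lit 5) (nat_lit 115) (nat_lit 5) (nat_lit 310) (nat_lit 298) (nat_lit 292)) (XT.lf (nat_lit 0) (nat_lit 1724130360) (nat_lit 760) (nat_lit 393201091) (nat_lit 836) (nat_lit 5359822720) (nat_lit 94) (nat_lit 5) (nat_lit 104) (nat_lit 5) (nat_lit 105) (nat_lit 5) (nat_lit 311) (nat_lit 298) (nat_lit 291))))) (XT.nd (nat_lit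 234) (nat_lit 988) (nat_lit 0) (XT.nd (nat_lit 78) (nat_lit 760) (nat_lit 0) (XT.lf (nat_lit 0) (nat_lit 2018857982) (nat_lit 380) (nat_lit 4568906873) (nat_lit 456) (nat_lit 1104422363) (nat_lit 89) (nat_lit 5) (nat_lit 94) (nat_lit 5) (nat_lit 95) (nat_lit 5) (nat_lit 312) (nat_lit 298) (nat_lit 290)) (XT.nd (nat_lit 78) (nat_lit 380) (nat_lit 0) (XT.lf (nat_lit 0) (nat_lit 2375076556) (nat_lit 304) (nat_lit 844819541) (nat_lit 380) (nat_lit 4710199157) (nat_lit 84) (nat_lit 5) (nat_lit 88) (nat_lit 5) (nat_lit 89) (nat_lit 5) (nat_lit 313) (nat_lit 298) (nat_lit 289)) (XT.lf (nat_lit 0) (nat_lit 2770402084) (nat_lit 380) (nat_lit 4986604648) (nat_lit 456) (nat_lit 434226118) (nat_lit 79) (nat_lit 5) (nat_lit 84) (nat_lit 5) (nat_lit 85) (nat_lit 5) (nat_lit 314) (nat_lit 298) (nat_lit 288)))) (XT.nd (nat_lit 78) (nat_lit 608) (nat_lit 0) (XT.lf (nat_lit 0) (nat_lit 3181326532) (nat_lit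 304) (nat_lit 754108109) (nat_lit 380) (nat_lit 4540619215) (nat_lit 74) (nat_lit 5) (nat_lit 78) (nat_lit 5) (nat_lit 79) (nat_lit 5) (nat_lit 315) (nat_lit 298) (nat_lit 287)) (XT.nd (nat_lit 78) (nat_lit 304) (nat_lit 0) (XT.lf (nat_lit 0) (nat_lit 3603922694) (nat_lit 304) (nat_lit 4985511939) (nat_lit 380) (nat_lit 196680626) (nat_lit 70) (nat_lit 5) (nat_lit 74) (nat_lit 5) (nat_lit 75) (nat_lit 5) (nat_lit 316) (nat_lit 298) (nat_lit 286)) (XT.lf (nat_lit 0) (nat_lit 4007480462) (nat_lit 228) (nat_lit 260556441) (nat_lit 304) (nat_lit 4853852668) (nat_lit 66) (nat_lit 5) (nat_lit 69) (nat_lit 5) (nat_lit 70) (nat_lit 5) (nat_lit 317) (nat_lit 298) (nat_lit 285)))))) (XT.nd (nat_lit 390) (nat_lit 1064) (nat_lit 0) (XT.nd (nat_lit 156) (nat_lit 684) (nat_lit 0) (XT.nd (nat_lit 78) (nat_lit 304) (nat_lit 0) (XT.lf (nat_lit 0) (nat_lit 4376517167) (nat_lit 304) (nat_lit 4703110198) (nat_lit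 380) (nat_lit 405160743) (nat_lit 62) (nat_lit 5) (nat_lit 66) (nat_lit 5) (nat_lit 67) (nat_lit 5) (nat_lit 318) (nat_lit 298) (nat_lit 284)) (XT.lf (nat_lit 0) (nat_lit 4204557665) (nat_lit 304) (nat_lit 5185941560) (nat_lit 76) (nat_lit 485710855) (nat_lit 58) (nat_lit 5) (nat_lit 62) (nat_lit 5) (nat_lit 59) (nat_lit 5) (nat_lit 319) (nat_lit 298) (nat_lit 283))) (XT.nd (nat_lit 78) (nat_lit 456) (nat_lit 0) (XT.lf (nat_lit 0) (nat_lit 4919911890) (nat_lit 228) (nat_lit 4276561441) (nat_lit 304) (nat_lit 1100966067) (nat_lit 55) (nat_lit 5) (nat_lit 58) (nat_lit 5) (nat_lit 59) (nat_lit 5) (nat_lit 320) (nat_lit 298) (nat_lit 282)) (XT.nd (nat_lit 78) (nat_lit 228) (nat_lit 0) (XT.lf (nat_lit 0) (nat_lit 3694229371) (nat_lit 228) (nat_lit 5705169715) (nat_lit 76) (nat_lit 1351075447) (nat_lit 52) (nat_lit 5) (nat_lit 55) (nat_lit 5) (nat_lit 53) (nat_lit 5) (nat_lit 321) (nat_lit 298)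 (nat_lit 281)) (XT.lf (nat_lit 0) (nat_lit 5027872190) (nat_lit 228) (nat_lit 3851478203) (nat_lit 304) (nat_lit 2357424077) (nat_lit 49) (nat_lit 5) (nat_lit 52) (nat_lit 5) (nat_lit 53) (nat_lit 5) (nat_lit 322) (nat_lit 298) (nat_lit 280))))) (XT.nd (nat_lit 234) (nat_lit 380) (nat_lit 0) (XT.nd (nat_lit 78) (nat_lit 456) (nat_lit 0) (XT.lf (nat_lit 0) (nat_lit 2648797374) (nat_lit 228) (nat_lit 6911054872) (nat_lit 76) (nat_lit 2199230283) (nat_lit 46) (nat_lit 5) (nat_lit 49) (nat_lit 5) (nat_lit 47) (nat_lit 5) (nat_lit 323) (nat_lit 298) (nat_lit 279)) (XT.nd (nat_lit 78) (nat_lit 228) (nat_lit 0) (XT.lf (nat_lit 0) (nat_lit 4440714805) (nat_lit 228) (nat_lit 3591735903) (nat_lit 304) (nat_lit 4285953486) (nat_lit 43) (nat_lit 5) (nat_lit 46) (nat_lit 5) (nat_lit 47) (nat_lit 5) (nat_lit 324) (nat_lit 298) (nat_lit 278)) (XT.lf (nat_lit 0) (nat_lit 944147877) (nat_lit 228) (nat_lit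 9111844966) (nat_lit 76) (nat_lit 2863408175) (nat_lit 40) (nat_lit 5) (nat_lit 43) (nat_lit 5) (nat_lit 41) (nat_lit 5) (nat_lit 325) (nat_lit 298) (nat_lit 277)))) (XT.nd (nat_lit 78) (nat_lit 228) (nat_lit 0) (XT.lf (nat_lit 0) (nat_lit 2825929919) (nat_lit 152) (nat_lit 3690915619) (nat_lit 228) (nat_lit 7044513985) (nat_lit 38) (nat_lit 5) (nat_lit 40) (nat_lit 5) (nat_lit 41) (nat_lit 5) (nat_lit 326) (nat_lit 298) (nat_lit 276)) (XT.nd (nat_lit 78) (nat_lit 76) (nat_lit 0) (XT.lf (nat_lit 0) (nat_lit 1522388384) (nat_lit 152) (nat_lit 11082956545) (nat_lit 228) (nat_lit 1645934526) (nat_lit 36) (nat_lit 5) (nat_lit 38) (nat_lit 5) (nat_lit 39) (nat_lit 4) (nat_lit 327) (nat_lit 298) (nat_lit 275)) (XT.lf (nat_lit 0) (nat_lit 4143590518) (nat_lit 228) (nat_lit 238453780) (nat_lit 76) (nat_lit 10606524303) (nat_lit 35) (nat_lit 5) (nat_lit 38) (nat_lit 5) (nat_lit 36) (nat_lit 5) (nat_lit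 328) (nat_lit 298) (nat_lit 274))))))) (XT.nd (nat_lit 858) (nat_lit 608) (nat_lit 0) (XT.nd (nat_lit 390) (nat_lit 532) (nat_lit 0) (XT.nd (nat_lit 156) (nat_lit 456) (nat_lit 0) (XT.nd (nat_lit 78) (nat_lit 152) (nat_lit 0) (XT.lf (nat_lit 0) (nat_lit 10448126360) (nat_lit 228) (nat_lit 2420140806) (nat_lit 76) (nat_lit 2909833823) (nat_lit 33) (nat_lit 5) (nat_lit 36) (nat_lit 5) (nat_lit 34) (nat_lit 4) (nat_lit 329) (nat_lit 298) (nat_lit 273)) (XT.lf (nat_lit 0) (nat_lit 723514292) (nat_lit 152) (nat_lit 5163800845) (nat_lit 76) (nat_lit 10737200464) (nat_lit 31) (nat_lit 5) (nat_lit 33) (nat_lit 5) (nat_lit 32) (nat_lit 5) (nat_lit 330) (nat_lit 298) (nat_lit 272))) (XT.nd (nat_lit 78) (nat_lit 304) (nat_lit 0) (XT.lf (nat_lit 0) (nat_lit 7151488683) (nat_lit 228) (nat_lit 8596873853) (nat_lit 76) (nat_lit 1782134246) (nat_lit 29) (nat_lit 5) (nat_lit 32) (nat_lit 5) (nat_lit 30)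 (nat_lit 4) (nat_lit 331) (nat_lit 298) (nat_lit 271)) (XT.nd (nat_lit 78) (nat_lit 228) (nat_lit 0) (XT.lf (nat_lit 0) (nat_lit 5690787225) (nat_lit 76) (nat_lit 8550551146) (nat_lit 152) (nat_lit 4260300444) (nat_lit 28) (nat_lit 5) (nat_lit 29) (nat_lit 5) (nat_lit 30) (nat_lit 4) (nat_lit 332) (nat_lit 298) (nat_lit 270)) (XT.lf (nat_lit 0) (nat_lit 1676311597) (nat_lit 152) (nat_lit 647145375) (nat_lit 228) (nat_lit 17222703973) (nat_lit 25) (nat_lit 5) (nat_lit 27) (nat_lit 5) (nat_lit 28) (nat_lit 5) (nat_lit 333) (nat_lit 298) (nat_lit 269))))) (XT.nd (nat_lit 234) (nat_lit 228) (nat_lit 0) (XT.nd (nat_lit 78) (nat_lit 304) (nat_lit 0) (XT.lf (nat_lit 0) (nat_lit 9513623363) (nat_lit 228) (nat_lit 3300487431) (nat_lit 76) (nat_lit 7845246016) (nat_lit 25) (nat_lit 5) (nat_lit 28) (nat_lit 5) (nat_lit 26) (nat_lit 4) (nat_lit 334) (nat_lit 298) (nat_lit 268)) (XT.nd (nat_lit 78)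 (nat_lit 228) (nat_lit 0) (XT.lf (nat_lit 0) (nat_lit 12625128816) (nat_lit 76) (nat_lit 4748007274) (nat_lit 152) (nat_lit 4483814161) (nat_lit 24) (nat_lit 5) (nat_lit 25) (nat_lit 5) (nat_lit 26) (nat_lit 4) (nat_lit 335) (nat_lit 298) (nat_lit 267)) (XT.lf (nat_lit 0) (nat_lit 2742044844) (nat_lit 228) (nat_lit 16438216379) (nat_lit 76) (nat_lit 3962128553) (nat_lit 21) (nat_lit 5) (nat_lit 24) (nat_lit 5) (nat_lit 22) (nat_lit 4) (nat_lit 336) (nat_lit 298) (nat_lit 266)))) (XT.nd (nat_lit 78) (nat_lit 228) (nat_lit 0) (XT.lf (nat_lit 0) (nat_lit 10528105005) (nat_lit 228) (nat_lit 628978727) (nat_lit 76) (nat_lit 13362983951) (nat_lit 21) (nat_lit 5) (nat_lit 24) (nat_lit 5) (nat_lit 22) (nat_lit 4) (nat_lit 337) (nat_lit 298) (nat_lit 265)) (XT.nd (nat_lit 78) (nat_lit 152) (nat_lit 0) (XT.lf (nat_lit 0) (nat_lit 16804354808) (nat_lit 76) (nat_lit 2296553221) (nat_lit 152) (nat_lit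 6898895601) (nat_lit 20) (nat_lit 5) (nat_lit 21) (nat_lit 5) (nat_lit 22) (nat_lit 4) (nat_lit 338) (nat_lit 298) (nat_lit 264)) (XT.lf (nat_lit 0) (nat_lit 894672266) (nat_lit 152) (nat_lit 19578285034) (nat_lit 76) (nat_lit 7116527380) (nat_lit 18) (nat_lit 5) (nat_lit 20) (nat_lit 5) (nat_lit 19) (nat_lit 4) (nat_lit 339) (nat_lit 298) (nat_lit 263)))))) (XT.nd (nat_lit 468) (nat_lit 304) (nat_lit 0) (XT.nd (nat_lit 234) (nat_lit 152) (nat_lit 0) (XT.nd (nat_lit 78) (nat_lit 152) (nat_lit 0) (XT.lf (nat_lit 0) (nat_lit 9182631886) (nat_lit 152) (nat_lit 2703024860) (nat_lit 76) (nat_lit 17409428112) (nat_lit 18) (nat_lit 5) (nat_lit 20) (nat_lit 5) (nat_lit 19) (nat_lit 4) (nat_lit 340) (nat_lit 298) (nat_lit 262)) (XT.nd (nat_lit 78) (nat_lit 76) (nat_lit 0) (XT.lf (nat_lit 0) (nat_lit 15873107530) (nat_lit 76) (nat_lit 2423020302) (nat_lit 152) (nat_lit 12832907994) (nat_lit 17) (nat_lit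 5) (nat_lit 18) (nat_lit 5) (nat_lit 19) (nat_lit 4) (nat_lit 341) (nat_lit 298) (nat_lit 261)) (XT.lf (nat_lit 0) (nat_lit 2736210873) (nat_lit 76) (nat_lit 25532367871) (nat_lit 76) (nat_lit 4834656062) (nat_lit 16) (nat_lit 4) (nat_lit 17) (nat_lit 5) (nat_lit 17) (nat_lit 4) (nat_lit 342) (nat_lit 298) (nat_lit 260)))) (XT.nd (nat_lit 78) (nat_lit 76) (nat_lit 0) (XT.lf (nat_lit 0) (nat_lit 3912758071) (nat_lit 152) (nat_lit 12763544420) (nat_lit 76) (nat_lit 18544568925) (nat_lit 15) (nat_lit 5) (nat_lit 17) (nat_lit 5) (nat_lit 16) (nat_lit 4) (nat_lit 343) (nat_lit 298) (nat_lit 259)) (XT.nd (nat_lit 78) (nat_lit 0) (nat_lit 0) (XT.lf (nat_lit 0) (nat_lit 6227710636) (nat_lit 76) (nat_lit 6988363659) (nat_lit 152) (nat_lit 24286628224) (nat_lit 14) (nat_lit 5) (nat_lit 15) (nat_lit 5) (nat_lit 16) (nat_lit 4) (nat_lit 344) (nat_lit 298) (nat_lit 258)) (XT.lf (nat_lit 0) (nat_lit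 23472329866) (nat_lit 152) (nat_lit 12954690587) (nat_lit 0) (nat_lit 3529645382) (nat_lit 14) (nat_lit 5) (nat_lit 16) (nat_lit 4) (nat_lit 14) (nat_lit 4) (nat_lit 345) (nat_lit 298) (nat_lit 257))))) (XT.nd (nat_lit 234) (nat_lit 76) (nat_lit 0) (XT.nd (nat_lit 78) (nat_lit 152) (nat_lit 0) (XT.lf (nat_lit 0) (nat_lit 6806353246) (nat_lit 76) (nat_lit 27900583738) (nat_lit 76) (nat_lit 7892134669) (nat_lit 13) (nat_lit 4) (nat_lit 14) (nat_lit 5) (nat_lit 14) (nat_lit 4) (nat_lit 346) (nat_lit 298) (nat_lit 256)) (XT.nd (nat_lit 78) (nat_lit 76) (nat_lit 0) (XT.lf (nat_lit 0) (nat_lit 1508135950) (nat_lit 152) (nat_lit 16977663504) (nat_lit 76) (nat_lit 26957748248) (nat_lit 12) (nat_lit 5) (nat_lit 14) (nat_lit 5) (nat_lit 13) (nat_lit 4) (nat_lit 347) (nat_lit 298) (nat_lit 255)) (XT.lf (nat_lit 0) (nat_lit 3199322120) (nat_lit 76) (nat_lit 8178749516) (nat_lit 152) (nat_lit 37131348659)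 (nat_lit 11) (nat_lit 5) (nat_lit 12) (nat_lit 5) (nat_lit 13) (nat_lit 4) (nat_lit 348) (nat_lit 298) (nat_lit 254)))) (XT.nd (nat_lit 78) (nat_lit 76) (nat_lit 0) (XT.lf (nat_lit 0) (nat_lit 22326722107) (nat_lit 152) (nat_lit 26369753022) (nat_lit 0) (nat_lit 3109645170) (nat_lit 11) (nat_lit 5) (nat_lit 13) (nat_lit 4) (nat_lit 11) (nat_lit 4) (nat_lit 349) (nat_lit 298) (nat_lit 253)) (XT.nd (nat_lit 78) (nat_lit 76) (nat_lit 0) (XT.lf (nat_lit 0) (nat_lit 34235867068) (nat_lit 152) (nat_lit 6153718655) (nat_lit 0) (nat_lit 14972753052) (nat_lit 11) (nat_lit 5) (nat_lit 13) (nat_lit 4) (nat_lit 11) (nat_lit 4) (nat_lit 350) (nat_lit 298) (nat_lit 252)) (XT.lf (nat_lit 0) (nat_lit 16100823759) (nat_lit 76) (nat_lit 31198941251) (nat_lit 76) (nat_lit 11893200310) (nat_lit 10) (nat_lit 4) (nat_lit 11) (nat_lit 5) (nat_lit 11) (nat_lit 4) (nat_lit 351) (nat_lit 298) (nat_lit 251))))))))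
noncomputable def xc44 : XT := (XT.nd (nat_lit 1716) (nat_lit 152) (nat_lit 0) (XT.nd (nat_lit 858) (nat_lit 76) (nat_lit 0) (XT.nd (nat_lit 390) (nat_lit 228) (nat_lit 0) (XT.nd (nat_lit 156) (nat_lit 76) (nat_lit 0) (XT.nd (nat_lit 78) (nat_lit 76) (nat_lit 0) (XT.lf (nat_lit 0) (nat_lit 40265464804) (nat_lit 76) (nat_lit 21203396974) (nat_lit 76) (nat_lit 1858186658) (nat_lit 10) (nat_lit 4) (nat_lit 11) (nat_lit 5) (nat_lit 11) (nat_lit 4) (nat_lit 352) (nat_lit 298) (nat_lit 250)) (XT.lf (nat_lit 0) (nat_lit 8647881766) (nat_lit 152) (nat_lit 1653598412) (nat_lit 76) (nat_lit 57485594792) (nat_lit 9) (nat_lit 5) (nat_lit 11) (nat_lit 5) (nat_lit 10) (nat_lit 4) (nat_lit 353) (nat_lit 298) (nat_lit 249))) (XT.nd (nat_lit 78) (nat_lit 0) (nat_lit 0) (XT.lf (nat_lit 0) (nat_lit 20262183714) (nat_lit 152) (nat_lit 50552421956) (nat_lit 0) (nat_lit 1771141178) (nat_lit 8) (nat_lit 5) (nat_lit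 10) (nat_lit 4) (nat_lit 8) (nat_lit 4) (nat_lit 354) (nat_lit 298) (nat_lit 248)) (XT.nd (nat_lit 78) (nat_lit 0) (nat_lit 0) (XT.lf (nat_lit 0) (nat_lit 32968858232) (nat_lit 152) (nat_lit 30343325347) (nat_lit 0) (nat_lit 14447975637) (nat_lit 8) (nat_lit 5) (nat_lit 10) (nat_lit 4) (nat_lit 8) (nat_lit 4) (nat_lit 355) (nat_lit 298) (nat_lit 247)) (XT.lf (nat_lit 0) (nat_lit 46655260989) (nat_lit 152) (nat_lit 8588362722) (nat_lit 0) (nat_lit 28106748709) (nat_lit 8) (nat_lit 5) (nat_lit 10) (nat_lit 4) (nat_lit 8) (nat_lit 4) (nat_lit 356) (nat_lit 298) (nat_lit 246))))) (XT.nd (nat_lit 234) (nat_lit 152) (nat_lit 0) (XT.nd (nat_lit 78) (nat_lit 0) (nat_lit 0) (XT.lf (nat_lit 0) (nat_lit 15332107402) (nat_lit 76) (nat_lit 46309766354) (nat_lit 76) (nat_lit 27735671032) (nat_lit 7) (nat_lit 4) (nat_lit 8) (nat_lit 5) (nat_lit 8) (nat_lit 4) (nat_lit 357) (nat_lit 298) (nat_lit 245))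 (XT.nd (nat_lit 78) (nat_lit 0) (nat_lit 0) (XT.lf (nat_lit 0) (nat_lit 41410141550) (nat_lit 76) (nat_lit 36534342877) (nat_lit 76) (nat_lit 17936559554) (nat_lit 7) (nat_lit 4) (nat_lit 8) (nat_lit 5) (nat_lit 8) (nat_lit 4) (nat_lit 358) (nat_lit 298) (nat_lit 244)) (XT.lf (nat_lit 0) (nat_lit 69516306163) (nat_lit 76) (nat_lit 26004872924) (nat_lit 76) (nat_lit 7385156266) (nat_lit 7) (nat_lit 4) (nat_lit 8) (nat_lit 5) (nat_lit 8) (nat_lit 4) (nat_lit 359) (nat_lit 298) (nat_lit 243)))) (XT.nd (nat_lit 78) (nat_lit 76) (nat_lit 0) (XT.lf (nat_lit 0) (nat_lit 3853646700) (nat_lit 152) (nat_lit 10740049564) (nat_lit 76) (nat_lit 95898246216) (nat_lit 6) (nat_lit 5) (nat_lit 8) (nat_lit 5) (nat_lit 7) (nat_lit 4) (nat_lit 360) (nat_lit 298) (nat_lit 242)) (XT.nd (nat_lit 78) (nat_lit 0) (nat_lit 0) (XT.lf (nat_lit 0) (nat_lit 13994621565) (nat_lit 76) (nat_lit 1933891197) (nat_lit 152)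 (nat_lit 102740051969) (nat_lit 5) (nat_lit 5) (nat_lit 6) (nat_lit 5) (nat_lit 7) (nat_lit 4) (nat_lit 361) (nat_lit 298) (nat_lit 241)) (XT.lf (nat_lit 0) (nat_lit 29317360245) (nat_lit 152) (nat_lit 86634097381) (nat_lit 0) (nat_lit 11530464066) (nat_lit 5) (nat_lit 5) (nat_lit 7) (nat_lit 4) (nat_lit 5) (nat_lit 4) (nat_lit 362) (nat_lit 298) (nat_lit 240)))))) (XT.nd (nat_lit 390) (nat_lit 0) (nat_lit 0) (XT.nd (nat_lit 156) (nat_lit 76) (nat_lit 0) (XT.nd (nat_lit 78) (nat_lit 0) (nat_lit 0) (XT.lf (nat_lit 0) (nat_lit 43786374889) (nat_lit 152) (nat_lit 67229398801) (nat_lit 0) (nat_lit 25984124752) (nat_lit 5) (nat_lit 5) (nat_lit 7) (nat_lit 4) (nat_lit 5) (nat_lit 4) (nat_lit 363) (nat_lit 298) (nat_lit 239)) (XT.lf (nat_lit 0) (nat_lit 59391105543) (nat_lit 152) (nat_lit 46314663158) (nat_lit 0) (nat_lit 41574638778) (nat_lit 5) (nat_lit 5) (nat_lit 7) (nat_lit 4) (nat_lit 5)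 (nat_lit 4) (nat_lit 364) (nat_lit 298) (nat_lit 238))) (XT.nd (nat_lit 78) (nat_lit 76) (nat_lit 0) (XT.lf (nat_lit 0) (nat_lit 76224024684) (nat_lit 152) (nat_lit 23765951279) (nat_lit 0) (nat_lit 58394394375) (nat_lit 5) (nat_lit 5) (nat_lit 7) (nat_lit 4) (nat_lit 5) (nat_lit 4) (nat_lit 365) (nat_lit 298) (nat_lit 237)) (XT.nd (nat_lit 78) (nat_lit 0) (nat_lit 0) (XT.lf (nat_lit 0) (nat_lit 568556180) (nat_lit 76) (nat_lit 93825203519) (nat_lit 76) (nat_lit 75983384743) (nat_lit 4) (nat_lit 4) (nat_lit 5) (nat_lit 5) (nat_lit 5) (nat_lit 4) (nat_lit 366) (nat_lit 298) (nat_lit 236)) (XT.lf (nat_lit 0) (nat_lit 27663777472) (nat_lit 76) (nat_lit 86749431847) (nat_lit 76) (nat_lit 68896327454) (nat_lit 4) (nat_lit 4) (nat_lit 5) (nat_lit 5) (nat_lit 5) (nat_lit 4) (nat_lit 367) (nat_lit 298) (nat_lit 235))))) (XT.nd (nat_lit 234) (nat_lit 0) (nat_lit 0) (XT.nd (nat_lit 78) (nat_lit 0)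 (nat_lit 0) (XT.lf (nat_lit 0) (nat_lit 56894467189) (nat_lit 76) (nat_lit 79123218333) (nat_lit 76) (nat_lit 61259664295) (nat_lit 4) (nat_lit 4) (nat_lit 5) (nat_lit 5) (nat_lit 5) (nat_lit 4) (nat_lit 368) (nat_lit 298) (nat_lit 234)) (XT.nd (nat_lit 78) (nat_lit 0) (nat_lit 0) (XT.lf (nat_lit 0) (nat_lit 88433844234) (nat_lit 76) (nat_lit 70901370601) (nat_lit 76) (nat_lit 53028140965) (nat_lit 4) (nat_lit 4) (nat_lit 5) (nat_lit 5) (nat_lit 5) (nat_lit 4) (nat_lit 369) (nat_lit 298) (nat_lit 233)) (XT.lf (nat_lit 0) (nat_lit 122468808619) (nat_lit 76) (nat_lit 62035166591) (nat_lit 76) (nat_lit 44152978067) (nat_lit 4) (nat_lit 4) (nat_lit 5) (nat_lit 5) (nat_lit 5) (nat_lit 4) (nat_lit 370) (nat_lit 298) (nat_lit 232)))) (XT.nd (nat_lit 78) (nat_lit 0) (nat_lit 0) (XT.lf (nat_lit 0) (nat_lit 159201049023) (nat_lit 76) (nat_lit 52472065833) (nat_lit 76) (nat_lit 34581582044) (nat_lit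 4) (nat_lit 4) (nat_lit 5) (nat_lit 5) (nat_lit 5) (nat_lit 4) (nat_lit 371) (nat_lit 298) (nat_lit 231)) (XT.nd (nat_lit 78) (nat_lit 0) (nat_lit 0) (XT.lf (nat_lit 0) (nat_lit 198848237980) (nat_lit 76) (nat_lit 42155398102) (nat_lit 76) (nat_lit 24257233511) (nat_lit 4) (nat_lit 4) (nat_lit 5) (nat_lit 5) (nat_lit 5) (nat_lit 4) (nat_lit 372) (nat_lit 298) (nat_lit 230)) (XT.lf (nat_lit 0) (nat_lit 241645321795) (nat_lit 76) (nat_lit 31024027588) (nat_lit 76) (nat_lit 13118751145) (nat_lit 4) (nat_lit 4) (nat_lit 5) (nat_lit 5) (nat_lit 5) (nat_lit 4) (nat_lit 373) (nat_lit 298) (nat_lit 229))))))) (XT.nd (nat_lit 858) (nat_lit 0) (nat_lit 0) (XT.nd (nat_lit 390) (nat_lit 0) (nat_lit 0) (XT.nd (nat_lit 156) (nat_lit 0) (nat_lit 0) (XT.nd (nat_lit 78) (nat_lit 152) (nat_lit 0) (XT.lf (nat_lit 0) (nat_lit 287845912818) (nat_lit 76) (nat_lit 19011990615) (nat_lit 76) (nat_lit 1100129122)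 (nat_lit 4) (nat_lit 4) (nat_lit 5) (nat_lit 5) (nat_lit 5) (nat_lit 4) (nat_lit 374) (nat_lit 298) (nat_lit 228)) (XT.lf (nat_lit 0) (nat_lit 5822793342) (nat_lit 76) (nat_lit 5758061342) (nat_lit 152) (nat_lit 320307376775) (nat_lit 2) (nat_lit 5) (nat_lit 3) (nat_lit 5) (nat_lit 4) (nat_lit 4) (nat_lit 375) (nat_lit 298) (nat_lit 227))) (XT.nd (nat_lit 78) (nat_lit 0) (nat_lit 0) (XT.lf (nat_lit 0) (nat_lit 25718456680) (nat_lit 152) (nat_lit 323341097917) (nat_lit 0) (nat_lit 8648357271) (nat_lit 2) (nat_lit 5) (nat_lit 4) (nat_lit 4) (nat_lit 2) (nat_lit 4) (nat_lit 376) (nat_lit 298) (nat_lit 226)) (XT.nd (nat_lit 78) (nat_lit 0) (nat_lit 0) (XT.lf (nat_lit 0) (nat_lit 41075360075) (nat_lit 152) (nat_lit 320513111169) (nat_lit 0) (nat_lit 24000282166) (nat_lit 2) (nat_lit 5) (nat_lit 4) (nat_lit 4) (nat_lit 2) (nat_lit 4) (nat_lit 377) (nat_lit 298) (nat_lit 225)) (XT.lf (nat_lit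 0) (nat_lit 57652669266) (nat_lit 152) (nat_lit 317474819959) (nat_lit 0) (nat_lit 40572981635) (nat_lit 2) (nat_lit 5) (nat_lit 4) (nat_lit 4) (nat_lit 2) (nat_lit 4) (nat_lit 378) (nat_lit 298) (nat_lit 224))))) (XT.nd (nat_lit 234) (nat_lit 0) (nat_lit 0) (XT.nd (nat_lit 78) (nat_lit 0) (nat_lit 0) (XT.lf (nat_lit 0) (nat_lit 75548620159) (nat_lit 152) (nat_lit 314208219597) (nat_lit 0) (nat_lit 58464664268) (nat_lit 2) (nat_lit 5) (nat_lit 4) (nat_lit 4) (nat_lit 2) (nat_lit 4) (nat_lit 379) (nat_lit 298) (nat_lit 223)) (XT.nd (nat_lit 78) (nat_lit 0) (nat_lit 0) (XT.lf (nat_lit 0) (nat_lit 94869262835) (nat_lit 152) (nat_lit 310693952453) (nat_lit 0) (nat_lit 77781354850) (nat_lit 2) (nat_lit 5) (nat_lit 4) (nat_lit 4) (nat_lit 2) (nat_lit 4) (nat_lit 380) (nat_lit 298) (nat_lit 222)) (XT.lf (nat_lit 0) (nat_lit 115729089990) (nat_lit 152) (nat_lit 306911193239) (nat_lit 0) (nat_lit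 98637522660) (nat_lit 2) (nat_lit 5) (nat_lit 4) (nat_lit 4) (nat_lit 2) (nat_lit 4) (nat_lit 381) (nat_lit 298) (nat_lit 221)))) (XT.nd (nat_lit 78) (nat_lit 0) (nat_lit 0) (XT.lf (nat_lit 0) (nat_lit 138251715415) (nat_lit 152) (nat_lit 302837525604) (nat_lit 0) (nat_lit 121156759801) (nat_lit 2) (nat_lit 5) (nat_lit 4) (nat_lit 4) (nat_lit 2) (nat_lit 4) (nat_lit 382) (nat_lit 298) (nat_lit 220)) (XT.nd (nat_lit 78) (nat_lit 0) (nat_lit 0) (XT.lf (nat_lit 0) (nat_lit 162570606520) (nat_lit 152) (nat_lit 298448809297) (nat_lit 0) (nat_lit 145472513607) (nat_lit 2) (nat_lit 5) (nat_lit 4) (nat_lit 4) (nat_lit 2) (nat_lit 4) (nat_lit 383) (nat_lit 298) (nat_lit 219)) (XT.lf (nat_lit 0) (nat_lit 188829875252) (nat_lit 152) (nat_lit 293719037109) (nat_lit 0) (nat_lit 171728877433) (nat_lit 2) (nat_lit 5) (nat_lit 4) (nat_lit 4) (nat_lit 2) (nat_lit 4) (nat_lit 384) (nat_lit 298) (nat_lit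 218)))))) (XT.nd (nat_lit 390) (nat_lit 0) (nat_lit 0) (XT.nd (nat_lit 156) (nat_lit 0) (nat_lit 0) (XT.nd (nat_lit 78) (nat_lit 0) (nat_lit 0) (XT.lf (nat_lit 0) (nat_lit 217185132092) (nat_lit 152) (nat_lit 288620180760) (nat_lit 0) (nat_lit 200081444545) (nat_lit 2) (nat_lit 5) (nat_lit 4) (nat_lit 4) (nat_lit 2) (nat_lit 4) (nat_lit 385) (nat_lit 298) (nat_lit 217)) (XT.lf (nat_lit 0) (nat_lit 247804408193) (nat_lit 152) (nat_lit 283122024806) (nat_lit 0) (nat_lit 230698230156) (nat_lit 2) (nat_lit 5) (nat_lit 4) (nat_lit 4) (nat_lit 2) (nat_lit 4) (nat_lit 386) (nat_lit 298) (nat_lit 216))) (XT.nd (nat_lit 78) (nat_lit 0) (nat_lit 0) (XT.lf (nat_lit 0) (nat_lit 280869151116) (nat_lit 152) (nat_lit 277191987581) (nat_lit 0) (nat_lit 263760667070) (nat_lit 2) (nat_lit 5) (nat_lit 4) (nat_lit 4) (nat_lit 2) (nat_lit 4) (nat_lit 387) (nat_lit 298) (nat_lit 215)) (XT.nd (nat_lit 78) (nat_lit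 0) (nat_lit 0) (XT.lf (nat_lit 0) (nat_lit 316575300078) (nat_lit 152) (nat_lit 270794928125) (nat_lit 0) (nat_lit 299464680840) (nat_lit 2) (nat_lit 5) (nat_lit 4) (nat_lit 4) (nat_lit 2) (nat_lit 4) (nat_lit 388) (nat_lit 298) (nat_lit 214)) (XT.lf (nat_lit 0) (nat_lit 355134447074) (nat_lit 152) (nat_lit 263892937936) (nat_lit 0) (nat_lit 338021850805) (nat_lit 2) (nat_lit 5) (nat_lit 4) (nat_lit 4) (nat_lit 2) (nat_lit 4) (nat_lit 389) (nat_lit 298) (nat_lit 213))))) (XT.nd (nat_lit 40170) (nat_lit 0) (nat_lit 10260) (XT.nd (nat_lit 40014) (nat_lit 0) (nat_lit 11324) (XT.lf (nat_lit 0) (nat_lit 396775090752) (nat_lit 152) (nat_lit 256445116332) (nat_lit 0) (nat_lit 379660663899) (nat_lit 2) (nat_lit 5) (nat_lit 4) (nat_lit 4) (nat_lit 2) (nat_lit 4) (nat_lit 390) (nat_lit 298) (nat_lit 212)) (XT.nd (nat_lit 78) (nat_lit 228) (nat_lit 0) (XT.lf (nat_lit 0) (nat_lit 1907032689) (nat_lit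 76) (nat_lit 664133948) (nat_lit 76) (nat_lit 664133948) (nat_lit 154) (nat_lit 4) (nat_lit 155) (nat_lit 5) (nat_lit 155) (nat_lit 4) (nat_lit 302) (nat_lit 299) (nat_lit 299)) (XT.lf (nat_lit 0) (nat_lit 2857733740) (nat_lit 152) (nat_lit 590434998) (nat_lit 228) (nat_lit 3061961053) (nat_lit 151) (nat_lit 5) (nat_lit 153) (nat_lit 5) (nat_lit 154) (nat_lit 4) (nat_lit 303) (nat_lit 299) (nat_lit 298)))) (XT.nd (nat_lit 78) (nat_lit 760) (nat_lit 0) (XT.lf (nat_lit 0) (nat_lit 1570778399) (nat_lit 304) (nat_lit 4503806680) (nat_lit 76) (nat_lit 495215977) (nat_lit 147) (nat_lit 5) (nat_lit 151) (nat_lit 5) (nat_lit 148) (nat_lit 4) (nat_lit 304) (nat_lit 299) (nat_lit 297)) (XT.nd (nat_lit 78) (nat_lit 456) (nat_lit 0) (XT.lf (nat_lit 0) (nat_lit 1416621783) (nat_lit 304) (nat_lit 4719412874) (nat_lit 380) (nat_lit 513138641) (nat_lit 143) (nat_lit 5) (nat_lit 147) (nat_lit 5) (nat_lit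 148) (nat_lit 4) (nat_lit 305) (nat_lit 299) (nat_lit 296)) (XT.lf (nat_lit 0) (nat_lit 891901302) (nat_lit 380) (nat_lit 2985540045) (nat_lit 456) (nat_lit 2870639262) (nat_lit 137) (nat_lit 5) (nat_lit 142) (nat_lit 5) (nat_lit 143) (nat_lit 5) (nat_lit 306) (nat_lit 299) (nat_lit 295))))))))
noncomputable def xc45 : XT := (XT.nd (nat_lit 1716) (nat_lit 1824) (nat_lit 0) (XT.nd (nat_lit 858) (nat_lit 2356) (nat_lit 0) (XT.nd (nat_lit 390) (nat_lit 2888) (nat_lit 0) (XT.nd (nat_lit 156) (nat_lit 1444) (nat_lit 0) (XT.nd (nat_lit 78) (nat_lit 532) (nat_lit 0) (XT.lf (nat_lit 0) (nat_lit 513491053) (nat_lit 456) (nat_lit 887683423) (nat_lit 532) (nat_lit 5467124704) (nat_lit 130) (nat_lit 5) (nat_lit 136) (nat_lit 5) (nat_lit 137) (nat_lit 5) (nat_lit 307) (nat_lit 299) (nat_lit 294)) (XT.lf (nat_lit 0) (nat_lit 229435358) (nat_lit 532) (nat_lit 5449789094) (nat_lit 608) (nat_lit 1328949567)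 (nat_lit 123) (nat_lit 5) (nat_lit 130) (nat_lit 5) (nat_lit 131) (nat_lit 5) (nat_lit 308) (nat_lit 299) (nat_lit 293))) (XT.nd (nat_lit 78) (nat_lit 760) (nat_lit 0) (XT.lf (nat_lit 0) (nat_lit 35415003) (nat_lit 608) (nat_lit 2783466847) (nat_lit 684) (nat_lit 4349518793) (nat_lit 114) (nat_lit 5) (nat_lit 122) (nat_lit 5) (nat_lit 123) (nat_lit 5) (nat_lit 309) (nat_lit 299) (nat_lit 292)) (XT.nd (nat_lit 78) (nat_lit 760) (nat_lit 0) (XT.lf (nat_lit 0) (nat_lit 7046797231) (nat_lit 684) (nat_lit 41891778) (nat_lit 76) (nat_lit 262452854) (nat_lit 114) (nat_lit 5) (nat_lit 123) (nat_lit 5) (nat_lit 115) (nat_lit 5) (nat_lit 310) (nat_lit 299) (nat_lit 291)) (XT.lf (nat_lit 0) (nat_lit 3792817026) (nat_lit 760) (nat_lit 100749198) (nat_lit 76) (nat_lit 3659304636) (nat_lit 104) (nat_lit 5) (nat_lit 114) (nat_lit 5) (nat_lit 105) (nat_lit 5) (nat_lit 311) (nat_lit 299) (nat_lit 290)))))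 (XT.nd (nat_lit 234) (nat_lit 912) (nat_lit 0) (XT.nd (nat_lit 78) (nat_lit 1140) (nat_lit 0) (XT.lf (nat_lit 0) (nat_lit 250856347) (nat_lit 836) (nat_lit 55782374) (nat_lit 76) (nat_lit 7472507188) (nat_lit 93) (nat_lit 5) (nat_lit 104) (nat_lit 5) (nat_lit 94) (nat_lit 5) (nat_lit 312) (nat_lit 299) (nat_lit 289)) (XT.nd (nat_lit 78) (nat_lit 760) (nat_lit 0) (XT.lf (nat_lit 0) (nat_lit 4361120697) (nat_lit 456) (nat_lit 26742669) (nat_lit 76) (nat_lit 3637446012) (nat_lit 88) (nat_lit 5) (nat_lit 94) (nat_lit 5) (nat_lit 89) (nat_lit 5) (nat_lit 313) (nat_lit 299) (nat_lit 288)) (XT.lf (nat_lit 0) (nat_lit 81563371) (nat_lit 380) (nat_lit 285331120) (nat_lit 456) (nat_lit 7930501107) (nat_lit 78) (nat_lit 5) (nat_lit 83) (nat_lit 5) (nat_lit 84) (nat_lit 5) (nat_lit 314) (nat_lit 299) (nat_lit 287)))) (XT.nd (nat_lit 78) (nat_lit 608) (nat_lit 0) (XT.lf (nat_lit 0) (nat_lit 139222992)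 (nat_lit 304) (nat_lit 4408287785) (nat_lit 380) (nat_lit 4043273035) (nat_lit 74) (nat_lit 5) (nat_lit 78) (nat_lit 5) (nat_lit 79) (nat_lit 5) (nat_lit 315) (nat_lit 299) (nat_lit 286)) (XT.nd (nat_lit 78) (nat_lit 228) (nat_lit 0) (XT.lf (nat_lit 0) (nat_lit 61132441) (nat_lit 380) (nat_lit 8663040490) (nat_lit 76) (nat_lit 188064333) (nat_lit 69) (nat_lit 5) (nat_lit 74) (nat_lit 5) (nat_lit 70) (nat_lit 5) (nat_lit 316) (nat_lit 299) (nat_lit 285)) (XT.lf (nat_lit 0) (nat_lit 259575892) (nat_lit 228) (nat_lit 4089328052) (nat_lit 304) (nat_lit 4907608188) (nat_lit 66) (nat_lit 5) (nat_lit 69) (nat_lit 5) (nat_lit 70) (nat_lit 5) (nat_lit 317) (nat_lit 299) (nat_lit 284)))))) (XT.nd (nat_lit 390) (nat_lit 1292) (nat_lit 0) (XT.nd (nat_lit 156) (nat_lit 456) (nat_lit 0) (XT.nd (nat_lit 78) (nat_lit 304) (nat_lit 0) (XT.lf (nat_lit 0) (nat_lit 279967276) (nat_lit 304) (nat_lit 8650313968)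 (nat_lit 380) (nat_lit 700752622) (nat_lit 62) (nat_lit 5) (nat_lit 66) (nat_lit 5) (nat_lit 67) (nat_lit 5) (nat_lit 318) (nat_lit 299) (nat_lit 283)) (XT.lf (nat_lit 0) (nat_lit 175580200) (nat_lit 228) (nat_lit 3561924515) (nat_lit 304) (nat_lit 6294327207) (nat_lit 58) (nat_lit 5) (nat_lit 61) (nat_lit 5) (nat_lit 62) (nat_lit 5) (nat_lit 319) (nat_lit 299) (nat_lit 282))) (XT.nd (nat_lit 78) (nat_lit 228) (nat_lit 0) (XT.lf (nat_lit 0) (nat_lit 9806245) (nat_lit 228) (nat_lit 8489793352) (nat_lit 304) (nat_lit 1965044570) (nat_lit 55) (nat_lit 5) (nat_lit 58) (nat_lit 5) (nat_lit 59) (nat_lit 5) (nat_lit 320) (nat_lit 299) (nat_lit 281)) (XT.nd (nat_lit 78) (nat_lit 152) (nat_lit 0) (XT.lf (nat_lit 0) (nat_lit 2662902207) (nat_lit 304) (nat_lit 293280726) (nat_lit 76) (nat_lit 7971997162) (nat_lit 54) (nat_lit 5) (nat_lit 58) (nat_lit 5) (nat_lit 55) (nat_lit 5) (nat_lit 321) (nat_lit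 299) (nat_lit 280)) (XT.lf (nat_lit 0) (nat_lit 7628884284) (nat_lit 228) (nat_lit 746486584) (nat_lit 76) (nat_lit 3050141142) (nat_lit 52) (nat_lit 5) (nat_lit 55) (nat_lit 5) (nat_lit 53) (nat_lit 5) (nat_lit 322) (nat_lit 299) (nat_lit 279))))) (XT.nd (nat_lit 234) (nat_lit 608) (nat_lit 0) (XT.nd (nat_lit 78) (nat_lit 380) (nat_lit 0) (XT.lf (nat_lit 0) (nat_lit 1045186674) (nat_lit 304) (nat_lit 1367368830) (nat_lit 76) (nat_lit 9546977754) (nat_lit 48) (nat_lit 5) (nat_lit 52) (nat_lit 5) (nat_lit 49) (nat_lit 5) (nat_lit 323) (nat_lit 299) (nat_lit 278)) (XT.nd (nat_lit 78) (nat_lit 228) (nat_lit 0) (XT.lf (nat_lit 0) (nat_lit 6216723971) (nat_lit 228) (nat_lit 2253937243) (nat_lit 76) (nat_lit 4058860773) (nat_lit 46) (nat_lit 5) (nat_lit 49) (nat_lit 5) (nat_lit 47) (nat_lit 5) (nat_lit 324) (nat_lit 299) (nat_lit 277)) (XT.lf (nat_lit 0) (nat_lit 9779553670) (nat_lit 228) (nat_lit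 2080729297) (nat_lit 304) (nat_lit 1282029898) (nat_lit 43) (nat_lit 5) (nat_lit 46) (nat_lit 5) (nat_lit 47) (nat_lit 5) (nat_lit 325) (nat_lit 299) (nat_lit 276)))) (XT.nd (nat_lit 78) (nat_lit 380) (nat_lit 0) (XT.lf (nat_lit 0) (nat_lit 4123480843) (nat_lit 228) (nat_lit 4841450439) (nat_lit 76) (nat_lit 4830801906) (nat_lit 40) (nat_lit 5) (nat_lit 43) (nat_lit 5) (nat_lit 41) (nat_lit 5) (nat_lit 326) (nat_lit 299) (nat_lit 275)) (XT.nd (nat_lit 78) (nat_lit 228) (nat_lit 0) (XT.lf (nat_lit 0) (nat_lit 7834081121) (nat_lit 152) (nat_lit 2152663623) (nat_lit 228) (nat_lit 4510216468) (nat_lit 38) (nat_lit 5) (nat_lit 40) (nat_lit 5) (nat_lit 41) (nat_lit 5) (nat_lit 327) (nat_lit 299) (nat_lit 274)) (XT.lf (nat_lit 0) (nat_lit 1157226641) (nat_lit 228) (nat_lit 8932944203) (nat_lit 76) (nat_lit 5157044172) (nat_lit 35) (nat_lit 5) (nat_lit 38) (nat_lit 5) (nat_lit 36) (nat_lit 5) (nat_lit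 328) (nat_lit 299) (nat_lit 273))))))) (XT.nd (nat_lit 858) (nat_lit 684) (nat_lit 0) (XT.nd (nat_lit 390) (nat_lit 608) (nat_lit 0) (XT.nd (nat_lit 156) (nat_lit 304) (nat_lit 0) (XT.nd (nat_lit 78) (nat_lit 76) (nat_lit 0) (XT.lf (nat_lit 0) (nat_lit 4312443841) (nat_lit 152) (nat_lit 2894723745) (nat_lit 228) (nat_lit 8842347380) (nat_lit 33) (nat_lit 5) (nat_lit 35) (nat_lit 5) (nat_lit 36) (nat_lit 5) (nat_lit 329) (nat_lit 299) (nat_lit 272)) (XT.lf (nat_lit 0) (nat_lit 1784160757) (nat_lit 76) (nat_lit 12087862343) (nat_lit 152) (nat_lit 3037502680) (nat_lit 32) (nat_lit 5) (nat_lit 33) (nat_lit 5) (nat_lit 34) (nat_lit 4) (nat_lit 330) (nat_lit 299) (nat_lit 271))) (XT.nd (nat_lit 78) (nat_lit 228) (nat_lit 0) (XT.lf (nat_lit 0) (nat_lit 3257967191) (nat_lit 152) (nat_lit 1341602925) (nat_lit 76) (nat_lit 13229825097) (nat_lit 31) (nat_lit 5) (nat_lit 33) (nat_lit 5) (nat_lit 32)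 (nat_lit 5) (nat_lit 331) (nat_lit 299) (nat_lit 270)) (XT.nd (nat_lit 78) (nat_lit 76) (nat_lit 0) (XT.lf (nat_lit 0) (nat_lit 10106442633) (nat_lit 228) (nat_lit 5140865581) (nat_lit 76) (nat_lit 3565326338) (nat_lit 29) (nat_lit 5) (nat_lit 32) (nat_lit 5) (nat_lit 30) (nat_lit 4) (nat_lit 332) (nat_lit 299) (nat_lit 269)) (XT.lf (nat_lit 0) (nat_lit 10109725702) (nat_lit 76) (nat_lit 7539132392) (nat_lit 152) (nat_lit 2218426907) (nat_lit 28) (nat_lit 5) (nat_lit 29) (nat_lit 5) (nat_lit 30) (nat_lit 4) (nat_lit 333) (nat_lit 299) (nat_lit 268))))) (XT.nd (nat_lit 234) (nat_lit 304) (nat_lit 0) (XT.nd (nat_lit 78) (nat_lit 76) (nat_lit 0) (XT.lf (nat_lit 0) (nat_lit 4720423685) (nat_lit 228) (nat_lit 15338500469) (nat_lit 76) (nat_lit 939427816) (nat_lit 25) (nat_lit 5) (nat_lit 28) (nat_lit 5) (nat_lit 26) (nat_lit 4) (nat_lit 334) (nat_lit 299) (nat_lit 267)) (XT.nd (nat_lit 78) (nat_lit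 0) (nat_lit 0) (XT.lf (nat_lit 0) (nat_lit 95975744) (nat_lit 76) (nat_lit 12237645390) (nat_lit 152) (nat_lit 9874661657) (nat_lit 24) (nat_lit 5) (nat_lit 25) (nat_lit 5) (nat_lit 26) (nat_lit 4) (nat_lit 335) (nat_lit 299) (nat_lit 266)) (XT.lf (nat_lit 0) (nat_lit 17133622002) (nat_lit 76) (nat_lit 3588994849) (nat_lit 152) (nat_lit 2784095733) (nat_lit 24) (nat_lit 5) (nat_lit 25) (nat_lit 5) (nat_lit 26) (nat_lit 4) (nat_lit 336) (nat_lit 299) (nat_lit 265)))) (XT.nd (nat_lit 78) (nat_lit 76) (nat_lit 0) (XT.lf (nat_lit 0) (nat_lit 4883203531) (nat_lit 228) (nat_lit 14271052608) (nat_lit 76) (nat_lit 5742718844) (nat_lit 21) (nat_lit 5) (nat_lit 24) (nat_lit 5) (nat_lit 22) (nat_lit 4) (nat_lit 337) (nat_lit 299) (nat_lit 264)) (XT.nd (nat_lit 78) (nat_lit 0) (nat_lit 0) (XT.lf (nat_lit 0) (nat_lit 2629130344) (nat_lit 76) (nat_lit 10561711061) (nat_lit 152) (nat_lit 13199144126)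 (nat_lit 20) (nat_lit 5) (nat_lit 21) (nat_lit 5) (nat_lit 22) (nat_lit 4) (nat_lit 338) (nat_lit 299) (nat_lit 263)) (XT.lf (nat_lit 0) (nat_lit 21232858745) (nat_lit 76) (nat_lit 1091903781) (nat_lit 152) (nat_lit 5669622258) (nat_lit 20) (nat_lit 5) (nat_lit 21) (nat_lit 5) (nat_lit 22) (nat_lit 4) (nat_lit 339) (nat_lit 299) (nat_lit 262)))))) (XT.nd (nat_lit 390) (nat_lit 304) (nat_lit 0) (XT.nd (nat_lit 156) (nat_lit 228) (nat_lit 0) (XT.nd (nat_lit 78) (nat_lit 0) (nat_lit 0) (XT.lf (nat_lit 0) (nat_lit 2630887094) (nat_lit 152) (nat_lit 18077886646) (nat_lit 76) (nat_lit 9004096178) (nat_lit 18) (nat_lit 5) (nat_lit 20) (nat_lit 5) (nat_lit 19) (nat_lit 4) (nat_lit 340) (nat_lit 299) (nat_lit 261)) (XT.lf (nat_lit 0) (nat_lit 11458576739) (nat_lit 152) (nat_lit 79765745) (nat_lit 76) (nat_lit 20022781073) (nat_lit 18) (nat_lit 5) (nat_lit 20) (nat_lit 5) (nat_lit 19) (nat_lit 4)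 (nat_lit 341) (nat_lit 299) (nat_lit 260))) (XT.nd (nat_lit 78) (nat_lit 152) (nat_lit 0) (XT.lf (nat_lit 0) (nat_lit 19859055978) (nat_lit 76) (nat_lit 1370329402) (nat_lit 152) (nat_lit 12316030710) (nat_lit 17) (nat_lit 5) (nat_lit 18) (nat_lit 5) (nat_lit 19) (nat_lit 4) (nat_lit 342) (nat_lit 299) (nat_lit 259)) (XT.nd (nat_lit 78) (nat_lit 76) (nat_lit 0) (XT.lf (nat_lit 0) (nat_lit 5605282268) (nat_lit 76) (nat_lit 26344890156) (nat_lit 76) (nat_lit 3729885950) (nat_lit 16) (nat_lit 4) (nat_lit 17) (nat_lit 5) (nat_lit 17) (nat_lit 4) (nat_lit 343) (nat_lit 299) (nat_lit 258)) (XT.lf (nat_lit 0) (nat_lit 5562634198) (nat_lit 152) (nat_lit 11286181138) (nat_lit 76) (nat_lit 21122503965) (nat_lit 15) (nat_lit 5) (nat_lit 17) (nat_lit 5) (nat_lit 16) (nat_lit 4) (nat_lit 344) (nat_lit 299) (nat_lit 257))))) (XT.nd (nat_lit 234) (nat_lit 152) (nat_lit 0) (XT.nd (nat_lit 78) (nat_lit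 76) (nat_lit 0) (XT.lf (nat_lit 0) (nat_lit 9115794867) (nat_lit 76) (nat_lit 6432707047) (nat_lit 152) (nat_lit 24890308745) (nat_lit 14) (nat_lit 5) (nat_lit 15) (nat_lit 5) (nat_lit 16) (nat_lit 4) (nat_lit 345) (nat_lit 299) (nat_lit 256)) (XT.nd (nat_lit 78) (nat_lit 76) (nat_lit 0) (XT.lf (nat_lit 0) (nat_lit 26546917801) (nat_lit 152) (nat_lit 11734981160) (nat_lit 0) (nat_lit 4811135086) (nat_lit 14) (nat_lit 5) (nat_lit 16) (nat_lit 4) (nat_lit 14) (nat_lit 4) (nat_lit 346) (nat_lit 299) (nat_lit 255)) (XT.lf (nat_lit 0) (nat_lit 9508899489) (nat_lit 76) (nat_lit 29116435053) (nat_lit 76) (nat_lit 7324269807) (nat_lit 13) (nat_lit 4) (nat_lit 14) (nat_lit 5) (nat_lit 14) (nat_lit 4) (nat_lit 347) (nat_lit 299) (nat_lit 254)))) (XT.nd (nat_lit 78) (nat_lit 76) (nat_lit 0) (XT.lf (nat_lit 0) (nat_lit 2703650350) (nat_lit 152) (nat_lit 16301888075) (nat_lit 76) (nat_lit 30019484569)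 (nat_lit 12) (nat_lit 5) (nat_lit 14) (nat_lit 5) (nat_lit 13) (nat_lit 4) (nat_lit 348) (nat_lit 299) (nat_lit 253)) (XT.nd (nat_lit 78) (nat_lit 0) (nat_lit 0) (XT.lf (nat_lit 0) (nat_lit 5400861738) (nat_lit 76) (nat_lit 7913075806) (nat_lit 152) (nat_lit 39024709674) (nat_lit 11) (nat_lit 5) (nat_lit 12) (nat_lit 5) (nat_lit 13) (nat_lit 4) (nat_lit 349) (nat_lit 299) (nat_lit 252)) (XT.lf (nat_lit 0) (nat_lit 25075807601) (nat_lit 152) (nat_lit 26643446983) (nat_lit 0) (nat_lit 4182980459) (nat_lit 11) (nat_lit 5) (nat_lit 13) (nat_lit 4) (nat_lit 11) (nat_lit 4) (nat_lit 350) (nat_lit 299) (nat_lit 251))))))))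
noncomputable def xc46 : XT := (XT.nd (nat_lit 1716) (nat_lit 152) (nat_lit 0) (XT.nd (nat_lit 858) (nat_lit 152) (nat_lit 0) (XT.nd (nat_lit 390) (nat_lit 152) (nat_lit 0) (XT.nd (nat_lit 156) (nat_lit 152) (nat_lit 0) (XT.nd (nat_lit 78) (nat_lit 76) (nat_lit 0) (XT.lf (nat_lit 0) (nat_lit 37866354698) (nat_lit 152) (nat_lit 4946121443) (nat_lit 0) (nat_lit 16934058180) (nat_lit 11) (nat_lit 5) (nat_lit 13) (nat_lit 4) (nat_lit 11) (nat_lit 4) (nat_lit 351) (nat_lit 299) (nat_lit 250)) (XT.lf (nat_lit 0) (nat_lit 19014909012) (nat_lit 76) (nat_lit 32919796385) (nat_lit 76) (nat_lit 11950954150) (nat_lit 10) (nat_lit 4) (nat_lit 11) (nat_lit 5) (nat_lit 11) (nat_lit 4) (nat_lit 352) (nat_lit 299) (nat_lit 249))) (XT.nd (nat_lit 78) (nat_lit 152) (nat_lit 0) (XT.lf (nat_lit 0) (nat_lit 44992275462) (nat_lit 76) (nat_lit 22182020431) (nat_lit 76) (nat_lit 1179339568) (nat_lit 10) (nat_lit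 4) (nat_lit 11) (nat_lit 5) (nat_lit 11) (nat_lit 4) (nat_lit 353) (nat_lit 299) (nat_lit 248)) (XT.nd (nat_lit 78) (nat_lit 76) (nat_lit 0) (XT.lf (nat_lit 0) (nat_lit 10081394520) (nat_lit 152) (nat_lit 367154157) (nat_lit 76) (nat_lit 62724248928) (nat_lit 9) (nat_lit 5) (nat_lit 11) (nat_lit 5) (nat_lit 10) (nat_lit 4) (nat_lit 354) (nat_lit 299) (nat_lit 247)) (XT.lf (nat_lit 0) (nat_lit 22601223932) (nat_lit 152) (nat_lit 53214130947) (nat_lit 0) (nat_lit 2541200985) (nat_lit 8) (nat_lit 5) (nat_lit 10) (nat_lit 4) (nat_lit 8) (nat_lit 4) (nat_lit 355) (nat_lit 299) (nat_lit 246))))) (XT.nd (nat_lit 234) (nat_lit 76) (nat_lit 0) (XT.nd (nat_lit 78) (nat_lit 76) (nat_lit 0) (XT.lf (nat_lit 0) (nat_lit 36271242374) (nat_lit 152) (nat_lit 31490712888) (nat_lit 0) (nat_lit 16185636385) (nat_lit 8) (nat_lit 5) (nat_lit 10) (nat_lit 4) (nat_lit 8) (nat_lit 4) (nat_lit 356) (nat_lit 299)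 (nat_lit 245)) (XT.nd (nat_lit 78) (nat_lit 76) (nat_lit 0) (XT.lf (nat_lit 0) (nat_lit 51003307315) (nat_lit 152) (nat_lit 8090173882) (nat_lit 0) (nat_lit 30894013325) (nat_lit 8) (nat_lit 5) (nat_lit 10) (nat_lit 4) (nat_lit 8) (nat_lit 4) (nat_lit 357) (nat_lit 299) (nat_lit 244)) (XT.lf (nat_lit 0) (nat_lit 17692423990) (nat_lit 76) (nat_lit 49468524212) (nat_lit 76) (nat_lit 29337296887) (nat_lit 7) (nat_lit 4) (nat_lit 8) (nat_lit 5) (nat_lit 8) (nat_lit 4) (nat_lit 358) (nat_lit 299) (nat_lit 243)))) (XT.nd (nat_lit 78) (nat_lit 76) (nat_lit 0) (XT.lf (nat_lit 0) (nat_lit 45772719538) (nat_lit 76) (nat_lit 38951513038) (nat_lit 76) (nat_lit 18799977070) (nat_lit 7) (nat_lit 4) (nat_lit 8) (nat_lit 5) (nat_lit 8) (nat_lit 4) (nat_lit 359) (nat_lit 299) (nat_lit 242)) (XT.nd (nat_lit 78) (nat_lit 76) (nat_lit 0) (XT.lf (nat_lit 0) (nat_lit 76049616825) (nat_lit 76) (nat_lit 27617135657)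 (nat_lit 76) (nat_lit 7446795390) (nat_lit 7) (nat_lit 4) (nat_lit 8) (nat_lit 5) (nat_lit 8) (nat_lit 4) (nat_lit 360) (nat_lit 299) (nat_lit 241)) (XT.lf (nat_lit 0) (nat_lit 4636231515) (nat_lit 152) (nat_lit 10683477048) (nat_lit 76) (nat_lit 103987786165) (nat_lit 6) (nat_lit 5) (nat_lit 8) (nat_lit 5) (nat_lit 7) (nat_lit 4) (nat_lit 361) (nat_lit 299) (nat_lit 240)))))) (XT.nd (nat_lit 390) (nat_lit 76) (nat_lit 0) (XT.nd (nat_lit 156) (nat_lit 0) (nat_lit 0) (XT.nd (nat_lit 78) (nat_lit 0) (nat_lit 0) (XT.lf (nat_lit 0) (nat_lit 15990169242) (nat_lit 76) (nat_lit 1665461271) (nat_lit 152) (nat_lit 110483695619) (nat_lit 5) (nat_lit 5) (nat_lit 6) (nat_lit 5) (nat_lit 7) (nat_lit 4) (nat_lit 362) (nat_lit 299) (nat_lit 239)) (XT.lf (nat_lit 0) (nat_lit 32088159388) (nat_lit 152) (nat_lit 92738810996) (nat_lit 0) (nat_lit 12832158655) (nat_lit 5) (nat_lit 5) (nat_lit 7) (nat_lit 4)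 (nat_lit 5) (nat_lit 4) (nat_lit 363) (nat_lit 299) (nat_lit 238))) (XT.nd (nat_lit 78) (nat_lit 0) (nat_lit 0) (XT.lf (nat_lit 0) (nat_lit 47683183328) (nat_lit 152) (nat_lit 71842922765) (nat_lit 0) (nat_lit 28414019051) (nat_lit 5) (nat_lit 5) (nat_lit 7) (nat_lit 4) (nat_lit 5) (nat_lit 4) (nat_lit 364) (nat_lit 299) (nat_lit 237)) (XT.nd (nat_lit 78) (nat_lit 0) (nat_lit 0) (XT.lf (nat_lit 0) (nat_lit 64507114771) (nat_lit 152) (nat_lit 49311662192) (nat_lit 0) (nat_lit 45225762027) (nat_lit 5) (nat_lit 5) (nat_lit 7) (nat_lit 4) (nat_lit 5) (nat_lit 4) (nat_lit 365) (nat_lit 299) (nat_lit 236)) (XT.lf (nat_lit 0) (nat_lit 82659651089) (nat_lit 152) (nat_lit 25011510698) (nat_lit 0) (nat_lit 63367012727) (nat_lit 5) (nat_lit 5) (nat_lit 7) (nat_lit 4) (nat_lit 5) (nat_lit 4) (nat_lit 366) (nat_lit 299) (nat_lit 235))))) (XT.nd (nat_lit 234) (nat_lit 0) (nat_lit 0) (XT.nd (nat_lit 78)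 (nat_lit 0) (nat_lit 0) (XT.lf (nat_lit 0) (nat_lit 1241260710) (nat_lit 76) (nat_lit 101026481714) (nat_lit 76) (nat_lit 81723393707) (nat_lit 4) (nat_lit 4) (nat_lit 5) (nat_lit 5) (nat_lit 5) (nat_lit 4) (nat_lit 367) (nat_lit 299) (nat_lit 234)) (XT.nd (nat_lit 78) (nat_lit 0) (nat_lit 0) (XT.lf (nat_lit 0) (nat_lit 30457638962) (nat_lit 76) (nat_lit 93407221500) (nat_lit 76) (nat_lit 74094457895) (nat_lit 4) (nat_lit 4) (nat_lit 5) (nat_lit 5) (nat_lit 5) (nat_lit 4) (nat_lit 368) (nat_lit 299) (nat_lit 233)) (XT.lf (nat_lit 0) (nat_lit 61983764649) (nat_lit 76) (nat_lit 85191812009) (nat_lit 76) (nat_lit 65870089517) (nat_lit 4) (nat_lit 4) (nat_lit 5) (nat_lit 5) (nat_lit 5) (nat_lit 4) (nat_lit 369) (nat_lit 299) (nat_lit 232)))) (XT.nd (nat_lit 78) (nat_lit 0) (nat_lit 0) (XT.lf (nat_lit 0) (nat_lit 96006459259) (nat_lit 76) (nat_lit 76331569332) (nat_lit 76) (nat_lit 57001551574)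 (nat_lit 4) (nat_lit 4) (nat_lit 5) (nat_lit 5) (nat_lit 5) (nat_lit 4) (nat_lit 370) (nat_lit 299) (nat_lit 231)) (XT.nd (nat_lit 78) (nat_lit 0) (nat_lit 0) (XT.lf (nat_lit 0) (nat_lit 132727338760) (nat_lit 76) (nat_lit 66773988328) (nat_lit 76) (nat_lit 47436289768) (nat_lit 4) (nat_lit 4) (nat_lit 5) (nat_lit 5) (nat_lit 5) (nat_lit 4) (nat_lit 371) (nat_lit 299) (nat_lit 230)) (XT.lf (nat_lit 0) (nat_lit 172364008362) (nat_lit 76) (nat_lit 56462431479) (nat_lit 76) (nat_lit 37117621066) (nat_lit 4) (nat_lit 4) (nat_lit 5) (nat_lit 5) (nat_lit 5) (nat_lit 4) (nat_lit 372) (nat_lit 299) (nat_lit 229))))))) (XT.nd (nat_lit 858) (nat_lit 0) (nat_lit 0) (XT.nd (nat_lit 390) (nat_lit 0) (nat_lit 0) (XT.nd (nat_lit 156) (nat_lit 152) (nat_lit 0) (XT.nd (nat_lit 78) (nat_lit 0) (nat_lit 0) (XT.lf (nat_lit 0) (nat_lit 215151352034) (nat_lit 76) (nat_lit 45335793264) (nat_lit 76) (nat_lit 25984397802)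 (nat_lit 4) (nat_lit 4) (nat_lit 5) (nat_lit 5) (nat_lit 5) (nat_lit 4) (nat_lit 373) (nat_lit 299) (nat_lit 228)) (XT.lf (nat_lit 0) (nat_lit 261342924406) (nat_lit 76) (nat_lit 33328138049) (nat_lit 76) (nat_lit 13970645319) (nat_lit 4) (nat_lit 4) (nat_lit 5) (nat_lit 5) (nat_lit 5) (nat_lit 4) (nat_lit 374) (nat_lit 299) (nat_lit 227))) (XT.nd (nat_lit 78) (nat_lit 152) (nat_lit 0) (XT.lf (nat_lit 0) (nat_lit 311212453313) (nat_lit 76) (nat_lit 20368309359) (nat_lit 76) (nat_lit 1005171010) (nat_lit 4) (nat_lit 4) (nat_lit 5) (nat_lit 5) (nat_lit 5) (nat_lit 4) (nat_lit 375) (nat_lit 299) (nat_lit 226)) (XT.nd (nat_lit 78) (nat_lit 0) (nat_lit 0) (XT.lf (nat_lit 0) (nat_lit 6618386591) (nat_lit 76) (nat_lit 6058077976) (nat_lit 152) (nat_lit 345754341764) (nat_lit 2) (nat_lit 5) (nat_lit 3) (nat_lit 5) (nat_lit 4) (nat_lit 4) (nat_lit 376) (nat_lit 299) (nat_lit 225)) (XT.lf (nat_lit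 0) (nat_lit 27934867813) (nat_lit 152) (nat_lit 348897510223) (nat_lit 0) (nat_lit 9484195450) (nat_lit 2) (nat_lit 5) (nat_lit 4) (nat_lit 4) (nat_lit 2) (nat_lit 4) (nat_lit 377) (nat_lit 299) (nat_lit 224))))) (XT.nd (nat_lit 234) (nat_lit 0) (nat_lit 0) (XT.nd (nat_lit 78) (nat_lit 0) (nat_lit 0) (XT.lf (nat_lit 0) (nat_lit 44508550546) (nat_lit 152) (nat_lit 345866312352) (nat_lit 0) (nat_lit 26053609922) (nat_lit 2) (nat_lit 5) (nat_lit 4) (nat_lit 4) (nat_lit 2) (nat_lit 4) (nat_lit 378) (nat_lit 299) (nat_lit 223)) (XT.nd (nat_lit 78) (nat_lit 0) (nat_lit 0) (XT.lf (nat_lit 0) (nat_lit 62401143608) (nat_lit 152) (nat_lit 342606279897) (nat_lit 0) (nat_lit 43942250891) (nat_lit 2) (nat_lit 5) (nat_lit 4) (nat_lit 4) (nat_lit 2) (nat_lit 4) (nat_lit 379) (nat_lit 299) (nat_lit 222)) (XT.lf (nat_lit 0) (nat_lit 81718677180) (nat_lit 152) (nat_lit 339098094148) (nat_lit 0) (nat_lit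 63256125118) (nat_lit 2) (nat_lit 5) (nat_lit 4) (nat_lit 4) (nat_lit 2) (nat_lit 4) (nat_lit 380) (nat_lit 299) (nat_lit 221)))) (XT.nd (nat_lit 78) (nat_lit 0) (nat_lit 0) (XT.lf (nat_lit 0) (nat_lit 102575625536) (nat_lit 152) (nat_lit 335320965856) (nat_lit 0) (nat_lit 84109685191) (nat_lit 2) (nat_lit 5) (nat_lit 4) (nat_lit 4) (nat_lit 2) (nat_lit 4) (nat_lit 381) (nat_lit 299) (nat_lit 220)) (XT.nd (nat_lit 78) (nat_lit 0) (nat_lit 0) (XT.lf (nat_lit 0) (nat_lit 125095585406) (nat_lit 152) (nat_lit 331252512038) (nat_lit 0) (nat_lit 106626507762) (nat_lit 2) (nat_lit 5) (nat_lit 4) (nat_lit 4) (nat_lit 2) (nat_lit 4) (nat_lit 382) (nat_lit 299) (nat_lit 219)) (XT.lf (nat_lit 0) (nat_lit 149412008405) (nat_lit 152) (nat_lit 326868623338) (nat_lit 0) (nat_lit 130940025853) (nat_lit 2) (nat_lit 5) (nat_lit 4) (nat_lit 4) (nat_lit 2) (nat_lit 4) (nat_lit 383) (nat_lit 299) (nat_lit 218))))))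 (XT.nd (nat_lit 390) (nat_lit 0) (nat_lit 0) (XT.nd (nat_lit 156) (nat_lit 0) (nat_lit 0) (XT.nd (nat_lit 78) (nat_lit 0) (nat_lit 0) (XT.lf (nat_lit 0) (nat_lit 175668991853) (nat_lit 152) (nat_lit 322143321156) (nat_lit 0) (nat_lit 157194319573) (nat_lit 2) (nat_lit 5) (nat_lit 4) (nat_lit 4) (nat_lit 2) (nat_lit 4) (nat_lit 384) (nat_lit 299) (nat_lit 217)) (XT.lf (nat_lit 0) (nat_lit 204022132690) (nat_lit 152) (nat_lit 317048603703) (nat_lit 0) (nat_lit 185544969921) (nat_lit 2) (nat_lit 5) (nat_lit 4) (nat_lit 4) (nat_lit 2) (nat_lit 4) (nat_lit 385) (nat_lit 299) (nat_lit 216))) (XT.nd (nat_lit 78) (nat_lit 0) (nat_lit 0) (XT.lf (nat_lit 0) (nat_lit 234639449528) (nat_lit 152) (nat_lit 311554280059) (nat_lit 0) (nat_lit 216159980751) (nat_lit 2) (nat_lit 5) (nat_lit 4) (nat_lit 4) (nat_lit 2) (nat_lit 4) (nat_lit 386) (nat_lit 299) (nat_lit 215)) (XT.nd (nat_lit 78) (nat_lit 0) (nat_lit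 0) (XT.lf (nat_lit 0) (nat_lit 267702378320) (nat_lit 152) (nat_lit 305627791270) (nat_lit 0) (nat_lit 249220774349) (nat_lit 2) (nat_lit 5) (nat_lit 4) (nat_lit 4) (nat_lit 2) (nat_lit 4) (nat_lit 387) (nat_lit 299) (nat_lit 214)) (XT.lf (nat_lit 0) (nat_lit 303406847530) (nat_lit 152) (nat_lit 299234017402) (nat_lit 0) (nat_lit 284923266529) (nat_lit 2) (nat_lit 5) (nat_lit 4) (nat_lit 4) (nat_lit 2) (nat_lit 4) (nat_lit 388) (nat_lit 299) (nat_lit 213))))) (XT.nd (nat_lit 40014) (nat_lit 0) (nat_lit 11248) (XT.nd (nat_lit 78) (nat_lit 0) (nat_lit 0) (XT.lf (nat_lit 0) (nat_lit 341964439200) (nat_lit 152) (nat_lit 292335069425) (nat_lit 0) (nat_lit 323479027615) (nat_lit 2) (nat_lit 5) (nat_lit 4) (nat_lit 4) (nat_lit 2) (nat_lit 4) (nat_lit 389) (nat_lit 299) (nat_lit 212)) (XT.nd (nat_lit 39858) (nat_lit 0) (nat_lit 11704) (XT.lf (nat_lit 0) (nat_lit 383603642762) (nat_lit 152) (nat_lit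 284890064684) (nat_lit 0) (nat_lit 365116536192) (nat_lit 2) (nat_lit 5) (nat_lit 4) (nat_lit 4) (nat_lit 2) (nat_lit 4) (nat_lit 390) (nat_lit 299) (nat_lit 211)) (XT.lf (nat_lit 0) (nat_lit 1073741823) (nat_lit 0) (nat_lit 0) (nat_lit 0) (nat_lit 0) (nat_lit 156) (nat_lit 0) (nat_lit 1) (nat_lit 0) (nat_lit 1) (nat_lit 0) (nat_lit 300) (nat_lit 300) (nat_lit 300)))) (XT.nd (nat_lit 78) (nat_lit 380) (nat_lit 0) (XT.lf (nat_lit 0) (nat_lit 4747702223) (nat_lit 76) (nat_lit 1503738876) (nat_lit 0) (nat_lit 199809076) (nat_lit 155) (nat_lit 5) (nat_lit 156) (nat_lit 0) (nat_lit 155) (nat_lit 4) (nat_lit 301) (nat_lit 300) (nat_lit 299)) (XT.nd (nat_lit 78) (nat_lit 228) (nat_lit 0) (XT.lf (nat_lit 0) (nat_lit 2883805007) (nat_lit 152) (nat_lit 2847105056) (nat_lit 76) (nat_lit 749343783) (nat_lit 153) (nat_lit 5) (nat_lit 155) (nat_lit 5) (nat_lit 154) (nat_lit 4) (nat_lit 302) (nat_lit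 300) (nat_lit 298)) (XT.lf (nat_lit 0) (nat_lit 838679407) (nat_lit 228) (nat_lit 4038577507) (nat_lit 76) (nat_lit 1652352329) (nat_lit 150) (nat_lit 5) (nat_lit 153) (nat_lit 5) (nat_lit 151) (nat_lit 5) (nat_lit 303) (nat_lit 300) (nat_lit 297))))))))
noncomputable def xc47 : XT := (XT.nd (nat_lit 1716) (nat_lit 2280) (nat_lit 0) (XT.nd (nat_lit 858) (nat_lit 3040) (nat_lit 0) (XT.nd (nat_lit 390) (nat_lit 3496) (nat_lit 0) (XT.nd (nat_lit 156) (nat_lit 988) (nat_lit 0) (XT.nd (nat_lit 78) (nat_lit 380) (nat_lit 0) (XT.lf (nat_lit 0) (nat_lit 1490216458) (nat_lit 228) (nat_lit 3660846966) (nat_lit 304) (nat_lit 1447375132) (nat_lit 147) (nat_lit 5) (nat_lit 150) (nat_lit 5) (nat_lit 151) (nat_lit 5) (nat_lit 304) (nat_lit 300) (nat_lit 296)) (XT.lf (nat_lit 0) (nat_lit 630511731) (nat_lit 304) (nat_lit 2079415818) (nat_lit 380) (nat_lit 3977457541) (nat_lit 142) (nat_lit 5) (nat_lit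 146) (nat_lit 5) (nat_lit 147) (nat_lit 5) (nat_lit 305) (nat_lit 300) (nat_lit 295))) (XT.nd (nat_lit 78) (nat_lit 912) (nat_lit 0) (XT.lf (nat_lit 0) (nat_lit 58169485) (nat_lit 380) (nat_lit 76803076) (nat_lit 76) (nat_lit 6662545305) (nat_lit 141) (nat_lit 5) (nat_lit 146) (nat_lit 5) (nat_lit 142) (nat_lit 5) (nat_lit 306) (nat_lit 300) (nat_lit 294)) (XT.nd (nat_lit 78) (nat_lit 532) (nat_lit 0) (XT.lf (nat_lit 0) (nat_lit 4052893080) (nat_lit 456) (nat_lit 703701039) (nat_lit 76) (nat_lit 2168472058) (nat_lit 136) (nat_lit 5) (nat_lit 142) (nat_lit 5) (nat_lit 137) (nat_lit 5) (nat_lit 307) (nat_lit 300) (nat_lit 293)) (XT.lf (nat_lit 0) (nat_lit 1018863446) (nat_lit 532) (nat_lit 1206850350) (nat_lit 76) (nat_lit 4848843305) (nat_lit 129) (nat_lit 5) (nat_lit 136) (nat_lit 5) (nat_lit 130) (nat_lit 5) (nat_lit 308) (nat_lit 300) (nat_lit 292))))) (XT.nd (nat_lit 234) (nat_lit 1596)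 (nat_lit 0) (XT.nd (nat_lit 78) (nat_lit 1368) (nat_lit 0) (XT.lf (nat_lit 0) (nat_lit 4913748485) (nat_lit 608) (nat_lit 1634523132) (nat_lit 76) (nat_lit 696248453) (nat_lit 122) (nat_lit 5) (nat_lit 130) (nat_lit 5) (nat_lit 123) (nat_lit 5) (nat_lit 309) (nat_lit 300) (nat_lit 291)) (XT.nd (nat_lit 78) (nat_lit 684) (nat_lit 0) (XT.lf (nat_lit 0) (nat_lit 1479910541) (nat_lit 684) (nat_lit 2003991092) (nat_lit 76) (nat_lit 3951225618) (nat_lit 113) (nat_lit 5) (nat_lit 122) (nat_lit 5) (nat_lit 114) (nat_lit 5) (nat_lit 310) (nat_lit 300) (nat_lit 290)) (XT.lf (nat_lit 0) (nat_lit 5341289655) (nat_lit 760) (nat_lit 2303048138) (nat_lit 76) (nat_lit 3789686) (nat_lit 104) (nat_lit 5) (nat_lit 114) (nat_lit 5) (nat_lit 105) (nat_lit 5) (nat_lit 311) (nat_lit 300) (nat_lit 289)))) (XT.nd (nat_lit 78) (nat_lit 760) (nat_lit 0) (XT.lf (nat_lit 0) (nat_lit 1487880239) (nat_lit 836) (nat_lit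 2588473376) (nat_lit 76) (nat_lit 3805580785) (nat_lit 93) (nat_lit 5) (nat_lit 104) (nat_lit 5) (nat_lit 94) (nat_lit 5) (nat_lit 312) (nat_lit 300) (nat_lit 288)) (XT.nd (nat_lit 78) (nat_lit 380) (nat_lit 0) (XT.lf (nat_lit 0) (nat_lit 5311316646) (nat_lit 380) (nat_lit 61559891) (nat_lit 456) (nat_lit 2766653536) (nat_lit 88) (nat_lit 5) (nat_lit 93) (nat_lit 5) (nat_lit 94) (nat_lit 5) (nat_lit 313) (nat_lit 300) (nat_lit 287)) (XT.lf (nat_lit 0) (nat_lit 1066843208) (nat_lit 380) (nat_lit 3080818159) (nat_lit 76) (nat_lit 4271846113) (nat_lit 83) (nat_lit 5) (nat_lit 88) (nat_lit 5) (nat_lit 84) (nat_lit 5) (nat_lit 314) (nat_lit 300) (nat_lit 286)))))) (XT.nd (nat_lit 390) (nat_lit 1368) (nat_lit 0) (XT.nd (nat_lit 156) (nat_lit 912) (nat_lit 0) (XT.nd (nat_lit 78) (nat_lit 380) (nat_lit 0) (XT.lf (nat_lit 0) (nat_lit 5020408496) (nat_lit 456) (nat_lit 3329452075) (nat_lit 76) (nat_lit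 374525499) (nat_lit 78) (nat_lit 5) (nat_lit 84) (nat_lit 5) (nat_lit 79) (nat_lit 5) (nat_lit 315) (nat_lit 300) (nat_lit 285)) (XT.lf (nat_lit 0) (nat_lit 218465951) (nat_lit 380) (nat_lit 3609465827) (nat_lit 76) (nat_lit 5226319538) (nat_lit 73) (nat_lit 5) (nat_lit 78) (nat_lit 5) (nat_lit 74) (nat_lit 5) (nat_lit 316) (nat_lit 300) (nat_lit 284))) (XT.nd (nat_lit 78) (nat_lit 608) (nat_lit 0) (XT.lf (nat_lit 0) (nat_lit 4279419059) (nat_lit 380) (nat_lit 3944306489) (nat_lit 76) (nat_lit 1186254094) (nat_lit 69) (nat_lit 5) (nat_lit 74) (nat_lit 5) (nat_lit 70) (nat_lit 5) (nat_lit 317) (nat_lit 300) (nat_lit 283)) (XT.nd (nat_lit 78) (nat_lit 380) (nat_lit 0) (XT.lf (nat_lit 0) (nat_lit 5456929960) (nat_lit 228) (nat_lit 3221999960) (nat_lit 304) (nat_lit 1114768980) (nat_lit 66) (nat_lit 5) (nat_lit 69) (nat_lit 5) (nat_lit 70) (nat_lit 5) (nat_lit 318) (nat_lit 300) (nat_lit 282))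 (XT.lf (nat_lit 0) (nat_lit 3117717249) (nat_lit 380) (nat_lit 4828019833) (nat_lit 76) (nat_lit 2260126071) (nat_lit 61) (nat_lit 5) (nat_lit 66) (nat_lit 5) (nat_lit 62) (nat_lit 5) (nat_lit 319) (nat_lit 300) (nat_lit 281))))) (XT.nd (nat_lit 234) (nat_lit 684) (nat_lit 0) (XT.nd (nat_lit 78) (nat_lit 456) (nat_lit 0) (XT.lf (nat_lit 0) (nat_lit 5220379262) (nat_lit 228) (nat_lit 2459769369) (nat_lit 304) (nat_lit 2968595024) (nat_lit 58) (nat_lit 5) (nat_lit 61) (nat_lit 5) (nat_lit 62) (nat_lit 5) (nat_lit 320) (nat_lit 300) (nat_lit 280)) (XT.nd (nat_lit 78) (nat_lit 152) (nat_lit 0) (XT.lf (nat_lit 0) (nat_lit 1477055527) (nat_lit 304) (nat_lit 6169308601) (nat_lit 76) (nat_lit 3477494702) (nat_lit 54) (nat_lit 5) (nat_lit 58) (nat_lit 5) (nat_lit 55) (nat_lit 5) (nat_lit 321) (nat_lit 300) (nat_lit 279)) (XT.lf (nat_lit 0) (nat_lit 4540413699) (nat_lit 152) (nat_lit 1676204145)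 (nat_lit 228) (nat_lit 5415963358) (nat_lit 52) (nat_lit 5) (nat_lit 54) (nat_lit 5) (nat_lit 55) (nat_lit 5) (nat_lit 322) (nat_lit 300) (nat_lit 278)))) (XT.nd (nat_lit 78) (nat_lit 456) (nat_lit 0) (XT.lf (nat_lit 0) (nat_lit 3963214735) (nat_lit 228) (nat_lit 7457813080) (nat_lit 304) (nat_lit 756823211) (nat_lit 49) (nat_lit 5) (nat_lit 52) (nat_lit 5) (nat_lit 53) (nat_lit 5) (nat_lit 323) (nat_lit 300) (nat_lit 277)) (XT.nd (nat_lit 78) (nat_lit 228) (nat_lit 0) (XT.lf (nat_lit 0) (nat_lit 3167218006) (nat_lit 152) (nat_lit 1020048700) (nat_lit 228) (nat_lit 8573804103) (nat_lit 46) (nat_lit 5) (nat_lit 48) (nat_lit 5) (nat_lit 49) (nat_lit 5) (nat_lit 324) (nat_lit 300) (nat_lit 276)) (XT.lf (nat_lit 0) (nat_lit 2099687886) (nat_lit 228) (nat_lit 7524404648) (nat_lit 304) (nat_lit 3760158332) (nat_lit 43) (nat_lit 5) (nat_lit 46) (nat_lit 5) (nat_lit 47) (nat_lit 5) (nat_lit 325)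 (nat_lit 300) (nat_lit 275))))))) (XT.nd (nat_lit 858) (nat_lit 836) (nat_lit 0) (XT.nd (nat_lit 390) (nat_lit 684) (nat_lit 0) (XT.nd (nat_lit 156) (nat_lit 532) (nat_lit 0) (XT.nd (nat_lit 78) (nat_lit 0) (nat_lit 0) (XT.lf (nat_lit 0) (nat_lit 781174269) (nat_lit 152) (nat_lit 668249964) (nat_lit 228) (nat_lit 12603989988) (nat_lit 40) (nat_lit 5) (nat_lit 42) (nat_lit 5) (nat_lit 43) (nat_lit 5) (nat_lit 326) (nat_lit 300) (nat_lit 274)) (XT.lf (nat_lit 0) (nat_lit 7114368516) (nat_lit 228) (nat_lit 942636394) (nat_lit 76) (nat_lit 6707596199) (nat_lit 40) (nat_lit 5) (nat_lit 43) (nat_lit 5) (nat_lit 41) (nat_lit 5) (nat_lit 327) (nat_lit 300) (nat_lit 273))) (XT.nd (nat_lit 78) (nat_lit 380) (nat_lit 0) (XT.lf (nat_lit 0) (nat_lit 12560667700) (nat_lit 152) (nat_lit 752924341) (nat_lit 228) (nat_lit 2215119318) (nat_lit 38) (nat_lit 5) (nat_lit 40) (nat_lit 5) (nat_lit 41) (nat_lit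 5) (nat_lit 328) (nat_lit 300) (nat_lit 272)) (XT.nd (nat_lit 78) (nat_lit 152) (nat_lit 0) (XT.lf (nat_lit 0) (nat_lit 3717175599) (nat_lit 228) (nat_lit 5543923452) (nat_lit 76) (nat_lit 7081103668) (nat_lit 35) (nat_lit 5) (nat_lit 38) (nat_lit 5) (nat_lit 36) (nat_lit 5) (nat_lit 329) (nat_lit 300) (nat_lit 271)) (XT.lf (nat_lit 0) (nat_lit 8582755733) (nat_lit 152) (nat_lit 1546873067) (nat_lit 228) (nat_lit 7085237273) (nat_lit 33) (nat_lit 5) (nat_lit 35) (nat_lit 5) (nat_lit 36) (nat_lit 5) (nat_lit 330) (nat_lit 300) (nat_lit 270))))) (XT.nd (nat_lit 234) (nat_lit 380) (nat_lit 0) (XT.nd (nat_lit 78) (nat_lit 228) (nat_lit 0) (XT.lf (nat_lit 0) (nat_lit 5771488334) (nat_lit 76) (nat_lit 11465272543) (nat_lit 152) (nat_lit 911559929) (nat_lit 32) (nat_lit 5) (nat_lit 33) (nat_lit 5) (nat_lit 34) (nat_lit 4) (nat_lit 331) (nat_lit 300) (nat_lit 269)) (XT.nd (nat_lit 78) (nat_lit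 0) (nat_lit 0) (XT.lf (nat_lit 0) (nat_lit 2254309636) (nat_lit 152) (nat_lit 3422752129) (nat_lit 228) (nat_lit 13469687920) (nat_lit 29) (nat_lit 5) (nat_lit 31) (nat_lit 5) (nat_lit 32) (nat_lit 5) (nat_lit 332) (nat_lit 300) (nat_lit 268)) (XT.lf (nat_lit 0) (nat_lit 12957854868) (nat_lit 228) (nat_lit 1999530077) (nat_lit 76) (nat_lit 5257120819) (nat_lit 29) (nat_lit 5) (nat_lit 32) (nat_lit 5) (nat_lit 30) (nat_lit 4) (nat_lit 333) (nat_lit 300) (nat_lit 267)))) (XT.nd (nat_lit 78) (nat_lit 304) (nat_lit 0) (XT.lf (nat_lit 0) (nat_lit 14316716635) (nat_lit 76) (nat_lit 6688676866) (nat_lit 152) (nat_lit 353121935) (nat_lit 28) (nat_lit 5) (nat_lit 29) (nat_lit 5) (nat_lit 30) (nat_lit 4) (nat_lit 334) (nat_lit 300) (nat_lit 266)) (XT.nd (nat_lit 78) (nat_lit 76) (nat_lit 0) (XT.lf (nat_lit 0) (nat_lit 7003066332) (nat_lit 228) (nat_lit 13179070926) (nat_lit 76) (nat_lit 2400020239)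 (nat_lit 25) (nat_lit 5) (nat_lit 28) (nat_lit 5) (nat_lit 26) (nat_lit 4) (nat_lit 335) (nat_lit 300) (nat_lit 265)) (XT.lf (nat_lit 0) (nat_lit 3342989804) (nat_lit 76) (nat_lit 11791793127) (nat_lit 152) (nat_lit 8758686847) (nat_lit 24) (nat_lit 5) (nat_lit 25) (nat_lit 5) (nat_lit 26) (nat_lit 4) (nat_lit 336) (nat_lit 300) (nat_lit 264)))))) (XT.nd (nat_lit 468) (nat_lit 304) (nat_lit 0) (XT.nd (nat_lit 234) (nat_lit 228) (nat_lit 0) (XT.nd (nat_lit 78) (nat_lit 304) (nat_lit 0) (XT.lf (nat_lit 0) (nat_lit 21503696948) (nat_lit 76) (nat_lit 2556796015) (nat_lit 152) (nat_lit 1242056964) (nat_lit 24) (nat_lit 5) (nat_lit 25) (nat_lit 5) (nat_lit 26) (nat_lit 4) (nat_lit 337) (nat_lit 300) (nat_lit 263)) (XT.nd (nat_lit 78) (nat_lit 76) (nat_lit 0) (XT.lf (nat_lit 0) (nat_lit 6921489357) (nat_lit 228) (nat_lit 12427293503) (nat_lit 76) (nat_lit 7456954602) (nat_lit 21) (nat_lit 5) (nat_lit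 24) (nat_lit 5) (nat_lit 22) (nat_lit 4) (nat_lit 338) (nat_lit 300) (nat_lit 262)) (XT.lf (nat_lit 0) (nat_lit 5695160357) (nat_lit 76) (nat_lit 10121116744) (nat_lit 152) (nat_lit 12605830294) (nat_lit 20) (nat_lit 5) (nat_lit 21) (nat_lit 5) (nat_lit 22) (nat_lit 4) (nat_lit 339) (nat_lit 300) (nat_lit 261)))) (XT.nd (nat_lit 78) (nat_lit 228) (nat_lit 0) (XT.lf (nat_lit 0) (nat_lit 25564775674) (nat_lit 152) (nat_lit 4585234946) (nat_lit 0) (nat_lit 10696896) (nat_lit 20) (nat_lit 5) (nat_lit 22) (nat_lit 4) (nat_lit 20) (nat_lit 4) (nat_lit 340) (nat_lit 300) (nat_lit 260)) (XT.nd (nat_lit 78) (nat_lit 76) (nat_lit 0) (XT.lf (nat_lit 0) (nat_lit 4268519453) (nat_lit 152) (nat_lit 16894949889) (nat_lit 76) (nat_lit 10854607865) (nat_lit 18) (nat_lit 5) (nat_lit 20) (nat_lit 5) (nat_lit 19) (nat_lit 4) (nat_lit 341) (nat_lit 300) (nat_lit 259)) (XT.lf (nat_lit 0) (nat_lit 2425911849)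 (nat_lit 76) (nat_lit 11308672043) (nat_lit 152) (nat_lit 20283033651) (nat_lit 17) (nat_lit 5) (nat_lit 18) (nat_lit 5) (nat_lit 19) (nat_lit 4) (nat_lit 342) (nat_lit 300) (nat_lit 258))))) (XT.nd (nat_lit 234) (nat_lit 152) (nat_lit 0) (XT.nd (nat_lit 78) (nat_lit 152) (nat_lit 0) (XT.lf (nat_lit 0) (nat_lit 23776398294) (nat_lit 76) (nat_lit 411255031) (nat_lit 152) (nat_lit 11978002190) (nat_lit 17) (nat_lit 5) (nat_lit 18) (nat_lit 5) (nat_lit 19) (nat_lit 4) (nat_lit 343) (nat_lit 300) (nat_lit 257)) (XT.nd (nat_lit 78) (nat_lit 76) (nat_lit 0) (XT.lf (nat_lit 0) (nat_lit 8325802351) (nat_lit 76) (nat_lit 27397897054) (nat_lit 76) (nat_lit 2749519455) (nat_lit 16) (nat_lit 4) (nat_lit 17) (nat_lit 5) (nat_lit 17) (nat_lit 4) (nat_lit 344) (nat_lit 300) (nat_lit 256)) (XT.lf (nat_lit 0) (nat_lit 7153783035) (nat_lit 152) (nat_lit 10047060167) (nat_lit 76) (nat_lit 23750549761) (nat_lit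 15) (nat_lit 5) (nat_lit 17) (nat_lit 5) (nat_lit 16) (nat_lit 4) (nat_lit 345) (nat_lit 300) (nat_lit 255)))) (XT.nd (nat_lit 78) (nat_lit 76) (nat_lit 0) (XT.lf (nat_lit 0) (nat_lit 11893984538) (nat_lit 76) (nat_lit 5991625991) (nat_lit 152) (nat_lit 25733342655) (nat_lit 14) (nat_lit 5) (nat_lit 15) (nat_lit 5) (nat_lit 16) (nat_lit 4) (nat_lit 346) (nat_lit 300) (nat_lit 254)) (XT.nd (nat_lit 78) (nat_lit 76) (nat_lit 0) (XT.lf (nat_lit 0) (nat_lit 29696735650) (nat_lit 152) (nat_lit 10739550679) (nat_lit 0) (nat_lit 6052608604) (nat_lit 14) (nat_lit 5) (nat_lit 16) (nat_lit 4) (nat_lit 14) (nat_lit 4) (nat_lit 347) (nat_lit 300) (nat_lit 253)) (XT.lf (nat_lit 0) (nat_lit 12119781188) (nat_lit 76) (nat_lit 30574526106) (nat_lit 76) (nat_lit 6882060126) (nat_lit 13) (nat_lit 4) (nat_lit 14) (nat_lit 5) (nat_lit 14) (nat_lit 4) (nat_lit 348) (nat_lit 300) (nat_lit 252))))))))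
noncomputable def xc48 : XT := (XT.nd (nat_lit 1716) (nat_lit 152) (nat_lit 0) (XT.nd (nat_lit 858) (nat_lit 228) (nat_lit 0) (XT.nd (nat_lit 390) (nat_lit 228) (nat_lit 0) (XT.nd (nat_lit 156) (nat_lit 76) (nat_lit 0) (XT.nd (nat_lit 78) (nat_lit 76) (nat_lit 0) (XT.lf (nat_lit 0) (nat_lit 3841464604) (nat_lit 152) (nat_lit 15862221812) (nat_lit 76) (nat_lit 33197034814) (nat_lit 12) (nat_lit 5) (nat_lit 14) (nat_lit 5) (nat_lit 13) (nat_lit 4) (nat_lit 349) (nat_lit 300) (nat_lit 251)) (XT.lf (nat_lit 0) (nat_lit 7500963811) (nat_lit 76) (nat_lit 7757392728) (nat_lit 152) (nat_lit 41223206614) (nat_lit 11) (nat_lit 5) (nat_lit 12) (nat_lit 5) (nat_lit 13) (nat_lit 4) (nat_lit 350) (nat_lit 300) (nat_lit 250))) (XT.nd (nat_lit 78) (nat_lit 76) (nat_lit 0) (XT.lf (nat_lit 0) (nat_lit 27907444676) (nat_lit 152) (nat_lit 27200946165) (nat_lit 0) (nat_lit 5224549344) (nat_lit 11) (nat_lit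 5) (nat_lit 13) (nat_lit 4) (nat_lit 11) (nat_lit 4) (nat_lit 351) (nat_lit 300) (nat_lit 249)) (XT.nd (nat_lit 78) (nat_lit 76) (nat_lit 0) (XT.lf (nat_lit 0) (nat_lit 41660082024) (nat_lit 152) (nat_lit 3884425439) (nat_lit 0) (nat_lit 18943348065) (nat_lit 11) (nat_lit 5) (nat_lit 13) (nat_lit 4) (nat_lit 11) (nat_lit 4) (nat_lit 352) (nat_lit 300) (nat_lit 248)) (XT.lf (nat_lit 0) (nat_lit 21930151245) (nat_lit 76) (nat_lit 34888890928) (nat_lit 76) (nat_lit 12140824906) (nat_lit 10) (nat_lit 4) (nat_lit 11) (nat_lit 5) (nat_lit 11) (nat_lit 4) (nat_lit 353) (nat_lit 300) (nat_lit 247))))) (XT.nd (nat_lit 234) (nat_lit 76) (nat_lit 0) (XT.nd (nat_lit 78) (nat_lit 152) (nat_lit 0) (XT.lf (nat_lit 0) (nat_lit 49882444085) (nat_lit 76) (nat_lit 23341314317) (nat_lit 76) (nat_lit 564237125) (nat_lit 10) (nat_lit 4) (nat_lit 11) (nat_lit 5) (nat_lit 11) (nat_lit 4) (nat_lit 354) (nat_lit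 300) (nat_lit 246)) (XT.nd (nat_lit 78) (nat_lit 0) (nat_lit 0) (XT.lf (nat_lit 0) (nat_lit 846914182) (nat_lit 76) (nat_lit 10690087557) (nat_lit 152) (nat_lit 67457028360) (nat_lit 8) (nat_lit 5) (nat_lit 9) (nat_lit 5) (nat_lit 10) (nat_lit 4) (nat_lit 355) (nat_lit 300) (nat_lit 245)) (XT.lf (nat_lit 0) (nat_lit 25024947294) (nat_lit 152) (nat_lit 56286003564) (nat_lit 0) (nat_lit 3283221783) (nat_lit 8) (nat_lit 5) (nat_lit 10) (nat_lit 4) (nat_lit 8) (nat_lit 4) (nat_lit 356) (nat_lit 300) (nat_lit 244)))) (XT.nd (nat_lit 78) (nat_lit 76) (nat_lit 0) (XT.lf (nat_lit 0) (nat_lit 39742965326) (nat_lit 152) (nat_lit 32912508939) (nat_lit 0) (nat_lit 17979306481) (nat_lit 8) (nat_lit 5) (nat_lit 10) (nat_lit 4) (nat_lit 8) (nat_lit 4) (nat_lit 357) (nat_lit 300) (nat_lit 243)) (XT.nd (nat_lit 78) (nat_lit 76) (nat_lit 0) (XT.lf (nat_lit 0) (nat_lit 55611371495) (nat_lit 152) (nat_lit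 7721220218) (nat_lit 0) (nat_lit 33827404006) (nat_lit 8) (nat_lit 5) (nat_lit 10) (nat_lit 4) (nat_lit 8) (nat_lit 4) (nat_lit 358) (nat_lit 300) (nat_lit 242)) (XT.lf (nat_lit 0) (nat_lit 20079824079) (nat_lit 76) (nat_lit 52957879048) (nat_lit 76) (nat_lit 31155107260) (nat_lit 7) (nat_lit 4) (nat_lit 8) (nat_lit 5) (nat_lit 8) (nat_lit 4) (nat_lit 359) (nat_lit 300) (nat_lit 241)))))) (XT.nd (nat_lit 390) (nat_lit 76) (nat_lit 0) (XT.nd (nat_lit 156) (nat_lit 152) (nat_lit 0) (XT.nd (nat_lit 78) (nat_lit 0) (nat_lit 0) (XT.lf (nat_lit 0) (nat_lit 50334542813) (nat_lit 76) (nat_lit 41634183062) (nat_lit 76) (nat_lit 19813999886) (nat_lit 7) (nat_lit 4) (nat_lit 8) (nat_lit 5) (nat_lit 8) (nat_lit 4) (nat_lit 360) (nat_lit 300) (nat_lit 240)) (XT.lf (nat_lit 0) (nat_lit 82966924794) (nat_lit 76) (nat_lit 29425162973) (nat_lit 76) (nat_lit 7588858141) (nat_lit 7) (nat_lit 4) (nat_lit 8)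 (nat_lit 5) (nat_lit 8) (nat_lit 4) (nat_lit 361) (nat_lit 300) (nat_lit 239))) (XT.nd (nat_lit 78) (nat_lit 76) (nat_lit 0) (XT.lf (nat_lit 0) (nat_lit 5413759905) (nat_lit 152) (nat_lit 10753024484) (nat_lit 76) (nat_lit 112664902551) (nat_lit 6) (nat_lit 5) (nat_lit 8) (nat_lit 5) (nat_lit 7) (nat_lit 4) (nat_lit 362) (nat_lit 300) (nat_lit 238)) (XT.nd (nat_lit 78) (nat_lit 0) (nat_lit 0) (XT.lf (nat_lit 0) (nat_lit 18020392684) (nat_lit 76) (nat_lit 1435922776) (nat_lit 152) (nat_lit 118914674784) (nat_lit 5) (nat_lit 5) (nat_lit 6) (nat_lit 5) (nat_lit 7) (nat_lit 4) (nat_lit 363) (nat_lit 300) (nat_lit 237)) (XT.lf (nat_lit 0) (nat_lit 35019932924) (nat_lit 152) (nat_lit 99449741857) (nat_lit 0) (nat_lit 14183883494) (nat_lit 5) (nat_lit 5) (nat_lit 7) (nat_lit 4) (nat_lit 5) (nat_lit 4) (nat_lit 364) (nat_lit 300) (nat_lit 236))))) (XT.nd (nat_lit 234) (nat_lit 76) (nat_lit 0) (XT.nd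 (nat_lit 78) (nat_lit 0) (nat_lit 0) (XT.lf (nat_lit 0) (nat_lit 51835542425) (nat_lit 152) (nat_lit 76934639902) (nat_lit 0) (nat_lit 30988207377) (nat_lit 5) (nat_lit 5) (nat_lit 7) (nat_lit 4) (nat_lit 5) (nat_lit 4) (nat_lit 365) (nat_lit 300) (nat_lit 235)) (XT.nd (nat_lit 78) (nat_lit 0) (nat_lit 0) (XT.lf (nat_lit 0) (nat_lit 69980373240) (nat_lit 152) (nat_lit 52649450090) (nat_lit 0) (nat_lit 49122588546) (nat_lit 5) (nat_lit 5) (nat_lit 7) (nat_lit 4) (nat_lit 5) (nat_lit 4) (nat_lit 366) (nat_lit 300) (nat_lit 234)) (XT.lf (nat_lit 0) (nat_lit 89561950294) (nat_lit 152) (nat_lit 26450260185) (nat_lit 0) (nat_lit 68694490002) (nat_lit 5) (nat_lit 5) (nat_lit 7) (nat_lit 4) (nat_lit 5) (nat_lit 4) (nat_lit 367) (nat_lit 300) (nat_lit 233)))) (XT.nd (nat_lit 78) (nat_lit 0) (nat_lit 0) (XT.lf (nat_lit 0) (nat_lit 1878301653) (nat_lit 76) (nat_lit 108847336461) (nat_lit 76) (nat_lit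 87970917282) (nat_lit 4) (nat_lit 4) (nat_lit 5) (nat_lit 5) (nat_lit 5) (nat_lit 4) (nat_lit 368) (nat_lit 300) (nat_lit 232)) (XT.nd (nat_lit 78) (nat_lit 0) (nat_lit 0) (XT.lf (nat_lit 0) (nat_lit 33392157565) (nat_lit 76) (nat_lit 100637888303) (nat_lit 76) (nat_lit 79753173859) (nat_lit 4) (nat_lit 4) (nat_lit 5) (nat_lit 5) (nat_lit 5) (nat_lit 4) (nat_lit 369) (nat_lit 300) (nat_lit 231)) (XT.lf (nat_lit 0) (nat_lit 67403491272) (nat_lit 76) (nat_lit 91783165379) (nat_lit 76) (nat_lit 70890770133) (nat_lit 4) (nat_lit 4) (nat_lit 5) (nat_lit 5) (nat_lit 5) (nat_lit 4) (nat_lit 370) (nat_lit 300) (nat_lit 230))))))) (XT.nd (nat_lit 858) (nat_lit 0) (nat_lit 0) (XT.nd (nat_lit 390) (nat_lit 152) (nat_lit 0) (XT.nd (nat_lit 156) (nat_lit 0) (nat_lit 0) (XT.nd (nat_lit 78) (nat_lit 0) (nat_lit 0) (XT.lf (nat_lit 0) (nat_lit 104113851417) (nat_lit 76) (nat_lit 82230695258) (nat_lit 76)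 (nat_lit 61331188159) (nat_lit 4) (nat_lit 4) (nat_lit 5) (nat_lit 5) (nat_lit 5) (nat_lit 4) (nat_lit 371) (nat_lit 300) (nat_lit 229)) (XT.lf (nat_lit 0) (nat_lit 143740780876) (nat_lit 76) (nat_lit 71923870708) (nat_lit 76) (nat_lit 51017778560) (nat_lit 4) (nat_lit 4) (nat_lit 5) (nat_lit 5) (nat_lit 5) (nat_lit 4) (nat_lit 372) (nat_lit 300) (nat_lit 228))) (XT.nd (nat_lit 78) (nat_lit 0) (nat_lit 0) (XT.lf (nat_lit 0) (nat_lit 186519105897) (nat_lit 76) (nat_lit 60801614251) (nat_lit 76) (nat_lit 39889424835) (nat_lit 4) (nat_lit 4) (nat_lit 5) (nat_lit 5) (nat_lit 5) (nat_lit 4) (nat_lit 373) (nat_lit 300) (nat_lit 227)) (XT.nd (nat_lit 78) (nat_lit 0) (nat_lit 0) (XT.lf (nat_lit 0) (nat_lit 232702327666) (nat_lit 76) (nat_lit 48798016220) (nat_lit 76) (nat_lit 27880181185) (nat_lit 4) (nat_lit 4) (nat_lit 5) (nat_lit 5) (nat_lit 5) (nat_lit 4) (nat_lit 374) (nat_lit 300) (nat_lit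 226)) (XT.lf (nat_lit 0) (nat_lit 282564124533) (nat_lit 76) (nat_lit 35841944181) (nat_lit 76) (nat_lit 14918881722) (nat_lit 4) (nat_lit 4) (nat_lit 5) (nat_lit 5) (nat_lit 5) (nat_lit 4) (nat_lit 375) (nat_lit 300) (nat_lit 225))))) (XT.nd (nat_lit 234) (nat_lit 0) (nat_lit 0) (XT.nd (nat_lit 78) (nat_lit 152) (nat_lit 0) (XT.lf (nat_lit 0) (nat_lit 336399973814) (nat_lit 76) (nat_lit 21856621411) (nat_lit 76) (nat_lit 928718744) (nat_lit 4) (nat_lit 4) (nat_lit 5) (nat_lit 5) (nat_lit 5) (nat_lit 4) (nat_lit 376) (nat_lit 300) (nat_lit 224)) (XT.nd (nat_lit 78) (nat_lit 0) (nat_lit 0) (XT.lf (nat_lit 0) (nat_lit 7430581955) (nat_lit 76) (nat_lit 6405011359) (nat_lit 152) (nat_lit 373262404165) (nat_lit 2) (nat_lit 5) (nat_lit 3) (nat_lit 5) (nat_lit 4) (nat_lit 4) (nat_lit 377) (nat_lit 300) (nat_lit 223)) (XT.lf (nat_lit 0) (nat_lit 30305918039) (nat_lit 152) (nat_lit 376542785383)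 (nat_lit 0) (nat_lit 10366361811) (nat_lit 2) (nat_lit 5) (nat_lit 4) (nat_lit 4) (nat_lit 2) (nat_lit 4) (nat_lit 378) (nat_lit 300) (nat_lit 222)))) (XT.nd (nat_lit 78) (nat_lit 0) (nat_lit 0) (XT.lf (nat_lit 0) (nat_lit 48195401998) (nat_lit 152) (nat_lit 373288834323) (nat_lit 0) (nat_lit 28252186425) (nat_lit 2) (nat_lit 5) (nat_lit 4) (nat_lit 4) (nat_lit 2) (nat_lit 4) (nat_lit 379) (nat_lit 300) (nat_lit 221)) (XT.nd (nat_lit 78) (nat_lit 0) (nat_lit 0) (XT.lf (nat_lit 0) (nat_lit 67510056771) (nat_lit 152) (nat_lit 369786279496) (nat_lit 0) (nat_lit 47563452915) (nat_lit 2) (nat_lit 5) (nat_lit 4) (nat_lit 4) (nat_lit 2) (nat_lit 4) (nat_lit 380) (nat_lit 300) (nat_lit 220)) (XT.lf (nat_lit 0) (nat_lit 88364339572) (nat_lit 152) (nat_lit 366014365020) (nat_lit 0) (nat_lit 68414598416) (nat_lit 2) (nat_lit 5) (nat_lit 4) (nat_lit 4) (nat_lit 2) (nat_lit 4) (nat_lit 381) (nat_lit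 300) (nat_lit 219)))))) (XT.nd (nat_lit 390) (nat_lit 0) (nat_lit 0) (XT.nd (nat_lit 156) (nat_lit 0) (nat_lit 0) (XT.nd (nat_lit 78) (nat_lit 0) (nat_lit 0) (XT.lf (nat_lit 0) (nat_lit 110881831336) (nat_lit 152) (nat_lit 361950738809) (nat_lit 0) (nat_lit 90929185274) (nat_lit 2) (nat_lit 5) (nat_lit 4) (nat_lit 4) (nat_lit 2) (nat_lit 4) (nat_lit 382) (nat_lit 300) (nat_lit 218)) (XT.lf (nat_lit 0) (nat_lit 135195969051) (nat_lit 152) (nat_lit 357571320116) (nat_lit 0) (nat_lit 115240633260) (nat_lit 2) (nat_lit 5) (nat_lit 4) (nat_lit 4) (nat_lit 2) (nat_lit 4) (nat_lit 383) (nat_lit 300) (nat_lit 217))) (XT.nd (nat_lit 78) (nat_lit 0) (nat_lit 0) (XT.lf (nat_lit 0) (nat_lit 161450836496) (nat_lit 152) (nat_lit 352850156830) (nat_lit 0) (nat_lit 141493010216) (nat_lit 2) (nat_lit 5) (nat_lit 4) (nat_lit 4) (nat_lit 2) (nat_lit 4) (nat_lit 384) (nat_lit 300) (nat_lit 216)) (XT.nd (nat_lit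 78) (nat_lit 0) (nat_lit 0) (XT.lf (nat_lit 0) (nat_lit 189802018070) (nat_lit 152) (nat_lit 347759271687) (nat_lit 0) (nat_lit 169841885782) (nat_lit 2) (nat_lit 5) (nat_lit 4) (nat_lit 4) (nat_lit 2) (nat_lit 4) (nat_lit 385) (nat_lit 300) (nat_lit 215)) (XT.lf (nat_lit 0) (nat_lit 220417520777) (nat_lit 152) (nat_lit 342268496479) (nat_lit 0) (nat_lit 200455253295) (nat_lit 2) (nat_lit 5) (nat_lit 4) (nat_lit 4) (nat_lit 2) (nat_lit 4) (nat_lit 386) (nat_lit 300) (nat_lit 214))))) (XT.nd (nat_lit 234) (nat_lit 0) (nat_lit 0) (XT.nd (nat_lit 78) (nat_lit 0) (nat_lit 0) (XT.lf (nat_lit 0) (nat_lit 253478769816) (nat_lit 152) (nat_lit 336345293279) (nat_lit 0) (nat_lit 233514525304) (nat_lit 2) (nat_lit 5) (nat_lit 4) (nat_lit 4) (nat_lit 2) (nat_lit 4) (nat_lit 387) (nat_lit 300) (nat_lit 213)) (XT.nd (nat_lit 78) (nat_lit 0) (nat_lit 0) (XT.lf (nat_lit 0) (nat_lit 289181683701) (nat_lit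 152) (nat_lit 329954561623) (nat_lit 0) (nat_lit 269215608605) (nat_lit 2) (nat_lit 5) (nat_lit 4) (nat_lit 4) (nat_lit 2) (nat_lit 4) (nat_lit 388) (nat_lit 300) (nat_lit 212)) (XT.lf (nat_lit 0) (nat_lit 327737835255) (nat_lit 152) (nat_lit 323058430508) (nat_lit 0) (nat_lit 307770065173) (nat_lit 2) (nat_lit 5) (nat_lit 4) (nat_lit 4) (nat_lit 2) (nat_lit 4) (nat_lit 389) (nat_lit 300) (nat_lit 211)))) (XT.nd (nat_lit 39936) (nat_lit 0) (nat_lit 11172) (XT.lf (nat_lit 0) (nat_lit 369375705375) (nat_lit 152) (nat_lit 315616033974) (nat_lit 0) (nat_lit 349406365863) (nat_lit 2) (nat_lit 5) (nat_lit 4) (nat_lit 4) (nat_lit 2) (nat_lit 4) (nat_lit 390) (nat_lit 300) (nat_lit 210)) (XT.nd (nat_lit 78) (nat_lit 228) (nat_lit 0) (XT.lf (nat_lit 0) (nat_lit 1349583342) (nat_lit 228) (nat_lit 942748135) (nat_lit 228) (nat_lit 942748135) (nat_lit 152) (nat_lit 3) (nat_lit 155) (nat_lit 3) (nat_lit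 155) (nat_lit 5) (nat_lit 301) (nat_lit 301) (nat_lit 298)) (XT.lf (nat_lit 0) (nat_lit 473837498) (nat_lit 228) (nat_lit 3413995733) (nat_lit 304) (nat_lit 2621733162) (nat_lit 149) (nat_lit 5) (nat_lit 152) (nat_lit 3) (nat_lit 153) (nat_lit 5) (nat_lit 302) (nat_lit 301) (nat_lit 297))))))))
noncomputable def xc49 : XT := (XT.nd (nat_lit 1716) (nat_lit 2508) (nat_lit 0) (XT.nd (nat_lit 858) (nat_lit 3040) (nat_lit 0) (XT.nd (nat_lit 390) (nat_lit 3648) (nat_lit 0) (XT.nd (nat_lit 156) (nat_lit 684) (nat_lit 0) (XT.nd (nat_lit 78) (nat_lit 304) (nat_lit 0) (XT.lf (nat_lit 76) (nat_lit 1743325553) (nat_lit 0) (nat_lit 2819309673) (nat_lit 304) (nat_lit 2005470776) (nat_lit 150) (nat_lit 5) (nat_lit 149) (nat_lit 5) (nat_lit 153) (nat_lit 5) (nat_lit 303) (nat_lit 301) (nat_lit 296)) (XT.lf (nat_lit 76) (nat_lit 542468903) (nat_lit 0) (nat_lit 1393290054) (nat_lit 380) (nat_lit 4711343605)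 (nat_lit 146) (nat_lit 5) (nat_lit 145) (nat_lit 5) (nat_lit 150) (nat_lit 5) (nat_lit 304) (nat_lit 301) (nat_lit 295))) (XT.nd (nat_lit 78) (nat_lit 760) (nat_lit 0) (XT.lf (nat_lit 0) (nat_lit 5834084222) (nat_lit 304) (nat_lit 509713161) (nat_lit 76) (nat_lit 402106094) (nat_lit 146) (nat_lit 5) (nat_lit 150) (nat_lit 5) (nat_lit 147) (nat_lit 5) (nat_lit 305) (nat_lit 301) (nat_lit 294)) (XT.nd (nat_lit 78) (nat_lit 380) (nat_lit 0) (XT.lf (nat_lit 0) (nat_lit 2844761333) (nat_lit 380) (nat_lit 1464007681) (nat_lit 76) (nat_lit 2554230508) (nat_lit 141) (nat_lit 5) (nat_lit 146) (nat_lit 5) (nat_lit 142) (nat_lit 5) (nat_lit 306) (nat_lit 301) (nat_lit 293)) (XT.lf (nat_lit 0) (nat_lit 4706914779) (nat_lit 380) (nat_lit 1913588729) (nat_lit 456) (nat_lit 381280516) (nat_lit 136) (nat_lit 5) (nat_lit 141) (nat_lit 5) (nat_lit 142) (nat_lit 5) (nat_lit 307) (nat_lit 301) (nat_lit 292)))))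 (XT.nd (nat_lit 234) (nat_lit 1900) (nat_lit 0) (XT.nd (nat_lit 78) (nat_lit 1216) (nat_lit 0) (XT.lf (nat_lit 0) (nat_lit 3220410410) (nat_lit 532) (nat_lit 3064182436) (nat_lit 76) (nat_lit 875471876) (nat_lit 129) (nat_lit 5) (nat_lit 136) (nat_lit 5) (nat_lit 130) (nat_lit 5) (nat_lit 308) (nat_lit 301) (nat_lit 291)) (XT.nd (nat_lit 78) (nat_lit 684) (nat_lit 0) (XT.lf (nat_lit 0) (nat_lit 3581602836) (nat_lit 532) (nat_lit 3348331738) (nat_lit 608) (nat_lit 409595594) (nat_lit 122) (nat_lit 5) (nat_lit 129) (nat_lit 5) (nat_lit 130) (nat_lit 5) (nat_lit 309) (nat_lit 301) (nat_lit 290)) (XT.lf (nat_lit 0) (nat_lit 3114989343) (nat_lit 684) (nat_lit 4399860587) (nat_lit 76) (nat_lit 25224784) (nat_lit 113) (nat_lit 5) (nat_lit 122) (nat_lit 5) (nat_lit 114) (nat_lit 5) (nat_lit 310) (nat_lit 301) (nat_lit 289)))) (XT.nd (nat_lit 78) (nat_lit 1216) (nat_lit 0) (XT.lf (nat_lit 0) (nat_lit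 2747258068) (nat_lit 684) (nat_lit 4061154905) (nat_lit 760) (nat_lit 953251163) (nat_lit 104) (nat_lit 5) (nat_lit 113) (nat_lit 5) (nat_lit 114) (nat_lit 5) (nat_lit 311) (nat_lit 301) (nat_lit 288)) (XT.nd (nat_lit 78) (nat_lit 380) (nat_lit 0) (XT.lf (nat_lit 0) (nat_lit 2413210270) (nat_lit 760) (nat_lit 155829554) (nat_lit 836) (nat_lit 5436998562) (nat_lit 93) (nat_lit 5) (nat_lit 103) (nat_lit 5) (nat_lit 104) (nat_lit 5) (nat_lit 312) (nat_lit 301) (nat_lit 287)) (XT.lf (nat_lit 0) (nat_lit 2087527779) (nat_lit 380) (nat_lit 4199222394) (nat_lit 456) (nat_lit 1985404480) (nat_lit 88) (nat_lit 5) (nat_lit 93) (nat_lit 5) (nat_lit 94) (nat_lit 5) (nat_lit 313) (nat_lit 301) (nat_lit 286)))))) (XT.nd (nat_lit 390) (nat_lit 1368) (nat_lit 0) (XT.nd (nat_lit 156) (nat_lit 912) (nat_lit 0) (XT.nd (nat_lit 78) (nat_lit 380) (nat_lit 0) (XT.lf (nat_lit 0) (nat_lit 1591705038) (nat_lit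 380) (nat_lit 6756991258) (nat_lit 76) (nat_lit 214532837) (nat_lit 83) (nat_lit 5) (nat_lit 88) (nat_lit 5) (nat_lit 84) (nat_lit 5) (nat_lit 314) (nat_lit 301) (nat_lit 285)) (XT.lf (nat_lit 0) (nat_lit 1482320185) (nat_lit 380) (nat_lit 3892243236) (nat_lit 456) (nat_lit 3502207266) (nat_lit 78) (nat_lit 5) (nat_lit 83) (nat_lit 5) (nat_lit 84) (nat_lit 5) (nat_lit 315) (nat_lit 301) (nat_lit 284))) (XT.nd (nat_lit 78) (nat_lit 532) (nat_lit 0) (XT.lf (nat_lit 0) (nat_lit 184937325) (nat_lit 380) (nat_lit 8030196099) (nat_lit 76) (nat_lit 1002899589) (nat_lit 73) (nat_lit 5) (nat_lit 78) (nat_lit 5) (nat_lit 74) (nat_lit 5) (nat_lit 316) (nat_lit 301) (nat_lit 283)) (XT.nd (nat_lit 78) (nat_lit 228) (nat_lit 0) (XT.lf (nat_lit 0) (nat_lit 799912440) (nat_lit 304) (nat_lit 3259766269) (nat_lit 380) (nat_lit 5523497418) (nat_lit 69) (nat_lit 5) (nat_lit 73) (nat_lit 5) (nat_lit 74) (nat_lit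 5) (nat_lit 317) (nat_lit 301) (nat_lit 282)) (XT.lf (nat_lit 0) (nat_lit 392436112) (nat_lit 228) (nat_lit 7847771475) (nat_lit 304) (nat_lit 1737733379) (nat_lit 66) (nat_lit 5) (nat_lit 69) (nat_lit 5) (nat_lit 70) (nat_lit 5) (nat_lit 318) (nat_lit 301) (nat_lit 281))))) (XT.nd (nat_lit 234) (nat_lit 684) (nat_lit 0) (XT.nd (nat_lit 78) (nat_lit 608) (nat_lit 0) (XT.lf (nat_lit 0) (nat_lit 2308080858) (nat_lit 304) (nat_lit 108521413) (nat_lit 76) (nat_lit 7984404879) (nat_lit 65) (nat_lit 5) (nat_lit 69) (nat_lit 5) (nat_lit 66) (nat_lit 5) (nat_lit 319) (nat_lit 301) (nat_lit 280)) (XT.nd (nat_lit 78) (nat_lit 304) (nat_lit 0) (XT.lf (nat_lit 0) (nat_lit 6668152584) (nat_lit 380) (nat_lit 705245545) (nat_lit 76) (nat_lit 3480686286) (nat_lit 61) (nat_lit 5) (nat_lit 66) (nat_lit 5) (nat_lit 62) (nat_lit 5) (nat_lit 320) (nat_lit 301) (nat_lit 279)) (XT.lf (nat_lit 0) (nat_lit 74444881)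 (nat_lit 304) (nat_lit 1391622792) (nat_lit 76) (nat_lit 9875363501) (nat_lit 57) (nat_lit 5) (nat_lit 61) (nat_lit 5) (nat_lit 58) (nat_lit 5) (nat_lit 321) (nat_lit 301) (nat_lit 278)))) (XT.nd (nat_lit 78) (nat_lit 456) (nat_lit 0) (XT.lf (nat_lit 0) (nat_lit 4622807821) (nat_lit 304) (nat_lit 2300042834) (nat_lit 76) (nat_lit 4936927186) (nat_lit 54) (nat_lit 5) (nat_lit 58) (nat_lit 5) (nat_lit 55) (nat_lit 5) (nat_lit 322) (nat_lit 301) (nat_lit 277)) (XT.nd (nat_lit 78) (nat_lit 304) (nat_lit 0) (XT.lf (nat_lit 0) (nat_lit 9076854824) (nat_lit 152) (nat_lit 505570005) (nat_lit 228) (nat_lit 2834922043) (nat_lit 52) (nat_lit 5) (nat_lit 54) (nat_lit 5) (nat_lit 55) (nat_lit 5) (nat_lit 323) (nat_lit 301) (nat_lit 276)) (XT.lf (nat_lit 0) (nat_lit 1994917724) (nat_lit 304) (nat_lit 4652929489) (nat_lit 76) (nat_lit 6363432325) (nat_lit 48) (nat_lit 5) (nat_lit 52) (nat_lit 5) (nat_lit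 49) (nat_lit 5) (nat_lit 324) (nat_lit 301) (nat_lit 275))))))) (XT.nd (nat_lit 858) (nat_lit 912) (nat_lit 0) (XT.nd (nat_lit 390) (nat_lit 684) (nat_lit 0) (XT.nd (nat_lit 156) (nat_lit 532) (nat_lit 0) (XT.nd (nat_lit 78) (nat_lit 228) (nat_lit 0) (XT.lf (nat_lit 0) (nat_lit 7169167264) (nat_lit 228) (nat_lit 6208293565) (nat_lit 76) (nat_lit 270176214) (nat_lit 46) (nat_lit 5) (nat_lit 49) (nat_lit 5) (nat_lit 47) (nat_lit 5) (nat_lit 325) (nat_lit 301) (nat_lit 274)) (XT.lf (nat_lit 0) (nat_lit 6223790731) (nat_lit 228) (nat_lit 6698772399) (nat_lit 304) (nat_lit 1404173360) (nat_lit 43) (nat_lit 5) (nat_lit 46) (nat_lit 5) (nat_lit 47) (nat_lit 5) (nat_lit 326) (nat_lit 301) (nat_lit 273))) (XT.nd (nat_lit 78) (nat_lit 304) (nat_lit 0) (XT.lf (nat_lit 0) (nat_lit 4018007669) (nat_lit 228) (nat_lit 10354112271) (nat_lit 76) (nat_lit 681324580) (nat_lit 40) (nat_lit 5) (nat_lit 43)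 (nat_lit 5) (nat_lit 41) (nat_lit 5) (nat_lit 327) (nat_lit 301) (nat_lit 272)) (XT.nd (nat_lit 78) (nat_lit 152) (nat_lit 0) (XT.lf (nat_lit 0) (nat_lit 2744458201) (nat_lit 152) (nat_lit 7263294972) (nat_lit 228) (nat_lit 5820312263) (nat_lit 38) (nat_lit 5) (nat_lit 40) (nat_lit 5) (nat_lit 41) (nat_lit 5) (nat_lit 328) (nat_lit 301) (nat_lit 271)) (XT.lf (nat_lit 0) (nat_lit 424467189) (nat_lit 152) (nat_lit 16136458387) (nat_lit 228) (nat_lit 99588898) (nat_lit 36) (nat_lit 5) (nat_lit 38) (nat_lit 5) (nat_lit 39) (nat_lit 4) (nat_lit 329) (nat_lit 301) (nat_lit 270))))) (XT.nd (nat_lit 234) (nat_lit 304) (nat_lit 0) (XT.nd (nat_lit 78) (nat_lit 304) (nat_lit 0) (XT.lf (nat_lit 0) (nat_lit 6129922441) (nat_lit 228) (nat_lit 2469213489) (nat_lit 76) (nat_lit 8943456126) (nat_lit 35) (nat_lit 5) (nat_lit 38) (nat_lit 5) (nat_lit 36) (nat_lit 5) (nat_lit 330) (nat_lit 301) (nat_lit 269))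 (XT.nd (nat_lit 78) (nat_lit 152) (nat_lit 0) (XT.lf (nat_lit 0) (nat_lit 12634702310) (nat_lit 152) (nat_lit 316517478) (nat_lit 228) (nat_lit 5539146535) (nat_lit 33) (nat_lit 5) (nat_lit 35) (nat_lit 5) (nat_lit 36) (nat_lit 5) (nat_lit 331) (nat_lit 301) (nat_lit 268)) (XT.lf (nat_lit 0) (nat_lit 1013007443) (nat_lit 152) (nat_lit 9989489237) (nat_lit 76) (nat_lit 8499164484) (nat_lit 31) (nat_lit 5) (nat_lit 33) (nat_lit 5) (nat_lit 32) (nat_lit 5) (nat_lit 332) (nat_lit 301) (nat_lit 267)))) (XT.nd (nat_lit 78) (nat_lit 152) (nat_lit 0) (XT.lf (nat_lit 0) (nat_lit 5650660069) (nat_lit 152) (nat_lit 2351131673) (nat_lit 228) (nat_lit 12582248639) (nat_lit 29) (nat_lit 5) (nat_lit 31) (nat_lit 5) (nat_lit 32) (nat_lit 5) (nat_lit 333) (nat_lit 301) (nat_lit 266)) (XT.nd (nat_lit 78) (nat_lit 76) (nat_lit 0) (XT.lf (nat_lit 0) (nat_lit 915598346) (nat_lit 76) (nat_lit 14844634721) (nat_lit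 152) (nat_lit 5982292866) (nat_lit 28) (nat_lit 5) (nat_lit 29) (nat_lit 5) (nat_lit 30) (nat_lit 4) (nat_lit 334) (nat_lit 301) (nat_lit 265)) (XT.lf (nat_lit 0) (nat_lit 1326134171) (nat_lit 152) (nat_lit 4628962314) (nat_lit 76) (nat_lit 17026880890) (nat_lit 27) (nat_lit 5) (nat_lit 29) (nat_lit 5) (nat_lit 28) (nat_lit 5) (nat_lit 335) (nat_lit 301) (nat_lit 264)))))) (XT.nd (nat_lit 390) (nat_lit 380) (nat_lit 0) (XT.nd (nat_lit 156) (nat_lit 304) (nat_lit 0) (XT.nd (nat_lit 78) (nat_lit 76) (nat_lit 0) (XT.lf (nat_lit 0) (nat_lit 9196549595) (nat_lit 228) (nat_lit 11330010472) (nat_lit 76) (nat_lit 3779811808) (nat_lit 25) (nat_lit 5) (nat_lit 28) (nat_lit 5) (nat_lit 26) (nat_lit 4) (nat_lit 336) (nat_lit 301) (nat_lit 263)) (XT.lf (nat_lit 0) (nat_lit 6387637494) (nat_lit 76) (nat_lit 11513545446) (nat_lit 152) (nat_lit 7825338806) (nat_lit 24) (nat_lit 5) (nat_lit 25) (nat_lit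 5) (nat_lit 26) (nat_lit 4) (nat_lit 337) (nat_lit 301) (nat_lit 262))) (XT.nd (nat_lit 78) (nat_lit 228) (nat_lit 0) (XT.lf (nat_lit 0) (nat_lit 166089574) (nat_lit 152) (nat_lit 1461334416) (nat_lit 76) (nat_lit 25626579679) (nat_lit 23) (nat_lit 5) (nat_lit 25) (nat_lit 5) (nat_lit 24) (nat_lit 5) (nat_lit 338) (nat_lit 301) (nat_lit 261)) (XT.nd (nat_lit 78) (nat_lit 76) (nat_lit 0) (XT.lf (nat_lit 0) (nat_lit 8887785275) (nat_lit 228) (nat_lit 10861940534) (nat_lit 76) (nat_lit 9129315369) (nat_lit 21) (nat_lit 5) (nat_lit 24) (nat_lit 5) (nat_lit 22) (nat_lit 4) (nat_lit 339) (nat_lit 301) (nat_lit 260)) (XT.lf (nat_lit 0) (nat_lit 8599075300) (nat_lit 76) (nat_lit 9828670280) (nat_lit 152) (nat_lit 12200334644) (nat_lit 20) (nat_lit 5) (nat_lit 21) (nat_lit 5) (nat_lit 22) (nat_lit 4) (nat_lit 340) (nat_lit 301) (nat_lit 259))))) (XT.nd (nat_lit 234) (nat_lit 152) (nat_lit 0) (XT.nd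 (nat_lit 78) (nat_lit 228) (nat_lit 0) (XT.lf (nat_lit 0) (nat_lit 28872340819) (nat_lit 152) (nat_lit 2638266289) (nat_lit 0) (nat_lit 999386514) (nat_lit 20) (nat_lit 5) (nat_lit 22) (nat_lit 4) (nat_lit 20) (nat_lit 4) (nat_lit 341) (nat_lit 301) (nat_lit 258)) (XT.nd (nat_lit 78) (nat_lit 76) (nat_lit 0) (XT.lf (nat_lit 0) (nat_lit 5833561873) (nat_lit 152) (nat_lit 15992458356) (nat_lit 76) (nat_lit 12691927104) (nat_lit 18) (nat_lit 5) (nat_lit 20) (nat_lit 5) (nat_lit 19) (nat_lit 4) (nat_lit 342) (nat_lit 301) (nat_lit 257)) (XT.lf (nat_lit 0) (nat_lit 4776112425) (nat_lit 76) (nat_lit 11223828100) (nat_lit 152) (nat_lit 20680388401) (nat_lit 17) (nat_lit 5) (nat_lit 18) (nat_lit 5) (nat_lit 19) (nat_lit 4) (nat_lit 343) (nat_lit 301) (nat_lit 256)))) (XT.nd (nat_lit 78) (nat_lit 152) (nat_lit 0) (XT.lf (nat_lit 0) (nat_lit 27210211985) (nat_lit 152) (nat_lit 11337003852) (nat_lit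 0) (nat_lit 456973573) (nat_lit 17) (nat_lit 5) (nat_lit 19) (nat_lit 4) (nat_lit 17) (nat_lit 4) (nat_lit 344) (nat_lit 301) (nat_lit 255)) (XT.nd (nat_lit 78) (nat_lit 76) (nat_lit 0) (XT.lf (nat_lit 0) (nat_lit 10939823930) (nat_lit 76) (nat_lit 28685592746) (nat_lit 76) (nat_lit 1873152676) (nat_lit 16) (nat_lit 4) (nat_lit 17) (nat_lit 5) (nat_lit 17) (nat_lit 4) (nat_lit 345) (nat_lit 301) (nat_lit 254)) (XT.lf (nat_lit 0) (nat_lit 8708714365) (nat_lit 152) (nat_lit 9014391971) (nat_lit 76) (nat_lit 26454988013) (nat_lit 15) (nat_lit 5) (nat_lit 17) (nat_lit 5) (nat_lit 16) (nat_lit 4) (nat_lit 346) (nat_lit 301) (nat_lit 253))))))))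
noncomputable def xc50 : XT := (XT.nd (nat_lit 1716) (nat_lit 228) (nat_lit 0) (XT.nd (nat_lit 858) (nat_lit 228) (nat_lit 0) (XT.nd (nat_lit 390) (nat_lit 228) (nat_lit 0) (XT.nd (nat_lit 156) (nat_lit 228) (nat_lit 0) (XT.nd (nat_lit 78) (nat_lit 0) (nat_lit 0) (XT.lf (nat_lit 0) (nat_lit 14602127170) (nat_lit 76) (nat_lit 5651599400) (nat_lit 152) (nat_lit 26807621531) (nat_lit 14) (nat_lit 5) (nat_lit 15) (nat_lit 5) (nat_lit 16) (nat_lit 4) (nat_lit 347) (nat_lit 301) (nat_lit 252)) (XT.lf (nat_lit 0) (nat_lit 32952159366) (nat_lit 152) (nat_lit 9940425148) (nat_lit 0) (nat_lit 7271198903) (nat_lit 14) (nat_lit 5) (nat_lit 16) (nat_lit 4) (nat_lit 14) (nat_lit 4) (nat_lit 348) (nat_lit 301) (nat_lit 251))) (XT.nd (nat_lit 78) (nat_lit 152) (nat_lit 0) (XT.lf (nat_lit 0) (nat_lit 14675586024) (nat_lit 76) (nat_lit 32273554251) (nat_lit 76) (nat_lit 6551150944) (nat_lit 13) (nat_lit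 4) (nat_lit 14) (nat_lit 5) (nat_lit 14) (nat_lit 4) (nat_lit 349) (nat_lit 301) (nat_lit 250)) (XT.nd (nat_lit 78) (nat_lit 76) (nat_lit 0) (XT.lf (nat_lit 0) (nat_lit 4938838550) (nat_lit 152) (nat_lit 15636157282) (nat_lit 76) (nat_lit 36518085218) (nat_lit 12) (nat_lit 5) (nat_lit 14) (nat_lit 5) (nat_lit 13) (nat_lit 4) (nat_lit 350) (nat_lit 301) (nat_lit 249)) (XT.lf (nat_lit 0) (nat_lit 9531110475) (nat_lit 76) (nat_lit 7701776033) (nat_lit 152) (nat_lit 43729328032) (nat_lit 11) (nat_lit 5) (nat_lit 12) (nat_lit 5) (nat_lit 13) (nat_lit 4) (nat_lit 351) (nat_lit 301) (nat_lit 248))))) (XT.nd (nat_lit 234) (nat_lit 152) (nat_lit 0) (XT.nd (nat_lit 78) (nat_lit 76) (nat_lit 0) (XT.lf (nat_lit 0) (nat_lit 30847835575) (nat_lit 152) (nat_lit 28027590635) (nat_lit 0) (nat_lit 6248592208) (nat_lit 11) (nat_lit 5) (nat_lit 13) (nat_lit 4) (nat_lit 11) (nat_lit 4) (nat_lit 352) (nat_lit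 301) (nat_lit 247)) (XT.nd (nat_lit 78) (nat_lit 76) (nat_lit 0) (XT.lf (nat_lit 0) (nat_lit 45648254628) (nat_lit 152) (nat_lit 2945706120) (nat_lit 0) (nat_lit 21020000092) (nat_lit 11) (nat_lit 5) (nat_lit 13) (nat_lit 4) (nat_lit 11) (nat_lit 4) (nat_lit 353) (nat_lit 301) (nat_lit 246)) (XT.lf (nat_lit 0) (nat_lit 24879736110) (nat_lit 76) (nat_lit 37110309842) (nat_lit 76) (nat_lit 12455193113) (nat_lit 10) (nat_lit 4) (nat_lit 11) (nat_lit 5) (nat_lit 11) (nat_lit 4) (nat_lit 354) (nat_lit 301) (nat_lit 245)))) (XT.nd (nat_lit 78) (nat_lit 152) (nat_lit 0) (XT.lf (nat_lit 0) (nat_lit 54979681060) (nat_lit 76) (nat_lit 24681126536) (nat_lit 76) (nat_lit 1137406) (nat_lit 10) (nat_lit 4) (nat_lit 11) (nat_lit 5) (nat_lit 11) (nat_lit 4) (nat_lit 355) (nat_lit 301) (nat_lit 244)) (XT.nd (nat_lit 78) (nat_lit 0) (nat_lit 0) (XT.lf (nat_lit 0) (nat_lit 1991957807) (nat_lit 76) (nat_lit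 11029982162) (nat_lit 152) (nat_lit 72263396577) (nat_lit 8) (nat_lit 5) (nat_lit 9) (nat_lit 5) (nat_lit 10) (nat_lit 4) (nat_lit 356) (nat_lit 301) (nat_lit 243)) (XT.lf (nat_lit 0) (nat_lit 27554742672) (nat_lit 152) (nat_lit 59772716275) (nat_lit 0) (nat_lit 4007749141) (nat_lit 8) (nat_lit 5) (nat_lit 10) (nat_lit 4) (nat_lit 8) (nat_lit 4) (nat_lit 357) (nat_lit 301) (nat_lit 242)))))) (XT.nd (nat_lit 390) (nat_lit 152) (nat_lit 0) (XT.nd (nat_lit 156) (nat_lit 76) (nat_lit 0) (XT.nd (nat_lit 78) (nat_lit 0) (nat_lit 0) (XT.lf (nat_lit 0) (nat_lit 43411105881) (nat_lit 152) (nat_lit 34604613752) (nat_lit 0) (nat_lit 19845308051) (nat_lit 8) (nat_lit 5) (nat_lit 10) (nat_lit 4) (nat_lit 8) (nat_lit 4) (nat_lit 358) (nat_lit 301) (nat_lit 241)) (XT.lf (nat_lit 0) (nat_lit 60512784296) (nat_lit 152) (nat_lit 7467717927) (nat_lit 0) (nat_lit 36929575078) (nat_lit 8) (nat_lit 5) (nat_lit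 10) (nat_lit 4) (nat_lit 8) (nat_lit 4) (nat_lit 359) (nat_lit 301) (nat_lit 240))) (XT.nd (nat_lit 78) (nat_lit 0) (nat_lit 0) (XT.lf (nat_lit 0) (nat_lit 22519548628) (nat_lit 76) (nat_lit 56793165835) (nat_lit 76) (nat_lit 33193834961) (nat_lit 7) (nat_lit 4) (nat_lit 8) (nat_lit 5) (nat_lit 8) (nat_lit 4) (nat_lit 360) (nat_lit 301) (nat_lit 239)) (XT.nd (nat_lit 78) (nat_lit 0) (nat_lit 0) (XT.lf (nat_lit 0) (nat_lit 55132916074) (nat_lit 76) (nat_lit 44593303321) (nat_lit 76) (nat_lit 20979044988) (nat_lit 7) (nat_lit 4) (nat_lit 8) (nat_lit 5) (nat_lit 8) (nat_lit 4) (nat_lit 361) (nat_lit 301) (nat_lit 238)) (XT.lf (nat_lit 0) (nat_lit 90318732330) (nat_lit 76) (nat_lit 31435088617) (nat_lit 76) (nat_lit 7807008563) (nat_lit 7) (nat_lit 4) (nat_lit 8) (nat_lit 5) (nat_lit 8) (nat_lit 4) (nat_lit 362) (nat_lit 301) (nat_lit 237))))) (XT.nd (nat_lit 234) (nat_lit 0) (nat_lit 0) (XT.nd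 (nat_lit 78) (nat_lit 76) (nat_lit 0) (XT.lf (nat_lit 0) (nat_lit 6195480270) (nat_lit 152) (nat_lit 10940143390) (nat_lit 76) (nat_lit 121985102209) (nat_lit 6) (nat_lit 5) (nat_lit 8) (nat_lit 5) (nat_lit 7) (nat_lit 4) (nat_lit 363) (nat_lit 301) (nat_lit 236)) (XT.nd (nat_lit 78) (nat_lit 0) (nat_lit 0) (XT.lf (nat_lit 0) (nat_lit 20105894044) (nat_lit 76) (nat_lit 1239775168) (nat_lit 152) (nat_lit 128078297597) (nat_lit 5) (nat_lit 5) (nat_lit 6) (nat_lit 5) (nat_lit 7) (nat_lit 4) (nat_lit 364) (nat_lit 301) (nat_lit 235)) (XT.lf (nat_lit 0) (nat_lit 38134216846) (nat_lit 152) (nat_lit 106798576128) (nat_lit 0) (nat_lit 15597359731) (nat_lit 5) (nat_lit 5) (nat_lit 7) (nat_lit 4) (nat_lit 5) (nat_lit 4) (nat_lit 365) (nat_lit 301) (nat_lit 234)))) (XT.nd (nat_lit 78) (nat_lit 0) (nat_lit 0) (XT.lf (nat_lit 0) (nat_lit 56271912937) (nat_lit 152) (nat_lit 82527239726) (nat_lit 0) (nat_lit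 33725380224) (nat_lit 5) (nat_lit 5) (nat_lit 7) (nat_lit 4) (nat_lit 5) (nat_lit 4) (nat_lit 366) (nat_lit 301) (nat_lit 233)) (XT.nd (nat_lit 78) (nat_lit 0) (nat_lit 0) (XT.lf (nat_lit 0) (nat_lit 75846883764) (nat_lit 152) (nat_lit 56340877053) (nat_lit 0) (nat_lit 53291392164) (nat_lit 5) (nat_lit 5) (nat_lit 7) (nat_lit 4) (nat_lit 5) (nat_lit 4) (nat_lit 367) (nat_lit 301) (nat_lit 232)) (XT.lf (nat_lit 0) (nat_lit 96975129155) (nat_lit 152) (nat_lit 28084309663) (nat_lit 0) (nat_lit 74411342290) (nat_lit 5) (nat_lit 5) (nat_lit 7) (nat_lit 4) (nat_lit 5) (nat_lit 4) (nat_lit 368) (nat_lit 301) (nat_lit 231))))))) (XT.nd (nat_lit 858) (nat_lit 0) (nat_lit 0) (XT.nd (nat_lit 390) (nat_lit 152) (nat_lit 0) (XT.nd (nat_lit 156) (nat_lit 0) (nat_lit 0) (XT.nd (nat_lit 78) (nat_lit 0) (nat_lit 0) (XT.lf (nat_lit 0) (nat_lit 2489591236) (nat_lit 76) (nat_lit 117331131787) (nat_lit 76)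 (nat_lit 94759664120) (nat_lit 4) (nat_lit 4) (nat_lit 5) (nat_lit 5) (nat_lit 5) (nat_lit 4) (nat_lit 369) (nat_lit 301) (nat_lit 230)) (XT.lf (nat_lit 0) (nat_lit 36490405588) (nat_lit 76) (nat_lit 108481519746) (nat_lit 76) (nat_lit 85902940226) (nat_lit 4) (nat_lit 4) (nat_lit 5) (nat_lit 5) (nat_lit 5) (nat_lit 4) (nat_lit 370) (nat_lit 301) (nat_lit 229))) (XT.nd (nat_lit 78) (nat_lit 0) (nat_lit 0) (XT.lf (nat_lit 0) (nat_lit 73191025590) (nat_lit 76) (nat_lit 98933781924) (nat_lit 76) (nat_lit 76348617354) (nat_lit 4) (nat_lit 4) (nat_lit 5) (nat_lit 5) (nat_lit 5) (nat_lit 4) (nat_lit 371) (nat_lit 301) (nat_lit 228)) (XT.nd (nat_lit 78) (nat_lit 0) (nat_lit 0) (XT.lf (nat_lit 0) (nat_lit 112808936397) (nat_lit 76) (nat_lit 88631339132) (nat_lit 76) (nat_lit 66040077295) (nat_lit 4) (nat_lit 4) (nat_lit 5) (nat_lit 5) (nat_lit 5) (nat_lit 4) (nat_lit 372) (nat_lit 301) (nat_lit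 227)) (XT.lf (nat_lit 0) (nat_lit 155578910816) (nat_lit 76) (nat_lit 77513139859) (nat_lit 76) (nat_lit 54916232403) (nat_lit 4) (nat_lit 4) (nat_lit 5) (nat_lit 5) (nat_lit 5) (nat_lit 4) (nat_lit 373) (nat_lit 301) (nat_lit 226))))) (XT.nd (nat_lit 234) (nat_lit 152) (nat_lit 0) (XT.nd (nat_lit 78) (nat_lit 0) (nat_lit 0) (XT.lf (nat_lit 0) (nat_lit 201754400544) (nat_lit 76) (nat_lit 65513298479) (nat_lit 76) (nat_lit 42911163598) (nat_lit 4) (nat_lit 4) (nat_lit 5) (nat_lit 5) (nat_lit 5) (nat_lit 4) (nat_lit 374) (nat_lit 301) (nat_lit 225)) (XT.nd (nat_lit 78) (nat_lit 0) (nat_lit 0) (XT.lf (nat_lit 0) (nat_lit 251609038115) (nat_lit 76) (nat_lit 52560704821) (nat_lit 76) (nat_lit 29953729732) (nat_lit 4) (nat_lit 4) (nat_lit 5) (nat_lit 5) (nat_lit 5) (nat_lit 4) (nat_lit 375) (nat_lit 301) (nat_lit 224)) (XT.lf (nat_lit 0) (nat_lit 305438258418) (nat_lit 76) (nat_lit 38578602774)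 (nat_lit 76) (nat_lit 15967146011) (nat_lit 4) (nat_lit 4) (nat_lit 5) (nat_lit 5) (nat_lit 5) (nat_lit 4) (nat_lit 376) (nat_lit 301) (nat_lit 223)))) (XT.nd (nat_lit 78) (nat_lit 152) (nat_lit 0) (XT.lf (nat_lit 0) (nat_lit 363561049425) (nat_lit 76) (nat_lit 23484135437) (nat_lit 76) (nat_lit 868528977) (nat_lit 4) (nat_lit 4) (nat_lit 5) (nat_lit 5) (nat_lit 5) (nat_lit 4) (nat_lit 377) (nat_lit 301) (nat_lit 222)) (XT.nd (nat_lit 78) (nat_lit 0) (nat_lit 0) (XT.lf (nat_lit 0) (nat_lit 8267419146) (nat_lit 76) (nat_lit 6799345692) (nat_lit 152) (nat_lit 402992836707) (nat_lit 2) (nat_lit 5) (nat_lit 3) (nat_lit 5) (nat_lit 4) (nat_lit 4) (nat_lit 378) (nat_lit 301) (nat_lit 221)) (XT.lf (nat_lit 0) (nat_lit 32847213157) (nat_lit 152) (nat_lit 406437705420) (nat_lit 0) (nat_lit 11301492708) (nat_lit 2) (nat_lit 5) (nat_lit 4) (nat_lit 4) (nat_lit 2) (nat_lit 4) (nat_lit 379) (nat_lit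 301) (nat_lit 220)))))) (XT.nd (nat_lit 390) (nat_lit 0) (nat_lit 0) (XT.nd (nat_lit 156) (nat_lit 0) (nat_lit 0) (XT.nd (nat_lit 78) (nat_lit 0) (nat_lit 0) (XT.lf (nat_lit 0) (nat_lit 52159202375) (nat_lit 152) (nat_lit 402940364409) (nat_lit 0) (nat_lit 30610344628) (nat_lit 2) (nat_lit 5) (nat_lit 4) (nat_lit 4) (nat_lit 2) (nat_lit 4) (nat_lit 380) (nat_lit 301) (nat_lit 219)) (XT.lf (nat_lit 0) (nat_lit 73011017069) (nat_lit 152) (nat_lit 399173277540) (nat_lit 0) (nat_lit 51459254416) (nat_lit 2) (nat_lit 5) (nat_lit 4) (nat_lit 4) (nat_lit 2) (nat_lit 4) (nat_lit 381) (nat_lit 301) (nat_lit 218))) (XT.nd (nat_lit 78) (nat_lit 0) (nat_lit 0) (XT.lf (nat_lit 0) (nat_lit 95526223550) (nat_lit 152) (nat_lit 395114121337) (nat_lit 0) (nat_lit 73971771167) (nat_lit 2) (nat_lit 5) (nat_lit 4) (nat_lit 4) (nat_lit 2) (nat_lit 4) (nat_lit 382) (nat_lit 301) (nat_lit 217)) (XT.nd (nat_lit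 78) (nat_lit 0) (nat_lit 0) (XT.lf (nat_lit 0) (nat_lit 119838245261) (nat_lit 152) (nat_lit 390738841539) (nat_lit 0) (nat_lit 98281302389) (nat_lit 2) (nat_lit 5) (nat_lit 4) (nat_lit 4) (nat_lit 2) (nat_lit 4) (nat_lit 383) (nat_lit 301) (nat_lit 216)) (XT.lf (nat_lit 0) (nat_lit 146091153443) (nat_lit 152) (nat_lit 386021510564) (nat_lit 0) (nat_lit 124531904563) (nat_lit 2) (nat_lit 5) (nat_lit 4) (nat_lit 4) (nat_lit 2) (nat_lit 4) (nat_lit 384) (nat_lit 301) (nat_lit 215))))) (XT.nd (nat_lit 234) (nat_lit 0) (nat_lit 0) (XT.nd (nat_lit 78) (nat_lit 0) (nat_lit 0) (XT.lf (nat_lit 0) (nat_lit 174440520886) (nat_lit 152) (nat_lit 380934173857) (nat_lit 0) (nat_lit 152879136813) (nat_lit 2) (nat_lit 5) (nat_lit 4) (nat_lit 4) (nat_lit 2) (nat_lit 4) (nat_lit 385) (nat_lit 301) (nat_lit 214)) (XT.nd (nat_lit 78) (nat_lit 0) (nat_lit 0) (XT.lf (nat_lit 0) (nat_lit 205054343841) (nat_lit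 152) (nat_lit 375446684237) (nat_lit 0) (nat_lit 183490982737) (nat_lit 2) (nat_lit 5) (nat_lit 4) (nat_lit 4) (nat_lit 2) (nat_lit 4) (nat_lit 386) (nat_lit 301) (nat_lit 213)) (XT.lf (nat_lit 0) (nat_lit 238114037554) (nat_lit 152) (nat_lit 369526523248) (nat_lit 0) (nat_lit 216548845867) (nat_lit 2) (nat_lit 5) (nat_lit 4) (nat_lit 4) (nat_lit 2) (nat_lit 4) (nat_lit 387) (nat_lit 301) (nat_lit 212)))) (XT.nd (nat_lit 78) (nat_lit 0) (nat_lit 0) (XT.lf (nat_lit 0) (nat_lit 273815511323) (nat_lit 152) (nat_lit 363138608455) (nat_lit 0) (nat_lit 252248624650) (nat_lit 2) (nat_lit 5) (nat_lit 4) (nat_lit 4) (nat_lit 2) (nat_lit 4) (nat_lit 388) (nat_lit 301) (nat_lit 211)) (XT.nd (nat_lit 78) (nat_lit 0) (nat_lit 0) (XT.lf (nat_lit 0) (nat_lit 312370329436) (nat_lit 152) (nat_lit 356245085547) (nat_lit 0) (nat_lit 290801873332) (nat_lit 2) (nat_lit 5) (nat_lit 4) (nat_lit 4) (nat_lit 2)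 (nat_lit 4) (nat_lit 389) (nat_lit 301) (nat_lit 210)) (XT.lf (nat_lit 0) (nat_lit 354006964889) (nat_lit 152) (nat_lit 348805104018) (nat_lit 0) (nat_lit 332437055609) (nat_lit 2) (nat_lit 5) (nat_lit 4) (nat_lit 4) (nat_lit 2) (nat_lit 4) (nat_lit 390) (nat_lit 301) (nat_lit 209))))))))
noncomputable def xc51 : XT := (XT.nd (nat_lit 1716) (nat_lit 2736) (nat_lit 0) (XT.nd (nat_lit 858) (nat_lit 3876) (nat_lit 0) (XT.nd (nat_lit 390) (nat_lit 2812) (nat_lit 0) (XT.nd (nat_lit 156) (nat_lit 304) (nat_lit 0) (XT.nd (nat_lit 78) (nat_lit 380) (nat_lit 0) (XT.lf (nat_lit 0) (nat_lit 1091729415) (nat_lit 0) (nat_lit 1091729415) (nat_lit 228) (nat_lit 1095547748) (nat_lit 149) (nat_lit 5) (nat_lit 149) (nat_lit 3) (nat_lit 152) (nat_lit 3) (nat_lit 302) (nat_lit 302) (nat_lit 296)) (XT.lf (nat_lit 76) (nat_lit 634697262) (nat_lit 0) (nat_lit 915227345) (nat_lit 380) (nat_lit 5077090874) (nat_lit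 145) (nat_lit 5) (nat_lit 144) (nat_lit 3) (nat_lit 149) (nat_lit 5) (nat_lit 303) (nat_lit 302) (nat_lit 295))) (XT.nd (nat_lit 78) (nat_lit 380) (nat_lit 0) (XT.lf (nat_lit 0) (nat_lit 5223813756) (nat_lit 304) (nat_lit 768098852) (nat_lit 380) (nat_lit 723043172) (nat_lit 145) (nat_lit 5) (nat_lit 149) (nat_lit 5) (nat_lit 150) (nat_lit 5) (nat_lit 304) (nat_lit 302) (nat_lit 294)) (XT.nd (nat_lit 78) (nat_lit 0) (nat_lit 0) (XT.lf (nat_lit 0) (nat_lit 2043581710) (nat_lit 380) (nat_lit 2053308326) (nat_lit 456) (nat_lit 2724920626) (nat_lit 140) (nat_lit 5) (nat_lit 145) (nat_lit 5) (nat_lit 146) (nat_lit 5) (nat_lit 305) (nat_lit 302) (nat_lit 293)) (XT.lf (nat_lit 76) (nat_lit 3720963003) (nat_lit 0) (nat_lit 1829522704) (nat_lit 456) (nat_lit 1399020951) (nat_lit 141) (nat_lit 5) (nat_lit 140) (nat_lit 5) (nat_lit 146) (nat_lit 5) (nat_lit 306) (nat_lit 302) (nat_lit 292))))) (XT.nd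 (nat_lit 234) (nat_lit 1368) (nat_lit 0) (XT.nd (nat_lit 78) (nat_lit 1064) (nat_lit 0) (XT.lf (nat_lit 0) (nat_lit 1956448135) (nat_lit 456) (nat_lit 4326234334) (nat_lit 76) (nat_lit 814607889) (nat_lit 135) (nat_lit 5) (nat_lit 141) (nat_lit 5) (nat_lit 136) (nat_lit 5) (nat_lit 307) (nat_lit 302) (nat_lit 291)) (XT.nd (nat_lit 78) (nat_lit 608) (nat_lit 0) (XT.lf (nat_lit 0) (nat_lit 1896364789) (nat_lit 456) (nat_lit 3459795098) (nat_lit 532) (nat_lit 1908836752) (nat_lit 129) (nat_lit 5) (nat_lit 135) (nat_lit 5) (nat_lit 136) (nat_lit 5) (nat_lit 308) (nat_lit 302) (nat_lit 290)) (XT.lf (nat_lit 0) (nat_lit 1117867127) (nat_lit 532) (nat_lit 227326775) (nat_lit 608) (nat_lit 6109416269) (nat_lit 121) (nat_lit 5) (nat_lit 128) (nat_lit 5) (nat_lit 129) (nat_lit 5) (nat_lit 309) (nat_lit 302) (nat_lit 289)))) (XT.nd (nat_lit 78) (nat_lit 760) (nat_lit 0) (XT.lf (nat_lit 0) (nat_lit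 361563675) (nat_lit 608) (nat_lit 4321933366) (nat_lit 684) (nat_lit 2980187957) (nat_lit 113) (nat_lit 5) (nat_lit 121) (nat_lit 5) (nat_lit 122) (nat_lit 5) (nat_lit 310) (nat_lit 302) (nat_lit 288)) (XT.nd (nat_lit 78) (nat_lit 684) (nat_lit 0) (XT.lf (nat_lit 0) (nat_lit 252533158) (nat_lit 684) (nat_lit 298256250) (nat_lit 76) (nat_lit 7345438881) (nat_lit 112) (nat_lit 5) (nat_lit 121) (nat_lit 5) (nat_lit 113) (nat_lit 5) (nat_lit 311) (nat_lit 302) (nat_lit 287)) (XT.lf (nat_lit 0) (nat_lit 3580360758) (nat_lit 760) (nat_lit 969577716) (nat_lit 76) (nat_lit 3598273887) (nat_lit 103) (nat_lit 5) (nat_lit 113) (nat_lit 5) (nat_lit 104) (nat_lit 5) (nat_lit 312) (nat_lit 302) (nat_lit 286)))))) (XT.nd (nat_lit 390) (nat_lit 1596) (nat_lit 0) (XT.nd (nat_lit 156) (nat_lit 1064) (nat_lit 0) (XT.nd (nat_lit 78) (nat_lit 456) (nat_lit 0) (XT.lf (nat_lit 0) (nat_lit 6843656002) (nat_lit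 760) (nat_lit 234954548) (nat_lit 836) (nat_lit 1346835824) (nat_lit 93) (nat_lit 5) (nat_lit 103) (nat_lit 5) (nat_lit 104) (nat_lit 5) (nat_lit 313) (nat_lit 302) (nat_lit 285)) (XT.lf (nat_lit 0) (nat_lit 2046928505) (nat_lit 456) (nat_lit 2238730974) (nat_lit 76) (nat_lit 4438635852) (nat_lit 87) (nat_lit 5) (nat_lit 93) (nat_lit 5) (nat_lit 88) (nat_lit 5) (nat_lit 314) (nat_lit 302) (nat_lit 284))) (XT.nd (nat_lit 78) (nat_lit 760) (nat_lit 0) (XT.lf (nat_lit 0) (nat_lit 5607216982) (nat_lit 380) (nat_lit 2888142879) (nat_lit 76) (nat_lit 553723683) (nat_lit 83) (nat_lit 5) (nat_lit 88) (nat_lit 5) (nat_lit 84) (nat_lit 5) (nat_lit 315) (nat_lit 302) (nat_lit 283)) (XT.nd (nat_lit 78) (nat_lit 304) (nat_lit 0) (XT.lf (nat_lit 0) (nat_lit 69086392) (nat_lit 456) (nat_lit 3581600003) (nat_lit 76) (nat_lit 5748429590) (nat_lit 77) (nat_lit 5) (nat_lit 83) (nat_lit 5) (nat_lit 78) (nat_lit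 5) (nat_lit 316) (nat_lit 302) (nat_lit 282)) (XT.lf (nat_lit 0) (nat_lit 3728664355) (nat_lit 380) (nat_lit 4346192026) (nat_lit 76) (nat_lit 1700257373) (nat_lit 73) (nat_lit 5) (nat_lit 78) (nat_lit 5) (nat_lit 74) (nat_lit 5) (nat_lit 317) (nat_lit 302) (nat_lit 281))))) (XT.nd (nat_lit 234) (nat_lit 684) (nat_lit 0) (XT.nd (nat_lit 78) (nat_lit 608) (nat_lit 0) (XT.lf (nat_lit 0) (nat_lit 5002304265) (nat_lit 304) (nat_lit 2714290414) (nat_lit 380) (nat_lit 2463003179) (nat_lit 69) (nat_lit 5) (nat_lit 73) (nat_lit 5) (nat_lit 74) (nat_lit 5) (nat_lit 318) (nat_lit 302) (nat_lit 280)) (XT.nd (nat_lit 78) (nat_lit 304) (nat_lit 0) (XT.lf (nat_lit 0) (nat_lit 1399517052) (nat_lit 304) (nat_lit 6104162403) (nat_lit 76) (nat_lit 3109954900) (nat_lit 65) (nat_lit 5) (nat_lit 69) (nat_lit 5) (nat_lit 66) (nat_lit 5) (nat_lit 319) (nat_lit 302) (nat_lit 279)) (XT.lf (nat_lit 0) (nat_lit 3914455642)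 (nat_lit 304) (nat_lit 1617351490) (nat_lit 380) (nat_lit 5546366516) (nat_lit 61) (nat_lit 5) (nat_lit 65) (nat_lit 5) (nat_lit 66) (nat_lit 5) (nat_lit 320) (nat_lit 302) (nat_lit 278)))) (XT.nd (nat_lit 78) (nat_lit 456) (nat_lit 0) (XT.lf (nat_lit 0) (nat_lit 3206724367) (nat_lit 228) (nat_lit 6875037218) (nat_lit 304) (nat_lit 1493900925) (nat_lit 58) (nat_lit 5) (nat_lit 61) (nat_lit 5) (nat_lit 62) (nat_lit 5) (nat_lit 321) (nat_lit 302) (nat_lit 277)) (XT.nd (nat_lit 78) (nat_lit 152) (nat_lit 0) (XT.lf (nat_lit 0) (nat_lit 2362932157) (nat_lit 228) (nat_lit 478908353) (nat_lit 304) (nat_lit 9266416208) (nat_lit 54) (nat_lit 5) (nat_lit 57) (nat_lit 5) (nat_lit 58) (nat_lit 5) (nat_lit 322) (nat_lit 302) (nat_lit 276)) (XT.lf (nat_lit 0) (nat_lit 1297901459) (nat_lit 152) (nat_lit 6310663463) (nat_lit 228) (nat_lit 5066960607) (nat_lit 52) (nat_lit 5) (nat_lit 54) (nat_lit 5) (nat_lit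 55) (nat_lit 5) (nat_lit 323) (nat_lit 302) (nat_lit 275))))))) (XT.nd (nat_lit 858) (nat_lit 988) (nat_lit 0) (XT.nd (nat_lit 390) (nat_lit 836) (nat_lit 0) (XT.nd (nat_lit 156) (nat_lit 608) (nat_lit 0) (XT.nd (nat_lit 78) (nat_lit 76) (nat_lit 0) (XT.lf (nat_lit 0) (nat_lit 89067982) (nat_lit 228) (nat_lit 12729538185) (nat_lit 304) (nat_lit 466576944) (nat_lit 49) (nat_lit 5) (nat_lit 52) (nat_lit 5) (nat_lit 53) (nat_lit 5) (nat_lit 324) (nat_lit 302) (nat_lit 274)) (XT.lf (nat_lit 0) (nat_lit 4543165016) (nat_lit 304) (nat_lit 1419097075) (nat_lit 76) (nat_lit 7968659830) (nat_lit 48) (nat_lit 5) (nat_lit 52) (nat_lit 5) (nat_lit 49) (nat_lit 5) (nat_lit 325) (nat_lit 302) (nat_lit 273))) (XT.nd (nat_lit 78) (nat_lit 456) (nat_lit 0) (XT.lf (nat_lit 0) (nat_lit 10026753376) (nat_lit 228) (nat_lit 3159117220) (nat_lit 76) (nat_lit 1437682841) (nat_lit 46) (nat_lit 5) (nat_lit 49) (nat_lit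 5) (nat_lit 47) (nat_lit 5) (nat_lit 326) (nat_lit 302) (nat_lit 272)) (XT.nd (nat_lit 78) (nat_lit 152) (nat_lit 0) (XT.lf (nat_lit 0) (nat_lit 736903176) (nat_lit 304) (nat_lit 5261367486) (nat_lit 76) (nat_lit 9364052953) (nat_lit 42) (nat_lit 5) (nat_lit 46) (nat_lit 5) (nat_lit 43) (nat_lit 5) (nat_lit 327) (nat_lit 302) (nat_lit 271)) (XT.lf (nat_lit 0) (nat_lit 6451843183) (nat_lit 228) (nat_lit 7779973006) (nat_lit 76) (nat_lit 1918902662) (nat_lit 40) (nat_lit 5) (nat_lit 43) (nat_lit 5) (nat_lit 41) (nat_lit 5) (nat_lit 328) (nat_lit 302) (nat_lit 270))))) (XT.nd (nat_lit 234) (nat_lit 304) (nat_lit 0) (XT.nd (nat_lit 78) (nat_lit 380) (nat_lit 0) (XT.lf (nat_lit 0) (nat_lit 6218615980) (nat_lit 152) (nat_lit 6596492096) (nat_lit 228) (nat_lit 4177586710) (nat_lit 38) (nat_lit 5) (nat_lit 40) (nat_lit 5) (nat_lit 41) (nat_lit 5) (nat_lit 329) (nat_lit 302) (nat_lit 269)) (XT.nd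 (nat_lit 78) (nat_lit 152) (nat_lit 0) (XT.lf (nat_lit 0) (nat_lit 1854564966) (nat_lit 228) (nat_lit 14275637151) (nat_lit 76) (nat_lit 1764175550) (nat_lit 35) (nat_lit 5) (nat_lit 38) (nat_lit 5) (nat_lit 36) (nat_lit 5) (nat_lit 330) (nat_lit 302) (nat_lit 268)) (XT.lf (nat_lit 0) (nat_lit 361117316) (nat_lit 152) (nat_lit 8078428189) (nat_lit 228) (nat_lit 10414448008) (nat_lit 33) (nat_lit 5) (nat_lit 35) (nat_lit 5) (nat_lit 36) (nat_lit 5) (nat_lit 331) (nat_lit 302) (nat_lit 267)))) (XT.nd (nat_lit 78) (nat_lit 304) (nat_lit 0) (XT.lf (nat_lit 0) (nat_lit 15724403205) (nat_lit 228) (nat_lit 3364498716) (nat_lit 76) (nat_lit 792872338) (nat_lit 33) (nat_lit 5) (nat_lit 36) (nat_lit 5) (nat_lit 34) (nat_lit 4) (nat_lit 332) (nat_lit 302) (nat_lit 266)) (XT.nd (nat_lit 78) (nat_lit 152) (nat_lit 0) (XT.lf (nat_lit 0) (nat_lit 2779561162) (nat_lit 152) (nat_lit 7906173009) (nat_lit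 76) (nat_lit 10290931427) (nat_lit 31) (nat_lit 5) (nat_lit 33) (nat_lit 5) (nat_lit 32) (nat_lit 5) (nat_lit 333) (nat_lit 302) (nat_lit 265)) (XT.lf (nat_lit 0) (nat_lit 8859919375) (nat_lit 152) (nat_lit 1385723726) (nat_lit 228) (nat_lit 11904145477) (nat_lit 29) (nat_lit 5) (nat_lit 31) (nat_lit 5) (nat_lit 32) (nat_lit 5) (nat_lit 334) (nat_lit 302) (nat_lit 264)))))) (XT.nd (nat_lit 468) (nat_lit 380) (nat_lit 0) (XT.nd (nat_lit 234) (nat_lit 304) (nat_lit 0) (XT.nd (nat_lit 78) (nat_lit 228) (nat_lit 0) (XT.lf (nat_lit 0) (nat_lit 3686457157) (nat_lit 76) (nat_lit 14878301974) (nat_lit 152) (nat_lit 4839252364) (nat_lit 28) (nat_lit 5) (nat_lit 29) (nat_lit 5) (nat_lit 30) (nat_lit 4) (nat_lit 335) (nat_lit 302) (nat_lit 263)) (XT.nd (nat_lit 78) (nat_lit 152) (nat_lit 0) (XT.lf (nat_lit 0) (nat_lit 2885671051) (nat_lit 152) (nat_lit 2452789150) (nat_lit 76) (nat_lit 19408758311)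 (nat_lit 27) (nat_lit 5) (nat_lit 29) (nat_lit 5) (nat_lit 28) (nat_lit 5) (nat_lit 336) (nat_lit 302) (nat_lit 262)) (XT.lf (nat_lit 0) (nat_lit 11332511865) (nat_lit 228) (nat_lit 9747225671) (nat_lit 76) (nat_lit 5100535186) (nat_lit 25) (nat_lit 5) (nat_lit 28) (nat_lit 5) (nat_lit 26) (nat_lit 4) (nat_lit 337) (nat_lit 302) (nat_lit 261)))) (XT.nd (nat_lit 78) (nat_lit 228) (nat_lit 0) (XT.lf (nat_lit 0) (nat_lit 9279657157) (nat_lit 76) (nat_lit 11387311582) (nat_lit 152) (nat_lit 7050437423) (nat_lit 24) (nat_lit 5) (nat_lit 25) (nat_lit 5) (nat_lit 26) (nat_lit 4) (nat_lit 338) (nat_lit 302) (nat_lit 260)) (XT.nd (nat_lit 78) (nat_lit 0) (nat_lit 0) (XT.lf (nat_lit 0) (nat_lit 690501379) (nat_lit 152) (nat_lit 755294937) (nat_lit 228) (nat_lit 27924719221) (nat_lit 21) (nat_lit 5) (nat_lit 23) (nat_lit 5) (nat_lit 24) (nat_lit 5) (nat_lit 339) (nat_lit 302) (nat_lit 259)) (XT.lf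 (nat_lit 0) (nat_lit 10809864997) (nat_lit 228) (nat_lit 9536505817) (nat_lit 76) (nat_lit 10781989472) (nat_lit 21) (nat_lit 5) (nat_lit 24) (nat_lit 5) (nat_lit 22) (nat_lit 4) (nat_lit 340) (nat_lit 302) (nat_lit 258))))) (XT.nd (nat_lit 234) (nat_lit 152) (nat_lit 0) (XT.nd (nat_lit 78) (nat_lit 152) (nat_lit 0) (XT.lf (nat_lit 0) (nat_lit 11386025770) (nat_lit 76) (nat_lit 9670060092) (nat_lit 152) (nat_lit 11964116840) (nat_lit 20) (nat_lit 5) (nat_lit 21) (nat_lit 5) (nat_lit 22) (nat_lit 4) (nat_lit 341) (nat_lit 302) (nat_lit 257)) (XT.nd (nat_lit 78) (nat_lit 152) (nat_lit 0) (XT.lf (nat_lit 0) (nat_lit 32264418116) (nat_lit 152) (nat_lit 865627788) (nat_lit 0) (nat_lit 1926245757) (nat_lit 20) (nat_lit 5) (nat_lit 22) (nat_lit 4) (nat_lit 20) (nat_lit 4) (nat_lit 342) (nat_lit 302) (nat_lit 256)) (XT.lf (nat_lit 0) (nat_lit 7349253050) (nat_lit 152) (nat_lit 15339338286) (nat_lit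 76) (nat_lit 14538000246) (nat_lit 18) (nat_lit 5) (nat_lit 20) (nat_lit 5) (nat_lit 19) (nat_lit 4) (nat_lit 343) (nat_lit 302) (nat_lit 255)))) (XT.nd (nat_lit 78) (nat_lit 76) (nat_lit 0) (XT.lf (nat_lit 0) (nat_lit 7006733335) (nat_lit 76) (nat_lit 11273365257) (nat_lit 152) (nat_lit 21284332555) (nat_lit 17) (nat_lit 5) (nat_lit 18) (nat_lit 5) (nat_lit 19) (nat_lit 4) (nat_lit 344) (nat_lit 302) (nat_lit 254)) (XT.nd (nat_lit 78) (nat_lit 76) (nat_lit 0) (XT.lf (nat_lit 0) (nat_lit 30325369911) (nat_lit 152) (nat_lit 10498028429) (nat_lit 0) (nat_lit 1253916627) (nat_lit 17) (nat_lit 5) (nat_lit 19) (nat_lit 4) (nat_lit 17) (nat_lit 4) (nat_lit 345) (nat_lit 302) (nat_lit 253)) (XT.lf (nat_lit 0) (nat_lit 13485069336) (nat_lit 76) (nat_lit 30205289212) (nat_lit 76) (nat_lit 1083080047) (nat_lit 16) (nat_lit 4) (nat_lit 17) (nat_lit 5) (nat_lit 17) (nat_lit 4) (nat_lit 346) (nat_lit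 302) (nat_lit 252))))))))
noncomputable def xc52 : XT := (XT.nd (nat_lit 1716) (nat_lit 228) (nat_lit 0) (XT.nd (nat_lit 858) (nat_lit 228) (nat_lit 0) (XT.nd (nat_lit 390) (nat_lit 304) (nat_lit 0) (XT.nd (nat_lit 156) (nat_lit 152) (nat_lit 0) (XT.nd (nat_lit 78) (nat_lit 76) (nat_lit 0) (XT.lf (nat_lit 0) (nat_lit 10247857234) (nat_lit 152) (nat_lit 8161098019) (nat_lit 76) (nat_lit 29261025490) (nat_lit 15) (nat_lit 5) (nat_lit 17) (nat_lit 5) (nat_lit 16) (nat_lit 4) (nat_lit 347) (nat_lit 302) (nat_lit 251)) (XT.lf (nat_lit 0) (nat_lit 17276319179) (nat_lit 76) (nat_lit 5401261071) (nat_lit 152) (nat_lit 28108276747) (nat_lit 14) (nat_lit 5) (nat_lit 15) (nat_lit 5) (nat_lit 16) (nat_lit 4) (nat_lit 348) (nat_lit 302) (nat_lit 250))) (XT.nd (nat_lit 78) (nat_lit 152) (nat_lit 0) (XT.lf (nat_lit 0) (nat_lit 36342520098) (nat_lit 152) (nat_lit 9313943122) (nat_lit 0) (nat_lit 8482508679)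 (nat_lit 14) (nat_lit 5) (nat_lit 16) (nat_lit 4) (nat_lit 14) (nat_lit 4) (nat_lit 349) (nat_lit 302) (nat_lit 249)) (XT.nd (nat_lit 78) (nat_lit 76) (nat_lit 0) (XT.lf (nat_lit 0) (nat_lit 17209562897) (nat_lit 76) (nat_lit 34215063124) (nat_lit 76) (nat_lit 6319521147) (nat_lit 13) (nat_lit 4) (nat_lit 14) (nat_lit 5) (nat_lit 14) (nat_lit 4) (nat_lit 350) (nat_lit 302) (nat_lit 248)) (XT.lf (nat_lit 0) (nat_lit 6011291979) (nat_lit 152) (nat_lit 15605292084) (nat_lit 76) (nat_lit 40009908938) (nat_lit 12) (nat_lit 5) (nat_lit 14) (nat_lit 5) (nat_lit 13) (nat_lit 4) (nat_lit 351) (nat_lit 302) (nat_lit 247))))) (XT.nd (nat_lit 234) (nat_lit 228) (nat_lit 0) (XT.nd (nat_lit 78) (nat_lit 0) (nat_lit 0) (XT.lf (nat_lit 0) (nat_lit 11519653462) (nat_lit 76) (nat_lit 7738178651) (nat_lit 152) (nat_lit 46548889028) (nat_lit 11) (nat_lit 5) (nat_lit 12) (nat_lit 5) (nat_lit 13) (nat_lit 4)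 (nat_lit 352) (nat_lit 302) (nat_lit 246)) (XT.nd (nat_lit 78) (nat_lit 0) (nat_lit 0) (XT.lf (nat_lit 0) (nat_lit 33922482830) (nat_lit 152) (nat_lit 29112878114) (nat_lit 0) (nat_lit 7268094568) (nat_lit 11) (nat_lit 5) (nat_lit 13) (nat_lit 4) (nat_lit 11) (nat_lit 4) (nat_lit 353) (nat_lit 302) (nat_lit 245)) (XT.lf (nat_lit 0) (nat_lit 49861985747) (nat_lit 152) (nat_lit 2110140598) (nat_lit 0) (nat_lit 23182725084) (nat_lit 11) (nat_lit 5) (nat_lit 13) (nat_lit 4) (nat_lit 11) (nat_lit 4) (nat_lit 354) (nat_lit 302) (nat_lit 244)))) (XT.nd (nat_lit 78) (nat_lit 152) (nat_lit 0) (XT.lf (nat_lit 0) (nat_lit 27894783007) (nat_lit 76) (nat_lit 39590715254) (nat_lit 76) (nat_lit 12888424590) (nat_lit 10) (nat_lit 4) (nat_lit 11) (nat_lit 5) (nat_lit 11) (nat_lit 4) (nat_lit 355) (nat_lit 302) (nat_lit 243)) (XT.nd (nat_lit 78) (nat_lit 76) (nat_lit 0) (XT.lf (nat_lit 0) (nat_lit 503587369)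 (nat_lit 152) (nat_lit 25691260631) (nat_lit 76) (nat_lit 59814706354) (nat_lit 9) (nat_lit 5) (nat_lit 11) (nat_lit 5) (nat_lit 10) (nat_lit 4) (nat_lit 356) (nat_lit 302) (nat_lit 242)) (XT.lf (nat_lit 0) (nat_lit 3074917391) (nat_lit 76) (nat_lit 11470583411) (nat_lit 152) (nat_lit 77538472032) (nat_lit 8) (nat_lit 5) (nat_lit 9) (nat_lit 5) (nat_lit 10) (nat_lit 4) (nat_lit 357) (nat_lit 302) (nat_lit 241)))))) (XT.nd (nat_lit 390) (nat_lit 152) (nat_lit 0) (XT.nd (nat_lit 156) (nat_lit 76) (nat_lit 0) (XT.nd (nat_lit 78) (nat_lit 0) (nat_lit 0) (XT.lf (nat_lit 0) (nat_lit 30211625168) (nat_lit 152) (nat_lit 63683333668) (nat_lit 0) (nat_lit 4724347824) (nat_lit 8) (nat_lit 5) (nat_lit 10) (nat_lit 4) (nat_lit 8) (nat_lit 4) (nat_lit 358) (nat_lit 302) (nat_lit 240)) (XT.lf (nat_lit 0) (nat_lit 47302978686) (nat_lit 152) (nat_lit 36566316270) (nat_lit 0) (nat_lit 21799579687) (nat_lit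 8) (nat_lit 5) (nat_lit 10) (nat_lit 4) (nat_lit 8) (nat_lit 4) (nat_lit 359) (nat_lit 302) (nat_lit 239))) (XT.nd (nat_lit 78) (nat_lit 76) (nat_lit 0) (XT.lf (nat_lit 0) (nat_lit 65741755498) (nat_lit 152) (nat_lit 7318221859) (nat_lit 0) (nat_lit 40223429040) (nat_lit 8) (nat_lit 5) (nat_lit 10) (nat_lit 4) (nat_lit 8) (nat_lit 4) (nat_lit 360) (nat_lit 302) (nat_lit 238)) (XT.nd (nat_lit 78) (nat_lit 0) (nat_lit 0) (XT.lf (nat_lit 0) (nat_lit 25035566071) (nat_lit 76) (nat_lit 60992531708) (nat_lit 76) (nat_lit 35460383528) (nat_lit 7) (nat_lit 4) (nat_lit 8) (nat_lit 5) (nat_lit 8) (nat_lit 4) (nat_lit 361) (nat_lit 302) (nat_lit 237)) (XT.lf (nat_lit 0) (nat_lit 60205080427) (nat_lit 76) (nat_lit 47842168148) (nat_lit 76) (nat_lit 22297222078) (nat_lit 7) (nat_lit 4) (nat_lit 8) (nat_lit 5) (nat_lit 8) (nat_lit 4) (nat_lit 362) (nat_lit 302) (nat_lit 236))))) (XT.nd (nat_lit 234)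 (nat_lit 0) (nat_lit 0) (XT.nd (nat_lit 78) (nat_lit 152) (nat_lit 0) (XT.lf (nat_lit 0) (nat_lit 98156759681) (nat_lit 76) (nat_lit 33654896226) (nat_lit 76) (nat_lit 8098100257) (nat_lit 7) (nat_lit 4) (nat_lit 8) (nat_lit 5) (nat_lit 8) (nat_lit 4) (nat_lit 363) (nat_lit 302) (nat_lit 235)) (XT.nd (nat_lit 78) (nat_lit 76) (nat_lit 0) (XT.lf (nat_lit 0) (nat_lit 6990003784) (nat_lit 152) (nat_lit 11238260338) (nat_lit 76) (nat_lit 132007119794) (nat_lit 6) (nat_lit 5) (nat_lit 8) (nat_lit 5) (nat_lit 7) (nat_lit 4) (nat_lit 364) (nat_lit 302) (nat_lit 234)) (XT.lf (nat_lit 0) (nat_lit 22266380266) (nat_lit 76) (nat_lit 1072306436) (nat_lit 152) (nat_lit 138024877618) (nat_lit 5) (nat_lit 5) (nat_lit 6) (nat_lit 5) (nat_lit 7) (nat_lit 4) (nat_lit 365) (nat_lit 302) (nat_lit 233)))) (XT.nd (nat_lit 78) (nat_lit 0) (nat_lit 0) (XT.lf (nat_lit 0) (nat_lit 41453034858) (nat_lit 152) (nat_lit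 114821933174) (nat_lit 0) (nat_lit 17084145044) (nat_lit 5) (nat_lit 5) (nat_lit 7) (nat_lit 4) (nat_lit 5) (nat_lit 4) (nat_lit 366) (nat_lit 302) (nat_lit 232)) (XT.nd (nat_lit 78) (nat_lit 0) (nat_lit 0) (XT.lf (nat_lit 0) (nat_lit 61021888809) (nat_lit 152) (nat_lit 88647447567) (nat_lit 0) (nat_lit 36644703729) (nat_lit 5) (nat_lit 5) (nat_lit 7) (nat_lit 4) (nat_lit 5) (nat_lit 4) (nat_lit 367) (nat_lit 302) (nat_lit 231)) (XT.lf (nat_lit 0) (nat_lit 82144470426) (nat_lit 152) (nat_lit 60401877460) (nat_lit 0) (nat_lit 57759604544) (nat_lit 5) (nat_lit 5) (nat_lit 7) (nat_lit 4) (nat_lit 5) (nat_lit 4) (nat_lit 368) (nat_lit 302) (nat_lit 230))))))) (XT.nd (nat_lit 858) (nat_lit 0) (nat_lit 0) (XT.nd (nat_lit 390) (nat_lit 152) (nat_lit 0) (XT.nd (nat_lit 156) (nat_lit 0) (nat_lit 0) (XT.nd (nat_lit 78) (nat_lit 76) (nat_lit 0) (XT.lf (nat_lit 0) (nat_lit 104945950563) (nat_lit 152)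 (nat_lit 29917841698) (nat_lit 0) (nat_lit 80553972828) (nat_lit 5) (nat_lit 5) (nat_lit 7) (nat_lit 4) (nat_lit 5) (nat_lit 4) (nat_lit 369) (nat_lit 302) (nat_lit 229)) (XT.lf (nat_lit 0) (nat_lit 3084013551) (nat_lit 76) (nat_lit 126525585644) (nat_lit 76) (nat_lit 102127022860) (nat_lit 4) (nat_lit 4) (nat_lit 5) (nat_lit 5) (nat_lit 5) (nat_lit 4) (nat_lit 370) (nat_lit 302) (nat_lit 228))) (XT.nd (nat_lit 78) (nat_lit 0) (nat_lit 0) (XT.lf (nat_lit 0) (nat_lit 39775614901) (nat_lit 76) (nat_lit 116982229580) (nat_lit 76) (nat_lit 92577569527) (nat_lit 4) (nat_lit 4) (nat_lit 5) (nat_lit 5) (nat_lit 5) (nat_lit 4) (nat_lit 371) (nat_lit 302) (nat_lit 227)) (XT.nd (nat_lit 78) (nat_lit 0) (nat_lit 0) (XT.lf (nat_lit 0) (nat_lit 79385175106) (nat_lit 76) (nat_lit 106683843972) (nat_lit 76) (nat_lit 82273538301) (nat_lit 4) (nat_lit 4) (nat_lit 5) (nat_lit 5) (nat_lit 5) (nat_lit 4) (nat_lit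 372) (nat_lit 302) (nat_lit 226)) (XT.lf (nat_lit 0) (nat_lit 122147417484) (nat_lit 76) (nat_lit 95569401350) (nat_lit 76) (nat_lit 71153868255) (nat_lit 4) (nat_lit 4) (nat_lit 5) (nat_lit 5) (nat_lit 5) (nat_lit 4) (nat_lit 373) (nat_lit 302) (nat_lit 225))))) (XT.nd (nat_lit 234) (nat_lit 152) (nat_lit 0) (XT.nd (nat_lit 78) (nat_lit 0) (nat_lit 0) (XT.lf (nat_lit 0) (nat_lit 168315747917) (nat_lit 76) (nat_lit 83573038351) (nat_lit 76) (nat_lit 59152665048) (nat_lit 4) (nat_lit 4) (nat_lit 5) (nat_lit 5) (nat_lit 5) (nat_lit 4) (nat_lit 374) (nat_lit 302) (nat_lit 224)) (XT.nd (nat_lit 78) (nat_lit 0) (nat_lit 0) (XT.lf (nat_lit 0) (nat_lit 218163756510) (nat_lit 76) (nat_lit 70623665416) (nat_lit 76) (nat_lit 46198810438) (nat_lit 4) (nat_lit 4) (nat_lit 5) (nat_lit 5) (nat_lit 5) (nat_lit 4) (nat_lit 375) (nat_lit 302) (nat_lit 223)) (XT.lf (nat_lit 0) (nat_lit 271986838871) (nat_lit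 76) (nat_lit 56644545520) (nat_lit 76) (nat_lit 32215540844) (nat_lit 4) (nat_lit 4) (nat_lit 5) (nat_lit 5) (nat_lit 5) (nat_lit 4) (nat_lit 376) (nat_lit 302) (nat_lit 222)))) (XT.nd (nat_lit 78) (nat_lit 152) (nat_lit 0) (XT.lf (nat_lit 0) (nat_lit 330103946597) (nat_lit 76) (nat_lit 41552839434) (nat_lit 76) (nat_lit 17119992446) (nat_lit 4) (nat_lit 4) (nat_lit 5) (nat_lit 5) (nat_lit 5) (nat_lit 4) (nat_lit 377) (nat_lit 302) (nat_lit 221)) (XT.nd (nat_lit 78) (nat_lit 152) (nat_lit 0) (XT.lf (nat_lit 0) (nat_lit 392859477365) (nat_lit 76) (nat_lit 25259114826) (nat_lit 76) (nat_lit 822710140) (nat_lit 4) (nat_lit 4) (nat_lit 5) (nat_lit 5) (nat_lit 5) (nat_lit 4) (nat_lit 378) (nat_lit 302) (nat_lit 220)) (XT.lf (nat_lit 0) (nat_lit 9136623578) (nat_lit 76) (nat_lit 7242070288) (nat_lit 152) (nat_lit 435120329667) (nat_lit 2) (nat_lit 5) (nat_lit 3) (nat_lit 5) (nat_lit 4) (nat_lit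 4) (nat_lit 379) (nat_lit 302) (nat_lit 219)))))) (XT.nd (nat_lit 390) (nat_lit 0) (nat_lit 0) (XT.nd (nat_lit 156) (nat_lit 0) (nat_lit 0) (XT.nd (nat_lit 78) (nat_lit 0) (nat_lit 0) (XT.lf (nat_lit 0) (nat_lit 35575145966) (nat_lit 152) (nat_lit 438756817539) (nat_lit 0) (nat_lit 12296337393) (nat_lit 2) (nat_lit 5) (nat_lit 4) (nat_lit 4) (nat_lit 2) (nat_lit 4) (nat_lit 380) (nat_lit 302) (nat_lit 218)) (XT.lf (nat_lit 0) (nat_lit 56424675377) (nat_lit 152) (nat_lit 434994200677) (nat_lit 0) (nat_lit 33143177075) (nat_lit 2) (nat_lit 5) (nat_lit 4) (nat_lit 4) (nat_lit 2) (nat_lit 4) (nat_lit 381) (nat_lit 302) (nat_lit 217))) (XT.nd (nat_lit 78) (nat_lit 0) (nat_lit 0) (XT.lf (nat_lit 0) (nat_lit 78937765853) (nat_lit 152) (nat_lit 430939183369) (nat_lit 0) (nat_lit 55653777063) (nat_lit 2) (nat_lit 5) (nat_lit 4) (nat_lit 4) (nat_lit 2) (nat_lit 4) (nat_lit 382) (nat_lit 302) (nat_lit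 216)) (XT.nd (nat_lit 78) (nat_lit 0) (nat_lit 0) (XT.lf (nat_lit 0) (nat_lit 103247828302) (nat_lit 152) (nat_lit 426567735882) (nat_lit 0) (nat_lit 79961533503) (nat_lit 2) (nat_lit 5) (nat_lit 4) (nat_lit 4) (nat_lit 2) (nat_lit 4) (nat_lit 383) (nat_lit 302) (nat_lit 215)) (XT.lf (nat_lit 0) (nat_lit 129498922353) (nat_lit 152) (nat_lit 421853953342) (nat_lit 0) (nat_lit 106210492361) (nat_lit 2) (nat_lit 5) (nat_lit 4) (nat_lit 4) (nat_lit 2) (nat_lit 4) (nat_lit 384) (nat_lit 302) (nat_lit 214))))) (XT.nd (nat_lit 234) (nat_lit 0) (nat_lit 0) (XT.nd (nat_lit 78) (nat_lit 0) (nat_lit 0) (XT.lf (nat_lit 0) (nat_lit 157846610044) (nat_lit 152) (nat_lit 416769902224) (nat_lit 0) (nat_lit 134556203021) (nat_lit 2) (nat_lit 5) (nat_lit 4) (nat_lit 4) (nat_lit 2) (nat_lit 4) (nat_lit 385) (nat_lit 302) (nat_lit 213)) (XT.nd (nat_lit 78) (nat_lit 0) (nat_lit 0) (XT.lf (nat_lit 0) (nat_lit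 188458877673) (nat_lit 152) (nat_lit 411285454816) (nat_lit 0) (nat_lit 165166640066) (nat_lit 2) (nat_lit 5) (nat_lit 4) (nat_lit 4) (nat_lit 2) (nat_lit 4) (nat_lit 386) (nat_lit 302) (nat_lit 212)) (XT.lf (nat_lit 0) (nat_lit 221517131270) (nat_lit 152) (nat_lit 405368110690) (nat_lit 0) (nat_lit 198223198678) (nat_lit 2) (nat_lit 5) (nat_lit 4) (nat_lit 4) (nat_lit 2) (nat_lit 4) (nat_lit 387) (nat_lit 302) (nat_lit 211)))) (XT.nd (nat_lit 78) (nat_lit 0) (nat_lit 0) (XT.lf (nat_lit 0) (nat_lit 257217271598) (nat_lit 152) (nat_lit 398982804103) (nat_lit 0) (nat_lit 233921769575) (nat_lit 2) (nat_lit 5) (nat_lit 4) (nat_lit 4) (nat_lit 2) (nat_lit 4) (nat_lit 388) (nat_lit 302) (nat_lit 210)) (XT.nd (nat_lit 78) (nat_lit 0) (nat_lit 0) (XT.lf (nat_lit 0) (nat_lit 295770855043) (nat_lit 152) (nat_lit 392091696200) (nat_lit 0) (nat_lit 272473899844) (nat_lit 2) (nat_lit 5) (nat_lit 4)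 (nat_lit 4) (nat_lit 2) (nat_lit 4) (nat_lit 389) (nat_lit 302) (nat_lit 209)) (XT.lf (nat_lit 0) (nat_lit 337406347285) (nat_lit 152) (nat_lit 384653950787) (nat_lit 0) (nat_lit 314108046552) (nat_lit 2) (nat_lit 5) (nat_lit 4) (nat_lit 4) (nat_lit 2) (nat_lit 4) (nat_lit 390) (nat_lit 302) (nat_lit 208))))))))
noncomputable def xc53 : XT := (XT.nd (nat_lit 1716) (nat_lit 2660) (nat_lit 0) (XT.nd (nat_lit 858) (nat_lit 3116) (nat_lit 0) (XT.nd (nat_lit 390) (nat_lit 3116) (nat_lit 0) (XT.nd (nat_lit 156) (nat_lit 380) (nat_lit 0) (XT.nd (nat_lit 78) (nat_lit 380) (nat_lit 0) (XT.lf (nat_lit 0) (nat_lit 2510411507) (nat_lit 380) (nat_lit 420958904) (nat_lit 380) (nat_lit 420958904) (nat_lit 144) (nat_lit 3) (nat_lit 149) (nat_lit 3) (nat_lit 149) (nat_lit 5) (nat_lit 303) (nat_lit 303) (nat_lit 294)) (XT.lf (nat_lit 0) (nat_lit 1644262174) (nat_lit 380) (nat_lit 2465118549) (nat_lit 456)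 (nat_lit 2691892007) (nat_lit 139) (nat_lit 5) (nat_lit 144) (nat_lit 3) (nat_lit 145) (nat_lit 5) (nat_lit 304) (nat_lit 303) (nat_lit 293))) (XT.nd (nat_lit 78) (nat_lit 380) (nat_lit 0) (XT.lf (nat_lit 76) (nat_lit 2932799359) (nat_lit 0) (nat_lit 1978356211) (nat_lit 456) (nat_lit 2007100339) (nat_lit 140) (nat_lit 5) (nat_lit 139) (nat_lit 5) (nat_lit 145) (nat_lit 5) (nat_lit 305) (nat_lit 303) (nat_lit 292)) (XT.nd (nat_lit 78) (nat_lit 0) (nat_lit 0) (XT.lf (nat_lit 0) (nat_lit 1114179125) (nat_lit 456) (nat_lit 5415213663) (nat_lit 532) (nat_lit 526441811) (nat_lit 134) (nat_lit 5) (nat_lit 140) (nat_lit 5) (nat_lit 141) (nat_lit 5) (nat_lit 306) (nat_lit 303) (nat_lit 291)) (XT.lf (nat_lit 76) (nat_lit 405166089) (nat_lit 0) (nat_lit 3829180577) (nat_lit 532) (nat_lit 2977940143) (nat_lit 135) (nat_lit 5) (nat_lit 134) (nat_lit 5) (nat_lit 141) (nat_lit 5) (nat_lit 307) (nat_lit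 303) (nat_lit 290))))) (XT.nd (nat_lit 234) (nat_lit 2128) (nat_lit 0) (XT.nd (nat_lit 78) (nat_lit 456) (nat_lit 0) (XT.lf (nat_lit 0) (nat_lit 33674896) (nat_lit 532) (nat_lit 695661961) (nat_lit 608) (nat_lit 6661277572) (nat_lit 127) (nat_lit 5) (nat_lit 134) (nat_lit 5) (nat_lit 135) (nat_lit 5) (nat_lit 308) (nat_lit 303) (nat_lit 289)) (XT.nd (nat_lit 78) (nat_lit 532) (nat_lit 0) (XT.lf (nat_lit 0) (nat_lit 3061741038) (nat_lit 532) (nat_lit 1775680828) (nat_lit 76) (nat_lit 2749750890) (nat_lit 128) (nat_lit 5) (nat_lit 135) (nat_lit 5) (nat_lit 129) (nat_lit 5) (nat_lit 309) (nat_lit 303) (nat_lit 288)) (XT.lf (nat_lit 0) (nat_lit 5024139970) (nat_lit 532) (nat_lit 1170948529) (nat_lit 608) (nat_lit 1611584110) (nat_lit 121) (nat_lit 5) (nat_lit 128) (nat_lit 5) (nat_lit 129) (nat_lit 5) (nat_lit 310) (nat_lit 303) (nat_lit 287)))) (XT.nd (nat_lit 78) (nat_lit 1444) (nat_lit 0)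 (XT.lf (nat_lit 0) (nat_lit 1402107928) (nat_lit 684) (nat_lit 3781843729) (nat_lit 76) (nat_lit 2863113413) (nat_lit 112) (nat_lit 5) (nat_lit 121) (nat_lit 5) (nat_lit 113) (nat_lit 5) (nat_lit 311) (nat_lit 303) (nat_lit 286)) (XT.nd (nat_lit 78) (nat_lit 760) (nat_lit 0) (XT.lf (nat_lit 0) (nat_lit 3545238089) (nat_lit 684) (nat_lit 965900236) (nat_lit 760) (nat_lit 3798995395) (nat_lit 103) (nat_lit 5) (nat_lit 112) (nat_lit 5) (nat_lit 113) (nat_lit 5) (nat_lit 312) (nat_lit 303) (nat_lit 285)) (XT.lf (nat_lit 0) (nat_lit 2841741009) (nat_lit 760) (nat_lit 4993388394) (nat_lit 836) (nat_lit 761085266) (nat_lit 93) (nat_lit 5) (nat_lit 103) (nat_lit 5) (nat_lit 104) (nat_lit 5) (nat_lit 313) (nat_lit 303) (nat_lit 284)))))) (XT.nd (nat_lit 390) (nat_lit 1596) (nat_lit 0) (XT.nd (nat_lit 156) (nat_lit 760) (nat_lit 0) (XT.nd (nat_lit 78) (nat_lit 304) (nat_lit 0) (XT.lf (nat_lit 0)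 (nat_lit 2144869121) (nat_lit 380) (nat_lit 235984373) (nat_lit 456) (nat_lit 6525524931) (nat_lit 87) (nat_lit 5) (nat_lit 92) (nat_lit 5) (nat_lit 93) (nat_lit 5) (nat_lit 314) (nat_lit 303) (nat_lit 283)) (XT.lf (nat_lit 0) (nat_lit 1405612727) (nat_lit 304) (nat_lit 4361426083) (nat_lit 380) (nat_lit 3472942399) (nat_lit 83) (nat_lit 5) (nat_lit 87) (nat_lit 5) (nat_lit 88) (nat_lit 5) (nat_lit 315) (nat_lit 303) (nat_lit 282))) (XT.nd (nat_lit 78) (nat_lit 380) (nat_lit 0) (XT.lf (nat_lit 0) (nat_lit 683023072) (nat_lit 380) (nat_lit 8716919004) (nat_lit 456) (nat_lit 201749704) (nat_lit 78) (nat_lit 5) (nat_lit 83) (nat_lit 5) (nat_lit 84) (nat_lit 5) (nat_lit 316) (nat_lit 303) (nat_lit 281)) (XT.nd (nat_lit 78) (nat_lit 304) (nat_lit 0) (XT.lf (nat_lit 0) (nat_lit 3272838900) (nat_lit 456) (nat_lit 142688250) (nat_lit 76) (nat_lit 6571981560) (nat_lit 77) (nat_lit 5) (nat_lit 83)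 (nat_lit 5) (nat_lit 78) (nat_lit 5) (nat_lit 317) (nat_lit 303) (nat_lit 280)) (XT.lf (nat_lit 0) (nat_lit 7052447939) (nat_lit 380) (nat_lit 984679775) (nat_lit 76) (nat_lit 2365363883) (nat_lit 73) (nat_lit 5) (nat_lit 78) (nat_lit 5) (nat_lit 74) (nat_lit 5) (nat_lit 318) (nat_lit 303) (nat_lit 279))))) (XT.nd (nat_lit 234) (nat_lit 684) (nat_lit 0) (XT.nd (nat_lit 78) (nat_lit 532) (nat_lit 0) (XT.lf (nat_lit 0) (nat_lit 331709958) (nat_lit 380) (nat_lit 1902870462) (nat_lit 76) (nat_lit 8613170951) (nat_lit 68) (nat_lit 5) (nat_lit 73) (nat_lit 5) (nat_lit 69) (nat_lit 5) (nat_lit 319) (nat_lit 303) (nat_lit 278)) (XT.nd (nat_lit 78) (nat_lit 304) (nat_lit 0) (XT.lf (nat_lit 0) (nat_lit 4268852660) (nat_lit 304) (nat_lit 2975484522) (nat_lit 76) (nat_lit 4077778390) (nat_lit 65) (nat_lit 5) (nat_lit 69) (nat_lit 5) (nat_lit 66) (nat_lit 5) (nat_lit 320) (nat_lit 303) (nat_lit 277))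 (XT.lf (nat_lit 0) (nat_lit 7687432081) (nat_lit 304) (nat_lit 894061406) (nat_lit 380) (nat_lit 3250039167) (nat_lit 61) (nat_lit 5) (nat_lit 65) (nat_lit 5) (nat_lit 66) (nat_lit 5) (nat_lit 321) (nat_lit 303) (nat_lit 276)))) (XT.nd (nat_lit 78) (nat_lit 380) (nat_lit 0) (XT.lf (nat_lit 0) (nat_lit 960955964) (nat_lit 304) (nat_lit 5503766826) (nat_lit 76) (nat_lit 5909877817) (nat_lit 57) (nat_lit 5) (nat_lit 61) (nat_lit 5) (nat_lit 58) (nat_lit 5) (nat_lit 322) (nat_lit 303) (nat_lit 275)) (XT.nd (nat_lit 78) (nat_lit 152) (nat_lit 0) (XT.lf (nat_lit 0) (nat_lit 5464509330) (nat_lit 304) (nat_lit 7053535656) (nat_lit 76) (nat_lit 437034047) (nat_lit 54) (nat_lit 5) (nat_lit 58) (nat_lit 5) (nat_lit 55) (nat_lit 5) (nat_lit 323) (nat_lit 303) (nat_lit 274)) (XT.lf (nat_lit 0) (nat_lit 4714560658) (nat_lit 152) (nat_lit 5779779425) (nat_lit 228) (nat_lit 3079454339) (nat_lit 52) (nat_lit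 5) (nat_lit 54) (nat_lit 5) (nat_lit 55) (nat_lit 5) (nat_lit 324) (nat_lit 303) (nat_lit 273))))))) (XT.nd (nat_lit 858) (nat_lit 912) (nat_lit 0) (XT.nd (nat_lit 390) (nat_lit 836) (nat_lit 0) (XT.nd (nat_lit 156) (nat_lit 456) (nat_lit 0) (XT.nd (nat_lit 78) (nat_lit 152) (nat_lit 0) (XT.lf (nat_lit 0) (nat_lit 1723941495) (nat_lit 304) (nat_lit 10904986285) (nat_lit 76) (nat_lit 1607185588) (nat_lit 48) (nat_lit 5) (nat_lit 52) (nat_lit 5) (nat_lit 49) (nat_lit 5) (nat_lit 325) (nat_lit 303) (nat_lit 272)) (XT.lf (nat_lit 0) (nat_lit 1610543647) (nat_lit 152) (nat_lit 5369105364) (nat_lit 228) (nat_lit 7960528520) (nat_lit 46) (nat_lit 5) (nat_lit 48) (nat_lit 5) (nat_lit 49) (nat_lit 5) (nat_lit 326) (nat_lit 303) (nat_lit 271))) (XT.nd (nat_lit 78) (nat_lit 456) (nat_lit 0) (XT.lf (nat_lit 0) (nat_lit 12787100720) (nat_lit 228) (nat_lit 371860460) (nat_lit 76) (nat_lit 2535115618)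 (nat_lit 46) (nat_lit 5) (nat_lit 49) (nat_lit 5) (nat_lit 47) (nat_lit 5) (nat_lit 327) (nat_lit 303) (nat_lit 270)) (XT.nd (nat_lit 78) (nat_lit 152) (nat_lit 0) (XT.lf (nat_lit 0) (nat_lit 2686178394) (nat_lit 304) (nat_lit 2710623074) (nat_lit 76) (nat_lit 11098712736) (nat_lit 42) (nat_lit 5) (nat_lit 46) (nat_lit 5) (nat_lit 43) (nat_lit 5) (nat_lit 328) (nat_lit 303) (nat_lit 269)) (XT.lf (nat_lit 0) (nat_lit 8779028789) (nat_lit 228) (nat_lit 5485302734) (nat_lit 76) (nat_lit 3086708527) (nat_lit 40) (nat_lit 5) (nat_lit 43) (nat_lit 5) (nat_lit 41) (nat_lit 5) (nat_lit 329) (nat_lit 303) (nat_lit 268))))) (XT.nd (nat_lit 234) (nat_lit 304) (nat_lit 0) (XT.nd (nat_lit 78) (nat_lit 380) (nat_lit 0) (XT.lf (nat_lit 0) (nat_lit 9506401146) (nat_lit 152) (nat_lit 6054367093) (nat_lit 228) (nat_lit 2704222887) (nat_lit 38) (nat_lit 5) (nat_lit 40) (nat_lit 5) (nat_lit 41) (nat_lit 5)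 (nat_lit 330) (nat_lit 303) (nat_lit 267)) (XT.nd (nat_lit 78) (nat_lit 152) (nat_lit 0) (XT.lf (nat_lit 0) (nat_lit 3682181289) (nat_lit 228) (nat_lit 12624808608) (nat_lit 76) (nat_lit 2934008349) (nat_lit 35) (nat_lit 5) (nat_lit 38) (nat_lit 5) (nat_lit 36) (nat_lit 5) (nat_lit 331) (nat_lit 303) (nat_lit 266)) (XT.lf (nat_lit 0) (nat_lit 3061511076) (nat_lit 152) (nat_lit 7649769893) (nat_lit 228) (nat_lit 9570307991) (nat_lit 33) (nat_lit 5) (nat_lit 35) (nat_lit 5) (nat_lit 36) (nat_lit 5) (nat_lit 332) (nat_lit 303) (nat_lit 265)))) (XT.nd (nat_lit 78) (nat_lit 304) (nat_lit 0) (XT.lf (nat_lit 0) (nat_lit 18476202251) (nat_lit 228) (nat_lit 1100838521) (nat_lit 76) (nat_lit 1819753974) (nat_lit 33) (nat_lit 5) (nat_lit 36) (nat_lit 5) (nat_lit 34) (nat_lit 4) (nat_lit 333) (nat_lit 303) (nat_lit 264)) (XT.nd (nat_lit 78) (nat_lit 152) (nat_lit 0) (XT.lf (nat_lit 0) (nat_lit 4446981888)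 (nat_lit 152) (nat_lit 6067408819) (nat_lit 76) (nat_lit 12067424206) (nat_lit 31) (nat_lit 5) (nat_lit 33) (nat_lit 5) (nat_lit 32) (nat_lit 5) (nat_lit 334) (nat_lit 303) (nat_lit 263)) (XT.lf (nat_lit 0) (nat_lit 11932573093) (nat_lit 152) (nat_lit 507642598) (nat_lit 228) (nat_lit 11412132933) (nat_lit 29) (nat_lit 5) (nat_lit 31) (nat_lit 5) (nat_lit 32) (nat_lit 5) (nat_lit 335) (nat_lit 303) (nat_lit 262)))))) (XT.nd (nat_lit 390) (nat_lit 304) (nat_lit 0) (XT.nd (nat_lit 156) (nat_lit 456) (nat_lit 0) (XT.nd (nat_lit 78) (nat_lit 76) (nat_lit 0) (XT.lf (nat_lit 0) (nat_lit 6294140313) (nat_lit 76) (nat_lit 15079279846) (nat_lit 152) (nat_lit 3836111405) (nat_lit 28) (nat_lit 5) (nat_lit 29) (nat_lit 5) (nat_lit 30) (nat_lit 4) (nat_lit 336) (nat_lit 303) (nat_lit 261)) (XT.lf (nat_lit 0) (nat_lit 4362620539) (nat_lit 152) (nat_lit 465807422) (nat_lit 76) (nat_lit 21835710477) (nat_lit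 27) (nat_lit 5) (nat_lit 29) (nat_lit 5) (nat_lit 28) (nat_lit 5) (nat_lit 337) (nat_lit 303) (nat_lit 260))) (XT.nd (nat_lit 78) (nat_lit 304) (nat_lit 0) (XT.lf (nat_lit 0) (nat_lit 13439591468) (nat_lit 228) (nat_lit 8392928246) (nat_lit 76) (nat_lit 6381639073) (nat_lit 25) (nat_lit 5) (nat_lit 28) (nat_lit 5) (nat_lit 26) (nat_lit 4) (nat_lit 338) (nat_lit 303) (nat_lit 259)) (XT.nd (nat_lit 78) (nat_lit 228) (nat_lit 0) (XT.lf (nat_lit 0) (nat_lit 12063360889) (nat_lit 76) (nat_lit 11400390560) (nat_lit 152) (nat_lit 6413402039) (nat_lit 24) (nat_lit 5) (nat_lit 25) (nat_lit 5) (nat_lit 26) (nat_lit 4) (nat_lit 339) (nat_lit 303) (nat_lit 258)) (XT.lf (nat_lit 0) (nat_lit 2670073351) (nat_lit 228) (nat_lit 28929837083) (nat_lit 76) (nat_lit 64397771) (nat_lit 21) (nat_lit 5) (nat_lit 24) (nat_lit 5) (nat_lit 22) (nat_lit 4) (nat_lit 340) (nat_lit 303) (nat_lit 257))))) (XT.nd (nat_lit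 234) (nat_lit 152) (nat_lit 0) (XT.nd (nat_lit 78) (nat_lit 152) (nat_lit 0) (XT.lf (nat_lit 0) (nat_lit 12712940292) (nat_lit 228) (nat_lit 8418090583) (nat_lit 76) (nat_lit 12435296979) (nat_lit 21) (nat_lit 5) (nat_lit 24) (nat_lit 5) (nat_lit 22) (nat_lit 4) (nat_lit 341) (nat_lit 303) (nat_lit 256)) (XT.nd (nat_lit 78) (nat_lit 76) (nat_lit 0) (XT.lf (nat_lit 0) (nat_lit 14096482974) (nat_lit 76) (nat_lit 9633562182) (nat_lit 152) (nat_lit 11881941853) (nat_lit 20) (nat_lit 5) (nat_lit 21) (nat_lit 5) (nat_lit 22) (nat_lit 4) (nat_lit 342) (nat_lit 303) (nat_lit 255)) (XT.lf (nat_lit 0) (nat_lit 791146466) (nat_lit 76) (nat_lit 34994666369) (nat_lit 76) (nat_lit 2027638345) (nat_lit 19) (nat_lit 4) (nat_lit 20) (nat_lit 5) (nat_lit 20) (nat_lit 4) (nat_lit 343) (nat_lit 303) (nat_lit 254)))) (XT.nd (nat_lit 78) (nat_lit 76) (nat_lit 0) (XT.lf (nat_lit 0) (nat_lit 8836547055) (nat_lit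 152) (nat_lit 14909663728) (nat_lit 76) (nat_lit 16413247890) (nat_lit 18) (nat_lit 5) (nat_lit 20) (nat_lit 5) (nat_lit 19) (nat_lit 4) (nat_lit 344) (nat_lit 303) (nat_lit 253)) (XT.nd (nat_lit 78) (nat_lit 0) (nat_lit 0) (XT.lf (nat_lit 0) (nat_lit 9152090174) (nat_lit 76) (nat_lit 11447894723) (nat_lit 152) (nat_lit 22086455945) (nat_lit 17) (nat_lit 5) (nat_lit 18) (nat_lit 5) (nat_lit 19) (nat_lit 4) (nat_lit 345) (nat_lit 303) (nat_lit 252)) (XT.lf (nat_lit 0) (nat_lit 33555875642) (nat_lit 152) (nat_lit 9841012223) (nat_lit 0) (nat_lit 2006137680) (nat_lit 17) (nat_lit 5) (nat_lit 19) (nat_lit 4) (nat_lit 17) (nat_lit 4) (nat_lit 346) (nat_lit 303) (nat_lit 251))))))))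
noncomputable def xc54 : XT := (XT.nd (nat_lit 1716) (nat_lit 228) (nat_lit 0) (XT.nd (nat_lit 858) (nat_lit 304) (nat_lit 0) (XT.nd (nat_lit 390) (nat_lit 304) (nat_lit 0) (XT.nd (nat_lit 156) (nat_lit 152) (nat_lit 0) (XT.nd (nat_lit 78) (nat_lit 76) (nat_lit 0) (XT.lf (nat_lit 0) (nat_lit 15995681718) (nat_lit 76) (nat_lit 31957145345) (nat_lit 76) (nat_lit 363892396) (nat_lit 16) (nat_lit 4) (nat_lit 17) (nat_lit 5) (nat_lit 17) (nat_lit 4) (nat_lit 347) (nat_lit 303) (nat_lit 250)) (XT.lf (nat_lit 0) (nat_lit 11789947232) (nat_lit 152) (nat_lit 7464152775) (nat_lit 76) (nat_lit 32193161332) (nat_lit 15) (nat_lit 5) (nat_lit 17) (nat_lit 5) (nat_lit 16) (nat_lit 4) (nat_lit 348) (nat_lit 303) (nat_lit 249))) (XT.nd (nat_lit 78) (nat_lit 76) (nat_lit 0) (XT.lf (nat_lit 0) (nat_lit 19949595697) (nat_lit 76) (nat_lit 5231110344) (nat_lit 152) (nat_lit 29633383925) (nat_lit 14) (nat_lit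 5) (nat_lit 15) (nat_lit 5) (nat_lit 16) (nat_lit 4) (nat_lit 349) (nat_lit 303) (nat_lit 248)) (XT.nd (nat_lit 78) (nat_lit 76) (nat_lit 0) (XT.lf (nat_lit 0) (nat_lit 39896516342) (nat_lit 152) (nat_lit 8840166221) (nat_lit 0) (nat_lit 9700901781) (nat_lit 14) (nat_lit 5) (nat_lit 16) (nat_lit 4) (nat_lit 14) (nat_lit 4) (nat_lit 350) (nat_lit 303) (nat_lit 247)) (XT.lf (nat_lit 0) (nat_lit 19752248704) (nat_lit 76) (nat_lit 36403249428) (nat_lit 76) (nat_lit 6177173140) (nat_lit 13) (nat_lit 4) (nat_lit 14) (nat_lit 5) (nat_lit 14) (nat_lit 4) (nat_lit 351) (nat_lit 303) (nat_lit 246))))) (XT.nd (nat_lit 234) (nat_lit 152) (nat_lit 0) (XT.nd (nat_lit 78) (nat_lit 76) (nat_lit 0) (XT.lf (nat_lit 0) (nat_lit 7072910655) (nat_lit 152) (nat_lit 15754814748) (nat_lit 76) (nat_lit 43699707913) (nat_lit 12) (nat_lit 5) (nat_lit 14) (nat_lit 5) (nat_lit 13) (nat_lit 4) (nat_lit 352) (nat_lit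 303) (nat_lit 245)) (XT.nd (nat_lit 78) (nat_lit 0) (nat_lit 0) (XT.lf (nat_lit 0) (nat_lit 13492369557) (nat_lit 76) (nat_lit 7860199793) (nat_lit 152) (nat_lit 49690851208) (nat_lit 11) (nat_lit 5) (nat_lit 12) (nat_lit 5) (nat_lit 13) (nat_lit 4) (nat_lit 353) (nat_lit 303) (nat_lit 244)) (XT.lf (nat_lit 0) (nat_lit 37156532149) (nat_lit 152) (nat_lit 30450036131) (nat_lit 0) (nat_lit 8295028231) (nat_lit 11) (nat_lit 5) (nat_lit 13) (nat_lit 4) (nat_lit 11) (nat_lit 4) (nat_lit 354) (nat_lit 303) (nat_lit 243)))) (XT.nd (nat_lit 78) (nat_lit 152) (nat_lit 0) (XT.lf (nat_lit 0) (nat_lit 54332658211) (nat_lit 152) (nat_lit 1360551631) (nat_lit 0) (nat_lit 25449830218) (nat_lit 11) (nat_lit 5) (nat_lit 13) (nat_lit 4) (nat_lit 11) (nat_lit 4) (nat_lit 355) (nat_lit 303) (nat_lit 242)) (XT.nd (nat_lit 78) (nat_lit 76) (nat_lit 0) (XT.lf (nat_lit 0) (nat_lit 31004853308) (nat_lit 76) (nat_lit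 42339231583) (nat_lit 76) (nat_lit 13436659075) (nat_lit 10) (nat_lit 4) (nat_lit 11) (nat_lit 5) (nat_lit 11) (nat_lit 4) (nat_lit 356) (nat_lit 303) (nat_lit 241)) (XT.lf (nat_lit 0) (nat_lit 976638806) (nat_lit 152) (nat_lit 26918744912) (nat_lit 76) (nat_lit 64973203841) (nat_lit 9) (nat_lit 5) (nat_lit 11) (nat_lit 5) (nat_lit 10) (nat_lit 4) (nat_lit 357) (nat_lit 303) (nat_lit 240)))))) (XT.nd (nat_lit 390) (nat_lit 152) (nat_lit 0) (XT.nd (nat_lit 156) (nat_lit 76) (nat_lit 0) (XT.nd (nat_lit 78) (nat_lit 0) (nat_lit 0) (XT.lf (nat_lit 0) (nat_lit 4112751453) (nat_lit 76) (nat_lit 12009460086) (nat_lit 152) (nat_lit 83307739548) (nat_lit 8) (nat_lit 5) (nat_lit 9) (nat_lit 5) (nat_lit 10) (nat_lit 4) (nat_lit 358) (nat_lit 303) (nat_lit 239)) (XT.lf (nat_lit 0) (nat_lit 33016503640) (nat_lit 152) (nat_lit 68031086859) (nat_lit 0) (nat_lit 5441783605) (nat_lit 8) (nat_lit 5) (nat_lit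 10) (nat_lit 4) (nat_lit 8) (nat_lit 4) (nat_lit 359) (nat_lit 303) (nat_lit 238))) (XT.nd (nat_lit 78) (nat_lit 76) (nat_lit 0) (XT.lf (nat_lit 0) (nat_lit 51446428517) (nat_lit 152) (nat_lit 38800034995) (nat_lit 0) (nat_lit 23857886761) (nat_lit 8) (nat_lit 5) (nat_lit 10) (nat_lit 4) (nat_lit 8) (nat_lit 4) (nat_lit 360) (nat_lit 303) (nat_lit 237)) (XT.nd (nat_lit 78) (nat_lit 76) (nat_lit 0) (XT.lf (nat_lit 0) (nat_lit 71333699212) (nat_lit 152) (nat_lit 7263321666) (nat_lit 0) (nat_lit 43732359566) (nat_lit 8) (nat_lit 5) (nat_lit 10) (nat_lit 4) (nat_lit 8) (nat_lit 4) (nat_lit 361) (nat_lit 303) (nat_lit 236)) (XT.lf (nat_lit 0) (nat_lit 27650940121) (nat_lit 76) (nat_lit 65576934764) (nat_lit 76) (nat_lit 37963745220) (nat_lit 7) (nat_lit 4) (nat_lit 8) (nat_lit 5) (nat_lit 8) (nat_lit 4) (nat_lit 362) (nat_lit 303) (nat_lit 235))))) (XT.nd (nat_lit 234) (nat_lit 76) (nat_lit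 0) (XT.nd (nat_lit 78) (nat_lit 76) (nat_lit 0) (XT.lf (nat_lit 0) (nat_lit 65588643125) (nat_lit 76) (nat_lit 51396393933) (nat_lit 76) (nat_lit 23772232261) (nat_lit 7) (nat_lit 4) (nat_lit 8) (nat_lit 5) (nat_lit 8) (nat_lit 4) (nat_lit 363) (nat_lit 303) (nat_lit 234)) (XT.nd (nat_lit 78) (nat_lit 76) (nat_lit 0) (XT.lf (nat_lit 0) (nat_lit 106534445145) (nat_lit 76) (nat_lit 36094373417) (nat_lit 76) (nat_lit 8460052367) (nat_lit 7) (nat_lit 4) (nat_lit 8) (nat_lit 5) (nat_lit 8) (nat_lit 4) (nat_lit 364) (nat_lit 303) (nat_lit 233)) (XT.lf (nat_lit 0) (nat_lit 7805449879) (nat_lit 152) (nat_lit 11642555627) (nat_lit 76) (nat_lit 142793349020) (nat_lit 6) (nat_lit 5) (nat_lit 8) (nat_lit 5) (nat_lit 7) (nat_lit 4) (nat_lit 365) (nat_lit 303) (nat_lit 232)))) (XT.nd (nat_lit 78) (nat_lit 0) (nat_lit 0) (XT.lf (nat_lit 0) (nat_lit 24520954318) (nat_lit 76) (nat_lit 929480914) (nat_lit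 152) (nat_lit 148809937282) (nat_lit 5) (nat_lit 5) (nat_lit 6) (nat_lit 5) (nat_lit 7) (nat_lit 4) (nat_lit 366) (nat_lit 303) (nat_lit 231)) (XT.nd (nat_lit 78) (nat_lit 0) (nat_lit 0) (XT.lf (nat_lit 0) (nat_lit 44999113608) (nat_lit 152) (nat_lit 123561418071) (nat_lit 0) (nat_lit 18655777654) (nat_lit 5) (nat_lit 5) (nat_lit 7) (nat_lit 4) (nat_lit 5) (nat_lit 4) (nat_lit 367) (nat_lit 303) (nat_lit 230)) (XT.lf (nat_lit 0) (nat_lit 66116450989) (nat_lit 152) (nat_lit 95326030634) (nat_lit 0) (nat_lit 39766003182) (nat_lit 5) (nat_lit 5) (nat_lit 7) (nat_lit 4) (nat_lit 5) (nat_lit 4) (nat_lit 368) (nat_lit 303) (nat_lit 229))))))) (XT.nd (nat_lit 858) (nat_lit 152) (nat_lit 0) (XT.nd (nat_lit 390) (nat_lit 0) (nat_lit 0) (XT.nd (nat_lit 156) (nat_lit 76) (nat_lit 0) (XT.nd (nat_lit 78) (nat_lit 0) (nat_lit 0) (XT.lf (nat_lit 0) (nat_lit 88913075352) (nat_lit 152) (nat_lit 64851423270)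 (nat_lit 0) (nat_lit 62556042495) (nat_lit 5) (nat_lit 5) (nat_lit 7) (nat_lit 4) (nat_lit 5) (nat_lit 4) (nat_lit 369) (nat_lit 303) (nat_lit 228)) (XT.lf (nat_lit 0) (nat_lit 113524077804) (nat_lit 152) (nat_lit 31957005712) (nat_lit 0) (nat_lit 87160947679) (nat_lit 5) (nat_lit 5) (nat_lit 7) (nat_lit 4) (nat_lit 5) (nat_lit 4) (nat_lit 370) (nat_lit 303) (nat_lit 227))) (XT.nd (nat_lit 78) (nat_lit 0) (nat_lit 0) (XT.lf (nat_lit 0) (nat_lit 3669602104) (nat_lit 76) (nat_lit 136482991990) (nat_lit 76) (nat_lit 110114216247) (nat_lit 4) (nat_lit 4) (nat_lit 5) (nat_lit 5) (nat_lit 5) (nat_lit 4) (nat_lit 371) (nat_lit 303) (nat_lit 226)) (XT.nd (nat_lit 78) (nat_lit 0) (nat_lit 0) (XT.lf (nat_lit 0) (nat_lit 43271430269) (nat_lit 76) (nat_lit 126188363033) (nat_lit 76) (nat_lit 99814359866) (nat_lit 4) (nat_lit 4) (nat_lit 5) (nat_lit 5) (nat_lit 5) (nat_lit 4) (nat_lit 372) (nat_lit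 303) (nat_lit 225)) (XT.lf (nat_lit 0) (nat_lit 86026513351) (nat_lit 76) (nat_lit 115077398793) (nat_lit 76) (nat_lit 88698555417) (nat_lit 4) (nat_lit 4) (nat_lit 5) (nat_lit 5) (nat_lit 5) (nat_lit 4) (nat_lit 373) (nat_lit 303) (nat_lit 224))))) (XT.nd (nat_lit 234) (nat_lit 0) (nat_lit 0) (XT.nd (nat_lit 78) (nat_lit 0) (nat_lit 0) (XT.lf (nat_lit 0) (nat_lit 132188214806) (nat_lit 76) (nat_lit 103084256516) (nat_lit 76) (nat_lit 76700931467) (nat_lit 4) (nat_lit 4) (nat_lit 5) (nat_lit 5) (nat_lit 5) (nat_lit 4) (nat_lit 374) (nat_lit 303) (nat_lit 223)) (XT.nd (nat_lit 78) (nat_lit 0) (nat_lit 0) (XT.lf (nat_lit 0) (nat_lit 182030085456) (nat_lit 76) (nat_lit 90137865732) (nat_lit 76) (nat_lit 63750390985) (nat_lit 4) (nat_lit 4) (nat_lit 5) (nat_lit 5) (nat_lit 5) (nat_lit 4) (nat_lit 375) (nat_lit 303) (nat_lit 222)) (XT.lf (nat_lit 0) (nat_lit 235847484537) (nat_lit 76) (nat_lit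 76161507087) (nat_lit 76) (nat_lit 49770190027) (nat_lit 4) (nat_lit 4) (nat_lit 5) (nat_lit 5) (nat_lit 5) (nat_lit 4) (nat_lit 376) (nat_lit 303) (nat_lit 221)))) (XT.nd (nat_lit 78) (nat_lit 0) (nat_lit 0) (XT.lf (nat_lit 0) (nat_lit 293959329967) (nat_lit 76) (nat_lit 61072357715) (nat_lit 76) (nat_lit 34677482958) (nat_lit 4) (nat_lit 4) (nat_lit 5) (nat_lit 5) (nat_lit 5) (nat_lit 4) (nat_lit 377) (nat_lit 303) (nat_lit 220)) (XT.nd (nat_lit 78) (nat_lit 0) (nat_lit 0) (XT.lf (nat_lit 0) (nat_lit 356709988238) (nat_lit 76) (nat_lit 44781000435) (nat_lit 76) (nat_lit 18382831513) (nat_lit 4) (nat_lit 4) (nat_lit 5) (nat_lit 5) (nat_lit 5) (nat_lit 4) (nat_lit 378) (nat_lit 303) (nat_lit 219)) (XT.lf (nat_lit 0) (nat_lit 424471315104) (nat_lit 76) (nat_lit 27190893869) (nat_lit 76) (nat_lit 789674796) (nat_lit 4) (nat_lit 4) (nat_lit 5) (nat_lit 5) (nat_lit 5) (nat_lit 4) (nat_lit 379)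 (nat_lit 303) (nat_lit 218)))))) (XT.nd (nat_lit 390) (nat_lit 0) (nat_lit 0) (XT.nd (nat_lit 156) (nat_lit 0) (nat_lit 0) (XT.nd (nat_lit 78) (nat_lit 0) (nat_lit 0) (XT.lf (nat_lit 0) (nat_lit 10045717817) (nat_lit 76) (nat_lit 7734653453) (nat_lit 152) (nat_lit 469833990697) (nat_lit 2) (nat_lit 5) (nat_lit 3) (nat_lit 5) (nat_lit 4) (nat_lit 4) (nat_lit 380) (nat_lit 303) (nat_lit 217)) (XT.lf (nat_lit 0) (nat_lit 38507025061) (nat_lit 152) (nat_lit 473689406568) (nat_lit 0) (nat_lit 13357826678) (nat_lit 2) (nat_lit 5) (nat_lit 4) (nat_lit 4) (nat_lit 2) (nat_lit 4) (nat_lit 381) (nat_lit 303) (nat_lit 216))) (XT.nd (nat_lit 78) (nat_lit 0) (nat_lit 0) (XT.lf (nat_lit 0) (nat_lit 61018156276) (nat_lit 152) (nat_lit 469638221570) (nat_lit 0) (nat_lit 35866651884) (nat_lit 2) (nat_lit 5) (nat_lit 4) (nat_lit 4) (nat_lit 2) (nat_lit 4) (nat_lit 382) (nat_lit 303) (nat_lit 215)) (XT.nd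 (nat_lit 78) (nat_lit 0) (nat_lit 0) (XT.lf (nat_lit 0) (nat_lit 85326404593) (nat_lit 152) (nat_lit 465270322519) (nat_lit 0) (nat_lit 60172765008) (nat_lit 2) (nat_lit 5) (nat_lit 4) (nat_lit 4) (nat_lit 2) (nat_lit 4) (nat_lit 383) (nat_lit 303) (nat_lit 214)) (XT.lf (nat_lit 0) (nat_lit 111575818892) (nat_lit 152) (nat_lit 460559825568) (nat_lit 0) (nat_lit 86420202276) (nat_lit 2) (nat_lit 5) (nat_lit 4) (nat_lit 4) (nat_lit 2) (nat_lit 4) (nat_lit 384) (nat_lit 303) (nat_lit 213))))) (XT.nd (nat_lit 234) (nat_lit 0) (nat_lit 0) (XT.nd (nat_lit 78) (nat_lit 0) (nat_lit 0) (XT.lf (nat_lit 0) (nat_lit 139921951257) (nat_lit 152) (nat_lit 455478816661) (nat_lit 0) (nat_lit 114764504058) (nat_lit 2) (nat_lit 5) (nat_lit 4) (nat_lit 4) (nat_lit 2) (nat_lit 4) (nat_lit 385) (nat_lit 303) (nat_lit 212)) (XT.nd (nat_lit 78) (nat_lit 0) (nat_lit 0) (XT.lf (nat_lit 0) (nat_lit 170532778770)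 (nat_lit 152) (nat_lit 449997186116) (nat_lit 0) (nat_lit 145373636585) (nat_lit 2) (nat_lit 5) (nat_lit 4) (nat_lit 4) (nat_lit 2) (nat_lit 4) (nat_lit 386) (nat_lit 303) (nat_lit 211)) (XT.lf (nat_lit 0) (nat_lit 203589698926) (nat_lit 152) (nat_lit 444082450196) (nat_lit 0) (nat_lit 178428987311) (nat_lit 2) (nat_lit 5) (nat_lit 4) (nat_lit 4) (nat_lit 2) (nat_lit 4) (nat_lit 387) (nat_lit 303) (nat_lit 210)))) (XT.nd (nat_lit 78) (nat_lit 0) (nat_lit 0) (XT.lf (nat_lit 0) (nat_lit 239288604586) (nat_lit 152) (nat_lit 437699558614) (nat_lit 0) (nat_lit 214126439794) (nat_lit 2) (nat_lit 5) (nat_lit 4) (nat_lit 4) (nat_lit 2) (nat_lit 4) (nat_lit 388) (nat_lit 303) (nat_lit 209)) (XT.nd (nat_lit 40248) (nat_lit 0) (nat_lit 10412) (XT.lf (nat_lit 0) (nat_lit 277841044820) (nat_lit 152) (nat_lit 430810686828) (nat_lit 0) (nat_lit 252677534495) (nat_lit 2) (nat_lit 5) (nat_lit 4) (nat_lit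 4) (nat_lit 2) (nat_lit 4) (nat_lit 389) (nat_lit 303) (nat_lit 208)) (XT.lf (nat_lit 0) (nat_lit 1174622927) (nat_lit 0) (nat_lit 1174622927) (nat_lit 380) (nat_lit 1104683259) (nat_lit 139) (nat_lit 5) (nat_lit 139) (nat_lit 3) (nat_lit 144) (nat_lit 3) (nat_lit 304) (nat_lit 304) (nat_lit 292))))))))
noncomputable def xc55 : XT := (XT.nd (nat_lit 1716) (nat_lit 2508) (nat_lit 0) (XT.nd (nat_lit 858) (nat_lit 2964) (nat_lit 0) (XT.nd (nat_lit 390) (nat_lit 3040) (nat_lit 0) (XT.nd (nat_lit 156) (nat_lit 456) (nat_lit 0) (XT.nd (nat_lit 78) (nat_lit 0) (nat_lit 0) (XT.lf (nat_lit 0) (nat_lit 688543130) (nat_lit 456) (nat_lit 6324717801) (nat_lit 532) (nat_lit 22194304) (nat_lit 133) (nat_lit 5) (nat_lit 139) (nat_lit 5) (nat_lit 140) (nat_lit 5) (nat_lit 305) (nat_lit 304) (nat_lit 291)) (XT.lf (nat_lit 0) (nat_lit 3571616287) (nat_lit 456) (nat_lit 857949841) (nat_lit 532) (nat_lit 2750833738)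 (nat_lit 133) (nat_lit 5) (nat_lit 139) (nat_lit 5) (nat_lit 140) (nat_lit 5) (nat_lit 306) (nat_lit 304) (nat_lit 290))) (XT.nd (nat_lit 78) (nat_lit 456) (nat_lit 0) (XT.lf (nat_lit 76) (nat_lit 5045696172) (nat_lit 0) (nat_lit 1449322977) (nat_lit 532) (nat_lit 851888231) (nat_lit 134) (nat_lit 5) (nat_lit 133) (nat_lit 5) (nat_lit 140) (nat_lit 5) (nat_lit 307) (nat_lit 304) (nat_lit 289)) (XT.nd (nat_lit 78) (nat_lit 0) (nat_lit 0) (XT.lf (nat_lit 0) (nat_lit 1907600196) (nat_lit 532) (nat_lit 3712991162) (nat_lit 608) (nat_lit 1912379365) (nat_lit 127) (nat_lit 5) (nat_lit 134) (nat_lit 5) (nat_lit 135) (nat_lit 5) (nat_lit 308) (nat_lit 304) (nat_lit 288)) (XT.lf (nat_lit 76) (nat_lit 2656377707) (nat_lit 0) (nat_lit 2070388621) (nat_lit 608) (nat_lit 3013384962) (nat_lit 128) (nat_lit 5) (nat_lit 127) (nat_lit 5) (nat_lit 135) (nat_lit 5) (nat_lit 309) (nat_lit 304) (nat_lit 287)))))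 (XT.nd (nat_lit 234) (nat_lit 1900) (nat_lit 0) (XT.nd (nat_lit 78) (nat_lit 684) (nat_lit 0) (XT.lf (nat_lit 0) (nat_lit 1552970041) (nat_lit 532) (nat_lit 6113778218) (nat_lit 608) (nat_lit 302735272) (nat_lit 121) (nat_lit 5) (nat_lit 128) (nat_lit 5) (nat_lit 129) (nat_lit 5) (nat_lit 310) (nat_lit 304) (nat_lit 286)) (XT.nd (nat_lit 78) (nat_lit 0) (nat_lit 0) (XT.lf (nat_lit 0) (nat_lit 451524268) (nat_lit 608) (nat_lit 2009082079) (nat_lit 684) (nat_lit 5758815578) (nat_lit 112) (nat_lit 5) (nat_lit 120) (nat_lit 5) (nat_lit 121) (nat_lit 5) (nat_lit 311) (nat_lit 304) (nat_lit 285)) (XT.lf (nat_lit 0) (nat_lit 5387472314) (nat_lit 684) (nat_lit 608571708) (nat_lit 76) (nat_lit 2495688774) (nat_lit 112) (nat_lit 5) (nat_lit 121) (nat_lit 5) (nat_lit 113) (nat_lit 5) (nat_lit 312) (nat_lit 304) (nat_lit 284)))) (XT.nd (nat_lit 78) (nat_lit 1216) (nat_lit 0) (XT.lf (nat_lit 0) (nat_lit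 7153621775) (nat_lit 684) (nat_lit 1356608873) (nat_lit 760) (nat_lit 277768807) (nat_lit 103) (nat_lit 5) (nat_lit 112) (nat_lit 5) (nat_lit 113) (nat_lit 5) (nat_lit 313) (nat_lit 304) (nat_lit 283)) (XT.nd (nat_lit 78) (nat_lit 380) (nat_lit 0) (XT.lf (nat_lit 0) (nat_lit 2681551927) (nat_lit 836) (nat_lit 2718809927) (nat_lit 76) (nat_lit 3705890917) (nat_lit 92) (nat_lit 5) (nat_lit 103) (nat_lit 5) (nat_lit 93) (nat_lit 5) (nat_lit 314) (nat_lit 304) (nat_lit 282)) (XT.lf (nat_lit 0) (nat_lit 5648271869) (nat_lit 380) (nat_lit 194713083) (nat_lit 456) (nat_lit 3608209526) (nat_lit 87) (nat_lit 5) (nat_lit 92) (nat_lit 5) (nat_lit 93) (nat_lit 5) (nat_lit 315) (nat_lit 304) (nat_lit 281)))))) (XT.nd (nat_lit 390) (nat_lit 1292) (nat_lit 0) (XT.nd (nat_lit 156) (nat_lit 912) (nat_lit 0) (XT.nd (nat_lit 78) (nat_lit 456) (nat_lit 0) (XT.lf (nat_lit 0) (nat_lit 4864586557) (nat_lit 304)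 (nat_lit 4446251294) (nat_lit 380) (nat_lit 510413520) (nat_lit 83) (nat_lit 5) (nat_lit 87) (nat_lit 5) (nat_lit 88) (nat_lit 5) (nat_lit 316) (nat_lit 304) (nat_lit 280)) (XT.lf (nat_lit 0) (nat_lit 2750404146) (nat_lit 456) (nat_lit 6179279084) (nat_lit 76) (nat_lit 1288891250) (nat_lit 77) (nat_lit 5) (nat_lit 83) (nat_lit 5) (nat_lit 78) (nat_lit 5) (nat_lit 317) (nat_lit 304) (nat_lit 279))) (XT.nd (nat_lit 78) (nat_lit 608) (nat_lit 0) (XT.lf (nat_lit 0) (nat_lit 3140372339) (nat_lit 304) (nat_lit 3185286646) (nat_lit 380) (nat_lit 4318192684) (nat_lit 73) (nat_lit 5) (nat_lit 77) (nat_lit 5) (nat_lit 78) (nat_lit 5) (nat_lit 318) (nat_lit 304) (nat_lit 278)) (XT.nd (nat_lit 78) (nat_lit 304) (nat_lit 0) (XT.lf (nat_lit 0) (nat_lit 2186577662) (nat_lit 304) (nat_lit 8058075117) (nat_lit 380) (nat_lit 855759836) (nat_lit 69) (nat_lit 5) (nat_lit 73) (nat_lit 5) (nat_lit 74) (nat_lit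 5) (nat_lit 319) (nat_lit 304) (nat_lit 277)) (XT.lf (nat_lit 0) (nat_lit 1107114207) (nat_lit 228) (nat_lit 1760371911) (nat_lit 304) (nat_lit 8720085597) (nat_lit 65) (nat_lit 5) (nat_lit 68) (nat_lit 5) (nat_lit 69) (nat_lit 5) (nat_lit 320) (nat_lit 304) (nat_lit 276))))) (XT.nd (nat_lit 234) (nat_lit 684) (nat_lit 0) (XT.nd (nat_lit 78) (nat_lit 608) (nat_lit 0) (XT.lf (nat_lit 0) (nat_lit 6974364853) (nat_lit 304) (nat_lit 112519450) (nat_lit 76) (nat_lit 5020450506) (nat_lit 65) (nat_lit 5) (nat_lit 69) (nat_lit 5) (nat_lit 66) (nat_lit 5) (nat_lit 321) (nat_lit 304) (nat_lit 275)) (XT.nd (nat_lit 78) (nat_lit 304) (nat_lit 0) (XT.lf (nat_lit 0) (nat_lit 11268664634) (nat_lit 304) (nat_lit 234552195) (nat_lit 380) (nat_lit 1160902494) (nat_lit 61) (nat_lit 5) (nat_lit 65) (nat_lit 5) (nat_lit 66) (nat_lit 5) (nat_lit 322) (nat_lit 304) (nat_lit 274)) (XT.lf (nat_lit 0) (nat_lit 3200666523)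 (nat_lit 304) (nat_lit 2935240608) (nat_lit 76) (nat_lit 7118601170) (nat_lit 57) (nat_lit 5) (nat_lit 61) (nat_lit 5) (nat_lit 58) (nat_lit 5) (nat_lit 323) (nat_lit 304) (nat_lit 273)))) (XT.nd (nat_lit 78) (nat_lit 456) (nat_lit 0) (XT.lf (nat_lit 0) (nat_lit 7962195496) (nat_lit 304) (nat_lit 4648563022) (nat_lit 76) (nat_lit 1275924039) (nat_lit 54) (nat_lit 5) (nat_lit 58) (nat_lit 5) (nat_lit 55) (nat_lit 5) (nat_lit 324) (nat_lit 304) (nat_lit 272)) (XT.nd (nat_lit 78) (nat_lit 304) (nat_lit 0) (XT.lf (nat_lit 0) (nat_lit 7931940772) (nat_lit 152) (nat_lit 5354184143) (nat_lit 228) (nat_lit 1274316244) (nat_lit 52) (nat_lit 5) (nat_lit 54) (nat_lit 5) (nat_lit 55) (nat_lit 5) (nat_lit 325) (nat_lit 304) (nat_lit 271)) (XT.lf (nat_lit 0) (nat_lit 3758047272) (nat_lit 304) (nat_lit 8914773119) (nat_lit 76) (nat_lit 2605921963) (nat_lit 48) (nat_lit 5) (nat_lit 52) (nat_lit 5) (nat_lit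 49) (nat_lit 5) (nat_lit 326) (nat_lit 304) (nat_lit 270))))))) (XT.nd (nat_lit 858) (nat_lit 988) (nat_lit 0) (XT.nd (nat_lit 390) (nat_lit 760) (nat_lit 0) (XT.nd (nat_lit 156) (nat_lit 380) (nat_lit 0) (XT.nd (nat_lit 78) (nat_lit 228) (nat_lit 0) (XT.lf (nat_lit 0) (nat_lit 4477593574) (nat_lit 152) (nat_lit 4858910339) (nat_lit 228) (nat_lit 6707620561) (nat_lit 46) (nat_lit 5) (nat_lit 48) (nat_lit 5) (nat_lit 49) (nat_lit 5) (nat_lit 327) (nat_lit 304) (nat_lit 269)) (XT.lf (nat_lit 0) (nat_lit 2277585800) (nat_lit 228) (nat_lit 13246889418) (nat_lit 304) (nat_lit 1338163782) (nat_lit 43) (nat_lit 5) (nat_lit 46) (nat_lit 5) (nat_lit 47) (nat_lit 5) (nat_lit 328) (nat_lit 304) (nat_lit 268))) (XT.nd (nat_lit 78) (nat_lit 304) (nat_lit 0) (XT.lf (nat_lit 0) (nat_lit 4521719924) (nat_lit 304) (nat_lit 379758747) (nat_lit 76) (nat_lit 12831547638) (nat_lit 42) (nat_lit 5) (nat_lit 46)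 (nat_lit 5) (nat_lit 43) (nat_lit 5) (nat_lit 329) (nat_lit 304) (nat_lit 267)) (XT.nd (nat_lit 78) (nat_lit 152) (nat_lit 0) (XT.lf (nat_lit 0) (nat_lit 11034024405) (nat_lit 228) (nat_lit 3423211218) (nat_lit 76) (nat_lit 4203238533) (nat_lit 40) (nat_lit 5) (nat_lit 43) (nat_lit 5) (nat_lit 41) (nat_lit 5) (nat_lit 330) (nat_lit 304) (nat_lit 266)) (XT.lf (nat_lit 0) (nat_lit 12659142222) (nat_lit 152) (nat_lit 5621497350) (nat_lit 228) (nat_lit 1370860135) (nat_lit 38) (nat_lit 5) (nat_lit 40) (nat_lit 5) (nat_lit 41) (nat_lit 5) (nat_lit 331) (nat_lit 304) (nat_lit 265))))) (XT.nd (nat_lit 234) (nat_lit 304) (nat_lit 0) (XT.nd (nat_lit 78) (nat_lit 228) (nat_lit 0) (XT.lf (nat_lit 0) (nat_lit 5416442971) (nat_lit 228) (nat_lit 11240349268) (nat_lit 76) (nat_lit 4050672393) (nat_lit 35) (nat_lit 5) (nat_lit 38) (nat_lit 5) (nat_lit 36) (nat_lit 5) (nat_lit 332) (nat_lit 304) (nat_lit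 264)) (XT.nd (nat_lit 78) (nat_lit 76) (nat_lit 0) (XT.lf (nat_lit 0) (nat_lit 5596816371) (nat_lit 152) (nat_lit 7340170079) (nat_lit 228) (nat_lit 8897921778) (nat_lit 33) (nat_lit 5) (nat_lit 35) (nat_lit 5) (nat_lit 36) (nat_lit 5) (nat_lit 333) (nat_lit 304) (nat_lit 263)) (XT.lf (nat_lit 0) (nat_lit 1015067898) (nat_lit 76) (nat_lit 20235811432) (nat_lit 152) (nat_lit 1792119119) (nat_lit 32) (nat_lit 5) (nat_lit 33) (nat_lit 5) (nat_lit 34) (nat_lit 4) (nat_lit 334) (nat_lit 304) (nat_lit 262)))) (XT.nd (nat_lit 78) (nat_lit 228) (nat_lit 0) (XT.lf (nat_lit 0) (nat_lit 6041642902) (nat_lit 152) (nat_lit 4434096080) (nat_lit 76) (nat_lit 13850049165) (nat_lit 31) (nat_lit 5) (nat_lit 33) (nat_lit 5) (nat_lit 32) (nat_lit 5) (nat_lit 335) (nat_lit 304) (nat_lit 261)) (XT.nd (nat_lit 78) (nat_lit 76) (nat_lit 0) (XT.lf (nat_lit 0) (nat_lit 14618883841) (nat_lit 228) (nat_lit 10791887043)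 (nat_lit 76) (nat_lit 290012682) (nat_lit 29) (nat_lit 5) (nat_lit 32) (nat_lit 5) (nat_lit 30) (nat_lit 4) (nat_lit 336) (nat_lit 304) (nat_lit 260)) (XT.lf (nat_lit 0) (nat_lit 8780496113) (nat_lit 76) (nat_lit 15437468696) (nat_lit 152) (nat_lit 2951058318) (nat_lit 28) (nat_lit 5) (nat_lit 29) (nat_lit 5) (nat_lit 30) (nat_lit 4) (nat_lit 337) (nat_lit 304) (nat_lit 259)))))) (XT.nd (nat_lit 468) (nat_lit 380) (nat_lit 0) (XT.nd (nat_lit 234) (nat_lit 304) (nat_lit 0) (XT.nd (nat_lit 78) (nat_lit 76) (nat_lit 0) (XT.lf (nat_lit 0) (nat_lit 1413928816) (nat_lit 152) (nat_lit 4388103065) (nat_lit 228) (nat_lit 22940243641) (nat_lit 25) (nat_lit 5) (nat_lit 27) (nat_lit 5) (nat_lit 28) (nat_lit 5) (nat_lit 338) (nat_lit 304) (nat_lit 258)) (XT.nd (nat_lit 78) (nat_lit 76) (nat_lit 0) (XT.lf (nat_lit 0) (nat_lit 15543975739) (nat_lit 228) (nat_lit 7234736753) (nat_lit 76) (nat_lit 7640679349)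 (nat_lit 25) (nat_lit 5) (nat_lit 28) (nat_lit 5) (nat_lit 26) (nat_lit 4) (nat_lit 339) (nat_lit 304) (nat_lit 257)) (XT.lf (nat_lit 0) (nat_lit 14778542208) (nat_lit 76) (nat_lit 11542612177) (nat_lit 152) (nat_lit 5896749942) (nat_lit 24) (nat_lit 5) (nat_lit 25) (nat_lit 5) (nat_lit 26) (nat_lit 4) (nat_lit 340) (nat_lit 304) (nat_lit 256)))) (XT.nd (nat_lit 78) (nat_lit 76) (nat_lit 0) (XT.lf (nat_lit 0) (nat_lit 3845055233) (nat_lit 228) (nat_lit 29502246551) (nat_lit 76) (nat_lit 801723989) (nat_lit 21) (nat_lit 5) (nat_lit 24) (nat_lit 5) (nat_lit 22) (nat_lit 4) (nat_lit 341) (nat_lit 304) (nat_lit 255)) (XT.nd (nat_lit 78) (nat_lit 76) (nat_lit 0) (XT.lf (nat_lit 0) (nat_lit 14620138491) (nat_lit 228) (nat_lit 7478595700) (nat_lit 76) (nat_lit 14108059993) (nat_lit 21) (nat_lit 5) (nat_lit 24) (nat_lit 5) (nat_lit 22) (nat_lit 4) (nat_lit 342) (nat_lit 304) (nat_lit 254)) (XT.lf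 (nat_lit 0) (nat_lit 16767047242) (nat_lit 76) (nat_lit 9709714648) (nat_lit 152) (nat_lit 11941461249) (nat_lit 20) (nat_lit 5) (nat_lit 21) (nat_lit 5) (nat_lit 22) (nat_lit 4) (nat_lit 343) (nat_lit 304) (nat_lit 253))))) (XT.nd (nat_lit 234) (nat_lit 152) (nat_lit 0) (XT.nd (nat_lit 78) (nat_lit 152) (nat_lit 0) (XT.lf (nat_lit 0) (nat_lit 2360727422) (nat_lit 76) (nat_lit 37106983319) (nat_lit 76) (nat_lit 1329580470) (nat_lit 19) (nat_lit 4) (nat_lit 20) (nat_lit 5) (nat_lit 20) (nat_lit 4) (nat_lit 344) (nat_lit 304) (nat_lit 252)) (XT.nd (nat_lit 78) (nat_lit 76) (nat_lit 0) (XT.lf (nat_lit 0) (nat_lit 10314521712) (nat_lit 152) (nat_lit 14681979332) (nat_lit 76) (nat_lit 18336910966) (nat_lit 18) (nat_lit 5) (nat_lit 20) (nat_lit 5) (nat_lit 19) (nat_lit 4) (nat_lit 345) (nat_lit 304) (nat_lit 251)) (XT.lf (nat_lit 0) (nat_lit 11242983531) (nat_lit 76) (nat_lit 11740149693) (nat_lit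 152) (nat_lit 23081233175) (nat_lit 17) (nat_lit 5) (nat_lit 18) (nat_lit 5) (nat_lit 19) (nat_lit 4) (nat_lit 346) (nat_lit 304) (nat_lit 250)))) (XT.nd (nat_lit 78) (nat_lit 152) (nat_lit 0) (XT.lf (nat_lit 0) (nat_lit 36930054317) (nat_lit 152) (nat_lit 9344978318) (nat_lit 0) (nat_lit 2725534492) (nat_lit 17) (nat_lit 5) (nat_lit 19) (nat_lit 4) (nat_lit 17) (nat_lit 4) (nat_lit 347) (nat_lit 304) (nat_lit 249)) (XT.nd (nat_lit 78) (nat_lit 0) (nat_lit 0) (XT.lf (nat_lit 0) (nat_lit 288335360) (nat_lit 152) (nat_lit 33650739421) (nat_lit 76) (nat_lit 18209661378) (nat_lit 15) (nat_lit 5) (nat_lit 17) (nat_lit 5) (nat_lit 16) (nat_lit 4) (nat_lit 348) (nat_lit 304) (nat_lit 248)) (XT.lf (nat_lit 0) (nat_lit 13352365764) (nat_lit 152) (nat_lit 6904020693) (nat_lit 76) (nat_lit 35275519077) (nat_lit 15) (nat_lit 5) (nat_lit 17) (nat_lit 5) (nat_lit 16) (nat_lit 4) (nat_lit 349) (nat_lit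 304) (nat_lit 247))))))))
noncomputable def xc56 : XT := (XT.nd (nat_lit 1716) (nat_lit 228) (nat_lit 0) (XT.nd (nat_lit 858) (nat_lit 228) (nat_lit 0) (XT.nd (nat_lit 390) (nat_lit 228) (nat_lit 0) (XT.nd (nat_lit 156) (nat_lit 228) (nat_lit 0) (XT.nd (nat_lit 78) (nat_lit 0) (nat_lit 0) (XT.lf (nat_lit 0) (nat_lit 22652534361) (nat_lit 76) (nat_lit 5133265485) (nat_lit 152) (nat_lit 31383722882) (nat_lit 14) (nat_lit 5) (nat_lit 15) (nat_lit 5) (nat_lit 16) (nat_lit 4) (nat_lit 350) (nat_lit 304) (nat_lit 246)) (XT.lf (nat_lit 0) (nat_lit 43642588331) (nat_lit 152) (nat_lit 8502375789) (nat_lit 0) (nat_lit 10939758909) (nat_lit 14) (nat_lit 5) (nat_lit 16) (nat_lit 4) (nat_lit 14) (nat_lit 4) (nat_lit 351) (nat_lit 304) (nat_lit 245))) (XT.nd (nat_lit 78) (nat_lit 152) (nat_lit 0) (XT.lf (nat_lit 0) (nat_lit 22332017741) (nat_lit 76) (nat_lit 38844814297) (nat_lit 76) (nat_lit 6115868854)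 (nat_lit 13) (nat_lit 4) (nat_lit 14) (nat_lit 5) (nat_lit 14) (nat_lit 4) (nat_lit 352) (nat_lit 304) (nat_lit 244)) (XT.nd (nat_lit 78) (nat_lit 76) (nat_lit 0) (XT.lf (nat_lit 0) (nat_lit 8136613292) (nat_lit 152) (nat_lit 16073069695) (nat_lit 76) (nat_lit 47614928597) (nat_lit 12) (nat_lit 5) (nat_lit 14) (nat_lit 5) (nat_lit 13) (nat_lit 4) (nat_lit 353) (nat_lit 304) (nat_lit 243)) (XT.lf (nat_lit 0) (nat_lit 15472945522) (nat_lit 76) (nat_lit 8062889963) (nat_lit 152) (nat_lit 53167191885) (nat_lit 11) (nat_lit 5) (nat_lit 12) (nat_lit 5) (nat_lit 13) (nat_lit 4) (nat_lit 354) (nat_lit 304) (nat_lit 242))))) (XT.nd (nat_lit 234) (nat_lit 152) (nat_lit 0) (XT.nd (nat_lit 78) (nat_lit 76) (nat_lit 0) (XT.lf (nat_lit 0) (nat_lit 40575085837) (nat_lit 152) (nat_lit 32035668451) (nat_lit 0) (nat_lit 9340563014) (nat_lit 11) (nat_lit 5) (nat_lit 13) (nat_lit 4) (nat_lit 11) (nat_lit 4)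 (nat_lit 355) (nat_lit 304) (nat_lit 241)) (XT.nd (nat_lit 78) (nat_lit 76) (nat_lit 0) (XT.lf (nat_lit 0) (nat_lit 59092262642) (nat_lit 152) (nat_lit 682015604) (nat_lit 0) (nat_lit 27839457862) (nat_lit 11) (nat_lit 5) (nat_lit 13) (nat_lit 4) (nat_lit 11) (nat_lit 4) (nat_lit 356) (nat_lit 304) (nat_lit 240)) (XT.lf (nat_lit 0) (nat_lit 34238403148) (nat_lit 76) (nat_lit 45367367288) (nat_lit 76) (nat_lit 14097634769) (nat_lit 10) (nat_lit 4) (nat_lit 11) (nat_lit 5) (nat_lit 11) (nat_lit 4) (nat_lit 357) (nat_lit 304) (nat_lit 239)))) (XT.nd (nat_lit 78) (nat_lit 76) (nat_lit 0) (XT.lf (nat_lit 0) (nat_lit 1425795672) (nat_lit 152) (nat_lit 28362525223) (nat_lit 76) (nat_lit 70491122715) (nat_lit 9) (nat_lit 5) (nat_lit 11) (nat_lit 5) (nat_lit 10) (nat_lit 4) (nat_lit 358) (nat_lit 304) (nat_lit 238)) (XT.nd (nat_lit 78) (nat_lit 0) (nat_lit 0) (XT.lf (nat_lit 0) (nat_lit 5120647316)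 (nat_lit 76) (nat_lit 12645482671) (nat_lit 152) (nat_lit 89600436347) (nat_lit 8) (nat_lit 5) (nat_lit 9) (nat_lit 5) (nat_lit 10) (nat_lit 4) (nat_lit 359) (nat_lit 304) (nat_lit 237)) (XT.lf (nat_lit 0) (nat_lit 35990427204) (nat_lit 152) (nat_lit 72833215867) (nat_lit 0) (nat_lit 6168182497) (nat_lit 8) (nat_lit 5) (nat_lit 10) (nat_lit 4) (nat_lit 8) (nat_lit 4) (nat_lit 360) (nat_lit 304) (nat_lit 236)))))) (XT.nd (nat_lit 390) (nat_lit 152) (nat_lit 0) (XT.nd (nat_lit 156) (nat_lit 76) (nat_lit 0) (XT.nd (nat_lit 78) (nat_lit 0) (nat_lit 0) (XT.lf (nat_lit 0) (nat_lit 55870108792) (nat_lit 152) (nat_lit 41311113776) (nat_lit 0) (nat_lit 26036014186) (nat_lit 8) (nat_lit 5) (nat_lit 10) (nat_lit 4) (nat_lit 8) (nat_lit 4) (nat_lit 361) (nat_lit 304) (nat_lit 235)) (XT.lf (nat_lit 0) (nat_lit 77325548847) (nat_lit 152) (nat_lit 7295383678) (nat_lit 0) (nat_lit 47480482113) (nat_lit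 8) (nat_lit 5) (nat_lit 10) (nat_lit 4) (nat_lit 8) (nat_lit 4) (nat_lit 362) (nat_lit 304) (nat_lit 234))) (XT.nd (nat_lit 78) (nat_lit 0) (nat_lit 0) (XT.lf (nat_lit 0) (nat_lit 30388160020) (nat_lit 76) (nat_lit 70570175038) (nat_lit 76) (nat_lit 40714948927) (nat_lit 7) (nat_lit 4) (nat_lit 8) (nat_lit 5) (nat_lit 8) (nat_lit 4) (nat_lit 363) (nat_lit 304) (nat_lit 233)) (XT.nd (nat_lit 78) (nat_lit 0) (nat_lit 0) (XT.lf (nat_lit 0) (nat_lit 71321979657) (nat_lit 76) (nat_lit 55273925348) (nat_lit 76) (nat_lit 25409292406) (nat_lit 7) (nat_lit 4) (nat_lit 8) (nat_lit 5) (nat_lit 8) (nat_lit 4) (nat_lit 364) (nat_lit 304) (nat_lit 232)) (XT.lf (nat_lit 0) (nat_lit 115507427685) (nat_lit 76) (nat_lit 38765089866) (nat_lit 76) (nat_lit 8891746894) (nat_lit 7) (nat_lit 4) (nat_lit 8) (nat_lit 5) (nat_lit 8) (nat_lit 4) (nat_lit 365) (nat_lit 304) (nat_lit 231))))) (XT.nd (nat_lit 234) (nat_lit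 0) (nat_lit 0) (XT.nd (nat_lit 78) (nat_lit 76) (nat_lit 0) (XT.lf (nat_lit 0) (nat_lit 8649575335) (nat_lit 152) (nat_lit 12149778375) (nat_lit 76) (nat_lit 154410283714) (nat_lit 6) (nat_lit 5) (nat_lit 8) (nat_lit 5) (nat_lit 7) (nat_lit 4) (nat_lit 366) (nat_lit 304) (nat_lit 230)) (XT.nd (nat_lit 78) (nat_lit 0) (nat_lit 0) (XT.lf (nat_lit 0) (nat_lit 26888377946) (nat_lit 76) (nat_lit 807843129) (nat_lit 152) (nat_lit 160494455735) (nat_lit 5) (nat_lit 5) (nat_lit 6) (nat_lit 5) (nat_lit 7) (nat_lit 4) (nat_lit 367) (nat_lit 304) (nat_lit 229)) (XT.lf (nat_lit 0) (nat_lit 48796089988) (nat_lit 152) (nat_lit 133063727130) (nat_lit 0) (nat_lit 20323909454) (nat_lit 5) (nat_lit 5) (nat_lit 7) (nat_lit 4) (nat_lit 5) (nat_lit 4) (nat_lit 368) (nat_lit 304) (nat_lit 228)))) (XT.nd (nat_lit 78) (nat_lit 0) (nat_lit 0) (XT.lf (nat_lit 0) (nat_lit 71588218264) (nat_lit 152) (nat_lit 102597849764)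 (nat_lit 0) (nat_lit 43109940462) (nat_lit 5) (nat_lit 5) (nat_lit 7) (nat_lit 4) (nat_lit 5) (nat_lit 4) (nat_lit 369) (nat_lit 304) (nat_lit 227)) (XT.nd (nat_lit 78) (nat_lit 0) (nat_lit 0) (XT.lf (nat_lit 0) (nat_lit 96195057673) (nat_lit 152) (nat_lit 69711515538) (nat_lit 0) (nat_lit 67711134252) (nat_lit 5) (nat_lit 5) (nat_lit 7) (nat_lit 4) (nat_lit 5) (nat_lit 4) (nat_lit 370) (nat_lit 304) (nat_lit 226)) (XT.lf (nat_lit 0) (nat_lit 122762426521) (nat_lit 152) (nat_lit 34209842471) (nat_lit 0) (nat_lit 94273275676) (nat_lit 5) (nat_lit 5) (nat_lit 7) (nat_lit 4) (nat_lit 5) (nat_lit 4) (nat_lit 371) (nat_lit 304) (nat_lit 225))))))) (XT.nd (nat_lit 858) (nat_lit 0) (nat_lit 0) (XT.nd (nat_lit 390) (nat_lit 152) (nat_lit 0) (XT.nd (nat_lit 156) (nat_lit 0) (nat_lit 0) (XT.nd (nat_lit 78) (nat_lit 0) (nat_lit 0) (XT.lf (nat_lit 0) (nat_lit 4253694508) (nat_lit 76) (nat_lit 147260478652)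 (nat_lit 76) (nat_lit 118766487599) (nat_lit 4) (nat_lit 4) (nat_lit 5) (nat_lit 5) (nat_lit 5) (nat_lit 4) (nat_lit 372) (nat_lit 304) (nat_lit 224)) (XT.lf (nat_lit 0) (nat_lit 47002148613) (nat_lit 76) (nat_lit 136152735135) (nat_lit 76) (nat_lit 107654262408) (nat_lit 4) (nat_lit 4) (nat_lit 5) (nat_lit 5) (nat_lit 5) (nat_lit 4) (nat_lit 373) (nat_lit 304) (nat_lit 223))) (XT.nd (nat_lit 78) (nat_lit 0) (nat_lit 0) (XT.lf (nat_lit 0) (nat_lit 93157712125) (nat_lit 76) (nat_lit 124162575009) (nat_lit 76) (nat_lit 95659952584) (nat_lit 4) (nat_lit 4) (nat_lit 5) (nat_lit 5) (nat_lit 5) (nat_lit 4) (nat_lit 374) (nat_lit 304) (nat_lit 222)) (XT.nd (nat_lit 78) (nat_lit 0) (nat_lit 0) (XT.lf (nat_lit 0) (nat_lit 142993899496) (nat_lit 76) (nat_lit 111218945476) (nat_lit 76) (nat_lit 82712480738) (nat_lit 4) (nat_lit 4) (nat_lit 5) (nat_lit 5) (nat_lit 5) (nat_lit 4) (nat_lit 375) (nat_lit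 304) (nat_lit 221)) (XT.lf (nat_lit 0) (nat_lit 196806036279) (nat_lit 76) (nat_lit 97245143545) (nat_lit 76) (nat_lit 68735121109) (nat_lit 4) (nat_lit 4) (nat_lit 5) (nat_lit 5) (nat_lit 5) (nat_lit 4) (nat_lit 376) (nat_lit 304) (nat_lit 220))))) (XT.nd (nat_lit 234) (nat_lit 152) (nat_lit 0) (XT.nd (nat_lit 78) (nat_lit 0) (nat_lit 0) (XT.lf (nat_lit 0) (nat_lit 254913009213) (nat_lit 76) (nat_lit 82158361500) (nat_lit 76) (nat_lit 53645044901) (nat_lit 4) (nat_lit 4) (nat_lit 5) (nat_lit 5) (nat_lit 5) (nat_lit 4) (nat_lit 377) (nat_lit 304) (nat_lit 219)) (XT.nd (nat_lit 78) (nat_lit 0) (nat_lit 0) (XT.lf (nat_lit 0) (nat_lit 317659155914) (nat_lit 76) (nat_lit 65869196190) (nat_lit 76) (nat_lit 37352829438) (nat_lit 4) (nat_lit 4) (nat_lit 5) (nat_lit 5) (nat_lit 5) (nat_lit 4) (nat_lit 378) (nat_lit 304) (nat_lit 218)) (XT.lf (nat_lit 0) (nat_lit 385416305399) (nat_lit 76) (nat_lit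 48281119227) (nat_lit 76) (nat_lit 19761928260) (nat_lit 4) (nat_lit 4) (nat_lit 5) (nat_lit 5) (nat_lit 5) (nat_lit 4) (nat_lit 379) (nat_lit 304) (nat_lit 217)))) (XT.nd (nat_lit 78) (nat_lit 152) (nat_lit 0) (XT.lf (nat_lit 0) (nat_lit 458585981518) (nat_lit 76) (nat_lit 29289904969) (nat_lit 76) (nat_lit 768098989) (nat_lit 4) (nat_lit 4) (nat_lit 5) (nat_lit 5) (nat_lit 5) (nat_lit 4) (nat_lit 380) (nat_lit 304) (nat_lit 216)) (XT.nd (nat_lit 78) (nat_lit 0) (nat_lit 0) (XT.lf (nat_lit 0) (nat_lit 11002122458) (nat_lit 76) (nat_lit 8279023759) (nat_lit 152) (nat_lit 507338435138) (nat_lit 2) (nat_lit 5) (nat_lit 3) (nat_lit 5) (nat_lit 4) (nat_lit 4) (nat_lit 381) (nat_lit 304) (nat_lit 215)) (XT.lf (nat_lit 0) (nat_lit 41661204537) (nat_lit 152) (nat_lit 511440563573) (nat_lit 0) (nat_lit 14493138593) (nat_lit 2) (nat_lit 5) (nat_lit 4) (nat_lit 4) (nat_lit 2) (nat_lit 4) (nat_lit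 382) (nat_lit 304) (nat_lit 214)))))) (XT.nd (nat_lit 390) (nat_lit 0) (nat_lit 0) (XT.nd (nat_lit 156) (nat_lit 0) (nat_lit 0) (XT.nd (nat_lit 78) (nat_lit 0) (nat_lit 0) (XT.lf (nat_lit 0) (nat_lit 65967773103) (nat_lit 152) (nat_lit 507075950110) (nat_lit 0) (nat_lit 38797730128) (nat_lit 2) (nat_lit 5) (nat_lit 4) (nat_lit 4) (nat_lit 2) (nat_lit 4) (nat_lit 383) (nat_lit 304) (nat_lit 213)) (XT.lf (nat_lit 0) (nat_lit 92215632076) (nat_lit 152) (nat_lit 502368495371) (nat_lit 0) (nat_lit 65043758517) (nat_lit 2) (nat_lit 5) (nat_lit 4) (nat_lit 4) (nat_lit 2) (nat_lit 4) (nat_lit 384) (nat_lit 304) (nat_lit 212))) (XT.nd (nat_lit 78) (nat_lit 0) (nat_lit 0) (XT.lf (nat_lit 0) (nat_lit 120560324325) (nat_lit 152) (nat_lit 497290303327) (nat_lit 0) (nat_lit 93386755781) (nat_lit 2) (nat_lit 5) (nat_lit 4) (nat_lit 4) (nat_lit 2) (nat_lit 4) (nat_lit 385) (nat_lit 304) (nat_lit 211))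 (XT.nd (nat_lit 78) (nat_lit 0) (nat_lit 0) (XT.lf (nat_lit 0) (nat_lit 151169818396) (nat_lit 152) (nat_lit 491811280988) (nat_lit 0) (nat_lit 123994680422) (nat_lit 2) (nat_lit 5) (nat_lit 4) (nat_lit 4) (nat_lit 2) (nat_lit 4) (nat_lit 386) (nat_lit 304) (nat_lit 210)) (XT.lf (nat_lit 0) (nat_lit 184225503885) (nat_lit 152) (nat_lit 485898960073) (nat_lit 0) (nat_lit 157048912734) (nat_lit 2) (nat_lit 5) (nat_lit 4) (nat_lit 4) (nat_lit 2) (nat_lit 4) (nat_lit 387) (nat_lit 304) (nat_lit 209))))) (XT.nd (nat_lit 40482) (nat_lit 0) (nat_lit 9424) (XT.nd (nat_lit 78) (nat_lit 0) (nat_lit 0) (XT.lf (nat_lit 0) (nat_lit 219923266334) (nat_lit 152) (nat_lit 479518304608) (nat_lit 0) (nat_lit 192745329649) (nat_lit 2) (nat_lit 5) (nat_lit 4) (nat_lit 4) (nat_lit 2) (nat_lit 4) (nat_lit 388) (nat_lit 304) (nat_lit 208)) (XT.nd (nat_lit 40326) (nat_lit 0) (nat_lit 9880) (XT.lf (nat_lit 0) (nat_lit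 258474648040) (nat_lit 152) (nat_lit 472631503300) (nat_lit 0) (nat_lit 231295465490) (nat_lit 2) (nat_lit 5) (nat_lit 4) (nat_lit 4) (nat_lit 2) (nat_lit 4) (nat_lit 389) (nat_lit 304) (nat_lit 207)) (XT.lf (nat_lit 0) (nat_lit 1676633285) (nat_lit 532) (nat_lit 954104755) (nat_lit 532) (nat_lit 954104755) (nat_lit 132) (nat_lit 3) (nat_lit 139) (nat_lit 3) (nat_lit 139) (nat_lit 5) (nat_lit 305) (nat_lit 305) (nat_lit 290)))) (XT.nd (nat_lit 78) (nat_lit 456) (nat_lit 0) (XT.lf (nat_lit 76) (nat_lit 3616427061) (nat_lit 0) (nat_lit 2414814249) (nat_lit 532) (nat_lit 1293860906) (nat_lit 133) (nat_lit 5) (nat_lit 132) (nat_lit 3) (nat_lit 139) (nat_lit 5) (nat_lit 306) (nat_lit 305) (nat_lit 289)) (XT.nd (nat_lit 78) (nat_lit 0) (nat_lit 0) (XT.lf (nat_lit 0) (nat_lit 1208643948) (nat_lit 532) (nat_lit 5456324755) (nat_lit 608) (nat_lit 836068556) (nat_lit 126) (nat_lit 5) (nat_lit 133)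 (nat_lit 5) (nat_lit 134) (nat_lit 5) (nat_lit 307) (nat_lit 305) (nat_lit 288)) (XT.lf (nat_lit 76) (nat_lit 503869944) (nat_lit 0) (nat_lit 3239864077) (nat_lit 608) (nat_lit 3952735433) (nat_lit 127) (nat_lit 5) (nat_lit 126) (nat_lit 5) (nat_lit 134) (nat_lit 5) (nat_lit 308) (nat_lit 305) (nat_lit 287))))))))
noncomputable def xc57 : XT := (XT.nd (nat_lit 1716) (nat_lit 1976) (nat_lit 0) (XT.nd (nat_lit 858) (nat_lit 2508) (nat_lit 0) (XT.nd (nat_lit 390) (nat_lit 2204) (nat_lit 0) (XT.nd (nat_lit 156) (nat_lit 1292) (nat_lit 0) (XT.nd (nat_lit 78) (nat_lit 608) (nat_lit 0) (XT.lf (nat_lit 0) (nat_lit 6364767415) (nat_lit 532) (nat_lit 933482352) (nat_lit 608) (nat_lit 615471003) (nat_lit 127) (nat_lit 5) (nat_lit 134) (nat_lit 5) (nat_lit 135) (nat_lit 5) (nat_lit 309) (nat_lit 305) (nat_lit 286)) (XT.lf (nat_lit 0) (nat_lit 953417761) (nat_lit 608) (nat_lit 2355259312) (nat_lit 684)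 (nat_lit 4842168642) (nat_lit 119) (nat_lit 5) (nat_lit 127) (nat_lit 5) (nat_lit 128) (nat_lit 5) (nat_lit 310) (nat_lit 305) (nat_lit 285))) (XT.nd (nat_lit 78) (nat_lit 1368) (nat_lit 0) (XT.lf (nat_lit 0) (nat_lit 3515325674) (nat_lit 608) (nat_lit 3762661686) (nat_lit 76) (nat_lit 1132281636) (nat_lit 120) (nat_lit 5) (nat_lit 128) (nat_lit 5) (nat_lit 121) (nat_lit 5) (nat_lit 311) (nat_lit 305) (nat_lit 284)) (XT.nd (nat_lit 78) (nat_lit 760) (nat_lit 0) (XT.lf (nat_lit 0) (nat_lit 3512294793) (nat_lit 608) (nat_lit 2740360337) (nat_lit 684) (nat_lit 2439525637) (nat_lit 112) (nat_lit 5) (nat_lit 120) (nat_lit 5) (nat_lit 121) (nat_lit 5) (nat_lit 312) (nat_lit 305) (nat_lit 283)) (XT.lf (nat_lit 0) (nat_lit 172370415) (nat_lit 760) (nat_lit 6601788016) (nat_lit 76) (nat_lit 2224206840) (nat_lit 102) (nat_lit 5) (nat_lit 112) (nat_lit 5) (nat_lit 103) (nat_lit 5) (nat_lit 313) (nat_lit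 305) (nat_lit 282))))) (XT.nd (nat_lit 234) (nat_lit 1064) (nat_lit 0) (XT.nd (nat_lit 78) (nat_lit 380) (nat_lit 0) (XT.lf (nat_lit 0) (nat_lit 1238726393) (nat_lit 760) (nat_lit 1664708431) (nat_lit 836) (nat_lit 6424036532) (nat_lit 92) (nat_lit 5) (nat_lit 102) (nat_lit 5) (nat_lit 103) (nat_lit 5) (nat_lit 314) (nat_lit 305) (nat_lit 281)) (XT.nd (nat_lit 78) (nat_lit 0) (nat_lit 0) (XT.lf (nat_lit 0) (nat_lit 51609691) (nat_lit 380) (nat_lit 5826424233) (nat_lit 456) (nat_lit 3803814639) (nat_lit 87) (nat_lit 5) (nat_lit 92) (nat_lit 5) (nat_lit 93) (nat_lit 5) (nat_lit 315) (nat_lit 305) (nat_lit 280)) (XT.lf (nat_lit 0) (nat_lit 8956626432) (nat_lit 380) (nat_lit 158721166) (nat_lit 456) (nat_lit 948171674) (nat_lit 87) (nat_lit 5) (nat_lit 92) (nat_lit 5) (nat_lit 93) (nat_lit 5) (nat_lit 316) (nat_lit 305) (nat_lit 279)))) (XT.nd (nat_lit 78) (nat_lit 684) (nat_lit 0) (XT.lf (nat_lit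 0) (nat_lit 2155570581) (nat_lit 380) (nat_lit 2383461540) (nat_lit 76) (nat_lit 5930782904) (nat_lit 82) (nat_lit 5) (nat_lit 87) (nat_lit 5) (nat_lit 83) (nat_lit 5) (nat_lit 317) (nat_lit 305) (nat_lit 278)) (XT.nd (nat_lit 78) (nat_lit 304) (nat_lit 0) (XT.lf (nat_lit 0) (nat_lit 5509291071) (nat_lit 456) (nat_lit 3716247222) (nat_lit 76) (nat_lit 1680701556) (nat_lit 77) (nat_lit 5) (nat_lit 83) (nat_lit 5) (nat_lit 78) (nat_lit 5) (nat_lit 318) (nat_lit 305) (nat_lit 277)) (XT.lf (nat_lit 0) (nat_lit 6220452437) (nat_lit 304) (nat_lit 3006216838) (nat_lit 380) (nat_lit 2146277964) (nat_lit 73) (nat_lit 5) (nat_lit 77) (nat_lit 5) (nat_lit 78) (nat_lit 5) (nat_lit 319) (nat_lit 305) (nat_lit 276)))))) (XT.nd (nat_lit 390) (nat_lit 1292) (nat_lit 0) (XT.nd (nat_lit 156) (nat_lit 608) (nat_lit 0) (XT.nd (nat_lit 78) (nat_lit 228) (nat_lit 0) (XT.lf (nat_lit 0) (nat_lit 1412725217) (nat_lit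 380) (nat_lit 6717345651) (nat_lit 76) (nat_lit 3741378179) (nat_lit 68) (nat_lit 5) (nat_lit 73) (nat_lit 5) (nat_lit 69) (nat_lit 5) (nat_lit 320) (nat_lit 305) (nat_lit 275)) (XT.lf (nat_lit 0) (nat_lit 3965029364) (nat_lit 228) (nat_lit 1311541979) (nat_lit 304) (nat_lit 7126846043) (nat_lit 65) (nat_lit 5) (nat_lit 68) (nat_lit 5) (nat_lit 69) (nat_lit 5) (nat_lit 321) (nat_lit 305) (nat_lit 274))) (XT.nd (nat_lit 78) (nat_lit 304) (nat_lit 0) (XT.lf (nat_lit 0) (nat_lit 2620977615) (nat_lit 304) (nat_lit 6979009616) (nat_lit 380) (nat_lit 3370536119) (nat_lit 61) (nat_lit 5) (nat_lit 65) (nat_lit 5) (nat_lit 66) (nat_lit 5) (nat_lit 322) (nat_lit 305) (nat_lit 273)) (XT.nd (nat_lit 78) (nat_lit 0) (nat_lit 0) (XT.lf (nat_lit 0) (nat_lit 760316685) (nat_lit 304) (nat_lit 12425506714) (nat_lit 76) (nat_lit 391929549) (nat_lit 57) (nat_lit 5) (nat_lit 61) (nat_lit 5) (nat_lit 58) (nat_lit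 5) (nat_lit 323) (nat_lit 305) (nat_lit 272)) (XT.lf (nat_lit 0) (nat_lit 5311001464) (nat_lit 304) (nat_lit 590475183) (nat_lit 76) (nat_lit 8319033302) (nat_lit 57) (nat_lit 5) (nat_lit 61) (nat_lit 5) (nat_lit 58) (nat_lit 5) (nat_lit 324) (nat_lit 305) (nat_lit 271))))) (XT.nd (nat_lit 234) (nat_lit 608) (nat_lit 0) (XT.nd (nat_lit 78) (nat_lit 456) (nat_lit 0) (XT.lf (nat_lit 0) (nat_lit 10365739567) (nat_lit 304) (nat_lit 2474790067) (nat_lit 76) (nat_lit 2067236018) (nat_lit 54) (nat_lit 5) (nat_lit 58) (nat_lit 5) (nat_lit 55) (nat_lit 5) (nat_lit 325) (nat_lit 305) (nat_lit 270)) (XT.nd (nat_lit 78) (nat_lit 228) (nat_lit 0) (XT.lf (nat_lit 0) (nat_lit 370319834) (nat_lit 228) (nat_lit 4644629796) (nat_lit 76) (nat_lit 10624931457) (nat_lit 51) (nat_lit 5) (nat_lit 54) (nat_lit 5) (nat_lit 52) (nat_lit 5) (nat_lit 326) (nat_lit 305) (nat_lit 269)) (XT.lf (nat_lit 0) (nat_lit 5684368744)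 (nat_lit 304) (nat_lit 7173726516) (nat_lit 76) (nat_lit 3560418978) (nat_lit 48) (nat_lit 5) (nat_lit 52) (nat_lit 5) (nat_lit 49) (nat_lit 5) (nat_lit 327) (nat_lit 305) (nat_lit 268)))) (XT.nd (nat_lit 78) (nat_lit 456) (nat_lit 0) (XT.lf (nat_lit 0) (nat_lit 7183371736) (nat_lit 152) (nat_lit 4441961768) (nat_lit 228) (nat_lit 5624073963) (nat_lit 46) (nat_lit 5) (nat_lit 48) (nat_lit 5) (nat_lit 49) (nat_lit 5) (nat_lit 328) (nat_lit 305) (nat_lit 267)) (XT.nd (nat_lit 78) (nat_lit 152) (nat_lit 0) (XT.lf (nat_lit 0) (nat_lit 101638394) (nat_lit 304) (nat_lit 13370298966) (nat_lit 76) (nat_lit 4664795556) (nat_lit 42) (nat_lit 5) (nat_lit 46) (nat_lit 5) (nat_lit 43) (nat_lit 5) (nat_lit 329) (nat_lit 305) (nat_lit 266)) (XT.lf (nat_lit 0) (nat_lit 1832775063) (nat_lit 152) (nat_lit 4468741019) (nat_lit 228) (nat_lit 12778309189) (nat_lit 40) (nat_lit 5) (nat_lit 42) (nat_lit 5) (nat_lit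 43) (nat_lit 5) (nat_lit 330) (nat_lit 305) (nat_lit 265))))))) (XT.nd (nat_lit 858) (nat_lit 760) (nat_lit 0) (XT.nd (nat_lit 390) (nat_lit 608) (nat_lit 0) (XT.nd (nat_lit 156) (nat_lit 456) (nat_lit 0) (XT.nd (nat_lit 78) (nat_lit 152) (nat_lit 0) (XT.lf (nat_lit 0) (nat_lit 13247913464) (nat_lit 228) (nat_lit 1552935970) (nat_lit 76) (nat_lit 5285033729) (nat_lit 40) (nat_lit 5) (nat_lit 43) (nat_lit 5) (nat_lit 41) (nat_lit 5) (nat_lit 331) (nat_lit 305) (nat_lit 264)) (XT.lf (nat_lit 0) (nat_lit 15722824374) (nat_lit 152) (nat_lit 5284849587) (nat_lit 228) (nat_lit 151910477) (nat_lit 38) (nat_lit 5) (nat_lit 40) (nat_lit 5) (nat_lit 41) (nat_lit 5) (nat_lit 332) (nat_lit 305) (nat_lit 263))) (XT.nd (nat_lit 78) (nat_lit 228) (nat_lit 0) (XT.lf (nat_lit 0) (nat_lit 7084058116) (nat_lit 228) (nat_lit 10086727391) (nat_lit 76) (nat_lit 5130850479) (nat_lit 35) (nat_lit 5) (nat_lit 38)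 (nat_lit 5) (nat_lit 36) (nat_lit 5) (nat_lit 333) (nat_lit 305) (nat_lit 262)) (XT.nd (nat_lit 78) (nat_lit 76) (nat_lit 0) (XT.lf (nat_lit 0) (nat_lit 8008197148) (nat_lit 152) (nat_lit 7137276170) (nat_lit 228) (nat_lit 8376892993) (nat_lit 33) (nat_lit 5) (nat_lit 35) (nat_lit 5) (nat_lit 36) (nat_lit 5) (nat_lit 334) (nat_lit 305) (nat_lit 261)) (XT.lf (nat_lit 0) (nat_lit 3019527865) (nat_lit 76) (nat_lit 21059471191) (nat_lit 152) (nat_lit 750427377) (nat_lit 32) (nat_lit 5) (nat_lit 33) (nat_lit 5) (nat_lit 34) (nat_lit 4) (nat_lit 335) (nat_lit 305) (nat_lit 260))))) (XT.nd (nat_lit 234) (nat_lit 304) (nat_lit 0) (XT.nd (nat_lit 78) (nat_lit 228) (nat_lit 0) (XT.lf (nat_lit 0) (nat_lit 7587133511) (nat_lit 152) (nat_lit 2972375339) (nat_lit 76) (nat_lit 15658696979) (nat_lit 31) (nat_lit 5) (nat_lit 33) (nat_lit 5) (nat_lit 32) (nat_lit 5) (nat_lit 336) (nat_lit 305) (nat_lit 259))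 (XT.nd (nat_lit 78) (nat_lit 76) (nat_lit 0) (XT.lf (nat_lit 0) (nat_lit 16810351575) (nat_lit 228) (nat_lit 9878051150) (nat_lit 76) (nat_lit 1016848073) (nat_lit 29) (nat_lit 5) (nat_lit 32) (nat_lit 5) (nat_lit 30) (nat_lit 4) (nat_lit 337) (nat_lit 305) (nat_lit 258)) (XT.lf (nat_lit 0) (nat_lit 11182888283) (nat_lit 76) (nat_lit 15945311238) (nat_lit 152) (nat_lit 2165244836) (nat_lit 28) (nat_lit 5) (nat_lit 29) (nat_lit 5) (nat_lit 30) (nat_lit 4) (nat_lit 338) (nat_lit 305) (nat_lit 257)))) (XT.nd (nat_lit 78) (nat_lit 76) (nat_lit 0) (XT.lf (nat_lit 0) (nat_lit 3184823183) (nat_lit 152) (nat_lit 4023171456) (nat_lit 228) (nat_lit 23786166614) (nat_lit 25) (nat_lit 5) (nat_lit 27) (nat_lit 5) (nat_lit 28) (nat_lit 5) (nat_lit 339) (nat_lit 305) (nat_lit 256)) (XT.nd (nat_lit 78) (nat_lit 76) (nat_lit 0) (XT.lf (nat_lit 0) (nat_lit 17669881447) (nat_lit 228) (nat_lit 6244906508)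 (nat_lit 76) (nat_lit 8893659648) (nat_lit 25) (nat_lit 5) (nat_lit 28) (nat_lit 5) (nat_lit 26) (nat_lit 4) (nat_lit 340) (nat_lit 305) (nat_lit 255)) (XT.lf (nat_lit 0) (nat_lit 17461264926) (nat_lit 76) (nat_lit 11806033474) (nat_lit 152) (nat_lit 5485667354) (nat_lit 24) (nat_lit 5) (nat_lit 25) (nat_lit 5) (nat_lit 26) (nat_lit 4) (nat_lit 341) (nat_lit 305) (nat_lit 254)))))) (XT.nd (nat_lit 390) (nat_lit 304) (nat_lit 0) (XT.nd (nat_lit 156) (nat_lit 228) (nat_lit 0) (XT.nd (nat_lit 78) (nat_lit 0) (nat_lit 0) (XT.lf (nat_lit 0) (nat_lit 4976884629) (nat_lit 228) (nat_lit 30368961340) (nat_lit 76) (nat_lit 1493583442) (nat_lit 21) (nat_lit 5) (nat_lit 24) (nat_lit 5) (nat_lit 22) (nat_lit 4) (nat_lit 342) (nat_lit 305) (nat_lit 253)) (XT.lf (nat_lit 0) (nat_lit 16552920845) (nat_lit 228) (nat_lit 6694045454) (nat_lit 76) (nat_lit 15817928435) (nat_lit 21) (nat_lit 5) (nat_lit 24)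 (nat_lit 5) (nat_lit 22) (nat_lit 4) (nat_lit 343) (nat_lit 305) (nat_lit 252))) (XT.nd (nat_lit 78) (nat_lit 152) (nat_lit 0) (XT.lf (nat_lit 0) (nat_lit 19431152474) (nat_lit 76) (nat_lit 9891042139) (nat_lit 152) (nat_lit 12132858437) (nat_lit 20) (nat_lit 5) (nat_lit 21) (nat_lit 5) (nat_lit 22) (nat_lit 4) (nat_lit 344) (nat_lit 305) (nat_lit 251)) (XT.nd (nat_lit 78) (nat_lit 76) (nat_lit 0) (XT.lf (nat_lit 0) (nat_lit 3840985854) (nat_lit 76) (nat_lit 39486330428) (nat_lit 76) (nat_lit 698404947) (nat_lit 19) (nat_lit 4) (nat_lit 20) (nat_lit 5) (nat_lit 20) (nat_lit 4) (nat_lit 345) (nat_lit 305) (nat_lit 250)) (XT.lf (nat_lit 0) (nat_lit 11800735312) (nat_lit 152) (nat_lit 14638724326) (nat_lit 76) (nat_lit 20327357709) (nat_lit 18) (nat_lit 5) (nat_lit 20) (nat_lit 5) (nat_lit 19) (nat_lit 4) (nat_lit 346) (nat_lit 305) (nat_lit 249))))) (XT.nd (nat_lit 234) (nat_lit 76) (nat_lit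 0) (XT.nd (nat_lit 78) (nat_lit 152) (nat_lit 0) (XT.lf (nat_lit 0) (nat_lit 13307310881) (nat_lit 76) (nat_lit 12144745235) (nat_lit 152) (nat_lit 24265746880) (nat_lit 17) (nat_lit 5) (nat_lit 18) (nat_lit 5) (nat_lit 19) (nat_lit 4) (nat_lit 347) (nat_lit 305) (nat_lit 248)) (XT.nd (nat_lit 78) (nat_lit 152) (nat_lit 0) (XT.lf (nat_lit 0) (nat_lit 40475772640) (nat_lit 152) (nat_lit 8992340915) (nat_lit 0) (nat_lit 3422748889) (nat_lit 17) (nat_lit 5) (nat_lit 19) (nat_lit 4) (nat_lit 17) (nat_lit 4) (nat_lit 348) (nat_lit 305) (nat_lit 247)) (XT.lf (nat_lit 0) (nat_lit 884756591) (nat_lit 152) (nat_lit 35271257552) (nat_lit 76) (nat_lit 20135790620) (nat_lit 15) (nat_lit 5) (nat_lit 17) (nat_lit 5) (nat_lit 16) (nat_lit 4) (nat_lit 349) (nat_lit 305) (nat_lit 246)))) (XT.nd (nat_lit 78) (nat_lit 76) (nat_lit 0) (XT.lf (nat_lit 0) (nat_lit 14951438730) (nat_lit 152) (nat_lit 6464174735)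 (nat_lit 76) (nat_lit 38532149799) (nat_lit 15) (nat_lit 5) (nat_lit 17) (nat_lit 5) (nat_lit 16) (nat_lit 4) (nat_lit 350) (nat_lit 305) (nat_lit 245)) (XT.nd (nat_lit 78) (nat_lit 0) (nat_lit 0) (XT.lf (nat_lit 0) (nat_lit 25413786328) (nat_lit 76) (nat_lit 5101253810) (nat_lit 152) (nat_lit 33362586216) (nat_lit 14) (nat_lit 5) (nat_lit 15) (nat_lit 5) (nat_lit 16) (nat_lit 4) (nat_lit 351) (nat_lit 305) (nat_lit 244)) (XT.lf (nat_lit 0) (nat_lit 47609261758) (nat_lit 152) (nat_lit 8286643587) (nat_lit 0) (nat_lit 12211703156) (nat_lit 14) (nat_lit 5) (nat_lit 16) (nat_lit 4) (nat_lit 14) (nat_lit 4) (nat_lit 352) (nat_lit 305) (nat_lit 243))))))))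
noncomputable def xc58 : XT := (XT.nd (nat_lit 1716) (nat_lit 152) (nat_lit 0) (XT.nd (nat_lit 858) (nat_lit 304) (nat_lit 0) (XT.nd (nat_lit 390) (nat_lit 228) (nat_lit 0) (XT.nd (nat_lit 156) (nat_lit 76) (nat_lit 0) (XT.nd (nat_lit 78) (nat_lit 76) (nat_lit 0) (XT.lf (nat_lit 0) (nat_lit 24975565735) (nat_lit 76) (nat_lit 41548854273) (nat_lit 76) (nat_lit 6128905392) (nat_lit 13) (nat_lit 4) (nat_lit 14) (nat_lit 5) (nat_lit 14) (nat_lit 4) (nat_lit 353) (nat_lit 305) (nat_lit 242)) (XT.lf (nat_lit 0) (nat_lit 9214385449) (nat_lit 152) (nat_lit 16551190449) (nat_lit 76) (nat_lit 51783557085) (nat_lit 12) (nat_lit 5) (nat_lit 14) (nat_lit 5) (nat_lit 13) (nat_lit 4) (nat_lit 354) (nat_lit 305) (nat_lit 241))) (XT.nd (nat_lit 78) (nat_lit 0) (nat_lit 0) (XT.lf (nat_lit 0) (nat_lit 17483403250) (nat_lit 76) (nat_lit 8342586957) (nat_lit 152) (nat_lit 56992817391) (nat_lit 11) (nat_lit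 5) (nat_lit 12) (nat_lit 5) (nat_lit 13) (nat_lit 4) (nat_lit 355) (nat_lit 305) (nat_lit 240)) (XT.nd (nat_lit 78) (nat_lit 0) (nat_lit 0) (XT.lf (nat_lit 0) (nat_lit 44203492494) (nat_lit 152) (nat_lit 33869466226) (nat_lit 0) (nat_lit 10415253635) (nat_lit 11) (nat_lit 5) (nat_lit 13) (nat_lit 4) (nat_lit 11) (nat_lit 4) (nat_lit 356) (nat_lit 305) (nat_lit 239)) (XT.lf (nat_lit 0) (nat_lit 64173717534) (nat_lit 152) (nat_lit 61525277) (nat_lit 0) (nat_lit 30369804843) (nat_lit 11) (nat_lit 5) (nat_lit 13) (nat_lit 4) (nat_lit 11) (nat_lit 4) (nat_lit 357) (nat_lit 305) (nat_lit 238))))) (XT.nd (nat_lit 234) (nat_lit 0) (nat_lit 0) (XT.nd (nat_lit 78) (nat_lit 152) (nat_lit 0) (XT.lf (nat_lit 0) (nat_lit 37623190057) (nat_lit 76) (nat_lit 48688969616) (nat_lit 76) (nat_lit 14870544118) (nat_lit 10) (nat_lit 4) (nat_lit 11) (nat_lit 5) (nat_lit 11) (nat_lit 4) (nat_lit 358) (nat_lit 305)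 (nat_lit 237)) (XT.nd (nat_lit 78) (nat_lit 76) (nat_lit 0) (XT.lf (nat_lit 0) (nat_lit 1857954113) (nat_lit 152) (nat_lit 30023057349) (nat_lit 76) (nat_lit 76404814596) (nat_lit 9) (nat_lit 5) (nat_lit 11) (nat_lit 5) (nat_lit 10) (nat_lit 4) (nat_lit 359) (nat_lit 305) (nat_lit 236)) (XT.lf (nat_lit 0) (nat_lit 6112325633) (nat_lit 76) (nat_lit 13378714029) (nat_lit 152) (nat_lit 96449607773) (nat_lit 8) (nat_lit 5) (nat_lit 9) (nat_lit 5) (nat_lit 10) (nat_lit 4) (nat_lit 360) (nat_lit 305) (nat_lit 235)))) (XT.nd (nat_lit 78) (nat_lit 0) (nat_lit 0) (XT.lf (nat_lit 0) (nat_lit 39154815079) (nat_lit 152) (nat_lit 78110869415) (nat_lit 0) (nat_lit 6911170878) (nat_lit 8) (nat_lit 5) (nat_lit 10) (nat_lit 4) (nat_lit 8) (nat_lit 4) (nat_lit 361) (nat_lit 305) (nat_lit 234)) (XT.nd (nat_lit 78) (nat_lit 0) (nat_lit 0) (XT.lf (nat_lit 0) (nat_lit 60603748697) (nat_lit 152) (nat_lit 44107666098)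 (nat_lit 0) (nat_lit 28349945119) (nat_lit 8) (nat_lit 5) (nat_lit 10) (nat_lit 4) (nat_lit 8) (nat_lit 4) (nat_lit 362) (nat_lit 305) (nat_lit 233)) (XT.lf (nat_lit 0) (nat_lit 83756066090) (nat_lit 152) (nat_lit 7408332169) (nat_lit 0) (nat_lit 51492855681) (nat_lit 8) (nat_lit 5) (nat_lit 10) (nat_lit 4) (nat_lit 8) (nat_lit 4) (nat_lit 363) (nat_lit 305) (nat_lit 232)))))) (XT.nd (nat_lit 390) (nat_lit 76) (nat_lit 0) (XT.nd (nat_lit 156) (nat_lit 152) (nat_lit 0) (XT.nd (nat_lit 78) (nat_lit 0) (nat_lit 0) (XT.lf (nat_lit 0) (nat_lit 33269439750) (nat_lit 76) (nat_lit 75998955617) (nat_lit 76) (nat_lit 43727035178) (nat_lit 7) (nat_lit 4) (nat_lit 8) (nat_lit 5) (nat_lit 8) (nat_lit 4) (nat_lit 364) (nat_lit 305) (nat_lit 231)) (XT.lf (nat_lit 0) (nat_lit 77444614815) (nat_lit 76) (nat_lit 59495067687) (nat_lit 76) (nat_lit 27215082407) (nat_lit 7) (nat_lit 4) (nat_lit 8) (nat_lit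 5) (nat_lit 8) (nat_lit 4) (nat_lit 365) (nat_lit 305) (nat_lit 230))) (XT.nd (nat_lit 78) (nat_lit 152) (nat_lit 0) (XT.lf (nat_lit 0) (nat_lit 125134018923) (nat_lit 76) (nat_lit 41680397342) (nat_lit 76) (nat_lit 9392944616) (nat_lit 7) (nat_lit 4) (nat_lit 8) (nat_lit 5) (nat_lit 8) (nat_lit 4) (nat_lit 366) (nat_lit 305) (nat_lit 229)) (XT.nd (nat_lit 78) (nat_lit 76) (nat_lit 0) (XT.lf (nat_lit 0) (nat_lit 9529889669) (nat_lit 152) (nat_lit 12758093205) (nat_lit 76) (nat_lit 166928972986) (nat_lit 6) (nat_lit 5) (nat_lit 8) (nat_lit 5) (nat_lit 7) (nat_lit 4) (nat_lit 367) (nat_lit 305) (nat_lit 228)) (XT.lf (nat_lit 0) (nat_lit 29387311078) (nat_lit 76) (nat_lit 704435378) (nat_lit 152) (nat_lit 173145160573) (nat_lit 5) (nat_lit 5) (nat_lit 6) (nat_lit 5) (nat_lit 7) (nat_lit 4) (nat_lit 368) (nat_lit 305) (nat_lit 227))))) (XT.nd (nat_lit 234) (nat_lit 76) (nat_lit 0) (XT.nd (nat_lit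 78) (nat_lit 0) (nat_lit 0) (XT.lf (nat_lit 0) (nat_lit 52868713480) (nat_lit 152) (nat_lit 143380803707) (nat_lit 0) (nat_lit 22100430567) (nat_lit 5) (nat_lit 5) (nat_lit 7) (nat_lit 4) (nat_lit 5) (nat_lit 4) (nat_lit 369) (nat_lit 305) (nat_lit 226)) (XT.nd (nat_lit 78) (nat_lit 0) (nat_lit 0) (XT.lf (nat_lit 0) (nat_lit 77471698218) (nat_lit 152) (nat_lit 110501954047) (nat_lit 0) (nat_lit 46698187881) (nat_lit 5) (nat_lit 5) (nat_lit 7) (nat_lit 4) (nat_lit 5) (nat_lit 4) (nat_lit 370) (nat_lit 305) (nat_lit 225)) (XT.lf (nat_lit 0) (nat_lit 104035497928) (nat_lit 152) (nat_lit 75007211134) (nat_lit 0) (nat_lit 73257147383) (nat_lit 5) (nat_lit 5) (nat_lit 7) (nat_lit 4) (nat_lit 5) (nat_lit 4) (nat_lit 371) (nat_lit 305) (nat_lit 224)))) (XT.nd (nat_lit 78) (nat_lit 76) (nat_lit 0) (XT.lf (nat_lit 0) (nat_lit 132717527718) (nat_lit 152) (nat_lit 36686235752) (nat_lit 0) (nat_lit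 101934695499) (nat_lit 5) (nat_lit 5) (nat_lit 7) (nat_lit 4) (nat_lit 5) (nat_lit 4) (nat_lit 372) (nat_lit 305) (nat_lit 223)) (XT.nd (nat_lit 78) (nat_lit 0) (nat_lit 0) (XT.lf (nat_lit 0) (nat_lit 4843067775) (nat_lit 76) (nat_lit 158920301258) (nat_lit 76) (nat_lit 128133319341) (nat_lit 4) (nat_lit 4) (nat_lit 5) (nat_lit 5) (nat_lit 5) (nat_lit 4) (nat_lit 373) (nat_lit 305) (nat_lit 222)) (XT.lf (nat_lit 0) (nat_lit 50992948007) (nat_lit 76) (nat_lit 146932902384) (nat_lit 76) (nat_lit 116142078153) (nat_lit 4) (nat_lit 4) (nat_lit 5) (nat_lit 5) (nat_lit 5) (nat_lit 4) (nat_lit 374) (nat_lit 305) (nat_lit 221))))))) (XT.nd (nat_lit 858) (nat_lit 0) (nat_lit 0) (XT.nd (nat_lit 390) (nat_lit 152) (nat_lit 0) (XT.nd (nat_lit 156) (nat_lit 0) (nat_lit 0) (XT.nd (nat_lit 78) (nat_lit 0) (nat_lit 0) (XT.lf (nat_lit 0) (nat_lit 100823873081) (nat_lit 76) (nat_lit 133991829564) (nat_lit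 76) (nat_lit 103197447637) (nat_lit 4) (nat_lit 4) (nat_lit 5) (nat_lit 5) (nat_lit 5) (nat_lit 4) (nat_lit 375) (nat_lit 305) (nat_lit 220)) (XT.lf (nat_lit 0) (nat_lit 154631137369) (nat_lit 76) (nat_lit 120020394960) (nat_lit 76) (nat_lit 89222718869) (nat_lit 4) (nat_lit 4) (nat_lit 5) (nat_lit 5) (nat_lit 5) (nat_lit 4) (nat_lit 376) (nat_lit 305) (nat_lit 219))) (XT.nd (nat_lit 78) (nat_lit 0) (nat_lit 0) (XT.lf (nat_lit 0) (nat_lit 212733598731) (nat_lit 76) (nat_lit 104935804886) (nat_lit 76) (nat_lit 74135078642) (nat_lit 4) (nat_lit 4) (nat_lit 5) (nat_lit 5) (nat_lit 5) (nat_lit 4) (nat_lit 377) (nat_lit 305) (nat_lit 218)) (XT.nd (nat_lit 78) (nat_lit 0) (nat_lit 0) (XT.lf (nat_lit 0) (nat_lit 275475568051) (nat_lit 76) (nat_lit 88648669177) (nat_lit 76) (nat_lit 57845118719) (nat_lit 4) (nat_lit 4) (nat_lit 5) (nat_lit 5) (nat_lit 5) (nat_lit 4) (nat_lit 378) (nat_lit 305)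 (nat_lit 217)) (XT.lf (nat_lit 0) (nat_lit 343228849592) (nat_lit 76) (nat_lit 71062471475) (nat_lit 76) (nat_lit 40256306003) (nat_lit 4) (nat_lit 4) (nat_lit 5) (nat_lit 5) (nat_lit 5) (nat_lit 4) (nat_lit 379) (nat_lit 305) (nat_lit 216))))) (XT.nd (nat_lit 234) (nat_lit 0) (nat_lit 0) (XT.nd (nat_lit 78) (nat_lit 152) (nat_lit 0) (XT.lf (nat_lit 0) (nat_lit 416394944280) (nat_lit 76) (nat_lit 52072997274) (nat_lit 76) (nat_lit 21264410493) (nat_lit 4) (nat_lit 4) (nat_lit 5) (nat_lit 5) (nat_lit 5) (nat_lit 4) (nat_lit 380) (nat_lit 305) (nat_lit 215)) (XT.nd (nat_lit 78) (nat_lit 152) (nat_lit 0) (XT.lf (nat_lit 0) (nat_lit 495407428973) (nat_lit 76) (nat_lit 31567716356) (nat_lit 76) (nat_lit 756887623) (nat_lit 4) (nat_lit 4) (nat_lit 5) (nat_lit 5) (nat_lit 5) (nat_lit 4) (nat_lit 381) (nat_lit 305) (nat_lit 214)) (XT.lf (nat_lit 0) (nat_lit 12013248372) (nat_lit 76) (nat_lit 8877557963)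 (nat_lit 152) (nat_lit 547854972557) (nat_lit 2) (nat_lit 5) (nat_lit 3) (nat_lit 5) (nat_lit 4) (nat_lit 4) (nat_lit 382) (nat_lit 305) (nat_lit 213)))) (XT.nd (nat_lit 78) (nat_lit 0) (nat_lit 0) (XT.lf (nat_lit 0) (nat_lit 45057216016) (nat_lit 152) (nat_lit 552232355710) (nat_lit 0) (nat_lit 15709761988) (nat_lit 2) (nat_lit 5) (nat_lit 4) (nat_lit 4) (nat_lit 2) (nat_lit 4) (nat_lit 383) (nat_lit 305) (nat_lit 212)) (XT.nd (nat_lit 78) (nat_lit 0) (nat_lit 0) (XT.lf (nat_lit 0) (nat_lit 71303634873) (nat_lit 152) (nat_lit 547527717833) (nat_lit 0) (nat_lit 41954485860) (nat_lit 2) (nat_lit 5) (nat_lit 4) (nat_lit 4) (nat_lit 2) (nat_lit 4) (nat_lit 384) (nat_lit 305) (nat_lit 211)) (XT.lf (nat_lit 0) (nat_lit 99646993681) (nat_lit 152) (nat_lit 542452133995) (nat_lit 0) (nat_lit 70296275237) (nat_lit 2) (nat_lit 5) (nat_lit 4) (nat_lit 4) (nat_lit 2) (nat_lit 4) (nat_lit 385) (nat_lit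 305) (nat_lit 210)))))) (XT.nd (nat_lit 40716) (nat_lit 0) (nat_lit 8816) (XT.nd (nat_lit 156) (nat_lit 0) (nat_lit 0) (XT.nd (nat_lit 78) (nat_lit 0) (nat_lit 0) (XT.lf (nat_lit 0) (nat_lit 130255253085) (nat_lit 152) (nat_lit 536975526662) (nat_lit 0) (nat_lit 100903081465) (nat_lit 2) (nat_lit 5) (nat_lit 4) (nat_lit 4) (nat_lit 2) (nat_lit 4) (nat_lit 386) (nat_lit 305) (nat_lit 209)) (XT.lf (nat_lit 0) (nat_lit 163309795362) (nat_lit 152) (nat_lit 531065441864) (nat_lit 0) (nat_lit 133956278209) (nat_lit 2) (nat_lit 5) (nat_lit 4) (nat_lit 4) (nat_lit 2) (nat_lit 4) (nat_lit 387) (nat_lit 305) (nat_lit 208))) (XT.nd (nat_lit 78) (nat_lit 0) (nat_lit 0) (XT.lf (nat_lit 0) (nat_lit 199006499283) (nat_lit 152) (nat_lit 524686856877) (nat_lit 0) (nat_lit 169651736265) (nat_lit 2) (nat_lit 5) (nat_lit 4) (nat_lit 4) (nat_lit 2) (nat_lit 4) (nat_lit 388) (nat_lit 305) (nat_lit 207)) (XT.nd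 (nat_lit 40404) (nat_lit 0) (nat_lit 9348) (XT.lf (nat_lit 0) (nat_lit 237556900870) (nat_lit 152) (nat_lit 517801972678) (nat_lit 0) (nat_lit 208200984273) (nat_lit 2) (nat_lit 5) (nat_lit 4) (nat_lit 4) (nat_lit 2) (nat_lit 4) (nat_lit 389) (nat_lit 305) (nat_lit 206)) (XT.lf (nat_lit 0) (nat_lit 242105928) (nat_lit 0) (nat_lit 242105928) (nat_lit 532) (nat_lit 3261187374) (nat_lit 125) (nat_lit 5) (nat_lit 125) (nat_lit 3) (nat_lit 132) (nat_lit 3) (nat_lit 306) (nat_lit 306) (nat_lit 288))))) (XT.nd (nat_lit 234) (nat_lit 532) (nat_lit 0) (XT.nd (nat_lit 78) (nat_lit 0) (nat_lit 0) (XT.lf (nat_lit 0) (nat_lit 3262595397) (nat_lit 532) (nat_lit 1381694126) (nat_lit 608) (nat_lit 3029957260) (nat_lit 125) (nat_lit 5) (nat_lit 132) (nat_lit 3) (nat_lit 133) (nat_lit 5) (nat_lit 307) (nat_lit 306) (nat_lit 287)) (XT.nd (nat_lit 78) (nat_lit 0) (nat_lit 76) (XT.lf (nat_lit 76) (nat_lit 4712366065)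 (nat_lit 0) (nat_lit 890633467) (nat_lit 608) (nat_lit 2276577854) (nat_lit 126) (nat_lit 5) (nat_lit 125) (nat_lit 5) (nat_lit 133) (nat_lit 5) (nat_lit 308) (nat_lit 306) (nat_lit 286)) (XT.lf (nat_lit 76) (nat_lit 3164647832) (nat_lit 0) (nat_lit 4885941083) (nat_lit 608) (nat_lit 55063944) (nat_lit 127) (nat_lit 5) (nat_lit 126) (nat_lit 5) (nat_lit 134) (nat_lit 5) (nat_lit 309) (nat_lit 306) (nat_lit 285)))) (XT.nd (nat_lit 78) (nat_lit 0) (nat_lit 76) (XT.lf (nat_lit 76) (nat_lit 1637956542) (nat_lit 0) (nat_lit 534262259) (nat_lit 684) (nat_lit 6180890541) (nat_lit 119) (nat_lit 5) (nat_lit 118) (nat_lit 5) (nat_lit 127) (nat_lit 5) (nat_lit 310) (nat_lit 306) (nat_lit 284)) (XT.nd (nat_lit 78) (nat_lit 0) (nat_lit 76) (XT.lf (nat_lit 76) (nat_lit 104029671) (nat_lit 0) (nat_lit 4445556121) (nat_lit 684) (nat_lit 4072297950) (nat_lit 120) (nat_lit 5) (nat_lit 119) (nat_lit 5) (nat_lit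 128) (nat_lit 5) (nat_lit 311) (nat_lit 306) (nat_lit 283)) (XT.lf (nat_lit 0) (nat_lit 7081715647) (nat_lit 608) (nat_lit 1352710788) (nat_lit 76) (nat_lit 479743940) (nat_lit 120) (nat_lit 5) (nat_lit 128) (nat_lit 5) (nat_lit 121) (nat_lit 5) (nat_lit 312) (nat_lit 306) (nat_lit 282))))))))
noncomputable def xc59 : XT := (XT.nd (nat_lit 1716) (nat_lit 1824) (nat_lit 0) (XT.nd (nat_lit 858) (nat_lit 1976) (nat_lit 0) (XT.nd (nat_lit 390) (nat_lit 1596) (nat_lit 0) (XT.nd (nat_lit 156) (nat_lit 1520) (nat_lit 0) (XT.nd (nat_lit 78) (nat_lit 684) (nat_lit 0) (XT.lf (nat_lit 0) (nat_lit 586651575) (nat_lit 684) (nat_lit 2852158473) (nat_lit 76) (nat_lit 5789840220) (nat_lit 111) (nat_lit 5) (nat_lit 120) (nat_lit 5) (nat_lit 112) (nat_lit 5) (nat_lit 313) (nat_lit 306) (nat_lit 281)) (XT.lf (nat_lit 0) (nat_lit 3125496700) (nat_lit 760) (nat_lit 4389631410) (nat_lit 76) (nat_lit 2052333012)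 (nat_lit 102) (nat_lit 5) (nat_lit 112) (nat_lit 5) (nat_lit 103) (nat_lit 5) (nat_lit 314) (nat_lit 306) (nat_lit 280))) (XT.nd (nat_lit 78) (nat_lit 760) (nat_lit 0) (XT.lf (nat_lit 0) (nat_lit 3959034068) (nat_lit 760) (nat_lit 1939207980) (nat_lit 836) (nat_lit 4033775823) (nat_lit 92) (nat_lit 5) (nat_lit 102) (nat_lit 5) (nat_lit 103) (nat_lit 5) (nat_lit 315) (nat_lit 306) (nat_lit 279)) (XT.nd (nat_lit 78) (nat_lit 380) (nat_lit 0) (XT.lf (nat_lit 0) (nat_lit 2700639220) (nat_lit 380) (nat_lit 6244789131) (nat_lit 456) (nat_lit 1377847018) (nat_lit 87) (nat_lit 5) (nat_lit 92) (nat_lit 5) (nat_lit 93) (nat_lit 5) (nat_lit 316) (nat_lit 306) (nat_lit 278)) (XT.lf (nat_lit 0) (nat_lit 1398063190) (nat_lit 304) (nat_lit 79631897) (nat_lit 380) (nat_lit 9265379997) (nat_lit 82) (nat_lit 5) (nat_lit 86) (nat_lit 5) (nat_lit 87) (nat_lit 5) (nat_lit 317) (nat_lit 306) (nat_lit 277)))))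 (XT.nd (nat_lit 234) (nat_lit 912) (nat_lit 0) (XT.nd (nat_lit 78) (nat_lit 684) (nat_lit 0) (XT.lf (nat_lit 0) (nat_lit 4633549363) (nat_lit 380) (nat_lit 35446800) (nat_lit 76) (nat_lit 6520462721) (nat_lit 82) (nat_lit 5) (nat_lit 87) (nat_lit 5) (nat_lit 83) (nat_lit 5) (nat_lit 318) (nat_lit 306) (nat_lit 276)) (XT.nd (nat_lit 78) (nat_lit 304) (nat_lit 0) (XT.lf (nat_lit 0) (nat_lit 8126692958) (nat_lit 456) (nat_lit 1478075302) (nat_lit 76) (nat_lit 2062670545) (nat_lit 77) (nat_lit 5) (nat_lit 83) (nat_lit 5) (nat_lit 78) (nat_lit 5) (nat_lit 319) (nat_lit 306) (nat_lit 275)) (XT.lf (nat_lit 0) (nat_lit 9143371819) (nat_lit 304) (nat_lit 2874721096) (nat_lit 380) (nat_lit 159741059) (nat_lit 73) (nat_lit 5) (nat_lit 77) (nat_lit 5) (nat_lit 78) (nat_lit 5) (nat_lit 320) (nat_lit 306) (nat_lit 274)))) (XT.nd (nat_lit 78) (nat_lit 532) (nat_lit 0) (XT.lf (nat_lit 0) (nat_lit 3503936829)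 (nat_lit 380) (nat_lit 4772594736) (nat_lit 76) (nat_lit 4443709142) (nat_lit 68) (nat_lit 5) (nat_lit 73) (nat_lit 5) (nat_lit 69) (nat_lit 5) (nat_lit 321) (nat_lit 306) (nat_lit 273)) (XT.nd (nat_lit 78) (nat_lit 304) (nat_lit 0) (XT.lf (nat_lit 0) (nat_lit 6656499563) (nat_lit 228) (nat_lit 910927198) (nat_lit 304) (nat_lit 5732962175) (nat_lit 65) (nat_lit 5) (nat_lit 68) (nat_lit 5) (nat_lit 69) (nat_lit 5) (nat_lit 322) (nat_lit 306) (nat_lit 272)) (XT.lf (nat_lit 0) (nat_lit 5185351172) (nat_lit 304) (nat_lit 6957011928) (nat_lit 380) (nat_lit 1775356092) (nat_lit 61) (nat_lit 5) (nat_lit 65) (nat_lit 5) (nat_lit 66) (nat_lit 5) (nat_lit 323) (nat_lit 306) (nat_lit 271)))))) (XT.nd (nat_lit 390) (nat_lit 988) (nat_lit 0) (XT.nd (nat_lit 156) (nat_lit 456) (nat_lit 0) (XT.nd (nat_lit 78) (nat_lit 228) (nat_lit 0) (XT.lf (nat_lit 0) (nat_lit 2538069446) (nat_lit 304) (nat_lit 11031042923)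 (nat_lit 76) (nat_lit 1007491357) (nat_lit 57) (nat_lit 5) (nat_lit 61) (nat_lit 5) (nat_lit 58) (nat_lit 5) (nat_lit 324) (nat_lit 306) (nat_lit 270)) (XT.lf (nat_lit 0) (nat_lit 1625903964) (nat_lit 228) (nat_lit 5725110151) (nat_lit 304) (nat_lit 7924969738) (nat_lit 54) (nat_lit 5) (nat_lit 57) (nat_lit 5) (nat_lit 58) (nat_lit 5) (nat_lit 325) (nat_lit 306) (nat_lit 269))) (XT.nd (nat_lit 78) (nat_lit 456) (nat_lit 0) (XT.lf (nat_lit 0) (nat_lit 12709546428) (nat_lit 304) (nat_lit 490281848) (nat_lit 76) (nat_lit 2823525441) (nat_lit 54) (nat_lit 5) (nat_lit 58) (nat_lit 5) (nat_lit 55) (nat_lit 5) (nat_lit 326) (nat_lit 306) (nat_lit 268)) (XT.nd (nat_lit 78) (nat_lit 228) (nat_lit 0) (XT.lf (nat_lit 0) (nat_lit 1859592552) (nat_lit 228) (nat_lit 2879143147) (nat_lit 76) (nat_lit 12078202017) (nat_lit 51) (nat_lit 5) (nat_lit 54) (nat_lit 5) (nat_lit 52) (nat_lit 5) (nat_lit 327)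 (nat_lit 306) (nat_lit 267)) (XT.lf (nat_lit 0) (nat_lit 7532874837) (nat_lit 304) (nat_lit 5643519310) (nat_lit 76) (nat_lit 4484847197) (nat_lit 48) (nat_lit 5) (nat_lit 52) (nat_lit 5) (nat_lit 49) (nat_lit 5) (nat_lit 328) (nat_lit 306) (nat_lit 266))))) (XT.nd (nat_lit 234) (nat_lit 380) (nat_lit 0) (XT.nd (nat_lit 78) (nat_lit 456) (nat_lit 0) (XT.lf (nat_lit 0) (nat_lit 9770704948) (nat_lit 152) (nat_lit 4106593917) (nat_lit 228) (nat_lit 4684977039) (nat_lit 46) (nat_lit 5) (nat_lit 48) (nat_lit 5) (nat_lit 49) (nat_lit 5) (nat_lit 329) (nat_lit 306) (nat_lit 265)) (XT.nd (nat_lit 78) (nat_lit 152) (nat_lit 0) (XT.lf (nat_lit 0) (nat_lit 1396291511) (nat_lit 304) (nat_lit 12417465232) (nat_lit 76) (nat_lit 5708718134) (nat_lit 42) (nat_lit 5) (nat_lit 46) (nat_lit 5) (nat_lit 43) (nat_lit 5) (nat_lit 330) (nat_lit 306) (nat_lit 264)) (XT.lf (nat_lit 0) (nat_lit 3913961175) (nat_lit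 152) (nat_lit 4113104278) (nat_lit 228) (nat_lit 12517268353) (nat_lit 40) (nat_lit 5) (nat_lit 42) (nat_lit 5) (nat_lit 43) (nat_lit 5) (nat_lit 331) (nat_lit 306) (nat_lit 263)))) (XT.nd (nat_lit 78) (nat_lit 228) (nat_lit 0) (XT.lf (nat_lit 0) (nat_lit 166402804) (nat_lit 152) (nat_lit 15285202988) (nat_lit 228) (nat_lit 6183208689) (nat_lit 38) (nat_lit 5) (nat_lit 40) (nat_lit 5) (nat_lit 41) (nat_lit 5) (nat_lit 332) (nat_lit 306) (nat_lit 262)) (XT.nd (nat_lit 78) (nat_lit 152) (nat_lit 0) (XT.lf (nat_lit 0) (nat_lit 943806374) (nat_lit 228) (nat_lit 4073663934) (nat_lit 76) (nat_lit 17779219850) (nat_lit 37) (nat_lit 5) (nat_lit 40) (nat_lit 5) (nat_lit 38) (nat_lit 5) (nat_lit 333) (nat_lit 306) (nat_lit 261)) (XT.lf (nat_lit 0) (nat_lit 8708995821) (nat_lit 228) (nat_lit 9133677741) (nat_lit 76) (nat_lit 6189573227) (nat_lit 35) (nat_lit 5) (nat_lit 38) (nat_lit 5) (nat_lit 36)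 (nat_lit 5) (nat_lit 334) (nat_lit 306) (nat_lit 260))))))) (XT.nd (nat_lit 858) (nat_lit 684) (nat_lit 0) (XT.nd (nat_lit 390) (nat_lit 608) (nat_lit 0) (XT.nd (nat_lit 156) (nat_lit 228) (nat_lit 0) (XT.nd (nat_lit 78) (nat_lit 152) (nat_lit 0) (XT.lf (nat_lit 0) (nat_lit 10332353835) (nat_lit 152) (nat_lit 7030868419) (nat_lit 228) (nat_lit 7990063527) (nat_lit 33) (nat_lit 5) (nat_lit 35) (nat_lit 5) (nat_lit 36) (nat_lit 5) (nat_lit 335) (nat_lit 306) (nat_lit 259)) (XT.lf (nat_lit 0) (nat_lit 198958982) (nat_lit 152) (nat_lit 21860140186) (nat_lit 76) (nat_lit 4707642420) (nat_lit 31) (nat_lit 5) (nat_lit 33) (nat_lit 5) (nat_lit 32) (nat_lit 5) (nat_lit 336) (nat_lit 306) (nat_lit 258))) (XT.nd (nat_lit 78) (nat_lit 228) (nat_lit 0) (XT.lf (nat_lit 0) (nat_lit 9104734487) (nat_lit 152) (nat_lit 1652853615) (nat_lit 76) (nat_lit 17512081936) (nat_lit 31) (nat_lit 5) (nat_lit 33) (nat_lit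 5) (nat_lit 32) (nat_lit 5) (nat_lit 337) (nat_lit 306) (nat_lit 257)) (XT.nd (nat_lit 78) (nat_lit 76) (nat_lit 0) (XT.lf (nat_lit 0) (nat_lit 19031343132) (nat_lit 228) (nat_lit 9144643959) (nat_lit 76) (nat_lit 1701448985) (nat_lit 29) (nat_lit 5) (nat_lit 32) (nat_lit 5) (nat_lit 30) (nat_lit 4) (nat_lit 338) (nat_lit 306) (nat_lit 256)) (XT.lf (nat_lit 0) (nat_lit 13534954601) (nat_lit 76) (nat_lit 16597517967) (nat_lit 152) (nat_lit 1462351471) (nat_lit 28) (nat_lit 5) (nat_lit 29) (nat_lit 5) (nat_lit 30) (nat_lit 4) (nat_lit 339) (nat_lit 306) (nat_lit 255))))) (XT.nd (nat_lit 234) (nat_lit 304) (nat_lit 0) (XT.nd (nat_lit 78) (nat_lit 76) (nat_lit 0) (XT.lf (nat_lit 0) (nat_lit 4860888241) (nat_lit 152) (nat_lit 3731187849) (nat_lit 228) (nat_lit 24840897634) (nat_lit 25) (nat_lit 5) (nat_lit 27) (nat_lit 5) (nat_lit 28) (nat_lit 5) (nat_lit 340) (nat_lit 306) (nat_lit 254)) (XT.nd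 (nat_lit 78) (nat_lit 76) (nat_lit 0) (XT.lf (nat_lit 0) (nat_lit 19839977148) (nat_lit 228) (nat_lit 5399669481) (nat_lit 76) (nat_lit 10155328989) (nat_lit 25) (nat_lit 5) (nat_lit 28) (nat_lit 5) (nat_lit 26) (nat_lit 4) (nat_lit 341) (nat_lit 306) (nat_lit 253)) (XT.lf (nat_lit 0) (nat_lit 20144551015) (nat_lit 76) (nat_lit 12184683095) (nat_lit 152) (nat_lit 5167642671) (nat_lit 24) (nat_lit 5) (nat_lit 25) (nat_lit 5) (nat_lit 26) (nat_lit 4) (nat_lit 342) (nat_lit 306) (nat_lit 252)))) (XT.nd (nat_lit 78) (nat_lit 76) (nat_lit 0) (XT.lf (nat_lit 0) (nat_lit 6081675469) (nat_lit 228) (nat_lit 31518072783) (nat_lit 76) (nat_lit 2151240157) (nat_lit 21) (nat_lit 5) (nat_lit 24) (nat_lit 5) (nat_lit 22) (nat_lit 4) (nat_lit 343) (nat_lit 306) (nat_lit 251)) (XT.nd (nat_lit 78) (nat_lit 76) (nat_lit 0) (XT.lf (nat_lit 0) (nat_lit 18531450874) (nat_lit 228) (nat_lit 6044008475) (nat_lit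 76) (nat_lit 17581668302) (nat_lit 21) (nat_lit 5) (nat_lit 24) (nat_lit 5) (nat_lit 22) (nat_lit 4) (nat_lit 344) (nat_lit 306) (nat_lit 250)) (XT.lf (nat_lit 0) (nat_lit 22119682268) (nat_lit 76) (nat_lit 10171823382) (nat_lit 152) (nat_lit 12448549088) (nat_lit 20) (nat_lit 5) (nat_lit 21) (nat_lit 5) (nat_lit 22) (nat_lit 4) (nat_lit 345) (nat_lit 306) (nat_lit 249)))))) (XT.nd (nat_lit 468) (nat_lit 304) (nat_lit 0) (XT.nd (nat_lit 234) (nat_lit 152) (nat_lit 0) (XT.nd (nat_lit 78) (nat_lit 152) (nat_lit 0) (XT.lf (nat_lit 0) (nat_lit 5255432279) (nat_lit 76) (nat_lit 42140082921) (nat_lit 76) (nat_lit 121953988) (nat_lit 19) (nat_lit 4) (nat_lit 20) (nat_lit 5) (nat_lit 20) (nat_lit 4) (nat_lit 346) (nat_lit 306) (nat_lit 248)) (XT.nd (nat_lit 78) (nat_lit 76) (nat_lit 0) (XT.lf (nat_lit 0) (nat_lit 13311539561) (nat_lit 152) (nat_lit 14765743610) (nat_lit 76) (nat_lit 22402357939)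 (nat_lit 18) (nat_lit 5) (nat_lit 20) (nat_lit 5) (nat_lit 19) (nat_lit 4) (nat_lit 347) (nat_lit 306) (nat_lit 247)) (XT.lf (nat_lit 0) (nat_lit 15370600028) (nat_lit 76) (nat_lit 12657977432) (nat_lit 152) (nat_lit 25639461235) (nat_lit 17) (nat_lit 5) (nat_lit 18) (nat_lit 5) (nat_lit 19) (nat_lit 4) (nat_lit 348) (nat_lit 306) (nat_lit 246)))) (XT.nd (nat_lit 78) (nat_lit 152) (nat_lit 0) (XT.lf (nat_lit 0) (nat_lit 44220790879) (nat_lit 152) (nat_lit 8768453438) (nat_lit 0) (nat_lit 4107381247) (nat_lit 17) (nat_lit 5) (nat_lit 19) (nat_lit 4) (nat_lit 17) (nat_lit 4) (nat_lit 349) (nat_lit 306) (nat_lit 245)) (XT.nd (nat_lit 78) (nat_lit 0) (nat_lit 0) (XT.lf (nat_lit 0) (nat_lit 1447096104) (nat_lit 152) (nat_lit 37174284440) (nat_lit 76) (nat_lit 22149051273) (nat_lit 15) (nat_lit 5) (nat_lit 17) (nat_lit 5) (nat_lit 16) (nat_lit 4) (nat_lit 350) (nat_lit 306) (nat_lit 244)) (XT.lf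 (nat_lit 0) (nat_lit 16602701038) (nat_lit 152) (nat_lit 6130684902) (nat_lit 76) (nat_lit 41987311971) (nat_lit 15) (nat_lit 5) (nat_lit 17) (nat_lit 5) (nat_lit 16) (nat_lit 4) (nat_lit 351) (nat_lit 306) (nat_lit 243))))) (XT.nd (nat_lit 234) (nat_lit 152) (nat_lit 0) (XT.nd (nat_lit 78) (nat_lit 76) (nat_lit 0) (XT.lf (nat_lit 0) (nat_lit 28260545971) (nat_lit 76) (nat_lit 5129833440) (nat_lit 152) (nat_lit 35575630754) (nat_lit 14) (nat_lit 5) (nat_lit 15) (nat_lit 5) (nat_lit 16) (nat_lit 4) (nat_lit 352) (nat_lit 306) (nat_lit 242)) (XT.nd (nat_lit 78) (nat_lit 76) (nat_lit 0) (XT.lf (nat_lit 0) (nat_lit 51825466999) (nat_lit 152) (nat_lit 8181466137) (nat_lit 0) (nat_lit 13528800188) (nat_lit 14) (nat_lit 5) (nat_lit 16) (nat_lit 4) (nat_lit 14) (nat_lit 4) (nat_lit 353) (nat_lit 306) (nat_lit 241)) (XT.lf (nat_lit 0) (nat_lit 27708338854) (nat_lit 76) (nat_lit 44526787676) (nat_lit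 76) (nat_lit 6210924810) (nat_lit 13) (nat_lit 4) (nat_lit 14) (nat_lit 5) (nat_lit 14) (nat_lit 4) (nat_lit 354) (nat_lit 306) (nat_lit 240)))) (XT.nd (nat_lit 78) (nat_lit 76) (nat_lit 0) (XT.lf (nat_lit 0) (nat_lit 10317485440) (nat_lit 152) (nat_lit 17182791839) (nat_lit 76) (nat_lit 56234398544) (nat_lit 12) (nat_lit 5) (nat_lit 14) (nat_lit 5) (nat_lit 13) (nat_lit 4) (nat_lit 355) (nat_lit 306) (nat_lit 239)) (XT.nd (nat_lit 78) (nat_lit 0) (nat_lit 0) (XT.lf (nat_lit 0) (nat_lit 19544474417) (nat_lit 76) (nat_lit 8696778720) (nat_lit 152) (nat_lit 61185516234) (nat_lit 11) (nat_lit 5) (nat_lit 12) (nat_lit 5) (nat_lit 13) (nat_lit 4) (nat_lit 356) (nat_lit 306) (nat_lit 238)) (XT.lf (nat_lit 0) (nat_lit 48067618079) (nat_lit 152) (nat_lit 35953975769) (nat_lit 0) (nat_lit 11529205734) (nat_lit 11) (nat_lit 5) (nat_lit 13) (nat_lit 4) (nat_lit 11) (nat_lit 4) (nat_lit 357) (nat_lit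 306) (nat_lit 237))))))))
noncomputable def xc60 : XT := (XT.nd (nat_lit 1716) (nat_lit 152) (nat_lit 0) (XT.nd (nat_lit 858) (nat_lit 152) (nat_lit 0) (XT.nd (nat_lit 390) (nat_lit 152) (nat_lit 0) (XT.nd (nat_lit 156) (nat_lit 152) (nat_lit 0) (XT.nd (nat_lit 78) (nat_lit 0) (nat_lit 0) (XT.lf (nat_lit 0) (nat_lit 529239593) (nat_lit 76) (nat_lit 69090199539) (nat_lit 76) (nat_lit 32538349409) (nat_lit 10) (nat_lit 4) (nat_lit 11) (nat_lit 5) (nat_lit 11) (nat_lit 4) (nat_lit 358) (nat_lit 306) (nat_lit 236)) (XT.lf (nat_lit 0) (nat_lit 41186641503) (nat_lit 76) (nat_lit 52320209394) (nat_lit 76) (nat_lit 15755916871) (nat_lit 10) (nat_lit 4) (nat_lit 11) (nat_lit 5) (nat_lit 11) (nat_lit 4) (nat_lit 359) (nat_lit 306) (nat_lit 235))) (XT.nd (nat_lit 78) (nat_lit 76) (nat_lit 0) (XT.lf (nat_lit 0) (nat_lit 2279305453) (nat_lit 152) (nat_lit 31903237077) (nat_lit 76) (nat_lit 82752455306)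 (nat_lit 9) (nat_lit 5) (nat_lit 11) (nat_lit 5) (nat_lit 10) (nat_lit 4) (nat_lit 360) (nat_lit 306) (nat_lit 234)) (XT.nd (nat_lit 78) (nat_lit 0) (nat_lit 0) (XT.lf (nat_lit 0) (nat_lit 7100305624) (nat_lit 76) (nat_lit 14210321804) (nat_lit 152) (nat_lit 103892202354) (nat_lit 8) (nat_lit 5) (nat_lit 9) (nat_lit 5) (nat_lit 10) (nat_lit 4) (nat_lit 361) (nat_lit 306) (nat_lit 233)) (XT.lf (nat_lit 0) (nat_lit 42531673620) (nat_lit 152) (nat_lit 83889056765) (nat_lit 0) (nat_lit 7677999547) (nat_lit 8) (nat_lit 5) (nat_lit 10) (nat_lit 4) (nat_lit 8) (nat_lit 4) (nat_lit 362) (nat_lit 306) (nat_lit 232))))) (XT.nd (nat_lit 234) (nat_lit 76) (nat_lit 0) (XT.nd (nat_lit 78) (nat_lit 76) (nat_lit 0) (XT.lf (nat_lit 0) (nat_lit 65678412793) (nat_lit 152) (nat_lit 47200462532) (nat_lit 0) (nat_lit 30816028690) (nat_lit 8) (nat_lit 5) (nat_lit 10) (nat_lit 4) (nat_lit 8) (nat_lit 4) (nat_lit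 363) (nat_lit 306) (nat_lit 231)) (XT.nd (nat_lit 78) (nat_lit 76) (nat_lit 0) (XT.lf (nat_lit 0) (nat_lit 90666147858) (nat_lit 152) (nat_lit 7597464618) (nat_lit 0) (nat_lit 55795698914) (nat_lit 8) (nat_lit 5) (nat_lit 10) (nat_lit 4) (nat_lit 8) (nat_lit 4) (nat_lit 364) (nat_lit 306) (nat_lit 230)) (XT.lf (nat_lit 0) (nat_lit 36316991954) (nat_lit 76) (nat_lit 81892972354) (nat_lit 76) (nat_lit 47015055964) (nat_lit 7) (nat_lit 4) (nat_lit 8) (nat_lit 5) (nat_lit 8) (nat_lit 4) (nat_lit 365) (nat_lit 306) (nat_lit 229)))) (XT.nd (nat_lit 78) (nat_lit 76) (nat_lit 0) (XT.lf (nat_lit 0) (nat_lit 83997588652) (nat_lit 76) (nat_lit 64082543738) (nat_lit 76) (nat_lit 29197713046) (nat_lit 7) (nat_lit 4) (nat_lit 8) (nat_lit 5) (nat_lit 8) (nat_lit 4) (nat_lit 366) (nat_lit 306) (nat_lit 228)) (XT.nd (nat_lit 78) (nat_lit 76) (nat_lit 0) (XT.lf (nat_lit 0) (nat_lit 135475670669) (nat_lit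 76) (nat_lit 44855450090) (nat_lit 76) (nat_lit 9964217267) (nat_lit 7) (nat_lit 4) (nat_lit 8) (nat_lit 5) (nat_lit 8) (nat_lit 4) (nat_lit 367) (nat_lit 306) (nat_lit 227)) (XT.lf (nat_lit 0) (nat_lit 10453759158) (nat_lit 152) (nat_lit 13466954447) (nat_lit 76) (nat_lit 180425494678) (nat_lit 6) (nat_lit 5) (nat_lit 8) (nat_lit 5) (nat_lit 7) (nat_lit 4) (nat_lit 368) (nat_lit 306) (nat_lit 226)))))) (XT.nd (nat_lit 390) (nat_lit 76) (nat_lit 0) (XT.nd (nat_lit 156) (nat_lit 0) (nat_lit 0) (XT.nd (nat_lit 78) (nat_lit 0) (nat_lit 0) (XT.lf (nat_lit 0) (nat_lit 32036532330) (nat_lit 76) (nat_lit 616727107) (nat_lit 152) (nat_lit 186834863593) (nat_lit 5) (nat_lit 5) (nat_lit 6) (nat_lit 5) (nat_lit 7) (nat_lit 4) (nat_lit 369) (nat_lit 306) (nat_lit 225)) (XT.lf (nat_lit 0) (nat_lit 57243046200) (nat_lit 152) (nat_lit 154570042357) (nat_lit 0) (nat_lit 23997587403) (nat_lit 5) (nat_lit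 5) (nat_lit 7) (nat_lit 4) (nat_lit 5) (nat_lit 4) (nat_lit 370) (nat_lit 306) (nat_lit 224))) (XT.nd (nat_lit 78) (nat_lit 0) (nat_lit 0) (XT.lf (nat_lit 0) (nat_lit 83803541152) (nat_lit 152) (nat_lit 119081716254) (nat_lit 0) (nat_lit 50553600681) (nat_lit 5) (nat_lit 5) (nat_lit 7) (nat_lit 4) (nat_lit 5) (nat_lit 4) (nat_lit 371) (nat_lit 306) (nat_lit 223)) (XT.nd (nat_lit 78) (nat_lit 0) (nat_lit 0) (XT.lf (nat_lit 0) (nat_lit 112482510981) (nat_lit 152) (nat_lit 80766682361) (nat_lit 0) (nat_lit 79228420812) (nat_lit 5) (nat_lit 5) (nat_lit 7) (nat_lit 4) (nat_lit 5) (nat_lit 4) (nat_lit 372) (nat_lit 306) (nat_lit 222)) (XT.lf (nat_lit 0) (nat_lit 143449905138) (nat_lit 152) (nat_lit 39397888627) (nat_lit 0) (nat_lit 110191972656) (nat_lit 5) (nat_lit 5) (nat_lit 7) (nat_lit 4) (nat_lit 5) (nat_lit 4) (nat_lit 373) (nat_lit 306) (nat_lit 221))))) (XT.nd (nat_lit 234) (nat_lit 0)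 (nat_lit 0) (XT.nd (nat_lit 78) (nat_lit 0) (nat_lit 0) (XT.lf (nat_lit 0) (nat_lit 5444057184) (nat_lit 76) (nat_lit 171530173913) (nat_lit 76) (nat_lit 138268683734) (nat_lit 4) (nat_lit 4) (nat_lit 5) (nat_lit 5) (nat_lit 5) (nat_lit 4) (nat_lit 374) (nat_lit 306) (nat_lit 220)) (XT.nd (nat_lit 78) (nat_lit 0) (nat_lit 0) (XT.lf (nat_lit 0) (nat_lit 55270109761) (nat_lit 76) (nat_lit 158591468421) (nat_lit 76) (nat_lit 125326684078) (nat_lit 4) (nat_lit 4) (nat_lit 5) (nat_lit 5) (nat_lit 5) (nat_lit 4) (nat_lit 375) (nat_lit 306) (nat_lit 219)) (XT.lf (nat_lit 0) (nat_lit 109072862478) (nat_lit 76) (nat_lit 144622225787) (nat_lit 76) (nat_lit 111354391292) (nat_lit 4) (nat_lit 4) (nat_lit 5) (nat_lit 5) (nat_lit 5) (nat_lit 4) (nat_lit 376) (nat_lit 306) (nat_lit 218)))) (XT.nd (nat_lit 78) (nat_lit 0) (nat_lit 0) (XT.lf (nat_lit 0) (nat_lit 167171146460) (nat_lit 76) (nat_lit 129539665314)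 (nat_lit 76) (nat_lit 96269006604) (nat_lit 4) (nat_lit 4) (nat_lit 5) (nat_lit 5) (nat_lit 5) (nat_lit 4) (nat_lit 377) (nat_lit 306) (nat_lit 217)) (XT.nd (nat_lit 78) (nat_lit 0) (nat_lit 0) (XT.lf (nat_lit 0) (nat_lit 229909247835) (nat_lit 76) (nat_lit 113254408867) (nat_lit 76) (nat_lit 79981135143) (nat_lit 4) (nat_lit 4) (nat_lit 5) (nat_lit 5) (nat_lit 5) (nat_lit 4) (nat_lit 378) (nat_lit 306) (nat_lit 216)) (XT.lf (nat_lit 0) (nat_lit 297658947945) (nat_lit 76) (nat_lit 95669951221) (nat_lit 76) (nat_lit 62394256188) (nat_lit 4) (nat_lit 4) (nat_lit 5) (nat_lit 5) (nat_lit 5) (nat_lit 4) (nat_lit 379) (nat_lit 306) (nat_lit 215))))))) (XT.nd (nat_lit 41262) (nat_lit 0) (nat_lit 6080) (XT.nd (nat_lit 390) (nat_lit 0) (nat_lit 0) (XT.nd (nat_lit 156) (nat_lit 152) (nat_lit 0) (XT.nd (nat_lit 78) (nat_lit 0) (nat_lit 0) (XT.lf (nat_lit 0) (nat_lit 370821726494) (nat_lit 76) (nat_lit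 76682088183) (nat_lit 76) (nat_lit 43404151198) (nat_lit 4) (nat_lit 4) (nat_lit 5) (nat_lit 5) (nat_lit 5) (nat_lit 4) (nat_lit 380) (nat_lit 306) (nat_lit 214)) (XT.lf (nat_lit 0) (nat_lit 449831140688) (nat_lit 76) (nat_lit 56178299084) (nat_lit 76) (nat_lit 22898286216) (nat_lit 4) (nat_lit 4) (nat_lit 5) (nat_lit 5) (nat_lit 5) (nat_lit 4) (nat_lit 381) (nat_lit 306) (nat_lit 213))) (XT.nd (nat_lit 78) (nat_lit 152) (nat_lit 0) (XT.lf (nat_lit 0) (nat_lit 535155394463) (nat_lit 76) (nat_lit 34037079987) (nat_lit 76) (nat_lit 755145006) (nat_lit 4) (nat_lit 4) (nat_lit 5) (nat_lit 5) (nat_lit 5) (nat_lit 4) (nat_lit 382) (nat_lit 306) (nat_lit 212)) (XT.nd (nat_lit 78) (nat_lit 0) (nat_lit 0) (XT.lf (nat_lit 0) (nat_lit 13086582006) (nat_lit 76) (nat_lit 9533074930) (nat_lit 152) (nat_lit 591622895916) (nat_lit 2) (nat_lit 5) (nat_lit 3) (nat_lit 5) (nat_lit 4) (nat_lit 4) (nat_lit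 383) (nat_lit 306) (nat_lit 211)) (XT.lf (nat_lit 0) (nat_lit 48715904336) (nat_lit 152) (nat_lit 596305103161) (nat_lit 0) (nat_lit 17015558987) (nat_lit 2) (nat_lit 5) (nat_lit 4) (nat_lit 4) (nat_lit 2) (nat_lit 4) (nat_lit 384) (nat_lit 306) (nat_lit 210))))) (XT.nd (nat_lit 234) (nat_lit 0) (nat_lit 0) (XT.nd (nat_lit 78) (nat_lit 0) (nat_lit 0) (XT.lf (nat_lit 0) (nat_lit 77058028477) (nat_lit 152) (nat_lit 591231934328) (nat_lit 0) (nat_lit 45356229950) (nat_lit 2) (nat_lit 5) (nat_lit 4) (nat_lit 4) (nat_lit 2) (nat_lit 4) (nat_lit 385) (nat_lit 306) (nat_lit 209)) (XT.nd (nat_lit 78) (nat_lit 0) (nat_lit 0) (XT.lf (nat_lit 0) (nat_lit 107665144670) (nat_lit 152) (nat_lit 585757563111) (nat_lit 0) (nat_lit 75962000610) (nat_lit 2) (nat_lit 5) (nat_lit 4) (nat_lit 4) (nat_lit 2) (nat_lit 4) (nat_lit 386) (nat_lit 306) (nat_lit 208)) (XT.lf (nat_lit 0) (nat_lit 140718628419) (nat_lit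 152) (nat_lit 579849548792) (nat_lit 0) (nat_lit 109014238494) (nat_lit 2) (nat_lit 5) (nat_lit 4) (nat_lit 4) (nat_lit 2) (nat_lit 4) (nat_lit 387) (nat_lit 306) (nat_lit 207)))) (XT.nd (nat_lit 78) (nat_lit 0) (nat_lit 0) (XT.lf (nat_lit 0) (nat_lit 176414352220) (nat_lit 152) (nat_lit 573472880914) (nat_lit 0) (nat_lit 144708808717) (nat_lit 2) (nat_lit 5) (nat_lit 4) (nat_lit 4) (nat_lit 2) (nat_lit 4) (nat_lit 388) (nat_lit 306) (nat_lit 206)) (XT.nd (nat_lit 40482) (nat_lit 0) (nat_lit 9348) (XT.lf (nat_lit 0) (nat_lit 214963846290) (nat_lit 152) (nat_lit 566589771817) (nat_lit 0) (nat_lit 183257234658) (nat_lit 2) (nat_lit 5) (nat_lit 4) (nat_lit 4) (nat_lit 2) (nat_lit 4) (nat_lit 389) (nat_lit 306) (nat_lit 205)) (XT.lf (nat_lit 0) (nat_lit 1338222667) (nat_lit 0) (nat_lit 1338222667) (nat_lit 532) (nat_lit 1257581185) (nat_lit 125) (nat_lit 5) (nat_lit 125) (nat_lit 3) (nat_lit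 132) (nat_lit 3) (nat_lit 307) (nat_lit 307) (nat_lit 286)))))) (XT.nd (nat_lit 390) (nat_lit 2660) (nat_lit 0) (XT.nd (nat_lit 156) (nat_lit 0) (nat_lit 76) (XT.nd (nat_lit 78) (nat_lit 608) (nat_lit 0) (XT.lf (nat_lit 76) (nat_lit 762860674) (nat_lit 0) (nat_lit 6729477694) (nat_lit 608) (nat_lit 591245050) (nat_lit 126) (nat_lit 5) (nat_lit 125) (nat_lit 5) (nat_lit 133) (nat_lit 5) (nat_lit 308) (nat_lit 307) (nat_lit 285)) (XT.lf (nat_lit 0) (nat_lit 1383164187) (nat_lit 608) (nat_lit 1118604085) (nat_lit 684) (nat_lit 5816498259) (nat_lit 117) (nat_lit 5) (nat_lit 125) (nat_lit 5) (nat_lit 126) (nat_lit 5) (nat_lit 309) (nat_lit 307) (nat_lit 284))) (XT.nd (nat_lit 78) (nat_lit 0) (nat_lit 0) (XT.lf (nat_lit 0) (nat_lit 3439536102) (nat_lit 608) (nat_lit 2968062878) (nat_lit 684) (nat_lit 2166662544) (nat_lit 118) (nat_lit 5) (nat_lit 126) (nat_lit 5) (nat_lit 127) (nat_lit 5) (nat_lit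 310) (nat_lit 307) (nat_lit 283)) (XT.nd (nat_lit 78) (nat_lit 0) (nat_lit 76) (XT.lf (nat_lit 76) (nat_lit 4033407423) (nat_lit 0) (nat_lit 1585999941) (nat_lit 684) (nat_lit 3233618229) (nat_lit 119) (nat_lit 5) (nat_lit 118) (nat_lit 5) (nat_lit 127) (nat_lit 5) (nat_lit 311) (nat_lit 307) (nat_lit 282)) (XT.lf (nat_lit 76) (nat_lit 2454443334) (nat_lit 0) (nat_lit 5512025738) (nat_lit 684) (nat_lit 1188202934) (nat_lit 120) (nat_lit 5) (nat_lit 119) (nat_lit 5) (nat_lit 128) (nat_lit 5) (nat_lit 312) (nat_lit 307) (nat_lit 281))))) (XT.nd (nat_lit 234) (nat_lit 1520) (nat_lit 0) (XT.nd (nat_lit 78) (nat_lit 608) (nat_lit 0) (XT.lf (nat_lit 76) (nat_lit 873972968) (nat_lit 0) (nat_lit 92453223) (nat_lit 760) (nat_lit 8514509437) (nat_lit 111) (nat_lit 5) (nat_lit 110) (nat_lit 5) (nat_lit 120) (nat_lit 5) (nat_lit 313) (nat_lit 307) (nat_lit 280)) (XT.nd (nat_lit 78) (nat_lit 684) (nat_lit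 0) (XT.lf (nat_lit 0) (nat_lit 3323066558) (nat_lit 684) (nat_lit 764673126) (nat_lit 76) (nat_lit 5741203890) (nat_lit 111) (nat_lit 5) (nat_lit 120) (nat_lit 5) (nat_lit 112) (nat_lit 5) (nat_lit 314) (nat_lit 307) (nat_lit 279)) (XT.lf (nat_lit 0) (nat_lit 5895543853) (nat_lit 760) (nat_lit 2391436656) (nat_lit 76) (nat_lit 1916613638) (nat_lit 102) (nat_lit 5) (nat_lit 112) (nat_lit 5) (nat_lit 103) (nat_lit 5) (nat_lit 315) (nat_lit 307) (nat_lit 278)))) (XT.nd (nat_lit 78) (nat_lit 760) (nat_lit 0) (XT.lf (nat_lit 0) (nat_lit 6523021509) (nat_lit 760) (nat_lit 2215506204) (nat_lit 836) (nat_lit 1866608519) (nat_lit 92) (nat_lit 5) (nat_lit 102) (nat_lit 5) (nat_lit 103) (nat_lit 5) (nat_lit 316) (nat_lit 307) (nat_lit 277)) (XT.nd (nat_lit 78) (nat_lit 304) (nat_lit 0) (XT.lf (nat_lit 0) (nat_lit 825402538) (nat_lit 456) (nat_lit 5864054025) (nat_lit 76) (nat_lit 4344885319) (nat_lit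 86) (nat_lit 5) (nat_lit 92) (nat_lit 5) (nat_lit 87) (nat_lit 5) (nat_lit 317) (nat_lit 307) (nat_lit 276)) (XT.lf (nat_lit 0) (nat_lit 3729320858) (nat_lit 380) (nat_lit 7740629678) (nat_lit 76) (nat_lit 23432745) (nat_lit 82) (nat_lit 5) (nat_lit 87) (nat_lit 5) (nat_lit 83) (nat_lit 5) (nat_lit 318) (nat_lit 307) (nat_lit 275))))))))
noncomputable def xc61 : XT := (XT.nd (nat_lit 1716) (nat_lit 1520) (nat_lit 0) (XT.nd (nat_lit 858) (nat_lit 1520) (nat_lit 0) (XT.nd (nat_lit 390) (nat_lit 1292) (nat_lit 0) (XT.nd (nat_lit 156) (nat_lit 608) (nat_lit 0) (XT.nd (nat_lit 78) (nat_lit 304) (nat_lit 0) (XT.lf (nat_lit 0) (nat_lit 2208936121) (nat_lit 380) (nat_lit 4806407933) (nat_lit 456) (nat_lit 4966431466) (nat_lit 77) (nat_lit 5) (nat_lit 82) (nat_lit 5) (nat_lit 83) (nat_lit 5) (nat_lit 319) (nat_lit 307) (nat_lit 274)) (XT.lf (nat_lit 0) (nat_lit 596529662) (nat_lit 304) (nat_lit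 10055746150) (nat_lit 380) (nat_lit 1852670414) (nat_lit 73) (nat_lit 5) (nat_lit 77) (nat_lit 5) (nat_lit 78) (nat_lit 5) (nat_lit 320) (nat_lit 307) (nat_lit 273))) (XT.nd (nat_lit 78) (nat_lit 532) (nat_lit 0) (XT.lf (nat_lit 0) (nat_lit 1624121077) (nat_lit 380) (nat_lit 1134148314) (nat_lit 76) (nat_lit 10302504638) (nat_lit 72) (nat_lit 5) (nat_lit 77) (nat_lit 5) (nat_lit 73) (nat_lit 5) (nat_lit 321) (nat_lit 307) (nat_lit 272)) (XT.nd (nat_lit 78) (nat_lit 228) (nat_lit 0) (XT.lf (nat_lit 0) (nat_lit 5480233938) (nat_lit 380) (nat_lit 3026368565) (nat_lit 76) (nat_lit 5144731172) (nat_lit 68) (nat_lit 5) (nat_lit 73) (nat_lit 5) (nat_lit 69) (nat_lit 5) (nat_lit 322) (nat_lit 307) (nat_lit 271)) (XT.lf (nat_lit 0) (nat_lit 9224571525) (nat_lit 228) (nat_lit 550383902) (nat_lit 304) (nat_lit 4507758656) (nat_lit 65) (nat_lit 5) (nat_lit 68) (nat_lit 5) (nat_lit 69) (nat_lit 5) (nat_lit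 323) (nat_lit 307) (nat_lit 270))))) (XT.nd (nat_lit 234) (nat_lit 456) (nat_lit 0) (XT.nd (nat_lit 78) (nat_lit 532) (nat_lit 0) (XT.lf (nat_lit 0) (nat_lit 7618950998) (nat_lit 304) (nat_lit 7016043341) (nat_lit 380) (nat_lit 318599499) (nat_lit 61) (nat_lit 5) (nat_lit 65) (nat_lit 5) (nat_lit 66) (nat_lit 5) (nat_lit 324) (nat_lit 307) (nat_lit 269)) (XT.nd (nat_lit 78) (nat_lit 228) (nat_lit 0) (XT.lf (nat_lit 0) (nat_lit 4213103535) (nat_lit 304) (nat_lit 9865768875) (nat_lit 76) (nat_lit 1588954386) (nat_lit 57) (nat_lit 5) (nat_lit 61) (nat_lit 5) (nat_lit 58) (nat_lit 5) (nat_lit 325) (nat_lit 307) (nat_lit 268)) (XT.lf (nat_lit 0) (nat_lit 3714740719) (nat_lit 228) (nat_lit 5617888674) (nat_lit 304) (nat_lit 7094547386) (nat_lit 54) (nat_lit 5) (nat_lit 57) (nat_lit 5) (nat_lit 58) (nat_lit 5) (nat_lit 326) (nat_lit 307) (nat_lit 267)))) (XT.nd (nat_lit 78) (nat_lit 304) (nat_lit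 0) (XT.lf (nat_lit 0) (nat_lit 1385990579) (nat_lit 152) (nat_lit 13660439294) (nat_lit 228) (nat_lit 2191666641) (nat_lit 52) (nat_lit 5) (nat_lit 54) (nat_lit 5) (nat_lit 55) (nat_lit 5) (nat_lit 327) (nat_lit 307) (nat_lit 266)) (XT.nd (nat_lit 78) (nat_lit 228) (nat_lit 0) (XT.lf (nat_lit 0) (nat_lit 3259772106) (nat_lit 228) (nat_lit 1277292643) (nat_lit 76) (nat_lit 13561670151) (nat_lit 51) (nat_lit 5) (nat_lit 54) (nat_lit 5) (nat_lit 52) (nat_lit 5) (nat_lit 328) (nat_lit 307) (nat_lit 265)) (XT.lf (nat_lit 0) (nat_lit 9330426457) (nat_lit 304) (nat_lit 4291069676) (nat_lit 76) (nat_lit 5391984338) (nat_lit 48) (nat_lit 5) (nat_lit 52) (nat_lit 5) (nat_lit 49) (nat_lit 5) (nat_lit 329) (nat_lit 307) (nat_lit 264)))))) (XT.nd (nat_lit 390) (nat_lit 684) (nat_lit 0) (XT.nd (nat_lit 156) (nat_lit 380) (nat_lit 0) (XT.nd (nat_lit 78) (nat_lit 304) (nat_lit 0) (XT.lf (nat_lit 0) (nat_lit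 12277895872) (nat_lit 152) (nat_lit 3842936252) (nat_lit 228) (nat_lit 3868911998) (nat_lit 46) (nat_lit 5) (nat_lit 48) (nat_lit 5) (nat_lit 49) (nat_lit 5) (nat_lit 330) (nat_lit 307) (nat_lit 263)) (XT.lf (nat_lit 0) (nat_lit 2610980125) (nat_lit 304) (nat_lit 11676930994) (nat_lit 76) (nat_lit 6740466111) (nat_lit 42) (nat_lit 5) (nat_lit 46) (nat_lit 5) (nat_lit 43) (nat_lit 5) (nat_lit 331) (nat_lit 307) (nat_lit 262))) (XT.nd (nat_lit 78) (nat_lit 228) (nat_lit 0) (XT.lf (nat_lit 0) (nat_lit 5885654977) (nat_lit 152) (nat_lit 3830753423) (nat_lit 228) (nat_lit 12418422137) (nat_lit 40) (nat_lit 5) (nat_lit 42) (nat_lit 5) (nat_lit 43) (nat_lit 5) (nat_lit 332) (nat_lit 307) (nat_lit 261)) (XT.nd (nat_lit 78) (nat_lit 76) (nat_lit 0) (XT.lf (nat_lit 0) (nat_lit 1807825878) (nat_lit 152) (nat_lit 15883775312) (nat_lit 228) (nat_lit 5623165208) (nat_lit 38) (nat_lit 5) (nat_lit 40)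 (nat_lit 5) (nat_lit 41) (nat_lit 5) (nat_lit 333) (nat_lit 307) (nat_lit 260)) (XT.lf (nat_lit 0) (nat_lit 1964628648) (nat_lit 228) (nat_lit 2860226247) (nat_lit 76) (nat_lit 19747740307) (nat_lit 37) (nat_lit 5) (nat_lit 40) (nat_lit 5) (nat_lit 38) (nat_lit 5) (nat_lit 334) (nat_lit 307) (nat_lit 259))))) (XT.nd (nat_lit 234) (nat_lit 228) (nat_lit 0) (XT.nd (nat_lit 78) (nat_lit 304) (nat_lit 0) (XT.lf (nat_lit 0) (nat_lit 10312962619) (nat_lit 228) (nat_lit 8355466060) (nat_lit 76) (nat_lit 7240513014) (nat_lit 35) (nat_lit 5) (nat_lit 38) (nat_lit 5) (nat_lit 36) (nat_lit 5) (nat_lit 335) (nat_lit 307) (nat_lit 258)) (XT.nd (nat_lit 78) (nat_lit 152) (nat_lit 0) (XT.lf (nat_lit 0) (nat_lit 12602272831) (nat_lit 152) (nat_lit 7012585282) (nat_lit 228) (nat_lit 7723077847) (nat_lit 33) (nat_lit 5) (nat_lit 35) (nat_lit 5) (nat_lit 36) (nat_lit 5) (nat_lit 336) (nat_lit 307) (nat_lit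 257)) (XT.lf (nat_lit 0) (nat_lit 1058051900) (nat_lit 152) (nat_lit 22166996076) (nat_lit 76) (nat_lit 5640447516) (nat_lit 31) (nat_lit 5) (nat_lit 33) (nat_lit 5) (nat_lit 32) (nat_lit 5) (nat_lit 337) (nat_lit 307) (nat_lit 256)))) (XT.nd (nat_lit 78) (nat_lit 228) (nat_lit 0) (XT.lf (nat_lit 0) (nat_lit 10613831949) (nat_lit 152) (nat_lit 449938085) (nat_lit 76) (nat_lit 19428042660) (nat_lit 31) (nat_lit 5) (nat_lit 33) (nat_lit 5) (nat_lit 32) (nat_lit 5) (nat_lit 338) (nat_lit 307) (nat_lit 255)) (XT.nd (nat_lit 78) (nat_lit 76) (nat_lit 0) (XT.lf (nat_lit 0) (nat_lit 21305019505) (nat_lit 228) (nat_lit 8569930082) (nat_lit 76) (nat_lit 2354757176) (nat_lit 29) (nat_lit 5) (nat_lit 32) (nat_lit 5) (nat_lit 30) (nat_lit 4) (nat_lit 339) (nat_lit 307) (nat_lit 254)) (XT.lf (nat_lit 0) (nat_lit 15867266792) (nat_lit 76) (nat_lit 17390838806) (nat_lit 152) (nat_lit 828213943) (nat_lit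 28) (nat_lit 5) (nat_lit 29) (nat_lit 5) (nat_lit 30) (nat_lit 4) (nat_lit 340) (nat_lit 307) (nat_lit 253))))))) (XT.nd (nat_lit 858) (nat_lit 532) (nat_lit 0) (XT.nd (nat_lit 390) (nat_lit 456) (nat_lit 0) (XT.nd (nat_lit 156) (nat_lit 304) (nat_lit 0) (XT.nd (nat_lit 78) (nat_lit 0) (nat_lit 0) (XT.lf (nat_lit 0) (nat_lit 6468277136) (nat_lit 152) (nat_lit 3503416310) (nat_lit 228) (nat_lit 26101006970) (nat_lit 25) (nat_lit 5) (nat_lit 27) (nat_lit 5) (nat_lit 28) (nat_lit 5) (nat_lit 341) (nat_lit 307) (nat_lit 252)) (XT.lf (nat_lit 0) (nat_lit 22075756584) (nat_lit 228) (nat_lit 4678668461) (nat_lit 76) (nat_lit 11439443040) (nat_lit 25) (nat_lit 5) (nat_lit 28) (nat_lit 5) (nat_lit 26) (nat_lit 4) (nat_lit 342) (nat_lit 307) (nat_lit 251))) (XT.nd (nat_lit 78) (nat_lit 228) (nat_lit 0) (XT.lf (nat_lit 0) (nat_lit 22858982804) (nat_lit 76) (nat_lit 12674347097) (nat_lit 152) (nat_lit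 4932153132) (nat_lit 24) (nat_lit 5) (nat_lit 25) (nat_lit 5) (nat_lit 26) (nat_lit 4) (nat_lit 343) (nat_lit 307) (nat_lit 250)) (XT.nd (nat_lit 78) (nat_lit 0) (nat_lit 0) (XT.lf (nat_lit 0) (nat_lit 7174039470) (nat_lit 228) (nat_lit 32941777294) (nat_lit 76) (nat_lit 2784733436) (nat_lit 21) (nat_lit 5) (nat_lit 24) (nat_lit 5) (nat_lit 22) (nat_lit 4) (nat_lit 344) (nat_lit 307) (nat_lit 249)) (XT.lf (nat_lit 0) (nat_lit 20574920614) (nat_lit 228) (nat_lit 5511102013) (nat_lit 76) (nat_lit 19415418494) (nat_lit 21) (nat_lit 5) (nat_lit 24) (nat_lit 5) (nat_lit 22) (nat_lit 4) (nat_lit 345) (nat_lit 307) (nat_lit 248))))) (XT.nd (nat_lit 234) (nat_lit 228) (nat_lit 0) (XT.nd (nat_lit 78) (nat_lit 152) (nat_lit 0) (XT.lf (nat_lit 0) (nat_lit 24861511304) (nat_lit 76) (nat_lit 10547895961) (nat_lit 152) (nat_lit 12882929222) (nat_lit 20) (nat_lit 5) (nat_lit 21) (nat_lit 5) (nat_lit 22)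 (nat_lit 4) (nat_lit 346) (nat_lit 307) (nat_lit 247)) (XT.nd (nat_lit 78) (nat_lit 0) (nat_lit 0) (XT.lf (nat_lit 0) (nat_lit 397269526) (nat_lit 152) (nat_lit 44674203993) (nat_lit 76) (nat_lit 6221087110) (nat_lit 18) (nat_lit 5) (nat_lit 20) (nat_lit 5) (nat_lit 19) (nat_lit 4) (nat_lit 347) (nat_lit 307) (nat_lit 246)) (XT.lf (nat_lit 0) (nat_lit 14862355580) (nat_lit 152) (nat_lit 15051873929) (nat_lit 76) (nat_lit 24579330193) (nat_lit 18) (nat_lit 5) (nat_lit 20) (nat_lit 5) (nat_lit 19) (nat_lit 4) (nat_lit 348) (nat_lit 307) (nat_lit 245)))) (XT.nd (nat_lit 78) (nat_lit 152) (nat_lit 0) (XT.lf (nat_lit 0) (nat_lit 17456475977) (nat_lit 76) (nat_lit 13277656588) (nat_lit 152) (nat_lit 27204039434) (nat_lit 17) (nat_lit 5) (nat_lit 18) (nat_lit 5) (nat_lit 19) (nat_lit 4) (nat_lit 349) (nat_lit 307) (nat_lit 244)) (XT.nd (nat_lit 78) (nat_lit 152) (nat_lit 0) (XT.lf (nat_lit 0)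 (nat_lit 48193087575) (nat_lit 152) (nat_lit 8661223652) (nat_lit 0) (nat_lit 4788177205) (nat_lit 17) (nat_lit 5) (nat_lit 19) (nat_lit 4) (nat_lit 17) (nat_lit 4) (nat_lit 350) (nat_lit 307) (nat_lit 243)) (XT.lf (nat_lit 0) (nat_lit 1984296393) (nat_lit 152) (nat_lit 39360612555) (nat_lit 76) (nat_lit 24265966290) (nat_lit 15) (nat_lit 5) (nat_lit 17) (nat_lit 5) (nat_lit 16) (nat_lit 4) (nat_lit 351) (nat_lit 307) (nat_lit 242)))))) (XT.nd (nat_lit 390) (nat_lit 304) (nat_lit 0) (XT.nd (nat_lit 156) (nat_lit 152) (nat_lit 0) (XT.nd (nat_lit 78) (nat_lit 76) (nat_lit 0) (XT.lf (nat_lit 0) (nat_lit 18321132492) (nat_lit 152) (nat_lit 5891866880) (nat_lit 76) (nat_lit 45665732961) (nat_lit 15) (nat_lit 5) (nat_lit 17) (nat_lit 5) (nat_lit 16) (nat_lit 4) (nat_lit 352) (nat_lit 307) (nat_lit 241)) (XT.lf (nat_lit 0) (nat_lit 31218969156) (nat_lit 76) (nat_lit 5214842309) (nat_lit 152) (nat_lit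 38030766982) (nat_lit 14) (nat_lit 5) (nat_lit 15) (nat_lit 5) (nat_lit 16) (nat_lit 4) (nat_lit 353) (nat_lit 307) (nat_lit 240))) (XT.nd (nat_lit 78) (nat_lit 152) (nat_lit 0) (XT.lf (nat_lit 0) (nat_lit 56320839321) (nat_lit 152) (nat_lit 8177453817) (nat_lit 0) (nat_lit 14902737245) (nat_lit 14) (nat_lit 5) (nat_lit 16) (nat_lit 4) (nat_lit 14) (nat_lit 4) (nat_lit 354) (nat_lit 307) (nat_lit 239)) (XT.nd (nat_lit 78) (nat_lit 76) (nat_lit 0) (XT.lf (nat_lit 0) (nat_lit 30554916678) (nat_lit 76) (nat_lit 47792312944) (nat_lit 76) (nat_lit 6357753344) (nat_lit 13) (nat_lit 4) (nat_lit 14) (nat_lit 5) (nat_lit 14) (nat_lit 4) (nat_lit 355) (nat_lit 307) (nat_lit 238)) (XT.lf (nat_lit 0) (nat_lit 11456626691) (nat_lit 152) (nat_lit 17963713329) (nat_lit 76) (nat_lit 60997345295) (nat_lit 12) (nat_lit 5) (nat_lit 14) (nat_lit 5) (nat_lit 13) (nat_lit 4) (nat_lit 356) (nat_lit 307) (nat_lit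 237))))) (XT.nd (nat_lit 234) (nat_lit 152) (nat_lit 0) (XT.nd (nat_lit 78) (nat_lit 76) (nat_lit 0) (XT.lf (nat_lit 0) (nat_lit 21675932669) (nat_lit 76) (nat_lit 9123989472) (nat_lit 152) (nat_lit 65765948627) (nat_lit 11) (nat_lit 5) (nat_lit 12) (nat_lit 5) (nat_lit 13) (nat_lit 4) (nat_lit 357) (nat_lit 307) (nat_lit 236)) (XT.nd (nat_lit 78) (nat_lit 76) (nat_lit 0) (XT.lf (nat_lit 0) (nat_lit 52194102787) (nat_lit 152) (nat_lit 38294416126) (nat_lit 0) (nat_lit 12692224469) (nat_lit 11) (nat_lit 5) (nat_lit 13) (nat_lit 4) (nat_lit 11) (nat_lit 4) (nat_lit 358) (nat_lit 307) (nat_lit 235)) (XT.lf (nat_lit 0) (nat_lit 1084167873) (nat_lit 76) (nat_lit 74373084214) (nat_lit 76) (nat_lit 34859685161) (nat_lit 10) (nat_lit 4) (nat_lit 11) (nat_lit 5) (nat_lit 11) (nat_lit 4) (nat_lit 359) (nat_lit 307) (nat_lit 234)))) (XT.nd (nat_lit 78) (nat_lit 152) (nat_lit 0) (XT.lf (nat_lit 0)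 (nat_lit 44956192372) (nat_lit 76) (nat_lit 56279593471) (nat_lit 76) (nat_lit 16755527072) (nat_lit 10) (nat_lit 4) (nat_lit 11) (nat_lit 5) (nat_lit 11) (nat_lit 4) (nat_lit 360) (nat_lit 307) (nat_lit 233)) (XT.nd (nat_lit 78) (nat_lit 76) (nat_lit 0) (XT.lf (nat_lit 0) (nat_lit 2695459055) (nat_lit 152) (nat_lit 34008252509) (nat_lit 76) (nat_lit 89574345439) (nat_lit 9) (nat_lit 5) (nat_lit 11) (nat_lit 5) (nat_lit 10) (nat_lit 4) (nat_lit 361) (nat_lit 307) (nat_lit 232)) (XT.lf (nat_lit 0) (nat_lit 8096136950) (nat_lit 76) (nat_lit 15142509904) (nat_lit 152) (nat_lit 111969204364) (nat_lit 8) (nat_lit 5) (nat_lit 9) (nat_lit 5) (nat_lit 10) (nat_lit 4) (nat_lit 362) (nat_lit 307) (nat_lit 231))))))))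
noncomputable def xc62 : XT := (XT.nd (nat_lit 1716) (nat_lit 0) (nat_lit 0) (XT.nd (nat_lit 858) (nat_lit 228) (nat_lit 0) (XT.nd (nat_lit 390) (nat_lit 152) (nat_lit 0) (XT.nd (nat_lit 156) (nat_lit 76) (nat_lit 0) (XT.nd (nat_lit 78) (nat_lit 0) (nat_lit 0) (XT.lf (nat_lit 0) (nat_lit 46143803991) (nat_lit 152) (nat_lit 90196647182) (nat_lit 0) (nat_lit 8475654290) (nat_lit 8) (nat_lit 5) (nat_lit 10) (nat_lit 4) (nat_lit 8) (nat_lit 4) (nat_lit 363) (nat_lit 307) (nat_lit 230)) (XT.lf (nat_lit 0) (nat_lit 71126756632) (nat_lit 152) (nat_lit 50602856826) (nat_lit 0) (nat_lit 33451139484) (nat_lit 8) (nat_lit 5) (nat_lit 10) (nat_lit 4) (nat_lit 8) (nat_lit 4) (nat_lit 364) (nat_lit 307) (nat_lit 229))) (XT.nd (nat_lit 78) (nat_lit 76) (nat_lit 0) (XT.lf (nat_lit 0) (nat_lit 98099134887) (nat_lit 152) (nat_lit 7859296317) (nat_lit 0) (nat_lit 60416603438) (nat_lit 8) (nat_lit 5) (nat_lit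 10) (nat_lit 4) (nat_lit 8) (nat_lit 4) (nat_lit 365) (nat_lit 307) (nat_lit 228)) (XT.nd (nat_lit 78) (nat_lit 0) (nat_lit 0) (XT.lf (nat_lit 0) (nat_lit 39553281543) (nat_lit 76) (nat_lit 88285031102) (nat_lit 76) (nat_lit 50596097521) (nat_lit 7) (nat_lit 4) (nat_lit 8) (nat_lit 5) (nat_lit 8) (nat_lit 4) (nat_lit 366) (nat_lit 307) (nat_lit 227)) (XT.lf (nat_lit 0) (nat_lit 91023812626) (nat_lit 76) (nat_lit 69061574052) (nat_lit 76) (nat_lit 31366712572) (nat_lit 7) (nat_lit 4) (nat_lit 8) (nat_lit 5) (nat_lit 8) (nat_lit 4) (nat_lit 367) (nat_lit 307) (nat_lit 226))))) (XT.nd (nat_lit 234) (nat_lit 0) (nat_lit 0) (XT.nd (nat_lit 78) (nat_lit 152) (nat_lit 0) (XT.lf (nat_lit 0) (nat_lit 146597443658) (nat_lit 76) (nat_lit 48307244258) (nat_lit 76) (nat_lit 10606893983) (nat_lit 7) (nat_lit 4) (nat_lit 8) (nat_lit 5) (nat_lit 8) (nat_lit 4) (nat_lit 368) (nat_lit 307) (nat_lit 225))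 (XT.nd (nat_lit 78) (nat_lit 76) (nat_lit 0) (XT.lf (nat_lit 0) (nat_lit 11428501519) (nat_lit 152) (nat_lit 14277004377) (nat_lit 76) (nat_lit 194981451136) (nat_lit 6) (nat_lit 5) (nat_lit 8) (nat_lit 5) (nat_lit 7) (nat_lit 4) (nat_lit 369) (nat_lit 307) (nat_lit 224)) (XT.lf (nat_lit 0) (nat_lit 34855144530) (nat_lit 76) (nat_lit 542554387) (nat_lit 152) (nat_lit 201642841102) (nat_lit 5) (nat_lit 5) (nat_lit 6) (nat_lit 5) (nat_lit 7) (nat_lit 4) (nat_lit 370) (nat_lit 307) (nat_lit 223)))) (XT.nd (nat_lit 78) (nat_lit 0) (nat_lit 0) (XT.lf (nat_lit 0) (nat_lit 61946663114) (nat_lit 152) (nat_lit 166694540082) (nat_lit 0) (nat_lit 26028096034) (nat_lit 5) (nat_lit 5) (nat_lit 7) (nat_lit 4) (nat_lit 5) (nat_lit 4) (nat_lit 371) (nat_lit 307) (nat_lit 222)) (XT.nd (nat_lit 78) (nat_lit 0) (nat_lit 0) (XT.lf (nat_lit 0) (nat_lit 90622799646) (nat_lit 152) (nat_lit 128385007569) (nat_lit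 0) (nat_lit 54700390253) (nat_lit 5) (nat_lit 5) (nat_lit 7) (nat_lit 4) (nat_lit 5) (nat_lit 4) (nat_lit 372) (nat_lit 307) (nat_lit 221)) (XT.lf (nat_lit 0) (nat_lit 121587570380) (nat_lit 152) (nat_lit 87021307705) (nat_lit 0) (nat_lit 85661603289) (nat_lit 5) (nat_lit 5) (nat_lit 7) (nat_lit 4) (nat_lit 5) (nat_lit 4) (nat_lit 373) (nat_lit 307) (nat_lit 220)))))) (XT.nd (nat_lit 390) (nat_lit 152) (nat_lit 0) (XT.nd (nat_lit 156) (nat_lit 0) (nat_lit 0) (XT.nd (nat_lit 78) (nat_lit 76) (nat_lit 0) (XT.lf (nat_lit 0) (nat_lit 155024470253) (nat_lit 152) (nat_lit 42358322268) (nat_lit 0) (nat_lit 119095208998) (nat_lit 5) (nat_lit 5) (nat_lit 7) (nat_lit 4) (nat_lit 5) (nat_lit 4) (nat_lit 374) (nat_lit 307) (nat_lit 219)) (XT.lf (nat_lit 0) (nat_lit 6062661308) (nat_lit 76) (nat_lit 185163637683) (nat_lit 76) (nat_lit 149231326277) (nat_lit 4) (nat_lit 4) (nat_lit 5) (nat_lit 5) (nat_lit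 5) (nat_lit 4) (nat_lit 375) (nat_lit 307) (nat_lit 218))) (XT.nd (nat_lit 78) (nat_lit 0) (nat_lit 0) (XT.lf (nat_lit 0) (nat_lit 59861236644) (nat_lit 76) (nat_lit 171196424651) (nat_lit 76) (nat_lit 135261289030) (nat_lit 4) (nat_lit 4) (nat_lit 5) (nat_lit 5) (nat_lit 5) (nat_lit 4) (nat_lit 376) (nat_lit 307) (nat_lit 217)) (XT.nd (nat_lit 78) (nat_lit 0) (nat_lit 0) (XT.lf (nat_lit 0) (nat_lit 117955652681) (nat_lit 76) (nat_lit 156115743440) (nat_lit 76) (nat_lit 120177992805) (nat_lit 4) (nat_lit 4) (nat_lit 5) (nat_lit 5) (nat_lit 5) (nat_lit 4) (nat_lit 377) (nat_lit 307) (nat_lit 216)) (XT.lf (nat_lit 0) (nat_lit 180690172626) (nat_lit 76) (nat_lit 139832227049) (nat_lit 76) (nat_lit 103892055105) (nat_lit 4) (nat_lit 4) (nat_lit 5) (nat_lit 5) (nat_lit 5) (nat_lit 4) (nat_lit 378) (nat_lit 307) (nat_lit 215))))) (XT.nd (nat_lit 234) (nat_lit 152) (nat_lit 0) (XT.nd (nat_lit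 78) (nat_lit 0) (nat_lit 0) (XT.lf (nat_lit 0) (nat_lit 248436556596) (nat_lit 76) (nat_lit 122249380566) (nat_lit 76) (nat_lit 86306966669) (nat_lit 4) (nat_lit 4) (nat_lit 5) (nat_lit 5) (nat_lit 5) (nat_lit 4) (nat_lit 379) (nat_lit 307) (nat_lit 214)) (XT.nd (nat_lit 78) (nat_lit 0) (nat_lit 0) (XT.lf (nat_lit 0) (nat_lit 321596264645) (nat_lit 76) (nat_lit 103263009346) (nat_lit 76) (nat_lit 67318519567) (nat_lit 4) (nat_lit 4) (nat_lit 5) (nat_lit 5) (nat_lit 5) (nat_lit 4) (nat_lit 380) (nat_lit 307) (nat_lit 213)) (XT.lf (nat_lit 0) (nat_lit 400602835784) (nat_lit 76) (nat_lit 82760601560) (nat_lit 76) (nat_lit 46814189668) (nat_lit 4) (nat_lit 4) (nat_lit 5) (nat_lit 5) (nat_lit 5) (nat_lit 4) (nat_lit 381) (nat_lit 307) (nat_lit 212)))) (XT.nd (nat_lit 78) (nat_lit 152) (nat_lit 0) (XT.lf (nat_lit 0) (nat_lit 485924457101) (nat_lit 76) (nat_lit 60620661457) (nat_lit 76) (nat_lit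 24672469830) (nat_lit 4) (nat_lit 4) (nat_lit 5) (nat_lit 5) (nat_lit 5) (nat_lit 4) (nat_lit 382) (nat_lit 307) (nat_lit 211)) (XT.nd (nat_lit 78) (nat_lit 152) (nat_lit 0) (XT.lf (nat_lit 0) (nat_lit 578066738204) (nat_lit 76) (nat_lit 36711989392) (nat_lit 76) (nat_lit 762149863) (nat_lit 4) (nat_lit 4) (nat_lit 5) (nat_lit 5) (nat_lit 5) (nat_lit 4) (nat_lit 383) (nat_lit 307) (nat_lit 210)) (XT.lf (nat_lit 0) (nat_lit 14229765222) (nat_lit 76) (nat_lit 10248835063) (nat_lit 152) (nat_lit 638900880501) (nat_lit 2) (nat_lit 5) (nat_lit 3) (nat_lit 5) (nat_lit 4) (nat_lit 4) (nat_lit 384) (nat_lit 307) (nat_lit 209))))))) (XT.nd (nat_lit 41340) (nat_lit 0) (nat_lit 4788) (XT.nd (nat_lit 40872) (nat_lit 0) (nat_lit 8208) (XT.nd (nat_lit 156) (nat_lit 0) (nat_lit 0) (XT.nd (nat_lit 78) (nat_lit 0) (nat_lit 0) (XT.lf (nat_lit 0) (nat_lit 52659568177) (nat_lit 152) (nat_lit 643918769811)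 (nat_lit 0) (nat_lit 18418827059) (nat_lit 2) (nat_lit 5) (nat_lit 4) (nat_lit 4) (nat_lit 2) (nat_lit 4) (nat_lit 385) (nat_lit 307) (nat_lit 208)) (XT.lf (nat_lit 0) (nat_lit 83265625842) (nat_lit 152) (nat_lit 638446469072) (nat_lit 0) (nat_lit 49023638859) (nat_lit 2) (nat_lit 5) (nat_lit 4) (nat_lit 4) (nat_lit 2) (nat_lit 4) (nat_lit 386) (nat_lit 307) (nat_lit 207))) (XT.nd (nat_lit 78) (nat_lit 0) (nat_lit 0) (XT.lf (nat_lit 0) (nat_lit 116318129472) (nat_lit 152) (nat_lit 632540371861) (nat_lit 0) (nat_lit 82074988910) (nat_lit 2) (nat_lit 5) (nat_lit 4) (nat_lit 4) (nat_lit 2) (nat_lit 4) (nat_lit 387) (nat_lit 307) (nat_lit 206)) (XT.nd (nat_lit 78) (nat_lit 0) (nat_lit 0) (XT.lf (nat_lit 0) (nat_lit 152012945756) (nat_lit 152) (nat_lit 626165479085) (nat_lit 0) (nat_lit 117768737066) (nat_lit 2) (nat_lit 5) (nat_lit 4) (nat_lit 4) (nat_lit 2) (nat_lit 4) (nat_lit 388) (nat_lit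 307) (nat_lit 205)) (XT.lf (nat_lit 0) (nat_lit 190561599531) (nat_lit 152) (nat_lit 619284013600) (nat_lit 0) (nat_lit 156316401834) (nat_lit 2) (nat_lit 5) (nat_lit 4) (nat_lit 4) (nat_lit 2) (nat_lit 4) (nat_lit 389) (nat_lit 307) (nat_lit 204))))) (XT.nd (nat_lit 234) (nat_lit 456) (nat_lit 0) (XT.nd (nat_lit 78) (nat_lit 0) (nat_lit 0) (XT.lf (nat_lit 0) (nat_lit 564589220) (nat_lit 684) (nat_lit 1794267754) (nat_lit 684) (nat_lit 1794267754) (nat_lit 116) (nat_lit 3) (nat_lit 125) (nat_lit 3) (nat_lit 125) (nat_lit 5) (nat_lit 308) (nat_lit 308) (nat_lit 284)) (XT.nd (nat_lit 78) (nat_lit 0) (nat_lit 76) (XT.lf (nat_lit 76) (nat_lit 2749072102) (nat_lit 0) (nat_lit 119100885) (nat_lit 684) (nat_lit 5683246667) (nat_lit 117) (nat_lit 5) (nat_lit 116) (nat_lit 3) (nat_lit 125) (nat_lit 5) (nat_lit 309) (nat_lit 308) (nat_lit 283)) (XT.lf (nat_lit 76) (nat_lit 756799374) (nat_lit 0)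 (nat_lit 3975149194) (nat_lit 684) (nat_lit 4085210778) (nat_lit 118) (nat_lit 5) (nat_lit 117) (nat_lit 5) (nat_lit 126) (nat_lit 5) (nat_lit 310) (nat_lit 308) (nat_lit 282)))) (XT.nd (nat_lit 78) (nat_lit 608) (nat_lit 0) (XT.lf (nat_lit 0) (nat_lit 6712900105) (nat_lit 608) (nat_lit 1175934801) (nat_lit 684) (nat_lit 1217140869) (nat_lit 118) (nat_lit 5) (nat_lit 126) (nat_lit 5) (nat_lit 127) (nat_lit 5) (nat_lit 311) (nat_lit 308) (nat_lit 281)) (XT.nd (nat_lit 78) (nat_lit 608) (nat_lit 0) (XT.lf (nat_lit 76) (nat_lit 6297450350) (nat_lit 0) (nat_lit 2577931978) (nat_lit 684) (nat_lit 541567328) (nat_lit 119) (nat_lit 5) (nat_lit 118) (nat_lit 5) (nat_lit 127) (nat_lit 5) (nat_lit 312) (nat_lit 308) (nat_lit 280)) (XT.lf (nat_lit 0) (nat_lit 1421687179) (nat_lit 684) (nat_lit 5116641634) (nat_lit 760) (nat_lit 3213000443) (nat_lit 110) (nat_lit 5) (nat_lit 119) (nat_lit 5) (nat_lit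 120) (nat_lit 5) (nat_lit 313) (nat_lit 308) (nat_lit 279)))))) (XT.nd (nat_lit 390) (nat_lit 1596) (nat_lit 0) (XT.nd (nat_lit 156) (nat_lit 1216) (nat_lit 0) (XT.nd (nat_lit 78) (nat_lit 608) (nat_lit 0) (XT.lf (nat_lit 76) (nat_lit 2952216111) (nat_lit 0) (nat_lit 589429801) (nat_lit 760) (nat_lit 6569605792) (nat_lit 111) (nat_lit 5) (nat_lit 110) (nat_lit 5) (nat_lit 120) (nat_lit 5) (nat_lit 314) (nat_lit 308) (nat_lit 278)) (XT.lf (nat_lit 0) (nat_lit 1197793411) (nat_lit 684) (nat_lit 4715617443) (nat_lit 760) (nat_lit 4582601505) (nat_lit 102) (nat_lit 5) (nat_lit 111) (nat_lit 5) (nat_lit 112) (nat_lit 5) (nat_lit 315) (nat_lit 308) (nat_lit 277))) (XT.nd (nat_lit 78) (nat_lit 1216) (nat_lit 0) (XT.lf (nat_lit 0) (nat_lit 8527687547) (nat_lit 760) (nat_lit 568549543) (nat_lit 76) (nat_lit 1812821660) (nat_lit 102) (nat_lit 5) (nat_lit 112) (nat_lit 5) (nat_lit 103) (nat_lit 5)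 (nat_lit 316) (nat_lit 308) (nat_lit 276)) (XT.nd (nat_lit 78) (nat_lit 380) (nat_lit 0) (XT.lf (nat_lit 0) (nat_lit 114924542) (nat_lit 836) (nat_lit 2379752387) (nat_lit 76) (nat_lit 8854659664) (nat_lit 91) (nat_lit 5) (nat_lit 102) (nat_lit 5) (nat_lit 92) (nat_lit 5) (nat_lit 317) (nat_lit 308) (nat_lit 275)) (XT.lf (nat_lit 0) (nat_lit 2834035592) (nat_lit 456) (nat_lit 4322581640) (nat_lit 76) (nat_lit 4661057420) (nat_lit 86) (nat_lit 5) (nat_lit 92) (nat_lit 5) (nat_lit 87) (nat_lit 5) (nat_lit 318) (nat_lit 308) (nat_lit 274))))) (XT.nd (nat_lit 234) (nat_lit 608) (nat_lit 0) (XT.nd (nat_lit 78) (nat_lit 684) (nat_lit 0) (XT.lf (nat_lit 0) (nat_lit 5857873063) (nat_lit 380) (nat_lit 6344584761) (nat_lit 76) (nat_lit 116770481) (nat_lit 82) (nat_lit 5) (nat_lit 87) (nat_lit 5) (nat_lit 83) (nat_lit 5) (nat_lit 319) (nat_lit 308) (nat_lit 273)) (XT.nd (nat_lit 78) (nat_lit 304)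 (nat_lit 0) (XT.lf (nat_lit 0) (nat_lit 4313364025) (nat_lit 380) (nat_lit 4987940237) (nat_lit 456) (nat_lit 3550818042) (nat_lit 77) (nat_lit 5) (nat_lit 82) (nat_lit 5) (nat_lit 83) (nat_lit 5) (nat_lit 320) (nat_lit 308) (nat_lit 272)) (XT.lf (nat_lit 0) (nat_lit 2569520022) (nat_lit 304) (nat_lit 10564905735) (nat_lit 380) (nat_lit 287604233) (nat_lit 73) (nat_lit 5) (nat_lit 77) (nat_lit 5) (nat_lit 78) (nat_lit 5) (nat_lit 321) (nat_lit 308) (nat_lit 271)))) (XT.nd (nat_lit 78) (nat_lit 228) (nat_lit 0) (XT.lf (nat_lit 0) (nat_lit 630322619) (nat_lit 304) (nat_lit 2669165691) (nat_lit 380) (nat_lit 10727276523) (nat_lit 68) (nat_lit 5) (nat_lit 72) (nat_lit 5) (nat_lit 73) (nat_lit 5) (nat_lit 322) (nat_lit 308) (nat_lit 270)) (XT.nd (nat_lit 78) (nat_lit 228) (nat_lit 0) (XT.lf (nat_lit 0) (nat_lit 7372683999) (nat_lit 380) (nat_lit 1444032104) (nat_lit 76) (nat_lit 5852541918)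 (nat_lit 68) (nat_lit 5) (nat_lit 73) (nat_lit 5) (nat_lit 69) (nat_lit 5) (nat_lit 323) (nat_lit 308) (nat_lit 269)) (XT.lf (nat_lit 0) (nat_lit 11707694995) (nat_lit 228) (nat_lit 222828991) (nat_lit 304) (nat_lit 3424757526) (nat_lit 65) (nat_lit 5) (nat_lit 68) (nat_lit 5) (nat_lit 69) (nat_lit 5) (nat_lit 324) (nat_lit 308) (nat_lit 268))))))))
noncomputable def xc63 : XT := (XT.nd (nat_lit 1716) (nat_lit 1064) (nat_lit 0) (XT.nd (nat_lit 858) (nat_lit 1216) (nat_lit 0) (XT.nd (nat_lit 390) (nat_lit 836) (nat_lit 0) (XT.nd (nat_lit 156) (nat_lit 684) (nat_lit 0) (XT.nd (nat_lit 78) (nat_lit 228) (nat_lit 0) (XT.lf (nat_lit 0) (nat_lit 993755025) (nat_lit 380) (nat_lit 6140190671) (nat_lit 76) (nat_lit 8948653707) (nat_lit 60) (nat_lit 5) (nat_lit 65) (nat_lit 5) (nat_lit 61) (nat_lit 5) (nat_lit 325) (nat_lit 308) (nat_lit 267)) (XT.lf (nat_lit 0) (nat_lit 5812144731) (nat_lit 304)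 (nat_lit 8899408400) (nat_lit 76) (nat_lit 2145480648) (nat_lit 57) (nat_lit 5) (nat_lit 61) (nat_lit 5) (nat_lit 58) (nat_lit 5) (nat_lit 326) (nat_lit 308) (nat_lit 266))) (XT.nd (nat_lit 78) (nat_lit 456) (nat_lit 0) (XT.lf (nat_lit 0) (nat_lit 5691244769) (nat_lit 228) (nat_lit 5582725898) (nat_lit 304) (nat_lit 6406607120) (nat_lit 54) (nat_lit 5) (nat_lit 57) (nat_lit 5) (nat_lit 58) (nat_lit 5) (nat_lit 327) (nat_lit 308) (nat_lit 265)) (XT.nd (nat_lit 78) (nat_lit 304) (nat_lit 0) (XT.lf (nat_lit 0) (nat_lit 3154108152) (nat_lit 152) (nat_lit 14235148016) (nat_lit 228) (nat_lit 1169972669) (nat_lit 52) (nat_lit 5) (nat_lit 54) (nat_lit 5) (nat_lit 55) (nat_lit 5) (nat_lit 328) (nat_lit 308) (nat_lit 264)) (XT.lf (nat_lit 0) (nat_lit 197650718) (nat_lit 228) (nat_lit 4398873254) (nat_lit 304) (nat_lit 14895464828) (nat_lit 48) (nat_lit 5) (nat_lit 51) (nat_lit 5) (nat_lit 52) (nat_lit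 5) (nat_lit 329) (nat_lit 308) (nat_lit 263))))) (XT.nd (nat_lit 234) (nat_lit 380) (nat_lit 0) (XT.nd (nat_lit 78) (nat_lit 456) (nat_lit 0) (XT.lf (nat_lit 0) (nat_lit 11101313277) (nat_lit 304) (nat_lit 3087775022) (nat_lit 76) (nat_lit 6293464283) (nat_lit 48) (nat_lit 5) (nat_lit 52) (nat_lit 5) (nat_lit 49) (nat_lit 5) (nat_lit 330) (nat_lit 308) (nat_lit 262)) (XT.nd (nat_lit 78) (nat_lit 304) (nat_lit 0) (XT.lf (nat_lit 0) (nat_lit 14739495279) (nat_lit 152) (nat_lit 3642667810) (nat_lit 228) (nat_lit 3157451703) (nat_lit 46) (nat_lit 5) (nat_lit 48) (nat_lit 5) (nat_lit 49) (nat_lit 5) (nat_lit 331) (nat_lit 308) (nat_lit 261)) (XT.lf (nat_lit 0) (nat_lit 3765490645) (nat_lit 304) (nat_lit 11124518724) (nat_lit 76) (nat_lit 7772716539) (nat_lit 42) (nat_lit 5) (nat_lit 46) (nat_lit 5) (nat_lit 43) (nat_lit 5) (nat_lit 332) (nat_lit 308) (nat_lit 260)))) (XT.nd (nat_lit 78) (nat_lit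 228) (nat_lit 0) (XT.lf (nat_lit 0) (nat_lit 7778469746) (nat_lit 152) (nat_lit 3613037431) (nat_lit 228) (nat_lit 12468628003) (nat_lit 40) (nat_lit 5) (nat_lit 42) (nat_lit 5) (nat_lit 43) (nat_lit 5) (nat_lit 333) (nat_lit 308) (nat_lit 259)) (XT.nd (nat_lit 78) (nat_lit 76) (nat_lit 0) (XT.lf (nat_lit 0) (nat_lit 3348294584) (nat_lit 152) (nat_lit 16619288795) (nat_lit 228) (nat_lit 5168783019) (nat_lit 38) (nat_lit 5) (nat_lit 40) (nat_lit 5) (nat_lit 41) (nat_lit 5) (nat_lit 334) (nat_lit 308) (nat_lit 258)) (XT.lf (nat_lit 0) (nat_lit 2932256556) (nat_lit 228) (nat_lit 1769316292) (nat_lit 76) (nat_lit 21795823309) (nat_lit 37) (nat_lit 5) (nat_lit 40) (nat_lit 5) (nat_lit 38) (nat_lit 5) (nat_lit 335) (nat_lit 308) (nat_lit 257)))))) (XT.nd (nat_lit 390) (nat_lit 608) (nat_lit 0) (XT.nd (nat_lit 156) (nat_lit 304) (nat_lit 0) (XT.nd (nat_lit 78) (nat_lit 152) (nat_lit 0) (XT.lf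 (nat_lit 0) (nat_lit 11915817815) (nat_lit 228) (nat_lit 7730259741) (nat_lit 76) (nat_lit 8296240619) (nat_lit 35) (nat_lit 5) (nat_lit 38) (nat_lit 5) (nat_lit 36) (nat_lit 5) (nat_lit 336) (nat_lit 308) (nat_lit 256)) (XT.lf (nat_lit 0) (nat_lit 14847878087) (nat_lit 152) (nat_lit 7075690347) (nat_lit 228) (nat_lit 7564011556) (nat_lit 33) (nat_lit 5) (nat_lit 35) (nat_lit 5) (nat_lit 36) (nat_lit 5) (nat_lit 337) (nat_lit 308) (nat_lit 255))) (XT.nd (nat_lit 78) (nat_lit 152) (nat_lit 0) (XT.lf (nat_lit 0) (nat_lit 1865583740) (nat_lit 152) (nat_lit 22704111484) (nat_lit 76) (nat_lit 6568529769) (nat_lit 31) (nat_lit 5) (nat_lit 33) (nat_lit 5) (nat_lit 32) (nat_lit 5) (nat_lit 338) (nat_lit 308) (nat_lit 254)) (XT.nd (nat_lit 78) (nat_lit 0) (nat_lit 0) (XT.lf (nat_lit 0) (nat_lit 680518331) (nat_lit 152) (nat_lit 11462385423) (nat_lit 228) (nat_lit 20753917032) (nat_lit 29) (nat_lit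 5) (nat_lit 31) (nat_lit 5) (nat_lit 32) (nat_lit 5) (nat_lit 339) (nat_lit 308) (nat_lit 253)) (XT.lf (nat_lit 0) (nat_lit 23653427344) (nat_lit 228) (nat_lit 8135595310) (nat_lit 76) (nat_lit 2986546763) (nat_lit 29) (nat_lit 5) (nat_lit 32) (nat_lit 5) (nat_lit 30) (nat_lit 4) (nat_lit 340) (nat_lit 308) (nat_lit 252))))) (XT.nd (nat_lit 234) (nat_lit 304) (nat_lit 0) (XT.nd (nat_lit 78) (nat_lit 228) (nat_lit 0) (XT.lf (nat_lit 0) (nat_lit 18207906556) (nat_lit 76) (nat_lit 18323874945) (nat_lit 152) (nat_lit 250501884) (nat_lit 28) (nat_lit 5) (nat_lit 29) (nat_lit 5) (nat_lit 30) (nat_lit 4) (nat_lit 341) (nat_lit 308) (nat_lit 251)) (XT.nd (nat_lit 78) (nat_lit 0) (nat_lit 0) (XT.lf (nat_lit 0) (nat_lit 8030421950) (nat_lit 152) (nat_lit 3332500858) (nat_lit 228) (nat_lit 27565662911) (nat_lit 25) (nat_lit 5) (nat_lit 27) (nat_lit 5) (nat_lit 28) (nat_lit 5) (nat_lit 342) (nat_lit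 308) (nat_lit 250)) (XT.lf (nat_lit 0) (nat_lit 24397871006) (nat_lit 228) (nat_lit 4064472073) (nat_lit 76) (nat_lit 12758994686) (nat_lit 25) (nat_lit 5) (nat_lit 28) (nat_lit 5) (nat_lit 26) (nat_lit 4) (nat_lit 343) (nat_lit 308) (nat_lit 249)))) (XT.nd (nat_lit 78) (nat_lit 228) (nat_lit 0) (XT.lf (nat_lit 0) (nat_lit 25633232728) (nat_lit 76) (nat_lit 13272390676) (nat_lit 152) (nat_lit 4770397405) (nat_lit 24) (nat_lit 5) (nat_lit 25) (nat_lit 5) (nat_lit 26) (nat_lit 4) (nat_lit 344) (nat_lit 308) (nat_lit 248)) (XT.nd (nat_lit 78) (nat_lit 0) (nat_lit 0) (XT.lf (nat_lit 0) (nat_lit 8267364174) (nat_lit 228) (nat_lit 34635983238) (nat_lit 76) (nat_lit 3403083155) (nat_lit 21) (nat_lit 5) (nat_lit 24) (nat_lit 5) (nat_lit 22) (nat_lit 4) (nat_lit 345) (nat_lit 308) (nat_lit 247)) (XT.lf (nat_lit 0) (nat_lit 22701841621) (nat_lit 228) (nat_lit 5080567730) (nat_lit 76) (nat_lit 21334921459)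 (nat_lit 21) (nat_lit 5) (nat_lit 24) (nat_lit 5) (nat_lit 22) (nat_lit 4) (nat_lit 346) (nat_lit 308) (nat_lit 246))))))) (XT.nd (nat_lit 858) (nat_lit 380) (nat_lit 0) (XT.nd (nat_lit 390) (nat_lit 380) (nat_lit 0) (XT.nd (nat_lit 156) (nat_lit 76) (nat_lit 0) (XT.nd (nat_lit 78) (nat_lit 152) (nat_lit 0) (XT.lf (nat_lit 0) (nat_lit 27683983696) (nat_lit 76) (nat_lit 11016493335) (nat_lit 152) (nat_lit 13432164559) (nat_lit 20) (nat_lit 5) (nat_lit 21) (nat_lit 5) (nat_lit 22) (nat_lit 4) (nat_lit 347) (nat_lit 308) (nat_lit 245)) (XT.lf (nat_lit 0) (nat_lit 878951878) (nat_lit 152) (nat_lit 47419317008) (nat_lit 76) (nat_lit 7075055208) (nat_lit 18) (nat_lit 5) (nat_lit 20) (nat_lit 5) (nat_lit 19) (nat_lit 4) (nat_lit 348) (nat_lit 308) (nat_lit 244))) (XT.nd (nat_lit 78) (nat_lit 76) (nat_lit 0) (XT.lf (nat_lit 0) (nat_lit 16467918832) (nat_lit 152) (nat_lit 15488594858) (nat_lit 76)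 (nat_lit 26875566542) (nat_lit 18) (nat_lit 5) (nat_lit 20) (nat_lit 5) (nat_lit 19) (nat_lit 4) (nat_lit 349) (nat_lit 308) (nat_lit 243)) (XT.nd (nat_lit 78) (nat_lit 0) (nat_lit 0) (XT.lf (nat_lit 0) (nat_lit 19587071512) (nat_lit 76) (nat_lit 14002970077) (nat_lit 152) (nat_lit 28963199780) (nat_lit 17) (nat_lit 5) (nat_lit 18) (nat_lit 5) (nat_lit 19) (nat_lit 4) (nat_lit 350) (nat_lit 308) (nat_lit 242)) (XT.lf (nat_lit 0) (nat_lit 52421162690) (nat_lit 152) (nat_lit 8660786444) (nat_lit 0) (nat_lit 5473190794) (nat_lit 17) (nat_lit 5) (nat_lit 19) (nat_lit 4) (nat_lit 17) (nat_lit 4) (nat_lit 351) (nat_lit 308) (nat_lit 241))))) (XT.nd (nat_lit 234) (nat_lit 152) (nat_lit 0) (XT.nd (nat_lit 78) (nat_lit 76) (nat_lit 0) (XT.lf (nat_lit 0) (nat_lit 2504350634) (nat_lit 152) (nat_lit 41834208953) (nat_lit 76) (nat_lit 26503017697) (nat_lit 15) (nat_lit 5) (nat_lit 17) (nat_lit 5) (nat_lit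 16) (nat_lit 4) (nat_lit 352) (nat_lit 308) (nat_lit 240)) (XT.nd (nat_lit 78) (nat_lit 76) (nat_lit 0) (XT.lf (nat_lit 0) (nat_lit 20121369878) (nat_lit 152) (nat_lit 5737982335) (nat_lit 76) (nat_lit 49592856510) (nat_lit 15) (nat_lit 5) (nat_lit 17) (nat_lit 5) (nat_lit 16) (nat_lit 4) (nat_lit 353) (nat_lit 308) (nat_lit 239)) (XT.lf (nat_lit 0) (nat_lit 34314548680) (nat_lit 76) (nat_lit 5353070668) (nat_lit 152) (nat_lit 40738082394) (nat_lit 14) (nat_lit 5) (nat_lit 15) (nat_lit 5) (nat_lit 16) (nat_lit 4) (nat_lit 354) (nat_lit 308) (nat_lit 238)))) (XT.nd (nat_lit 78) (nat_lit 152) (nat_lit 0) (XT.lf (nat_lit 0) (nat_lit 61126004892) (nat_lit 152) (nat_lit 8267067123) (nat_lit 0) (nat_lit 16344984553) (nat_lit 14) (nat_lit 5) (nat_lit 16) (nat_lit 4) (nat_lit 14) (nat_lit 4) (nat_lit 355) (nat_lit 308) (nat_lit 237)) (XT.nd (nat_lit 78) (nat_lit 76) (nat_lit 0) (XT.lf (nat_lit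 0) (nat_lit 33539356923) (nat_lit 76) (nat_lit 51361396071) (nat_lit 76) (nat_lit 6566266059) (nat_lit 13) (nat_lit 4) (nat_lit 14) (nat_lit 5) (nat_lit 14) (nat_lit 4) (nat_lit 356) (nat_lit 308) (nat_lit 236)) (XT.lf (nat_lit 0) (nat_lit 12642140380) (nat_lit 152) (nat_lit 18891806746) (nat_lit 76) (nat_lit 66103637434) (nat_lit 12) (nat_lit 5) (nat_lit 14) (nat_lit 5) (nat_lit 13) (nat_lit 4) (nat_lit 357) (nat_lit 308) (nat_lit 235)))))) (XT.nd (nat_lit 468) (nat_lit 76) (nat_lit 0) (XT.nd (nat_lit 234) (nat_lit 152) (nat_lit 0) (XT.nd (nat_lit 78) (nat_lit 76) (nat_lit 0) (XT.lf (nat_lit 0) (nat_lit 23896890254) (nat_lit 76) (nat_lit 9623686112) (nat_lit 152) (nat_lit 70757669557) (nat_lit 11) (nat_lit 5) (nat_lit 12) (nat_lit 5) (nat_lit 13) (nat_lit 4) (nat_lit 358) (nat_lit 308) (nat_lit 234)) (XT.nd (nat_lit 78) (nat_lit 76) (nat_lit 0) (XT.lf (nat_lit 0) (nat_lit 56610607744)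 (nat_lit 152) (nat_lit 40898540657) (nat_lit 0) (nat_lit 13913948686) (nat_lit 11) (nat_lit 5) (nat_lit 13) (nat_lit 4) (nat_lit 11) (nat_lit 4) (nat_lit 359) (nat_lit 308) (nat_lit 233)) (XT.lf (nat_lit 0) (nat_lit 1610363848) (nat_lit 76) (nat_lit 80113456253) (nat_lit 76) (nat_lit 37406920022) (nat_lit 10) (nat_lit 4) (nat_lit 11) (nat_lit 5) (nat_lit 11) (nat_lit 4) (nat_lit 360) (nat_lit 308) (nat_lit 232)))) (XT.nd (nat_lit 78) (nat_lit 152) (nat_lit 0) (XT.lf (nat_lit 0) (nat_lit 48959597526) (nat_lit 76) (nat_lit 60588002895) (nat_lit 76) (nat_lit 17872321134) (nat_lit 10) (nat_lit 4) (nat_lit 11) (nat_lit 5) (nat_lit 11) (nat_lit 4) (nat_lit 361) (nat_lit 308) (nat_lit 231)) (XT.nd (nat_lit 78) (nat_lit 76) (nat_lit 0) (XT.lf (nat_lit 0) (nat_lit 3111549453) (nat_lit 152) (nat_lit 36345473465) (nat_lit 76) (nat_lit 96913212920) (nat_lit 9) (nat_lit 5) (nat_lit 11) (nat_lit 5) (nat_lit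 10) (nat_lit 4) (nat_lit 362) (nat_lit 308) (nat_lit 230)) (XT.lf (nat_lit 0) (nat_lit 9110603348) (nat_lit 76) (nat_lit 16178466900) (nat_lit 152) (nat_lit 120725802632) (nat_lit 8) (nat_lit 5) (nat_lit 9) (nat_lit 5) (nat_lit 10) (nat_lit 4) (nat_lit 363) (nat_lit 308) (nat_lit 229))))) (XT.nd (nat_lit 234) (nat_lit 76) (nat_lit 0) (XT.nd (nat_lit 78) (nat_lit 0) (nat_lit 0) (XT.lf (nat_lit 0) (nat_lit 50015003510) (nat_lit 152) (nat_lit 97066413486) (nat_lit 0) (nat_lit 9310955243) (nat_lit 8) (nat_lit 5) (nat_lit 10) (nat_lit 4) (nat_lit 8) (nat_lit 4) (nat_lit 364) (nat_lit 308) (nat_lit 228)) (XT.nd (nat_lit 78) (nat_lit 0) (nat_lit 0) (XT.lf (nat_lit 0) (nat_lit 76983281606) (nat_lit 152) (nat_lit 54330746974) (nat_lit 0) (nat_lit 36272831208) (nat_lit 8) (nat_lit 5) (nat_lit 10) (nat_lit 4) (nat_lit 8) (nat_lit 4) (nat_lit 365) (nat_lit 308) (nat_lit 227)) (XT.lf (nat_lit 0) (nat_lit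 106101125348) (nat_lit 152) (nat_lit 8191430394) (nat_lit 0) (nat_lit 65384747051) (nat_lit 8) (nat_lit 5) (nat_lit 10) (nat_lit 4) (nat_lit 8) (nat_lit 4) (nat_lit 366) (nat_lit 308) (nat_lit 226)))) (XT.nd (nat_lit 78) (nat_lit 0) (nat_lit 0) (XT.lf (nat_lit 0) (nat_lit 43001263401) (nat_lit 76) (nat_lit 95211191751) (nat_lit 76) (nat_lit 54489324658) (nat_lit 7) (nat_lit 4) (nat_lit 8) (nat_lit 5) (nat_lit 8) (nat_lit 4) (nat_lit 367) (nat_lit 308) (nat_lit 225)) (XT.nd (nat_lit 78) (nat_lit 0) (nat_lit 0) (XT.lf (nat_lit 0) (nat_lit 98568420725) (nat_lit 76) (nat_lit 74459979755) (nat_lit 76) (nat_lit 33733030444) (nat_lit 7) (nat_lit 4) (nat_lit 8) (nat_lit 5) (nat_lit 8) (nat_lit 4) (nat_lit 368) (nat_lit 308) (nat_lit 224)) (XT.lf (nat_lit 0) (nat_lit 158568482751) (nat_lit 76) (nat_lit 52054675447) (nat_lit 76) (nat_lit 11323020378) (nat_lit 7) (nat_lit 4) (nat_lit 8) (nat_lit 5)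 (nat_lit 8) (nat_lit 4) (nat_lit 369) (nat_lit 308) (nat_lit 223))))))))
noncomputable def xc64 : XT := (XT.nd (nat_lit 42276) (nat_lit 0) (nat_lit 3344) (XT.nd (nat_lit 858) (nat_lit 152) (nat_lit 0) (XT.nd (nat_lit 390) (nat_lit 76) (nat_lit 0) (XT.nd (nat_lit 156) (nat_lit 0) (nat_lit 0) (XT.nd (nat_lit 78) (nat_lit 76) (nat_lit 0) (XT.lf (nat_lit 0) (nat_lit 12461473024) (nat_lit 152) (nat_lit 15189992552) (nat_lit 76) (nat_lit 210684491304) (nat_lit 6) (nat_lit 5) (nat_lit 8) (nat_lit 5) (nat_lit 7) (nat_lit 4) (nat_lit 370) (nat_lit 308) (nat_lit 222)) (XT.lf (nat_lit 0) (nat_lit 37862768725) (nat_lit 76) (nat_lit 480068058) (nat_lit 152) (nat_lit 217655259835) (nat_lit 5) (nat_lit 5) (nat_lit 6) (nat_lit 5) (nat_lit 7) (nat_lit 4) (nat_lit 371) (nat_lit 308) (nat_lit 221))) (XT.nd (nat_lit 78) (nat_lit 0) (nat_lit 0) (XT.lf (nat_lit 0) (nat_lit 67008854683) (nat_lit 152) (nat_lit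 179823394043) (nat_lit 0) (nat_lit 28205252529) (nat_lit 5) (nat_lit 5) (nat_lit 7) (nat_lit 4) (nat_lit 5) (nat_lit 4) (nat_lit 372) (nat_lit 308) (nat_lit 220)) (XT.nd (nat_lit 78) (nat_lit 0) (nat_lit 0) (XT.lf (nat_lit 0) (nat_lit 97971196322) (nat_lit 152) (nat_lit 138464410725) (nat_lit 0) (nat_lit 59164300002) (nat_lit 5) (nat_lit 5) (nat_lit 7) (nat_lit 4) (nat_lit 5) (nat_lit 4) (nat_lit 373) (nat_lit 308) (nat_lit 219)) (XT.lf (nat_lit 0) (nat_lit 131405847032) (nat_lit 152) (nat_lit 93805792461) (nat_lit 0) (nat_lit 92595900561) (nat_lit 5) (nat_lit 5) (nat_lit 7) (nat_lit 4) (nat_lit 5) (nat_lit 4) (nat_lit 374) (nat_lit 308) (nat_lit 218))))) (XT.nd (nat_lit 234) (nat_lit 0) (nat_lit 0) (XT.nd (nat_lit 78) (nat_lit 76) (nat_lit 0) (XT.lf (nat_lit 0) (nat_lit 167510938079) (nat_lit 152) (nat_lit 45582895586) (nat_lit 0) (nat_lit 128698167393) (nat_lit 5) (nat_lit 5) (nat_lit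 7) (nat_lit 4) (nat_lit 5) (nat_lit 4) (nat_lit 375) (nat_lit 308) (nat_lit 217)) (XT.nd (nat_lit 78) (nat_lit 0) (nat_lit 0) (XT.lf (nat_lit 0) (nat_lit 6704635417) (nat_lit 76) (nat_lit 199900468288) (nat_lit 76) (nat_lit 161085082588) (nat_lit 4) (nat_lit 4) (nat_lit 5) (nat_lit 5) (nat_lit 5) (nat_lit 4) (nat_lit 376) (nat_lit 308) (nat_lit 216)) (XT.lf (nat_lit 0) (nat_lit 64795470024) (nat_lit 76) (nat_lit 184821527133) (nat_lit 76) (nat_lit 146003720124) (nat_lit 4) (nat_lit 4) (nat_lit 5) (nat_lit 5) (nat_lit 5) (nat_lit 4) (nat_lit 377) (nat_lit 308) (nat_lit 215)))) (XT.nd (nat_lit 78) (nat_lit 0) (nat_lit 0) (XT.lf (nat_lit 0) (nat_lit 127526673830) (nat_lit 76) (nat_lit 168539621905) (nat_lit 76) (nat_lit 129719572944) (nat_lit 4) (nat_lit 4) (nat_lit 5) (nat_lit 5) (nat_lit 5) (nat_lit 4) (nat_lit 378) (nat_lit 308) (nat_lit 214)) (XT.nd (nat_lit 78) (nat_lit 0) (nat_lit 0)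 (XT.lf (nat_lit 0) (nat_lit 195269987301) (nat_lit 76) (nat_lit 150958267240) (nat_lit 76) (nat_lit 112136142397) (nat_lit 4) (nat_lit 4) (nat_lit 5) (nat_lit 5) (nat_lit 5) (nat_lit 4) (nat_lit 379) (nat_lit 308) (nat_lit 213)) (XT.lf (nat_lit 0) (nat_lit 268426852295) (nat_lit 76) (nat_lit 131973277333) (nat_lit 76) (nat_lit 93149230377) (nat_lit 4) (nat_lit 4) (nat_lit 5) (nat_lit 5) (nat_lit 5) (nat_lit 4) (nat_lit 380) (nat_lit 308) (nat_lit 212)))))) (XT.nd (nat_lit 390) (nat_lit 0) (nat_lit 0) (XT.nd (nat_lit 156) (nat_lit 152) (nat_lit 0) (XT.nd (nat_lit 78) (nat_lit 0) (nat_lit 0) (XT.lf (nat_lit 0) (nat_lit 347430790976) (nat_lit 76) (nat_lit 111472148540) (nat_lit 76) (nat_lit 72646321849) (nat_lit 4) (nat_lit 4) (nat_lit 5) (nat_lit 5) (nat_lit 5) (nat_lit 4) (nat_lit 381) (nat_lit 308) (nat_lit 211)) (XT.lf (nat_lit 0) (nat_lit 432749974831) (nat_lit 76) (nat_lit 89333392690)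 (nat_lit 76) (nat_lit 50505918097) (nat_lit 4) (nat_lit 4) (nat_lit 5) (nat_lit 5) (nat_lit 5) (nat_lit 4) (nat_lit 382) (nat_lit 308) (nat_lit 210))) (XT.nd (nat_lit 78) (nat_lit 152) (nat_lit 0) (XT.lf (nat_lit 0) (nat_lit 524889999025) (nat_lit 76) (nat_lit 65425817156) (nat_lit 76) (nat_lit 26596816728) (nat_lit 4) (nat_lit 4) (nat_lit 5) (nat_lit 5) (nat_lit 5) (nat_lit 4) (nat_lit 383) (nat_lit 308) (nat_lit 209)) (XT.nd (nat_lit 78) (nat_lit 152) (nat_lit 0) (XT.lf (nat_lit 0) (nat_lit 624396878515) (nat_lit 76) (nat_lit 39607747416) (nat_lit 76) (nat_lit 777334177) (nat_lit 4) (nat_lit 4) (nat_lit 5) (nat_lit 5) (nat_lit 5) (nat_lit 4) (nat_lit 384) (nat_lit 308) (nat_lit 208)) (XT.lf (nat_lit 0) (nat_lit 15450671008) (nat_lit 76) (nat_lit 11028544799) (nat_lit 152) (nat_lit 689968500418) (nat_lit 2) (nat_lit 5) (nat_lit 3) (nat_lit 5) (nat_lit 4) (nat_lit 4) (nat_lit 385) (nat_lit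 308) (nat_lit 207))))) (XT.nd (nat_lit 234) (nat_lit 0) (nat_lit 0) (XT.nd (nat_lit 78) (nat_lit 0) (nat_lit 0) (XT.lf (nat_lit 0) (nat_lit 56912106861) (nat_lit 152) (nat_lit 695354475096) (nat_lit 0) (nat_lit 19928361476) (nat_lit 2) (nat_lit 5) (nat_lit 4) (nat_lit 4) (nat_lit 2) (nat_lit 4) (nat_lit 386) (nat_lit 308) (nat_lit 206)) (XT.nd (nat_lit 78) (nat_lit 0) (nat_lit 0) (XT.lf (nat_lit 0) (nat_lit 89963702973) (nat_lit 152) (nat_lit 689450152987) (nat_lit 0) (nat_lit 52978889460) (nat_lit 2) (nat_lit 5) (nat_lit 4) (nat_lit 4) (nat_lit 2) (nat_lit 4) (nat_lit 387) (nat_lit 308) (nat_lit 205)) (XT.lf (nat_lit 0) (nat_lit 125657678963) (nat_lit 152) (nat_lit 683076903823) (nat_lit 0) (nat_lit 88671876442) (nat_lit 2) (nat_lit 5) (nat_lit 4) (nat_lit 4) (nat_lit 2) (nat_lit 4) (nat_lit 388) (nat_lit 308) (nat_lit 204)))) (XT.nd (nat_lit 40638) (nat_lit 0) (nat_lit 8664) (XT.lf (nat_lit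 0) (nat_lit 164205554688) (nat_lit 152) (nat_lit 676196960201) (nat_lit 0) (nat_lit 127218836420) (nat_lit 2) (nat_lit 5) (nat_lit 4) (nat_lit 4) (nat_lit 2) (nat_lit 4) (nat_lit 389) (nat_lit 308) (nat_lit 203)) (XT.nd (nat_lit 78) (nat_lit 0) (nat_lit 0) (XT.lf (nat_lit 0) (nat_lit 2220958701) (nat_lit 684) (nat_lit 1090762458) (nat_lit 684) (nat_lit 1090762458) (nat_lit 116) (nat_lit 3) (nat_lit 125) (nat_lit 3) (nat_lit 125) (nat_lit 5) (nat_lit 309) (nat_lit 309) (nat_lit 282)) (XT.lf (nat_lit 76) (nat_lit 4589468066) (nat_lit 0) (nat_lit 1517166883) (nat_lit 684) (nat_lit 2974131255) (nat_lit 117) (nat_lit 5) (nat_lit 116) (nat_lit 3) (nat_lit 125) (nat_lit 5) (nat_lit 310) (nat_lit 309) (nat_lit 281))))))) (XT.nd (nat_lit 858) (nat_lit 2356) (nat_lit 0) (XT.nd (nat_lit 390) (nat_lit 2432) (nat_lit 0) (XT.nd (nat_lit 156) (nat_lit 0) (nat_lit 0) (XT.nd (nat_lit 78) (nat_lit 608) (nat_lit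 0) (XT.lf (nat_lit 76) (nat_lit 2536167722) (nat_lit 0) (nat_lit 5367217912) (nat_lit 684) (nat_lit 1475505536) (nat_lit 118) (nat_lit 5) (nat_lit 117) (nat_lit 5) (nat_lit 126) (nat_lit 5) (nat_lit 311) (nat_lit 309) (nat_lit 280)) (XT.lf (nat_lit 0) (nat_lit 122099874) (nat_lit 684) (nat_lit 9218256344) (nat_lit 760) (nat_lit 361395590) (nat_lit 109) (nat_lit 5) (nat_lit 118) (nat_lit 5) (nat_lit 119) (nat_lit 5) (nat_lit 312) (nat_lit 309) (nat_lit 279))) (XT.nd (nat_lit 78) (nat_lit 0) (nat_lit 76) (XT.lf (nat_lit 0) (nat_lit 1882642868) (nat_lit 684) (nat_lit 1611282897) (nat_lit 760) (nat_lit 6551132193) (nat_lit 109) (nat_lit 5) (nat_lit 118) (nat_lit 5) (nat_lit 119) (nat_lit 5) (nat_lit 313) (nat_lit 309) (nat_lit 278)) (XT.nd (nat_lit 78) (nat_lit 0) (nat_lit 0) (XT.lf (nat_lit 0) (nat_lit 3819264782) (nat_lit 684) (nat_lit 3725930045) (nat_lit 760) (nat_lit 2869026885) (nat_lit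 110) (nat_lit 5) (nat_lit 119) (nat_lit 5) (nat_lit 120) (nat_lit 5) (nat_lit 314) (nat_lit 309) (nat_lit 277)) (XT.lf (nat_lit 76) (nat_lit 4910208648) (nat_lit 0) (nat_lit 1056320399) (nat_lit 760) (nat_lit 4843747301) (nat_lit 111) (nat_lit 5) (nat_lit 110) (nat_lit 5) (nat_lit 120) (nat_lit 5) (nat_lit 315) (nat_lit 309) (nat_lit 276))))) (XT.nd (nat_lit 234) (nat_lit 1064) (nat_lit 0) (XT.nd (nat_lit 78) (nat_lit 836) (nat_lit 0) (XT.lf (nat_lit 0) (nat_lit 3051973039) (nat_lit 684) (nat_lit 5338813739) (nat_lit 760) (nat_lit 2842100751) (nat_lit 102) (nat_lit 5) (nat_lit 111) (nat_lit 5) (nat_lit 112) (nat_lit 5) (nat_lit 316) (nat_lit 309) (nat_lit 275)) (XT.nd (nat_lit 78) (nat_lit 76) (nat_lit 0) (XT.lf (nat_lit 0) (nat_lit 1149614957) (nat_lit 760) (nat_lit 9930516985) (nat_lit 836) (nat_lit 605741273) (nat_lit 92) (nat_lit 5) (nat_lit 102) (nat_lit 5) (nat_lit 103) (nat_lit 5)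 (nat_lit 317) (nat_lit 309) (nat_lit 274)) (XT.lf (nat_lit 0) (nat_lit 1895671286) (nat_lit 836) (nat_lit 857635076) (nat_lit 76) (nat_lit 9413284206) (nat_lit 91) (nat_lit 5) (nat_lit 102) (nat_lit 5) (nat_lit 92) (nat_lit 5) (nat_lit 318) (nat_lit 309) (nat_lit 273)))) (XT.nd (nat_lit 78) (nat_lit 684) (nat_lit 0) (XT.lf (nat_lit 0) (nat_lit 4726225561) (nat_lit 456) (nat_lit 2944625563) (nat_lit 76) (nat_lit 5007005521) (nat_lit 86) (nat_lit 5) (nat_lit 92) (nat_lit 5) (nat_lit 87) (nat_lit 5) (nat_lit 319) (nat_lit 309) (nat_lit 272)) (XT.nd (nat_lit 78) (nat_lit 380) (nat_lit 0) (XT.lf (nat_lit 0) (nat_lit 7895610020) (nat_lit 380) (nat_lit 5124360654) (nat_lit 76) (nat_lit 204526999) (nat_lit 82) (nat_lit 5) (nat_lit 87) (nat_lit 5) (nat_lit 83) (nat_lit 5) (nat_lit 320) (nat_lit 309) (nat_lit 271)) (XT.lf (nat_lit 0) (nat_lit 6311136348) (nat_lit 380) (nat_lit 5212952539) (nat_lit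 456) (nat_lit 2280589983) (nat_lit 77) (nat_lit 5) (nat_lit 82) (nat_lit 5) (nat_lit 83) (nat_lit 5) (nat_lit 321) (nat_lit 309) (nat_lit 270)))))) (XT.nd (nat_lit 390) (nat_lit 1064) (nat_lit 0) (XT.nd (nat_lit 156) (nat_lit 608) (nat_lit 0) (XT.nd (nat_lit 78) (nat_lit 304) (nat_lit 0) (XT.lf (nat_lit 0) (nat_lit 1121177530) (nat_lit 380) (nat_lit 10016760734) (nat_lit 76) (nat_lit 3285523396) (nat_lit 72) (nat_lit 5) (nat_lit 77) (nat_lit 5) (nat_lit 73) (nat_lit 5) (nat_lit 322) (nat_lit 309) (nat_lit 269)) (XT.lf (nat_lit 0) (nat_lit 2306008091) (nat_lit 304) (nat_lit 2599340587) (nat_lit 380) (nat_lit 10175091185) (nat_lit 68) (nat_lit 5) (nat_lit 72) (nat_lit 5) (nat_lit 73) (nat_lit 5) (nat_lit 323) (nat_lit 309) (nat_lit 268))) (XT.nd (nat_lit 78) (nat_lit 380) (nat_lit 0) (XT.lf (nat_lit 0) (nat_lit 4766209) (nat_lit 228) (nat_lit 9204404443) (nat_lit 304) (nat_lit 6570024885)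 (nat_lit 65) (nat_lit 5) (nat_lit 68) (nat_lit 5) (nat_lit 69) (nat_lit 5) (nat_lit 324) (nat_lit 309) (nat_lit 267)) (XT.nd (nat_lit 78) (nat_lit 380) (nat_lit 0) (XT.lf (nat_lit 0) (nat_lit 14063799151) (nat_lit 304) (nat_lit 2384362170) (nat_lit 76) (nat_lit 75425560) (nat_lit 65) (nat_lit 5) (nat_lit 69) (nat_lit 5) (nat_lit 66) (nat_lit 5) (nat_lit 325) (nat_lit 309) (nat_lit 266)) (XT.lf (nat_lit 0) (nat_lit 2210797897) (nat_lit 380) (nat_lit 5108899557) (nat_lit 76) (nat_lit 9991596190) (nat_lit 60) (nat_lit 5) (nat_lit 65) (nat_lit 5) (nat_lit 61) (nat_lit 5) (nat_lit 326) (nat_lit 309) (nat_lit 265))))) (XT.nd (nat_lit 234) (nat_lit 456) (nat_lit 0) (XT.nd (nat_lit 78) (nat_lit 380) (nat_lit 0) (XT.lf (nat_lit 0) (nat_lit 7359071825) (nat_lit 304) (nat_lit 8106198191) (nat_lit 76) (nat_lit 2685268887) (nat_lit 57) (nat_lit 5) (nat_lit 61) (nat_lit 5) (nat_lit 58) (nat_lit 5) (nat_lit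 327) (nat_lit 309) (nat_lit 264)) (XT.nd (nat_lit 78) (nat_lit 152) (nat_lit 0) (XT.lf (nat_lit 0) (nat_lit 7586294687) (nat_lit 228) (nat_lit 5613882833) (nat_lit 304) (nat_lit 5842743323) (nat_lit 54) (nat_lit 5) (nat_lit 57) (nat_lit 5) (nat_lit 58) (nat_lit 5) (nat_lit 328) (nat_lit 309) (nat_lit 263)) (XT.lf (nat_lit 0) (nat_lit 4827251555) (nat_lit 152) (nat_lit 14929749962) (nat_lit 228) (nat_lit 237312507) (nat_lit 52) (nat_lit 5) (nat_lit 54) (nat_lit 5) (nat_lit 55) (nat_lit 5) (nat_lit 329) (nat_lit 309) (nat_lit 262)))) (XT.nd (nat_lit 78) (nat_lit 152) (nat_lit 0) (XT.lf (nat_lit 0) (nat_lit 1604699472) (nat_lit 228) (nat_lit 4301092810) (nat_lit 304) (nat_lit 15097752661) (nat_lit 48) (nat_lit 5) (nat_lit 51) (nat_lit 5) (nat_lit 52) (nat_lit 5) (nat_lit 330) (nat_lit 309) (nat_lit 261)) (XT.nd (nat_lit 78) (nat_lit 152) (nat_lit 0) (XT.lf (nat_lit 0) (nat_lit 12867721411)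 (nat_lit 304) (nat_lit 2008853754) (nat_lit 76) (nat_lit 7199994579) (nat_lit 48) (nat_lit 5) (nat_lit 52) (nat_lit 5) (nat_lit 49) (nat_lit 5) (nat_lit 331) (nat_lit 309) (nat_lit 260)) (XT.lf (nat_lit 0) (nat_lit 17186974291) (nat_lit 152) (nat_lit 3498807450) (nat_lit 228) (nat_lit 2534727833) (nat_lit 46) (nat_lit 5) (nat_lit 48) (nat_lit 5) (nat_lit 49) (nat_lit 5) (nat_lit 332) (nat_lit 309) (nat_lit 259))))))))
noncomputable def xc65 : XT := (XT.nd (nat_lit 1716) (nat_lit 760) (nat_lit 0) (XT.nd (nat_lit 858) (nat_lit 760) (nat_lit 0) (XT.nd (nat_lit 390) (nat_lit 760) (nat_lit 0) (XT.nd (nat_lit 156) (nat_lit 380) (nat_lit 0) (XT.nd (nat_lit 78) (nat_lit 152) (nat_lit 0) (XT.lf (nat_lit 0) (nat_lit 4877457014) (nat_lit 304) (nat_lit 10739988838) (nat_lit 76) (nat_lit 8817213166) (nat_lit 42) (nat_lit 5) (nat_lit 46) (nat_lit 5) (nat_lit 43) (nat_lit 5) (nat_lit 333) (nat_lit 309)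 (nat_lit 258)) (XT.lf (nat_lit 0) (nat_lit 9619850867) (nat_lit 152) (nat_lit 3452683765) (nat_lit 228) (nat_lit 12657418051) (nat_lit 40) (nat_lit 5) (nat_lit 42) (nat_lit 5) (nat_lit 43) (nat_lit 5) (nat_lit 334) (nat_lit 309) (nat_lit 257))) (XT.nd (nat_lit 78) (nat_lit 228) (nat_lit 0) (XT.lf (nat_lit 0) (nat_lit 4812868229) (nat_lit 152) (nat_lit 17489993986) (nat_lit 228) (nat_lit 4807049544) (nat_lit 38) (nat_lit 5) (nat_lit 40) (nat_lit 5) (nat_lit 41) (nat_lit 5) (nat_lit 335) (nat_lit 309) (nat_lit 256)) (XT.nd (nat_lit 78) (nat_lit 152) (nat_lit 0) (XT.lf (nat_lit 0) (nat_lit 3861673857) (nat_lit 228) (nat_lit 779407503) (nat_lit 76) (nat_lit 23940949887) (nat_lit 37) (nat_lit 5) (nat_lit 40) (nat_lit 5) (nat_lit 38) (nat_lit 5) (nat_lit 336) (nat_lit 309) (nat_lit 255)) (XT.lf (nat_lit 0) (nat_lit 13535936966) (nat_lit 228) (nat_lit 7239589638) (nat_lit 76) (nat_lit 9368450298)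 (nat_lit 35) (nat_lit 5) (nat_lit 38) (nat_lit 5) (nat_lit 36) (nat_lit 5) (nat_lit 337) (nat_lit 309) (nat_lit 254))))) (XT.nd (nat_lit 234) (nat_lit 304) (nat_lit 0) (XT.nd (nat_lit 78) (nat_lit 304) (nat_lit 0) (XT.lf (nat_lit 0) (nat_lit 17096599477) (nat_lit 152) (nat_lit 7214875069) (nat_lit 228) (nat_lit 7503055218) (nat_lit 33) (nat_lit 5) (nat_lit 35) (nat_lit 5) (nat_lit 36) (nat_lit 5) (nat_lit 338) (nat_lit 309) (nat_lit 253)) (XT.nd (nat_lit 78) (nat_lit 152) (nat_lit 0) (XT.lf (nat_lit 0) (nat_lit 2634590117) (nat_lit 152) (nat_lit 23460560193) (nat_lit 76) (nat_lit 7502831126) (nat_lit 31) (nat_lit 5) (nat_lit 33) (nat_lit 5) (nat_lit 32) (nat_lit 5) (nat_lit 339) (nat_lit 309) (nat_lit 252)) (XT.lf (nat_lit 0) (nat_lit 1748778905) (nat_lit 152) (nat_lit 11955237260) (nat_lit 228) (nat_lit 21794775932) (nat_lit 29) (nat_lit 5) (nat_lit 31) (nat_lit 5) (nat_lit 32) (nat_lit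 5) (nat_lit 340) (nat_lit 309) (nat_lit 251)))) (XT.nd (nat_lit 78) (nat_lit 304) (nat_lit 0) (XT.lf (nat_lit 0) (nat_lit 26097833114) (nat_lit 228) (nat_lit 7826284174) (nat_lit 76) (nat_lit 3605622264) (nat_lit 29) (nat_lit 5) (nat_lit 32) (nat_lit 5) (nat_lit 30) (nat_lit 4) (nat_lit 341) (nat_lit 309) (nat_lit 250)) (XT.nd (nat_lit 78) (nat_lit 152) (nat_lit 0) (XT.lf (nat_lit 0) (nat_lit 272546130) (nat_lit 152) (nat_lit 19119763914) (nat_lit 76) (nat_lit 20305808680) (nat_lit 27) (nat_lit 5) (nat_lit 29) (nat_lit 5) (nat_lit 28) (nat_lit 5) (nat_lit 342) (nat_lit 309) (nat_lit 249)) (XT.lf (nat_lit 0) (nat_lit 9568502691) (nat_lit 152) (nat_lit 3212279290) (nat_lit 228) (nat_lit 29236429817) (nat_lit 25) (nat_lit 5) (nat_lit 27) (nat_lit 5) (nat_lit 28) (nat_lit 5) (nat_lit 343) (nat_lit 309) (nat_lit 248)))))) (XT.nd (nat_lit 390) (nat_lit 380) (nat_lit 0) (XT.nd (nat_lit 156) (nat_lit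 304) (nat_lit 0) (XT.nd (nat_lit 78) (nat_lit 76) (nat_lit 0) (XT.lf (nat_lit 0) (nat_lit 26826427277) (nat_lit 228) (nat_lit 3542159104) (nat_lit 76) (nat_lit 14126418825) (nat_lit 25) (nat_lit 5) (nat_lit 28) (nat_lit 5) (nat_lit 26) (nat_lit 4) (nat_lit 344) (nat_lit 309) (nat_lit 247)) (XT.lf (nat_lit 0) (nat_lit 28494532036) (nat_lit 76) (nat_lit 13977611124) (nat_lit 152) (nat_lit 4675067625) (nat_lit 24) (nat_lit 5) (nat_lit 25) (nat_lit 5) (nat_lit 26) (nat_lit 4) (nat_lit 345) (nat_lit 309) (nat_lit 246))) (XT.nd (nat_lit 78) (nat_lit 76) (nat_lit 0) (XT.lf (nat_lit 0) (nat_lit 9374056417) (nat_lit 228) (nat_lit 36599989263) (nat_lit 76) (nat_lit 4014468221) (nat_lit 21) (nat_lit 5) (nat_lit 24) (nat_lit 5) (nat_lit 22) (nat_lit 4) (nat_lit 346) (nat_lit 309) (nat_lit 245)) (XT.nd (nat_lit 78) (nat_lit 76) (nat_lit 0) (XT.lf (nat_lit 0) (nat_lit 24930306644) (nat_lit 228) (nat_lit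 4739908857) (nat_lit 76) (nat_lit 23355732225) (nat_lit 21) (nat_lit 5) (nat_lit 24) (nat_lit 5) (nat_lit 22) (nat_lit 4) (nat_lit 347) (nat_lit 309) (nat_lit 244)) (XT.lf (nat_lit 0) (nat_lit 30613338440) (nat_lit 76) (nat_lit 11576109867) (nat_lit 152) (nat_lit 14094015674) (nat_lit 20) (nat_lit 5) (nat_lit 21) (nat_lit 5) (nat_lit 22) (nat_lit 4) (nat_lit 348) (nat_lit 309) (nat_lit 243))))) (XT.nd (nat_lit 234) (nat_lit 152) (nat_lit 0) (XT.nd (nat_lit 78) (nat_lit 76) (nat_lit 0) (XT.lf (nat_lit 0) (nat_lit 1334985441) (nat_lit 152) (nat_lit 50502279974) (nat_lit 76) (nat_lit 7946513267) (nat_lit 18) (nat_lit 5) (nat_lit 20) (nat_lit 5) (nat_lit 19) (nat_lit 4) (nat_lit 349) (nat_lit 309) (nat_lit 242)) (XT.nd (nat_lit 78) (nat_lit 76) (nat_lit 0) (XT.lf (nat_lit 0) (nat_lit 18142498091) (nat_lit 152) (nat_lit 16069735785) (nat_lit 76) (nat_lit 29308439312) (nat_lit 18) (nat_lit 5)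 (nat_lit 20) (nat_lit 5) (nat_lit 19) (nat_lit 4) (nat_lit 350) (nat_lit 309) (nat_lit 241)) (XT.lf (nat_lit 0) (nat_lit 21783390334) (nat_lit 76) (nat_lit 14834371060) (nat_lit 152) (nat_lit 30922605893) (nat_lit 17) (nat_lit 5) (nat_lit 18) (nat_lit 5) (nat_lit 19) (nat_lit 4) (nat_lit 351) (nat_lit 309) (nat_lit 240)))) (XT.nd (nat_lit 78) (nat_lit 152) (nat_lit 0) (XT.lf (nat_lit 0) (nat_lit 56934324248) (nat_lit 152) (nat_lit 8759226262) (nat_lit 0) (nat_lit 6169927583) (nat_lit 17) (nat_lit 5) (nat_lit 19) (nat_lit 4) (nat_lit 17) (nat_lit 4) (nat_lit 352) (nat_lit 309) (nat_lit 239)) (XT.nd (nat_lit 78) (nat_lit 0) (nat_lit 0) (XT.lf (nat_lit 0) (nat_lit 3014464228) (nat_lit 152) (nat_lit 44602025397) (nat_lit 76) (nat_lit 28876837735) (nat_lit 15) (nat_lit 5) (nat_lit 17) (nat_lit 5) (nat_lit 16) (nat_lit 4) (nat_lit 353) (nat_lit 309) (nat_lit 238)) (XT.lf (nat_lit 0) (nat_lit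 22017899415) (nat_lit 152) (nat_lit 5660983632) (nat_lit 76) (nat_lit 53795080050) (nat_lit 15) (nat_lit 5) (nat_lit 17) (nat_lit 5) (nat_lit 16) (nat_lit 4) (nat_lit 354) (nat_lit 309) (nat_lit 237))))))) (XT.nd (nat_lit 858) (nat_lit 228) (nat_lit 0) (XT.nd (nat_lit 390) (nat_lit 228) (nat_lit 0) (XT.nd (nat_lit 156) (nat_lit 228) (nat_lit 0) (XT.nd (nat_lit 78) (nat_lit 0) (nat_lit 0) (XT.lf (nat_lit 0) (nat_lit 37572454337) (nat_lit 76) (nat_lit 5542153920) (nat_lit 152) (nat_lit 43709795356) (nat_lit 14) (nat_lit 5) (nat_lit 15) (nat_lit 5) (nat_lit 16) (nat_lit 4) (nat_lit 355) (nat_lit 309) (nat_lit 236)) (XT.lf (nat_lit 0) (nat_lit 66272856909) (nat_lit 152) (nat_lit 8444393571) (nat_lit 0) (nat_lit 17866942309) (nat_lit 14) (nat_lit 5) (nat_lit 16) (nat_lit 4) (nat_lit 14) (nat_lit 4) (nat_lit 356) (nat_lit 309) (nat_lit 235))) (XT.nd (nat_lit 78) (nat_lit 152) (nat_lit 0) (XT.lf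 (nat_lit 0) (nat_lit 36685508657) (nat_lit 76) (nat_lit 55252284859) (nat_lit 76) (nat_lit 6834273487) (nat_lit 13) (nat_lit 4) (nat_lit 14) (nat_lit 5) (nat_lit 14) (nat_lit 4) (nat_lit 357) (nat_lit 309) (nat_lit 234)) (XT.nd (nat_lit 78) (nat_lit 76) (nat_lit 0) (XT.lf (nat_lit 0) (nat_lit 13884121652) (nat_lit 152) (nat_lit 19966762697) (nat_lit 76) (nat_lit 71586119543) (nat_lit 12) (nat_lit 5) (nat_lit 14) (nat_lit 5) (nat_lit 13) (nat_lit 4) (nat_lit 358) (nat_lit 309) (nat_lit 233)) (XT.lf (nat_lit 0) (nat_lit 26226065146) (nat_lit 76) (nat_lit 10196202298) (nat_lit 152) (nat_lit 76187183190) (nat_lit 11) (nat_lit 5) (nat_lit 12) (nat_lit 5) (nat_lit 13) (nat_lit 4) (nat_lit 359) (nat_lit 309) (nat_lit 232))))) (XT.nd (nat_lit 234) (nat_lit 152) (nat_lit 0) (XT.nd (nat_lit 78) (nat_lit 76) (nat_lit 0) (XT.lf (nat_lit 0) (nat_lit 61346055072) (nat_lit 152) (nat_lit 43776537799) (nat_lit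 0) (nat_lit 15203973239) (nat_lit 11) (nat_lit 5) (nat_lit 13) (nat_lit 4) (nat_lit 11) (nat_lit 4) (nat_lit 360) (nat_lit 309) (nat_lit 231)) (XT.nd (nat_lit 78) (nat_lit 0) (nat_lit 0) (XT.lf (nat_lit 0) (nat_lit 2115961256) (nat_lit 76) (nat_lit 86342941962) (nat_lit 76) (nat_lit 40192392046) (nat_lit 10) (nat_lit 4) (nat_lit 11) (nat_lit 5) (nat_lit 11) (nat_lit 4) (nat_lit 361) (nat_lit 309) (nat_lit 230)) (XT.lf (nat_lit 0) (nat_lit 53225224865) (nat_lit 76) (nat_lit 65268755357) (nat_lit 76) (nat_lit 19110364623) (nat_lit 10) (nat_lit 4) (nat_lit 11) (nat_lit 5) (nat_lit 11) (nat_lit 4) (nat_lit 362) (nat_lit 309) (nat_lit 229)))) (XT.nd (nat_lit 78) (nat_lit 76) (nat_lit 0) (XT.lf (nat_lit 0) (nat_lit 3532330126) (nat_lit 152) (nat_lit 38924373992) (nat_lit 76) (nat_lit 104814520851) (nat_lit 9) (nat_lit 5) (nat_lit 11) (nat_lit 5) (nat_lit 10) (nat_lit 4) (nat_lit 363) (nat_lit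 309) (nat_lit 228)) (XT.nd (nat_lit 78) (nat_lit 0) (nat_lit 0) (XT.lf (nat_lit 0) (nat_lit 10153902441) (nat_lit 76) (nat_lit 17322329475) (nat_lit 152) (nat_lit 130211594825) (nat_lit 8) (nat_lit 5) (nat_lit 9) (nat_lit 5) (nat_lit 10) (nat_lit 4) (nat_lit 364) (nat_lit 309) (nat_lit 227)) (XT.lf (nat_lit 0) (nat_lit 54170263461) (nat_lit 152) (nat_lit 104535116936) (nat_lit 0) (nat_lit 10190647001) (nat_lit 8) (nat_lit 5) (nat_lit 10) (nat_lit 4) (nat_lit 8) (nat_lit 4) (nat_lit 365) (nat_lit 309) (nat_lit 226)))))) (XT.nd (nat_lit 390) (nat_lit 152) (nat_lit 0) (XT.nd (nat_lit 156) (nat_lit 76) (nat_lit 0) (XT.nd (nat_lit 78) (nat_lit 0) (nat_lit 0) (XT.lf (nat_lit 0) (nat_lit 83284591978) (nat_lit 152) (nat_lit 58402568187) (nat_lit 0) (nat_lit 39299486722) (nat_lit 8) (nat_lit 5) (nat_lit 10) (nat_lit 4) (nat_lit 8) (nat_lit 4) (nat_lit 366) (nat_lit 309) (nat_lit 225)) (XT.lf (nat_lit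 0) (nat_lit 114721296712) (nat_lit 152) (nat_lit 8592449877) (nat_lit 0) (nat_lit 70731109238) (nat_lit 8) (nat_lit 5) (nat_lit 10) (nat_lit 4) (nat_lit 8) (nat_lit 4) (nat_lit 367) (nat_lit 309) (nat_lit 224))) (XT.nd (nat_lit 78) (nat_lit 0) (nat_lit 0) (XT.lf (nat_lit 0) (nat_lit 46684608074) (nat_lit 76) (nat_lit 102710938739) (nat_lit 76) (nat_lit 58716045507) (nat_lit 7) (nat_lit 4) (nat_lit 8) (nat_lit 5) (nat_lit 8) (nat_lit 4) (nat_lit 368) (nat_lit 309) (nat_lit 223)) (XT.nd (nat_lit 78) (nat_lit 0) (nat_lit 0) (XT.lf (nat_lit 0) (nat_lit 106679119939) (nat_lit 76) (nat_lit 80308307439) (nat_lit 76) (nat_lit 36309057024) (nat_lit 7) (nat_lit 4) (nat_lit 8) (nat_lit 5) (nat_lit 8) (nat_lit 4) (nat_lit 369) (nat_lit 309) (nat_lit 222)) (XT.lf (nat_lit 0) (nat_lit 171462503553) (nat_lit 76) (nat_lit 56118613652) (nat_lit 76) (nat_lit 12115328808) (nat_lit 7) (nat_lit 4) (nat_lit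 8) (nat_lit 5) (nat_lit 8) (nat_lit 4) (nat_lit 370) (nat_lit 309) (nat_lit 221))))) (XT.nd (nat_lit 234) (nat_lit 0) (nat_lit 0) (XT.nd (nat_lit 78) (nat_lit 76) (nat_lit 0) (XT.lf (nat_lit 0) (nat_lit 13560149595) (nat_lit 152) (nat_lit 16208713754) (nat_lit 76) (nat_lit 227628863158) (nat_lit 6) (nat_lit 5) (nat_lit 8) (nat_lit 5) (nat_lit 7) (nat_lit 4) (nat_lit 371) (nat_lit 309) (nat_lit 220)) (XT.nd (nat_lit 78) (nat_lit 0) (nat_lit 0) (XT.lf (nat_lit 0) (nat_lit 41079729722) (nat_lit 76) (nat_lit 427689312) (nat_lit 152) (nat_lit 234965649968) (nat_lit 5) (nat_lit 5) (nat_lit 6) (nat_lit 5) (nat_lit 7) (nat_lit 4) (nat_lit 372) (nat_lit 309) (nat_lit 219)) (XT.lf (nat_lit 0) (nat_lit 72460834081) (nat_lit 152) (nat_lit 194032045706) (nat_lit 0) (nat_lit 30543041740) (nat_lit 5) (nat_lit 5) (nat_lit 7) (nat_lit 4) (nat_lit 5) (nat_lit 4) (nat_lit 373) (nat_lit 309) (nat_lit 218))))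 (XT.nd (nat_lit 78) (nat_lit 0) (nat_lit 0) (XT.lf (nat_lit 0) (nat_lit 105893402233) (nat_lit 152) (nat_lit 149377471120) (nat_lit 0) (nat_lit 63972785678) (nat_lit 5) (nat_lit 5) (nat_lit 7) (nat_lit 4) (nat_lit 5) (nat_lit 4) (nat_lit 374) (nat_lit 309) (nat_lit 217)) (XT.nd (nat_lit 78) (nat_lit 0) (nat_lit 0) (XT.lf (nat_lit 0) (nat_lit 141996564985) (nat_lit 152) (nat_lit 101158318391) (nat_lit 0) (nat_lit 100073333416) (nat_lit 5) (nat_lit 5) (nat_lit 7) (nat_lit 4) (nat_lit 5) (nat_lit 4) (nat_lit 375) (nat_lit 309) (nat_lit 216)) (XT.lf (nat_lit 0) (nat_lit 180984267006) (nat_lit 152) (nat_lit 49088844394) (nat_lit 0) (nat_lit 139058614127) (nat_lit 5) (nat_lit 5) (nat_lit 7) (nat_lit 4) (nat_lit 5) (nat_lit 4) (nat_lit 376) (nat_lit 309) (nat_lit 215))))))))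
noncomputable def xc66 : XT := (XT.nd (nat_lit 42354) (nat_lit 0) (nat_lit 2204) (XT.nd (nat_lit 858) (nat_lit 0) (nat_lit 0) (XT.nd (nat_lit 390) (nat_lit 152) (nat_lit 0) (XT.nd (nat_lit 156) (nat_lit 0) (nat_lit 0) (XT.nd (nat_lit 78) (nat_lit 0) (nat_lit 0) (XT.lf (nat_lit 0) (nat_lit 7375575185) (nat_lit 76) (nat_lit 215827124741) (nat_lit 76) (nat_lit 173899229910) (nat_lit 4) (nat_lit 4) (nat_lit 5) (nat_lit 5) (nat_lit 5) (nat_lit 4) (nat_lit 377) (nat_lit 309) (nat_lit 214)) (XT.lf (nat_lit 0) (nat_lit 70103708491) (nat_lit 76) (nat_lit 199546711331) (nat_lit 76) (nat_lit 157616740618) (nat_lit 4) (nat_lit 4) (nat_lit 5) (nat_lit 5) (nat_lit 5) (nat_lit 4) (nat_lit 378) (nat_lit 309) (nat_lit 213))) (XT.nd (nat_lit 78) (nat_lit 0) (nat_lit 0) (XT.lf (nat_lit 0) (nat_lit 137844178907) (nat_lit 76) (nat_lit 181966737979) (nat_lit 76) (nat_lit 140034845153) (nat_lit 4) (nat_lit 4)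 (nat_lit 5) (nat_lit 5) (nat_lit 5) (nat_lit 4) (nat_lit 379) (nat_lit 309) (nat_lit 212)) (XT.nd (nat_lit 78) (nat_lit 0) (nat_lit 0) (XT.lf (nat_lit 0) (nat_lit 210998411444) (nat_lit 76) (nat_lit 162983027066) (nat_lit 76) (nat_lit 121049354505) (nat_lit 4) (nat_lit 4) (nat_lit 5) (nat_lit 5) (nat_lit 5) (nat_lit 4) (nat_lit 380) (nat_lit 309) (nat_lit 211)) (XT.lf (nat_lit 0) (nat_lit 289999912663) (nat_lit 76) (nat_lit 142483082526) (nat_lit 76) (nat_lit 100547762063) (nat_lit 4) (nat_lit 4) (nat_lit 5) (nat_lit 5) (nat_lit 5) (nat_lit 4) (nat_lit 381) (nat_lit 309) (nat_lit 210))))) (XT.nd (nat_lit 234) (nat_lit 152) (nat_lit 0) (XT.nd (nat_lit 78) (nat_lit 0) (nat_lit 0) (XT.lf (nat_lit 0) (nat_lit 375316839609) (nat_lit 76) (nat_lit 120345423207) (nat_lit 76) (nat_lit 78408576908) (nat_lit 4) (nat_lit 4) (nat_lit 5) (nat_lit 5) (nat_lit 5) (nat_lit 4) (nat_lit 382) (nat_lit 309)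 (nat_lit 209)) (XT.nd (nat_lit 78) (nat_lit 0) (nat_lit 0) (XT.lf (nat_lit 0) (nat_lit 467454774073) (nat_lit 76) (nat_lit 96438862979) (nat_lit 76) (nat_lit 54500603870) (nat_lit 4) (nat_lit 4) (nat_lit 5) (nat_lit 5) (nat_lit 5) (nat_lit 4) (nat_lit 383) (nat_lit 309) (nat_lit 208)) (XT.lf (nat_lit 0) (nat_lit 566959718628) (nat_lit 76) (nat_lit 70621733337) (nat_lit 76) (nat_lit 28682166071) (nat_lit 4) (nat_lit 4) (nat_lit 5) (nat_lit 5) (nat_lit 5) (nat_lit 4) (nat_lit 384) (nat_lit 309) (nat_lit 207)))) (XT.nd (nat_lit 78) (nat_lit 152) (nat_lit 0) (XT.lf (nat_lit 0) (nat_lit 674421332204) (nat_lit 76) (nat_lit 42741043884) (nat_lit 76) (nat_lit 800265360) (nat_lit 4) (nat_lit 4) (nat_lit 5) (nat_lit 5) (nat_lit 5) (nat_lit 4) (nat_lit 385) (nat_lit 309) (nat_lit 206)) (XT.nd (nat_lit 78) (nat_lit 0) (nat_lit 0) (XT.lf (nat_lit 0) (nat_lit 16757476204) (nat_lit 76) (nat_lit 11876365875)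 (nat_lit 152) (nat_lit 745127871294) (nat_lit 2) (nat_lit 5) (nat_lit 3) (nat_lit 5) (nat_lit 4) (nat_lit 4) (nat_lit 386) (nat_lit 309) (nat_lit 205)) (XT.lf (nat_lit 0) (nat_lit 61499174543) (nat_lit 152) (nat_lit 750916135317) (nat_lit 0) (nat_lit 21553518813) (nat_lit 2) (nat_lit 5) (nat_lit 4) (nat_lit 4) (nat_lit 2) (nat_lit 4) (nat_lit 387) (nat_lit 309) (nat_lit 204)))))) (XT.nd (nat_lit 41028) (nat_lit 0) (nat_lit 6764) (XT.nd (nat_lit 40794) (nat_lit 0) (nat_lit 8056) (XT.nd (nat_lit 78) (nat_lit 0) (nat_lit 0) (XT.lf (nat_lit 0) (nat_lit 97192372483) (nat_lit 152) (nat_lit 744544408016) (nat_lit 0) (nat_lit 57245801005) (nat_lit 2) (nat_lit 5) (nat_lit 4) (nat_lit 4) (nat_lit 2) (nat_lit 4) (nat_lit 388) (nat_lit 309) (nat_lit 203)) (XT.lf (nat_lit 0) (nat_lit 135739527791) (nat_lit 152) (nat_lit 737665873527) (nat_lit 0) (nat_lit 95792108399) (nat_lit 2) (nat_lit 5) (nat_lit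 4) (nat_lit 4) (nat_lit 2) (nat_lit 4) (nat_lit 389) (nat_lit 309) (nat_lit 202))) (XT.nd (nat_lit 78) (nat_lit 608) (nat_lit 0) (XT.lf (nat_lit 0) (nat_lit 3779981713) (nat_lit 684) (nat_lit 451817423) (nat_lit 684) (nat_lit 451817423) (nat_lit 116) (nat_lit 3) (nat_lit 125) (nat_lit 3) (nat_lit 125) (nat_lit 5) (nat_lit 310) (nat_lit 310) (nat_lit 280)) (XT.nd (nat_lit 78) (nat_lit 608) (nat_lit 0) (XT.lf (nat_lit 76) (nat_lit 6345917518) (nat_lit 0) (nat_lit 2828987703) (nat_lit 684) (nat_lit 499634506) (nat_lit 117) (nat_lit 5) (nat_lit 116) (nat_lit 3) (nat_lit 125) (nat_lit 5) (nat_lit 311) (nat_lit 310) (nat_lit 279)) (XT.lf (nat_lit 0) (nat_lit 894473097) (nat_lit 684) (nat_lit 5807804487) (nat_lit 760) (nat_lit 3303054589) (nat_lit 108) (nat_lit 5) (nat_lit 117) (nat_lit 5) (nat_lit 118) (nat_lit 5) (nat_lit 312) (nat_lit 310) (nat_lit 278))))) (XT.nd (nat_lit 234) (nat_lit 1292)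 (nat_lit 0) (XT.nd (nat_lit 78) (nat_lit 0) (nat_lit 76) (XT.lf (nat_lit 76) (nat_lit 2018557073) (nat_lit 0) (nat_lit 386771002) (nat_lit 760) (nat_lit 7955869113) (nat_lit 109) (nat_lit 5) (nat_lit 108) (nat_lit 5) (nat_lit 118) (nat_lit 5) (nat_lit 313) (nat_lit 310) (nat_lit 277)) (XT.nd (nat_lit 78) (nat_lit 0) (nat_lit 76) (XT.lf (nat_lit 0) (nat_lit 4132718773) (nat_lit 684) (nat_lit 241004682) (nat_lit 760) (nat_lit 6367167997) (nat_lit 109) (nat_lit 5) (nat_lit 118) (nat_lit 5) (nat_lit 119) (nat_lit 5) (nat_lit 314) (nat_lit 310) (nat_lit 276)) (XT.lf (nat_lit 0) (nat_lit 6082832910) (nat_lit 684) (nat_lit 2480757775) (nat_lit 760) (nat_lit 2583276750) (nat_lit 110) (nat_lit 5) (nat_lit 119) (nat_lit 5) (nat_lit 120) (nat_lit 5) (nat_lit 315) (nat_lit 310) (nat_lit 275)))) (XT.nd (nat_lit 78) (nat_lit 1444) (nat_lit 0) (XT.lf (nat_lit 76) (nat_lit 6779204394) (nat_lit 0) (nat_lit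 1500682182) (nat_lit 760) (nat_lit 3301011356) (nat_lit 111) (nat_lit 5) (nat_lit 110) (nat_lit 5) (nat_lit 120) (nat_lit 5) (nat_lit 316) (nat_lit 310) (nat_lit 274)) (XT.nd (nat_lit 78) (nat_lit 836) (nat_lit 0) (XT.lf (nat_lit 0) (nat_lit 4803637874) (nat_lit 684) (nat_lit 5976778663) (nat_lit 760) (nat_lit 1262962574) (nat_lit 102) (nat_lit 5) (nat_lit 111) (nat_lit 5) (nat_lit 112) (nat_lit 5) (nat_lit 317) (nat_lit 310) (nat_lit 273)) (XT.lf (nat_lit 0) (nat_lit 1007064577) (nat_lit 836) (nat_lit 9783299181) (nat_lit 76) (nat_lit 1746915055) (nat_lit 91) (nat_lit 5) (nat_lit 102) (nat_lit 5) (nat_lit 92) (nat_lit 5) (nat_lit 318) (nat_lit 310) (nat_lit 272))))))) (XT.nd (nat_lit 858) (nat_lit 1748) (nat_lit 0) (XT.nd (nat_lit 390) (nat_lit 1368) (nat_lit 0) (XT.nd (nat_lit 156) (nat_lit 1064) (nat_lit 0) (XT.nd (nat_lit 78) (nat_lit 0) (nat_lit 0) (XT.lf (nat_lit 0) (nat_lit 559863843)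 (nat_lit 380) (nat_lit 3015023159) (nat_lit 456) (nat_lit 9486839170) (nat_lit 86) (nat_lit 5) (nat_lit 91) (nat_lit 5) (nat_lit 92) (nat_lit 5) (nat_lit 319) (nat_lit 310) (nat_lit 271)) (XT.lf (nat_lit 0) (nat_lit 6532193224) (nat_lit 456) (nat_lit 1702347006) (nat_lit 76) (nat_lit 5384472262) (nat_lit 86) (nat_lit 5) (nat_lit 92) (nat_lit 5) (nat_lit 87) (nat_lit 5) (nat_lit 320) (nat_lit 310) (nat_lit 270))) (XT.nd (nat_lit 78) (nat_lit 760) (nat_lit 0) (XT.lf (nat_lit 0) (nat_lit 9872515262) (nat_lit 380) (nat_lit 4053007304) (nat_lit 76) (nat_lit 288117280) (nat_lit 82) (nat_lit 5) (nat_lit 87) (nat_lit 5) (nat_lit 83) (nat_lit 5) (nat_lit 321) (nat_lit 310) (nat_lit 269)) (XT.nd (nat_lit 78) (nat_lit 380) (nat_lit 0) (XT.lf (nat_lit 0) (nat_lit 8232953869) (nat_lit 380) (nat_lit 5480792140) (nat_lit 456) (nat_lit 1130481024) (nat_lit 77) (nat_lit 5) (nat_lit 82) (nat_lit 5) (nat_lit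 83) (nat_lit 5) (nat_lit 322) (nat_lit 310) (nat_lit 268)) (XT.lf (nat_lit 0) (nat_lit 2429877699) (nat_lit 380) (nat_lit 9361396775) (nat_lit 76) (nat_lit 3723844290) (nat_lit 72) (nat_lit 5) (nat_lit 77) (nat_lit 5) (nat_lit 73) (nat_lit 5) (nat_lit 323) (nat_lit 310) (nat_lit 267))))) (XT.nd (nat_lit 234) (nat_lit 836) (nat_lit 0) (XT.nd (nat_lit 78) (nat_lit 228) (nat_lit 0) (XT.lf (nat_lit 0) (nat_lit 3883886940) (nat_lit 304) (nat_lit 2564353712) (nat_lit 380) (nat_lit 9779935706) (nat_lit 68) (nat_lit 5) (nat_lit 72) (nat_lit 5) (nat_lit 73) (nat_lit 5) (nat_lit 324) (nat_lit 310) (nat_lit 266)) (XT.nd (nat_lit 78) (nat_lit 0) (nat_lit 0) (XT.lf (nat_lit 0) (nat_lit 1390509992) (nat_lit 228) (nat_lit 9645780150) (nat_lit 304) (nat_lit 5949633330) (nat_lit 65) (nat_lit 5) (nat_lit 68) (nat_lit 5) (nat_lit 69) (nat_lit 5) (nat_lit 325) (nat_lit 310) (nat_lit 265)) (XT.lf (nat_lit 0)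 (nat_lit 16202783870) (nat_lit 304) (nat_lit 1245143752) (nat_lit 76) (nat_lit 345844376) (nat_lit 65) (nat_lit 5) (nat_lit 69) (nat_lit 5) (nat_lit 66) (nat_lit 5) (nat_lit 326) (nat_lit 310) (nat_lit 264)))) (XT.nd (nat_lit 78) (nat_lit 456) (nat_lit 0) (XT.lf (nat_lit 0) (nat_lit 3362921048) (nat_lit 380) (nat_lit 4212307708) (nat_lit 76) (nat_lit 11071316706) (nat_lit 60) (nat_lit 5) (nat_lit 65) (nat_lit 5) (nat_lit 61) (nat_lit 5) (nat_lit 327) (nat_lit 310) (nat_lit 263)) (XT.nd (nat_lit 78) (nat_lit 228) (nat_lit 0) (XT.lf (nat_lit 0) (nat_lit 8875400036) (nat_lit 304) (nat_lit 7464259478) (nat_lit 76) (nat_lit 3215719502) (nat_lit 57) (nat_lit 5) (nat_lit 61) (nat_lit 5) (nat_lit 58) (nat_lit 5) (nat_lit 328) (nat_lit 310) (nat_lit 262)) (XT.lf (nat_lit 0) (nat_lit 9427552117) (nat_lit 228) (nat_lit 5706802499) (nat_lit 304) (nat_lit 5387329827) (nat_lit 54) (nat_lit 5) (nat_lit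 57) (nat_lit 5) (nat_lit 58) (nat_lit 5) (nat_lit 329) (nat_lit 310) (nat_lit 261)))))) (XT.nd (nat_lit 390) (nat_lit 836) (nat_lit 0) (XT.nd (nat_lit 156) (nat_lit 456) (nat_lit 0) (XT.nd (nat_lit 78) (nat_lit 228) (nat_lit 0) (XT.lf (nat_lit 0) (nat_lit 603595694) (nat_lit 228) (nat_lit 15129473692) (nat_lit 76) (nat_lit 5817733443) (nat_lit 51) (nat_lit 5) (nat_lit 54) (nat_lit 5) (nat_lit 52) (nat_lit 5) (nat_lit 330) (nat_lit 310) (nat_lit 260)) (XT.lf (nat_lit 0) (nat_lit 2925836657) (nat_lit 228) (nat_lit 4259643281) (nat_lit 304) (nat_lit 15457365268) (nat_lit 48) (nat_lit 5) (nat_lit 51) (nat_lit 5) (nat_lit 52) (nat_lit 5) (nat_lit 331) (nat_lit 310) (nat_lit 259))) (XT.nd (nat_lit 78) (nat_lit 456) (nat_lit 0) (XT.lf (nat_lit 0) (nat_lit 14650142444) (nat_lit 304) (nat_lit 1032779417) (nat_lit 76) (nat_lit 8121547261) (nat_lit 48) (nat_lit 5) (nat_lit 52) (nat_lit 5) (nat_lit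 49) (nat_lit 5) (nat_lit 332) (nat_lit 310) (nat_lit 258)) (XT.nd (nat_lit 78) (nat_lit 304) (nat_lit 0) (XT.lf (nat_lit 0) (nat_lit 19649311685) (nat_lit 152) (nat_lit 3405534933) (nat_lit 228) (nat_lit 1987060239) (nat_lit 46) (nat_lit 5) (nat_lit 48) (nat_lit 5) (nat_lit 49) (nat_lit 5) (nat_lit 333) (nat_lit 310) (nat_lit 257)) (XT.lf (nat_lit 0) (nat_lit 5962721405) (nat_lit 304) (nat_lit 10506517006) (nat_lit 76) (nat_lit 9884969594) (nat_lit 42) (nat_lit 5) (nat_lit 46) (nat_lit 5) (nat_lit 43) (nat_lit 5) (nat_lit 334) (nat_lit 310) (nat_lit 256))))) (XT.nd (nat_lit 234) (nat_lit 304) (nat_lit 0) (XT.nd (nat_lit 78) (nat_lit 380) (nat_lit 0) (XT.lf (nat_lit 0) (nat_lit 11434623728) (nat_lit 152) (nat_lit 3343613262) (nat_lit 228) (nat_lit 12976681425) (nat_lit 40) (nat_lit 5) (nat_lit 42) (nat_lit 5) (nat_lit 43) (nat_lit 5) (nat_lit 335) (nat_lit 310) (nat_lit 255)) (XT.nd (nat_lit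 78) (nat_lit 228) (nat_lit 0) (XT.lf (nat_lit 0) (nat_lit 6223883695) (nat_lit 152) (nat_lit 18495813950) (nat_lit 228) (nat_lit 4526973491) (nat_lit 38) (nat_lit 5) (nat_lit 40) (nat_lit 5) (nat_lit 41) (nat_lit 5) (nat_lit 336) (nat_lit 310) (nat_lit 254)) (XT.lf (nat_lit 0) (nat_lit 132520910) (nat_lit 152) (nat_lit 4635866421) (nat_lit 228) (nat_lit 26069961846) (nat_lit 35) (nat_lit 5) (nat_lit 37) (nat_lit 5) (nat_lit 38) (nat_lit 5) (nat_lit 337) (nat_lit 310) (nat_lit 253)))) (XT.nd (nat_lit 78) (nat_lit 304) (nat_lit 0) (XT.lf (nat_lit 0) (nat_lit 15190531510) (nat_lit 228) (nat_lit 6867890141) (nat_lit 76) (nat_lit 10468158171) (nat_lit 35) (nat_lit 5) (nat_lit 38) (nat_lit 5) (nat_lit 36) (nat_lit 5) (nat_lit 338) (nat_lit 310) (nat_lit 252)) (XT.nd (nat_lit 78) (nat_lit 152) (nat_lit 0) (XT.lf (nat_lit 0) (nat_lit 19373870597) (nat_lit 152) (nat_lit 7426092418) (nat_lit 228)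 (nat_lit 7532245741) (nat_lit 33) (nat_lit 5) (nat_lit 35) (nat_lit 5) (nat_lit 36) (nat_lit 5) (nat_lit 339) (nat_lit 310) (nat_lit 251)) (XT.lf (nat_lit 0) (nat_lit 3376701357) (nat_lit 152) (nat_lit 24428728559) (nat_lit 76) (nat_lit 8453553994) (nat_lit 31) (nat_lit 5) (nat_lit 33) (nat_lit 5) (nat_lit 32) (nat_lit 5) (nat_lit 340) (nat_lit 310) (nat_lit 250))))))))
noncomputable def xc67 : XT := (XT.nd (nat_lit 1716) (nat_lit 456) (nat_lit 0) (XT.nd (nat_lit 858) (nat_lit 608) (nat_lit 0) (XT.nd (nat_lit 390) (nat_lit 532) (nat_lit 0) (XT.nd (nat_lit 156) (nat_lit 304) (nat_lit 0) (XT.nd (nat_lit 78) (nat_lit 0) (nat_lit 0) (XT.lf (nat_lit 0) (nat_lit 2757867696) (nat_lit 152) (nat_lit 12548025413) (nat_lit 228) (nat_lit 23007275649) (nat_lit 29) (nat_lit 5) (nat_lit 31) (nat_lit 5) (nat_lit 32) (nat_lit 5) (nat_lit 341) (nat_lit 310) (nat_lit 249)) (XT.lf (nat_lit 0) (nat_lit 28659023603)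 (nat_lit 228) (nat_lit 7629205529) (nat_lit 76) (nat_lit 4219990906) (nat_lit 29) (nat_lit 5) (nat_lit 32) (nat_lit 5) (nat_lit 30) (nat_lit 4) (nat_lit 342) (nat_lit 310) (nat_lit 248))) (XT.nd (nat_lit 78) (nat_lit 152) (nat_lit 0) (XT.lf (nat_lit 0) (nat_lit 752536662) (nat_lit 152) (nat_lit 19846585131) (nat_lit 76) (nat_lit 22251733837) (nat_lit 27) (nat_lit 5) (nat_lit 29) (nat_lit 5) (nat_lit 28) (nat_lit 5) (nat_lit 343) (nat_lit 310) (nat_lit 247)) (XT.nd (nat_lit 78) (nat_lit 0) (nat_lit 0) (XT.lf (nat_lit 0) (nat_lit 11101855836) (nat_lit 152) (nat_lit 3137624427) (nat_lit 228) (nat_lit 31117108498) (nat_lit 25) (nat_lit 5) (nat_lit 27) (nat_lit 5) (nat_lit 28) (nat_lit 5) (nat_lit 344) (nat_lit 310) (nat_lit 246)) (XT.lf (nat_lit 0) (nat_lit 29381257672) (nat_lit 228) (nat_lit 3098962273) (nat_lit 76) (nat_lit 15553775613) (nat_lit 25) (nat_lit 5) (nat_lit 28) (nat_lit 5) (nat_lit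 26) (nat_lit 4) (nat_lit 345) (nat_lit 310) (nat_lit 245))))) (XT.nd (nat_lit 234) (nat_lit 228) (nat_lit 0) (XT.nd (nat_lit 78) (nat_lit 228) (nat_lit 0) (XT.lf (nat_lit 0) (nat_lit 31469088331) (nat_lit 76) (nat_lit 14790118020) (nat_lit 152) (nat_lit 4640155364) (nat_lit 24) (nat_lit 5) (nat_lit 25) (nat_lit 5) (nat_lit 26) (nat_lit 4) (nat_lit 346) (nat_lit 310) (nat_lit 244)) (XT.nd (nat_lit 78) (nat_lit 0) (nat_lit 0) (XT.lf (nat_lit 0) (nat_lit 10505756573) (nat_lit 228) (nat_lit 38836225171) (nat_lit 76) (nat_lit 4626382205) (nat_lit 21) (nat_lit 5) (nat_lit 24) (nat_lit 5) (nat_lit 22) (nat_lit 4) (nat_lit 347) (nat_lit 310) (nat_lit 243)) (XT.lf (nat_lit 0) (nat_lit 27278227141) (nat_lit 228) (nat_lit 4478580055) (nat_lit 76) (nat_lit 25493409809) (nat_lit 21) (nat_lit 5) (nat_lit 24) (nat_lit 5) (nat_lit 22) (nat_lit 4) (nat_lit 348) (nat_lit 310) (nat_lit 242)))) (XT.nd (nat_lit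 78) (nat_lit 152) (nat_lit 0) (XT.lf (nat_lit 0) (nat_lit 33675090742) (nat_lit 76) (nat_lit 12226390241) (nat_lit 152) (nat_lit 14867694292) (nat_lit 20) (nat_lit 5) (nat_lit 21) (nat_lit 5) (nat_lit 22) (nat_lit 4) (nat_lit 349) (nat_lit 310) (nat_lit 241)) (XT.nd (nat_lit 78) (nat_lit 0) (nat_lit 0) (XT.lf (nat_lit 0) (nat_lit 1772474788) (nat_lit 152) (nat_lit 53933252501) (nat_lit 76) (nat_lit 8844111594) (nat_lit 18) (nat_lit 5) (nat_lit 20) (nat_lit 5) (nat_lit 19) (nat_lit 4) (nat_lit 350) (nat_lit 310) (nat_lit 240)) (XT.lf (nat_lit 0) (nat_lit 19900092857) (nat_lit 152) (nat_lit 16791231434) (nat_lit 76) (nat_lit 31895593407) (nat_lit 18) (nat_lit 5) (nat_lit 20) (nat_lit 5) (nat_lit 19) (nat_lit 4) (nat_lit 351) (nat_lit 310) (nat_lit 239)))))) (XT.nd (nat_lit 390) (nat_lit 304) (nat_lit 0) (XT.nd (nat_lit 156) (nat_lit 228) (nat_lit 0) (XT.nd (nat_lit 78) (nat_lit 0) (nat_lit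 0) (XT.lf (nat_lit 0) (nat_lit 24065630407) (nat_lit 76) (nat_lit 15773489894) (nat_lit 152) (nat_lit 33089787247) (nat_lit 17) (nat_lit 5) (nat_lit 18) (nat_lit 5) (nat_lit 19) (nat_lit 4) (nat_lit 352) (nat_lit 310) (nat_lit 238)) (XT.lf (nat_lit 0) (nat_lit 61762962972) (nat_lit 152) (nat_lit 8950342366) (nat_lit 0) (nat_lit 6885470972) (nat_lit 17) (nat_lit 5) (nat_lit 19) (nat_lit 4) (nat_lit 17) (nat_lit 4) (nat_lit 353) (nat_lit 310) (nat_lit 237))) (XT.nd (nat_lit 78) (nat_lit 76) (nat_lit 0) (XT.lf (nat_lit 0) (nat_lit 3521195391) (nat_lit 152) (nat_lit 47673856604) (nat_lit 76) (nat_lit 31404387550) (nat_lit 15) (nat_lit 5) (nat_lit 17) (nat_lit 5) (nat_lit 16) (nat_lit 4) (nat_lit 354) (nat_lit 310) (nat_lit 236)) (XT.nd (nat_lit 78) (nat_lit 76) (nat_lit 0) (XT.lf (nat_lit 0) (nat_lit 24025233243) (nat_lit 152) (nat_lit 5654296745) (nat_lit 76) (nat_lit 58299985340) (nat_lit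 15) (nat_lit 5) (nat_lit 17) (nat_lit 5) (nat_lit 16) (nat_lit 4) (nat_lit 355) (nat_lit 310) (nat_lit 235)) (XT.lf (nat_lit 0) (nat_lit 41017844102) (nat_lit 76) (nat_lit 5780483023) (nat_lit 152) (nat_lit 46960236708) (nat_lit 14) (nat_lit 5) (nat_lit 15) (nat_lit 5) (nat_lit 16) (nat_lit 4) (nat_lit 356) (nat_lit 310) (nat_lit 234))))) (XT.nd (nat_lit 234) (nat_lit 152) (nat_lit 0) (XT.nd (nat_lit 78) (nat_lit 152) (nat_lit 0) (XT.lf (nat_lit 0) (nat_lit 71794825745) (nat_lit 152) (nat_lit 8704959697) (nat_lit 0) (nat_lit 19480075979) (nat_lit 14) (nat_lit 5) (nat_lit 16) (nat_lit 4) (nat_lit 14) (nat_lit 4) (nat_lit 357) (nat_lit 310) (nat_lit 233)) (XT.nd (nat_lit 78) (nat_lit 76) (nat_lit 0) (XT.lf (nat_lit 0) (nat_lit 40017299951) (nat_lit 76) (nat_lit 59485548154) (nat_lit 76) (nat_lit 7160427356) (nat_lit 13) (nat_lit 4) (nat_lit 14) (nat_lit 5) (nat_lit 14) (nat_lit 4) (nat_lit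 358) (nat_lit 310) (nat_lit 232)) (XT.lf (nat_lit 0) (nat_lit 15192562326) (nat_lit 152) (nat_lit 21189970835) (nat_lit 76) (nat_lit 77479496687) (nat_lit 12) (nat_lit 5) (nat_lit 14) (nat_lit 5) (nat_lit 13) (nat_lit 4) (nat_lit 359) (nat_lit 310) (nat_lit 231)))) (XT.nd (nat_lit 78) (nat_lit 76) (nat_lit 0) (XT.lf (nat_lit 0) (nat_lit 28682023877) (nat_lit 76) (nat_lit 10842678059) (nat_lit 152) (nat_lit 82084026902) (nat_lit 11) (nat_lit 5) (nat_lit 12) (nat_lit 5) (nat_lit 13) (nat_lit 4) (nat_lit 360) (nat_lit 310) (nat_lit 230)) (XT.nd (nat_lit 78) (nat_lit 76) (nat_lit 0) (XT.lf (nat_lit 0) (nat_lit 66430864570) (nat_lit 152) (nat_lit 46940966970) (nat_lit 0) (nat_lit 16571961759) (nat_lit 11) (nat_lit 5) (nat_lit 13) (nat_lit 4) (nat_lit 11) (nat_lit 4) (nat_lit 361) (nat_lit 310) (nat_lit 229)) (XT.lf (nat_lit 0) (nat_lit 2608256247) (nat_lit 76) (nat_lit 93096407162) (nat_lit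 76) (nat_lit 43230244334) (nat_lit 10) (nat_lit 4) (nat_lit 11) (nat_lit 5) (nat_lit 11) (nat_lit 4) (nat_lit 362) (nat_lit 310) (nat_lit 228))))))) (XT.nd (nat_lit 858) (nat_lit 76) (nat_lit 0) (XT.nd (nat_lit 390) (nat_lit 228) (nat_lit 0) (XT.nd (nat_lit 156) (nat_lit 76) (nat_lit 0) (XT.nd (nat_lit 78) (nat_lit 76) (nat_lit 0) (XT.lf (nat_lit 0) (nat_lit 57782333678) (nat_lit 76) (nat_lit 70347690826) (nat_lit 76) (nat_lit 20474805760) (nat_lit 10) (nat_lit 4) (nat_lit 11) (nat_lit 5) (nat_lit 11) (nat_lit 4) (nat_lit 363) (nat_lit 310) (nat_lit 227)) (XT.lf (nat_lit 0) (nat_lit 3962255970) (nat_lit 152) (nat_lit 41756484620) (nat_lit 76) (nat_lit 113326783768) (nat_lit 9) (nat_lit 5) (nat_lit 11) (nat_lit 5) (nat_lit 10) (nat_lit 4) (nat_lit 364) (nat_lit 310) (nat_lit 226))) (XT.nd (nat_lit 78) (nat_lit 0) (nat_lit 0) (XT.lf (nat_lit 0) (nat_lit 11235805536) (nat_lit 76) (nat_lit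 18579159406) (nat_lit 152) (nat_lit 140480826923) (nat_lit 8) (nat_lit 5) (nat_lit 9) (nat_lit 5) (nat_lit 10) (nat_lit 4) (nat_lit 365) (nat_lit 310) (nat_lit 225)) (XT.nd (nat_lit 78) (nat_lit 0) (nat_lit 0) (XT.lf (nat_lit 0) (nat_lit 58635965874) (nat_lit 152) (nat_lit 112643631342) (nat_lit 0) (nat_lit 11121481184) (nat_lit 8) (nat_lit 5) (nat_lit 10) (nat_lit 4) (nat_lit 8) (nat_lit 4) (nat_lit 366) (nat_lit 310) (nat_lit 224)) (XT.lf (nat_lit 0) (nat_lit 90069656869) (nat_lit 152) (nat_lit 62839315356) (nat_lit 0) (nat_lit 42550466421) (nat_lit 8) (nat_lit 5) (nat_lit 10) (nat_lit 4) (nat_lit 8) (nat_lit 4) (nat_lit 367) (nat_lit 310) (nat_lit 223))))) (XT.nd (nat_lit 234) (nat_lit 152) (nat_lit 0) (XT.nd (nat_lit 78) (nat_lit 76) (nat_lit 0) (XT.lf (nat_lit 0) (nat_lit 124012238906) (nat_lit 152) (nat_lit 9061828935) (nat_lit 0) (nat_lit 76488691275) (nat_lit 8) (nat_lit 5) (nat_lit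 10) (nat_lit 4) (nat_lit 8) (nat_lit 4) (nat_lit 368) (nat_lit 310) (nat_lit 222)) (XT.nd (nat_lit 78) (nat_lit 0) (nat_lit 0) (XT.lf (nat_lit 0) (nat_lit 50627918901) (nat_lit 76) (nat_lit 110827378008) (nat_lit 76) (nat_lit 63299795948) (nat_lit 7) (nat_lit 4) (nat_lit 8) (nat_lit 5) (nat_lit 8) (nat_lit 4) (nat_lit 369) (nat_lit 310) (nat_lit 221)) (XT.lf (nat_lit 0) (nat_lit 115406544146) (nat_lit 76) (nat_lit 86639975895) (nat_lit 76) (nat_lit 39108658253) (nat_lit 7) (nat_lit 4) (nat_lit 8) (nat_lit 5) (nat_lit 8) (nat_lit 4) (nat_lit 370) (nat_lit 310) (nat_lit 220)))) (XT.nd (nat_lit 78) (nat_lit 152) (nat_lit 0) (XT.lf (nat_lit 0) (nat_lit 185358295145) (nat_lit 76) (nat_lit 60521995208) (nat_lit 76) (nat_lit 12987218694) (nat_lit 7) (nat_lit 4) (nat_lit 8) (nat_lit 5) (nat_lit 8) (nat_lit 4) (nat_lit 371) (nat_lit 310) (nat_lit 219)) (XT.nd (nat_lit 78) (nat_lit 76) (nat_lit 0)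 (XT.lf (nat_lit 0) (nat_lit 14732203272) (nat_lit 152) (nat_lit 17336962464) (nat_lit 76) (nat_lit 245916000528) (nat_lit 6) (nat_lit 5) (nat_lit 8) (nat_lit 5) (nat_lit 7) (nat_lit 4) (nat_lit 372) (nat_lit 310) (nat_lit 218)) (XT.lf (nat_lit 0) (nat_lit 44527235928) (nat_lit 76) (nat_lit 384071646) (nat_lit 152) (nat_lit 253675427124) (nat_lit 5) (nat_lit 5) (nat_lit 6) (nat_lit 5) (nat_lit 7) (nat_lit 4) (nat_lit 373) (nat_lit 310) (nat_lit 217)))))) (XT.nd (nat_lit 390) (nat_lit 0) (nat_lit 0) (XT.nd (nat_lit 156) (nat_lit 76) (nat_lit 0) (XT.nd (nat_lit 78) (nat_lit 0) (nat_lit 0) (XT.lf (nat_lit 0) (nat_lit 78335950998) (nat_lit 152) (nat_lit 209402671896) (nat_lit 0) (nat_lit 33056245889) (nat_lit 5) (nat_lit 5) (nat_lit 7) (nat_lit 4) (nat_lit 5) (nat_lit 4) (nat_lit 374) (nat_lit 310) (nat_lit 216)) (XT.lf (nat_lit 0) (nat_lit 114437328292) (nat_lit 152) (nat_lit 161186985970)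 (nat_lit 0) (nat_lit 69155201875) (nat_lit 5) (nat_lit 5) (nat_lit 7) (nat_lit 4) (nat_lit 5) (nat_lit 4) (nat_lit 375) (nat_lit 310) (nat_lit 215))) (XT.nd (nat_lit 78) (nat_lit 76) (nat_lit 0) (XT.lf (nat_lit 0) (nat_lit 153423377110) (nat_lit 152) (nat_lit 109120721975) (nat_lit 0) (nat_lit 108139008740) (nat_lit 5) (nat_lit 5) (nat_lit 7) (nat_lit 4) (nat_lit 5) (nat_lit 4) (nat_lit 376) (nat_lit 310) (nat_lit 214)) (XT.nd (nat_lit 78) (nat_lit 76) (nat_lit 0) (XT.lf (nat_lit 0) (nat_lit 195525125890) (nat_lit 152) (nat_lit 52895339086) (nat_lit 0) (nat_lit 150238681638) (nat_lit 5) (nat_lit 5) (nat_lit 7) (nat_lit 4) (nat_lit 5) (nat_lit 4) (nat_lit 377) (nat_lit 310) (nat_lit 213)) (XT.lf (nat_lit 0) (nat_lit 8080992371) (nat_lit 76) (nat_lit 233037241042) (nat_lit 76) (nat_lit 187748874677) (nat_lit 4) (nat_lit 4) (nat_lit 5) (nat_lit 5) (nat_lit 5) (nat_lit 4) (nat_lit 378) (nat_lit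 310) (nat_lit 212))))) (XT.nd (nat_lit 234) (nat_lit 0) (nat_lit 0) (XT.nd (nat_lit 78) (nat_lit 0) (nat_lit 0) (XT.lf (nat_lit 0) (nat_lit 75818830329) (nat_lit 76) (nat_lit 215458546684) (nat_lit 76) (nat_lit 170168400584) (nat_lit 4) (nat_lit 4) (nat_lit 5) (nat_lit 5) (nat_lit 5) (nat_lit 4) (nat_lit 379) (nat_lit 310) (nat_lit 211)) (XT.nd (nat_lit 78) (nat_lit 0) (nat_lit 0) (XT.lf (nat_lit 0) (nat_lit 148970625404) (nat_lit 76) (nat_lit 196476020023) (nat_lit 76) (nat_lit 151184226021) (nat_lit 4) (nat_lit 4) (nat_lit 5) (nat_lit 5) (nat_lit 5) (nat_lit 4) (nat_lit 380) (nat_lit 310) (nat_lit 210)) (XT.lf (nat_lit 0) (nat_lit 227969869715) (nat_lit 76) (nat_lit 175977172014) (nat_lit 76) (nat_lit 130683852177) (nat_lit 4) (nat_lit 4) (nat_lit 5) (nat_lit 5) (nat_lit 5) (nat_lit 4) (nat_lit 381) (nat_lit 310) (nat_lit 209)))) (XT.nd (nat_lit 78) (nat_lit 0) (nat_lit 0) (XT.lf (nat_lit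 0) (nat_lit 313284706931) (nat_lit 76) (nat_lit 153840528001) (nat_lit 76) (nat_lit 108545795353) (nat_lit 4) (nat_lit 4) (nat_lit 5) (nat_lit 5) (nat_lit 5) (nat_lit 4) (nat_lit 382) (nat_lit 310) (nat_lit 208)) (XT.nd (nat_lit 78) (nat_lit 0) (nat_lit 0) (XT.lf (nat_lit 0) (nat_lit 405420706459) (nat_lit 76) (nat_lit 129934907872) (nat_lit 76) (nat_lit 84638867066) (nat_lit 4) (nat_lit 4) (nat_lit 5) (nat_lit 5) (nat_lit 5) (nat_lit 4) (nat_lit 383) (nat_lit 310) (nat_lit 207)) (XT.lf (nat_lit 0) (nat_lit 504923859407) (nat_lit 76) (nat_lit 104118648692) (nat_lit 76) (nat_lit 58821396629) (nat_lit 4) (nat_lit 4) (nat_lit 5) (nat_lit 5) (nat_lit 5) (nat_lit 4) (nat_lit 384) (nat_lit 310) (nat_lit 206))))))))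
noncomputable def xc68 : XT := (XT.nd (nat_lit 42432) (nat_lit 0) (nat_lit 1444) (XT.nd (nat_lit 41574) (nat_lit 0) (nat_lit 4788) (XT.nd (nat_lit 41106) (nat_lit 0) (nat_lit 7980) (XT.nd (nat_lit 156) (nat_lit 152) (nat_lit 0) (XT.nd (nat_lit 78) (nat_lit 0) (nat_lit 0) (XT.lf (nat_lit 0) (nat_lit 612383814088) (nat_lit 76) (nat_lit 76238765222) (nat_lit 76) (nat_lit 30940391624) (nat_lit 4) (nat_lit 4) (nat_lit 5) (nat_lit 5) (nat_lit 5) (nat_lit 4) (nat_lit 385) (nat_lit 310) (nat_lit 205)) (XT.lf (nat_lit 0) (nat_lit 728437370235) (nat_lit 76) (nat_lit 46130043337) (nat_lit 76) (nat_lit 830631281) (nat_lit 4) (nat_lit 4) (nat_lit 5) (nat_lit 5) (nat_lit 5) (nat_lit 4) (nat_lit 386) (nat_lit 310) (nat_lit 204))) (XT.nd (nat_lit 78) (nat_lit 0) (nat_lit 0) (XT.lf (nat_lit 0) (nat_lit 18158732321) (nat_lit 76) (nat_lit 12796929098) (nat_lit 152) (nat_lit 804705428536) (nat_lit 2) (nat_lit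 5) (nat_lit 3) (nat_lit 5) (nat_lit 4) (nat_lit 4) (nat_lit 387) (nat_lit 310) (nat_lit 203)) (XT.nd (nat_lit 78) (nat_lit 0) (nat_lit 0) (XT.lf (nat_lit 0) (nat_lit 66448343017) (nat_lit 152) (nat_lit 810932243540) (nat_lit 0) (nat_lit 23304282159) (nat_lit 2) (nat_lit 5) (nat_lit 4) (nat_lit 4) (nat_lit 2) (nat_lit 4) (nat_lit 388) (nat_lit 310) (nat_lit 202)) (XT.lf (nat_lit 0) (nat_lit 104994831273) (nat_lit 152) (nat_lit 804055013804) (nat_lit 0) (nat_lit 61849985308) (nat_lit 2) (nat_lit 5) (nat_lit 4) (nat_lit 4) (nat_lit 2) (nat_lit 4) (nat_lit 389) (nat_lit 310) (nat_lit 201))))) (XT.nd (nat_lit 234) (nat_lit 0) (nat_lit 76) (XT.nd (nat_lit 78) (nat_lit 0) (nat_lit 0) (XT.lf (nat_lit 0) (nat_lit 132470163) (nat_lit 0) (nat_lit 132470163) (nat_lit 684) (nat_lit 4732014145) (nat_lit 107) (nat_lit 5) (nat_lit 107) (nat_lit 3) (nat_lit 116) (nat_lit 3) (nat_lit 311) (nat_lit 311) (nat_lit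 278)) (XT.nd (nat_lit 78) (nat_lit 0) (nat_lit 76) (XT.lf (nat_lit 0) (nat_lit 1728705114) (nat_lit 684) (nat_lit 2317941976) (nat_lit 760) (nat_lit 6286703317) (nat_lit 107) (nat_lit 5) (nat_lit 116) (nat_lit 3) (nat_lit 117) (nat_lit 5) (nat_lit 312) (nat_lit 311) (nat_lit 277)) (XT.lf (nat_lit 0) (nat_lit 3055379070) (nat_lit 684) (nat_lit 4937160398) (nat_lit 760) (nat_lit 2705953954) (nat_lit 108) (nat_lit 5) (nat_lit 117) (nat_lit 5) (nat_lit 118) (nat_lit 5) (nat_lit 313) (nat_lit 311) (nat_lit 276)))) (XT.nd (nat_lit 78) (nat_lit 0) (nat_lit 76) (XT.lf (nat_lit 76) (nat_lit 3457280948) (nat_lit 0) (nat_lit 1094996257) (nat_lit 760) (nat_lit 6537498949) (nat_lit 109) (nat_lit 5) (nat_lit 108) (nat_lit 5) (nat_lit 118) (nat_lit 5) (nat_lit 314) (nat_lit 311) (nat_lit 275)) (XT.nd (nat_lit 78) (nat_lit 0) (nat_lit 76) (XT.lf (nat_lit 76) (nat_lit 1058912701) (nat_lit 0) (nat_lit 5220908565)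 (nat_lit 760) (nat_lit 5227118488) (nat_lit 110) (nat_lit 5) (nat_lit 109) (nat_lit 5) (nat_lit 119) (nat_lit 5) (nat_lit 315) (nat_lit 311) (nat_lit 274)) (XT.lf (nat_lit 0) (nat_lit 8248152054) (nat_lit 684) (nat_lit 1356133115) (nat_lit 760) (nat_lit 2348175957) (nat_lit 110) (nat_lit 5) (nat_lit 119) (nat_lit 5) (nat_lit 120) (nat_lit 5) (nat_lit 316) (nat_lit 311) (nat_lit 273)))))) (XT.nd (nat_lit 390) (nat_lit 1596) (nat_lit 0) (XT.nd (nat_lit 156) (nat_lit 1140) (nat_lit 0) (XT.nd (nat_lit 78) (nat_lit 684) (nat_lit 0) (XT.lf (nat_lit 76) (nat_lit 8587126354) (nat_lit 0) (nat_lit 1929255404) (nat_lit 760) (nat_lit 1910226241) (nat_lit 111) (nat_lit 5) (nat_lit 110) (nat_lit 5) (nat_lit 120) (nat_lit 5) (nat_lit 317) (nat_lit 311) (nat_lit 272)) (XT.lf (nat_lit 0) (nat_lit 178873964) (nat_lit 760) (nat_lit 6453795989) (nat_lit 76) (nat_lit 6298469888) (nat_lit 101) (nat_lit 5) (nat_lit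 111) (nat_lit 5) (nat_lit 102) (nat_lit 5) (nat_lit 318) (nat_lit 311) (nat_lit 271))) (XT.nd (nat_lit 78) (nat_lit 380) (nat_lit 0) (XT.lf (nat_lit 0) (nat_lit 2493945457) (nat_lit 836) (nat_lit 9206527386) (nat_lit 76) (nat_lit 1767793285) (nat_lit 91) (nat_lit 5) (nat_lit 102) (nat_lit 5) (nat_lit 92) (nat_lit 5) (nat_lit 319) (nat_lit 311) (nat_lit 270)) (XT.nd (nat_lit 78) (nat_lit 0) (nat_lit 0) (XT.lf (nat_lit 0) (nat_lit 1905009260) (nat_lit 380) (nat_lit 3278315089) (nat_lit 456) (nat_lit 8855662781) (nat_lit 86) (nat_lit 5) (nat_lit 91) (nat_lit 5) (nat_lit 92) (nat_lit 5) (nat_lit 320) (nat_lit 311) (nat_lit 269)) (XT.lf (nat_lit 0) (nat_lit 8278936735) (nat_lit 456) (nat_lit 571517790) (nat_lit 76) (nat_lit 5795430917) (nat_lit 86) (nat_lit 5) (nat_lit 92) (nat_lit 5) (nat_lit 87) (nat_lit 5) (nat_lit 321) (nat_lit 311) (nat_lit 268))))) (XT.nd (nat_lit 234) (nat_lit 532) (nat_lit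 0) (XT.nd (nat_lit 78) (nat_lit 760) (nat_lit 0) (XT.lf (nat_lit 0) (nat_lit 11815657053) (nat_lit 380) (nat_lit 3107270007) (nat_lit 76) (nat_lit 368803940) (nat_lit 82) (nat_lit 5) (nat_lit 87) (nat_lit 5) (nat_lit 83) (nat_lit 5) (nat_lit 322) (nat_lit 311) (nat_lit 267)) (XT.nd (nat_lit 78) (nat_lit 380) (nat_lit 0) (XT.lf (nat_lit 0) (nat_lit 10106376370) (nat_lit 380) (nat_lit 5791343472) (nat_lit 456) (nat_lit 78467382) (nat_lit 77) (nat_lit 5) (nat_lit 82) (nat_lit 5) (nat_lit 83) (nat_lit 5) (nat_lit 323) (nat_lit 311) (nat_lit 266)) (XT.lf (nat_lit 0) (nat_lit 3669369053) (nat_lit 380) (nat_lit 8861418927) (nat_lit 76) (nat_lit 4172196811) (nat_lit 72) (nat_lit 5) (nat_lit 77) (nat_lit 5) (nat_lit 73) (nat_lit 5) (nat_lit 324) (nat_lit 311) (nat_lit 265)))) (XT.nd (nat_lit 78) (nat_lit 228) (nat_lit 0) (XT.lf (nat_lit 0) (nat_lit 5389212265) (nat_lit 304) (nat_lit 2561225156)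 (nat_lit 380) (nat_lit 9525668376) (nat_lit 68) (nat_lit 5) (nat_lit 72) (nat_lit 5) (nat_lit 73) (nat_lit 5) (nat_lit 325) (nat_lit 311) (nat_lit 264)) (XT.nd (nat_lit 78) (nat_lit 0) (nat_lit 0) (XT.lf (nat_lit 0) (nat_lit 2689475831) (nat_lit 228) (nat_lit 10164547630) (nat_lit 304) (nat_lit 5443099241) (nat_lit 65) (nat_lit 5) (nat_lit 68) (nat_lit 5) (nat_lit 69) (nat_lit 5) (nat_lit 326) (nat_lit 311) (nat_lit 263)) (XT.lf (nat_lit 0) (nat_lit 18368245937) (nat_lit 304) (nat_lit 204522578) (nat_lit 76) (nat_lit 600179255) (nat_lit 65) (nat_lit 5) (nat_lit 69) (nat_lit 5) (nat_lit 66) (nat_lit 5) (nat_lit 327) (nat_lit 311) (nat_lit 262))))))) (XT.nd (nat_lit 858) (nat_lit 1064) (nat_lit 0) (XT.nd (nat_lit 390) (nat_lit 988) (nat_lit 0) (XT.nd (nat_lit 156) (nat_lit 684) (nat_lit 0) (XT.nd (nat_lit 78) (nat_lit 228) (nat_lit 0) (XT.lf (nat_lit 0) (nat_lit 4468082407) (nat_lit 380)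 (nat_lit 3430204693) (nat_lit 76) (nat_lit 12197413693) (nat_lit 60) (nat_lit 5) (nat_lit 65) (nat_lit 5) (nat_lit 61) (nat_lit 5) (nat_lit 328) (nat_lit 311) (nat_lit 261)) (XT.lf (nat_lit 0) (nat_lit 10380701642) (nat_lit 304) (nat_lit 6955060585) (nat_lit 76) (nat_lit 3743578146) (nat_lit 57) (nat_lit 5) (nat_lit 61) (nat_lit 5) (nat_lit 58) (nat_lit 5) (nat_lit 329) (nat_lit 311) (nat_lit 260))) (XT.nd (nat_lit 78) (nat_lit 456) (nat_lit 0) (XT.lf (nat_lit 0) (nat_lit 11240015764) (nat_lit 228) (nat_lit 5857970361) (nat_lit 304) (nat_lit 5027135691) (nat_lit 54) (nat_lit 5) (nat_lit 57) (nat_lit 5) (nat_lit 58) (nat_lit 5) (nat_lit 330) (nat_lit 311) (nat_lit 259)) (XT.nd (nat_lit 78) (nat_lit 228) (nat_lit 0) (XT.lf (nat_lit 0) (nat_lit 1382070319) (nat_lit 228) (nat_lit 15270771014) (nat_lit 76) (nat_lit 6584940336) (nat_lit 51) (nat_lit 5) (nat_lit 54) (nat_lit 5) (nat_lit 52) (nat_lit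 5) (nat_lit 331) (nat_lit 311) (nat_lit 258)) (XT.lf (nat_lit 0) (nat_lit 4182504093) (nat_lit 228) (nat_lit 4269878945) (nat_lit 304) (nat_lit 15966753180) (nat_lit 48) (nat_lit 5) (nat_lit 51) (nat_lit 5) (nat_lit 52) (nat_lit 5) (nat_lit 332) (nat_lit 311) (nat_lit 257))))) (XT.nd (nat_lit 234) (nat_lit 532) (nat_lit 0) (XT.nd (nat_lit 78) (nat_lit 456) (nat_lit 0) (XT.lf (nat_lit 0) (nat_lit 16467732817) (nat_lit 304) (nat_lit 140793885) (nat_lit 76) (nat_lit 9067527142) (nat_lit 48) (nat_lit 5) (nat_lit 52) (nat_lit 5) (nat_lit 49) (nat_lit 5) (nat_lit 333) (nat_lit 311) (nat_lit 256)) (XT.nd (nat_lit 78) (nat_lit 304) (nat_lit 0) (XT.lf (nat_lit 0) (nat_lit 22153509234) (nat_lit 152) (nat_lit 3358038502) (nat_lit 228) (nat_lit 1502638723) (nat_lit 46) (nat_lit 5) (nat_lit 48) (nat_lit 5) (nat_lit 49) (nat_lit 5) (nat_lit 334) (nat_lit 311) (nat_lit 255)) (XT.lf (nat_lit 0) (nat_lit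 7035647751) (nat_lit 304) (nat_lit 10410249153) (nat_lit 76) (nat_lit 10986449068) (nat_lit 42) (nat_lit 5) (nat_lit 46) (nat_lit 5) (nat_lit 43) (nat_lit 5) (nat_lit 335) (nat_lit 311) (nat_lit 254)))) (XT.nd (nat_lit 78) (nat_lit 380) (nat_lit 0) (XT.lf (nat_lit 0) (nat_lit 13245471123) (nat_lit 152) (nat_lit 3280782361) (nat_lit 228) (nat_lit 13420397156) (nat_lit 40) (nat_lit 5) (nat_lit 42) (nat_lit 5) (nat_lit 43) (nat_lit 5) (nat_lit 336) (nat_lit 311) (nat_lit 253)) (XT.nd (nat_lit 78) (nat_lit 228) (nat_lit 0) (XT.lf (nat_lit 0) (nat_lit 7601412023) (nat_lit 152) (nat_lit 19638219503) (nat_lit 228) (nat_lit 4319309682) (nat_lit 38) (nat_lit 5) (nat_lit 40) (nat_lit 5) (nat_lit 41) (nat_lit 5) (nat_lit 337) (nat_lit 311) (nat_lit 252)) (XT.lf (nat_lit 0) (nat_lit 1002273306) (nat_lit 152) (nat_lit 4671724535) (nat_lit 228) (nat_lit 27604907430) (nat_lit 35) (nat_lit 5) (nat_lit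 37) (nat_lit 5) (nat_lit 38) (nat_lit 5) (nat_lit 338) (nat_lit 311) (nat_lit 251)))))) (XT.nd (nat_lit 390) (nat_lit 608) (nat_lit 0) (XT.nd (nat_lit 156) (nat_lit 304) (nat_lit 0) (XT.nd (nat_lit 78) (nat_lit 152) (nat_lit 0) (XT.lf (nat_lit 0) (nat_lit 16895931427) (nat_lit 228) (nat_lit 6602106445) (nat_lit 76) (nat_lit 11605878185) (nat_lit 35) (nat_lit 5) (nat_lit 38) (nat_lit 5) (nat_lit 36) (nat_lit 5) (nat_lit 339) (nat_lit 311) (nat_lit 250)) (XT.lf (nat_lit 0) (nat_lit 21703566906) (nat_lit 152) (nat_lit 7706417247) (nat_lit 228) (nat_lit 7645238728) (nat_lit 33) (nat_lit 5) (nat_lit 35) (nat_lit 5) (nat_lit 36) (nat_lit 5) (nat_lit 340) (nat_lit 311) (nat_lit 249))) (XT.nd (nat_lit 78) (nat_lit 152) (nat_lit 0) (XT.lf (nat_lit 0) (nat_lit 4102379330) (nat_lit 152) (nat_lit 25603983249) (nat_lit 76) (nat_lit 9430332464) (nat_lit 31) (nat_lit 5) (nat_lit 33) (nat_lit 5) (nat_lit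 32) (nat_lit 5) (nat_lit 341) (nat_lit 311) (nat_lit 248)) (XT.nd (nat_lit 78) (nat_lit 0) (nat_lit 0) (XT.lf (nat_lit 0) (nat_lit 3723684422) (nat_lit 152) (nat_lit 13240112622) (nat_lit 228) (nat_lit 24392540178) (nat_lit 29) (nat_lit 5) (nat_lit 31) (nat_lit 5) (nat_lit 32) (nat_lit 5) (nat_lit 342) (nat_lit 311) (nat_lit 247)) (XT.lf (nat_lit 0) (nat_lit 31357578687) (nat_lit 228) (nat_lit 7533796619) (nat_lit 76) (nat_lit 4837013071) (nat_lit 29) (nat_lit 5) (nat_lit 32) (nat_lit 5) (nat_lit 30) (nat_lit 4) (nat_lit 343) (nat_lit 311) (nat_lit 246))))) (XT.nd (nat_lit 234) (nat_lit 304) (nat_lit 0) (XT.nd (nat_lit 78) (nat_lit 152) (nat_lit 0) (XT.lf (nat_lit 0) (nat_lit 1205560961) (nat_lit 152) (nat_lit 20746074719) (nat_lit 76) (nat_lit 24307473078) (nat_lit 27) (nat_lit 5) (nat_lit 29) (nat_lit 5) (nat_lit 28) (nat_lit 5) (nat_lit 344) (nat_lit 311) (nat_lit 245)) (XT.nd (nat_lit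 78) (nat_lit 0) (nat_lit 0) (XT.lf (nat_lit 0) (nat_lit 12648331574) (nat_lit 152) (nat_lit 3104308930) (nat_lit 228) (nat_lit 33213613919) (nat_lit 25) (nat_lit 5) (nat_lit 27) (nat_lit 5) (nat_lit 28) (nat_lit 5) (nat_lit 345) (nat_lit 311) (nat_lit 244)) (XT.lf (nat_lit 0) (nat_lit 32082166561) (nat_lit 228) (nat_lit 2723962965) (nat_lit 76) (nat_lit 17052915866) (nat_lit 25) (nat_lit 5) (nat_lit 28) (nat_lit 5) (nat_lit 26) (nat_lit 4) (nat_lit 346) (nat_lit 311) (nat_lit 243)))) (XT.nd (nat_lit 78) (nat_lit 228) (nat_lit 0) (XT.lf (nat_lit 0) (nat_lit 34582460504) (nat_lit 76) (nat_lit 15711237274) (nat_lit 152) (nat_lit 4660786799) (nat_lit 24) (nat_lit 5) (nat_lit 25) (nat_lit 5) (nat_lit 26) (nat_lit 4) (nat_lit 347) (nat_lit 311) (nat_lit 242)) (XT.nd (nat_lit 78) (nat_lit 0) (nat_lit 0) (XT.lf (nat_lit 0) (nat_lit 11673528178) (nat_lit 228) (nat_lit 41350047712) (nat_lit 76) (nat_lit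 5245769639) (nat_lit 21) (nat_lit 5) (nat_lit 24) (nat_lit 5) (nat_lit 22) (nat_lit 4) (nat_lit 348) (nat_lit 311) (nat_lit 241)) (XT.lf (nat_lit 0) (nat_lit 29763551126) (nat_lit 228) (nat_lit 4287722502) (nat_lit 76) (nat_lit 27763694499) (nat_lit 21) (nat_lit 5) (nat_lit 24) (nat_lit 5) (nat_lit 22) (nat_lit 4) (nat_lit 349) (nat_lit 311) (nat_lit 240))))))))
noncomputable def xc69 : XT := (XT.nd (nat_lit 1716) (nat_lit 380) (nat_lit 0) (XT.nd (nat_lit 858) (nat_lit 380) (nat_lit 0) (XT.nd (nat_lit 390) (nat_lit 380) (nat_lit 0) (XT.nd (nat_lit 156) (nat_lit 76) (nat_lit 0) (XT.nd (nat_lit 78) (nat_lit 152) (nat_lit 0) (XT.lf (nat_lit 0) (nat_lit 36894376832) (nat_lit 76) (nat_lit 12968040199) (nat_lit 152) (nat_lit 15753746807) (nat_lit 20) (nat_lit 5) (nat_lit 21) (nat_lit 5) (nat_lit 22) (nat_lit 4) (nat_lit 350) (nat_lit 311) (nat_lit 239)) (XT.lf (nat_lit 0) (nat_lit 2197786584)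 (nat_lit 152) (nat_lit 57725613428) (nat_lit 76) (nat_lit 9776158067) (nat_lit 18) (nat_lit 5) (nat_lit 20) (nat_lit 5) (nat_lit 19) (nat_lit 4) (nat_lit 351) (nat_lit 311) (nat_lit 238))) (XT.nd (nat_lit 78) (nat_lit 76) (nat_lit 0) (XT.lf (nat_lit 0) (nat_lit 21754613075) (nat_lit 152) (nat_lit 17650919511) (nat_lit 76) (nat_lit 34655127496) (nat_lit 18) (nat_lit 5) (nat_lit 20) (nat_lit 5) (nat_lit 19) (nat_lit 4) (nat_lit 352) (nat_lit 311) (nat_lit 237)) (XT.nd (nat_lit 78) (nat_lit 0) (nat_lit 0) (XT.lf (nat_lit 0) (nat_lit 26453474156) (nat_lit 76) (nat_lit 16823065544) (nat_lit 152) (nat_lit 35474086895) (nat_lit 17) (nat_lit 5) (nat_lit 18) (nat_lit 5) (nat_lit 19) (nat_lit 4) (nat_lit 353) (nat_lit 311) (nat_lit 236)) (XT.lf (nat_lit 0) (nat_lit 66938818926) (nat_lit 152) (nat_lit 9229451034) (nat_lit 0) (nat_lit 7626594300) (nat_lit 17) (nat_lit 5) (nat_lit 19) (nat_lit 4) (nat_lit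 17) (nat_lit 4) (nat_lit 354) (nat_lit 311) (nat_lit 235))))) (XT.nd (nat_lit 234) (nat_lit 152) (nat_lit 0) (XT.nd (nat_lit 78) (nat_lit 76) (nat_lit 0) (XT.lf (nat_lit 0) (nat_lit 4030577943) (nat_lit 152) (nat_lit 51062241450) (nat_lit 76) (nat_lit 34103126411) (nat_lit 15) (nat_lit 5) (nat_lit 17) (nat_lit 5) (nat_lit 16) (nat_lit 4) (nat_lit 355) (nat_lit 311) (nat_lit 234)) (XT.nd (nat_lit 78) (nat_lit 76) (nat_lit 0) (XT.lf (nat_lit 0) (nat_lit 26158073126) (nat_lit 152) (nat_lit 5712637075) (nat_lit 76) (nat_lit 63136565516) (nat_lit 15) (nat_lit 5) (nat_lit 17) (nat_lit 5) (nat_lit 16) (nat_lit 4) (nat_lit 356) (nat_lit 311) (nat_lit 233)) (XT.lf (nat_lit 0) (nat_lit 44676152132) (nat_lit 76) (nat_lit 6067130160) (nat_lit 152) (nat_lit 50505856849) (nat_lit 14) (nat_lit 5) (nat_lit 15) (nat_lit 5) (nat_lit 16) (nat_lit 4) (nat_lit 357) (nat_lit 311) (nat_lit 232)))) (XT.nd (nat_lit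 78) (nat_lit 152) (nat_lit 0) (XT.lf (nat_lit 0) (nat_lit 77727146615) (nat_lit 152) (nat_lit 9045573415) (nat_lit 0) (nat_lit 21196042315) (nat_lit 14) (nat_lit 5) (nat_lit 16) (nat_lit 4) (nat_lit 14) (nat_lit 4) (nat_lit 358) (nat_lit 311) (nat_lit 231)) (XT.nd (nat_lit 78) (nat_lit 76) (nat_lit 0) (XT.lf (nat_lit 0) (nat_lit 43559005107) (nat_lit 76) (nat_lit 64084138667) (nat_lit 76) (nat_lit 7544142879) (nat_lit 13) (nat_lit 4) (nat_lit 14) (nat_lit 5) (nat_lit 14) (nat_lit 4) (nat_lit 359) (nat_lit 311) (nat_lit 230)) (XT.lf (nat_lit 0) (nat_lit 16577472578) (nat_lit 152) (nat_lit 22564409861) (nat_lit 76) (nat_lit 83820592688) (nat_lit 12) (nat_lit 5) (nat_lit 14) (nat_lit 5) (nat_lit 13) (nat_lit 4) (nat_lit 360) (nat_lit 311) (nat_lit 229)))))) (XT.nd (nat_lit 390) (nat_lit 152) (nat_lit 0) (XT.nd (nat_lit 156) (nat_lit 152) (nat_lit 0) (XT.nd (nat_lit 78) (nat_lit 0) (nat_lit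 0) (XT.lf (nat_lit 0) (nat_lit 31283404648) (nat_lit 76) (nat_lit 11565013065) (nat_lit 152) (nat_lit 88480883705) (nat_lit 11) (nat_lit 5) (nat_lit 12) (nat_lit 5) (nat_lit 13) (nat_lit 4) (nat_lit 361) (nat_lit 311) (nat_lit 228)) (XT.lf (nat_lit 0) (nat_lit 71897189954) (nat_lit 152) (nat_lit 50406726278) (nat_lit 0) (nat_lit 18027751844) (nat_lit 11) (nat_lit 5) (nat_lit 13) (nat_lit 4) (nat_lit 11) (nat_lit 4) (nat_lit 362) (nat_lit 311) (nat_lit 227))) (XT.nd (nat_lit 78) (nat_lit 76) (nat_lit 0) (XT.lf (nat_lit 0) (nat_lit 3093852694) (nat_lit 76) (nat_lit 100412115143) (nat_lit 76) (nat_lit 46536452739) (nat_lit 10) (nat_lit 4) (nat_lit 11) (nat_lit 5) (nat_lit 11) (nat_lit 4) (nat_lit 363) (nat_lit 311) (nat_lit 226)) (XT.nd (nat_lit 78) (nat_lit 76) (nat_lit 0) (XT.lf (nat_lit 0) (nat_lit 62661342547) (nat_lit 76) (nat_lit 75853279618) (nat_lit 76) (nat_lit 21971853978) (nat_lit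 10) (nat_lit 4) (nat_lit 11) (nat_lit 5) (nat_lit 11) (nat_lit 4) (nat_lit 364) (nat_lit 311) (nat_lit 225)) (XT.lf (nat_lit 0) (nat_lit 4405556265) (nat_lit 152) (nat_lit 44855371624) (nat_lit 76) (nat_lit 122501895304) (nat_lit 9) (nat_lit 5) (nat_lit 11) (nat_lit 5) (nat_lit 10) (nat_lit 4) (nat_lit 365) (nat_lit 311) (nat_lit 224))))) (XT.nd (nat_lit 234) (nat_lit 76) (nat_lit 0) (XT.nd (nat_lit 78) (nat_lit 0) (nat_lit 0) (XT.lf (nat_lit 0) (nat_lit 12365800723) (nat_lit 76) (nat_lit 19954932806) (nat_lit 152) (nat_lit 151592668001) (nat_lit 8) (nat_lit 5) (nat_lit 9) (nat_lit 5) (nat_lit 10) (nat_lit 4) (nat_lit 366) (nat_lit 311) (nat_lit 223)) (XT.nd (nat_lit 78) (nat_lit 0) (nat_lit 0) (XT.lf (nat_lit 0) (nat_lit 63440081601) (nat_lit 152) (nat_lit 121437104918) (nat_lit 0) (nat_lit 12110292976) (nat_lit 8) (nat_lit 5) (nat_lit 10) (nat_lit 4) (nat_lit 8) (nat_lit 4) (nat_lit 367)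 (nat_lit 311) (nat_lit 222)) (XT.lf (nat_lit 0) (nat_lit 97380079842) (nat_lit 152) (nat_lit 67664593055) (nat_lit 0) (nat_lit 46046256789) (nat_lit 8) (nat_lit 5) (nat_lit 10) (nat_lit 4) (nat_lit 8) (nat_lit 4) (nat_lit 368) (nat_lit 311) (nat_lit 221)))) (XT.nd (nat_lit 78) (nat_lit 76) (nat_lit 0) (XT.lf (nat_lit 0) (nat_lit 134030301744) (nat_lit 152) (nat_lit 9599860871) (nat_lit 0) (nat_lit 82692743108) (nat_lit 8) (nat_lit 5) (nat_lit 10) (nat_lit 4) (nat_lit 8) (nat_lit 4) (nat_lit 369) (nat_lit 311) (nat_lit 220)) (XT.nd (nat_lit 78) (nat_lit 0) (nat_lit 0) (XT.lf (nat_lit 0) (nat_lit 54856943721) (nat_lit 76) (nat_lit 119607460712) (nat_lit 76) (nat_lit 68266443204) (nat_lit 7) (nat_lit 4) (nat_lit 8) (nat_lit 5) (nat_lit 8) (nat_lit 4) (nat_lit 370) (nat_lit 311) (nat_lit 219)) (XT.lf (nat_lit 0) (nat_lit 124804615185) (nat_lit 76) (nat_lit 93491444766) (nat_lit 76) (nat_lit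 42147224599) (nat_lit 7) (nat_lit 4) (nat_lit 8) (nat_lit 5) (nat_lit 8) (nat_lit 4) (nat_lit 371) (nat_lit 311) (nat_lit 218))))))) (XT.nd (nat_lit 858) (nat_lit 152) (nat_lit 0) (XT.nd (nat_lit 390) (nat_lit 76) (nat_lit 0) (XT.nd (nat_lit 156) (nat_lit 76) (nat_lit 0) (XT.nd (nat_lit 78) (nat_lit 76) (nat_lit 0) (XT.lf (nat_lit 0) (nat_lit 200340243485) (nat_lit 76) (nat_lit 65289931491) (nat_lit 76) (nat_lit 13942745898) (nat_lit 7) (nat_lit 4) (nat_lit 8) (nat_lit 5) (nat_lit 8) (nat_lit 4) (nat_lit 372) (nat_lit 311) (nat_lit 217)) (XT.lf (nat_lit 0) (nat_lit 15985575238) (nat_lit 152) (nat_lit 18579502117) (nat_lit 76) (nat_lit 265655148469) (nat_lit 6) (nat_lit 5) (nat_lit 8) (nat_lit 5) (nat_lit 7) (nat_lit 4) (nat_lit 373) (nat_lit 311) (nat_lit 216))) (XT.nd (nat_lit 78) (nat_lit 0) (nat_lit 0) (XT.lf (nat_lit 0) (nat_lit 48227555945) (nat_lit 76) (nat_lit 348068287) (nat_lit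 152) (nat_lit 273894465717) (nat_lit 5) (nat_lit 5) (nat_lit 6) (nat_lit 5) (nat_lit 7) (nat_lit 4) (nat_lit 374) (nat_lit 311) (nat_lit 215)) (XT.nd (nat_lit 78) (nat_lit 0) (nat_lit 0) (XT.lf (nat_lit 0) (nat_lit 84669914004) (nat_lit 152) (nat_lit 226024623760) (nat_lit 0) (nat_lit 35760554211) (nat_lit 5) (nat_lit 5) (nat_lit 7) (nat_lit 4) (nat_lit 5) (nat_lit 4) (nat_lit 375) (nat_lit 311) (nat_lit 214)) (XT.lf (nat_lit 0) (nat_lit 123654432080) (nat_lit 152) (nat_lit 173961331988) (nat_lit 0) (nat_lit 74742996405) (nat_lit 5) (nat_lit 5) (nat_lit 7) (nat_lit 4) (nat_lit 5) (nat_lit 4) (nat_lit 376) (nat_lit 311) (nat_lit 213))))) (XT.nd (nat_lit 234) (nat_lit 0) (nat_lit 0) (XT.nd (nat_lit 78) (nat_lit 76) (nat_lit 0) (XT.lf (nat_lit 0) (nat_lit 165754763505) (nat_lit 152) (nat_lit 117738701159) (nat_lit 0) (nat_lit 116841405718) (nat_lit 5) (nat_lit 5) (nat_lit 7) (nat_lit 4) (nat_lit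 5) (nat_lit 4) (nat_lit 377) (nat_lit 311) (nat_lit 212)) (XT.nd (nat_lit 78) (nat_lit 76) (nat_lit 0) (XT.lf (nat_lit 0) (nat_lit 211220391726) (nat_lit 152) (nat_lit 57023560127) (nat_lit 0) (nat_lit 162305254204) (nat_lit 5) (nat_lit 5) (nat_lit 7) (nat_lit 4) (nat_lit 5) (nat_lit 4) (nat_lit 378) (nat_lit 311) (nat_lit 211)) (XT.lf (nat_lit 0) (nat_lit 8826383945) (nat_lit 76) (nat_lit 251632163331) (nat_lit 76) (nat_lit 202715377907) (nat_lit 4) (nat_lit 4) (nat_lit 5) (nat_lit 5) (nat_lit 5) (nat_lit 4) (nat_lit 379) (nat_lit 311) (nat_lit 210)))) (XT.nd (nat_lit 78) (nat_lit 0) (nat_lit 0) (XT.lf (nat_lit 0) (nat_lit 81975922111) (nat_lit 76) (nat_lit 232650733202) (nat_lit 76) (nat_lit 183732421942) (nat_lit 4) (nat_lit 4) (nat_lit 5) (nat_lit 5) (nat_lit 5) (nat_lit 4) (nat_lit 380) (nat_lit 311) (nat_lit 209)) (XT.nd (nat_lit 78) (nat_lit 0) (nat_lit 0) (XT.lf (nat_lit 0) (nat_lit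 160973076692) (nat_lit 76) (nat_lit 212152900499) (nat_lit 76) (nat_lit 163233176428) (nat_lit 4) (nat_lit 4) (nat_lit 5) (nat_lit 5) (nat_lit 5) (nat_lit 4) (nat_lit 381) (nat_lit 311) (nat_lit 208)) (XT.lf (nat_lit 0) (nat_lit 246285978972) (nat_lit 76) (nat_lit 190017196584) (nat_lit 76) (nat_lit 141096164356) (nat_lit 4) (nat_lit 4) (nat_lit 5) (nat_lit 5) (nat_lit 5) (nat_lit 4) (nat_lit 382) (nat_lit 311) (nat_lit 207)))))) (XT.nd (nat_lit 390) (nat_lit 152) (nat_lit 0) (XT.nd (nat_lit 156) (nat_lit 0) (nat_lit 0) (XT.nd (nat_lit 78) (nat_lit 0) (nat_lit 0) (XT.lf (nat_lit 0) (nat_lit 338420186894) (nat_lit 76) (nat_lit 166112446916) (nat_lit 76) (nat_lit 117190203430) (nat_lit 4) (nat_lit 4) (nat_lit 5) (nat_lit 5) (nat_lit 5) (nat_lit 4) (nat_lit 383) (nat_lit 311) (nat_lit 206)) (XT.lf (nat_lit 0) (nat_lit 437921680946) (nat_lit 76) (nat_lit 140296993719) (nat_lit 76) (nat_lit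 91373628699) (nat_lit 4) (nat_lit 4) (nat_lit 5) (nat_lit 5) (nat_lit 5) (nat_lit 4) (nat_lit 384) (nat_lit 311) (nat_lit 205))) (XT.nd (nat_lit 78) (nat_lit 0) (nat_lit 0) (XT.lf (nat_lit 0) (nat_lit 545380099613) (nat_lit 76) (nat_lit 112417856529) (nat_lit 76) (nat_lit 63493453051) (nat_lit 4) (nat_lit 4) (nat_lit 5) (nat_lit 5) (nat_lit 5) (nat_lit 4) (nat_lit 385) (nat_lit 311) (nat_lit 204)) (XT.nd (nat_lit 78) (nat_lit 0) (nat_lit 0) (XT.lf (nat_lit 0) (nat_lit 661432233525) (nat_lit 76) (nat_lit 82309825645) (nat_lit 76) (nat_lit 33384460632) (nat_lit 4) (nat_lit 4) (nat_lit 5) (nat_lit 5) (nat_lit 5) (nat_lit 4) (nat_lit 386) (nat_lit 311) (nat_lit 203)) (XT.lf (nat_lit 0) (nat_lit 786765799029) (nat_lit 76) (nat_lit 49794483105) (nat_lit 76) (nat_lit 868227782) (nat_lit 4) (nat_lit 4) (nat_lit 5) (nat_lit 5) (nat_lit 5) (nat_lit 4) (nat_lit 387) (nat_lit 311) (nat_lit 202)))))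 (XT.nd (nat_lit 41028) (nat_lit 0) (nat_lit 7980) (XT.nd (nat_lit 78) (nat_lit 0) (nat_lit 0) (XT.lf (nat_lit 0) (nat_lit 19663435383) (nat_lit 76) (nat_lit 13795352454) (nat_lit 152) (nat_lit 869053851450) (nat_lit 2) (nat_lit 5) (nat_lit 3) (nat_lit 5) (nat_lit 4) (nat_lit 4) (nat_lit 388) (nat_lit 311) (nat_lit 201)) (XT.nd (nat_lit 40872) (nat_lit 0) (nat_lit 7980) (XT.lf (nat_lit 0) (nat_lit 71789274339) (nat_lit 152) (nat_lit 875757798159) (nat_lit 0) (nat_lit 25191328642) (nat_lit 2) (nat_lit 5) (nat_lit 4) (nat_lit 4) (nat_lit 2) (nat_lit 4) (nat_lit 389) (nat_lit 311) (nat_lit 200)) (XT.lf (nat_lit 0) (nat_lit 668241484) (nat_lit 0) (nat_lit 668241484) (nat_lit 684) (nat_lit 4006311530) (nat_lit 107) (nat_lit 5) (nat_lit 107) (nat_lit 3) (nat_lit 116) (nat_lit 3) (nat_lit 312) (nat_lit 312) (nat_lit 276)))) (XT.nd (nat_lit 78) (nat_lit 0) (nat_lit 76) (XT.lf (nat_lit 0) (nat_lit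 3796905194) (nat_lit 684) (nat_lit 1415804238) (nat_lit 760) (nat_lit 5848223158) (nat_lit 107) (nat_lit 5) (nat_lit 116) (nat_lit 3) (nat_lit 117) (nat_lit 5) (nat_lit 313) (nat_lit 312) (nat_lit 275)) (XT.nd (nat_lit 78) (nat_lit 0) (nat_lit 0) (XT.lf (nat_lit 0) (nat_lit 5091088653) (nat_lit 684) (nat_lit 4187355754) (nat_lit 760) (nat_lit 2183965761) (nat_lit 108) (nat_lit 5) (nat_lit 117) (nat_lit 5) (nat_lit 118) (nat_lit 5) (nat_lit 314) (nat_lit 312) (nat_lit 274)) (XT.lf (nat_lit 76) (nat_lit 4828890266) (nat_lit 0) (nat_lit 1763257457) (nat_lit 760) (nat_lit 5298805026) (nat_lit 109) (nat_lit 5) (nat_lit 108) (nat_lit 5) (nat_lit 118) (nat_lit 5) (nat_lit 315) (nat_lit 312) (nat_lit 273))))))))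
noncomputable def xc70 : XT := (XT.nd (nat_lit 1716) (nat_lit 1976) (nat_lit 0) (XT.nd (nat_lit 858) (nat_lit 2128) (nat_lit 0) (XT.nd (nat_lit 390) (nat_lit 1748) (nat_lit 0) (XT.nd (nat_lit 156) (nat_lit 1368) (nat_lit 0) (XT.nd (nat_lit 78) (nat_lit 0) (nat_lit 76) (XT.lf (nat_lit 76) (nat_lit 2282003596) (nat_lit 0) (nat_lit 6061145704) (nat_lit 760) (nat_lit 4004241962) (nat_lit 110) (nat_lit 5) (nat_lit 109) (nat_lit 5) (nat_lit 119) (nat_lit 5) (nat_lit 316) (nat_lit 312) (nat_lit 272)) (XT.lf (nat_lit 0) (nat_lit 10347212476) (nat_lit 684) (nat_lit 330291389) (nat_lit 760) (nat_lit 2157289522) (nat_lit 110) (nat_lit 5) (nat_lit 119) (nat_lit 5) (nat_lit 120) (nat_lit 5) (nat_lit 317) (nat_lit 312) (nat_lit 271))) (XT.nd (nat_lit 78) (nat_lit 1444) (nat_lit 0) (XT.lf (nat_lit 76) (nat_lit 10359132134) (nat_lit 0) (nat_lit 2348100849) (nat_lit 760) (nat_lit 644263457) (nat_lit 111)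 (nat_lit 5) (nat_lit 110) (nat_lit 5) (nat_lit 120) (nat_lit 5) (nat_lit 318) (nat_lit 312) (nat_lit 270)) (XT.nd (nat_lit 78) (nat_lit 760) (nat_lit 0) (XT.lf (nat_lit 0) (nat_lit 1478520850) (nat_lit 760) (nat_lit 5817983162) (nat_lit 76) (nat_lit 6603305350) (nat_lit 101) (nat_lit 5) (nat_lit 111) (nat_lit 5) (nat_lit 102) (nat_lit 5) (nat_lit 319) (nat_lit 312) (nat_lit 269)) (XT.lf (nat_lit 0) (nat_lit 3899150148) (nat_lit 836) (nat_lit 8777552553) (nat_lit 76) (nat_lit 1807300618) (nat_lit 91) (nat_lit 5) (nat_lit 102) (nat_lit 5) (nat_lit 92) (nat_lit 5) (nat_lit 320) (nat_lit 312) (nat_lit 268))))) (XT.nd (nat_lit 234) (nat_lit 1064) (nat_lit 0) (XT.nd (nat_lit 78) (nat_lit 304) (nat_lit 0) (XT.lf (nat_lit 0) (nat_lit 3172255945) (nat_lit 380) (nat_lit 3559518976) (nat_lit 456) (nat_lit 8372308942) (nat_lit 86) (nat_lit 5) (nat_lit 91) (nat_lit 5) (nat_lit 92) (nat_lit 5) (nat_lit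 321) (nat_lit 312) (nat_lit 267)) (XT.nd (nat_lit 78) (nat_lit 0) (nat_lit 0) (XT.lf (nat_lit 0) (nat_lit 484531664) (nat_lit 304) (nat_lit 9513811701) (nat_lit 380) (nat_lit 5765124063) (nat_lit 82) (nat_lit 5) (nat_lit 86) (nat_lit 5) (nat_lit 87) (nat_lit 5) (nat_lit 322) (nat_lit 312) (nat_lit 266)) (XT.lf (nat_lit 0) (nat_lit 13749713261) (nat_lit 380) (nat_lit 2267050268) (nat_lit 76) (nat_lit 447722931) (nat_lit 82) (nat_lit 5) (nat_lit 87) (nat_lit 5) (nat_lit 83) (nat_lit 5) (nat_lit 323) (nat_lit 312) (nat_lit 265)))) (XT.nd (nat_lit 78) (nat_lit 608) (nat_lit 0) (XT.lf (nat_lit 0) (nat_lit 866087034) (nat_lit 456) (nat_lit 5264232355) (nat_lit 76) (nat_lit 11075615202) (nat_lit 76) (nat_lit 5) (nat_lit 82) (nat_lit 5) (nat_lit 77) (nat_lit 5) (nat_lit 324) (nat_lit 312) (nat_lit 264)) (XT.nd (nat_lit 78) (nat_lit 304) (nat_lit 0) (XT.lf (nat_lit 0) (nat_lit 4858924354) (nat_lit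 380) (nat_lit 8499610913) (nat_lit 76) (nat_lit 4634954877) (nat_lit 72) (nat_lit 5) (nat_lit 77) (nat_lit 5) (nat_lit 73) (nat_lit 5) (nat_lit 325) (nat_lit 312) (nat_lit 263)) (XT.lf (nat_lit 0) (nat_lit 6844538522) (nat_lit 304) (nat_lit 2587559336) (nat_lit 380) (nat_lit 9398951110) (nat_lit 68) (nat_lit 5) (nat_lit 72) (nat_lit 5) (nat_lit 73) (nat_lit 5) (nat_lit 326) (nat_lit 312) (nat_lit 262)))))) (XT.nd (nat_lit 390) (nat_lit 1064) (nat_lit 0) (XT.nd (nat_lit 156) (nat_lit 532) (nat_lit 0) (XT.nd (nat_lit 78) (nat_lit 304) (nat_lit 0) (XT.lf (nat_lit 0) (nat_lit 3922916682) (nat_lit 228) (nat_lit 10760894798) (nat_lit 304) (nat_lit 5036207713) (nat_lit 65) (nat_lit 5) (nat_lit 68) (nat_lit 5) (nat_lit 69) (nat_lit 5) (nat_lit 327) (nat_lit 312) (nat_lit 261)) (XT.lf (nat_lit 0) (nat_lit 781700654) (nat_lit 304) (nat_lit 19813442141) (nat_lit 380) (nat_lit 73028179) (nat_lit 61)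 (nat_lit 5) (nat_lit 65) (nat_lit 5) (nat_lit 66) (nat_lit 5) (nat_lit 328) (nat_lit 312) (nat_lit 260))) (XT.nd (nat_lit 78) (nat_lit 456) (nat_lit 0) (XT.lf (nat_lit 0) (nat_lit 5542373713) (nat_lit 380) (nat_lit 2745183798) (nat_lit 76) (nat_lit 13379303883) (nat_lit 60) (nat_lit 5) (nat_lit 65) (nat_lit 5) (nat_lit 61) (nat_lit 5) (nat_lit 329) (nat_lit 312) (nat_lit 259)) (XT.nd (nat_lit 78) (nat_lit 228) (nat_lit 0) (XT.lf (nat_lit 0) (nat_lit 11892973277) (nat_lit 304) (nat_lit 6562957500) (nat_lit 76) (nat_lit 4275061211) (nat_lit 57) (nat_lit 5) (nat_lit 61) (nat_lit 5) (nat_lit 58) (nat_lit 5) (nat_lit 330) (nat_lit 312) (nat_lit 258)) (XT.lf (nat_lit 0) (nat_lit 13046503958) (nat_lit 228) (nat_lit 6064797001) (nat_lit 304) (nat_lit 4750996770) (nat_lit 54) (nat_lit 5) (nat_lit 57) (nat_lit 5) (nat_lit 58) (nat_lit 5) (nat_lit 331) (nat_lit 312) (nat_lit 257))))) (XT.nd (nat_lit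 234) (nat_lit 456) (nat_lit 0) (XT.nd (nat_lit 78) (nat_lit 380) (nat_lit 0) (XT.lf (nat_lit 0) (nat_lit 2118653580) (nat_lit 228) (nat_lit 15575885564) (nat_lit 76) (nat_lit 7370470318) (nat_lit 51) (nat_lit 5) (nat_lit 54) (nat_lit 5) (nat_lit 52) (nat_lit 5) (nat_lit 332) (nat_lit 312) (nat_lit 256)) (XT.nd (nat_lit 78) (nat_lit 152) (nat_lit 0) (XT.lf (nat_lit 0) (nat_lit 5393819530) (nat_lit 228) (nat_lit 4328088090) (nat_lit 304) (nat_lit 16620635523) (nat_lit 48) (nat_lit 5) (nat_lit 51) (nat_lit 5) (nat_lit 52) (nat_lit 5) (nat_lit 333) (nat_lit 312) (nat_lit 255)) (XT.lf (nat_lit 0) (nat_lit 706111765) (nat_lit 152) (nat_lit 17643543980) (nat_lit 228) (nat_lit 9351833787) (nat_lit 46) (nat_lit 5) (nat_lit 48) (nat_lit 5) (nat_lit 49) (nat_lit 5) (nat_lit 334) (nat_lit 312) (nat_lit 254)))) (XT.nd (nat_lit 78) (nat_lit 456) (nat_lit 0) (XT.lf (nat_lit 0) (nat_lit 24725046330) (nat_lit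 152) (nat_lit 3352385263) (nat_lit 228) (nat_lit 1071249740) (nat_lit 46) (nat_lit 5) (nat_lit 48) (nat_lit 5) (nat_lit 49) (nat_lit 5) (nat_lit 335) (nat_lit 312) (nat_lit 253)) (XT.nd (nat_lit 78) (nat_lit 152) (nat_lit 0) (XT.lf (nat_lit 0) (nat_lit 8109395177) (nat_lit 304) (nat_lit 10439923325) (nat_lit 76) (nat_lit 12131724653) (nat_lit 42) (nat_lit 5) (nat_lit 46) (nat_lit 5) (nat_lit 43) (nat_lit 5) (nat_lit 336) (nat_lit 312) (nat_lit 252)) (XT.lf (nat_lit 0) (nat_lit 15073350836) (nat_lit 152) (nat_lit 3260048824) (nat_lit 228) (nat_lit 13984410629) (nat_lit 40) (nat_lit 5) (nat_lit 42) (nat_lit 5) (nat_lit 43) (nat_lit 5) (nat_lit 337) (nat_lit 312) (nat_lit 251))))))) (XT.nd (nat_lit 858) (nat_lit 760) (nat_lit 0) (XT.nd (nat_lit 390) (nat_lit 532) (nat_lit 0) (XT.nd (nat_lit 156) (nat_lit 304) (nat_lit 0) (XT.nd (nat_lit 78) (nat_lit 228) (nat_lit 0) (XT.lf (nat_lit 0) (nat_lit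 8963655329) (nat_lit 152) (nat_lit 20920131347) (nat_lit 228) (nat_lit 4176324203) (nat_lit 38) (nat_lit 5) (nat_lit 40) (nat_lit 5) (nat_lit 41) (nat_lit 5) (nat_lit 338) (nat_lit 312) (nat_lit 250)) (XT.lf (nat_lit 0) (nat_lit 1819038439) (nat_lit 152) (nat_lit 4758244391) (nat_lit 228) (nat_lit 29341205233) (nat_lit 35) (nat_lit 5) (nat_lit 37) (nat_lit 5) (nat_lit 38) (nat_lit 5) (nat_lit 339) (nat_lit 312) (nat_lit 249))) (XT.nd (nat_lit 78) (nat_lit 304) (nat_lit 0) (XT.lf (nat_lit 0) (nat_lit 18667836905) (nat_lit 228) (nat_lit 6431359574) (nat_lit 76) (nat_lit 12791779304) (nat_lit 35) (nat_lit 5) (nat_lit 38) (nat_lit 5) (nat_lit 36) (nat_lit 5) (nat_lit 340) (nat_lit 312) (nat_lit 248)) (XT.nd (nat_lit 78) (nat_lit 152) (nat_lit 0) (XT.lf (nat_lit 0) (nat_lit 24108393634) (nat_lit 152) (nat_lit 8053929799) (nat_lit 228) (nat_lit 7837116166) (nat_lit 33) (nat_lit 5) (nat_lit 35)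 (nat_lit 5) (nat_lit 36) (nat_lit 5) (nat_lit 341) (nat_lit 312) (nat_lit 247)) (XT.lf (nat_lit 0) (nat_lit 4821123401) (nat_lit 152) (nat_lit 26984397592) (nat_lit 76) (nat_lit 10442384362) (nat_lit 31) (nat_lit 5) (nat_lit 33) (nat_lit 5) (nat_lit 32) (nat_lit 5) (nat_lit 342) (nat_lit 312) (nat_lit 246))))) (XT.nd (nat_lit 234) (nat_lit 228) (nat_lit 0) (XT.nd (nat_lit 78) (nat_lit 152) (nat_lit 0) (XT.lf (nat_lit 0) (nat_lit 4660457184) (nat_lit 152) (nat_lit 14032042118) (nat_lit 228) (nat_lit 25953582005) (nat_lit 29) (nat_lit 5) (nat_lit 31) (nat_lit 5) (nat_lit 32) (nat_lit 5) (nat_lit 343) (nat_lit 312) (nat_lit 245)) (XT.nd (nat_lit 78) (nat_lit 152) (nat_lit 0) (XT.lf (nat_lit 0) (nat_lit 34214121536) (nat_lit 228) (nat_lit 7531437460) (nat_lit 76) (nat_lit 5463534209) (nat_lit 29) (nat_lit 5) (nat_lit 32) (nat_lit 5) (nat_lit 30) (nat_lit 4) (nat_lit 344) (nat_lit 312) (nat_lit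 244)) (XT.lf (nat_lit 0) (nat_lit 1638786844) (nat_lit 152) (nat_lit 21815708208) (nat_lit 76) (nat_lit 26488353961) (nat_lit 27) (nat_lit 5) (nat_lit 29) (nat_lit 5) (nat_lit 28) (nat_lit 5) (nat_lit 345) (nat_lit 312) (nat_lit 243)))) (XT.nd (nat_lit 78) (nat_lit 76) (nat_lit 0) (XT.lf (nat_lit 0) (nat_lit 14224607627) (nat_lit 152) (nat_lit 3108890398) (nat_lit 228) (nat_lit 35533886110) (nat_lit 25) (nat_lit 5) (nat_lit 27) (nat_lit 5) (nat_lit 28) (nat_lit 5) (nat_lit 346) (nat_lit 312) (nat_lit 242)) (XT.nd (nat_lit 78) (nat_lit 76) (nat_lit 0) (XT.lf (nat_lit 0) (nat_lit 34949158504) (nat_lit 228) (nat_lit 2407829686) (nat_lit 76) (nat_lit 18635631821) (nat_lit 25) (nat_lit 5) (nat_lit 28) (nat_lit 5) (nat_lit 26) (nat_lit 4) (nat_lit 347) (nat_lit 312) (nat_lit 241)) (XT.lf (nat_lit 0) (nat_lit 37859898485) (nat_lit 76) (nat_lit 16743436164) (nat_lit 152) (nat_lit 4733083047) (nat_lit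 24) (nat_lit 5) (nat_lit 25) (nat_lit 5) (nat_lit 26) (nat_lit 4) (nat_lit 348) (nat_lit 312) (nat_lit 240)))))) (XT.nd (nat_lit 390) (nat_lit 304) (nat_lit 0) (XT.nd (nat_lit 156) (nat_lit 228) (nat_lit 0) (XT.nd (nat_lit 78) (nat_lit 0) (nat_lit 0) (XT.lf (nat_lit 0) (nat_lit 12888026926) (nat_lit 228) (nat_lit 44149584902) (nat_lit 76) (nat_lit 5879145937) (nat_lit 21) (nat_lit 5) (nat_lit 24) (nat_lit 5) (nat_lit 22) (nat_lit 4) (nat_lit 349) (nat_lit 312) (nat_lit 239)) (XT.lf (nat_lit 0) (nat_lit 32404465303) (nat_lit 228) (nat_lit 4159937870) (nat_lit 76) (nat_lit 30182674066) (nat_lit 21) (nat_lit 5) (nat_lit 24) (nat_lit 5) (nat_lit 22) (nat_lit 4) (nat_lit 350) (nat_lit 312) (nat_lit 238))) (XT.nd (nat_lit 78) (nat_lit 152) (nat_lit 0) (XT.lf (nat_lit 0) (nat_lit 40296268910) (nat_lit 76) (nat_lit 13802755997) (nat_lit 152) (nat_lit 16753961651) (nat_lit 20) (nat_lit 5) (nat_lit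 21) (nat_lit 5) (nat_lit 22) (nat_lit 4) (nat_lit 351) (nat_lit 312) (nat_lit 237)) (XT.nd (nat_lit 78) (nat_lit 0) (nat_lit 0) (XT.lf (nat_lit 0) (nat_lit 2616676909) (nat_lit 152) (nat_lit 61895875060) (nat_lit 76) (nat_lit 10750738320) (nat_lit 18) (nat_lit 5) (nat_lit 20) (nat_lit 5) (nat_lit 19) (nat_lit 4) (nat_lit 352) (nat_lit 312) (nat_lit 236)) (XT.lf (nat_lit 0) (nat_lit 23720044527) (nat_lit 152) (nat_lit 18648375070) (nat_lit 76) (nat_lit 37605766962) (nat_lit 18) (nat_lit 5) (nat_lit 20) (nat_lit 5) (nat_lit 19) (nat_lit 4) (nat_lit 353) (nat_lit 312) (nat_lit 235))))) (XT.nd (nat_lit 234) (nat_lit 76) (nat_lit 0) (XT.nd (nat_lit 78) (nat_lit 152) (nat_lit 0) (XT.lf (nat_lit 0) (nat_lit 28966351298) (nat_lit 76) (nat_lit 17986894720) (nat_lit 152) (nat_lit 38086633761) (nat_lit 17) (nat_lit 5) (nat_lit 18) (nat_lit 5) (nat_lit 19) (nat_lit 4) (nat_lit 354) (nat_lit 312) (nat_lit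 234)) (XT.nd (nat_lit 78) (nat_lit 152) (nat_lit 0) (XT.lf (nat_lit 0) (nat_lit 72495243812) (nat_lit 152) (nat_lit 9593219736) (nat_lit 0) (nat_lit 8399861119) (nat_lit 17) (nat_lit 5) (nat_lit 19) (nat_lit 4) (nat_lit 17) (nat_lit 4) (nat_lit 355) (nat_lit 312) (nat_lit 233)) (XT.lf (nat_lit 0) (nat_lit 4548229015) (nat_lit 152) (nat_lit 54782402793) (nat_lit 76) (nat_lit 36991174069) (nat_lit 15) (nat_lit 5) (nat_lit 17) (nat_lit 5) (nat_lit 16) (nat_lit 4) (nat_lit 356) (nat_lit 312) (nat_lit 232)))) (XT.nd (nat_lit 78) (nat_lit 76) (nat_lit 0) (XT.lf (nat_lit 0) (nat_lit 28431464195) (nat_lit 152) (nat_lit 5831853622) (nat_lit 76) (nat_lit 68335451448) (nat_lit 15) (nat_lit 5) (nat_lit 17) (nat_lit 5) (nat_lit 16) (nat_lit 4) (nat_lit 357) (nat_lit 312) (nat_lit 231)) (XT.nd (nat_lit 78) (nat_lit 0) (nat_lit 0) (XT.lf (nat_lit 0) (nat_lit 48573358588) (nat_lit 76) (nat_lit 6401787691)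 (nat_lit 152) (nat_lit 54365256471) (nat_lit 14) (nat_lit 5) (nat_lit 15) (nat_lit 5) (nat_lit 16) (nat_lit 4) (nat_lit 358) (nat_lit 312) (nat_lit 230)) (XT.lf (nat_lit 0) (nat_lit 84107128025) (nat_lit 152) (nat_lit 9464192661) (nat_lit 0) (nat_lit 23026808226) (nat_lit 14) (nat_lit 5) (nat_lit 16) (nat_lit 4) (nat_lit 14) (nat_lit 4) (nat_lit 359) (nat_lit 312) (nat_lit 229))))))))
noncomputable def xc71 : XT := (XT.nd (nat_lit 1716) (nat_lit 152) (nat_lit 0) (XT.nd (nat_lit 858) (nat_lit 304) (nat_lit 0) (XT.nd (nat_lit 390) (nat_lit 152) (nat_lit 0) (XT.nd (nat_lit 156) (nat_lit 152) (nat_lit 0) (XT.nd (nat_lit 78) (nat_lit 76) (nat_lit 0) (XT.lf (nat_lit 0) (nat_lit 47335496058) (nat_lit 76) (nat_lit 69073478353) (nat_lit 76) (nat_lit 7985535536) (nat_lit 13) (nat_lit 4) (nat_lit 14) (nat_lit 5) (nat_lit 14) (nat_lit 4) (nat_lit 360) (nat_lit 312) (nat_lit 228)) (XT.lf (nat_lit 0)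 (nat_lit 18048993828) (nat_lit 152) (nat_lit 24094563816) (nat_lit 76) (nat_lit 90648613445) (nat_lit 12) (nat_lit 5) (nat_lit 14) (nat_lit 5) (nat_lit 13) (nat_lit 4) (nat_lit 361) (nat_lit 312) (nat_lit 227))) (XT.nd (nat_lit 78) (nat_lit 76) (nat_lit 0) (XT.lf (nat_lit 0) (nat_lit 34049124739) (nat_lit 76) (nat_lit 12365832047) (nat_lit 152) (nat_lit 95413722244) (nat_lit 11) (nat_lit 5) (nat_lit 12) (nat_lit 5) (nat_lit 13) (nat_lit 4) (nat_lit 362) (nat_lit 312) (nat_lit 226)) (XT.nd (nat_lit 78) (nat_lit 76) (nat_lit 0) (XT.lf (nat_lit 0) (nat_lit 77779157381) (nat_lit 152) (nat_lit 54191049317) (nat_lit 0) (nat_lit 19581454455) (nat_lit 11) (nat_lit 5) (nat_lit 13) (nat_lit 4) (nat_lit 11) (nat_lit 4) (nat_lit 363) (nat_lit 312) (nat_lit 225)) (XT.lf (nat_lit 0) (nat_lit 3578788849) (nat_lit 76) (nat_lit 108331911693) (nat_lit 76) (nat_lit 50128872438) (nat_lit 10) (nat_lit 4) (nat_lit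 11) (nat_lit 5) (nat_lit 11) (nat_lit 4) (nat_lit 364) (nat_lit 312) (nat_lit 224))))) (XT.nd (nat_lit 234) (nat_lit 0) (nat_lit 0) (XT.nd (nat_lit 78) (nat_lit 152) (nat_lit 0) (XT.lf (nat_lit 0) (nat_lit 67894090635) (nat_lit 76) (nat_lit 81816752486) (nat_lit 76) (nat_lit 23608772185) (nat_lit 10) (nat_lit 4) (nat_lit 11) (nat_lit 5) (nat_lit 11) (nat_lit 4) (nat_lit 365) (nat_lit 312) (nat_lit 223)) (XT.nd (nat_lit 78) (nat_lit 76) (nat_lit 0) (XT.lf (nat_lit 0) (nat_lit 4866299649) (nat_lit 152) (nat_lit 48236641061) (nat_lit 76) (nat_lit 132395470141) (nat_lit 9) (nat_lit 5) (nat_lit 11) (nat_lit 5) (nat_lit 10) (nat_lit 4) (nat_lit 366) (nat_lit 312) (nat_lit 222)) (XT.lf (nat_lit 0) (nat_lit 13553222140) (nat_lit 76) (nat_lit 21456540607) (nat_lit 152) (nat_lit 163611520848) (nat_lit 8) (nat_lit 5) (nat_lit 9) (nat_lit 5) (nat_lit 10) (nat_lit 4) (nat_lit 367) (nat_lit 312) (nat_lit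 221)))) (XT.nd (nat_lit 78) (nat_lit 0) (nat_lit 0) (XT.lf (nat_lit 0) (nat_lit 68612371854) (nat_lit 152) (nat_lit 130965158933) (nat_lit 0) (nat_lit 13164072946) (nat_lit 8) (nat_lit 5) (nat_lit 10) (nat_lit 4) (nat_lit 8) (nat_lit 4) (nat_lit 368) (nat_lit 312) (nat_lit 220)) (XT.nd (nat_lit 78) (nat_lit 0) (nat_lit 0) (XT.lf (nat_lit 0) (nat_lit 105260378567) (nat_lit 152) (nat_lit 72904691630) (nat_lit 0) (nat_lit 49808620787) (nat_lit 8) (nat_lit 5) (nat_lit 10) (nat_lit 4) (nat_lit 8) (nat_lit 4) (nat_lit 369) (nat_lit 312) (nat_lit 219)) (XT.lf (nat_lit 0) (nat_lit 144835959529) (nat_lit 152) (nat_lit 10207600788) (nat_lit 0) (nat_lit 89380999089) (nat_lit 8) (nat_lit 5) (nat_lit 10) (nat_lit 4) (nat_lit 8) (nat_lit 4) (nat_lit 370) (nat_lit 312) (nat_lit 218)))))) (XT.nd (nat_lit 390) (nat_lit 76) (nat_lit 0) (XT.nd (nat_lit 156) (nat_lit 152) (nat_lit 0) (XT.nd (nat_lit 78) (nat_lit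 0) (nat_lit 0) (XT.lf (nat_lit 0) (nat_lit 59398783947) (nat_lit 76) (nat_lit 129102234236) (nat_lit 76) (nat_lit 73644308370) (nat_lit 7) (nat_lit 4) (nat_lit 8) (nat_lit 5) (nat_lit 8) (nat_lit 4) (nat_lit 371) (nat_lit 312) (nat_lit 217)) (XT.lf (nat_lit 0) (nat_lit 134930914704) (nat_lit 76) (nat_lit 100902405409) (nat_lit 76) (nat_lit 45441733779) (nat_lit 7) (nat_lit 4) (nat_lit 8) (nat_lit 5) (nat_lit 8) (nat_lit 4) (nat_lit 372) (nat_lit 312) (nat_lit 216))) (XT.nd (nat_lit 78) (nat_lit 152) (nat_lit 0) (XT.lf (nat_lit 0) (nat_lit 216498879913) (nat_lit 76) (nat_lit 70449834401) (nat_lit 76) (nat_lit 14986620396) (nat_lit 7) (nat_lit 4) (nat_lit 8) (nat_lit 5) (nat_lit 8) (nat_lit 4) (nat_lit 373) (nat_lit 312) (nat_lit 215)) (XT.nd (nat_lit 78) (nat_lit 76) (nat_lit 0) (XT.lf (nat_lit 0) (nat_lit 17328546518) (nat_lit 152) (nat_lit 19942047691) (nat_lit 76) (nat_lit 286964031453)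 (nat_lit 6) (nat_lit 5) (nat_lit 8) (nat_lit 5) (nat_lit 7) (nat_lit 4) (nat_lit 374) (nat_lit 312) (nat_lit 214)) (XT.lf (nat_lit 0) (nat_lit 52204194184) (nat_lit 76) (nat_lit 318704310) (nat_lit 152) (nat_lit 295741726355) (nat_lit 5) (nat_lit 5) (nat_lit 6) (nat_lit 5) (nat_lit 7) (nat_lit 4) (nat_lit 375) (nat_lit 312) (nat_lit 213))))) (XT.nd (nat_lit 234) (nat_lit 76) (nat_lit 0) (XT.nd (nat_lit 78) (nat_lit 0) (nat_lit 0) (XT.lf (nat_lit 0) (nat_lit 91501023350) (nat_lit 152) (nat_lit 243994915087) (nat_lit 0) (nat_lit 38672674826) (nat_lit 5) (nat_lit 5) (nat_lit 7) (nat_lit 4) (nat_lit 5) (nat_lit 4) (nat_lit 376) (nat_lit 312) (nat_lit 212)) (XT.nd (nat_lit 78) (nat_lit 0) (nat_lit 0) (XT.lf (nat_lit 0) (nat_lit 133600042411) (nat_lit 152) (nat_lit 187774832461) (nat_lit 0) (nat_lit 80769914152) (nat_lit 5) (nat_lit 5) (nat_lit 7) (nat_lit 4) (nat_lit 5) (nat_lit 4) (nat_lit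 377) (nat_lit 312) (nat_lit 211)) (XT.lf (nat_lit 0) (nat_lit 179064455479) (nat_lit 152) (nat_lit 127062050876) (nat_lit 0) (nat_lit 126232679319) (nat_lit 5) (nat_lit 5) (nat_lit 7) (nat_lit 4) (nat_lit 5) (nat_lit 4) (nat_lit 378) (nat_lit 312) (nat_lit 210)))) (XT.nd (nat_lit 78) (nat_lit 76) (nat_lit 0) (XT.lf (nat_lit 0) (nat_lit 228163681299) (nat_lit 152) (nat_lit 61496790885) (nat_lit 0) (nat_lit 175330379303) (nat_lit 5) (nat_lit 5) (nat_lit 7) (nat_lit 4) (nat_lit 5) (nat_lit 4) (nat_lit 379) (nat_lit 312) (nat_lit 209)) (XT.nd (nat_lit 78) (nat_lit 0) (nat_lit 0) (XT.lf (nat_lit 0) (nat_lit 9617295916) (nat_lit 76) (nat_lit 271721535271) (nat_lit 76) (nat_lit 218886820465) (nat_lit 4) (nat_lit 4) (nat_lit 5) (nat_lit 5) (nat_lit 5) (nat_lit 4) (nat_lit 380) (nat_lit 312) (nat_lit 208)) (XT.lf (nat_lit 0) (nat_lit 88612515561) (nat_lit 76) (nat_lit 251224642666) (nat_lit 76)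 (nat_lit 198388619702) (nat_lit 4) (nat_lit 4) (nat_lit 5) (nat_lit 5) (nat_lit 5) (nat_lit 4) (nat_lit 381) (nat_lit 312) (nat_lit 207))))))) (XT.nd (nat_lit 41730) (nat_lit 0) (nat_lit 5016) (XT.nd (nat_lit 390) (nat_lit 152) (nat_lit 0) (XT.nd (nat_lit 156) (nat_lit 0) (nat_lit 0) (XT.nd (nat_lit 78) (nat_lit 0) (nat_lit 0) (XT.lf (nat_lit 0) (nat_lit 173923626235) (nat_lit 76) (nat_lit 229089809213) (nat_lit 76) (nat_lit 176252574992) (nat_lit 4) (nat_lit 4) (nat_lit 5) (nat_lit 5) (nat_lit 5) (nat_lit 4) (nat_lit 382) (nat_lit 312) (nat_lit 206)) (XT.lf (nat_lit 0) (nat_lit 266056175261) (nat_lit 76) (nat_lit 205185865528) (nat_lit 76) (nat_lit 152347509772) (nat_lit 4) (nat_lit 4) (nat_lit 5) (nat_lit 5) (nat_lit 5) (nat_lit 4) (nat_lit 383) (nat_lit 312) (nat_lit 205))) (XT.nd (nat_lit 78) (nat_lit 0) (nat_lit 0) (XT.lf (nat_lit 0) (nat_lit 365556133299) (nat_lit 76) (nat_lit 179371158611)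 (nat_lit 76) (nat_lit 126531764397) (nat_lit 4) (nat_lit 4) (nat_lit 5) (nat_lit 5) (nat_lit 5) (nat_lit 4) (nat_lit 384) (nat_lit 312) (nat_lit 204)) (XT.nd (nat_lit 78) (nat_lit 0) (nat_lit 0) (XT.lf (nat_lit 0) (nat_lit 473013129731) (nat_lit 76) (nat_lit 151492712422) (nat_lit 76) (nat_lit 98652356673) (nat_lit 4) (nat_lit 4) (nat_lit 5) (nat_lit 5) (nat_lit 5) (nat_lit 4) (nat_lit 385) (nat_lit 312) (nat_lit 203)) (XT.lf (nat_lit 0) (nat_lit 589063946758) (nat_lit 76) (nat_lit 121385321353) (nat_lit 76) (nat_lit 68544075293) (nat_lit 4) (nat_lit 4) (nat_lit 5) (nat_lit 5) (nat_lit 5) (nat_lit 4) (nat_lit 386) (nat_lit 312) (nat_lit 202))))) (XT.nd (nat_lit 41106) (nat_lit 0) (nat_lit 7980) (XT.nd (nat_lit 78) (nat_lit 152) (nat_lit 0) (XT.lf (nat_lit 0) (nat_lit 714396292925) (nat_lit 76) (nat_lit 88870571235) (nat_lit 76) (nat_lit 36028500814) (nat_lit 4) (nat_lit 4) (nat_lit 5) (nat_lit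 5) (nat_lit 5) (nat_lit 4) (nat_lit 387) (nat_lit 312) (nat_lit 201)) (XT.nd (nat_lit 78) (nat_lit 152) (nat_lit 0) (XT.lf (nat_lit 0) (nat_lit 849752878431) (nat_lit 76) (nat_lit 53755782067) (nat_lit 76) (nat_lit 912948349) (nat_lit 4) (nat_lit 4) (nat_lit 5) (nat_lit 5) (nat_lit 5) (nat_lit 4) (nat_lit 388) (nat_lit 312) (nat_lit 200)) (XT.lf (nat_lit 0) (nat_lit 21281095670) (nat_lit 76) (nat_lit 14877263425) (nat_lit 152) (nat_lit 938554144332) (nat_lit 2) (nat_lit 5) (nat_lit 3) (nat_lit 5) (nat_lit 4) (nat_lit 4) (nat_lit 389) (nat_lit 312) (nat_lit 199)))) (XT.nd (nat_lit 78) (nat_lit 0) (nat_lit 0) (XT.lf (nat_lit 0) (nat_lit 1171952610) (nat_lit 0) (nat_lit 1171952610) (nat_lit 684) (nat_lit 3380088275) (nat_lit 107) (nat_lit 5) (nat_lit 107) (nat_lit 3) (nat_lit 116) (nat_lit 3) (nat_lit 313) (nat_lit 313) (nat_lit 274)) (XT.nd (nat_lit 78) (nat_lit 0) (nat_lit 76) (XT.lf (nat_lit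 0) (nat_lit 5755238947) (nat_lit 684) (nat_lit 596649942) (nat_lit 760) (nat_lit 5508968163) (nat_lit 107) (nat_lit 5) (nat_lit 116) (nat_lit 3) (nat_lit 117) (nat_lit 5) (nat_lit 314) (nat_lit 313) (nat_lit 273)) (XT.lf (nat_lit 0) (nat_lit 7034108990) (nat_lit 684) (nat_lit 3540882043) (nat_lit 760) (nat_lit 1725568732) (nat_lit 108) (nat_lit 5) (nat_lit 117) (nat_lit 5) (nat_lit 118) (nat_lit 5) (nat_lit 315) (nat_lit 313) (nat_lit 272)))))) (XT.nd (nat_lit 468) (nat_lit 1748) (nat_lit 0) (XT.nd (nat_lit 234) (nat_lit 1292) (nat_lit 0) (XT.nd (nat_lit 78) (nat_lit 0) (nat_lit 76) (XT.lf (nat_lit 76) (nat_lit 6154010509) (nat_lit 0) (nat_lit 2402141700) (nat_lit 760) (nat_lit 4212340911) (nat_lit 109) (nat_lit 5) (nat_lit 108) (nat_lit 5) (nat_lit 118) (nat_lit 5) (nat_lit 316) (nat_lit 313) (nat_lit 271)) (XT.nd (nat_lit 78) (nat_lit 0) (nat_lit 76) (XT.lf (nat_lit 76) (nat_lit 3440539431)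 (nat_lit 0) (nat_lit 6908318271) (nat_lit 760) (nat_lit 2917648874) (nat_lit 110) (nat_lit 5) (nat_lit 109) (nat_lit 5) (nat_lit 119) (nat_lit 5) (nat_lit 317) (nat_lit 313) (nat_lit 270)) (XT.lf (nat_lit 76) (nat_lit 636153360) (nat_lit 0) (nat_lit 11782657360) (nat_lit 760) (nat_lit 1378942517) (nat_lit 111) (nat_lit 5) (nat_lit 110) (nat_lit 5) (nat_lit 120) (nat_lit 5) (nat_lit 318) (nat_lit 313) (nat_lit 269)))) (XT.nd (nat_lit 78) (nat_lit 684) (nat_lit 0) (XT.lf (nat_lit 0) (nat_lit 503909859) (nat_lit 760) (nat_lit 2250275516) (nat_lit 836) (nat_lit 11605662091) (nat_lit 100) (nat_lit 5) (nat_lit 110) (nat_lit 5) (nat_lit 111) (nat_lit 5) (nat_lit 319) (nat_lit 313) (nat_lit 268)) (XT.nd (nat_lit 78) (nat_lit 760) (nat_lit 0) (XT.lf (nat_lit 0) (nat_lit 2698771798) (nat_lit 760) (nat_lit 5295667610) (nat_lit 76) (nat_lit 6960923233) (nat_lit 101) (nat_lit 5) (nat_lit 111) (nat_lit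 5) (nat_lit 102) (nat_lit 5) (nat_lit 320) (nat_lit 313) (nat_lit 267)) (XT.lf (nat_lit 0) (nat_lit 5244766193) (nat_lit 836) (nat_lit 8480530913) (nat_lit 76) (nat_lit 1864508013) (nat_lit 91) (nat_lit 5) (nat_lit 102) (nat_lit 5) (nat_lit 92) (nat_lit 5) (nat_lit 321) (nat_lit 313) (nat_lit 266))))) (XT.nd (nat_lit 234) (nat_lit 1064) (nat_lit 0) (XT.nd (nat_lit 78) (nat_lit 304) (nat_lit 0) (XT.lf (nat_lit 0) (nat_lit 4381837127) (nat_lit 380) (nat_lit 3860517360) (nat_lit 456) (nat_lit 8020311368) (nat_lit 86) (nat_lit 5) (nat_lit 91) (nat_lit 5) (nat_lit 92) (nat_lit 5) (nat_lit 322) (nat_lit 313) (nat_lit 265)) (XT.nd (nat_lit 78) (nat_lit 0) (nat_lit 0) (XT.lf (nat_lit 0) (nat_lit 1485382328) (nat_lit 304) (nat_lit 10227649463) (nat_lit 380) (nat_lit 5264713801) (nat_lit 82) (nat_lit 5) (nat_lit 86) (nat_lit 5) (nat_lit 87) (nat_lit 5) (nat_lit 323) (nat_lit 313) (nat_lit 264)) (XT.lf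 (nat_lit 0) (nat_lit 15697430071) (nat_lit 380) (nat_lit 1514942634) (nat_lit 76) (nat_lit 525905886) (nat_lit 82) (nat_lit 5) (nat_lit 87) (nat_lit 5) (nat_lit 83) (nat_lit 5) (nat_lit 324) (nat_lit 313) (nat_lit 263)))) (XT.nd (nat_lit 78) (nat_lit 608) (nat_lit 0) (XT.lf (nat_lit 0) (nat_lit 1748233604) (nat_lit 456) (nat_lit 4764725998) (nat_lit 76) (nat_lit 12027942755) (nat_lit 76) (nat_lit 5) (nat_lit 82) (nat_lit 5) (nat_lit 77) (nat_lit 5) (nat_lit 325) (nat_lit 313) (nat_lit 262)) (XT.nd (nat_lit 78) (nat_lit 304) (nat_lit 0) (XT.lf (nat_lit 0) (nat_lit 6015818838) (nat_lit 380) (nat_lit 8261608655) (nat_lit 76) (nat_lit 5116332817) (nat_lit 72) (nat_lit 5) (nat_lit 77) (nat_lit 5) (nat_lit 73) (nat_lit 5) (nat_lit 326) (nat_lit 313) (nat_lit 261)) (XT.lf (nat_lit 0) (nat_lit 8270178828) (nat_lit 304) (nat_lit 2641474379) (nat_lit 380) (nat_lit 9388889544) (nat_lit 68) (nat_lit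 5) (nat_lit 72) (nat_lit 5) (nat_lit 73) (nat_lit 5) (nat_lit 327) (nat_lit 313) (nat_lit 260))))))))
noncomputable def xc72 : XT := (XT.nd (nat_lit 1716) (nat_lit 1216) (nat_lit 0) (XT.nd (nat_lit 858) (nat_lit 1216) (nat_lit 0) (XT.nd (nat_lit 390) (nat_lit 1064) (nat_lit 0) (XT.nd (nat_lit 156) (nat_lit 456) (nat_lit 0) (XT.nd (nat_lit 78) (nat_lit 380) (nat_lit 0) (XT.lf (nat_lit 0) (nat_lit 5109763377) (nat_lit 228) (nat_lit 11435881057) (nat_lit 304) (nat_lit 4716934004) (nat_lit 65) (nat_lit 5) (nat_lit 68) (nat_lit 5) (nat_lit 69) (nat_lit 5) (nat_lit 328) (nat_lit 313) (nat_lit 259)) (XT.lf (nat_lit 0) (nat_lit 587399018) (nat_lit 380) (nat_lit 20587788715) (nat_lit 76) (nat_lit 1112706394) (nat_lit 60) (nat_lit 5) (nat_lit 65) (nat_lit 5) (nat_lit 61) (nat_lit 5) (nat_lit 329) (nat_lit 313) (nat_lit 258))) (XT.nd (nat_lit 78) (nat_lit 456) (nat_lit 0) (XT.lf (nat_lit 0) (nat_lit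 6600342412) (nat_lit 380) (nat_lit 2142235685) (nat_lit 76) (nat_lit 14626343233) (nat_lit 60) (nat_lit 5) (nat_lit 65) (nat_lit 5) (nat_lit 61) (nat_lit 5) (nat_lit 330) (nat_lit 313) (nat_lit 257)) (XT.nd (nat_lit 78) (nat_lit 228) (nat_lit 0) (XT.lf (nat_lit 0) (nat_lit 13428958039) (nat_lit 304) (nat_lit 6274801430) (nat_lit 76) (nat_lit 4815965983) (nat_lit 57) (nat_lit 5) (nat_lit 61) (nat_lit 5) (nat_lit 58) (nat_lit 5) (nat_lit 331) (nat_lit 313) (nat_lit 256)) (XT.lf (nat_lit 0) (nat_lit 14868076583) (nat_lit 228) (nat_lit 6325520036) (nat_lit 304) (nat_lit 4549535208) (nat_lit 54) (nat_lit 5) (nat_lit 57) (nat_lit 5) (nat_lit 58) (nat_lit 5) (nat_lit 332) (nat_lit 313) (nat_lit 255))))) (XT.nd (nat_lit 234) (nat_lit 456) (nat_lit 0) (XT.nd (nat_lit 78) (nat_lit 380) (nat_lit 0) (XT.lf (nat_lit 0) (nat_lit 2824855088) (nat_lit 228) (nat_lit 16036164974) (nat_lit 76) (nat_lit 8181931293)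 (nat_lit 51) (nat_lit 5) (nat_lit 54) (nat_lit 5) (nat_lit 52) (nat_lit 5) (nat_lit 333) (nat_lit 313) (nat_lit 254)) (XT.nd (nat_lit 78) (nat_lit 152) (nat_lit 0) (XT.lf (nat_lit 0) (nat_lit 6576966990) (nat_lit 228) (nat_lit 4431381459) (nat_lit 304) (nat_lit 17415771693) (nat_lit 48) (nat_lit 5) (nat_lit 51) (nat_lit 5) (nat_lit 52) (nat_lit 5) (nat_lit 334) (nat_lit 313) (nat_lit 253)) (XT.lf (nat_lit 0) (nat_lit 1502652888) (nat_lit 152) (nat_lit 18801049426) (nat_lit 228) (nat_lit 9589239674) (nat_lit 46) (nat_lit 5) (nat_lit 48) (nat_lit 5) (nat_lit 49) (nat_lit 5) (nat_lit 335) (nat_lit 313) (nat_lit 252)))) (XT.nd (nat_lit 78) (nat_lit 456) (nat_lit 0) (XT.lf (nat_lit 0) (nat_lit 27388283538) (nat_lit 152) (nat_lit 3385411203) (nat_lit 228) (nat_lit 684041556) (nat_lit 46) (nat_lit 5) (nat_lit 48) (nat_lit 5) (nat_lit 49) (nat_lit 5) (nat_lit 336) (nat_lit 313) (nat_lit 251)) (XT.nd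 (nat_lit 78) (nat_lit 152) (nat_lit 0) (XT.lf (nat_lit 0) (nat_lit 9196157426) (nat_lit 304) (nat_lit 10586549153) (nat_lit 76) (nat_lit 13330623101) (nat_lit 42) (nat_lit 5) (nat_lit 46) (nat_lit 5) (nat_lit 43) (nat_lit 5) (nat_lit 337) (nat_lit 313) (nat_lit 250)) (XT.lf (nat_lit 0) (nat_lit 16937862613) (nat_lit 152) (nat_lit 3278057697) (nat_lit 228) (nat_lit 14666247929) (nat_lit 40) (nat_lit 5) (nat_lit 42) (nat_lit 5) (nat_lit 43) (nat_lit 5) (nat_lit 338) (nat_lit 313) (nat_lit 249)))))) (XT.nd (nat_lit 390) (nat_lit 532) (nat_lit 0) (XT.nd (nat_lit 156) (nat_lit 304) (nat_lit 0) (XT.nd (nat_lit 78) (nat_lit 228) (nat_lit 0) (XT.lf (nat_lit 0) (nat_lit 10327292974) (nat_lit 152) (nat_lit 22345846008) (nat_lit 228) (nat_lit 4091594188) (nat_lit 38) (nat_lit 5) (nat_lit 40) (nat_lit 5) (nat_lit 41) (nat_lit 5) (nat_lit 339) (nat_lit 313) (nat_lit 248)) (XT.lf (nat_lit 0) (nat_lit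 2596062944) (nat_lit 152) (nat_lit 4892660709) (nat_lit 228) (nat_lit 31283756461) (nat_lit 35) (nat_lit 5) (nat_lit 37) (nat_lit 5) (nat_lit 38) (nat_lit 5) (nat_lit 340) (nat_lit 313) (nat_lit 247))) (XT.nd (nat_lit 78) (nat_lit 304) (nat_lit 0) (XT.lf (nat_lit 0) (nat_lit 20521544176) (nat_lit 228) (nat_lit 6346661046) (nat_lit 76) (nat_lit 14035827122) (nat_lit 35) (nat_lit 5) (nat_lit 38) (nat_lit 5) (nat_lit 36) (nat_lit 5) (nat_lit 341) (nat_lit 313) (nat_lit 246)) (XT.nd (nat_lit 78) (nat_lit 152) (nat_lit 0) (XT.lf (nat_lit 0) (nat_lit 26610231600) (nat_lit 152) (nat_lit 8467619331) (nat_lit 228) (nat_lit 8104224640) (nat_lit 33) (nat_lit 5) (nat_lit 35) (nat_lit 5) (nat_lit 36) (nat_lit 5) (nat_lit 342) (nat_lit 313) (nat_lit 245)) (XT.lf (nat_lit 0) (nat_lit 5541650143) (nat_lit 152) (nat_lit 28570529100) (nat_lit 76) (nat_lit 11498647283) (nat_lit 31) (nat_lit 5) (nat_lit 33)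 (nat_lit 5) (nat_lit 32) (nat_lit 5) (nat_lit 343) (nat_lit 313) (nat_lit 244))))) (XT.nd (nat_lit 234) (nat_lit 228) (nat_lit 0) (XT.nd (nat_lit 78) (nat_lit 152) (nat_lit 0) (XT.lf (nat_lit 0) (nat_lit 5581028678) (nat_lit 152) (nat_lit 14925456384) (nat_lit 228) (nat_lit 27695196594) (nat_lit 29) (nat_lit 5) (nat_lit 31) (nat_lit 5) (nat_lit 32) (nat_lit 5) (nat_lit 344) (nat_lit 313) (nat_lit 243)) (XT.nd (nat_lit 78) (nat_lit 152) (nat_lit 0) (XT.lf (nat_lit 0) (nat_lit 37249550773) (nat_lit 228) (nat_lit 7615208555) (nat_lit 76) (nat_lit 6106001113) (nat_lit 29) (nat_lit 5) (nat_lit 32) (nat_lit 5) (nat_lit 30) (nat_lit 4) (nat_lit 345) (nat_lit 313) (nat_lit 242)) (XT.lf (nat_lit 0) (nat_lit 2058625223) (nat_lit 152) (nat_lit 23055089960) (nat_lit 76) (nat_lit 28809996897) (nat_lit 27) (nat_lit 5) (nat_lit 29) (nat_lit 5) (nat_lit 28) (nat_lit 5) (nat_lit 346) (nat_lit 313) (nat_lit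 241)))) (XT.nd (nat_lit 78) (nat_lit 76) (nat_lit 0) (XT.lf (nat_lit 0) (nat_lit 15846466434) (nat_lit 152) (nat_lit 3148613935) (nat_lit 228) (nat_lit 38087830776) (nat_lit 25) (nat_lit 5) (nat_lit 27) (nat_lit 5) (nat_lit 28) (nat_lit 5) (nat_lit 347) (nat_lit 313) (nat_lit 240)) (XT.nd (nat_lit 78) (nat_lit 76) (nat_lit 0) (XT.lf (nat_lit 0) (nat_lit 38002651728) (nat_lit 228) (nat_lit 2142593993) (nat_lit 76) (nat_lit 20313796055) (nat_lit 25) (nat_lit 5) (nat_lit 28) (nat_lit 5) (nat_lit 26) (nat_lit 4) (nat_lit 348) (nat_lit 313) (nat_lit 239)) (XT.lf (nat_lit 0) (nat_lit 41326654304) (nat_lit 76) (nat_lit 17890266945) (nat_lit 152) (nat_lit 4854042194) (nat_lit 24) (nat_lit 5) (nat_lit 25) (nat_lit 5) (nat_lit 26) (nat_lit 4) (nat_lit 349) (nat_lit 313) (nat_lit 238))))))) (XT.nd (nat_lit 858) (nat_lit 456) (nat_lit 0) (XT.nd (nat_lit 390) (nat_lit 304) (nat_lit 0) (XT.nd (nat_lit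 156) (nat_lit 228) (nat_lit 0) (XT.nd (nat_lit 78) (nat_lit 0) (nat_lit 0) (XT.lf (nat_lit 0) (nat_lit 14159652494) (nat_lit 228) (nat_lit 47245623516) (nat_lit 76) (nat_lit 6532703544) (nat_lit 21) (nat_lit 5) (nat_lit 24) (nat_lit 5) (nat_lit 22) (nat_lit 4) (nat_lit 350) (nat_lit 313) (nat_lit 237)) (XT.lf (nat_lit 0) (nat_lit 35219584948) (nat_lit 228) (nat_lit 4089095698) (nat_lit 76) (nat_lit 32766941632) (nat_lit 21) (nat_lit 5) (nat_lit 24) (nat_lit 5) (nat_lit 22) (nat_lit 4) (nat_lit 351) (nat_lit 313) (nat_lit 236))) (XT.nd (nat_lit 78) (nat_lit 152) (nat_lit 0) (XT.lf (nat_lit 0) (nat_lit 43906066044) (nat_lit 76) (nat_lit 14733170391) (nat_lit 152) (nat_lit 17871297701) (nat_lit 20) (nat_lit 5) (nat_lit 21) (nat_lit 5) (nat_lit 22) (nat_lit 4) (nat_lit 352) (nat_lit 313) (nat_lit 235)) (XT.nd (nat_lit 78) (nat_lit 0) (nat_lit 0) (XT.lf (nat_lit 0) (nat_lit 3034402178) (nat_lit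 152) (nat_lit 66463639508) (nat_lit 76) (nat_lit 11775824485) (nat_lit 18) (nat_lit 5) (nat_lit 20) (nat_lit 5) (nat_lit 19) (nat_lit 4) (nat_lit 353) (nat_lit 313) (nat_lit 234)) (XT.lf (nat_lit 0) (nat_lit 25810602826) (nat_lit 152) (nat_lit 19784776966) (nat_lit 76) (nat_lit 40767031188) (nat_lit 18) (nat_lit 5) (nat_lit 20) (nat_lit 5) (nat_lit 19) (nat_lit 4) (nat_lit 354) (nat_lit 313) (nat_lit 233))))) (XT.nd (nat_lit 234) (nat_lit 76) (nat_lit 0) (XT.nd (nat_lit 78) (nat_lit 152) (nat_lit 0) (XT.lf (nat_lit 0) (nat_lit 31623679300) (nat_lit 76) (nat_lit 19269796857) (nat_lit 152) (nat_lit 40940337366) (nat_lit 17) (nat_lit 5) (nat_lit 18) (nat_lit 5) (nat_lit 19) (nat_lit 4) (nat_lit 355) (nat_lit 313) (nat_lit 232)) (XT.nd (nat_lit 78) (nat_lit 152) (nat_lit 0) (XT.lf (nat_lit 0) (nat_lit 78467462231) (nat_lit 152) (nat_lit 10039529011) (nat_lit 0) (nat_lit 9211715642) (nat_lit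 17) (nat_lit 5) (nat_lit 19) (nat_lit 4) (nat_lit 17) (nat_lit 4) (nat_lit 356) (nat_lit 313) (nat_lit 231)) (XT.lf (nat_lit 0) (nat_lit 5079444021) (nat_lit 152) (nat_lit 58852222407) (nat_lit 76) (nat_lit 40087468634) (nat_lit 15) (nat_lit 5) (nat_lit 17) (nat_lit 5) (nat_lit 16) (nat_lit 4) (nat_lit 357) (nat_lit 313) (nat_lit 230)))) (XT.nd (nat_lit 78) (nat_lit 76) (nat_lit 0) (XT.lf (nat_lit 0) (nat_lit 30860941224) (nat_lit 152) (nat_lit 6008797643) (nat_lit 76) (nat_lit 73929140007) (nat_lit 15) (nat_lit 5) (nat_lit 17) (nat_lit 5) (nat_lit 16) (nat_lit 4) (nat_lit 358) (nat_lit 313) (nat_lit 229)) (XT.nd (nat_lit 78) (nat_lit 0) (nat_lit 0) (XT.lf (nat_lit 0) (nat_lit 52736245695) (nat_lit 76) (nat_lit 6784718703) (nat_lit 152) (nat_lit 58559239568) (nat_lit 14) (nat_lit 5) (nat_lit 15) (nat_lit 5) (nat_lit 16) (nat_lit 4) (nat_lit 359) (nat_lit 313) (nat_lit 228)) (XT.lf (nat_lit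 0) (nat_lit 90974423987) (nat_lit 152) (nat_lit 9959816905) (nat_lit 0) (nat_lit 24984764378) (nat_lit 14) (nat_lit 5) (nat_lit 16) (nat_lit 4) (nat_lit 14) (nat_lit 4) (nat_lit 360) (nat_lit 313) (nat_lit 227)))))) (XT.nd (nat_lit 390) (nat_lit 152) (nat_lit 0) (XT.nd (nat_lit 156) (nat_lit 152) (nat_lit 0) (XT.nd (nat_lit 78) (nat_lit 76) (nat_lit 0) (XT.lf (nat_lit 0) (nat_lit 51372481954) (nat_lit 76) (nat_lit 74481565633) (nat_lit 76) (nat_lit 8485370515) (nat_lit 13) (nat_lit 4) (nat_lit 14) (nat_lit 5) (nat_lit 14) (nat_lit 4) (nat_lit 361) (nat_lit 313) (nat_lit 226)) (XT.lf (nat_lit 0) (nat_lit 19617504765) (nat_lit 152) (nat_lit 25786361746) (nat_lit 76) (nat_lit 98005417937) (nat_lit 12) (nat_lit 5) (nat_lit 14) (nat_lit 5) (nat_lit 13) (nat_lit 4) (nat_lit 362) (nat_lit 313) (nat_lit 225))) (XT.nd (nat_lit 78) (nat_lit 76) (nat_lit 0) (XT.lf (nat_lit 0) (nat_lit 36998575740)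 (nat_lit 76) (nat_lit 13248461040) (nat_lit 152) (nat_lit 102921963921) (nat_lit 11) (nat_lit 5) (nat_lit 12) (nat_lit 5) (nat_lit 13) (nat_lit 4) (nat_lit 363) (nat_lit 313) (nat_lit 224)) (XT.nd (nat_lit 78) (nat_lit 76) (nat_lit 0) (XT.lf (nat_lit 0) (nat_lit 84113108825) (nat_lit 152) (nat_lit 58313528853) (nat_lit 0) (nat_lit 21243549055) (nat_lit 11) (nat_lit 5) (nat_lit 13) (nat_lit 4) (nat_lit 11) (nat_lit 4) (nat_lit 364) (nat_lit 313) (nat_lit 223)) (XT.lf (nat_lit 0) (nat_lit 4068648146) (nat_lit 76) (nat_lit 116901437312) (nat_lit 76) (nat_lit 54027302500) (nat_lit 10) (nat_lit 4) (nat_lit 11) (nat_lit 5) (nat_lit 11) (nat_lit 4) (nat_lit 365) (nat_lit 313) (nat_lit 222))))) (XT.nd (nat_lit 234) (nat_lit 0) (nat_lit 0) (XT.nd (nat_lit 78) (nat_lit 152) (nat_lit 0) (XT.lf (nat_lit 0) (nat_lit 73514095839) (nat_lit 76) (nat_lit 88272252577) (nat_lit 76) (nat_lit 25393881615) (nat_lit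 10) (nat_lit 4) (nat_lit 11) (nat_lit 5) (nat_lit 11) (nat_lit 4) (nat_lit 366) (nat_lit 313) (nat_lit 221)) (XT.nd (nat_lit 78) (nat_lit 76) (nat_lit 0) (XT.lf (nat_lit 0) (nat_lit 5348452457) (nat_lit 152) (nat_lit 51917965784) (nat_lit 76) (nat_lit 143067203099) (nat_lit 9) (nat_lit 5) (nat_lit 11) (nat_lit 5) (nat_lit 10) (nat_lit 4) (nat_lit 367) (nat_lit 313) (nat_lit 220)) (XT.lf (nat_lit 0) (nat_lit 14807367908) (nat_lit 76) (nat_lit 23091799432) (nat_lit 152) (nat_lit 176607369305) (nat_lit 8) (nat_lit 5) (nat_lit 9) (nat_lit 5) (nat_lit 10) (nat_lit 4) (nat_lit 368) (nat_lit 313) (nat_lit 219)))) (XT.nd (nat_lit 78) (nat_lit 0) (nat_lit 0) (XT.lf (nat_lit 0) (nat_lit 74184595249) (nat_lit 152) (nat_lit 141282122695) (nat_lit 0) (nat_lit 14290035314) (nat_lit 8) (nat_lit 5) (nat_lit 10) (nat_lit 4) (nat_lit 8) (nat_lit 4) (nat_lit 369) (nat_lit 313) (nat_lit 218)) (XT.nd (nat_lit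 78) (nat_lit 0) (nat_lit 0) (XT.lf (nat_lit 0) (nat_lit 113758277044) (nat_lit 152) (nat_lit 78588688301) (nat_lit 0) (nat_lit 53860751683) (nat_lit 8) (nat_lit 5) (nat_lit 10) (nat_lit 4) (nat_lit 8) (nat_lit 4) (nat_lit 370) (nat_lit 313) (nat_lit 217)) (XT.lf (nat_lit 0) (nat_lit 156494195728) (nat_lit 152) (nat_lit 10886821203) (nat_lit 0) (nat_lit 96593924603) (nat_lit 8) (nat_lit 5) (nat_lit 10) (nat_lit 4) (nat_lit 8) (nat_lit 4) (nat_lit 371) (nat_lit 313) (nat_lit 216))))))))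
noncomputable def xc73 : XT := (XT.nd (nat_lit 42666) (nat_lit 0) (nat_lit 2736) (XT.nd (nat_lit 858) (nat_lit 0) (nat_lit 0) (XT.nd (nat_lit 390) (nat_lit 76) (nat_lit 0) (XT.nd (nat_lit 156) (nat_lit 152) (nat_lit 0) (XT.nd (nat_lit 78) (nat_lit 0) (nat_lit 0) (XT.lf (nat_lit 0) (nat_lit 64282103612) (nat_lit 76) (nat_lit 139367121365) (nat_lit 76) (nat_lit 79464307865) (nat_lit 7) (nat_lit 4) (nat_lit 8) (nat_lit 5) (nat_lit 8) (nat_lit 4) (nat_lit 372) (nat_lit 313) (nat_lit 215)) (XT.lf (nat_lit 0) (nat_lit 145847070240) (nat_lit 76) (nat_lit 108915994500) (nat_lit 76) (nat_lit 49010826950) (nat_lit 7) (nat_lit 4) (nat_lit 8) (nat_lit 5) (nat_lit 8) (nat_lit 4) (nat_lit 373) (nat_lit 313) (nat_lit 214))) (XT.nd (nat_lit 78) (nat_lit 152) (nat_lit 0) (XT.lf (nat_lit 0) (nat_lit 233931459157) (nat_lit 76) (nat_lit 76031558799) (nat_lit 76) (nat_lit 16124211572) (nat_lit 7) (nat_lit 4)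 (nat_lit 8) (nat_lit 5) (nat_lit 8) (nat_lit 4) (nat_lit 374) (nat_lit 313) (nat_lit 213)) (XT.nd (nat_lit 78) (nat_lit 76) (nat_lit 0) (XT.lf (nat_lit 0) (nat_lit 18769807315) (nat_lit 152) (nat_lit 21431260447) (nat_lit 76) (nat_lit 309969568841) (nat_lit 6) (nat_lit 5) (nat_lit 8) (nat_lit 5) (nat_lit 7) (nat_lit 4) (nat_lit 375) (nat_lit 313) (nat_lit 212)) (XT.lf (nat_lit 0) (nat_lit 56482067583) (nat_lit 76) (nat_lit 295152782) (nat_lit 152) (nat_lit 319345940476) (nat_lit 5) (nat_lit 5) (nat_lit 6) (nat_lit 5) (nat_lit 7) (nat_lit 4) (nat_lit 376) (nat_lit 313) (nat_lit 211))))) (XT.nd (nat_lit 234) (nat_lit 76) (nat_lit 0) (XT.nd (nat_lit 78) (nat_lit 0) (nat_lit 0) (XT.lf (nat_lit 0) (nat_lit 98870416111) (nat_lit 152) (nat_lit 263418761918) (nat_lit 0) (nat_lit 41810449956) (nat_lit 5) (nat_lit 5) (nat_lit 7) (nat_lit 4) (nat_lit 5) (nat_lit 4) (nat_lit 377) (nat_lit 313) (nat_lit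 210)) (XT.nd (nat_lit 78) (nat_lit 0) (nat_lit 0) (XT.lf (nat_lit 0) (nat_lit 144333704038) (nat_lit 152) (nat_lit 202708165006) (nat_lit 0) (nat_lit 87272212047) (nat_lit 5) (nat_lit 5) (nat_lit 7) (nat_lit 4) (nat_lit 5) (nat_lit 4) (nat_lit 378) (nat_lit 313) (nat_lit 209)) (XT.lf (nat_lit 0) (nat_lit 193431888061) (nat_lit 152) (nat_lit 137144927860) (nat_lit 0) (nat_lit 136368983259) (nat_lit 5) (nat_lit 5) (nat_lit 7) (nat_lit 4) (nat_lit 5) (nat_lit 4) (nat_lit 379) (nat_lit 313) (nat_lit 208)))) (XT.nd (nat_lit 78) (nat_lit 76) (nat_lit 0) (XT.lf (nat_lit 0) (nat_lit 246455920380) (nat_lit 152) (nat_lit 66340527595) (nat_lit 0) (nat_lit 189391707421) (nat_lit 5) (nat_lit 5) (nat_lit 7) (nat_lit 4) (nat_lit 5) (nat_lit 4) (nat_lit 380) (nat_lit 313) (nat_lit 207)) (XT.nd (nat_lit 78) (nat_lit 0) (nat_lit 0) (XT.lf (nat_lit 0) (nat_lit 10459382997) (nat_lit 76) (nat_lit 293423934767)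 (nat_lit 76) (nat_lit 236358510551) (nat_lit 4) (nat_lit 4) (nat_lit 5) (nat_lit 5) (nat_lit 5) (nat_lit 4) (nat_lit 381) (nat_lit 313) (nat_lit 206)) (XT.lf (nat_lit 0) (nat_lit 95768834776) (nat_lit 76) (nat_lit 271289907297) (nat_lit 76) (nat_lit 214223361546) (nat_lit 4) (nat_lit 4) (nat_lit 5) (nat_lit 5) (nat_lit 5) (nat_lit 4) (nat_lit 382) (nat_lit 313) (nat_lit 205)))))) (XT.nd (nat_lit 390) (nat_lit 0) (nat_lit 0) (XT.nd (nat_lit 156) (nat_lit 0) (nat_lit 0) (XT.nd (nat_lit 78) (nat_lit 0) (nat_lit 0) (XT.lf (nat_lit 0) (nat_lit 187899847788) (nat_lit 76) (nat_lit 247386709892) (nat_lit 76) (nat_lit 190319125683) (nat_lit 4) (nat_lit 4) (nat_lit 5) (nat_lit 5) (nat_lit 5) (nat_lit 4) (nat_lit 383) (nat_lit 313) (nat_lit 204)) (XT.lf (nat_lit 0) (nat_lit 287398383591) (nat_lit 76) (nat_lit 221572693976) (nat_lit 76) (nat_lit 164504148231) (nat_lit 4) (nat_lit 4) (nat_lit 5) (nat_lit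 5) (nat_lit 5) (nat_lit 4) (nat_lit 384) (nat_lit 313) (nat_lit 203))) (XT.nd (nat_lit 78) (nat_lit 0) (nat_lit 0) (XT.lf (nat_lit 0) (nat_lit 394854063138) (nat_lit 76) (nat_lit 193694887602) (nat_lit 76) (nat_lit 136625451547) (nat_lit 4) (nat_lit 4) (nat_lit 5) (nat_lit 5) (nat_lit 5) (nat_lit 4) (nat_lit 385) (nat_lit 313) (nat_lit 202)) (XT.nd (nat_lit 78) (nat_lit 0) (nat_lit 0) (XT.lf (nat_lit 0) (nat_lit 510903660828) (nat_lit 76) (nat_lit 163588088954) (nat_lit 76) (nat_lit 106517828538) (nat_lit 4) (nat_lit 4) (nat_lit 5) (nat_lit 5) (nat_lit 5) (nat_lit 4) (nat_lit 386) (nat_lit 313) (nat_lit 201)) (XT.lf (nat_lit 0) (nat_lit 636234877978) (nat_lit 76) (nat_lit 131073887374) (nat_lit 76) (nat_lit 74002863661) (nat_lit 4) (nat_lit 4) (nat_lit 5) (nat_lit 5) (nat_lit 5) (nat_lit 4) (nat_lit 387) (nat_lit 313) (nat_lit 200))))) (XT.nd (nat_lit 41184) (nat_lit 0) (nat_lit 7828) (XT.nd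 (nat_lit 78) (nat_lit 0) (nat_lit 0) (XT.lf (nat_lit 0) (nat_lit 771590418099) (nat_lit 76) (nat_lit 95959606113) (nat_lit 76) (nat_lit 38887875642) (nat_lit 4) (nat_lit 4) (nat_lit 5) (nat_lit 5) (nat_lit 5) (nat_lit 4) (nat_lit 388) (nat_lit 313) (nat_lit 199)) (XT.nd (nat_lit 41028) (nat_lit 0) (nat_lit 7828) (XT.lf (nat_lit 0) (nat_lit 917772388095) (nat_lit 76) (nat_lit 58037160539) (nat_lit 76) (nat_lit 964775664) (nat_lit 4) (nat_lit 4) (nat_lit 5) (nat_lit 5) (nat_lit 5) (nat_lit 4) (nat_lit 389) (nat_lit 313) (nat_lit 198)) (XT.lf (nat_lit 0) (nat_lit 1651727172) (nat_lit 0) (nat_lit 1651727172) (nat_lit 684) (nat_lit 2838828518) (nat_lit 107) (nat_lit 5) (nat_lit 107) (nat_lit 3) (nat_lit 116) (nat_lit 3) (nat_lit 314) (nat_lit 314) (nat_lit 272)))) (XT.nd (nat_lit 78) (nat_lit 0) (nat_lit 76) (XT.lf (nat_lit 76) (nat_lit 160142309) (nat_lit 0) (nat_lit 7476552835) (nat_lit 760)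 (nat_lit 5100074401) (nat_lit 108) (nat_lit 5) (nat_lit 107) (nat_lit 5) (nat_lit 117) (nat_lit 5) (nat_lit 315) (nat_lit 314) (nat_lit 271)) (XT.nd (nat_lit 78) (nat_lit 0) (nat_lit 0) (XT.lf (nat_lit 0) (nat_lit 8913481438) (nat_lit 684) (nat_lit 2982706986) (nat_lit 760) (nat_lit 1320820771) (nat_lit 108) (nat_lit 5) (nat_lit 117) (nat_lit 5) (nat_lit 118) (nat_lit 5) (nat_lit 316) (nat_lit 314) (nat_lit 270)) (XT.lf (nat_lit 76) (nat_lit 7451208768) (nat_lit 0) (nat_lit 3021116573) (nat_lit 760) (nat_lit 3254430622) (nat_lit 109) (nat_lit 5) (nat_lit 108) (nat_lit 5) (nat_lit 118) (nat_lit 5) (nat_lit 317) (nat_lit 314) (nat_lit 269))))))) (XT.nd (nat_lit 858) (nat_lit 2128) (nat_lit 0) (XT.nd (nat_lit 390) (nat_lit 1748) (nat_lit 0) (XT.nd (nat_lit 156) (nat_lit 1368) (nat_lit 0) (XT.nd (nat_lit 78) (nat_lit 0) (nat_lit 76) (XT.lf (nat_lit 76) (nat_lit 4552524310) (nat_lit 0) (nat_lit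 7771581222) (nat_lit 760) (nat_lit 1944842981) (nat_lit 110) (nat_lit 5) (nat_lit 109) (nat_lit 5) (nat_lit 119) (nat_lit 5) (nat_lit 318) (nat_lit 314) (nat_lit 268)) (XT.lf (nat_lit 76) (nat_lit 1548381928) (nat_lit 0) (nat_lit 12935242556) (nat_lit 760) (nat_lit 362983909) (nat_lit 111) (nat_lit 5) (nat_lit 110) (nat_lit 5) (nat_lit 120) (nat_lit 5) (nat_lit 319) (nat_lit 314) (nat_lit 267))) (XT.nd (nat_lit 78) (nat_lit 684) (nat_lit 0) (XT.lf (nat_lit 0) (nat_lit 1553691358) (nat_lit 760) (nat_lit 1598152088) (nat_lit 836) (nat_lit 12305084118) (nat_lit 100) (nat_lit 5) (nat_lit 110) (nat_lit 5) (nat_lit 111) (nat_lit 5) (nat_lit 320) (nat_lit 314) (nat_lit 266)) (XT.nd (nat_lit 78) (nat_lit 760) (nat_lit 0) (XT.lf (nat_lit 0) (nat_lit 3859434585) (nat_lit 760) (nat_lit 4872480993) (nat_lit 76) (nat_lit 7371495185) (nat_lit 101) (nat_lit 5) (nat_lit 111) (nat_lit 5) (nat_lit 102) (nat_lit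 5) (nat_lit 321) (nat_lit 314) (nat_lit 265)) (XT.lf (nat_lit 0) (nat_lit 6550564937) (nat_lit 836) (nat_lit 8302298280) (nat_lit 76) (nat_lit 1938757256) (nat_lit 91) (nat_lit 5) (nat_lit 102) (nat_lit 5) (nat_lit 92) (nat_lit 5) (nat_lit 322) (nat_lit 314) (nat_lit 264))))) (XT.nd (nat_lit 234) (nat_lit 1064) (nat_lit 0) (XT.nd (nat_lit 78) (nat_lit 304) (nat_lit 0) (XT.lf (nat_lit 0) (nat_lit 5551829147) (nat_lit 380) (nat_lit 4183279244) (nat_lit 456) (nat_lit 7785922656) (nat_lit 86) (nat_lit 5) (nat_lit 91) (nat_lit 5) (nat_lit 92) (nat_lit 5) (nat_lit 323) (nat_lit 314) (nat_lit 263)) (XT.nd (nat_lit 78) (nat_lit 0) (nat_lit 0) (XT.lf (nat_lit 0) (nat_lit 2429048417) (nat_lit 304) (nat_lit 11005337437) (nat_lit 380) (nat_lit 4861456589) (nat_lit 82) (nat_lit 5) (nat_lit 86) (nat_lit 5) (nat_lit 87) (nat_lit 5) (nat_lit 324) (nat_lit 314) (nat_lit 262)) (XT.lf (nat_lit 0) (nat_lit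 17680024673) (nat_lit 380) (nat_lit 835836556) (nat_lit 76) (nat_lit 604299618) (nat_lit 82) (nat_lit 5) (nat_lit 87) (nat_lit 5) (nat_lit 83) (nat_lit 5) (nat_lit 325) (nat_lit 314) (nat_lit 261)))) (XT.nd (nat_lit 78) (nat_lit 608) (nat_lit 0) (XT.lf (nat_lit 0) (nat_lit 2584988389) (nat_lit 456) (nat_lit 4356599427) (nat_lit 76) (nat_lit 13047001167) (nat_lit 76) (nat_lit 5) (nat_lit 82) (nat_lit 5) (nat_lit 77) (nat_lit 5) (nat_lit 326) (nat_lit 314) (nat_lit 260)) (XT.nd (nat_lit 78) (nat_lit 304) (nat_lit 0) (XT.lf (nat_lit 0) (nat_lit 7155675339) (nat_lit 380) (nat_lit 8135525060) (nat_lit 76) (nat_lit 5620445298) (nat_lit 72) (nat_lit 5) (nat_lit 77) (nat_lit 5) (nat_lit 73) (nat_lit 5) (nat_lit 327) (nat_lit 314) (nat_lit 259)) (XT.lf (nat_lit 0) (nat_lit 9684602827) (nat_lit 304) (nat_lit 2721542582) (nat_lit 380) (nat_lit 9486727685) (nat_lit 68) (nat_lit 5) (nat_lit 72) (nat_lit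 5) (nat_lit 73) (nat_lit 5) (nat_lit 328) (nat_lit 314) (nat_lit 258)))))) (XT.nd (nat_lit 390) (nat_lit 1064) (nat_lit 0) (XT.nd (nat_lit 156) (nat_lit 456) (nat_lit 0) (XT.nd (nat_lit 78) (nat_lit 380) (nat_lit 0) (XT.lf (nat_lit 0) (nat_lit 6267012692) (nat_lit 228) (nat_lit 12191384837) (nat_lit 304) (nat_lit 4475144070) (nat_lit 65) (nat_lit 5) (nat_lit 68) (nat_lit 5) (nat_lit 69) (nat_lit 5) (nat_lit 329) (nat_lit 314) (nat_lit 257)) (XT.lf (nat_lit 0) (nat_lit 1203445385) (nat_lit 380) (nat_lit 21473179574) (nat_lit 76) (nat_lit 1365329424) (nat_lit 60) (nat_lit 5) (nat_lit 65) (nat_lit 5) (nat_lit 61) (nat_lit 5) (nat_lit 330) (nat_lit 314) (nat_lit 256))) (XT.nd (nat_lit 78) (nat_lit 456) (nat_lit 0) (XT.lf (nat_lit 0) (nat_lit 7655272070) (nat_lit 380) (nat_lit 1608399504) (nat_lit 76) (nat_lit 15947938209) (nat_lit 60) (nat_lit 5) (nat_lit 65) (nat_lit 5) (nat_lit 61) (nat_lit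 5) (nat_lit 331) (nat_lit 314) (nat_lit 255)) (XT.nd (nat_lit 78) (nat_lit 228) (nat_lit 0) (XT.lf (nat_lit 0) (nat_lit 15004429431) (nat_lit 304) (nat_lit 6079603899) (nat_lit 76) (nat_lit 5371767845) (nat_lit 57) (nat_lit 5) (nat_lit 61) (nat_lit 5) (nat_lit 58) (nat_lit 5) (nat_lit 332) (nat_lit 314) (nat_lit 254)) (XT.lf (nat_lit 0) (nat_lit 16724405690) (nat_lit 228) (nat_lit 6639122746) (nat_lit 304) (nat_lit 4414920090) (nat_lit 54) (nat_lit 5) (nat_lit 57) (nat_lit 5) (nat_lit 58) (nat_lit 5) (nat_lit 333) (nat_lit 314) (nat_lit 253))))) (XT.nd (nat_lit 234) (nat_lit 456) (nat_lit 0) (XT.nd (nat_lit 78) (nat_lit 380) (nat_lit 0) (XT.lf (nat_lit 0) (nat_lit 3510985145) (nat_lit 228) (nat_lit 16645368669) (nat_lit 76) (nat_lit 9026663565) (nat_lit 51) (nat_lit 5) (nat_lit 54) (nat_lit 5) (nat_lit 52) (nat_lit 5) (nat_lit 334) (nat_lit 314) (nat_lit 252)) (XT.nd (nat_lit 78) (nat_lit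 152) (nat_lit 0) (XT.lf (nat_lit 0) (nat_lit 7747536128) (nat_lit 228) (nat_lit 4577598355) (nat_lit 304) (nat_lit 18350773251) (nat_lit 48) (nat_lit 5) (nat_lit 51) (nat_lit 5) (nat_lit 52) (nat_lit 5) (nat_lit 335) (nat_lit 314) (nat_lit 251)) (XT.lf (nat_lit 0) (nat_lit 2257340584) (nat_lit 152) (nat_lit 20087388119) (nat_lit 228) (nat_lit 9918500919) (nat_lit 46) (nat_lit 5) (nat_lit 48) (nat_lit 5) (nat_lit 49) (nat_lit 5) (nat_lit 336) (nat_lit 314) (nat_lit 250)))) (XT.nd (nat_lit 78) (nat_lit 456) (nat_lit 0) (XT.lf (nat_lit 0) (nat_lit 30166823504) (nat_lit 152) (nat_lit 3454628116) (nat_lit 228) (nat_lit 333322354) (nat_lit 46) (nat_lit 5) (nat_lit 48) (nat_lit 5) (nat_lit 49) (nat_lit 5) (nat_lit 337) (nat_lit 314) (nat_lit 249)) (XT.nd (nat_lit 78) (nat_lit 152) (nat_lit 0) (XT.lf (nat_lit 0) (nat_lit 10307373542) (nat_lit 304) (nat_lit 10843136976) (nat_lit 76) (nat_lit 14592855250)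 (nat_lit 42) (nat_lit 5) (nat_lit 46) (nat_lit 5) (nat_lit 43) (nat_lit 5) (nat_lit 338) (nat_lit 314) (nat_lit 248)) (XT.lf (nat_lit 0) (nat_lit 18857572444) (nat_lit 152) (nat_lit 3332144706) (nat_lit 228) (nat_lit 15464963100) (nat_lit 40) (nat_lit 5) (nat_lit 42) (nat_lit 5) (nat_lit 43) (nat_lit 5) (nat_lit 339) (nat_lit 314) (nat_lit 247))))))))
noncomputable def xc74 : XT := (XT.nd (nat_lit 1716) (nat_lit 760) (nat_lit 0) (XT.nd (nat_lit 858) (nat_lit 760) (nat_lit 0) (XT.nd (nat_lit 390) (nat_lit 532) (nat_lit 0) (XT.nd (nat_lit 156) (nat_lit 304) (nat_lit 0) (XT.nd (nat_lit 78) (nat_lit 228) (nat_lit 0) (XT.lf (nat_lit 0) (nat_lit 11707784728) (nat_lit 152) (nat_lit 23920982955) (nat_lit 228) (nat_lit 4059837402) (nat_lit 38) (nat_lit 5) (nat_lit 40) (nat_lit 5) (nat_lit 41) (nat_lit 5) (nat_lit 340) (nat_lit 314) (nat_lit 246)) (XT.lf (nat_lit 0) (nat_lit 3345158671) (nat_lit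 152) (nat_lit 5072959683) (nat_lit 228) (nat_lit 33439453213) (nat_lit 35) (nat_lit 5) (nat_lit 37) (nat_lit 5) (nat_lit 38) (nat_lit 5) (nat_lit 341) (nat_lit 314) (nat_lit 245))) (XT.nd (nat_lit 78) (nat_lit 304) (nat_lit 0) (XT.lf (nat_lit 0) (nat_lit 22472150014) (nat_lit 228) (nat_lit 6340670256) (nat_lit 76) (nat_lit 15347912662) (nat_lit 35) (nat_lit 5) (nat_lit 38) (nat_lit 5) (nat_lit 36) (nat_lit 5) (nat_lit 342) (nat_lit 314) (nat_lit 244)) (XT.nd (nat_lit 78) (nat_lit 152) (nat_lit 0) (XT.lf (nat_lit 0) (nat_lit 29230447997) (nat_lit 152) (nat_lit 8947305239) (nat_lit 228) (nat_lit 8444039961) (nat_lit 33) (nat_lit 5) (nat_lit 35) (nat_lit 5) (nat_lit 36) (nat_lit 5) (nat_lit 343) (nat_lit 314) (nat_lit 243)) (XT.lf (nat_lit 0) (nat_lit 6272050801) (nat_lit 152) (nat_lit 30365241817) (nat_lit 76) (nat_lit 12607901353) (nat_lit 31) (nat_lit 5) (nat_lit 33) (nat_lit 5) (nat_lit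 32) (nat_lit 5) (nat_lit 344) (nat_lit 314) (nat_lit 242))))) (XT.nd (nat_lit 234) (nat_lit 228) (nat_lit 0) (XT.nd (nat_lit 78) (nat_lit 152) (nat_lit 0) (XT.lf (nat_lit 0) (nat_lit 6497105381) (nat_lit 152) (nat_lit 15923034473) (nat_lit 228) (nat_lit 29623885048) (nat_lit 29) (nat_lit 5) (nat_lit 31) (nat_lit 5) (nat_lit 32) (nat_lit 5) (nat_lit 345) (nat_lit 314) (nat_lit 241)) (XT.nd (nat_lit 78) (nat_lit 152) (nat_lit 0) (XT.lf (nat_lit 0) (nat_lit 40485258588) (nat_lit 228) (nat_lit 7779685954) (nat_lit 76) (nat_lit 6770565022) (nat_lit 29) (nat_lit 5) (nat_lit 32) (nat_lit 5) (nat_lit 30) (nat_lit 4) (nat_lit 346) (nat_lit 314) (nat_lit 240)) (XT.lf (nat_lit 0) (nat_lit 2470859334) (nat_lit 152) (nat_lit 24465790963) (nat_lit 76) (nat_lit 31288471735) (nat_lit 27) (nat_lit 5) (nat_lit 29) (nat_lit 5) (nat_lit 28) (nat_lit 5) (nat_lit 347) (nat_lit 314) (nat_lit 239)))) (XT.nd (nat_lit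 78) (nat_lit 76) (nat_lit 0) (XT.lf (nat_lit 0) (nat_lit 17529041600) (nat_lit 152) (nat_lit 3221329787) (nat_lit 228) (nat_lit 40887286745) (nat_lit 25) (nat_lit 5) (nat_lit 27) (nat_lit 5) (nat_lit 28) (nat_lit 5) (nat_lit 348) (nat_lit 314) (nat_lit 238)) (XT.nd (nat_lit 78) (nat_lit 76) (nat_lit 0) (XT.lf (nat_lit 0) (nat_lit 41263680518) (nat_lit 228) (nat_lit 1921458586) (nat_lit 76) (nat_lit 22099491035) (nat_lit 25) (nat_lit 5) (nat_lit 28) (nat_lit 5) (nat_lit 26) (nat_lit 4) (nat_lit 349) (nat_lit 314) (nat_lit 237)) (XT.lf (nat_lit 0) (nat_lit 45008270137) (nat_lit 76) (nat_lit 19156327025) (nat_lit 152) (nat_lit 5021440076) (nat_lit 24) (nat_lit 5) (nat_lit 25) (nat_lit 5) (nat_lit 26) (nat_lit 4) (nat_lit 350) (nat_lit 314) (nat_lit 236)))))) (XT.nd (nat_lit 390) (nat_lit 304) (nat_lit 0) (XT.nd (nat_lit 156) (nat_lit 228) (nat_lit 0) (XT.nd (nat_lit 78) (nat_lit 0) (nat_lit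 0) (XT.lf (nat_lit 0) (nat_lit 15498686194) (nat_lit 228) (nat_lit 50651535248) (nat_lit 76) (nat_lit 7212406532) (nat_lit 21) (nat_lit 5) (nat_lit 24) (nat_lit 5) (nat_lit 22) (nat_lit 4) (nat_lit 351) (nat_lit 314) (nat_lit 235)) (XT.lf (nat_lit 0) (nat_lit 38228134614) (nat_lit 228) (nat_lit 4070169511) (nat_lit 76) (nat_lit 35533747615) (nat_lit 21) (nat_lit 5) (nat_lit 24) (nat_lit 5) (nat_lit 22) (nat_lit 4) (nat_lit 352) (nat_lit 314) (nat_lit 234))) (XT.nd (nat_lit 78) (nat_lit 152) (nat_lit 0) (XT.lf (nat_lit 0) (nat_lit 47749566092) (nat_lit 76) (nat_lit 15762813317) (nat_lit 152) (nat_lit 19109831351) (nat_lit 20) (nat_lit 5) (nat_lit 21) (nat_lit 5) (nat_lit 22) (nat_lit 4) (nat_lit 353) (nat_lit 314) (nat_lit 233)) (XT.nd (nat_lit 78) (nat_lit 0) (nat_lit 0) (XT.lf (nat_lit 0) (nat_lit 3455816146) (nat_lit 152) (nat_lit 71451593531) (nat_lit 76) (nat_lit 12859374582) (nat_lit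 18) (nat_lit 5) (nat_lit 20) (nat_lit 5) (nat_lit 19) (nat_lit 4) (nat_lit 354) (nat_lit 314) (nat_lit 232)) (XT.lf (nat_lit 0) (nat_lit 28040878639) (nat_lit 152) (nat_lit 21062802515) (nat_lit 76) (nat_lit 44159397515) (nat_lit 18) (nat_lit 5) (nat_lit 20) (nat_lit 5) (nat_lit 19) (nat_lit 4) (nat_lit 355) (nat_lit 314) (nat_lit 231))))) (XT.nd (nat_lit 234) (nat_lit 76) (nat_lit 0) (XT.nd (nat_lit 78) (nat_lit 152) (nat_lit 0) (XT.lf (nat_lit 0) (nat_lit 34445085902) (nat_lit 76) (nat_lit 20677593363) (nat_lit 152) (nat_lit 44049903264) (nat_lit 17) (nat_lit 5) (nat_lit 18) (nat_lit 5) (nat_lit 19) (nat_lit 4) (nat_lit 356) (nat_lit 314) (nat_lit 230)) (XT.nd (nat_lit 78) (nat_lit 152) (nat_lit 0) (XT.lf (nat_lit 0) (nat_lit 84892834958) (nat_lit 152) (nat_lit 10567358424) (nat_lit 0) (nat_lit 10068565130) (nat_lit 17) (nat_lit 5) (nat_lit 19) (nat_lit 4) (nat_lit 17) (nat_lit 4) (nat_lit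 357) (nat_lit 314) (nat_lit 229)) (XT.lf (nat_lit 0) (nat_lit 5629280925) (nat_lit 152) (nat_lit 63292248099) (nat_lit 76) (nat_lit 43411922091) (nat_lit 15) (nat_lit 5) (nat_lit 17) (nat_lit 5) (nat_lit 16) (nat_lit 4) (nat_lit 358) (nat_lit 314) (nat_lit 228)))) (XT.nd (nat_lit 78) (nat_lit 76) (nat_lit 0) (XT.lf (nat_lit 0) (nat_lit 33462669654) (nat_lit 152) (nat_lit 6241212472) (nat_lit 76) (nat_lit 79952226732) (nat_lit 15) (nat_lit 5) (nat_lit 17) (nat_lit 5) (nat_lit 16) (nat_lit 4) (nat_lit 359) (nat_lit 314) (nat_lit 227)) (XT.nd (nat_lit 78) (nat_lit 0) (nat_lit 0) (XT.lf (nat_lit 0) (nat_lit 57192643996) (nat_lit 76) (nat_lit 7216717732) (nat_lit 152) (nat_lit 63110887667) (nat_lit 14) (nat_lit 5) (nat_lit 15) (nat_lit 5) (nat_lit 16) (nat_lit 4) (nat_lit 360) (nat_lit 314) (nat_lit 226)) (XT.lf (nat_lit 0) (nat_lit 98371312851) (nat_lit 152) (nat_lit 10532398581) (nat_lit 0)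 (nat_lit 27082835217) (nat_lit 14) (nat_lit 5) (nat_lit 16) (nat_lit 4) (nat_lit 14) (nat_lit 4) (nat_lit 361) (nat_lit 314) (nat_lit 225))))))) (XT.nd (nat_lit 858) (nat_lit 304) (nat_lit 0) (XT.nd (nat_lit 390) (nat_lit 152) (nat_lit 0) (XT.nd (nat_lit 156) (nat_lit 152) (nat_lit 0) (XT.nd (nat_lit 78) (nat_lit 76) (nat_lit 0) (XT.lf (nat_lit 0) (nat_lit 55696740569) (nat_lit 76) (nat_lit 80339104097) (nat_lit 76) (nat_lit 9045023318) (nat_lit 13) (nat_lit 4) (nat_lit 14) (nat_lit 5) (nat_lit 14) (nat_lit 4) (nat_lit 362) (nat_lit 314) (nat_lit 224)) (XT.lf (nat_lit 0) (nat_lit 21293722216) (nat_lit 152) (nat_lit 27647138333) (nat_lit 76) (nat_lit 105935799432) (nat_lit 12) (nat_lit 5) (nat_lit 14) (nat_lit 5) (nat_lit 13) (nat_lit 4) (nat_lit 363) (nat_lit 314) (nat_lit 223))) (XT.nd (nat_lit 78) (nat_lit 76) (nat_lit 0) (XT.lf (nat_lit 0) (nat_lit 40151809727) (nat_lit 76) (nat_lit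 14216913394) (nat_lit 152) (nat_lit 111048677051) (nat_lit 11) (nat_lit 5) (nat_lit 12) (nat_lit 5) (nat_lit 13) (nat_lit 4) (nat_lit 364) (nat_lit 314) (nat_lit 222)) (XT.nd (nat_lit 78) (nat_lit 76) (nat_lit 0) (XT.lf (nat_lit 0) (nat_lit 90937852708) (nat_lit 152) (nat_lit 62796165680) (nat_lit 0) (nat_lit 23024975918) (nat_lit 11) (nat_lit 5) (nat_lit 13) (nat_lit 4) (nat_lit 11) (nat_lit 4) (nat_lit 365) (nat_lit 314) (nat_lit 221)) (XT.lf (nat_lit 0) (nat_lit 4568656621) (nat_lit 76) (nat_lit 126170367012) (nat_lit 76) (nat_lit 58253567862) (nat_lit 10) (nat_lit 4) (nat_lit 11) (nat_lit 5) (nat_lit 11) (nat_lit 4) (nat_lit 366) (nat_lit 314) (nat_lit 220))))) (XT.nd (nat_lit 234) (nat_lit 0) (nat_lit 0) (XT.nd (nat_lit 78) (nat_lit 152) (nat_lit 0) (XT.lf (nat_lit 0) (nat_lit 79556812972) (nat_lit 76) (nat_lit 95257009371) (nat_lit 76) (nat_lit 27336578405) (nat_lit 10) (nat_lit 4)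 (nat_lit 11) (nat_lit 5) (nat_lit 11) (nat_lit 4) (nat_lit 367) (nat_lit 314) (nat_lit 219)) (XT.nd (nat_lit 78) (nat_lit 76) (nat_lit 0) (XT.lf (nat_lit 0) (nat_lit 5855931566) (nat_lit 152) (nat_lit 55919134047) (nat_lit 76) (nat_lit 154581248197) (nat_lit 9) (nat_lit 5) (nat_lit 11) (nat_lit 5) (nat_lit 10) (nat_lit 4) (nat_lit 368) (nat_lit 314) (nat_lit 218)) (XT.lf (nat_lit 0) (nat_lit 16137608915) (nat_lit 76) (nat_lit 24869472241) (nat_lit 152) (nat_lit 190656163573) (nat_lit 8) (nat_lit 5) (nat_lit 9) (nat_lit 5) (nat_lit 10) (nat_lit 4) (nat_lit 369) (nat_lit 314) (nat_lit 217)))) (XT.nd (nat_lit 78) (nat_lit 0) (nat_lit 0) (XT.lf (nat_lit 0) (nat_lit 80190722305) (nat_lit 152) (nat_lit 152447304862) (nat_lit 0) (nat_lit 15495683725) (nat_lit 8) (nat_lit 5) (nat_lit 10) (nat_lit 4) (nat_lit 8) (nat_lit 4) (nat_lit 370) (nat_lit 314) (nat_lit 216)) (XT.nd (nat_lit 78) (nat_lit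 0) (nat_lit 0) (XT.lf (nat_lit 0) (nat_lit 122925012759) (nat_lit 152) (nat_lit 84748572579) (nat_lit 0) (nat_lit 58227431805) (nat_lit 8) (nat_lit 5) (nat_lit 10) (nat_lit 4) (nat_lit 8) (nat_lit 4) (nat_lit 371) (nat_lit 314) (nat_lit 215)) (XT.lf (nat_lit 0) (nat_lit 169074910601) (nat_lit 152) (nat_lit 11639979135) (nat_lit 0) (nat_lit 104374975597) (nat_lit 8) (nat_lit 5) (nat_lit 10) (nat_lit 4) (nat_lit 8) (nat_lit 4) (nat_lit 372) (nat_lit 314) (nat_lit 214)))))) (XT.nd (nat_lit 390) (nat_lit 76) (nat_lit 0) (XT.nd (nat_lit 156) (nat_lit 152) (nat_lit 0) (XT.nd (nat_lit 78) (nat_lit 0) (nat_lit 0) (XT.lf (nat_lit 0) (nat_lit 69537340752) (nat_lit 76) (nat_lit 150462228720) (nat_lit 76) (nat_lit 85760114039) (nat_lit 7) (nat_lit 4) (nat_lit 8) (nat_lit 5) (nat_lit 8) (nat_lit 4) (nat_lit 373) (nat_lit 314) (nat_lit 213)) (XT.lf (nat_lit 0) (nat_lit 157619158870) (nat_lit 76) (nat_lit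 117579031139) (nat_lit 76) (nat_lit 52874898240) (nat_lit 7) (nat_lit 4) (nat_lit 8) (nat_lit 5) (nat_lit 8) (nat_lit 4) (nat_lit 374) (nat_lit 314) (nat_lit 212))) (XT.nd (nat_lit 78) (nat_lit 152) (nat_lit 0) (XT.lf (nat_lit 0) (nat_lit 252742571270) (nat_lit 76) (nat_lit 82067562280) (nat_lit 76) (nat_lit 17361560660) (nat_lit 7) (nat_lit 4) (nat_lit 8) (nat_lit 5) (nat_lit 8) (nat_lit 4) (nat_lit 375) (nat_lit 314) (nat_lit 211)) (XT.nd (nat_lit 78) (nat_lit 76) (nat_lit 0) (XT.lf (nat_lit 0) (nat_lit 20318525882) (nat_lit 152) (nat_lit 23054753859) (nat_lit 76) (nat_lit 334808642298) (nat_lit 6) (nat_lit 5) (nat_lit 8) (nat_lit 5) (nat_lit 7) (nat_lit 4) (nat_lit 376) (nat_lit 314) (nat_lit 210)) (XT.lf (nat_lit 0) (nat_lit 61087685342) (nat_lit 76) (nat_lit 276714358) (nat_lit 152) (nat_lit 344846355779) (nat_lit 5) (nat_lit 5) (nat_lit 6) (nat_lit 5) (nat_lit 7) (nat_lit 4) (nat_lit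 377) (nat_lit 314) (nat_lit 209))))) (XT.nd (nat_lit 234) (nat_lit 76) (nat_lit 0) (XT.nd (nat_lit 78) (nat_lit 0) (nat_lit 0) (XT.lf (nat_lit 0) (nat_lit 106822325543) (nat_lit 152) (nat_lit 284410175786) (nat_lit 0) (nat_lit 45192975547) (nat_lit 5) (nat_lit 5) (nat_lit 7) (nat_lit 4) (nat_lit 5) (nat_lit 4) (nat_lit 378) (nat_lit 314) (nat_lit 208)) (XT.nd (nat_lit 78) (nat_lit 0) (nat_lit 0) (XT.lf (nat_lit 0) (nat_lit 155919544939) (nat_lit 152) (nat_lit 218848811646) (nat_lit 0) (nat_lit 94288886784) (nat_lit 5) (nat_lit 5) (nat_lit 7) (nat_lit 4) (nat_lit 5) (nat_lit 4) (nat_lit 379) (nat_lit 314) (nat_lit 207)) (XT.lf (nat_lit 0) (nat_lit 208942684084) (nat_lit 152) (nat_lit 148046145644) (nat_lit 0) (nat_lit 147310814673) (nat_lit 5) (nat_lit 5) (nat_lit 7) (nat_lit 4) (nat_lit 5) (nat_lit 4) (nat_lit 380) (nat_lit 314) (nat_lit 206)))) (XT.nd (nat_lit 78) (nat_lit 76) (nat_lit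 0) (XT.lf (nat_lit 0) (nat_lit 266205954176) (nat_lit 152) (nat_lit 71582606428) (nat_lit 0) (nat_lit 204572963230) (nat_lit 5) (nat_lit 5) (nat_lit 7) (nat_lit 4) (nat_lit 5) (nat_lit 4) (nat_lit 381) (nat_lit 314) (nat_lit 205)) (XT.nd (nat_lit 78) (nat_lit 0) (nat_lit 0) (XT.lf (nat_lit 0) (nat_lit 11358465091) (nat_lit 76) (nat_lit 316867565491) (nat_lit 76) (nat_lit 255233536087) (nat_lit 4) (nat_lit 4) (nat_lit 5) (nat_lit 5) (nat_lit 5) (nat_lit 4) (nat_lit 382) (nat_lit 314) (nat_lit 204)) (XT.lf (nat_lit 0) (nat_lit 103488055868) (nat_lit 76) (nat_lit 292965059086) (nat_lit 76) (nat_lit 231330068147) (nat_lit 4) (nat_lit 4) (nat_lit 5) (nat_lit 5) (nat_lit 5) (nat_lit 4) (nat_lit 383) (nat_lit 314) (nat_lit 203))))))))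
noncomputable def xc75 : XT := (XT.nd (nat_lit 42822) (nat_lit 0) (nat_lit 1216) (XT.nd (nat_lit 41964) (nat_lit 0) (nat_lit 4256) (XT.nd (nat_lit 41496) (nat_lit 0) (nat_lit 7296) (XT.nd (nat_lit 156) (nat_lit 0) (nat_lit 0) (XT.nd (nat_lit 78) (nat_lit 0) (nat_lit 0) (XT.lf (nat_lit 0) (nat_lit 202985274786) (nat_lit 76) (nat_lit 267151682985) (nat_lit 76) (nat_lit 205515801736) (nat_lit 4) (nat_lit 4) (nat_lit 5) (nat_lit 5) (nat_lit 5) (nat_lit 4) (nat_lit 384) (nat_lit 314) (nat_lit 202)) (XT.lf (nat_lit 0) (nat_lit 310439734996) (nat_lit 76) (nat_lit 239274469032) (nat_lit 76) (nat_lit 177637763422) (nat_lit 4) (nat_lit 4) (nat_lit 5) (nat_lit 5) (nat_lit 5) (nat_lit 4) (nat_lit 385) (nat_lit 314) (nat_lit 201))) (XT.nd (nat_lit 78) (nat_lit 0) (nat_lit 0) (XT.lf (nat_lit 0) (nat_lit 426488203669) (nat_lit 76) (nat_lit 209168218923) (nat_lit 76) (nat_lit 147530750015) (nat_lit 4)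 (nat_lit 4) (nat_lit 5) (nat_lit 5) (nat_lit 5) (nat_lit 4) (nat_lit 386) (nat_lit 314) (nat_lit 200)) (XT.nd (nat_lit 78) (nat_lit 0) (nat_lit 0) (XT.lf (nat_lit 0) (nat_lit 551818375434) (nat_lit 76) (nat_lit 176654525249) (nat_lit 76) (nat_lit 115016349584) (nat_lit 4) (nat_lit 4) (nat_lit 5) (nat_lit 5) (nat_lit 5) (nat_lit 4) (nat_lit 387) (nat_lit 314) (nat_lit 199)) (XT.lf (nat_lit 0) (nat_lit 687172947606) (nat_lit 76) (nat_lit 141540714271) (nat_lit 76) (nat_lit 79901884201) (nat_lit 4) (nat_lit 4) (nat_lit 5) (nat_lit 5) (nat_lit 5) (nat_lit 4) (nat_lit 388) (nat_lit 314) (nat_lit 198))))) (XT.nd (nat_lit 234) (nat_lit 532) (nat_lit 0) (XT.nd (nat_lit 78) (nat_lit 0) (nat_lit 0) (XT.lf (nat_lit 0) (nat_lit 2114813866) (nat_lit 0) (nat_lit 2114813866) (nat_lit 684) (nat_lit 2370061326) (nat_lit 107) (nat_lit 5) (nat_lit 107) (nat_lit 3) (nat_lit 116) (nat_lit 3) (nat_lit 315) (nat_lit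 315) (nat_lit 270)) (XT.nd (nat_lit 78) (nat_lit 0) (nat_lit 76) (XT.lf (nat_lit 76) (nat_lit 880970174) (nat_lit 0) (nat_lit 8593881379) (nat_lit 760) (nat_lit 4217865956) (nat_lit 108) (nat_lit 5) (nat_lit 107) (nat_lit 5) (nat_lit 117) (nat_lit 5) (nat_lit 316) (nat_lit 315) (nat_lit 269)) (XT.lf (nat_lit 0) (nat_lit 10755369734) (nat_lit 684) (nat_lit 2499919550) (nat_lit 760) (nat_lit 961128529) (nat_lit 108) (nat_lit 5) (nat_lit 117) (nat_lit 5) (nat_lit 118) (nat_lit 5) (nat_lit 317) (nat_lit 315) (nat_lit 268)))) (XT.nd (nat_lit 78) (nat_lit 608) (nat_lit 0) (XT.lf (nat_lit 76) (nat_lit 8737358127) (nat_lit 0) (nat_lit 3628721139) (nat_lit 760) (nat_lit 2404619123) (nat_lit 109) (nat_lit 5) (nat_lit 108) (nat_lit 5) (nat_lit 118) (nat_lit 5) (nat_lit 318) (nat_lit 315) (nat_lit 267)) (XT.nd (nat_lit 78) (nat_lit 684) (nat_lit 0) (XT.lf (nat_lit 76) (nat_lit 5634097418) (nat_lit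 0) (nat_lit 8659595004) (nat_lit 760) (nat_lit 1066293072) (nat_lit 110) (nat_lit 5) (nat_lit 109) (nat_lit 5) (nat_lit 119) (nat_lit 5) (nat_lit 319) (nat_lit 315) (nat_lit 266)) (XT.lf (nat_lit 0) (nat_lit 555217799) (nat_lit 760) (nat_lit 13585458947) (nat_lit 836) (nat_lit 1846088848) (nat_lit 100) (nat_lit 5) (nat_lit 110) (nat_lit 5) (nat_lit 111) (nat_lit 5) (nat_lit 320) (nat_lit 315) (nat_lit 265)))))) (XT.nd (nat_lit 390) (nat_lit 1672) (nat_lit 0) (XT.nd (nat_lit 156) (nat_lit 1368) (nat_lit 0) (XT.nd (nat_lit 78) (nat_lit 0) (nat_lit 76) (XT.lf (nat_lit 0) (nat_lit 2543443380) (nat_lit 760) (nat_lit 1012573639) (nat_lit 836) (nat_lit 13093133731) (nat_lit 100) (nat_lit 5) (nat_lit 110) (nat_lit 5) (nat_lit 111) (nat_lit 5) (nat_lit 321) (nat_lit 315) (nat_lit 264)) (XT.lf (nat_lit 0) (nat_lit 4978169669) (nat_lit 760) (nat_lit 4536250644) (nat_lit 76) (nat_lit 7835784495) (nat_lit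 101) (nat_lit 5) (nat_lit 111) (nat_lit 5) (nat_lit 102) (nat_lit 5) (nat_lit 322) (nat_lit 315) (nat_lit 263))) (XT.nd (nat_lit 78) (nat_lit 684) (nat_lit 0) (XT.lf (nat_lit 0) (nat_lit 7834398754) (nat_lit 836) (nat_lit 8232021317) (nat_lit 76) (nat_lit 2029633387) (nat_lit 91) (nat_lit 5) (nat_lit 102) (nat_lit 5) (nat_lit 92) (nat_lit 5) (nat_lit 323) (nat_lit 315) (nat_lit 262)) (XT.nd (nat_lit 78) (nat_lit 304) (nat_lit 0) (XT.lf (nat_lit 0) (nat_lit 6698517532) (nat_lit 380) (nat_lit 4529876165) (nat_lit 456) (nat_lit 7657755983) (nat_lit 86) (nat_lit 5) (nat_lit 91) (nat_lit 5) (nat_lit 92) (nat_lit 5) (nat_lit 324) (nat_lit 315) (nat_lit 261)) (XT.lf (nat_lit 0) (nat_lit 3330535787) (nat_lit 304) (nat_lit 11851021648) (nat_lit 380) (nat_lit 4543553571) (nat_lit 82) (nat_lit 5) (nat_lit 86) (nat_lit 5) (nat_lit 87) (nat_lit 5) (nat_lit 325) (nat_lit 315) (nat_lit 260))))) (XT.nd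 (nat_lit 234) (nat_lit 912) (nat_lit 0) (XT.nd (nat_lit 78) (nat_lit 760) (nat_lit 0) (XT.lf (nat_lit 0) (nat_lit 19717540670) (nat_lit 380) (nat_lit 216573947) (nat_lit 76) (nat_lit 683783216) (nat_lit 82) (nat_lit 5) (nat_lit 87) (nat_lit 5) (nat_lit 83) (nat_lit 5) (nat_lit 326) (nat_lit 315) (nat_lit 259)) (XT.nd (nat_lit 78) (nat_lit 304) (nat_lit 0) (XT.lf (nat_lit 0) (nat_lit 3389263537) (nat_lit 456) (nat_lit 4028425863) (nat_lit 76) (nat_lit 14139477817) (nat_lit 76) (nat_lit 5) (nat_lit 82) (nat_lit 5) (nat_lit 77) (nat_lit 5) (nat_lit 327) (nat_lit 315) (nat_lit 258)) (XT.lf (nat_lit 0) (nat_lit 8292764993) (nat_lit 380) (nat_lit 8111630880) (nat_lit 76) (nat_lit 6151361662) (nat_lit 72) (nat_lit 5) (nat_lit 77) (nat_lit 5) (nat_lit 73) (nat_lit 5) (nat_lit 328) (nat_lit 315) (nat_lit 257)))) (XT.nd (nat_lit 78) (nat_lit 608) (nat_lit 0) (XT.lf (nat_lit 0) (nat_lit 11104784026)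 (nat_lit 304) (nat_lit 2826740485) (nat_lit 380) (nat_lit 9685589576) (nat_lit 68) (nat_lit 5) (nat_lit 72) (nat_lit 5) (nat_lit 73) (nat_lit 5) (nat_lit 329) (nat_lit 315) (nat_lit 256)) (XT.nd (nat_lit 78) (nat_lit 380) (nat_lit 0) (XT.lf (nat_lit 0) (nat_lit 7410064590) (nat_lit 228) (nat_lit 13030064361) (nat_lit 304) (nat_lit 4302338848) (nat_lit 65) (nat_lit 5) (nat_lit 68) (nat_lit 5) (nat_lit 69) (nat_lit 5) (nat_lit 330) (nat_lit 315) (nat_lit 255)) (XT.lf (nat_lit 0) (nat_lit 1787593483) (nat_lit 380) (nat_lit 22538057056) (nat_lit 76) (nat_lit 1614821997) (nat_lit 60) (nat_lit 5) (nat_lit 65) (nat_lit 5) (nat_lit 61) (nat_lit 5) (nat_lit 331) (nat_lit 315) (nat_lit 254))))))) (XT.nd (nat_lit 858) (nat_lit 1140) (nat_lit 0) (XT.nd (nat_lit 390) (nat_lit 988) (nat_lit 0) (XT.nd (nat_lit 156) (nat_lit 684) (nat_lit 0) (XT.nd (nat_lit 78) (nat_lit 228) (nat_lit 0) (XT.lf (nat_lit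 0) (nat_lit 8719427601) (nat_lit 380) (nat_lit 1132463238) (nat_lit 76) (nat_lit 17353649394) (nat_lit 60) (nat_lit 5) (nat_lit 65) (nat_lit 5) (nat_lit 61) (nat_lit 5) (nat_lit 332) (nat_lit 315) (nat_lit 253)) (XT.lf (nat_lit 0) (nat_lit 16634443207) (nat_lit 304) (nat_lit 5968251322) (nat_lit 76) (nat_lit 5947706619) (nat_lit 57) (nat_lit 5) (nat_lit 61) (nat_lit 5) (nat_lit 58) (nat_lit 5) (nat_lit 333) (nat_lit 315) (nat_lit 252))) (XT.nd (nat_lit 78) (nat_lit 456) (nat_lit 0) (XT.lf (nat_lit 0) (nat_lit 18634102813) (nat_lit 228) (nat_lit 7005267232) (nat_lit 304) (nat_lit 4340663479) (nat_lit 54) (nat_lit 5) (nat_lit 57) (nat_lit 5) (nat_lit 58) (nat_lit 5) (nat_lit 334) (nat_lit 315) (nat_lit 251)) (XT.nd (nat_lit 78) (nat_lit 228) (nat_lit 0) (XT.lf (nat_lit 0) (nat_lit 4186361257) (nat_lit 228) (nat_lit 17399417999) (nat_lit 76) (nat_lit 9911843434) (nat_lit 51) (nat_lit 5) (nat_lit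 54) (nat_lit 5) (nat_lit 52) (nat_lit 5) (nat_lit 335) (nat_lit 315) (nat_lit 250)) (XT.lf (nat_lit 0) (nat_lit 8919818251) (nat_lit 228) (nat_lit 4765228017) (nat_lit 304) (nat_lit 19425950872) (nat_lit 48) (nat_lit 5) (nat_lit 51) (nat_lit 5) (nat_lit 52) (nat_lit 5) (nat_lit 336) (nat_lit 315) (nat_lit 249))))) (XT.nd (nat_lit 234) (nat_lit 532) (nat_lit 0) (XT.nd (nat_lit 78) (nat_lit 304) (nat_lit 0) (XT.lf (nat_lit 0) (nat_lit 2981888278) (nat_lit 152) (nat_lit 21507697703) (nat_lit 228) (nat_lit 10336571245) (nat_lit 46) (nat_lit 5) (nat_lit 48) (nat_lit 5) (nat_lit 49) (nat_lit 5) (nat_lit 337) (nat_lit 315) (nat_lit 248)) (XT.nd (nat_lit 78) (nat_lit 304) (nat_lit 0) (XT.lf (nat_lit 0) (nat_lit 33083836464) (nat_lit 152) (nat_lit 3558145157) (nat_lit 228) (nat_lit 12386524) (nat_lit 46) (nat_lit 5) (nat_lit 48) (nat_lit 5) (nat_lit 49) (nat_lit 5) (nat_lit 338) (nat_lit 315) (nat_lit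 247)) (XT.lf (nat_lit 0) (nat_lit 11453914318) (nat_lit 304) (nat_lit 11204469871) (nat_lit 76) (nat_lit 15928135437) (nat_lit 42) (nat_lit 5) (nat_lit 46) (nat_lit 5) (nat_lit 43) (nat_lit 5) (nat_lit 339) (nat_lit 315) (nat_lit 246)))) (XT.nd (nat_lit 78) (nat_lit 380) (nat_lit 0) (XT.lf (nat_lit 0) (nat_lit 20850301029) (nat_lit 152) (nat_lit 3420254685) (nat_lit 228) (nat_lit 16381014175) (nat_lit 40) (nat_lit 5) (nat_lit 42) (nat_lit 5) (nat_lit 43) (nat_lit 5) (nat_lit 340) (nat_lit 315) (nat_lit 245)) (XT.nd (nat_lit 78) (nat_lit 228) (nat_lit 0) (XT.lf (nat_lit 0) (nat_lit 13119637543) (nat_lit 152) (nat_lit 25652450743) (nat_lit 228) (nat_lit 4076767467) (nat_lit 38) (nat_lit 5) (nat_lit 40) (nat_lit 5) (nat_lit 41) (nat_lit 5) (nat_lit 341) (nat_lit 315) (nat_lit 244)) (XT.lf (nat_lit 0) (nat_lit 4076943768) (nat_lit 152) (nat_lit 5297800330) (nat_lit 228) (nat_lit 35817109672)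 (nat_lit 35) (nat_lit 5) (nat_lit 37) (nat_lit 5) (nat_lit 38) (nat_lit 5) (nat_lit 342) (nat_lit 315) (nat_lit 243)))))) (XT.nd (nat_lit 468) (nat_lit 532) (nat_lit 0) (XT.nd (nat_lit 234) (nat_lit 304) (nat_lit 0) (XT.nd (nat_lit 78) (nat_lit 304) (nat_lit 0) (XT.lf (nat_lit 0) (nat_lit 24534738805) (nat_lit 228) (nat_lit 6407488628) (nat_lit 76) (nat_lit 16737970787) (nat_lit 35) (nat_lit 5) (nat_lit 38) (nat_lit 5) (nat_lit 36) (nat_lit 5) (nat_lit 343) (nat_lit 315) (nat_lit 242)) (XT.nd (nat_lit 78) (nat_lit 152) (nat_lit 0) (XT.lf (nat_lit 0) (nat_lit 31990178306) (nat_lit 152) (nat_lit 9493573508) (nat_lit 228) (nat_lit 8855054712) (nat_lit 33) (nat_lit 5) (nat_lit 35) (nat_lit 5) (nat_lit 36) (nat_lit 5) (nat_lit 344) (nat_lit 315) (nat_lit 241)) (XT.lf (nat_lit 0) (nat_lit 7019929961) (nat_lit 152) (nat_lit 32373568148) (nat_lit 76) (nat_lit 13778881101) (nat_lit 31) (nat_lit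 5) (nat_lit 33) (nat_lit 5) (nat_lit 32) (nat_lit 5) (nat_lit 345) (nat_lit 315) (nat_lit 240)))) (XT.nd (nat_lit 78) (nat_lit 152) (nat_lit 0) (XT.lf (nat_lit 0) (nat_lit 7419475328) (nat_lit 152) (nat_lit 17028445800) (nat_lit 228) (nat_lit 31747801962) (nat_lit 29) (nat_lit 5) (nat_lit 31) (nat_lit 5) (nat_lit 32) (nat_lit 5) (nat_lit 346) (nat_lit 315) (nat_lit 239)) (XT.nd (nat_lit 78) (nat_lit 152) (nat_lit 0) (XT.lf (nat_lit 0) (nat_lit 43943338323) (nat_lit 228) (nat_lit 8020768576) (nat_lit 76) (nat_lit 7463173718) (nat_lit 29) (nat_lit 5) (nat_lit 32) (nat_lit 5) (nat_lit 30) (nat_lit 4) (nat_lit 347) (nat_lit 315) (nat_lit 238)) (XT.lf (nat_lit 0) (nat_lit 2880757242) (nat_lit 152) (nat_lit 26051221084) (nat_lit 76) (nat_lit 33940447866) (nat_lit 27) (nat_lit 5) (nat_lit 29) (nat_lit 5) (nat_lit 28) (nat_lit 5) (nat_lit 348) (nat_lit 315) (nat_lit 237))))) (XT.nd (nat_lit 234)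 (nat_lit 304) (nat_lit 0) (XT.nd (nat_lit 78) (nat_lit 76) (nat_lit 0) (XT.lf (nat_lit 0) (nat_lit 19287038669) (nat_lit 152) (nat_lit 3325423976) (nat_lit 228) (nat_lit 43946017890) (nat_lit 25) (nat_lit 5) (nat_lit 27) (nat_lit 5) (nat_lit 28) (nat_lit 5) (nat_lit 349) (nat_lit 315) (nat_lit 236)) (XT.nd (nat_lit 78) (nat_lit 76) (nat_lit 0) (XT.lf (nat_lit 0) (nat_lit 44754089648) (nat_lit 228) (nat_lit 1738632985) (nat_lit 76) (nat_lit 24005131471) (nat_lit 25) (nat_lit 5) (nat_lit 28) (nat_lit 5) (nat_lit 26) (nat_lit 4) (nat_lit 350) (nat_lit 315) (nat_lit 235)) (XT.lf (nat_lit 0) (nat_lit 48930848319) (nat_lit 76) (nat_lit 20547234014) (nat_lit 152) (nat_lit 5233747279) (nat_lit 24) (nat_lit 5) (nat_lit 25) (nat_lit 5) (nat_lit 26) (nat_lit 4) (nat_lit 351) (nat_lit 315) (nat_lit 234)))) (XT.nd (nat_lit 78) (nat_lit 76) (nat_lit 0) (XT.lf (nat_lit 0) (nat_lit 16915417081) (nat_lit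 228) (nat_lit 54383237843) (nat_lit 76) (nat_lit 7924075585) (nat_lit 21) (nat_lit 5) (nat_lit 24) (nat_lit 5) (nat_lit 22) (nat_lit 4) (nat_lit 352) (nat_lit 315) (nat_lit 233)) (XT.nd (nat_lit 78) (nat_lit 76) (nat_lit 0) (XT.lf (nat_lit 0) (nat_lit 41450122412) (nat_lit 228) (nat_lit 4099097679) (nat_lit 76) (nat_lit 38501147914) (nat_lit 21) (nat_lit 5) (nat_lit 24) (nat_lit 5) (nat_lit 22) (nat_lit 4) (nat_lit 353) (nat_lit 315) (nat_lit 232)) (XT.lf (nat_lit 0) (nat_lit 51853323187) (nat_lit 76) (nat_lit 16896085721) (nat_lit 152) (nat_lit 20474720254) (nat_lit 20) (nat_lit 5) (nat_lit 21) (nat_lit 5) (nat_lit 22) (nat_lit 4) (nat_lit 354) (nat_lit 315) (nat_lit 231))))))))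
noncomputable def xc76 : XT := (XT.nd (nat_lit 1716) (nat_lit 228) (nat_lit 0) (XT.nd (nat_lit 858) (nat_lit 304) (nat_lit 0) (XT.nd (nat_lit 390) (nat_lit 304) (nat_lit 0) (XT.nd (nat_lit 156) (nat_lit 228) (nat_lit 0) (XT.nd (nat_lit 78) (nat_lit 0) (nat_lit 0) (XT.lf (nat_lit 0) (nat_lit 3885455130) (nat_lit 152) (nat_lit 76885538968) (nat_lit 76) (nat_lit 14009424392) (nat_lit 18) (nat_lit 5) (nat_lit 20) (nat_lit 5) (nat_lit 19) (nat_lit 4) (nat_lit 355) (nat_lit 315) (nat_lit 230)) (XT.lf (nat_lit 0) (nat_lit 30425976423) (nat_lit 152) (nat_lit 22486547044) (nat_lit 76) (nat_lit 47804463987) (nat_lit 18) (nat_lit 5) (nat_lit 20) (nat_lit 5) (nat_lit 19) (nat_lit 4) (nat_lit 356) (nat_lit 315) (nat_lit 229))) (XT.nd (nat_lit 78) (nat_lit 152) (nat_lit 0) (XT.lf (nat_lit 0) (nat_lit 37450617550) (nat_lit 76) (nat_lit 22217099834) (nat_lit 152) (nat_lit 47431867841) (nat_lit 17) (nat_lit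 5) (nat_lit 18) (nat_lit 5) (nat_lit 19) (nat_lit 4) (nat_lit 357) (nat_lit 315) (nat_lit 228)) (XT.nd (nat_lit 78) (nat_lit 152) (nat_lit 0) (XT.lf (nat_lit 0) (nat_lit 91811127109) (nat_lit 152) (nat_lit 11176693508) (nat_lit 0) (nat_lit 10976855757) (nat_lit 17) (nat_lit 5) (nat_lit 19) (nat_lit 4) (nat_lit 17) (nat_lit 4) (nat_lit 358) (nat_lit 315) (nat_lit 227)) (XT.lf (nat_lit 0) (nat_lit 6202635558) (nat_lit 152) (nat_lit 68125730741) (nat_lit 76) (nat_lit 46985575417) (nat_lit 15) (nat_lit 5) (nat_lit 17) (nat_lit 5) (nat_lit 16) (nat_lit 4) (nat_lit 359) (nat_lit 315) (nat_lit 226))))) (XT.nd (nat_lit 234) (nat_lit 228) (nat_lit 0) (XT.nd (nat_lit 78) (nat_lit 76) (nat_lit 0) (XT.lf (nat_lit 0) (nat_lit 36253583373) (nat_lit 152) (nat_lit 6527641687) (nat_lit 76) (nat_lit 86441645203) (nat_lit 15) (nat_lit 5) (nat_lit 17) (nat_lit 5) (nat_lit 16) (nat_lit 4) (nat_lit 360) (nat_lit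 315) (nat_lit 225)) (XT.nd (nat_lit 78) (nat_lit 0) (nat_lit 0) (XT.lf (nat_lit 0) (nat_lit 61971672325) (nat_lit 76) (nat_lit 7699080470) (nat_lit 152) (nat_lit 68045654543) (nat_lit 14) (nat_lit 5) (nat_lit 15) (nat_lit 5) (nat_lit 16) (nat_lit 4) (nat_lit 361) (nat_lit 315) (nat_lit 224)) (XT.lf (nat_lit 0) (nat_lit 106342985424) (nat_lit 152) (nat_lit 11182771951) (nat_lit 0) (nat_lit 29334586939) (nat_lit 14) (nat_lit 5) (nat_lit 16) (nat_lit 4) (nat_lit 14) (nat_lit 4) (nat_lit 362) (nat_lit 315) (nat_lit 223)))) (XT.nd (nat_lit 78) (nat_lit 152) (nat_lit 0) (XT.lf (nat_lit 0) (nat_lit 60336344748) (nat_lit 76) (nat_lit 86679652532) (nat_lit 76) (nat_lit 9666450253) (nat_lit 13) (nat_lit 4) (nat_lit 14) (nat_lit 5) (nat_lit 14) (nat_lit 4) (nat_lit 363) (nat_lit 315) (nat_lit 222)) (XT.nd (nat_lit 78) (nat_lit 76) (nat_lit 0) (XT.lf (nat_lit 0) (nat_lit 23088798414) (nat_lit 152)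 (nat_lit 29685613487) (nat_lit 76) (nat_lit 114487779350) (nat_lit 12) (nat_lit 5) (nat_lit 14) (nat_lit 5) (nat_lit 13) (nat_lit 4) (nat_lit 364) (nat_lit 315) (nat_lit 221)) (XT.lf (nat_lit 0) (nat_lit 43529719188) (nat_lit 76) (nat_lit 15275884667) (nat_lit 152) (nat_lit 119840798253) (nat_lit 11) (nat_lit 5) (nat_lit 12) (nat_lit 5) (nat_lit 13) (nat_lit 4) (nat_lit 365) (nat_lit 315) (nat_lit 220)))))) (XT.nd (nat_lit 390) (nat_lit 76) (nat_lit 0) (XT.nd (nat_lit 156) (nat_lit 152) (nat_lit 0) (XT.nd (nat_lit 78) (nat_lit 76) (nat_lit 0) (XT.lf (nat_lit 0) (nat_lit 98294924114) (nat_lit 152) (nat_lit 67663441341) (nat_lit 0) (nat_lit 24937226854) (nat_lit 11) (nat_lit 5) (nat_lit 13) (nat_lit 4) (nat_lit 11) (nat_lit 4) (nat_lit 366) (nat_lit 315) (nat_lit 219)) (XT.lf (nat_lit 0) (nat_lit 5083769027) (nat_lit 76) (nat_lit 136192678399) (nat_lit 76) (nat_lit 62831618347) (nat_lit 10)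 (nat_lit 4) (nat_lit 11) (nat_lit 5) (nat_lit 11) (nat_lit 4) (nat_lit 367) (nat_lit 315) (nat_lit 218))) (XT.nd (nat_lit 78) (nat_lit 152) (nat_lit 0) (XT.lf (nat_lit 0) (nat_lit 86059894932) (nat_lit 76) (nat_lit 102811534960) (nat_lit 76) (nat_lit 29447361211) (nat_lit 10) (nat_lit 4) (nat_lit 11) (nat_lit 5) (nat_lit 11) (nat_lit 4) (nat_lit 368) (nat_lit 315) (nat_lit 217)) (XT.nd (nat_lit 78) (nat_lit 76) (nat_lit 0) (XT.lf (nat_lit 0) (nat_lit 6392652758) (nat_lit 152) (nat_lit 60262118647) (nat_lit 76) (nat_lit 167006620523) (nat_lit 9) (nat_lit 5) (nat_lit 11) (nat_lit 5) (nat_lit 10) (nat_lit 4) (nat_lit 369) (nat_lit 315) (nat_lit 216)) (XT.lf (nat_lit 0) (nat_lit 17553490377) (nat_lit 76) (nat_lit 26799298243) (nat_lit 152) (nat_lit 205840245071) (nat_lit 8) (nat_lit 5) (nat_lit 9) (nat_lit 5) (nat_lit 10) (nat_lit 4) (nat_lit 370) (nat_lit 315) (nat_lit 215))))) (XT.nd (nat_lit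 234) (nat_lit 76) (nat_lit 0) (XT.nd (nat_lit 78) (nat_lit 0) (nat_lit 0) (XT.lf (nat_lit 0) (nat_lit 86667159304) (nat_lit 152) (nat_lit 164525301487) (nat_lit 0) (nat_lit 16788875449) (nat_lit 8) (nat_lit 5) (nat_lit 10) (nat_lit 4) (nat_lit 8) (nat_lit 4) (nat_lit 371) (nat_lit 315) (nat_lit 214)) (XT.nd (nat_lit 78) (nat_lit 0) (nat_lit 0) (XT.lf (nat_lit 0) (nat_lit 132815661201) (nat_lit 152) (nat_lit 91419395641) (nat_lit 0) (nat_lit 62935197670) (nat_lit 8) (nat_lit 5) (nat_lit 10) (nat_lit 4) (nat_lit 8) (nat_lit 4) (nat_lit 372) (nat_lit 315) (nat_lit 213)) (XT.lf (nat_lit 0) (nat_lit 182653354765) (nat_lit 152) (nat_lit 12470193443) (nat_lit 0) (nat_lit 112770873015) (nat_lit 8) (nat_lit 5) (nat_lit 10) (nat_lit 4) (nat_lit 8) (nat_lit 4) (nat_lit 373) (nat_lit 315) (nat_lit 212)))) (XT.nd (nat_lit 78) (nat_lit 0) (nat_lit 0) (XT.lf (nat_lit 0) (nat_lit 75196923393) (nat_lit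 76) (nat_lit 162452685795) (nat_lit 76) (nat_lit 92568335324) (nat_lit 7) (nat_lit 4) (nat_lit 8) (nat_lit 5) (nat_lit 8) (nat_lit 4) (nat_lit 374) (nat_lit 315) (nat_lit 211)) (XT.nd (nat_lit 78) (nat_lit 0) (nat_lit 0) (XT.lf (nat_lit 0) (nat_lit 170318131747) (nat_lit 76) (nat_lit 126942278424) (nat_lit 76) (nat_lit 57056197656) (nat_lit 7) (nat_lit 4) (nat_lit 8) (nat_lit 5) (nat_lit 8) (nat_lit 4) (nat_lit 375) (nat_lit 315) (nat_lit 210)) (XT.lf (nat_lit 0) (nat_lit 273044791941) (nat_lit 76) (nat_lit 88593082812) (nat_lit 76) (nat_lit 18705399917) (nat_lit 7) (nat_lit 4) (nat_lit 8) (nat_lit 5) (nat_lit 8) (nat_lit 4) (nat_lit 376) (nat_lit 315) (nat_lit 209))))))) (XT.nd (nat_lit 858) (nat_lit 0) (nat_lit 0) (XT.nd (nat_lit 390) (nat_lit 76) (nat_lit 0) (XT.nd (nat_lit 156) (nat_lit 0) (nat_lit 0) (XT.nd (nat_lit 78) (nat_lit 76) (nat_lit 0) (XT.lf (nat_lit 0) (nat_lit 21984417744)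 (nat_lit 152) (nat_lit 24821109970) (nat_lit 76) (nat_lit 361628920058) (nat_lit 6) (nat_lit 5) (nat_lit 8) (nat_lit 5) (nat_lit 7) (nat_lit 4) (nat_lit 377) (nat_lit 315) (nat_lit 208)) (XT.lf (nat_lit 0) (nat_lit 66049333530) (nat_lit 76) (nat_lit 262799856) (nat_lit 152) (nat_lit 372393546465) (nat_lit 5) (nat_lit 5) (nat_lit 6) (nat_lit 5) (nat_lit 7) (nat_lit 4) (nat_lit 378) (nat_lit 315) (nat_lit 207))) (XT.nd (nat_lit 78) (nat_lit 0) (nat_lit 0) (XT.lf (nat_lit 0) (nat_lit 115404356566) (nat_lit 152) (nat_lit 307092613404) (nat_lit 0) (nat_lit 48840726344) (nat_lit 5) (nat_lit 5) (nat_lit 7) (nat_lit 4) (nat_lit 5) (nat_lit 4) (nat_lit 379) (nat_lit 315) (nat_lit 206)) (XT.nd (nat_lit 78) (nat_lit 0) (nat_lit 0) (XT.lf (nat_lit 0) (nat_lit 168426668699) (nat_lit 152) (nat_lit 236291553203) (nat_lit 0) (nat_lit 101861916943) (nat_lit 5) (nat_lit 5) (nat_lit 7) (nat_lit 4) (nat_lit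 5) (nat_lit 4) (nat_lit 380) (nat_lit 315) (nat_lit 205)) (XT.lf (nat_lit 0) (nat_lit 225689173039) (nat_lit 152) (nat_lit 159829500838) (nat_lit 0) (nat_lit 159123382824) (nat_lit 5) (nat_lit 5) (nat_lit 7) (nat_lit 4) (nat_lit 5) (nat_lit 4) (nat_lit 381) (nat_lit 315) (nat_lit 204))))) (XT.nd (nat_lit 234) (nat_lit 0) (nat_lit 0) (XT.nd (nat_lit 78) (nat_lit 76) (nat_lit 0) (XT.lf (nat_lit 0) (nat_lit 287531202943) (nat_lit 152) (nat_lit 77253347851) (nat_lit 0) (nat_lit 220964451194) (nat_lit 5) (nat_lit 5) (nat_lit 7) (nat_lit 4) (nat_lit 5) (nat_lit 4) (nat_lit 382) (nat_lit 315) (nat_lit 203)) (XT.nd (nat_lit 78) (nat_lit 0) (nat_lit 0) (XT.lf (nat_lit 0) (nat_lit 12320581474) (nat_lit 76) (nat_lit 342191007031) (nat_lit 76) (nat_lit 275623364972) (nat_lit 4) (nat_lit 4) (nat_lit 5) (nat_lit 5) (nat_lit 5) (nat_lit 4) (nat_lit 383) (nat_lit 315) (nat_lit 202)) (XT.lf (nat_lit 0)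 (nat_lit 111816581055) (nat_lit 76) (nat_lit 316378223352) (nat_lit 76) (nat_lit 249809756931) (nat_lit 4) (nat_lit 4) (nat_lit 5) (nat_lit 5) (nat_lit 5) (nat_lit 4) (nat_lit 384) (nat_lit 315) (nat_lit 201)))) (XT.nd (nat_lit 78) (nat_lit 0) (nat_lit 0) (XT.lf (nat_lit 0) (nat_lit 219269912249) (nat_lit 76) (nat_lit 288501557937) (nat_lit 76) (nat_lit 221932328219) (nat_lit 4) (nat_lit 4) (nat_lit 5) (nat_lit 5) (nat_lit 5) (nat_lit 4) (nat_lit 385) (nat_lit 315) (nat_lit 200)) (XT.nd (nat_lit 78) (nat_lit 0) (nat_lit 0) (XT.lf (nat_lit 0) (nat_lit 335317335536) (nat_lit 76) (nat_lit 258395815734) (nat_lit 76) (nat_lit 191825879258) (nat_lit 4) (nat_lit 4) (nat_lit 5) (nat_lit 5) (nat_lit 5) (nat_lit 4) (nat_lit 386) (nat_lit 315) (nat_lit 199)) (XT.lf (nat_lit 0) (nat_lit 460646539352) (nat_lit 76) (nat_lit 225882592343) (nat_lit 76) (nat_lit 159312001463) (nat_lit 4) (nat_lit 4) (nat_lit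 5) (nat_lit 5) (nat_lit 5) (nat_lit 4) (nat_lit 387) (nat_lit 315) (nat_lit 198)))))) (XT.nd (nat_lit 41574) (nat_lit 0) (nat_lit 6232) (XT.nd (nat_lit 41340) (nat_lit 0) (nat_lit 7828) (XT.nd (nat_lit 41262) (nat_lit 0) (nat_lit 7828) (XT.lf (nat_lit 0) (nat_lit 596000215274) (nat_lit 76) (nat_lit 190769216812) (nat_lit 76) (nat_lit 124198020002) (nat_lit 4) (nat_lit 4) (nat_lit 5) (nat_lit 5) (nat_lit 5) (nat_lit 4) (nat_lit 388) (nat_lit 315) (nat_lit 197)) (XT.lf (nat_lit 0) (nat_lit 2567733989) (nat_lit 0) (nat_lit 2567733989) (nat_lit 684) (nat_lit 1963066890) (nat_lit 107) (nat_lit 5) (nat_lit 107) (nat_lit 3) (nat_lit 116) (nat_lit 3) (nat_lit 316) (nat_lit 316) (nat_lit 268))) (XT.nd (nat_lit 78) (nat_lit 0) (nat_lit 76) (XT.lf (nat_lit 76) (nat_lit 1558457803) (nat_lit 0) (nat_lit 9726525906) (nat_lit 760) (nat_lit 3449144343) (nat_lit 108) (nat_lit 5) (nat_lit 107) (nat_lit 5)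 (nat_lit 117) (nat_lit 5) (nat_lit 317) (nat_lit 316) (nat_lit 267)) (XT.nd (nat_lit 78) (nat_lit 0) (nat_lit 0) (XT.lf (nat_lit 0) (nat_lit 12583571759) (nat_lit 684) (nat_lit 2081425464) (nat_lit 760) (nat_lit 639049415) (nat_lit 108) (nat_lit 5) (nat_lit 117) (nat_lit 5) (nat_lit 118) (nat_lit 5) (nat_lit 318) (nat_lit 316) (nat_lit 266)) (XT.lf (nat_lit 76) (nat_lit 10027955707) (nat_lit 0) (nat_lit 4232732172) (nat_lit 760) (nat_lit 1645200287) (nat_lit 109) (nat_lit 5) (nat_lit 108) (nat_lit 5) (nat_lit 118) (nat_lit 5) (nat_lit 319) (nat_lit 316) (nat_lit 265))))) (XT.nd (nat_lit 234) (nat_lit 1064) (nat_lit 0) (XT.nd (nat_lit 78) (nat_lit 684) (nat_lit 0) (XT.lf (nat_lit 76) (nat_lit 6699855359) (nat_lit 0) (nat_lit 9580661031) (nat_lit 760) (nat_lit 264990424) (nat_lit 110) (nat_lit 5) (nat_lit 109) (nat_lit 5) (nat_lit 119) (nat_lit 5) (nat_lit 320) (nat_lit 316) (nat_lit 264))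 (XT.nd (nat_lit 78) (nat_lit 0) (nat_lit 0) (XT.lf (nat_lit 0) (nat_lit 1400984031) (nat_lit 760) (nat_lit 14011711759) (nat_lit 836) (nat_lit 1811963811) (nat_lit 100) (nat_lit 5) (nat_lit 110) (nat_lit 5) (nat_lit 111) (nat_lit 5) (nat_lit 321) (nat_lit 316) (nat_lit 263)) (XT.lf (nat_lit 0) (nat_lit 3488908487) (nat_lit 760) (nat_lit 481927768) (nat_lit 836) (nat_lit 13972239852) (nat_lit 100) (nat_lit 5) (nat_lit 110) (nat_lit 5) (nat_lit 111) (nat_lit 5) (nat_lit 322) (nat_lit 316) (nat_lit 262)))) (XT.nd (nat_lit 78) (nat_lit 1140) (nat_lit 0) (XT.lf (nat_lit 0) (nat_lit 6070850813) (nat_lit 760) (nat_lit 4276697997) (nat_lit 76) (nat_lit 8355110985) (nat_lit 101) (nat_lit 5) (nat_lit 111) (nat_lit 5) (nat_lit 102) (nat_lit 5) (nat_lit 323) (nat_lit 316) (nat_lit 261)) (XT.nd (nat_lit 78) (nat_lit 380) (nat_lit 0) (XT.lf (nat_lit 0) (nat_lit 9112546935) (nat_lit 836) (nat_lit 8260901245)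 (nat_lit 76) (nat_lit 2136941944) (nat_lit 91) (nat_lit 5) (nat_lit 102) (nat_lit 5) (nat_lit 92) (nat_lit 5) (nat_lit 324) (nat_lit 316) (nat_lit 260)) (XT.lf (nat_lit 0) (nat_lit 7836715509) (nat_lit 380) (nat_lit 4902498237) (nat_lit 456) (nat_lit 7626480298) (nat_lit 86) (nat_lit 5) (nat_lit 91) (nat_lit 5) (nat_lit 92) (nat_lit 5) (nat_lit 325) (nat_lit 316) (nat_lit 259))))))))
noncomputable def xc77 : XT := (XT.nd (nat_lit 1716) (nat_lit 1444) (nat_lit 0) (XT.nd (nat_lit 858) (nat_lit 1672) (nat_lit 0) (XT.nd (nat_lit 390) (nat_lit 1292) (nat_lit 0) (XT.nd (nat_lit 156) (nat_lit 684) (nat_lit 0) (XT.nd (nat_lit 78) (nat_lit 380) (nat_lit 0) (XT.lf (nat_lit 0) (nat_lit 4203257368) (nat_lit 304) (nat_lit 12769317042) (nat_lit 380) (nat_lit 4301054022) (nat_lit 82) (nat_lit 5) (nat_lit 86) (nat_lit 5) (nat_lit 87) (nat_lit 5) (nat_lit 326) (nat_lit 316) (nat_lit 258)) (XT.lf (nat_lit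 0) (nat_lit 366061888) (nat_lit 380) (nat_lit 21468817129) (nat_lit 456) (nat_lit 404836449) (nat_lit 77) (nat_lit 5) (nat_lit 82) (nat_lit 5) (nat_lit 83) (nat_lit 5) (nat_lit 327) (nat_lit 316) (nat_lit 257))) (XT.nd (nat_lit 78) (nat_lit 608) (nat_lit 0) (XT.lf (nat_lit 0) (nat_lit 4172644056) (nat_lit 456) (nat_lit 3770537450) (nat_lit 76) (nat_lit 15312402638) (nat_lit 76) (nat_lit 5) (nat_lit 82) (nat_lit 5) (nat_lit 77) (nat_lit 5) (nat_lit 328) (nat_lit 316) (nat_lit 256)) (XT.nd (nat_lit 78) (nat_lit 304) (nat_lit 0) (XT.lf (nat_lit 0) (nat_lit 9440270233) (nat_lit 380) (nat_lit 8182083825) (nat_lit 76) (nat_lit 6713155730) (nat_lit 72) (nat_lit 5) (nat_lit 77) (nat_lit 5) (nat_lit 73) (nat_lit 5) (nat_lit 329) (nat_lit 316) (nat_lit 255)) (XT.lf (nat_lit 0) (nat_lit 12546504345) (nat_lit 304) (nat_lit 2956407242) (nat_lit 380) (nat_lit 9980261569) (nat_lit 68) (nat_lit 5) (nat_lit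 72) (nat_lit 5) (nat_lit 73) (nat_lit 5) (nat_lit 330) (nat_lit 316) (nat_lit 254))))) (XT.nd (nat_lit 234) (nat_lit 684) (nat_lit 0) (XT.nd (nat_lit 78) (nat_lit 380) (nat_lit 0) (XT.lf (nat_lit 0) (nat_lit 8553016261) (nat_lit 228) (nat_lit 13955330225) (nat_lit 304) (nat_lit 4191436151) (nat_lit 65) (nat_lit 5) (nat_lit 68) (nat_lit 5) (nat_lit 69) (nat_lit 5) (nat_lit 331) (nat_lit 316) (nat_lit 253)) (XT.nd (nat_lit 78) (nat_lit 0) (nat_lit 0) (XT.lf (nat_lit 0) (nat_lit 2348872968) (nat_lit 380) (nat_lit 23781279188) (nat_lit 76) (nat_lit 1864263432) (nat_lit 60) (nat_lit 5) (nat_lit 65) (nat_lit 5) (nat_lit 61) (nat_lit 5) (nat_lit 332) (nat_lit 316) (nat_lit 252)) (XT.lf (nat_lit 0) (nat_lit 9804270704) (nat_lit 380) (nat_lit 704706194) (nat_lit 76) (nat_lit 18853289193) (nat_lit 60) (nat_lit 5) (nat_lit 65) (nat_lit 5) (nat_lit 61) (nat_lit 5) (nat_lit 333) (nat_lit 316) (nat_lit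 251)))) (XT.nd (nat_lit 78) (nat_lit 456) (nat_lit 0) (XT.lf (nat_lit 0) (nat_lit 18333562365) (nat_lit 304) (nat_lit 5933262106) (nat_lit 76) (nat_lit 6548863808) (nat_lit 57) (nat_lit 5) (nat_lit 61) (nat_lit 5) (nat_lit 58) (nat_lit 5) (nat_lit 334) (nat_lit 316) (nat_lit 250)) (XT.nd (nat_lit 78) (nat_lit 228) (nat_lit 0) (XT.lf (nat_lit 0) (nat_lit 20615009937) (nat_lit 228) (nat_lit 7424240279) (nat_lit 304) (nat_lit 4321446891) (nat_lit 54) (nat_lit 5) (nat_lit 57) (nat_lit 5) (nat_lit 58) (nat_lit 5) (nat_lit 335) (nat_lit 316) (nat_lit 249)) (XT.lf (nat_lit 0) (nat_lit 4859488007) (nat_lit 228) (nat_lit 18296189543) (nat_lit 76) (nat_lit 10844577247) (nat_lit 51) (nat_lit 5) (nat_lit 54) (nat_lit 5) (nat_lit 52) (nat_lit 5) (nat_lit 336) (nat_lit 316) (nat_lit 248)))))) (XT.nd (nat_lit 390) (nat_lit 836) (nat_lit 0) (XT.nd (nat_lit 156) (nat_lit 456) (nat_lit 0) (XT.nd (nat_lit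 78) (nat_lit 152) (nat_lit 0) (XT.lf (nat_lit 0) (nat_lit 10107065606) (nat_lit 228) (nat_lit 4993344229) (nat_lit 304) (nat_lit 20643192031) (nat_lit 48) (nat_lit 5) (nat_lit 51) (nat_lit 5) (nat_lit 52) (nat_lit 5) (nat_lit 337) (nat_lit 316) (nat_lit 247)) (XT.lf (nat_lit 0) (nat_lit 3686797747) (nat_lit 152) (nat_lit 23068264252) (nat_lit 228) (nat_lit 10841643595) (nat_lit 46) (nat_lit 5) (nat_lit 48) (nat_lit 5) (nat_lit 49) (nat_lit 5) (nat_lit 338) (nat_lit 316) (nat_lit 246))) (XT.nd (nat_lit 78) (nat_lit 380) (nat_lit 0) (XT.lf (nat_lit 0) (nat_lit 275524819) (nat_lit 228) (nat_lit 3414412038) (nat_lit 76) (nat_lit 35882165757) (nat_lit 45) (nat_lit 5) (nat_lit 48) (nat_lit 5) (nat_lit 46) (nat_lit 5) (nat_lit 339) (nat_lit 316) (nat_lit 245)) (XT.nd (nat_lit 78) (nat_lit 152) (nat_lit 0) (XT.lf (nat_lit 0) (nat_lit 12646248462) (nat_lit 304) (nat_lit 11666912797) (nat_lit 76)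 (nat_lit 17346292108) (nat_lit 42) (nat_lit 5) (nat_lit 46) (nat_lit 5) (nat_lit 43) (nat_lit 5) (nat_lit 340) (nat_lit 316) (nat_lit 244)) (XT.lf (nat_lit 0) (nat_lit 22933382373) (nat_lit 152) (nat_lit 3540873004) (nat_lit 228) (nat_lit 17416164399) (nat_lit 40) (nat_lit 5) (nat_lit 42) (nat_lit 5) (nat_lit 43) (nat_lit 5) (nat_lit 341) (nat_lit 316) (nat_lit 243))))) (XT.nd (nat_lit 234) (nat_lit 456) (nat_lit 0) (XT.nd (nat_lit 78) (nat_lit 228) (nat_lit 0) (XT.lf (nat_lit 0) (nat_lit 14576641706) (nat_lit 152) (nat_lit 27548430369) (nat_lit 228) (nat_lit 4138971169) (nat_lit 38) (nat_lit 5) (nat_lit 40) (nat_lit 5) (nat_lit 41) (nat_lit 5) (nat_lit 342) (nat_lit 316) (nat_lit 242)) (XT.nd (nat_lit 78) (nat_lit 0) (nat_lit 0) (XT.lf (nat_lit 0) (nat_lit 4801052290) (nat_lit 152) (nat_lit 5566449351) (nat_lit 228) (nat_lit 38427420320) (nat_lit 35) (nat_lit 5) (nat_lit 37) (nat_lit 5)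 (nat_lit 38) (nat_lit 5) (nat_lit 343) (nat_lit 316) (nat_lit 241)) (XT.lf (nat_lit 0) (nat_lit 26724555623) (nat_lit 228) (nat_lit 6542485482) (nat_lit 76) (nat_lit 18216090336) (nat_lit 35) (nat_lit 5) (nat_lit 38) (nat_lit 5) (nat_lit 36) (nat_lit 5) (nat_lit 344) (nat_lit 316) (nat_lit 240)))) (XT.nd (nat_lit 78) (nat_lit 304) (nat_lit 0) (XT.lf (nat_lit 0) (nat_lit 34910584674) (nat_lit 152) (nat_lit 10107726611) (nat_lit 228) (nat_lit 9336685731) (nat_lit 33) (nat_lit 5) (nat_lit 35) (nat_lit 5) (nat_lit 36) (nat_lit 5) (nat_lit 345) (nat_lit 316) (nat_lit 239)) (XT.nd (nat_lit 78) (nat_lit 152) (nat_lit 0) (XT.lf (nat_lit 0) (nat_lit 7792528383) (nat_lit 152) (nat_lit 34602605680) (nat_lit 76) (nat_lit 15020378523) (nat_lit 31) (nat_lit 5) (nat_lit 33) (nat_lit 5) (nat_lit 32) (nat_lit 5) (nat_lit 346) (nat_lit 316) (nat_lit 238)) (XT.lf (nat_lit 0) (nat_lit 8358199264) (nat_lit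 152) (nat_lit 18246318659) (nat_lit 228) (nat_lit 34076726008) (nat_lit 29) (nat_lit 5) (nat_lit 31) (nat_lit 5) (nat_lit 32) (nat_lit 5) (nat_lit 347) (nat_lit 316) (nat_lit 237))))))) (XT.nd (nat_lit 858) (nat_lit 532) (nat_lit 0) (XT.nd (nat_lit 390) (nat_lit 532) (nat_lit 0) (XT.nd (nat_lit 156) (nat_lit 228) (nat_lit 0) (XT.nd (nat_lit 78) (nat_lit 152) (nat_lit 0) (XT.lf (nat_lit 0) (nat_lit 47646784683) (nat_lit 228) (nat_lit 8335533410) (nat_lit 76) (nat_lit 8189654479) (nat_lit 29) (nat_lit 5) (nat_lit 32) (nat_lit 5) (nat_lit 30) (nat_lit 4) (nat_lit 348) (nat_lit 316) (nat_lit 236)) (XT.lf (nat_lit 0) (nat_lit 3293170120) (nat_lit 152) (nat_lit 27816531771) (nat_lit 76) (nat_lit 36783340068) (nat_lit 27) (nat_lit 5) (nat_lit 29) (nat_lit 5) (nat_lit 28) (nat_lit 5) (nat_lit 349) (nat_lit 316) (nat_lit 235))) (XT.nd (nat_lit 78) (nat_lit 76) (nat_lit 0) (XT.lf (nat_lit 0) (nat_lit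 21134934668) (nat_lit 152) (nat_lit 3459760197) (nat_lit 228) (nat_lit 47279727618) (nat_lit 25) (nat_lit 5) (nat_lit 27) (nat_lit 5) (nat_lit 28) (nat_lit 5) (nat_lit 350) (nat_lit 316) (nat_lit 234)) (XT.nd (nat_lit 78) (nat_lit 76) (nat_lit 0) (XT.lf (nat_lit 0) (nat_lit 48496723652) (nat_lit 228) (nat_lit 1589192855) (nat_lit 76) (nat_lit 26043581385) (nat_lit 25) (nat_lit 5) (nat_lit 28) (nat_lit 5) (nat_lit 26) (nat_lit 4) (nat_lit 351) (nat_lit 316) (nat_lit 233)) (XT.lf (nat_lit 0) (nat_lit 53121307758) (nat_lit 76) (nat_lit 22069614267) (nat_lit 152) (nat_lit 5490060228) (nat_lit 24) (nat_lit 5) (nat_lit 25) (nat_lit 5) (nat_lit 26) (nat_lit 4) (nat_lit 352) (nat_lit 316) (nat_lit 232))))) (XT.nd (nat_lit 234) (nat_lit 228) (nat_lit 0) (XT.nd (nat_lit 78) (nat_lit 76) (nat_lit 0) (XT.lf (nat_lit 0) (nat_lit 18420258808) (nat_lit 228) (nat_lit 58459188173) (nat_lit 76) (nat_lit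 8673465049) (nat_lit 21) (nat_lit 5) (nat_lit 24) (nat_lit 5) (nat_lit 22) (nat_lit 4) (nat_lit 353) (nat_lit 316) (nat_lit 231)) (XT.nd (nat_lit 78) (nat_lit 76) (nat_lit 0) (XT.lf (nat_lit 0) (nat_lit 44906510317) (nat_lit 228) (nat_lit 4172665589) (nat_lit 76) (nat_lit 41688150319) (nat_lit 21) (nat_lit 5) (nat_lit 24) (nat_lit 5) (nat_lit 22) (nat_lit 4) (nat_lit 354) (nat_lit 316) (nat_lit 230)) (XT.lf (nat_lit 0) (nat_lit 56244894775) (nat_lit 76) (nat_lit 18138245262) (nat_lit 152) (nat_lit 21972182096) (nat_lit 20) (nat_lit 5) (nat_lit 21) (nat_lit 5) (nat_lit 22) (nat_lit 4) (nat_lit 355) (nat_lit 316) (nat_lit 229)))) (XT.nd (nat_lit 78) (nat_lit 76) (nat_lit 0) (XT.lf (nat_lit 0) (nat_lit 4327613292) (nat_lit 152) (nat_lit 82794456463) (nat_lit 76) (nat_lit 15234173409) (nat_lit 18) (nat_lit 5) (nat_lit 20) (nat_lit 5) (nat_lit 19) (nat_lit 4) (nat_lit 356) (nat_lit 316) (nat_lit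 228)) (XT.nd (nat_lit 78) (nat_lit 76) (nat_lit 0) (XT.lf (nat_lit 0) (nat_lit 32981648751) (nat_lit 152) (nat_lit 24061465602) (nat_lit 76) (nat_lit 51725112833) (nat_lit 18) (nat_lit 5) (nat_lit 20) (nat_lit 5) (nat_lit 19) (nat_lit 4) (nat_lit 357) (nat_lit 316) (nat_lit 227)) (XT.lf (nat_lit 0) (nat_lit 40660937166) (nat_lit 76) (nat_lit 23896130203) (nat_lit 152) (nat_lit 51104651422) (nat_lit 17) (nat_lit 5) (nat_lit 18) (nat_lit 5) (nat_lit 19) (nat_lit 4) (nat_lit 358) (nat_lit 316) (nat_lit 226)))))) (XT.nd (nat_lit 390) (nat_lit 304) (nat_lit 0) (XT.nd (nat_lit 156) (nat_lit 76) (nat_lit 0) (XT.nd (nat_lit 78) (nat_lit 152) (nat_lit 0) (XT.lf (nat_lit 0) (nat_lit 99264783870) (nat_lit 152) (nat_lit 11868451082) (nat_lit 0) (nat_lit 11943143291) (nat_lit 17) (nat_lit 5) (nat_lit 19) (nat_lit 4) (nat_lit 17) (nat_lit 4) (nat_lit 359) (nat_lit 316) (nat_lit 225)) (XT.lf (nat_lit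 0) (nat_lit 6804309502) (nat_lit 152) (nat_lit 73378689402) (nat_lit 76) (nat_lit 50830755092) (nat_lit 15) (nat_lit 5) (nat_lit 17) (nat_lit 5) (nat_lit 16) (nat_lit 4) (nat_lit 360) (nat_lit 316) (nat_lit 224))) (XT.nd (nat_lit 78) (nat_lit 76) (nat_lit 0) (XT.lf (nat_lit 0) (nat_lit 39251521061) (nat_lit 152) (nat_lit 6867353208) (nat_lit 76) (nat_lit 93436915377) (nat_lit 15) (nat_lit 5) (nat_lit 17) (nat_lit 5) (nat_lit 16) (nat_lit 4) (nat_lit 361) (nat_lit 316) (nat_lit 223)) (XT.nd (nat_lit 78) (nat_lit 0) (nat_lit 0) (XT.lf (nat_lit 0) (nat_lit 67103974705) (nat_lit 76) (nat_lit 8233581428) (nat_lit 152) (nat_lit 73391481000) (nat_lit 14) (nat_lit 5) (nat_lit 15) (nat_lit 5) (nat_lit 16) (nat_lit 4) (nat_lit 362) (nat_lit 316) (nat_lit 222)) (XT.lf (nat_lit 0) (nat_lit 114937844994) (nat_lit 152) (nat_lit 11912597312) (nat_lit 0) (nat_lit 31754334780) (nat_lit 14) (nat_lit 5) (nat_lit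 16) (nat_lit 4) (nat_lit 14) (nat_lit 4) (nat_lit 363) (nat_lit 316) (nat_lit 221))))) (XT.nd (nat_lit 234) (nat_lit 76) (nat_lit 0) (XT.nd (nat_lit 78) (nat_lit 152) (nat_lit 0) (XT.lf (nat_lit 0) (nat_lit 65320886873) (nat_lit 76) (nat_lit 93539796432) (nat_lit 76) (nat_lit 10352167739) (nat_lit 13) (nat_lit 4) (nat_lit 14) (nat_lit 5) (nat_lit 14) (nat_lit 4) (nat_lit 364) (nat_lit 316) (nat_lit 220)) (XT.nd (nat_lit 78) (nat_lit 76) (nat_lit 0) (XT.lf (nat_lit 0) (nat_lit 25014416022) (nat_lit 152) (nat_lit 31911889252) (nat_lit 76) (nat_lit 123712916207) (nat_lit 12) (nat_lit 5) (nat_lit 14) (nat_lit 5) (nat_lit 13) (nat_lit 4) (nat_lit 365) (nat_lit 316) (nat_lit 219)) (XT.lf (nat_lit 0) (nat_lit 47154213221) (nat_lit 76) (nat_lit 16430755682) (nat_lit 152) (nat_lit 129349381590) (nat_lit 11) (nat_lit 5) (nat_lit 12) (nat_lit 5) (nat_lit 13) (nat_lit 4) (nat_lit 366) (nat_lit 316)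 (nat_lit 218)))) (XT.nd (nat_lit 78) (nat_lit 76) (nat_lit 0) (XT.lf (nat_lit 0) (nat_lit 106228856854) (nat_lit 152) (nat_lit 72942413773) (nat_lit 0) (nat_lit 26992435508) (nat_lit 11) (nat_lit 5) (nat_lit 13) (nat_lit 4) (nat_lit 11) (nat_lit 4) (nat_lit 367) (nat_lit 316) (nat_lit 217)) (XT.nd (nat_lit 78) (nat_lit 0) (nat_lit 0) (XT.lf (nat_lit 0) (nat_lit 5618745477) (nat_lit 76) (nat_lit 147026949004) (nat_lit 76) (nat_lit 67787644605) (nat_lit 10) (nat_lit 4) (nat_lit 11) (nat_lit 5) (nat_lit 11) (nat_lit 4) (nat_lit 368) (nat_lit 316) (nat_lit 216)) (XT.lf (nat_lit 0) (nat_lit 93063459607) (nat_lit 76) (nat_lit 110979843250) (nat_lit 76) (nat_lit 31737869358) (nat_lit 10) (nat_lit 4) (nat_lit 11) (nat_lit 5) (nat_lit 11) (nat_lit 4) (nat_lit 369) (nat_lit 316) (nat_lit 215))))))))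
noncomputable def xc78 : XT := (XT.nd (nat_lit 42978) (nat_lit 0) (nat_lit 2888) (XT.nd (nat_lit 858) (nat_lit 76) (nat_lit 0) (XT.nd (nat_lit 390) (nat_lit 228) (nat_lit 0) (XT.nd (nat_lit 156) (nat_lit 0) (nat_lit 0) (XT.nd (nat_lit 78) (nat_lit 76) (nat_lit 0) (XT.lf (nat_lit 0) (nat_lit 6962575495) (nat_lit 152) (nat_lit 64971165878) (nat_lit 76) (nat_lit 180417623820) (nat_lit 9) (nat_lit 5) (nat_lit 11) (nat_lit 5) (nat_lit 10) (nat_lit 4) (nat_lit 370) (nat_lit 316) (nat_lit 214)) (XT.lf (nat_lit 0) (nat_lit 19064827863) (nat_lit 76) (nat_lit 28892031730) (nat_lit 152) (nat_lit 222248812766) (nat_lit 8) (nat_lit 5) (nat_lit 9) (nat_lit 5) (nat_lit 10) (nat_lit 4) (nat_lit 371) (nat_lit 316) (nat_lit 213))) (XT.nd (nat_lit 78) (nat_lit 0) (nat_lit 0) (XT.lf (nat_lit 0) (nat_lit 93652983364) (nat_lit 152) (nat_lit 177586341583) (nat_lit 0) (nat_lit 18177884855) (nat_lit 8) (nat_lit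 5) (nat_lit 10) (nat_lit 4) (nat_lit 8) (nat_lit 4) (nat_lit 372) (nat_lit 316) (nat_lit 212)) (XT.nd (nat_lit 78) (nat_lit 0) (nat_lit 0) (XT.lf (nat_lit 0) (nat_lit 143489480131) (nat_lit 152) (nat_lit 98639443567) (nat_lit 0) (nat_lit 68012512901) (nat_lit 8) (nat_lit 5) (nat_lit 10) (nat_lit 4) (nat_lit 8) (nat_lit 4) (nat_lit 373) (nat_lit 316) (nat_lit 211)) (XT.lf (nat_lit 0) (nat_lit 197310591695) (nat_lit 152) (nat_lit 13381231395) (nat_lit 0) (nat_lit 121831894168) (nat_lit 8) (nat_lit 5) (nat_lit 10) (nat_lit 4) (nat_lit 8) (nat_lit 4) (nat_lit 374) (nat_lit 316) (nat_lit 210))))) (XT.nd (nat_lit 234) (nat_lit 152) (nat_lit 0) (XT.nd (nat_lit 78) (nat_lit 0) (nat_lit 0) (XT.lf (nat_lit 0) (nat_lit 81295492234) (nat_lit 76) (nat_lit 175409016209) (nat_lit 76) (nat_lit 99928716554) (nat_lit 7) (nat_lit 4) (nat_lit 8) (nat_lit 5) (nat_lit 8) (nat_lit 4) (nat_lit 375) (nat_lit 316)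 (nat_lit 209)) (XT.nd (nat_lit 78) (nat_lit 0) (nat_lit 0) (XT.lf (nat_lit 0) (nat_lit 184020262814) (nat_lit 76) (nat_lit 137060730652) (nat_lit 76) (nat_lit 61578947546) (nat_lit 7) (nat_lit 4) (nat_lit 8) (nat_lit 5) (nat_lit 8) (nat_lit 4) (nat_lit 376) (nat_lit 316) (nat_lit 208)) (XT.lf (nat_lit 0) (nat_lit 294959375785) (nat_lit 76) (nat_lit 95646334950) (nat_lit 76) (nat_lit 20163178279) (nat_lit 7) (nat_lit 4) (nat_lit 8) (nat_lit 5) (nat_lit 8) (nat_lit 4) (nat_lit 377) (nat_lit 316) (nat_lit 207)))) (XT.nd (nat_lit 78) (nat_lit 76) (nat_lit 0) (XT.lf (nat_lit 0) (nat_lit 23777816047) (nat_lit 152) (nat_lit 26739905594) (nat_lit 76) (nat_lit 390589743244) (nat_lit 6) (nat_lit 5) (nat_lit 8) (nat_lit 5) (nat_lit 7) (nat_lit 4) (nat_lit 378) (nat_lit 316) (nat_lit 206)) (XT.nd (nat_lit 78) (nat_lit 0) (nat_lit 0) (XT.lf (nat_lit 0) (nat_lit 71397266290) (nat_lit 76) (nat_lit 252915364)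 (nat_lit 152) (nat_lit 402150292719) (nat_lit 5) (nat_lit 5) (nat_lit 6) (nat_lit 5) (nat_lit 7) (nat_lit 4) (nat_lit 379) (nat_lit 316) (nat_lit 205)) (XT.lf (nat_lit 0) (nat_lit 124667779318) (nat_lit 152) (nat_lit 331599686018) (nat_lit 0) (nat_lit 52775687429) (nat_lit 5) (nat_lit 5) (nat_lit 7) (nat_lit 4) (nat_lit 5) (nat_lit 4) (nat_lit 380) (nat_lit 316) (nat_lit 204)))))) (XT.nd (nat_lit 390) (nat_lit 0) (nat_lit 0) (XT.nd (nat_lit 156) (nat_lit 76) (nat_lit 0) (XT.nd (nat_lit 78) (nat_lit 0) (nat_lit 0) (XT.lf (nat_lit 0) (nat_lit 181929574628) (nat_lit 152) (nat_lit 255139010368) (nat_lit 0) (nat_lit 110036521203) (nat_lit 5) (nat_lit 5) (nat_lit 7) (nat_lit 4) (nat_lit 5) (nat_lit 4) (nat_lit 381) (nat_lit 316) (nat_lit 203)) (XT.lf (nat_lit 0) (nat_lit 243770948023) (nat_lit 152) (nat_lit 172564132117) (nat_lit 0) (nat_lit 171877004288) (nat_lit 5) (nat_lit 5) (nat_lit 7) (nat_lit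 4) (nat_lit 5) (nat_lit 4) (nat_lit 382) (nat_lit 316) (nat_lit 202))) (XT.nd (nat_lit 78) (nat_lit 76) (nat_lit 0) (XT.lf (nat_lit 0) (nat_lit 310558366902) (nat_lit 152) (nat_lit 83385718653) (nat_lit 0) (nat_lit 238663598806) (nat_lit 5) (nat_lit 5) (nat_lit 7) (nat_lit 4) (nat_lit 5) (nat_lit 4) (nat_lit 383) (nat_lit 316) (nat_lit 201)) (XT.nd (nat_lit 78) (nat_lit 0) (nat_lit 0) (XT.lf (nat_lit 0) (nat_lit 13352043471) (nat_lit 76) (nat_lit 369544027907) (nat_lit 76) (nat_lit 297648496514) (nat_lit 4) (nat_lit 4) (nat_lit 5) (nat_lit 5) (nat_lit 5) (nat_lit 4) (nat_lit 384) (nat_lit 316) (nat_lit 200)) (XT.lf (nat_lit 0) (nat_lit 120804329280) (nat_lit 76) (nat_lit 341667870399) (nat_lit 76) (nat_lit 269771632248) (nat_lit 4) (nat_lit 4) (nat_lit 5) (nat_lit 5) (nat_lit 5) (nat_lit 4) (nat_lit 385) (nat_lit 316) (nat_lit 199))))) (XT.nd (nat_lit 41496) (nat_lit 0) (nat_lit 7828) (XT.nd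 (nat_lit 78) (nat_lit 0) (nat_lit 0) (XT.lf (nat_lit 0) (nat_lit 236850784618) (nat_lit 76) (nat_lit 311562598479) (nat_lit 76) (nat_lit 239665705923) (nat_lit 4) (nat_lit 4) (nat_lit 5) (nat_lit 5) (nat_lit 5) (nat_lit 4) (nat_lit 386) (nat_lit 316) (nat_lit 198)) (XT.nd (nat_lit 78) (nat_lit 0) (nat_lit 0) (XT.lf (nat_lit 0) (nat_lit 362179092184) (nat_lit 76) (nat_lit 279049810535) (nat_lit 76) (nat_lit 207152312050) (nat_lit 4) (nat_lit 4) (nat_lit 5) (nat_lit 5) (nat_lit 5) (nat_lit 4) (nat_lit 387) (nat_lit 316) (nat_lit 197)) (XT.lf (nat_lit 0) (nat_lit 497531938245) (nat_lit 76) (nat_lit 243936838196) (nat_lit 76) (nat_lit 172038778665) (nat_lit 4) (nat_lit 4) (nat_lit 5) (nat_lit 5) (nat_lit 5) (nat_lit 4) (nat_lit 388) (nat_lit 316) (nat_lit 196)))) (XT.nd (nat_lit 78) (nat_lit 0) (nat_lit 0) (XT.lf (nat_lit 0) (nat_lit 3016409749) (nat_lit 0) (nat_lit 3016409749) (nat_lit 684)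 (nat_lit 1608624465) (nat_lit 107) (nat_lit 5) (nat_lit 107) (nat_lit 3) (nat_lit 116) (nat_lit 3) (nat_lit 317) (nat_lit 317) (nat_lit 266)) (XT.nd (nat_lit 78) (nat_lit 0) (nat_lit 76) (XT.lf (nat_lit 76) (nat_lit 2203547678) (nat_lit 0) (nat_lit 10886278651) (nat_lit 760) (nat_lit 2776729793) (nat_lit 108) (nat_lit 5) (nat_lit 107) (nat_lit 5) (nat_lit 117) (nat_lit 5) (nat_lit 318) (nat_lit 317) (nat_lit 265)) (XT.lf (nat_lit 0) (nat_lit 14419966387) (nat_lit 684) (nat_lit 1717686029) (nat_lit 760) (nat_lit 348121417) (nat_lit 108) (nat_lit 5) (nat_lit 117) (nat_lit 5) (nat_lit 118) (nat_lit 5) (nat_lit 319) (nat_lit 317) (nat_lit 264))))))) (XT.nd (nat_lit 858) (nat_lit 2280) (nat_lit 0) (XT.nd (nat_lit 390) (nat_lit 2052) (nat_lit 0) (XT.nd (nat_lit 156) (nat_lit 0) (nat_lit 76) (XT.nd (nat_lit 78) (nat_lit 684) (nat_lit 0) (XT.lf (nat_lit 76) (nat_lit 11337401467) (nat_lit 0) (nat_lit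 4840309371) (nat_lit 760) (nat_lit 960811197) (nat_lit 109) (nat_lit 5) (nat_lit 108) (nat_lit 5) (nat_lit 118) (nat_lit 5) (nat_lit 320) (nat_lit 317) (nat_lit 263)) (XT.lf (nat_lit 0) (nat_lit 458763375) (nat_lit 760) (nat_lit 10076310262) (nat_lit 836) (nat_lit 7296600252) (nat_lit 99) (nat_lit 5) (nat_lit 109) (nat_lit 5) (nat_lit 110) (nat_lit 5) (nat_lit 321) (nat_lit 317) (nat_lit 262))) (XT.nd (nat_lit 78) (nat_lit 0) (nat_lit 0) (XT.lf (nat_lit 0) (nat_lit 2200090195) (nat_lit 760) (nat_lit 14566304476) (nat_lit 836) (nat_lit 1801046306) (nat_lit 100) (nat_lit 5) (nat_lit 110) (nat_lit 5) (nat_lit 111) (nat_lit 5) (nat_lit 322) (nat_lit 317) (nat_lit 261)) (XT.nd (nat_lit 78) (nat_lit 0) (nat_lit 76) (XT.lf (nat_lit 76) (nat_lit 4040118) (nat_lit 0) (nat_lit 4400180645) (nat_lit 836) (nat_lit 14941713656) (nat_lit 101) (nat_lit 5) (nat_lit 100) (nat_lit 5) (nat_lit 111) (nat_lit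 5) (nat_lit 323) (nat_lit 317) (nat_lit 260)) (XT.lf (nat_lit 0) (nat_lit 7151878592) (nat_lit 760) (nat_lit 4085180974) (nat_lit 76) (nat_lit 8931324846) (nat_lit 101) (nat_lit 5) (nat_lit 111) (nat_lit 5) (nat_lit 102) (nat_lit 5) (nat_lit 324) (nat_lit 317) (nat_lit 259))))) (XT.nd (nat_lit 234) (nat_lit 760) (nat_lit 0) (XT.nd (nat_lit 78) (nat_lit 684) (nat_lit 0) (XT.lf (nat_lit 0) (nat_lit 10400018009) (nat_lit 836) (nat_lit 8381922713) (nat_lit 76) (nat_lit 2260690412) (nat_lit 91) (nat_lit 5) (nat_lit 102) (nat_lit 5) (nat_lit 92) (nat_lit 5) (nat_lit 325) (nat_lit 317) (nat_lit 258)) (XT.nd (nat_lit 78) (nat_lit 304) (nat_lit 0) (XT.lf (nat_lit 0) (nat_lit 8980042131) (nat_lit 380) (nat_lit 5303470370) (nat_lit 456) (nat_lit 7684561545) (nat_lit 86) (nat_lit 5) (nat_lit 91) (nat_lit 5) (nat_lit 92) (nat_lit 5) (nat_lit 326) (nat_lit 317) (nat_lit 257)) (XT.lf (nat_lit 0) (nat_lit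 5059304238) (nat_lit 304) (nat_lit 13765325422) (nat_lit 380) (nat_lit 4125604879) (nat_lit 82) (nat_lit 5) (nat_lit 86) (nat_lit 5) (nat_lit 87) (nat_lit 5) (nat_lit 327) (nat_lit 317) (nat_lit 256)))) (XT.nd (nat_lit 78) (nat_lit 304) (nat_lit 0) (XT.lf (nat_lit 0) (nat_lit 51066286) (nat_lit 456) (nat_lit 23079532100) (nat_lit 76) (nat_lit 864416695) (nat_lit 76) (nat_lit 5) (nat_lit 82) (nat_lit 5) (nat_lit 77) (nat_lit 5) (nat_lit 328) (nat_lit 317) (nat_lit 255)) (XT.nd (nat_lit 78) (nat_lit 304) (nat_lit 0) (XT.lf (nat_lit 0) (nat_lit 4945618334) (nat_lit 456) (nat_lit 3574784629) (nat_lit 76) (nat_lit 16573202972) (nat_lit 76) (nat_lit 5) (nat_lit 82) (nat_lit 5) (nat_lit 77) (nat_lit 5) (nat_lit 329) (nat_lit 317) (nat_lit 254)) (XT.lf (nat_lit 0) (nat_lit 10610515893) (nat_lit 380) (nat_lit 8340699291) (nat_lit 76) (nat_lit 7309951959) (nat_lit 72) (nat_lit 5) (nat_lit 77) (nat_lit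 5) (nat_lit 73) (nat_lit 5) (nat_lit 330) (nat_lit 317) (nat_lit 253)))))) (XT.nd (nat_lit 390) (nat_lit 1140) (nat_lit 0) (XT.nd (nat_lit 156) (nat_lit 608) (nat_lit 0) (XT.nd (nat_lit 78) (nat_lit 228) (nat_lit 0) (XT.lf (nat_lit 0) (nat_lit 14024622496) (nat_lit 304) (nat_lit 3110210217) (nat_lit 380) (nat_lit 10367009677) (nat_lit 68) (nat_lit 5) (nat_lit 72) (nat_lit 5) (nat_lit 73) (nat_lit 5) (nat_lit 331) (nat_lit 317) (nat_lit 252)) (XT.lf (nat_lit 0) (nat_lit 9708919517) (nat_lit 228) (nat_lit 14971328586) (nat_lit 304) (nat_lit 4136584887) (nat_lit 65) (nat_lit 5) (nat_lit 68) (nat_lit 5) (nat_lit 69) (nat_lit 5) (nat_lit 332) (nat_lit 317) (nat_lit 251))) (XT.nd (nat_lit 78) (nat_lit 228) (nat_lit 0) (XT.lf (nat_lit 0) (nat_lit 2895383633) (nat_lit 380) (nat_lit 25203824020) (nat_lit 76) (nat_lit 2116504365) (nat_lit 60) (nat_lit 5) (nat_lit 65) (nat_lit 5) (nat_lit 61) (nat_lit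 5) (nat_lit 333) (nat_lit 317) (nat_lit 250)) (XT.nd (nat_lit 78) (nat_lit 228) (nat_lit 0) (XT.lf (nat_lit 0) (nat_lit 10920650163) (nat_lit 380) (nat_lit 316677594) (nat_lit 76) (nat_lit 20457015161) (nat_lit 60) (nat_lit 5) (nat_lit 65) (nat_lit 5) (nat_lit 61) (nat_lit 5) (nat_lit 334) (nat_lit 317) (nat_lit 249)) (XT.lf (nat_lit 0) (nat_lit 20116059855) (nat_lit 304) (nat_lit 5968580377) (nat_lit 76) (nat_lit 7180232326) (nat_lit 57) (nat_lit 5) (nat_lit 61) (nat_lit 5) (nat_lit 58) (nat_lit 5) (nat_lit 335) (nat_lit 317) (nat_lit 248))))) (XT.nd (nat_lit 234) (nat_lit 456) (nat_lit 0) (XT.nd (nat_lit 78) (nat_lit 456) (nat_lit 0) (XT.lf (nat_lit 0) (nat_lit 22684460131) (nat_lit 228) (nat_lit 7896910356) (nat_lit 304) (nat_lit 4352973971) (nat_lit 54) (nat_lit 5) (nat_lit 57) (nat_lit 5) (nat_lit 58) (nat_lit 5) (nat_lit 336) (nat_lit 317) (nat_lit 247)) (XT.nd (nat_lit 78) (nat_lit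 228) (nat_lit 0) (XT.lf (nat_lit 0) (nat_lit 5538214340) (nat_lit 228) (nat_lit 19335346044) (nat_lit 76) (nat_lit 11831987680) (nat_lit 51) (nat_lit 5) (nat_lit 54) (nat_lit 5) (nat_lit 52) (nat_lit 5) (nat_lit 337) (nat_lit 317) (nat_lit 246)) (XT.lf (nat_lit 0) (nat_lit 11321719584) (nat_lit 228) (nat_lit 5261551454) (nat_lit 304) (nat_lit 22005865748) (nat_lit 48) (nat_lit 5) (nat_lit 51) (nat_lit 5) (nat_lit 52) (nat_lit 5) (nat_lit 338) (nat_lit 317) (nat_lit 245)))) (XT.nd (nat_lit 78) (nat_lit 304) (nat_lit 0) (XT.lf (nat_lit 0) (nat_lit 4381568734) (nat_lit 152) (nat_lit 24776508942) (nat_lit 228) (nat_lit 11433037712) (nat_lit 46) (nat_lit 5) (nat_lit 48) (nat_lit 5) (nat_lit 49) (nat_lit 5) (nat_lit 339) (nat_lit 317) (nat_lit 244)) (XT.nd (nat_lit 78) (nat_lit 228) (nat_lit 0) (XT.lf (nat_lit 0) (nat_lit 544886852) (nat_lit 228) (nat_lit 3309004200) (nat_lit 76) (nat_lit 38871440824)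 (nat_lit 45) (nat_lit 5) (nat_lit 48) (nat_lit 5) (nat_lit 46) (nat_lit 5) (nat_lit 340) (nat_lit 317) (nat_lit 243)) (XT.lf (nat_lit 0) (nat_lit 13894591857) (nat_lit 304) (nat_lit 12228253935) (nat_lit 76) (nat_lit 18857371536) (nat_lit 42) (nat_lit 5) (nat_lit 46) (nat_lit 5) (nat_lit 43) (nat_lit 5) (nat_lit 341) (nat_lit 317) (nat_lit 242))))))))
noncomputable def xc79 : XT := (XT.nd (nat_lit 1716) (nat_lit 760) (nat_lit 0) (XT.nd (nat_lit 858) (nat_lit 836) (nat_lit 0) (XT.nd (nat_lit 390) (nat_lit 608) (nat_lit 0) (XT.nd (nat_lit 156) (nat_lit 380) (nat_lit 0) (XT.nd (nat_lit 78) (nat_lit 152) (nat_lit 0) (XT.lf (nat_lit 0) (nat_lit 25123897665) (nat_lit 152) (nat_lit 3692968243) (nat_lit 228) (nat_lit 18573405674) (nat_lit 40) (nat_lit 5) (nat_lit 42) (nat_lit 5) (nat_lit 43) (nat_lit 5) (nat_lit 342) (nat_lit 317) (nat_lit 241)) (XT.lf (nat_lit 0) (nat_lit 16092081307) (nat_lit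 152) (nat_lit 29618374386) (nat_lit 228) (nat_lit 4243804830) (nat_lit 38) (nat_lit 5) (nat_lit 40) (nat_lit 5) (nat_lit 41) (nat_lit 5) (nat_lit 343) (nat_lit 317) (nat_lit 240))) (XT.nd (nat_lit 78) (nat_lit 152) (nat_lit 0) (XT.lf (nat_lit 0) (nat_lit 5526317047) (nat_lit 152) (nat_lit 5878727742) (nat_lit 228) (nat_lit 41282942713) (nat_lit 35) (nat_lit 5) (nat_lit 37) (nat_lit 5) (nat_lit 38) (nat_lit 5) (nat_lit 344) (nat_lit 317) (nat_lit 239)) (XT.nd (nat_lit 78) (nat_lit 152) (nat_lit 0) (XT.lf (nat_lit 0) (nat_lit 29057168319) (nat_lit 228) (nat_lit 6742151264) (nat_lit 76) (nat_lit 19792617863) (nat_lit 35) (nat_lit 5) (nat_lit 38) (nat_lit 5) (nat_lit 36) (nat_lit 5) (nat_lit 345) (nat_lit 317) (nat_lit 238)) (XT.lf (nat_lit 0) (nat_lit 38013095460) (nat_lit 152) (nat_lit 10791745309) (nat_lit 228) (nat_lit 9889198986) (nat_lit 33) (nat_lit 5) (nat_lit 35) (nat_lit 5) (nat_lit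 36) (nat_lit 5) (nat_lit 346) (nat_lit 317) (nat_lit 237))))) (XT.nd (nat_lit 234) (nat_lit 304) (nat_lit 0) (XT.nd (nat_lit 78) (nat_lit 152) (nat_lit 0) (XT.lf (nat_lit 0) (nat_lit 8596832595) (nat_lit 152) (nat_lit 37061445204) (nat_lit 76) (nat_lit 16341339166) (nat_lit 31) (nat_lit 5) (nat_lit 33) (nat_lit 5) (nat_lit 32) (nat_lit 5) (nat_lit 347) (nat_lit 317) (nat_lit 236)) (XT.nd (nat_lit 78) (nat_lit 0) (nat_lit 0) (XT.lf (nat_lit 0) (nat_lit 9322779338) (nat_lit 152) (nat_lit 19582222022) (nat_lit 228) (nat_lit 36622051235) (nat_lit 29) (nat_lit 5) (nat_lit 31) (nat_lit 5) (nat_lit 32) (nat_lit 5) (nat_lit 348) (nat_lit 317) (nat_lit 235)) (XT.lf (nat_lit 0) (nat_lit 51619689403) (nat_lit 228) (nat_lit 8722114894) (nat_lit 76) (nat_lit 8955789512) (nat_lit 29) (nat_lit 5) (nat_lit 32) (nat_lit 5) (nat_lit 30) (nat_lit 4) (nat_lit 349) (nat_lit 317) (nat_lit 234)))) (XT.nd (nat_lit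 78) (nat_lit 152) (nat_lit 0) (XT.lf (nat_lit 0) (nat_lit 3712618499) (nat_lit 152) (nat_lit 29768545842) (nat_lit 76) (nat_lit 39835452037) (nat_lit 27) (nat_lit 5) (nat_lit 29) (nat_lit 5) (nat_lit 28) (nat_lit 5) (nat_lit 350) (nat_lit 317) (nat_lit 233)) (XT.nd (nat_lit 78) (nat_lit 0) (nat_lit 0) (XT.lf (nat_lit 0) (nat_lit 23087160258) (nat_lit 152) (nat_lit 3623631464) (nat_lit 228) (nat_lit 50906094422) (nat_lit 25) (nat_lit 5) (nat_lit 27) (nat_lit 5) (nat_lit 28) (nat_lit 5) (nat_lit 351) (nat_lit 317) (nat_lit 232)) (XT.lf (nat_lit 0) (nat_lit 52515613491) (nat_lit 228) (nat_lit 1468959654) (nat_lit 76) (nat_lit 28228267653) (nat_lit 25) (nat_lit 5) (nat_lit 28) (nat_lit 5) (nat_lit 26) (nat_lit 4) (nat_lit 352) (nat_lit 317) (nat_lit 231)))))) (XT.nd (nat_lit 390) (nat_lit 304) (nat_lit 0) (XT.nd (nat_lit 156) (nat_lit 228) (nat_lit 0) (XT.nd (nat_lit 78) (nat_lit 228) (nat_lit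 0) (XT.lf (nat_lit 0) (nat_lit 57607630668) (nat_lit 76) (nat_lit 23731103789) (nat_lit 152) (nat_lit 5790044510) (nat_lit 24) (nat_lit 5) (nat_lit 25) (nat_lit 5) (nat_lit 26) (nat_lit 4) (nat_lit 353) (nat_lit 317) (nat_lit 230)) (XT.lf (nat_lit 0) (nat_lit 20023859245) (nat_lit 228) (nat_lit 62900404797) (nat_lit 76) (nat_lit 9466333522) (nat_lit 21) (nat_lit 5) (nat_lit 24) (nat_lit 5) (nat_lit 22) (nat_lit 4) (nat_lit 354) (nat_lit 317) (nat_lit 229))) (XT.nd (nat_lit 78) (nat_lit 228) (nat_lit 0) (XT.lf (nat_lit 0) (nat_lit 48619382746) (nat_lit 228) (nat_lit 4288406215) (nat_lit 76) (nat_lit 45114860928) (nat_lit 21) (nat_lit 5) (nat_lit 24) (nat_lit 5) (nat_lit 22) (nat_lit 4) (nat_lit 355) (nat_lit 317) (nat_lit 228)) (XT.nd (nat_lit 78) (nat_lit 152) (nat_lit 0) (XT.lf (nat_lit 0) (nat_lit 60953081807) (nat_lit 76) (nat_lit 19495402863) (nat_lit 152) (nat_lit 23609487031) (nat_lit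 20) (nat_lit 5) (nat_lit 21) (nat_lit 5) (nat_lit 22) (nat_lit 4) (nat_lit 356) (nat_lit 317) (nat_lit 227)) (XT.lf (nat_lit 0) (nat_lit 4786409591) (nat_lit 152) (nat_lit 89210600753) (nat_lit 76) (nat_lit 16542066288) (nat_lit 18) (nat_lit 5) (nat_lit 20) (nat_lit 5) (nat_lit 19) (nat_lit 4) (nat_lit 357) (nat_lit 317) (nat_lit 226))))) (XT.nd (nat_lit 234) (nat_lit 228) (nat_lit 0) (XT.nd (nat_lit 78) (nat_lit 76) (nat_lit 0) (XT.lf (nat_lit 0) (nat_lit 35724428092) (nat_lit 152) (nat_lit 25794334492) (nat_lit 76) (nat_lit 55945676495) (nat_lit 18) (nat_lit 5) (nat_lit 20) (nat_lit 5) (nat_lit 19) (nat_lit 4) (nat_lit 358) (nat_lit 317) (nat_lit 225)) (XT.nd (nat_lit 78) (nat_lit 0) (nat_lit 0) (XT.lf (nat_lit 0) (nat_lit 44097514310) (nat_lit 76) (nat_lit 25723511962) (nat_lit 152) (nat_lit 55088628948) (nat_lit 17) (nat_lit 5) (nat_lit 18) (nat_lit 5) (nat_lit 19) (nat_lit 4) (nat_lit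 359) (nat_lit 317) (nat_lit 224)) (XT.lf (nat_lit 0) (nat_lit 107299216402) (nat_lit 152) (nat_lit 12644420732) (nat_lit 0) (nat_lit 12974159804) (nat_lit 17) (nat_lit 5) (nat_lit 19) (nat_lit 4) (nat_lit 17) (nat_lit 4) (nat_lit 360) (nat_lit 317) (nat_lit 223)))) (XT.nd (nat_lit 78) (nat_lit 76) (nat_lit 0) (XT.lf (nat_lit 0) (nat_lit 7439071871) (nat_lit 152) (nat_lit 79080003244) (nat_lit 76) (nat_lit 54971232682) (nat_lit 15) (nat_lit 5) (nat_lit 17) (nat_lit 5) (nat_lit 16) (nat_lit 4) (nat_lit 361) (nat_lit 317) (nat_lit 222)) (XT.nd (nat_lit 78) (nat_lit 76) (nat_lit 0) (XT.lf (nat_lit 0) (nat_lit 42475362754) (nat_lit 152) (nat_lit 7260277290) (nat_lit 76) (nat_lit 100980403035) (nat_lit 15) (nat_lit 5) (nat_lit 17) (nat_lit 5) (nat_lit 16) (nat_lit 4) (nat_lit 362) (nat_lit 317) (nat_lit 221)) (XT.lf (nat_lit 0) (nat_lit 72621957114) (nat_lit 76) (nat_lit 8822458717) (nat_lit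 152) (nat_lit 79178929532) (nat_lit 14) (nat_lit 5) (nat_lit 15) (nat_lit 5) (nat_lit 16) (nat_lit 4) (nat_lit 363) (nat_lit 317) (nat_lit 220))))))) (XT.nd (nat_lit 858) (nat_lit 304) (nat_lit 0) (XT.nd (nat_lit 390) (nat_lit 228) (nat_lit 0) (XT.nd (nat_lit 156) (nat_lit 152) (nat_lit 0) (XT.nd (nat_lit 78) (nat_lit 76) (nat_lit 0) (XT.lf (nat_lit 0) (nat_lit 124207821783) (nat_lit 152) (nat_lit 12724318749) (nat_lit 0) (nat_lit 34357250909) (nat_lit 14) (nat_lit 5) (nat_lit 16) (nat_lit 4) (nat_lit 14) (nat_lit 4) (nat_lit 364) (nat_lit 317) (nat_lit 219)) (XT.lf (nat_lit 0) (nat_lit 70681704038) (nat_lit 76) (nat_lit 100959341341) (nat_lit 76) (nat_lit 11105239534) (nat_lit 13) (nat_lit 4) (nat_lit 14) (nat_lit 5) (nat_lit 14) (nat_lit 4) (nat_lit 365) (nat_lit 317) (nat_lit 218))) (XT.nd (nat_lit 78) (nat_lit 76) (nat_lit 0) (XT.lf (nat_lit 0) (nat_lit 27082882177) (nat_lit 152) (nat_lit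 34337462723) (nat_lit 76) (nat_lit 133666632039) (nat_lit 12) (nat_lit 5) (nat_lit 14) (nat_lit 5) (nat_lit 13) (nat_lit 4) (nat_lit 366) (nat_lit 317) (nat_lit 217)) (XT.nd (nat_lit 78) (nat_lit 0) (nat_lit 0) (XT.lf (nat_lit 0) (nat_lit 51048392270) (nat_lit 76) (nat_lit 17687603175) (nat_lit 152) (nat_lit 139629876250) (nat_lit 11) (nat_lit 5) (nat_lit 12) (nat_lit 5) (nat_lit 13) (nat_lit 4) (nat_lit 367) (nat_lit 317) (nat_lit 216)) (XT.lf (nat_lit 0) (nat_lit 114787469596) (nat_lit 152) (nat_lit 78662835273) (nat_lit 0) (nat_lit 29203468300) (nat_lit 11) (nat_lit 5) (nat_lit 13) (nat_lit 4) (nat_lit 11) (nat_lit 4) (nat_lit 368) (nat_lit 317) (nat_lit 215))))) (XT.nd (nat_lit 234) (nat_lit 76) (nat_lit 0) (XT.nd (nat_lit 78) (nat_lit 76) (nat_lit 0) (XT.lf (nat_lit 0) (nat_lit 6178220190) (nat_lit 76) (nat_lit 158736684084) (nat_lit 76) (nat_lit 73150211035) (nat_lit 10) (nat_lit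 4) (nat_lit 11) (nat_lit 5) (nat_lit 11) (nat_lit 4) (nat_lit 369) (nat_lit 317) (nat_lit 214)) (XT.nd (nat_lit 78) (nat_lit 76) (nat_lit 0) (XT.lf (nat_lit 0) (nat_lit 100610365149) (nat_lit 76) (nat_lit 119809692895) (nat_lit 76) (nat_lit 34220931186) (nat_lit 10) (nat_lit 4) (nat_lit 11) (nat_lit 5) (nat_lit 11) (nat_lit 4) (nat_lit 370) (nat_lit 317) (nat_lit 213)) (XT.lf (nat_lit 0) (nat_lit 7569744872) (nat_lit 152) (nat_lit 70072903849) (nat_lit 76) (nat_lit 194894306749) (nat_lit 9) (nat_lit 5) (nat_lit 11) (nat_lit 5) (nat_lit 10) (nat_lit 4) (nat_lit 371) (nat_lit 317) (nat_lit 212)))) (XT.nd (nat_lit 78) (nat_lit 0) (nat_lit 0) (XT.lf (nat_lit 0) (nat_lit 20681799290) (nat_lit 76) (nat_lit 31159489629) (nat_lit 152) (nat_lit 239978433227) (nat_lit 8) (nat_lit 5) (nat_lit 9) (nat_lit 5) (nat_lit 10) (nat_lit 4) (nat_lit 372) (nat_lit 317) (nat_lit 211)) (XT.nd (nat_lit 78) (nat_lit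 0) (nat_lit 0) (XT.lf (nat_lit 0) (nat_lit 101190190583) (nat_lit 152) (nat_lit 191706671386) (nat_lit 0) (nat_lit 19671466956) (nat_lit 8) (nat_lit 5) (nat_lit 10) (nat_lit 4) (nat_lit 8) (nat_lit 4) (nat_lit 373) (nat_lit 317) (nat_lit 210)) (XT.lf (nat_lit 0) (nat_lit 155010276087) (nat_lit 152) (nat_lit 106450434679) (nat_lit 0) (nat_lit 73489950333) (nat_lit 8) (nat_lit 5) (nat_lit 10) (nat_lit 4) (nat_lit 8) (nat_lit 4) (nat_lit 374) (nat_lit 317) (nat_lit 209)))))) (XT.nd (nat_lit 468) (nat_lit 76) (nat_lit 0) (XT.nd (nat_lit 234) (nat_lit 152) (nat_lit 0) (XT.nd (nat_lit 78) (nat_lit 76) (nat_lit 0) (XT.lf (nat_lit 0) (nat_lit 213133992314) (nat_lit 152) (nat_lit 14377503635) (nat_lit 0) (nat_lit 131612183109) (nat_lit 8) (nat_lit 5) (nat_lit 10) (nat_lit 4) (nat_lit 8) (nat_lit 4) (nat_lit 375) (nat_lit 317) (nat_lit 208)) (XT.nd (nat_lit 78) (nat_lit 0) (nat_lit 0) (XT.lf (nat_lit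 0) (nat_lit 87870132101) (nat_lit 76) (nat_lit 189407543018) (nat_lit 76) (nat_lit 107884360247) (nat_lit 7) (nat_lit 4) (nat_lit 8) (nat_lit 5) (nat_lit 8) (nat_lit 4) (nat_lit 376) (nat_lit 317) (nat_lit 207)) (XT.lf (nat_lit 0) (nat_lit 198807625032) (nat_lit 76) (nat_lit 147993927542) (nat_lit 76) (nat_lit 66469472951) (nat_lit 7) (nat_lit 4) (nat_lit 8) (nat_lit 5) (nat_lit 8) (nat_lit 4) (nat_lit 377) (nat_lit 317) (nat_lit 206)))) (XT.nd (nat_lit 78) (nat_lit 152) (nat_lit 0) (XT.lf (nat_lit 0) (nat_lit 318616997322) (nat_lit 76) (nat_lit 103268725485) (nat_lit 76) (nat_lit 21743093282) (nat_lit 7) (nat_lit 4) (nat_lit 8) (nat_lit 5) (nat_lit 8) (nat_lit 4) (nat_lit 378) (nat_lit 317) (nat_lit 205)) (XT.nd (nat_lit 78) (nat_lit 76) (nat_lit 0) (XT.lf (nat_lit 0) (nat_lit 25709743734) (nat_lit 152) (nat_lit 28821747928) (nat_lit 76) (nat_lit 421863079753) (nat_lit 6) (nat_lit 5) (nat_lit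 8) (nat_lit 5) (nat_lit 7) (nat_lit 4) (nat_lit 379) (nat_lit 317) (nat_lit 204)) (XT.lf (nat_lit 0) (nat_lit 77163905341) (nat_lit 76) (nat_lit 246649554) (nat_lit 152) (nat_lit 434292534362) (nat_lit 5) (nat_lit 5) (nat_lit 6) (nat_lit 5) (nat_lit 7) (nat_lit 4) (nat_lit 380) (nat_lit 317) (nat_lit 203))))) (XT.nd (nat_lit 234) (nat_lit 76) (nat_lit 0) (XT.nd (nat_lit 78) (nat_lit 0) (nat_lit 0) (XT.lf (nat_lit 0) (nat_lit 134667842805) (nat_lit 152) (nat_lit 358075932111) (nat_lit 0) (nat_lit 57021493261) (nat_lit 5) (nat_lit 5) (nat_lit 7) (nat_lit 4) (nat_lit 5) (nat_lit 4) (nat_lit 381) (nat_lit 317) (nat_lit 202)) (XT.nd (nat_lit 78) (nat_lit 0) (nat_lit 0) (XT.lf (nat_lit 0) (nat_lit 196508608322) (nat_lit 152) (nat_lit 275502234171) (nat_lit 0) (nat_lit 118861434417) (nat_lit 5) (nat_lit 5) (nat_lit 7) (nat_lit 4) (nat_lit 5) (nat_lit 4) (nat_lit 382) (nat_lit 317) (nat_lit 201))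 (XT.lf (nat_lit 0) (nat_lit 263295464350) (nat_lit 152) (nat_lit 186324913588) (nat_lit 0) (nat_lit 185647527147) (nat_lit 5) (nat_lit 5) (nat_lit 7) (nat_lit 4) (nat_lit 5) (nat_lit 4) (nat_lit 383) (nat_lit 317) (nat_lit 200)))) (XT.nd (nat_lit 78) (nat_lit 76) (nat_lit 0) (XT.lf (nat_lit 0) (nat_lit 335424184851) (nat_lit 152) (nat_lit 90015512166) (nat_lit 0) (nat_lit 257775540891) (nat_lit 5) (nat_lit 5) (nat_lit 7) (nat_lit 4) (nat_lit 5) (nat_lit 4) (nat_lit 384) (nat_lit 317) (nat_lit 199)) (XT.nd (nat_lit 78) (nat_lit 0) (nat_lit 0) (XT.lf (nat_lit 0) (nat_lit 14459486338) (nat_lit 76) (nat_lit 399088466046) (nat_lit 76) (nat_lit 321439167682) (nat_lit 4) (nat_lit 4) (nat_lit 5) (nat_lit 5) (nat_lit 5) (nat_lit 4) (nat_lit 385) (nat_lit 317) (nat_lit 198)) (XT.lf (nat_lit 0) (nat_lit 130505045427) (nat_lit 76) (nat_lit 368983629574) (nat_lit 76) (nat_lit 291333725279) (nat_lit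 4) (nat_lit 4) (nat_lit 5) (nat_lit 5) (nat_lit 5) (nat_lit 4) (nat_lit 386) (nat_lit 317) (nat_lit 197))))))))
noncomputable def xc80 : XT := (XT.nd (nat_lit 43056) (nat_lit 0) (nat_lit 1064) (XT.nd (nat_lit 42198) (nat_lit 0) (nat_lit 3800) (XT.nd (nat_lit 41730) (nat_lit 0) (nat_lit 6612) (XT.nd (nat_lit 41496) (nat_lit 0) (nat_lit 7828) (XT.nd (nat_lit 78) (nat_lit 0) (nat_lit 0) (XT.lf (nat_lit 0) (nat_lit 255832523132) (nat_lit 76) (nat_lit 336471244823) (nat_lit 76) (nat_lit 258820779482) (nat_lit 4) (nat_lit 4) (nat_lit 5) (nat_lit 5) (nat_lit 5) (nat_lit 4) (nat_lit 387) (nat_lit 317) (nat_lit 196)) (XT.lf (nat_lit 0) (nat_lit 391184600804) (nat_lit 76) (nat_lit 301358645810) (nat_lit 76) (nat_lit 223707660981) (nat_lit 4) (nat_lit 4) (nat_lit 5) (nat_lit 5) (nat_lit 5) (nat_lit 4) (nat_lit 388) (nat_lit 317) (nat_lit 195))) (XT.nd (nat_lit 78) (nat_lit 0) (nat_lit 0) (XT.lf (nat_lit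 0) (nat_lit 3466276235) (nat_lit 0) (nat_lit 3466276235) (nat_lit 684) (nat_lit 1298796095) (nat_lit 107) (nat_lit 5) (nat_lit 107) (nat_lit 3) (nat_lit 116) (nat_lit 3) (nat_lit 318) (nat_lit 318) (nat_lit 264)) (XT.nd (nat_lit 78) (nat_lit 0) (nat_lit 76) (XT.lf (nat_lit 76) (nat_lit 2826001974) (nat_lit 0) (nat_lit 12084367734) (nat_lit 760) (nat_lit 2185814251) (nat_lit 108) (nat_lit 5) (nat_lit 107) (nat_lit 5) (nat_lit 117) (nat_lit 5) (nat_lit 319) (nat_lit 318) (nat_lit 263)) (XT.lf (nat_lit 0) (nat_lit 16284905337) (nat_lit 684) (nat_lit 1400494025) (nat_lit 760) (nat_lit 82716713) (nat_lit 108) (nat_lit 5) (nat_lit 117) (nat_lit 5) (nat_lit 118) (nat_lit 5) (nat_lit 320) (nat_lit 318) (nat_lit 262))))) (XT.nd (nat_lit 234) (nat_lit 608) (nat_lit 0) (XT.nd (nat_lit 78) (nat_lit 684) (nat_lit 0) (XT.lf (nat_lit 76) (nat_lit 12679243809) (nat_lit 0) (nat_lit 5458122792) (nat_lit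 760) (nat_lit 338083231) (nat_lit 109) (nat_lit 5) (nat_lit 108) (nat_lit 5) (nat_lit 118) (nat_lit 5) (nat_lit 321) (nat_lit 318) (nat_lit 261)) (XT.nd (nat_lit 78) (nat_lit 0) (nat_lit 76) (XT.lf (nat_lit 0) (nat_lit 1126288500) (nat_lit 760) (nat_lit 10408713876) (nat_lit 836) (nat_lit 7690886425) (nat_lit 99) (nat_lit 5) (nat_lit 109) (nat_lit 5) (nat_lit 110) (nat_lit 5) (nat_lit 322) (nat_lit 318) (nat_lit 260)) (XT.lf (nat_lit 0) (nat_lit 2965112707) (nat_lit 760) (nat_lit 15246059945) (nat_lit 836) (nat_lit 1811492657) (nat_lit 100) (nat_lit 5) (nat_lit 110) (nat_lit 5) (nat_lit 111) (nat_lit 5) (nat_lit 323) (nat_lit 318) (nat_lit 259)))) (XT.nd (nat_lit 78) (nat_lit 684) (nat_lit 0) (XT.lf (nat_lit 76) (nat_lit 468810854) (nat_lit 0) (nat_lit 4840383432) (nat_lit 836) (nat_lit 15556116260) (nat_lit 101) (nat_lit 5) (nat_lit 100) (nat_lit 5) (nat_lit 111) (nat_lit 5) (nat_lit 324)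 (nat_lit 318) (nat_lit 258)) (XT.nd (nat_lit 78) (nat_lit 760) (nat_lit 0) (XT.lf (nat_lit 0) (nat_lit 8234453874) (nat_lit 760) (nat_lit 3954474136) (nat_lit 76) (nat_lit 9566788465) (nat_lit 101) (nat_lit 5) (nat_lit 111) (nat_lit 5) (nat_lit 102) (nat_lit 5) (nat_lit 325) (nat_lit 318) (nat_lit 257)) (XT.lf (nat_lit 0) (nat_lit 11710815162) (nat_lit 836) (nat_lit 8589641626) (nat_lit 76) (nat_lit 2401073348) (nat_lit 91) (nat_lit 5) (nat_lit 102) (nat_lit 5) (nat_lit 92) (nat_lit 5) (nat_lit 326) (nat_lit 318) (nat_lit 256)))))) (XT.nd (nat_lit 390) (nat_lit 1368) (nat_lit 0) (XT.nd (nat_lit 156) (nat_lit 760) (nat_lit 0) (XT.nd (nat_lit 78) (nat_lit 304) (nat_lit 0) (XT.lf (nat_lit 0) (nat_lit 10141166165) (nat_lit 380) (nat_lit 5735268810) (nat_lit 456) (nat_lit 7826043566) (nat_lit 86) (nat_lit 5) (nat_lit 91) (nat_lit 5) (nat_lit 92) (nat_lit 5) (nat_lit 327) (nat_lit 318) (nat_lit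 255)) (XT.lf (nat_lit 0) (nat_lit 5909681534) (nat_lit 304) (nat_lit 14844657609) (nat_lit 380) (nat_lit 4010237060) (nat_lit 82) (nat_lit 5) (nat_lit 86) (nat_lit 5) (nat_lit 87) (nat_lit 5) (nat_lit 328) (nat_lit 318) (nat_lit 254))) (XT.nd (nat_lit 78) (nat_lit 304) (nat_lit 0) (XT.lf (nat_lit 0) (nat_lit 461783768) (nat_lit 456) (nat_lit 24465342985) (nat_lit 76) (nat_lit 966725700) (nat_lit 76) (nat_lit 5) (nat_lit 82) (nat_lit 5) (nat_lit 77) (nat_lit 5) (nat_lit 329) (nat_lit 318) (nat_lit 253)) (XT.nd (nat_lit 78) (nat_lit 304) (nat_lit 0) (XT.lf (nat_lit 0) (nat_lit 5717779077) (nat_lit 456) (nat_lit 3434330656) (nat_lit 76) (nat_lit 17929758904) (nat_lit 76) (nat_lit 5) (nat_lit 82) (nat_lit 5) (nat_lit 77) (nat_lit 5) (nat_lit 330) (nat_lit 318) (nat_lit 252)) (XT.lf (nat_lit 0) (nat_lit 11815173386) (nat_lit 380) (nat_lit 8582756984) (nat_lit 76) (nat_lit 7945968770) (nat_lit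 72) (nat_lit 5) (nat_lit 77) (nat_lit 5) (nat_lit 73) (nat_lit 5) (nat_lit 331) (nat_lit 318) (nat_lit 251))))) (XT.nd (nat_lit 234) (nat_lit 456) (nat_lit 0) (XT.nd (nat_lit 78) (nat_lit 608) (nat_lit 0) (XT.lf (nat_lit 0) (nat_lit 15553311948) (nat_lit 304) (nat_lit 3288116880) (nat_lit 380) (nat_lit 10843427363) (nat_lit 68) (nat_lit 5) (nat_lit 72) (nat_lit 5) (nat_lit 73) (nat_lit 5) (nat_lit 332) (nat_lit 318) (nat_lit 250)) (XT.nd (nat_lit 78) (nat_lit 380) (nat_lit 0) (XT.lf (nat_lit 0) (nat_lit 10890007182) (nat_lit 228) (nat_lit 16082934001) (nat_lit 304) (nat_lit 4133007086) (nat_lit 65) (nat_lit 5) (nat_lit 68) (nat_lit 5) (nat_lit 69) (nat_lit 5) (nat_lit 333) (nat_lit 318) (nat_lit 249)) (XT.lf (nat_lit 0) (nat_lit 3434456734) (nat_lit 380) (nat_lit 26808643742) (nat_lit 76) (nat_lit 2374216225) (nat_lit 60) (nat_lit 5) (nat_lit 65) (nat_lit 5) (nat_lit 61) (nat_lit 5) (nat_lit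 334) (nat_lit 318) (nat_lit 248)))) (XT.nd (nat_lit 78) (nat_lit 228) (nat_lit 0) (XT.lf (nat_lit 0) (nat_lit 40283254) (nat_lit 228) (nat_lit 12039316755) (nat_lit 304) (nat_lit 22135766045) (nat_lit 57) (nat_lit 5) (nat_lit 60) (nat_lit 5) (nat_lit 61) (nat_lit 5) (nat_lit 335) (nat_lit 318) (nat_lit 247)) (XT.nd (nat_lit 78) (nat_lit 228) (nat_lit 0) (XT.lf (nat_lit 0) (nat_lit 21996102961) (nat_lit 304) (nat_lit 6069401258) (nat_lit 76) (nat_lit 7846780039) (nat_lit 57) (nat_lit 5) (nat_lit 61) (nat_lit 5) (nat_lit 58) (nat_lit 5) (nat_lit 336) (nat_lit 318) (nat_lit 246)) (XT.lf (nat_lit 0) (nat_lit 24859513065) (nat_lit 228) (nat_lit 8424694439) (nat_lit 304) (nat_lit 4431845744) (nat_lit 54) (nat_lit 5) (nat_lit 57) (nat_lit 5) (nat_lit 58) (nat_lit 5) (nat_lit 337) (nat_lit 318) (nat_lit 245))))))) (XT.nd (nat_lit 858) (nat_lit 988) (nat_lit 0) (XT.nd (nat_lit 390) (nat_lit 836)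 (nat_lit 0) (XT.nd (nat_lit 156) (nat_lit 456) (nat_lit 0) (XT.nd (nat_lit 78) (nat_lit 228) (nat_lit 0) (XT.lf (nat_lit 0) (nat_lit 6229871703) (nat_lit 228) (nat_lit 20518200251) (nat_lit 76) (nat_lit 12881293825) (nat_lit 51) (nat_lit 5) (nat_lit 54) (nat_lit 5) (nat_lit 52) (nat_lit 5) (nat_lit 338) (nat_lit 318) (nat_lit 244)) (XT.lf (nat_lit 0) (nat_lit 12575612783) (nat_lit 228) (nat_lit 5569941009) (nat_lit 304) (nat_lit 23518751293) (nat_lit 48) (nat_lit 5) (nat_lit 51) (nat_lit 5) (nat_lit 52) (nat_lit 5) (nat_lit 339) (nat_lit 318) (nat_lit 243))) (XT.nd (nat_lit 78) (nat_lit 304) (nat_lit 0) (XT.lf (nat_lit 0) (nat_lit 5074881585) (nat_lit 152) (nat_lit 26640988668) (nat_lit 228) (nat_lit 12111108909) (nat_lit 46) (nat_lit 5) (nat_lit 48) (nat_lit 5) (nat_lit 49) (nat_lit 5) (nat_lit 340) (nat_lit 318) (nat_lit 242)) (XT.nd (nat_lit 78) (nat_lit 228) (nat_lit 0) (XT.lf (nat_lit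 0) (nat_lit 800514879) (nat_lit 228) (nat_lit 3249169665) (nat_lit 76) (nat_lit 42082923757) (nat_lit 45) (nat_lit 5) (nat_lit 48) (nat_lit 5) (nat_lit 46) (nat_lit 5) (nat_lit 341) (nat_lit 318) (nat_lit 241)) (XT.lf (nat_lit 0) (nat_lit 15209042879) (nat_lit 304) (nat_lit 12887574018) (nat_lit 76) (nat_lit 20471736344) (nat_lit 42) (nat_lit 5) (nat_lit 46) (nat_lit 5) (nat_lit 43) (nat_lit 5) (nat_lit 342) (nat_lit 318) (nat_lit 240))))) (XT.nd (nat_lit 234) (nat_lit 304) (nat_lit 0) (XT.nd (nat_lit 78) (nat_lit 380) (nat_lit 0) (XT.lf (nat_lit 0) (nat_lit 27438888956) (nat_lit 152) (nat_lit 3875944624) (nat_lit 228) (nat_lit 19856901689) (nat_lit 40) (nat_lit 5) (nat_lit 42) (nat_lit 5) (nat_lit 43) (nat_lit 5) (nat_lit 343) (nat_lit 318) (nat_lit 239)) (XT.nd (nat_lit 78) (nat_lit 228) (nat_lit 0) (XT.lf (nat_lit 0) (nat_lit 17678923347) (nat_lit 152) (nat_lit 31873020594) (nat_lit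 228) (nat_lit 4389307131) (nat_lit 38) (nat_lit 5) (nat_lit 40) (nat_lit 5) (nat_lit 41) (nat_lit 5) (nat_lit 344) (nat_lit 318) (nat_lit 238)) (XT.lf (nat_lit 0) (nat_lit 6260929761) (nat_lit 152) (nat_lit 6234967700) (nat_lit 228) (nat_lit 44398102793) (nat_lit 35) (nat_lit 5) (nat_lit 37) (nat_lit 5) (nat_lit 38) (nat_lit 5) (nat_lit 345) (nat_lit 318) (nat_lit 237)))) (XT.nd (nat_lit 78) (nat_lit 304) (nat_lit 0) (XT.lf (nat_lit 0) (nat_lit 31548621282) (nat_lit 228) (nat_lit 7003974449) (nat_lit 76) (nat_lit 21478256631) (nat_lit 35) (nat_lit 5) (nat_lit 38) (nat_lit 5) (nat_lit 36) (nat_lit 5) (nat_lit 346) (nat_lit 318) (nat_lit 236)) (XT.nd (nat_lit 78) (nat_lit 152) (nat_lit 0) (XT.lf (nat_lit 0) (nat_lit 41319630076) (nat_lit 152) (nat_lit 11548261004) (nat_lit 228) (nat_lit 10513649717) (nat_lit 33) (nat_lit 5) (nat_lit 35) (nat_lit 5) (nat_lit 36) (nat_lit 5) (nat_lit 347) (nat_lit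 318) (nat_lit 235)) (XT.lf (nat_lit 0) (nat_lit 9439673461) (nat_lit 152) (nat_lit 39761126827) (nat_lit 76) (nat_lit 17750952851) (nat_lit 31) (nat_lit 5) (nat_lit 33) (nat_lit 5) (nat_lit 32) (nat_lit 5) (nat_lit 348) (nat_lit 318) (nat_lit 234)))))) (XT.nd (nat_lit 390) (nat_lit 532) (nat_lit 0) (XT.nd (nat_lit 156) (nat_lit 304) (nat_lit 0) (XT.nd (nat_lit 78) (nat_lit 0) (nat_lit 0) (XT.lf (nat_lit 0) (nat_lit 10322308933) (nat_lit 152) (nat_lit 21042659411) (nat_lit 228) (nat_lit 39396797456) (nat_lit 29) (nat_lit 5) (nat_lit 31) (nat_lit 5) (nat_lit 32) (nat_lit 5) (nat_lit 349) (nat_lit 318) (nat_lit 233)) (XT.lf (nat_lit 0) (nat_lit 55887434948) (nat_lit 228) (nat_lit 9179605287) (nat_lit 76) (nat_lit 9767385282) (nat_lit 29) (nat_lit 5) (nat_lit 32) (nat_lit 5) (nat_lit 30) (nat_lit 4) (nat_lit 350) (nat_lit 318) (nat_lit 232))) (XT.nd (nat_lit 78) (nat_lit 152) (nat_lit 0) (XT.lf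 (nat_lit 0) (nat_lit 4143368350) (nat_lit 152) (nat_lit 31915711548) (nat_lit 76) (nat_lit 43116119445) (nat_lit 27) (nat_lit 5) (nat_lit 29) (nat_lit 5) (nat_lit 28) (nat_lit 5) (nat_lit 351) (nat_lit 318) (nat_lit 231)) (XT.nd (nat_lit 78) (nat_lit 0) (nat_lit 0) (XT.lf (nat_lit 0) (nat_lit 25158267868) (nat_lit 152) (nat_lit 3816720242) (nat_lit 228) (nat_lit 54844827342) (nat_lit 25) (nat_lit 5) (nat_lit 27) (nat_lit 5) (nat_lit 28) (nat_lit 5) (nat_lit 352) (nat_lit 318) (nat_lit 230)) (XT.lf (nat_lit 0) (nat_lit 56836162937) (nat_lit 228) (nat_lit 1374397698) (nat_lit 76) (nat_lit 30573291546) (nat_lit 25) (nat_lit 5) (nat_lit 28) (nat_lit 5) (nat_lit 26) (nat_lit 4) (nat_lit 353) (nat_lit 318) (nat_lit 229))))) (XT.nd (nat_lit 234) (nat_lit 228) (nat_lit 0) (XT.nd (nat_lit 78) (nat_lit 228) (nat_lit 0) (XT.lf (nat_lit 0) (nat_lit 62419103167) (nat_lit 76) (nat_lit 25540360594) (nat_lit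 152) (nat_lit 6133888901) (nat_lit 24) (nat_lit 5) (nat_lit 25) (nat_lit 5) (nat_lit 26) (nat_lit 4) (nat_lit 354) (nat_lit 318) (nat_lit 228)) (XT.nd (nat_lit 78) (nat_lit 0) (nat_lit 0) (XT.lf (nat_lit 0) (nat_lit 21737204656) (nat_lit 228) (nat_lit 67730518087) (nat_lit 76) (nat_lit 10308509263) (nat_lit 21) (nat_lit 5) (nat_lit 24) (nat_lit 5) (nat_lit 22) (nat_lit 4) (nat_lit 355) (nat_lit 318) (nat_lit 227)) (XT.lf (nat_lit 0) (nat_lit 52612115469) (nat_lit 228) (nat_lit 4444516589) (nat_lit 76) (nat_lit 48802632264) (nat_lit 21) (nat_lit 5) (nat_lit 24) (nat_lit 5) (nat_lit 22) (nat_lit 4) (nat_lit 356) (nat_lit 318) (nat_lit 226)))) (XT.nd (nat_lit 78) (nat_lit 152) (nat_lit 0) (XT.lf (nat_lit 0) (nat_lit 66008165329) (nat_lit 76) (nat_lit 20974529245) (nat_lit 152) (nat_lit 25394962701) (nat_lit 20) (nat_lit 5) (nat_lit 21) (nat_lit 5) (nat_lit 22) (nat_lit 4) (nat_lit 357) (nat_lit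 318) (nat_lit 225)) (XT.nd (nat_lit 78) (nat_lit 0) (nat_lit 0) (XT.lf (nat_lit 0) (nat_lit 5265847767) (nat_lit 152) (nat_lit 96169626259) (nat_lit 76) (nat_lit 17941871069) (nat_lit 18) (nat_lit 5) (nat_lit 20) (nat_lit 5) (nat_lit 19) (nat_lit 4) (nat_lit 358) (nat_lit 318) (nat_lit 224)) (XT.lf (nat_lit 0) (nat_lit 38671757717) (nat_lit 152) (nat_lit 27693230738) (nat_lit 76) (nat_lit 60492107908) (nat_lit 18) (nat_lit 5) (nat_lit 20) (nat_lit 5) (nat_lit 19) (nat_lit 4) (nat_lit 359) (nat_lit 318) (nat_lit 223))))))))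
noncomputable def xc81 : XT := (XT.nd (nat_lit 1716) (nat_lit 76) (nat_lit 0) (XT.nd (nat_lit 858) (nat_lit 380) (nat_lit 0) (XT.nd (nat_lit 390) (nat_lit 304) (nat_lit 0) (XT.nd (nat_lit 156) (nat_lit 228) (nat_lit 0) (XT.nd (nat_lit 78) (nat_lit 0) (nat_lit 0) (XT.lf (nat_lit 0) (nat_lit 47782810458) (nat_lit 76) (nat_lit 27709111835) (nat_lit 152) (nat_lit 59406217731) (nat_lit 17) (nat_lit 5) (nat_lit 18) (nat_lit 5) (nat_lit 19) (nat_lit 4) (nat_lit 360) (nat_lit 318) (nat_lit 222)) (XT.lf (nat_lit 0) (nat_lit 115963100407) (nat_lit 152) (nat_lit 13507220588) (nat_lit 0) (nat_lit 14076877439) (nat_lit 17) (nat_lit 5) (nat_lit 19) (nat_lit 4) (nat_lit 17) (nat_lit 4) (nat_lit 361) (nat_lit 318) (nat_lit 221))) (XT.nd (nat_lit 78) (nat_lit 76) (nat_lit 0) (XT.lf (nat_lit 0) (nat_lit 8111716147) (nat_lit 152) (nat_lit 85261529268) (nat_lit 76) (nat_lit 59432389101) (nat_lit 15) (nat_lit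 5) (nat_lit 17) (nat_lit 5) (nat_lit 16) (nat_lit 4) (nat_lit 362) (nat_lit 318) (nat_lit 220)) (XT.nd (nat_lit 78) (nat_lit 76) (nat_lit 0) (XT.lf (nat_lit 0) (nat_lit 45945168188) (nat_lit 152) (nat_lit 7706956662) (nat_lit 76) (nat_lit 109117592504) (nat_lit 15) (nat_lit 5) (nat_lit 17) (nat_lit 5) (nat_lit 16) (nat_lit 4) (nat_lit 363) (nat_lit 318) (nat_lit 219)) (XT.lf (nat_lit 0) (nat_lit 78560026812) (nat_lit 76) (nat_lit 9468405255) (nat_lit 152) (nat_lit 85441338932) (nat_lit 14) (nat_lit 5) (nat_lit 15) (nat_lit 5) (nat_lit 16) (nat_lit 4) (nat_lit 364) (nat_lit 318) (nat_lit 218))))) (XT.nd (nat_lit 234) (nat_lit 152) (nat_lit 0) (XT.nd (nat_lit 78) (nat_lit 152) (nat_lit 0) (XT.lf (nat_lit 0) (nat_lit 134208704376) (nat_lit 152) (nat_lit 13621133979) (nat_lit 0) (nat_lit 37159474111) (nat_lit 14) (nat_lit 5) (nat_lit 16) (nat_lit 4) (nat_lit 14) (nat_lit 4) (nat_lit 365) (nat_lit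 318) (nat_lit 217)) (XT.nd (nat_lit 78) (nat_lit 76) (nat_lit 0) (XT.lf (nat_lit 0) (nat_lit 76452106458) (nat_lit 76) (nat_lit 108981528630) (nat_lit 76) (nat_lit 11929271160) (nat_lit 13) (nat_lit 4) (nat_lit 14) (nat_lit 5) (nat_lit 14) (nat_lit 4) (nat_lit 366) (nat_lit 318) (nat_lit 216)) (XT.lf (nat_lit 0) (nat_lit 29307222690) (nat_lit 152) (nat_lit 36975253921) (nat_lit 76) (nat_lit 144408558740) (nat_lit 12) (nat_lit 5) (nat_lit 14) (nat_lit 5) (nat_lit 13) (nat_lit 4) (nat_lit 367) (nat_lit 318) (nat_lit 215)))) (XT.nd (nat_lit 78) (nat_lit 76) (nat_lit 0) (XT.lf (nat_lit 0) (nat_lit 55236723520) (nat_lit 76) (nat_lit 19053217600) (nat_lit 152) (nat_lit 150742433816) (nat_lit 11) (nat_lit 5) (nat_lit 12) (nat_lit 5) (nat_lit 13) (nat_lit 4) (nat_lit 368) (nat_lit 318) (nat_lit 214)) (XT.nd (nat_lit 78) (nat_lit 76) (nat_lit 0) (XT.lf (nat_lit 0) (nat_lit 124022168290) (nat_lit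 152) (nat_lit 84857292479) (nat_lit 0) (nat_lit 31584016984) (nat_lit 11) (nat_lit 5) (nat_lit 13) (nat_lit 4) (nat_lit 11) (nat_lit 4) (nat_lit 369) (nat_lit 318) (nat_lit 213)) (XT.lf (nat_lit 0) (nat_lit 6766763707) (nat_lit 76) (nat_lit 171390676390) (nat_lit 76) (nat_lit 78950405954) (nat_lit 10) (nat_lit 4) (nat_lit 11) (nat_lit 5) (nat_lit 11) (nat_lit 4) (nat_lit 370) (nat_lit 318) (nat_lit 212)))))) (XT.nd (nat_lit 390) (nat_lit 228) (nat_lit 0) (XT.nd (nat_lit 156) (nat_lit 76) (nat_lit 0) (XT.nd (nat_lit 78) (nat_lit 76) (nat_lit 0) (XT.lf (nat_lit 0) (nat_lit 108746496122) (nat_lit 76) (nat_lit 129352854974) (nat_lit 76) (nat_lit 36910622381) (nat_lit 10) (nat_lit 4) (nat_lit 11) (nat_lit 5) (nat_lit 11) (nat_lit 4) (nat_lit 371) (nat_lit 318) (nat_lit 211)) (XT.lf (nat_lit 0) (nat_lit 8218331438) (nat_lit 152) (nat_lit 75596469955) (nat_lit 76) (nat_lit 210522950932) (nat_lit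 9) (nat_lit 5) (nat_lit 11) (nat_lit 5) (nat_lit 10) (nat_lit 4) (nat_lit 372) (nat_lit 318) (nat_lit 210))) (XT.nd (nat_lit 78) (nat_lit 0) (nat_lit 0) (XT.lf (nat_lit 0) (nat_lit 22415034247) (nat_lit 76) (nat_lit 33614607648) (nat_lit 152) (nat_lit 259133596980) (nat_lit 8) (nat_lit 5) (nat_lit 9) (nat_lit 5) (nat_lit 10) (nat_lit 4) (nat_lit 373) (nat_lit 318) (nat_lit 209)) (XT.nd (nat_lit 78) (nat_lit 0) (nat_lit 0) (XT.lf (nat_lit 0) (nat_lit 109323959113) (nat_lit 152) (nat_lit 206968978826) (nat_lit 0) (nat_lit 21278921720) (nat_lit 8) (nat_lit 5) (nat_lit 10) (nat_lit 4) (nat_lit 8) (nat_lit 4) (nat_lit 374) (nat_lit 318) (nat_lit 208)) (XT.lf (nat_lit 0) (nat_lit 167446795658) (nat_lit 152) (nat_lit 114897741425) (nat_lit 0) (nat_lit 79400384700) (nat_lit 8) (nat_lit 5) (nat_lit 10) (nat_lit 4) (nat_lit 8) (nat_lit 4) (nat_lit 375) (nat_lit 318) (nat_lit 207))))) (XT.nd (nat_lit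 234) (nat_lit 152) (nat_lit 0) (XT.nd (nat_lit 78) (nat_lit 76) (nat_lit 0) (XT.lf (nat_lit 0) (nat_lit 230217764925) (nat_lit 152) (nat_lit 15464066862) (nat_lit 0) (nat_lit 142170082147) (nat_lit 8) (nat_lit 5) (nat_lit 10) (nat_lit 4) (nat_lit 8) (nat_lit 4) (nat_lit 376) (nat_lit 318) (nat_lit 206)) (XT.nd (nat_lit 78) (nat_lit 0) (nat_lit 0) (XT.lf (nat_lit 0) (nat_lit 94960614144) (nat_lit 76) (nat_lit 204530830198) (nat_lit 76) (nat_lit 116481969808) (nat_lit 7) (nat_lit 4) (nat_lit 8) (nat_lit 5) (nat_lit 8) (nat_lit 4) (nat_lit 377) (nat_lit 318) (nat_lit 205)) (XT.lf (nat_lit 0) (nat_lit 214768597511) (nat_lit 76) (nat_lit 159806297059) (nat_lit 76) (nat_lit 71756346288) (nat_lit 7) (nat_lit 4) (nat_lit 8) (nat_lit 5) (nat_lit 8) (nat_lit 4) (nat_lit 378) (nat_lit 318) (nat_lit 204)))) (XT.nd (nat_lit 78) (nat_lit 152) (nat_lit 0) (XT.lf (nat_lit 0) (nat_lit 344158544587) (nat_lit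 76) (nat_lit 111505089554) (nat_lit 76) (nat_lit 23454129172) (nat_lit 7) (nat_lit 4) (nat_lit 8) (nat_lit 5) (nat_lit 8) (nat_lit 4) (nat_lit 379) (nat_lit 318) (nat_lit 203)) (XT.nd (nat_lit 78) (nat_lit 76) (nat_lit 0) (XT.lf (nat_lit 0) (nat_lit 27791988256) (nat_lit 152) (nat_lit 31078319282) (nat_lit 76) (nat_lit 455634551586) (nat_lit 6) (nat_lit 5) (nat_lit 8) (nat_lit 5) (nat_lit 7) (nat_lit 4) (nat_lit 380) (nat_lit 318) (nat_lit 202)) (XT.lf (nat_lit 0) (nat_lit 83384049446) (nat_lit 76) (nat_lit 243662862) (nat_lit 152) (nat_lit 469010404038) (nat_lit 5) (nat_lit 5) (nat_lit 6) (nat_lit 5) (nat_lit 7) (nat_lit 4) (nat_lit 381) (nat_lit 318) (nat_lit 201))))))) (XT.nd (nat_lit 42276) (nat_lit 0) (nat_lit 4864) (XT.nd (nat_lit 390) (nat_lit 0) (nat_lit 0) (XT.nd (nat_lit 156) (nat_lit 76) (nat_lit 0) (XT.nd (nat_lit 78) (nat_lit 0) (nat_lit 0) (XT.lf (nat_lit 0) (nat_lit 145464110714)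 (nat_lit 152) (nat_lit 386677657582) (nat_lit 0) (nat_lit 61603575238) (nat_lit 5) (nat_lit 5) (nat_lit 7) (nat_lit 4) (nat_lit 5) (nat_lit 4) (nat_lit 382) (nat_lit 318) (nat_lit 200)) (XT.lf (nat_lit 0) (nat_lit 212250445584) (nat_lit 152) (nat_lit 297501348925) (nat_lit 0) (nat_lit 128389203351) (nat_lit 5) (nat_lit 5) (nat_lit 7) (nat_lit 4) (nat_lit 5) (nat_lit 4) (nat_lit 383) (nat_lit 318) (nat_lit 199))) (XT.nd (nat_lit 78) (nat_lit 76) (nat_lit 0) (XT.lf (nat_lit 0) (nat_lit 284378683532) (nat_lit 152) (nat_lit 201192884472) (nat_lit 0) (nat_lit 200516786894) (nat_lit 5) (nat_lit 5) (nat_lit 7) (nat_lit 4) (nat_lit 5) (nat_lit 4) (nat_lit 384) (nat_lit 318) (nat_lit 198)) (XT.nd (nat_lit 78) (nat_lit 76) (nat_lit 0) (XT.lf (nat_lit 0) (nat_lit 362276251152) (nat_lit 152) (nat_lit 97181547395) (nat_lit 0) (nat_lit 278413748584) (nat_lit 5) (nat_lit 5) (nat_lit 7) (nat_lit 4) (nat_lit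 5) (nat_lit 4) (nat_lit 385) (nat_lit 318) (nat_lit 197)) (XT.lf (nat_lit 0) (nat_lit 15649920991) (nat_lit 76) (nat_lit 430999181796) (nat_lit 76) (nat_lit 347136118181) (nat_lit 4) (nat_lit 4) (nat_lit 5) (nat_lit 5) (nat_lit 5) (nat_lit 4) (nat_lit 386) (nat_lit 318) (nat_lit 196))))) (XT.nd (nat_lit 41652) (nat_lit 0) (nat_lit 7144) (XT.nd (nat_lit 78) (nat_lit 0) (nat_lit 0) (XT.lf (nat_lit 0) (nat_lit 140976630307) (nat_lit 76) (nat_lit 398487170371) (nat_lit 76) (nat_lit 314623587268) (nat_lit 4) (nat_lit 4) (nat_lit 5) (nat_lit 5) (nat_lit 5) (nat_lit 4) (nat_lit 387) (nat_lit 318) (nat_lit 195)) (XT.nd (nat_lit 41496) (nat_lit 0) (nat_lit 7828) (XT.lf (nat_lit 0) (nat_lit 276327996507) (nat_lit 76) (nat_lit 363374917030) (nat_lit 76) (nat_lit 279510852921) (nat_lit 4) (nat_lit 4) (nat_lit 5) (nat_lit 5) (nat_lit 5) (nat_lit 4) (nat_lit 388) (nat_lit 318) (nat_lit 194)) (XT.lf (nat_lit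 0) (nat_lit 3922379521) (nat_lit 0) (nat_lit 3922379521) (nat_lit 684) (nat_lit 1026740998) (nat_lit 107) (nat_lit 5) (nat_lit 107) (nat_lit 3) (nat_lit 116) (nat_lit 3) (nat_lit 319) (nat_lit 319) (nat_lit 262)))) (XT.nd (nat_lit 78) (nat_lit 684) (nat_lit 0) (XT.lf (nat_lit 76) (nat_lit 3434601406) (nat_lit 0) (nat_lit 13331627089) (nat_lit 760) (nat_lit 1663616698) (nat_lit 108) (nat_lit 5) (nat_lit 107) (nat_lit 5) (nat_lit 117) (nat_lit 5) (nat_lit 320) (nat_lit 319) (nat_lit 261)) (XT.nd (nat_lit 78) (nat_lit 684) (nat_lit 0) (XT.lf (nat_lit 76) (nat_lit 18032729244) (nat_lit 0) (nat_lit 167443584) (nat_lit 760) (nat_lit 957952094) (nat_lit 108) (nat_lit 5) (nat_lit 107) (nat_lit 5) (nat_lit 117) (nat_lit 5) (nat_lit 321) (nat_lit 319) (nat_lit 260)) (XT.lf (nat_lit 0) (nat_lit 227147700) (nat_lit 760) (nat_lit 5861470677) (nat_lit 836) (nat_lit 13835402736) (nat_lit 98) (nat_lit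 5) (nat_lit 108) (nat_lit 5) (nat_lit 109) (nat_lit 5) (nat_lit 322) (nat_lit 319) (nat_lit 259)))))) (XT.nd (nat_lit 390) (nat_lit 1748) (nat_lit 0) (XT.nd (nat_lit 156) (nat_lit 608) (nat_lit 0) (XT.nd (nat_lit 78) (nat_lit 0) (nat_lit 76) (XT.lf (nat_lit 0) (nat_lit 1757221531) (nat_lit 760) (nat_lit 10835288553) (nat_lit 836) (nat_lit 8143741490) (nat_lit 99) (nat_lit 5) (nat_lit 109) (nat_lit 5) (nat_lit 110) (nat_lit 5) (nat_lit 323) (nat_lit 319) (nat_lit 258)) (XT.lf (nat_lit 0) (nat_lit 3707307403) (nat_lit 760) (nat_lit 16049464829) (nat_lit 836) (nat_lit 1841839578) (nat_lit 100) (nat_lit 5) (nat_lit 110) (nat_lit 5) (nat_lit 111) (nat_lit 5) (nat_lit 324) (nat_lit 319) (nat_lit 257))) (XT.nd (nat_lit 78) (nat_lit 684) (nat_lit 0) (XT.lf (nat_lit 76) (nat_lit 904504617) (nat_lit 0) (nat_lit 5303221390) (nat_lit 836) (nat_lit 16302547871) (nat_lit 101) (nat_lit 5) (nat_lit 100)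 (nat_lit 5) (nat_lit 111) (nat_lit 5) (nat_lit 325) (nat_lit 319) (nat_lit 256)) (XT.nd (nat_lit 78) (nat_lit 760) (nat_lit 0) (XT.lf (nat_lit 0) (nat_lit 9330817346) (nat_lit 760) (nat_lit 3878581282) (nat_lit 76) (nat_lit 10264365452) (nat_lit 101) (nat_lit 5) (nat_lit 111) (nat_lit 5) (nat_lit 102) (nat_lit 5) (nat_lit 326) (nat_lit 319) (nat_lit 255)) (XT.lf (nat_lit 0) (nat_lit 13058170526) (nat_lit 836) (nat_lit 8880006626) (nat_lit 76) (nat_lit 2558460744) (nat_lit 91) (nat_lit 5) (nat_lit 102) (nat_lit 5) (nat_lit 92) (nat_lit 5) (nat_lit 327) (nat_lit 319) (nat_lit 254))))) (XT.nd (nat_lit 234) (nat_lit 608) (nat_lit 0) (XT.nd (nat_lit 78) (nat_lit 760) (nat_lit 0) (XT.lf (nat_lit 0) (nat_lit 11332021069) (nat_lit 380) (nat_lit 6200538198) (nat_lit 456) (nat_lit 8046363246) (nat_lit 86) (nat_lit 5) (nat_lit 91) (nat_lit 5) (nat_lit 92) (nat_lit 5) (nat_lit 328) (nat_lit 319) (nat_lit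 253)) (XT.nd (nat_lit 78) (nat_lit 456) (nat_lit 0) (XT.lf (nat_lit 0) (nat_lit 6764514491) (nat_lit 304) (nat_lit 16013459772) (nat_lit 380) (nat_lit 3949183418) (nat_lit 82) (nat_lit 5) (nat_lit 86) (nat_lit 5) (nat_lit 87) (nat_lit 5) (nat_lit 329) (nat_lit 319) (nat_lit 252)) (XT.lf (nat_lit 0) (nat_lit 847348022) (nat_lit 456) (nat_lit 26027721587) (nat_lit 76) (nat_lit 1072489399) (nat_lit 76) (nat_lit 5) (nat_lit 82) (nat_lit 5) (nat_lit 77) (nat_lit 5) (nat_lit 330) (nat_lit 319) (nat_lit 251)))) (XT.nd (nat_lit 78) (nat_lit 608) (nat_lit 0) (XT.lf (nat_lit 0) (nat_lit 6497999137) (nat_lit 456) (nat_lit 3343476334) (nat_lit 76) (nat_lit 19390459656) (nat_lit 76) (nat_lit 5) (nat_lit 82) (nat_lit 5) (nat_lit 77) (nat_lit 5) (nat_lit 331) (nat_lit 319) (nat_lit 250)) (XT.nd (nat_lit 78) (nat_lit 304) (nat_lit 0) (XT.lf (nat_lit 0) (nat_lit 13065442317) (nat_lit 380) (nat_lit 8904838577)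 (nat_lit 76) (nat_lit 8625559726) (nat_lit 72) (nat_lit 5) (nat_lit 77) (nat_lit 5) (nat_lit 73) (nat_lit 5) (nat_lit 332) (nat_lit 319) (nat_lit 249)) (XT.lf (nat_lit 0) (nat_lit 17146273451) (nat_lit 304) (nat_lit 3490372203) (nat_lit 380) (nat_lit 11408309742) (nat_lit 68) (nat_lit 5) (nat_lit 72) (nat_lit 5) (nat_lit 73) (nat_lit 5) (nat_lit 333) (nat_lit 319) (nat_lit 248))))))))
noncomputable def xc82 : XT := (XT.nd (nat_lit 1716) (nat_lit 1216) (nat_lit 0) (XT.nd (nat_lit 858) (nat_lit 1216) (nat_lit 0) (XT.nd (nat_lit 390) (nat_lit 1064) (nat_lit 0) (XT.nd (nat_lit 156) (nat_lit 456) (nat_lit 0) (XT.nd (nat_lit 78) (nat_lit 380) (nat_lit 0) (XT.lf (nat_lit 0) (nat_lit 12107893373) (nat_lit 228) (nat_lit 17295751101) (nat_lit 304) (nat_lit 4176863880) (nat_lit 65) (nat_lit 5) (nat_lit 68) (nat_lit 5) (nat_lit 69) (nat_lit 5) (nat_lit 334) (nat_lit 319) (nat_lit 247)) (XT.lf (nat_lit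 0) (nat_lit 3972795587) (nat_lit 380) (nat_lit 28600552148) (nat_lit 76) (nat_lit 2639934997) (nat_lit 60) (nat_lit 5) (nat_lit 65) (nat_lit 5) (nat_lit 61) (nat_lit 5) (nat_lit 335) (nat_lit 319) (nat_lit 246))) (XT.nd (nat_lit 78) (nat_lit 228) (nat_lit 0) (XT.lf (nat_lit 0) (nat_lit 380957484) (nat_lit 228) (nat_lit 12914336789) (nat_lit 304) (nat_lit 23644612355) (nat_lit 57) (nat_lit 5) (nat_lit 60) (nat_lit 5) (nat_lit 61) (nat_lit 5) (nat_lit 336) (nat_lit 319) (nat_lit 245)) (XT.nd (nat_lit 78) (nat_lit 228) (nat_lit 0) (XT.lf (nat_lit 0) (nat_lit 23987922814) (nat_lit 304) (nat_lit 6232023361) (nat_lit 76) (nat_lit 8553508319) (nat_lit 57) (nat_lit 5) (nat_lit 61) (nat_lit 5) (nat_lit 58) (nat_lit 5) (nat_lit 337) (nat_lit 319) (nat_lit 244)) (XT.lf (nat_lit 0) (nat_lit 27157169964) (nat_lit 228) (nat_lit 9009533552) (nat_lit 304) (nat_lit 4555455351) (nat_lit 54) (nat_lit 5) (nat_lit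 57) (nat_lit 5) (nat_lit 58) (nat_lit 5) (nat_lit 338) (nat_lit 319) (nat_lit 243))))) (XT.nd (nat_lit 234) (nat_lit 456) (nat_lit 0) (XT.nd (nat_lit 78) (nat_lit 380) (nat_lit 0) (XT.lf (nat_lit 0) (nat_lit 6941396055) (nat_lit 228) (nat_lit 21847607681) (nat_lit 76) (nat_lit 13999886435) (nat_lit 51) (nat_lit 5) (nat_lit 54) (nat_lit 5) (nat_lit 52) (nat_lit 5) (nat_lit 339) (nat_lit 319) (nat_lit 242)) (XT.nd (nat_lit 78) (nat_lit 152) (nat_lit 0) (XT.lf (nat_lit 0) (nat_lit 13880149145) (nat_lit 228) (nat_lit 5919056041) (nat_lit 304) (nat_lit 25187988266) (nat_lit 48) (nat_lit 5) (nat_lit 51) (nat_lit 5) (nat_lit 52) (nat_lit 5) (nat_lit 340) (nat_lit 319) (nat_lit 241)) (XT.lf (nat_lit 0) (nat_lit 5774757015) (nat_lit 152) (nat_lit 28671409575) (nat_lit 228) (nat_lit 12877175417) (nat_lit 46) (nat_lit 5) (nat_lit 48) (nat_lit 5) (nat_lit 49) (nat_lit 5) (nat_lit 341) (nat_lit 319)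 (nat_lit 240)))) (XT.nd (nat_lit 78) (nat_lit 380) (nat_lit 0) (XT.lf (nat_lit 0) (nat_lit 1046343687) (nat_lit 228) (nat_lit 3230849749) (nat_lit 76) (nat_lit 45536807030) (nat_lit 45) (nat_lit 5) (nat_lit 48) (nat_lit 5) (nat_lit 46) (nat_lit 5) (nat_lit 342) (nat_lit 319) (nat_lit 239)) (XT.nd (nat_lit 78) (nat_lit 152) (nat_lit 0) (XT.lf (nat_lit 0) (nat_lit 16599706359) (nat_lit 304) (nat_lit 13645140098) (nat_lit 76) (nat_lit 22200160338) (nat_lit 42) (nat_lit 5) (nat_lit 46) (nat_lit 5) (nat_lit 43) (nat_lit 5) (nat_lit 343) (nat_lit 319) (nat_lit 238)) (XT.lf (nat_lit 0) (nat_lit 29895556552) (nat_lit 152) (nat_lit 4089602946) (nat_lit 228) (nat_lit 21271948648) (nat_lit 40) (nat_lit 5) (nat_lit 42) (nat_lit 5) (nat_lit 43) (nat_lit 5) (nat_lit 344) (nat_lit 319) (nat_lit 237)))))) (XT.nd (nat_lit 390) (nat_lit 532) (nat_lit 0) (XT.nd (nat_lit 156) (nat_lit 304) (nat_lit 0) (XT.nd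 (nat_lit 78) (nat_lit 228) (nat_lit 0) (XT.lf (nat_lit 0) (nat_lit 19349989217) (nat_lit 152) (nat_lit 34324419390) (nat_lit 228) (nat_lit 4574126183) (nat_lit 38) (nat_lit 5) (nat_lit 40) (nat_lit 5) (nat_lit 41) (nat_lit 5) (nat_lit 345) (nat_lit 319) (nat_lit 236)) (XT.lf (nat_lit 0) (nat_lit 7012582048) (nat_lit 152) (nat_lit 6635978540) (nat_lit 228) (nat_lit 47789221133) (nat_lit 35) (nat_lit 5) (nat_lit 37) (nat_lit 5) (nat_lit 38) (nat_lit 5) (nat_lit 346) (nat_lit 319) (nat_lit 235))) (XT.nd (nat_lit 78) (nat_lit 304) (nat_lit 0) (XT.lf (nat_lit 0) (nat_lit 34215583256) (nat_lit 228) (nat_lit 7326338944) (nat_lit 76) (nat_lit 23284162341) (nat_lit 35) (nat_lit 5) (nat_lit 38) (nat_lit 5) (nat_lit 36) (nat_lit 5) (nat_lit 347) (nat_lit 319) (nat_lit 234)) (XT.nd (nat_lit 78) (nat_lit 152) (nat_lit 0) (XT.lf (nat_lit 0) (nat_lit 44852812775) (nat_lit 152) (nat_lit 12380537583) (nat_lit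 228) (nat_lit 11211836011) (nat_lit 33) (nat_lit 5) (nat_lit 35) (nat_lit 5) (nat_lit 36) (nat_lit 5) (nat_lit 348) (nat_lit 319) (nat_lit 233)) (XT.lf (nat_lit 0) (nat_lit 10327815665) (nat_lit 152) (nat_lit 42714621574) (nat_lit 76) (nat_lit 19258740457) (nat_lit 31) (nat_lit 5) (nat_lit 33) (nat_lit 5) (nat_lit 32) (nat_lit 5) (nat_lit 349) (nat_lit 319) (nat_lit 232))))) (XT.nd (nat_lit 234) (nat_lit 228) (nat_lit 0) (XT.nd (nat_lit 78) (nat_lit 152) (nat_lit 0) (XT.lf (nat_lit 0) (nat_lit 11365606720) (nat_lit 152) (nat_lit 22635073903) (nat_lit 228) (nat_lit 42415638409) (nat_lit 29) (nat_lit 5) (nat_lit 31) (nat_lit 5) (nat_lit 32) (nat_lit 5) (nat_lit 350) (nat_lit 319) (nat_lit 231)) (XT.nd (nat_lit 78) (nat_lit 152) (nat_lit 0) (XT.lf (nat_lit 0) (nat_lit 60476888585) (nat_lit 228) (nat_lit 9707973370) (nat_lit 76) (nat_lit 10630336983) (nat_lit 29) (nat_lit 5) (nat_lit 32) (nat_lit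 5) (nat_lit 30) (nat_lit 4) (nat_lit 351) (nat_lit 319) (nat_lit 230)) (XT.lf (nat_lit 0) (nat_lit 4589498630) (nat_lit 152) (nat_lit 34268078587) (nat_lit 76) (nat_lit 46645854169) (nat_lit 27) (nat_lit 5) (nat_lit 29) (nat_lit 5) (nat_lit 28) (nat_lit 5) (nat_lit 352) (nat_lit 319) (nat_lit 229)))) (XT.nd (nat_lit 78) (nat_lit 76) (nat_lit 0) (XT.lf (nat_lit 0) (nat_lit 27363088752) (nat_lit 152) (nat_lit 4039065972) (nat_lit 228) (nat_lit 59117740489) (nat_lit 25) (nat_lit 5) (nat_lit 27) (nat_lit 5) (nat_lit 28) (nat_lit 5) (nat_lit 353) (nat_lit 319) (nat_lit 228)) (XT.nd (nat_lit 78) (nat_lit 76) (nat_lit 0) (XT.lf (nat_lit 0) (nat_lit 61485336807) (nat_lit 228) (nat_lit 1302526187) (nat_lit 76) (nat_lit 33093539713) (nat_lit 25) (nat_lit 5) (nat_lit 28) (nat_lit 5) (nat_lit 26) (nat_lit 4) (nat_lit 354) (nat_lit 319) (nat_lit 227)) (XT.lf (nat_lit 0) (nat_lit 67586552928) (nat_lit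 76) (nat_lit 27507087815) (nat_lit 152) (nat_lit 6522268762) (nat_lit 24) (nat_lit 5) (nat_lit 25) (nat_lit 5) (nat_lit 26) (nat_lit 4) (nat_lit 355) (nat_lit 319) (nat_lit 226))))))) (XT.nd (nat_lit 858) (nat_lit 456) (nat_lit 0) (XT.nd (nat_lit 390) (nat_lit 304) (nat_lit 0) (XT.nd (nat_lit 156) (nat_lit 228) (nat_lit 0) (XT.nd (nat_lit 78) (nat_lit 0) (nat_lit 0) (XT.lf (nat_lit 0) (nat_lit 23571720012) (nat_lit 228) (nat_lit 72975846457) (nat_lit 76) (nat_lit 11205951542) (nat_lit 21) (nat_lit 5) (nat_lit 24) (nat_lit 5) (nat_lit 22) (nat_lit 4) (nat_lit 356) (nat_lit 319) (nat_lit 225)) (XT.lf (nat_lit 0) (nat_lit 56909546728) (nat_lit 228) (nat_lit 4639788030) (nat_lit 76) (nat_lit 52774214640) (nat_lit 21) (nat_lit 5) (nat_lit 24) (nat_lit 5) (nat_lit 22) (nat_lit 4) (nat_lit 357) (nat_lit 319) (nat_lit 224))) (XT.nd (nat_lit 78) (nat_lit 152) (nat_lit 0) (XT.lf (nat_lit 0) (nat_lit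 71442142439) (nat_lit 76) (nat_lit 22583470797) (nat_lit 152) (nat_lit 27338010941) (nat_lit 20) (nat_lit 5) (nat_lit 21) (nat_lit 5) (nat_lit 22) (nat_lit 4) (nat_lit 358) (nat_lit 319) (nat_lit 223)) (XT.nd (nat_lit 78) (nat_lit 0) (nat_lit 0) (XT.lf (nat_lit 0) (nat_lit 5769870568) (nat_lit 152) (nat_lit 103710742181) (nat_lit 76) (nat_lit 19442755286) (nat_lit 18) (nat_lit 5) (nat_lit 20) (nat_lit 5) (nat_lit 19) (nat_lit 4) (nat_lit 359) (nat_lit 319) (nat_lit 222)) (XT.lf (nat_lit 0) (nat_lit 41842123316) (nat_lit 152) (nat_lit 29767527920) (nat_lit 76) (nat_lit 65392156663) (nat_lit 18) (nat_lit 5) (nat_lit 20) (nat_lit 5) (nat_lit 19) (nat_lit 4) (nat_lit 360) (nat_lit 319) (nat_lit 221))))) (XT.nd (nat_lit 234) (nat_lit 76) (nat_lit 0) (XT.nd (nat_lit 78) (nat_lit 152) (nat_lit 0) (XT.lf (nat_lit 0) (nat_lit 51740461874) (nat_lit 76) (nat_lit 29863871401) (nat_lit 152) (nat_lit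 64081982011) (nat_lit 17) (nat_lit 5) (nat_lit 18) (nat_lit 5) (nat_lit 19) (nat_lit 4) (nat_lit 361) (nat_lit 319) (nat_lit 220)) (XT.nd (nat_lit 78) (nat_lit 152) (nat_lit 0) (XT.lf (nat_lit 0) (nat_lit 125308689843) (nat_lit 152) (nat_lit 14460265825) (nat_lit 0) (nat_lit 15258570202) (nat_lit 17) (nat_lit 5) (nat_lit 19) (nat_lit 4) (nat_lit 17) (nat_lit 4) (nat_lit 362) (nat_lit 319) (nat_lit 219)) (XT.lf (nat_lit 0) (nat_lit 8827113081) (nat_lit 152) (nat_lit 91958245303) (nat_lit 76) (nat_lit 64241385068) (nat_lit 15) (nat_lit 5) (nat_lit 17) (nat_lit 5) (nat_lit 16) (nat_lit 4) (nat_lit 363) (nat_lit 319) (nat_lit 218)))) (XT.nd (nat_lit 78) (nat_lit 76) (nat_lit 0) (XT.lf (nat_lit 0) (nat_lit 49682318348) (nat_lit 152) (nat_lit 8208507355) (nat_lit 76) (nat_lit 117897374755) (nat_lit 15) (nat_lit 5) (nat_lit 17) (nat_lit 5) (nat_lit 16) (nat_lit 4) (nat_lit 364) (nat_lit 319) (nat_lit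 217)) (XT.nd (nat_lit 78) (nat_lit 0) (nat_lit 0) (XT.lf (nat_lit 0) (nat_lit 84954836783) (nat_lit 76) (nat_lit 10174565811) (nat_lit 152) (nat_lit 92214999132) (nat_lit 14) (nat_lit 5) (nat_lit 15) (nat_lit 5) (nat_lit 16) (nat_lit 4) (nat_lit 365) (nat_lit 319) (nat_lit 216)) (XT.lf (nat_lit 0) (nat_lit 145000490618) (nat_lit 152) (nat_lit 14606975014) (nat_lit 0) (nat_lit 40178222378) (nat_lit 14) (nat_lit 5) (nat_lit 16) (nat_lit 4) (nat_lit 14) (nat_lit 4) (nat_lit 366) (nat_lit 319) (nat_lit 215)))))) (XT.nd (nat_lit 390) (nat_lit 152) (nat_lit 0) (XT.nd (nat_lit 156) (nat_lit 152) (nat_lit 0) (XT.nd (nat_lit 78) (nat_lit 76) (nat_lit 0) (XT.lf (nat_lit 0) (nat_lit 82667611477) (nat_lit 76) (nat_lit 117653274498) (nat_lit 76) (nat_lit 12828410917) (nat_lit 13) (nat_lit 4) (nat_lit 14) (nat_lit 5) (nat_lit 14) (nat_lit 4) (nat_lit 367) (nat_lit 319) (nat_lit 214)) (XT.lf (nat_lit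 0) (nat_lit 31701277477) (nat_lit 152) (nat_lit 39839647845) (nat_lit 76) (nat_lit 156002906794) (nat_lit 12) (nat_lit 5) (nat_lit 14) (nat_lit 5) (nat_lit 13) (nat_lit 4) (nat_lit 368) (nat_lit 319) (nat_lit 213))) (XT.nd (nat_lit 78) (nat_lit 76) (nat_lit 0) (XT.lf (nat_lit 0) (nat_lit 59745218903) (nat_lit 76) (nat_lit 20535127761) (nat_lit 152) (nat_lit 162752246446) (nat_lit 11) (nat_lit 5) (nat_lit 12) (nat_lit 5) (nat_lit 13) (nat_lit 4) (nat_lit 369) (nat_lit 319) (nat_lit 212)) (XT.nd (nat_lit 78) (nat_lit 76) (nat_lit 0) (XT.lf (nat_lit 0) (nat_lit 133988267136) (nat_lit 152) (nat_lit 91561368318) (nat_lit 0) (nat_lit 34148693778) (nat_lit 11) (nat_lit 5) (nat_lit 13) (nat_lit 4) (nat_lit 11) (nat_lit 4) (nat_lit 370) (nat_lit 319) (nat_lit 211)) (XT.lf (nat_lit 0) (nat_lit 7388939766) (nat_lit 76) (nat_lit 185063399619) (nat_lit 76) (nat_lit 85222009449) (nat_lit 10) (nat_lit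 4) (nat_lit 11) (nat_lit 5) (nat_lit 11) (nat_lit 4) (nat_lit 371) (nat_lit 319) (nat_lit 210))))) (XT.nd (nat_lit 234) (nat_lit 0) (nat_lit 0) (XT.nd (nat_lit 78) (nat_lit 152) (nat_lit 0) (XT.lf (nat_lit 0) (nat_lit 117521063000) (nat_lit 76) (nat_lit 139665406629) (nat_lit 76) (nat_lit 39822334226) (nat_lit 10) (nat_lit 4) (nat_lit 11) (nat_lit 5) (nat_lit 11) (nat_lit 4) (nat_lit 372) (nat_lit 319) (nat_lit 209)) (XT.nd (nat_lit 78) (nat_lit 76) (nat_lit 0) (XT.lf (nat_lit 0) (nat_lit 8912669504) (nat_lit 152) (nat_lit 81573657542) (nat_lit 76) (nat_lit 227396593971) (nat_lit 9) (nat_lit 5) (nat_lit 11) (nat_lit 5) (nat_lit 10) (nat_lit 4) (nat_lit 373) (nat_lit 319) (nat_lit 208)) (XT.lf (nat_lit 0) (nat_lit 24275701848) (nat_lit 76) (nat_lit 36271505039) (nat_lit 152) (nat_lit 279827324086) (nat_lit 8) (nat_lit 5) (nat_lit 9) (nat_lit 5) (nat_lit 10) (nat_lit 4) (nat_lit 374) (nat_lit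 319) (nat_lit 207)))) (XT.nd (nat_lit 78) (nat_lit 0) (nat_lit 0) (XT.lf (nat_lit 0) (nat_lit 118102929068) (nat_lit 152) (nat_lit 223462860068) (nat_lit 0) (nat_lit 23010159847) (nat_lit 8) (nat_lit 5) (nat_lit 10) (nat_lit 4) (nat_lit 8) (nat_lit 4) (nat_lit 375) (nat_lit 319) (nat_lit 206)) (XT.nd (nat_lit 78) (nat_lit 0) (nat_lit 0) (XT.lf (nat_lit 0) (nat_lit 180873144150) (nat_lit 152) (nat_lit 124030637531) (nat_lit 0) (nat_lit 85779197317) (nat_lit 8) (nat_lit 5) (nat_lit 10) (nat_lit 4) (nat_lit 8) (nat_lit 4) (nat_lit 376) (nat_lit 319) (nat_lit 205)) (XT.lf (nat_lit 0) (nat_lit 248663523933) (nat_lit 152) (nat_lit 16646633686) (nat_lit 0) (nat_lit 153568486720) (nat_lit 8) (nat_lit 5) (nat_lit 10) (nat_lit 4) (nat_lit 8) (nat_lit 4) (nat_lit 377) (nat_lit 319) (nat_lit 204))))))))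
noncomputable def xc83 : XT := (XT.nd (nat_lit 43212) (nat_lit 0) (nat_lit 1748) (XT.nd (nat_lit 42354) (nat_lit 0) (nat_lit 5928) (XT.nd (nat_lit 390) (nat_lit 76) (nat_lit 0) (XT.nd (nat_lit 156) (nat_lit 152) (nat_lit 0) (XT.nd (nat_lit 78) (nat_lit 0) (nat_lit 0) (XT.lf (nat_lit 0) (nat_lit 102609650754) (nat_lit 76) (nat_lit 220868162645) (nat_lit 76) (nat_lit 125772115820) (nat_lit 7) (nat_lit 4) (nat_lit 8) (nat_lit 5) (nat_lit 8) (nat_lit 4) (nat_lit 378) (nat_lit 319) (nat_lit 203)) (XT.lf (nat_lit 0) (nat_lit 231998407052) (nat_lit 76) (nat_lit 172567528630) (nat_lit 76) (nat_lit 77470546979) (nat_lit 7) (nat_lit 4) (nat_lit 8) (nat_lit 5) (nat_lit 8) (nat_lit 4) (nat_lit 379) (nat_lit 319) (nat_lit 202))) (XT.nd (nat_lit 78) (nat_lit 152) (nat_lit 0) (XT.lf (nat_lit 0) (nat_lit 371735970505) (nat_lit 76) (nat_lit 120403948392) (nat_lit 76) (nat_lit 25306101161) (nat_lit 7) (nat_lit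 4) (nat_lit 8) (nat_lit 5) (nat_lit 8) (nat_lit 4) (nat_lit 380) (nat_lit 319) (nat_lit 201)) (XT.nd (nat_lit 78) (nat_lit 76) (nat_lit 0) (XT.lf (nat_lit 0) (nat_lit 30037179469) (nat_lit 152) (nat_lit 33522430779) (nat_lit 76) (nat_lit 492104541925) (nat_lit 6) (nat_lit 5) (nat_lit 8) (nat_lit 5) (nat_lit 7) (nat_lit 4) (nat_lit 381) (nat_lit 319) (nat_lit 200)) (XT.lf (nat_lit 0) (nat_lit 90095095484) (nat_lit 76) (nat_lit 243678306) (nat_lit 152) (nat_lit 506509345868) (nat_lit 5) (nat_lit 5) (nat_lit 6) (nat_lit 5) (nat_lit 7) (nat_lit 4) (nat_lit 382) (nat_lit 319) (nat_lit 199))))) (XT.nd (nat_lit 234) (nat_lit 76) (nat_lit 0) (XT.nd (nat_lit 78) (nat_lit 0) (nat_lit 0) (XT.lf (nat_lit 0) (nat_lit 157120821606) (nat_lit 152) (nat_lit 417573847985) (nat_lit 0) (nat_lit 66549318832) (nat_lit 5) (nat_lit 5) (nat_lit 7) (nat_lit 4) (nat_lit 5) (nat_lit 4) (nat_lit 383) (nat_lit 319)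 (nat_lit 198)) (XT.nd (nat_lit 78) (nat_lit 0) (nat_lit 0) (XT.lf (nat_lit 0) (nat_lit 229248612744) (nat_lit 152) (nat_lit 321266251096) (nat_lit 0) (nat_lit 138676504040) (nat_lit 5) (nat_lit 5) (nat_lit 7) (nat_lit 4) (nat_lit 5) (nat_lit 4) (nat_lit 384) (nat_lit 319) (nat_lit 197)) (XT.lf (nat_lit 0) (nat_lit 307145766653) (nat_lit 152) (nat_lit 217255717319) (nat_lit 0) (nat_lit 216573096902) (nat_lit 5) (nat_lit 5) (nat_lit 7) (nat_lit 4) (nat_lit 5) (nat_lit 4) (nat_lit 385) (nat_lit 319) (nat_lit 196)))) (XT.nd (nat_lit 78) (nat_lit 76) (nat_lit 0) (XT.lf (nat_lit 0) (nat_lit 391273896095) (nat_lit 152) (nat_lit 104925887936) (nat_lit 0) (nat_lit 300700706857) (nat_lit 5) (nat_lit 5) (nat_lit 7) (nat_lit 4) (nat_lit 5) (nat_lit 4) (nat_lit 386) (nat_lit 319) (nat_lit 195)) (XT.nd (nat_lit 78) (nat_lit 0) (nat_lit 0) (XT.lf (nat_lit 0) (nat_lit 16930786194) (nat_lit 76) (nat_lit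 465465088961) (nat_lit 76) (nat_lit 374891418716) (nat_lit 4) (nat_lit 4) (nat_lit 5) (nat_lit 5) (nat_lit 5) (nat_lit 4) (nat_lit 387) (nat_lit 319) (nat_lit 194)) (XT.lf (nat_lit 0) (nat_lit 152281493623) (nat_lit 76) (nat_lit 430353155687) (nat_lit 76) (nat_lit 339779040065) (nat_lit 4) (nat_lit 4) (nat_lit 5) (nat_lit 5) (nat_lit 5) (nat_lit 4) (nat_lit 388) (nat_lit 319) (nat_lit 193)))))) (XT.nd (nat_lit 390) (nat_lit 1216) (nat_lit 0) (XT.nd (nat_lit 156) (nat_lit 684) (nat_lit 0) (XT.nd (nat_lit 78) (nat_lit 0) (nat_lit 0) (XT.lf (nat_lit 0) (nat_lit 4389463082) (nat_lit 0) (nat_lit 4389463082) (nat_lit 684) (nat_lit 786556216) (nat_lit 107) (nat_lit 5) (nat_lit 107) (nat_lit 3) (nat_lit 116) (nat_lit 3) (nat_lit 320) (nat_lit 320) (nat_lit 260)) (XT.lf (nat_lit 76) (nat_lit 4037318142) (nat_lit 0) (nat_lit 14638649315) (nat_lit 760) (nat_lit 1199087127) (nat_lit 108) (nat_lit 5)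 (nat_lit 107) (nat_lit 5) (nat_lit 117) (nat_lit 5) (nat_lit 321) (nat_lit 320) (nat_lit 259))) (XT.nd (nat_lit 78) (nat_lit 684) (nat_lit 0) (XT.lf (nat_lit 76) (nat_lit 19779003716) (nat_lit 0) (nat_lit 403516903) (nat_lit 760) (nat_lit 481237421) (nat_lit 108) (nat_lit 5) (nat_lit 107) (nat_lit 5) (nat_lit 117) (nat_lit 5) (nat_lit 322) (nat_lit 320) (nat_lit 258)) (XT.nd (nat_lit 78) (nat_lit 0) (nat_lit 76) (XT.lf (nat_lit 0) (nat_lit 743082850) (nat_lit 760) (nat_lit 5993684691) (nat_lit 836) (nat_lit 14755669655) (nat_lit 98) (nat_lit 5) (nat_lit 108) (nat_lit 5) (nat_lit 109) (nat_lit 5) (nat_lit 323) (nat_lit 320) (nat_lit 257)) (XT.lf (nat_lit 0) (nat_lit 2361473765) (nat_lit 760) (nat_lit 11353927109) (nat_lit 836) (nat_lit 8655995396) (nat_lit 99) (nat_lit 5) (nat_lit 109) (nat_lit 5) (nat_lit 110) (nat_lit 5) (nat_lit 324) (nat_lit 320) (nat_lit 256))))) (XT.nd (nat_lit 234)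 (nat_lit 1368) (nat_lit 0) (XT.nd (nat_lit 78) (nat_lit 0) (nat_lit 0) (XT.lf (nat_lit 0) (nat_lit 4436835822) (nat_lit 760) (nat_lit 16976529087) (nat_lit 836) (nat_lit 1890959300) (nat_lit 100) (nat_lit 5) (nat_lit 110) (nat_lit 5) (nat_lit 111) (nat_lit 5) (nat_lit 325) (nat_lit 320) (nat_lit 255)) (XT.nd (nat_lit 78) (nat_lit 0) (nat_lit 76) (XT.lf (nat_lit 76) (nat_lit 1318247783) (nat_lit 0) (nat_lit 5792300160) (nat_lit 836) (nat_lit 17179747508) (nat_lit 101) (nat_lit 5) (nat_lit 100) (nat_lit 5) (nat_lit 111) (nat_lit 5) (nat_lit 326) (nat_lit 320) (nat_lit 254)) (XT.lf (nat_lit 0) (nat_lit 10452460343) (nat_lit 760) (nat_lit 3852575959) (nat_lit 76) (nat_lit 11027416187) (nat_lit 101) (nat_lit 5) (nat_lit 111) (nat_lit 5) (nat_lit 102) (nat_lit 5) (nat_lit 327) (nat_lit 320) (nat_lit 253)))) (XT.nd (nat_lit 78) (nat_lit 684) (nat_lit 0) (XT.lf (nat_lit 0) (nat_lit 14454753310)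 (nat_lit 836) (nat_lit 9250209684) (nat_lit 76) (nat_lit 2733389256) (nat_lit 91) (nat_lit 5) (nat_lit 102) (nat_lit 5) (nat_lit 92) (nat_lit 5) (nat_lit 328) (nat_lit 320) (nat_lit 252)) (XT.nd (nat_lit 78) (nat_lit 304) (nat_lit 0) (XT.lf (nat_lit 0) (nat_lit 12563995658) (nat_lit 380) (nat_lit 6702109274) (nat_lit 456) (nat_lit 8342195244) (nat_lit 86) (nat_lit 5) (nat_lit 91) (nat_lit 5) (nat_lit 92) (nat_lit 5) (nat_lit 329) (nat_lit 320) (nat_lit 251)) (XT.lf (nat_lit 0) (nat_lit 7633229177) (nat_lit 304) (nat_lit 17278443923) (nat_lit 380) (nat_lit 3937723881) (nat_lit 82) (nat_lit 5) (nat_lit 86) (nat_lit 5) (nat_lit 87) (nat_lit 5) (nat_lit 330) (nat_lit 320) (nat_lit 250))))))) (XT.nd (nat_lit 858) (nat_lit 1596) (nat_lit 0) (XT.nd (nat_lit 390) (nat_lit 1292) (nat_lit 0) (XT.nd (nat_lit 156) (nat_lit 836) (nat_lit 0) (XT.nd (nat_lit 78) (nat_lit 0) (nat_lit 0) (XT.lf (nat_lit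 0) (nat_lit 1214022654) (nat_lit 456) (nat_lit 27771420078) (nat_lit 76) (nat_lit 1182658958) (nat_lit 76) (nat_lit 5) (nat_lit 82) (nat_lit 5) (nat_lit 77) (nat_lit 5) (nat_lit 331) (nat_lit 320) (nat_lit 249)) (XT.lf (nat_lit 0) (nat_lit 7294586096) (nat_lit 456) (nat_lit 3297510704) (nat_lit 76) (nat_lit 20964261620) (nat_lit 76) (nat_lit 5) (nat_lit 82) (nat_lit 5) (nat_lit 77) (nat_lit 5) (nat_lit 332) (nat_lit 320) (nat_lit 248))) (XT.nd (nat_lit 78) (nat_lit 532) (nat_lit 0) (XT.lf (nat_lit 0) (nat_lit 14372213248) (nat_lit 380) (nat_lit 9304692256) (nat_lit 76) (nat_lit 9353253214) (nat_lit 72) (nat_lit 5) (nat_lit 77) (nat_lit 5) (nat_lit 73) (nat_lit 5) (nat_lit 333) (nat_lit 320) (nat_lit 247)) (XT.nd (nat_lit 78) (nat_lit 228) (nat_lit 0) (XT.lf (nat_lit 0) (nat_lit 18816926414) (nat_lit 304) (nat_lit 3717480899) (nat_lit 380) (nat_lit 12061550816) (nat_lit 68) (nat_lit 5) (nat_lit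 72) (nat_lit 5) (nat_lit 73) (nat_lit 5) (nat_lit 334) (nat_lit 320) (nat_lit 246)) (XT.lf (nat_lit 0) (nat_lit 13373751881) (nat_lit 228) (nat_lit 18616124478) (nat_lit 304) (nat_lit 4265142130) (nat_lit 65) (nat_lit 5) (nat_lit 68) (nat_lit 5) (nat_lit 69) (nat_lit 5) (nat_lit 335) (nat_lit 320) (nat_lit 245))))) (XT.nd (nat_lit 234) (nat_lit 684) (nat_lit 0) (XT.nd (nat_lit 78) (nat_lit 228) (nat_lit 0) (XT.lf (nat_lit 0) (nat_lit 4516598583) (nat_lit 380) (nat_lit 30586141679) (nat_lit 76) (nat_lit 2916100196) (nat_lit 60) (nat_lit 5) (nat_lit 65) (nat_lit 5) (nat_lit 61) (nat_lit 5) (nat_lit 336) (nat_lit 320) (nat_lit 244)) (XT.nd (nat_lit 78) (nat_lit 0) (nat_lit 0) (XT.lf (nat_lit 0) (nat_lit 700744414) (nat_lit 228) (nat_lit 13871930485) (nat_lit 304) (nat_lit 25311545735) (nat_lit 57) (nat_lit 5) (nat_lit 60) (nat_lit 5) (nat_lit 61) (nat_lit 5) (nat_lit 337) (nat_lit 320) (nat_lit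 243)) (XT.lf (nat_lit 0) (nat_lit 26105972085) (nat_lit 304) (nat_lit 6453724806) (nat_lit 76) (nat_lit 9305506643) (nat_lit 57) (nat_lit 5) (nat_lit 61) (nat_lit 5) (nat_lit 58) (nat_lit 5) (nat_lit 338) (nat_lit 320) (nat_lit 242)))) (XT.nd (nat_lit 78) (nat_lit 456) (nat_lit 0) (XT.lf (nat_lit 0) (nat_lit 29594571968) (nat_lit 228) (nat_lit 9653876104) (nat_lit 304) (nat_lit 4721899621) (nat_lit 54) (nat_lit 5) (nat_lit 57) (nat_lit 5) (nat_lit 58) (nat_lit 5) (nat_lit 339) (nat_lit 320) (nat_lit 241)) (XT.nd (nat_lit 78) (nat_lit 228) (nat_lit 0) (XT.lf (nat_lit 0) (nat_lit 7679436320) (nat_lit 228) (nat_lit 23327884925) (nat_lit 76) (nat_lit 15195399559) (nat_lit 51) (nat_lit 5) (nat_lit 54) (nat_lit 5) (nat_lit 52) (nat_lit 5) (nat_lit 340) (nat_lit 320) (nat_lit 240)) (XT.lf (nat_lit 0) (nat_lit 15246465860) (nat_lit 228) (nat_lit 6309864262) (nat_lit 304) (nat_lit 27021045906) (nat_lit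 48) (nat_lit 5) (nat_lit 51) (nat_lit 5) (nat_lit 52) (nat_lit 5) (nat_lit 341) (nat_lit 320) (nat_lit 239)))))) (XT.nd (nat_lit 468) (nat_lit 608) (nat_lit 0) (XT.nd (nat_lit 234) (nat_lit 532) (nat_lit 0) (XT.nd (nat_lit 78) (nat_lit 304) (nat_lit 0) (XT.lf (nat_lit 0) (nat_lit 6488696513) (nat_lit 152) (nat_lit 30878652702) (nat_lit 228) (nat_lit 13733462100) (nat_lit 46) (nat_lit 5) (nat_lit 48) (nat_lit 5) (nat_lit 49) (nat_lit 5) (nat_lit 342) (nat_lit 320) (nat_lit 238)) (XT.nd (nat_lit 78) (nat_lit 228) (nat_lit 0) (XT.lf (nat_lit 0) (nat_lit 1285904765) (nat_lit 228) (nat_lit 3250760210) (nat_lit 76) (nat_lit 49254553866) (nat_lit 45) (nat_lit 5) (nat_lit 48) (nat_lit 5) (nat_lit 46) (nat_lit 5) (nat_lit 343) (nat_lit 320) (nat_lit 237)) (XT.lf (nat_lit 0) (nat_lit 18076808425) (nat_lit 304) (nat_lit 14502320715) (nat_lit 76) (nat_lit 24053921011) (nat_lit 42) (nat_lit 5) (nat_lit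 46) (nat_lit 5) (nat_lit 43) (nat_lit 5) (nat_lit 344) (nat_lit 320) (nat_lit 236)))) (XT.nd (nat_lit 78) (nat_lit 380) (nat_lit 0) (XT.lf (nat_lit 0) (nat_lit 32511443599) (nat_lit 152) (nat_lit 4334108932) (nat_lit 228) (nat_lit 22824951816) (nat_lit 40) (nat_lit 5) (nat_lit 42) (nat_lit 5) (nat_lit 43) (nat_lit 5) (nat_lit 345) (nat_lit 320) (nat_lit 235)) (XT.nd (nat_lit 78) (nat_lit 228) (nat_lit 0) (XT.lf (nat_lit 0) (nat_lit 21118111813) (nat_lit 152) (nat_lit 36985974063) (nat_lit 228) (nat_lit 4797458953) (nat_lit 38) (nat_lit 5) (nat_lit 40) (nat_lit 5) (nat_lit 41) (nat_lit 5) (nat_lit 346) (nat_lit 320) (nat_lit 234)) (XT.lf (nat_lit 0) (nat_lit 7788590246) (nat_lit 152) (nat_lit 7083020595) (nat_lit 228) (nat_lit 51474558854) (nat_lit 35) (nat_lit 5) (nat_lit 37) (nat_lit 5) (nat_lit 38) (nat_lit 5) (nat_lit 347) (nat_lit 320) (nat_lit 233))))) (XT.nd (nat_lit 234) (nat_lit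 304) (nat_lit 0) (XT.nd (nat_lit 78) (nat_lit 304) (nat_lit 0) (XT.lf (nat_lit 0) (nat_lit 37075491329) (nat_lit 228) (nat_lit 7708439321) (nat_lit 76) (nat_lit 25222036944) (nat_lit 35) (nat_lit 5) (nat_lit 38) (nat_lit 5) (nat_lit 36) (nat_lit 5) (nat_lit 348) (nat_lit 320) (nat_lit 232)) (XT.nd (nat_lit 78) (nat_lit 152) (nat_lit 0) (XT.lf (nat_lit 0) (nat_lit 48636178652) (nat_lit 152) (nat_lit 13292461812) (nat_lit 228) (nat_lit 11986264303) (nat_lit 33) (nat_lit 5) (nat_lit 35) (nat_lit 5) (nat_lit 36) (nat_lit 5) (nat_lit 349) (nat_lit 320) (nat_lit 231)) (XT.lf (nat_lit 0) (nat_lit 11268039828) (nat_lit 152) (nat_lit 45936836397) (nat_lit 76) (nat_lit 20874638064) (nat_lit 31) (nat_lit 5) (nat_lit 33) (nat_lit 5) (nat_lit 32) (nat_lit 5) (nat_lit 350) (nat_lit 320) (nat_lit 230)))) (XT.nd (nat_lit 78) (nat_lit 152) (nat_lit 0) (XT.lf (nat_lit 0) (nat_lit 12461337658) (nat_lit 152)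 (nat_lit 24367863473) (nat_lit 228) (nat_lit 45694946713) (nat_lit 29) (nat_lit 5) (nat_lit 31) (nat_lit 5) (nat_lit 32) (nat_lit 5) (nat_lit 351) (nat_lit 320) (nat_lit 229)) (XT.nd (nat_lit 78) (nat_lit 152) (nat_lit 0) (XT.lf (nat_lit 0) (nat_lit 65416599035) (nat_lit 228) (nat_lit 10307999150) (nat_lit 76) (nat_lit 11550689250) (nat_lit 29) (nat_lit 5) (nat_lit 32) (nat_lit 5) (nat_lit 30) (nat_lit 4) (nat_lit 352) (nat_lit 320) (nat_lit 228)) (XT.lf (nat_lit 0) (nat_lit 5054961686) (nat_lit 152) (nat_lit 36837294178) (nat_lit 76) (nat_lit 50446491269) (nat_lit 27) (nat_lit 5) (nat_lit 29) (nat_lit 5) (nat_lit 28) (nat_lit 5) (nat_lit 353) (nat_lit 320) (nat_lit 227))))))))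
noncomputable def xc84 : XT := (XT.nd (nat_lit 1716) (nat_lit 304) (nat_lit 0) (XT.nd (nat_lit 858) (nat_lit 532) (nat_lit 0) (XT.nd (nat_lit 390) (nat_lit 456) (nat_lit 0) (XT.nd (nat_lit 156) (nat_lit 304) (nat_lit 0) (XT.nd (nat_lit 78) (nat_lit 0) (nat_lit 0) (XT.lf (nat_lit 0) (nat_lit 29716881613) (nat_lit 152) (nat_lit 4291039082) (nat_lit 228) (nat_lit 63748846079) (nat_lit 25) (nat_lit 5) (nat_lit 27) (nat_lit 5) (nat_lit 28) (nat_lit 5) (nat_lit 354) (nat_lit 320) (nat_lit 226)) (XT.lf (nat_lit 0) (nat_lit 66491853083) (nat_lit 228) (nat_lit 1250844085) (nat_lit 76) (nat_lit 35804795903) (nat_lit 25) (nat_lit 5) (nat_lit 28) (nat_lit 5) (nat_lit 26) (nat_lit 4) (nat_lit 355) (nat_lit 320) (nat_lit 225))) (XT.nd (nat_lit 78) (nat_lit 228) (nat_lit 0) (XT.lf (nat_lit 0) (nat_lit 73142586821) (nat_lit 76) (nat_lit 29642067025) (nat_lit 152) (nat_lit 6956317710) (nat_lit 24) (nat_lit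 5) (nat_lit 25) (nat_lit 5) (nat_lit 26) (nat_lit 4) (nat_lit 356) (nat_lit 320) (nat_lit 224)) (XT.nd (nat_lit 78) (nat_lit 0) (nat_lit 0) (XT.lf (nat_lit 0) (nat_lit 25539366892) (nat_lit 228) (nat_lit 78665497612) (nat_lit 76) (nat_lit 12164808957) (nat_lit 21) (nat_lit 5) (nat_lit 24) (nat_lit 5) (nat_lit 22) (nat_lit 4) (nat_lit 357) (nat_lit 320) (nat_lit 223)) (XT.lf (nat_lit 0) (nat_lit 61538152392) (nat_lit 228) (nat_lit 4873548330) (nat_lit 76) (nat_lit 57053912266) (nat_lit 21) (nat_lit 5) (nat_lit 24) (nat_lit 5) (nat_lit 22) (nat_lit 4) (nat_lit 358) (nat_lit 320) (nat_lit 222))))) (XT.nd (nat_lit 234) (nat_lit 228) (nat_lit 0) (XT.nd (nat_lit 78) (nat_lit 152) (nat_lit 0) (XT.lf (nat_lit 0) (nat_lit 77288964351) (nat_lit 76) (nat_lit 24330974259) (nat_lit 152) (nat_lit 29449135513) (nat_lit 20) (nat_lit 5) (nat_lit 21) (nat_lit 5) (nat_lit 22) (nat_lit 4) (nat_lit 359) (nat_lit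 320) (nat_lit 221)) (XT.nd (nat_lit 78) (nat_lit 0) (nat_lit 0) (XT.lf (nat_lit 0) (nat_lit 6302409269) (nat_lit 152) (nat_lit 111876896669) (nat_lit 76) (nat_lit 21054361006) (nat_lit 18) (nat_lit 5) (nat_lit 20) (nat_lit 5) (nat_lit 19) (nat_lit 4) (nat_lit 360) (nat_lit 320) (nat_lit 220)) (XT.lf (nat_lit 0) (nat_lit 45255186752) (nat_lit 152) (nat_lit 32027907112) (nat_lit 76) (nat_lit 70675552620) (nat_lit 18) (nat_lit 5) (nat_lit 20) (nat_lit 5) (nat_lit 19) (nat_lit 4) (nat_lit 361) (nat_lit 320) (nat_lit 219)))) (XT.nd (nat_lit 78) (nat_lit 152) (nat_lit 0) (XT.lf (nat_lit 0) (nat_lit 55995462353) (nat_lit 76) (nat_lit 32199852359) (nat_lit 152) (nat_lit 69142754273) (nat_lit 17) (nat_lit 5) (nat_lit 18) (nat_lit 5) (nat_lit 19) (nat_lit 4) (nat_lit 362) (nat_lit 320) (nat_lit 218)) (XT.nd (nat_lit 78) (nat_lit 152) (nat_lit 0) (XT.lf (nat_lit 0) (nat_lit 135392148236) (nat_lit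 152) (nat_lit 15507748605) (nat_lit 0) (nat_lit 16526874617) (nat_lit 17) (nat_lit 5) (nat_lit 19) (nat_lit 4) (nat_lit 17) (nat_lit 4) (nat_lit 363) (nat_lit 320) (nat_lit 217)) (XT.lf (nat_lit 0) (nat_lit 9590260559) (nat_lit 152) (nat_lit 99208418038) (nat_lit 76) (nat_lit 69427339253) (nat_lit 15) (nat_lit 5) (nat_lit 17) (nat_lit 5) (nat_lit 16) (nat_lit 4) (nat_lit 364) (nat_lit 320) (nat_lit 216)))))) (XT.nd (nat_lit 390) (nat_lit 304) (nat_lit 0) (XT.nd (nat_lit 156) (nat_lit 152) (nat_lit 0) (XT.nd (nat_lit 78) (nat_lit 76) (nat_lit 0) (XT.lf (nat_lit 0) (nat_lit 53709661623) (nat_lit 152) (nat_lit 8766588973) (nat_lit 76) (nat_lit 127372353050) (nat_lit 15) (nat_lit 5) (nat_lit 17) (nat_lit 5) (nat_lit 16) (nat_lit 4) (nat_lit 365) (nat_lit 320) (nat_lit 215)) (XT.lf (nat_lit 0) (nat_lit 91845537705) (nat_lit 76) (nat_lit 10944539423) (nat_lit 152) (nat_lit 99539346769) (nat_lit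 14) (nat_lit 5) (nat_lit 15) (nat_lit 5) (nat_lit 16) (nat_lit 4) (nat_lit 366) (nat_lit 320) (nat_lit 214))) (XT.nd (nat_lit 78) (nat_lit 152) (nat_lit 0) (XT.lf (nat_lit 0) (nat_lit 156647760571) (nat_lit 152) (nat_lit 15686498650) (nat_lit 0) (nat_lit 43431909470) (nat_lit 14) (nat_lit 5) (nat_lit 16) (nat_lit 4) (nat_lit 14) (nat_lit 4) (nat_lit 367) (nat_lit 320) (nat_lit 213)) (XT.nd (nat_lit 78) (nat_lit 76) (nat_lit 0) (XT.lf (nat_lit 0) (nat_lit 89366185435) (nat_lit 76) (nat_lit 127025433215) (nat_lit 76) (nat_lit 13807357028) (nat_lit 13) (nat_lit 4) (nat_lit 14) (nat_lit 5) (nat_lit 14) (nat_lit 4) (nat_lit 368) (nat_lit 320) (nat_lit 212)) (XT.lf (nat_lit 0) (nat_lit 34279798203) (nat_lit 152) (nat_lit 42946550134) (nat_lit 76) (nat_lit 168518858950) (nat_lit 12) (nat_lit 5) (nat_lit 14) (nat_lit 5) (nat_lit 13) (nat_lit 4) (nat_lit 369) (nat_lit 320) (nat_lit 211))))) (XT.nd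 (nat_lit 234) (nat_lit 152) (nat_lit 0) (XT.nd (nat_lit 78) (nat_lit 76) (nat_lit 0) (XT.lf (nat_lit 0) (nat_lit 64601617537) (nat_lit 76) (nat_lit 22141632044) (nat_lit 152) (nat_lit 175729917523) (nat_lit 11) (nat_lit 5) (nat_lit 12) (nat_lit 5) (nat_lit 13) (nat_lit 4) (nat_lit 370) (nat_lit 320) (nat_lit 210)) (XT.nd (nat_lit 78) (nat_lit 76) (nat_lit 0) (XT.lf (nat_lit 0) (nat_lit 144745330378) (nat_lit 152) (nat_lit 98813826173) (nat_lit 0) (nat_lit 36913129949) (nat_lit 11) (nat_lit 5) (nat_lit 13) (nat_lit 4) (nat_lit 11) (nat_lit 4) (nat_lit 371) (nat_lit 320) (nat_lit 209)) (XT.lf (nat_lit 0) (nat_lit 8049357900) (nat_lit 76) (nat_lit 199835437567) (nat_lit 76) (nat_lit 92001679515) (nat_lit 10) (nat_lit 4) (nat_lit 11) (nat_lit 5) (nat_lit 11) (nat_lit 4) (nat_lit 372) (nat_lit 320) (nat_lit 208)))) (XT.nd (nat_lit 78) (nat_lit 152) (nat_lit 0) (XT.lf (nat_lit 0) (nat_lit 126986917440)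 (nat_lit 76) (nat_lit 150808052103) (nat_lit 76) (nat_lit 42972851806) (nat_lit 10) (nat_lit 4) (nat_lit 11) (nat_lit 5) (nat_lit 11) (nat_lit 4) (nat_lit 373) (nat_lit 320) (nat_lit 207)) (XT.nd (nat_lit 78) (nat_lit 76) (nat_lit 0) (XT.lf (nat_lit 0) (nat_lit 9657294476) (nat_lit 152) (nat_lit 88039082031) (nat_lit 76) (nat_lit 245615590834) (nat_lit 9) (nat_lit 5) (nat_lit 11) (nat_lit 5) (nat_lit 10) (nat_lit 4) (nat_lit 374) (nat_lit 320) (nat_lit 206)) (XT.lf (nat_lit 0) (nat_lit 26275598240) (nat_lit 76) (nat_lit 39145558071) (nat_lit 152) (nat_lit 302181822211) (nat_lit 8) (nat_lit 5) (nat_lit 9) (nat_lit 5) (nat_lit 10) (nat_lit 4) (nat_lit 375) (nat_lit 320) (nat_lit 205))))))) (XT.nd (nat_lit 858) (nat_lit 76) (nat_lit 0) (XT.nd (nat_lit 390) (nat_lit 152) (nat_lit 0) (XT.nd (nat_lit 156) (nat_lit 76) (nat_lit 0) (XT.nd (nat_lit 78) (nat_lit 0) (nat_lit 0) (XT.lf (nat_lit 0)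 (nat_lit 127579501207) (nat_lit 152) (nat_lit 241285330348) (nat_lit 0) (nat_lit 24875770636) (nat_lit 8) (nat_lit 5) (nat_lit 10) (nat_lit 4) (nat_lit 8) (nat_lit 4) (nat_lit 376) (nat_lit 320) (nat_lit 204)) (XT.lf (nat_lit 0) (nat_lit 195369234398) (nat_lit 152) (nat_lit 133902571380) (nat_lit 0) (nat_lit 92664494215) (nat_lit 8) (nat_lit 5) (nat_lit 10) (nat_lit 4) (nat_lit 8) (nat_lit 4) (nat_lit 377) (nat_lit 320) (nat_lit 203))) (XT.nd (nat_lit 78) (nat_lit 76) (nat_lit 0) (XT.lf (nat_lit 0) (nat_lit 268580900956) (nat_lit 152) (nat_lit 17931589239) (nat_lit 0) (nat_lit 165875225947) (nat_lit 8) (nat_lit 5) (nat_lit 10) (nat_lit 4) (nat_lit 8) (nat_lit 4) (nat_lit 378) (nat_lit 320) (nat_lit 202)) (XT.nd (nat_lit 78) (nat_lit 0) (nat_lit 0) (XT.lf (nat_lit 0) (nat_lit 110863165165) (nat_lit 76) (nat_lit 238516067329) (nat_lit 76) (nat_lit 135809526741) (nat_lit 7) (nat_lit 4) (nat_lit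 8) (nat_lit 5) (nat_lit 8) (nat_lit 4) (nat_lit 379) (nat_lit 320) (nat_lit 201)) (XT.lf (nat_lit 0) (nat_lit 250599707719) (nat_lit 76) (nat_lit 186352978765) (nat_lit 76) (nat_lit 83645636715) (nat_lit 7) (nat_lit 4) (nat_lit 8) (nat_lit 5) (nat_lit 8) (nat_lit 4) (nat_lit 380) (nat_lit 320) (nat_lit 200))))) (XT.nd (nat_lit 234) (nat_lit 0) (nat_lit 0) (XT.nd (nat_lit 78) (nat_lit 152) (nat_lit 0) (XT.lf (nat_lit 0) (nat_lit 401513207500) (nat_lit 76) (nat_lit 130017790045) (nat_lit 76) (nat_lit 27309705900) (nat_lit 7) (nat_lit 4) (nat_lit 8) (nat_lit 5) (nat_lit 8) (nat_lit 4) (nat_lit 381) (nat_lit 320) (nat_lit 199)) (XT.nd (nat_lit 78) (nat_lit 76) (nat_lit 0) (XT.lf (nat_lit 0) (nat_lit 32458871379) (nat_lit 152) (nat_lit 36168084941) (nat_lit 76) (nat_lit 531489388657) (nat_lit 6) (nat_lit 5) (nat_lit 8) (nat_lit 5) (nat_lit 7) (nat_lit 4) (nat_lit 382) (nat_lit 320) (nat_lit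 198)) (XT.lf (nat_lit 0) (nat_lit 97337272810) (nat_lit 76) (nat_lit 246473681) (nat_lit 152) (nat_lit 547011325967) (nat_lit 5) (nat_lit 5) (nat_lit 6) (nat_lit 5) (nat_lit 7) (nat_lit 4) (nat_lit 383) (nat_lit 320) (nat_lit 197)))) (XT.nd (nat_lit 78) (nat_lit 0) (nat_lit 0) (XT.lf (nat_lit 0) (nat_lit 169707275772) (nat_lit 152) (nat_lit 450947157913) (nat_lit 0) (nat_lit 71888231395) (nat_lit 5) (nat_lit 5) (nat_lit 7) (nat_lit 4) (nat_lit 5) (nat_lit 4) (nat_lit 384) (nat_lit 320) (nat_lit 196)) (XT.nd (nat_lit 78) (nat_lit 0) (nat_lit 0) (XT.lf (nat_lit 0) (nat_lit 247604046614) (nat_lit 152) (nat_lit 346937367932) (nat_lit 0) (nat_lit 149784482749) (nat_lit 5) (nat_lit 5) (nat_lit 7) (nat_lit 4) (nat_lit 5) (nat_lit 4) (nat_lit 385) (nat_lit 320) (nat_lit 195)) (XT.lf (nat_lit 0) (nat_lit 331731821365) (nat_lit 152) (nat_lit 234608227250) (nat_lit 0) (nat_lit 233911776493) (nat_lit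 5) (nat_lit 5) (nat_lit 7) (nat_lit 4) (nat_lit 5) (nat_lit 4) (nat_lit 386) (nat_lit 320) (nat_lit 194)))))) (XT.nd (nat_lit 41964) (nat_lit 0) (nat_lit 6612) (XT.nd (nat_lit 41730) (nat_lit 0) (nat_lit 7828) (XT.nd (nat_lit 78) (nat_lit 76) (nat_lit 0) (XT.lf (nat_lit 0) (nat_lit 422589134986) (nat_lit 152) (nat_lit 113294081698) (nat_lit 0) (nat_lit 324768644738) (nat_lit 5) (nat_lit 5) (nat_lit 7) (nat_lit 4) (nat_lit 5) (nat_lit 4) (nat_lit 387) (nat_lit 320) (nat_lit 193)) (XT.lf (nat_lit 0) (nat_lit 18310001767) (nat_lit 76) (nat_lit 502690269862) (nat_lit 76) (nat_lit 404869367227) (nat_lit 4) (nat_lit 4) (nat_lit 5) (nat_lit 5) (nat_lit 5) (nat_lit 4) (nat_lit 388) (nat_lit 320) (nat_lit 192))) (XT.nd (nat_lit 78) (nat_lit 0) (nat_lit 0) (XT.lf (nat_lit 0) (nat_lit 4872044339) (nat_lit 0) (nat_lit 4872044339) (nat_lit 684) (nat_lit 573139783) (nat_lit 107) (nat_lit 5) (nat_lit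 107) (nat_lit 3) (nat_lit 116) (nat_lit 3) (nat_lit 321) (nat_lit 321) (nat_lit 258)) (XT.nd (nat_lit 78) (nat_lit 0) (nat_lit 0) (XT.lf (nat_lit 76) (nat_lit 4641466680) (nat_lit 0) (nat_lit 16015924438) (nat_lit 760) (nat_lit 782652208) (nat_lit 108) (nat_lit 5) (nat_lit 107) (nat_lit 5) (nat_lit 117) (nat_lit 5) (nat_lit 322) (nat_lit 321) (nat_lit 257)) (XT.lf (nat_lit 76) (nat_lit 21621660204) (nat_lit 0) (nat_lit 626708605) (nat_lit 760) (nat_lit 45327259) (nat_lit 108) (nat_lit 5) (nat_lit 107) (nat_lit 5) (nat_lit 117) (nat_lit 5) (nat_lit 323) (nat_lit 321) (nat_lit 256))))) (XT.nd (nat_lit 234) (nat_lit 532) (nat_lit 0) (XT.nd (nat_lit 78) (nat_lit 0) (nat_lit 76) (XT.lf (nat_lit 0) (nat_lit 1229281308) (nat_lit 760) (nat_lit 6184510365) (nat_lit 836) (nat_lit 15776173553) (nat_lit 98) (nat_lit 5) (nat_lit 108) (nat_lit 5) (nat_lit 109) (nat_lit 5) (nat_lit 324) (nat_lit 321)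 (nat_lit 255)) (XT.nd (nat_lit 78) (nat_lit 0) (nat_lit 76) (XT.lf (nat_lit 0) (nat_lit 2947917826) (nat_lit 760) (nat_lit 11963729165) (nat_lit 836) (nat_lit 9229094530) (nat_lit 99) (nat_lit 5) (nat_lit 109) (nat_lit 5) (nat_lit 110) (nat_lit 5) (nat_lit 325) (nat_lit 321) (nat_lit 254)) (XT.lf (nat_lit 0) (nat_lit 5162962238) (nat_lit 760) (nat_lit 18028673251) (nat_lit 836) (nat_lit 1958021842) (nat_lit 100) (nat_lit 5) (nat_lit 110) (nat_lit 5) (nat_lit 111) (nat_lit 5) (nat_lit 326) (nat_lit 321) (nat_lit 253)))) (XT.nd (nat_lit 78) (nat_lit 684) (nat_lit 0) (XT.lf (nat_lit 76) (nat_lit 1716388330) (nat_lit 0) (nat_lit 6311257783) (nat_lit 836) (nat_lit 18188040039) (nat_lit 101) (nat_lit 5) (nat_lit 100) (nat_lit 5) (nat_lit 111) (nat_lit 5) (nat_lit 327) (nat_lit 321) (nat_lit 252)) (XT.nd (nat_lit 78) (nat_lit 760) (nat_lit 0) (XT.lf (nat_lit 0) (nat_lit 11610311499) (nat_lit 760)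 (nat_lit 3872465999) (nat_lit 76) (nat_lit 11859799383) (nat_lit 101) (nat_lit 5) (nat_lit 111) (nat_lit 5) (nat_lit 102) (nat_lit 5) (nat_lit 328) (nat_lit 321) (nat_lit 251)) (XT.lf (nat_lit 0) (nat_lit 15912856090) (nat_lit 836) (nat_lit 9698561960) (nat_lit 76) (nat_lit 2926555984) (nat_lit 91) (nat_lit 5) (nat_lit 102) (nat_lit 5) (nat_lit 92) (nat_lit 5) (nat_lit 329) (nat_lit 321) (nat_lit 250))))))))
noncomputable def xc85 : XT := (XT.nd (nat_lit 1716) (nat_lit 1596) (nat_lit 0) (XT.nd (nat_lit 858) (nat_lit 1748) (nat_lit 0) (XT.nd (nat_lit 390) (nat_lit 1368) (nat_lit 0) (XT.nd (nat_lit 156) (nat_lit 760) (nat_lit 0) (XT.nd (nat_lit 78) (nat_lit 304) (nat_lit 0) (XT.lf (nat_lit 0) (nat_lit 13848104426) (nat_lit 380) (nat_lit 7243017402) (nat_lit 456) (nat_lit 8711322354) (nat_lit 86) (nat_lit 5) (nat_lit 91) (nat_lit 5) (nat_lit 92) (nat_lit 5) (nat_lit 330) (nat_lit 321) (nat_lit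 249)) (XT.lf (nat_lit 0) (nat_lit 8524711865) (nat_lit 304) (nat_lit 18646922599) (nat_lit 380) (nat_lit 3972054026) (nat_lit 82) (nat_lit 5) (nat_lit 86) (nat_lit 5) (nat_lit 87) (nat_lit 5) (nat_lit 331) (nat_lit 321) (nat_lit 248))) (XT.nd (nat_lit 78) (nat_lit 304) (nat_lit 0) (XT.lf (nat_lit 0) (nat_lit 1567391715) (nat_lit 456) (nat_lit 29702908002) (nat_lit 76) (nat_lit 1298165371) (nat_lit 76) (nat_lit 5) (nat_lit 82) (nat_lit 5) (nat_lit 77) (nat_lit 5) (nat_lit 332) (nat_lit 321) (nat_lit 247)) (XT.nd (nat_lit 78) (nat_lit 304) (nat_lit 0) (XT.lf (nat_lit 0) (nat_lit 8115418955) (nat_lit 456) (nat_lit 3292584076) (nat_lit 76) (nat_lit 22660748565) (nat_lit 76) (nat_lit 5) (nat_lit 82) (nat_lit 5) (nat_lit 77) (nat_lit 5) (nat_lit 333) (nat_lit 321) (nat_lit 246)) (XT.lf (nat_lit 0) (nat_lit 15746214883) (nat_lit 380) (nat_lit 9781120613) (nat_lit 76) (nat_lit 10133791172) (nat_lit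 72) (nat_lit 5) (nat_lit 77) (nat_lit 5) (nat_lit 73) (nat_lit 5) (nat_lit 334) (nat_lit 321) (nat_lit 245))))) (XT.nd (nat_lit 234) (nat_lit 456) (nat_lit 0) (XT.nd (nat_lit 78) (nat_lit 608) (nat_lit 0) (XT.lf (nat_lit 0) (nat_lit 20578582898) (nat_lit 304) (nat_lit 3970193945) (nat_lit 380) (nat_lit 12804060868) (nat_lit 68) (nat_lit 5) (nat_lit 72) (nat_lit 5) (nat_lit 73) (nat_lit 5) (nat_lit 335) (nat_lit 321) (nat_lit 244)) (XT.nd (nat_lit 78) (nat_lit 380) (nat_lit 0) (XT.lf (nat_lit 0) (nat_lit 14698476310) (nat_lit 228) (nat_lit 20051156282) (nat_lit 304) (nat_lit 4395558866) (nat_lit 65) (nat_lit 5) (nat_lit 68) (nat_lit 5) (nat_lit 69) (nat_lit 5) (nat_lit 336) (nat_lit 321) (nat_lit 243)) (XT.lf (nat_lit 0) (nat_lit 5071667339) (nat_lit 380) (nat_lit 32773726909) (nat_lit 76) (nat_lit 3205089857) (nat_lit 60) (nat_lit 5) (nat_lit 65) (nat_lit 5) (nat_lit 61) (nat_lit 5) (nat_lit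 337) (nat_lit 321) (nat_lit 242)))) (XT.nd (nat_lit 78) (nat_lit 228) (nat_lit 0) (XT.lf (nat_lit 0) (nat_lit 1004840944) (nat_lit 228) (nat_lit 14916910192) (nat_lit 304) (nat_lit 27143880566) (nat_lit 57) (nat_lit 5) (nat_lit 60) (nat_lit 5) (nat_lit 61) (nat_lit 5) (nat_lit 338) (nat_lit 321) (nat_lit 241)) (XT.nd (nat_lit 78) (nat_lit 228) (nat_lit 0) (XT.lf (nat_lit 0) (nat_lit 28365073520) (nat_lit 304) (nat_lit 6732659601) (nat_lit 76) (nat_lit 10108004152) (nat_lit 57) (nat_lit 5) (nat_lit 61) (nat_lit 5) (nat_lit 58) (nat_lit 5) (nat_lit 339) (nat_lit 321) (nat_lit 240)) (XT.lf (nat_lit 0) (nat_lit 32189185400) (nat_lit 228) (nat_lit 10360668246) (nat_lit 304) (nat_lit 4929905228) (nat_lit 54) (nat_lit 5) (nat_lit 57) (nat_lit 5) (nat_lit 58) (nat_lit 5) (nat_lit 340) (nat_lit 321) (nat_lit 239)))))) (XT.nd (nat_lit 390) (nat_lit 836) (nat_lit 0) (XT.nd (nat_lit 156) (nat_lit 456)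 (nat_lit 0) (XT.nd (nat_lit 78) (nat_lit 228) (nat_lit 0) (XT.lf (nat_lit 0) (nat_lit 8450451531) (nat_lit 228) (nat_lit 24964750689) (nat_lit 76) (nat_lit 16475779645) (nat_lit 51) (nat_lit 5) (nat_lit 54) (nat_lit 5) (nat_lit 52) (nat_lit 5) (nat_lit 341) (nat_lit 321) (nat_lit 238)) (XT.lf (nat_lit 0) (nat_lit 16685580233) (nat_lit 228) (nat_lit 6743737540) (nat_lit 304) (nat_lit 29026709842) (nat_lit 48) (nat_lit 5) (nat_lit 51) (nat_lit 5) (nat_lit 52) (nat_lit 5) (nat_lit 342) (nat_lit 321) (nat_lit 237))) (XT.nd (nat_lit 78) (nat_lit 304) (nat_lit 0) (XT.lf (nat_lit 0) (nat_lit 7223806412) (nat_lit 152) (nat_lit 33274811140) (nat_lit 228) (nat_lit 14683058692) (nat_lit 46) (nat_lit 5) (nat_lit 48) (nat_lit 5) (nat_lit 49) (nat_lit 5) (nat_lit 343) (nat_lit 321) (nat_lit 236)) (XT.nd (nat_lit 78) (nat_lit 228) (nat_lit 0) (XT.lf (nat_lit 0) (nat_lit 1522396472) (nat_lit 228) (nat_lit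 3306296405) (nat_lit 76) (nat_lit 53259049068) (nat_lit 45) (nat_lit 5) (nat_lit 48) (nat_lit 5) (nat_lit 46) (nat_lit 5) (nat_lit 344) (nat_lit 321) (nat_lit 235)) (XT.lf (nat_lit 0) (nat_lit 19650804228) (nat_lit 304) (nat_lit 15461519925) (nat_lit 76) (nat_lit 26044890938) (nat_lit 42) (nat_lit 5) (nat_lit 46) (nat_lit 5) (nat_lit 43) (nat_lit 5) (nat_lit 345) (nat_lit 321) (nat_lit 234))))) (XT.nd (nat_lit 234) (nat_lit 304) (nat_lit 0) (XT.nd (nat_lit 78) (nat_lit 380) (nat_lit 0) (XT.lf (nat_lit 0) (nat_lit 35304610908) (nat_lit 152) (nat_lit 4609968091) (nat_lit 228) (nat_lit 24523416477) (nat_lit 40) (nat_lit 5) (nat_lit 42) (nat_lit 5) (nat_lit 43) (nat_lit 5) (nat_lit 346) (nat_lit 321) (nat_lit 233)) (XT.nd (nat_lit 78) (nat_lit 228) (nat_lit 0) (XT.lf (nat_lit 0) (nat_lit 22996281144) (nat_lit 152) (nat_lit 39872493554) (nat_lit 228) (nat_lit 5059001448) (nat_lit 38) (nat_lit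 5) (nat_lit 40) (nat_lit 5) (nat_lit 41) (nat_lit 5) (nat_lit 347) (nat_lit 321) (nat_lit 232)) (XT.lf (nat_lit 0) (nat_lit 8596006714) (nat_lit 152) (nat_lit 7577786191) (nat_lit 228) (nat_lit 55474382299) (nat_lit 35) (nat_lit 5) (nat_lit 37) (nat_lit 5) (nat_lit 38) (nat_lit 5) (nat_lit 348) (nat_lit 321) (nat_lit 231)))) (XT.nd (nat_lit 78) (nat_lit 304) (nat_lit 0) (XT.lf (nat_lit 0) (nat_lit 40146693026) (nat_lit 228) (nat_lit 8150211570) (nat_lit 76) (nat_lit 27304221724) (nat_lit 35) (nat_lit 5) (nat_lit 38) (nat_lit 5) (nat_lit 36) (nat_lit 5) (nat_lit 349) (nat_lit 321) (nat_lit 230)) (XT.nd (nat_lit 78) (nat_lit 152) (nat_lit 0) (XT.lf (nat_lit 0) (nat_lit 52694374774) (nat_lit 152) (nat_lit 14288541561) (nat_lit 228) (nat_lit 12840125504) (nat_lit 33) (nat_lit 5) (nat_lit 35) (nat_lit 5) (nat_lit 36) (nat_lit 5) (nat_lit 350) (nat_lit 321) (nat_lit 229)) (XT.lf (nat_lit 0) (nat_lit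 12267218705) (nat_lit 152) (nat_lit 49444640901) (nat_lit 76) (nat_lit 22609079590) (nat_lit 31) (nat_lit 5) (nat_lit 33) (nat_lit 5) (nat_lit 32) (nat_lit 5) (nat_lit 351) (nat_lit 321) (nat_lit 228))))))) (XT.nd (nat_lit 858) (nat_lit 608) (nat_lit 0) (XT.nd (nat_lit 390) (nat_lit 532) (nat_lit 0) (XT.nd (nat_lit 156) (nat_lit 304) (nat_lit 0) (XT.nd (nat_lit 78) (nat_lit 0) (nat_lit 0) (XT.lf (nat_lit 0) (nat_lit 13618123272) (nat_lit 152) (nat_lit 26250406112) (nat_lit 228) (nat_lit 49252854892) (nat_lit 29) (nat_lit 5) (nat_lit 31) (nat_lit 5) (nat_lit 32) (nat_lit 5) (nat_lit 352) (nat_lit 321) (nat_lit 227)) (XT.lf (nat_lit 0) (nat_lit 70736997743) (nat_lit 228) (nat_lit 10981222682) (nat_lit 76) (nat_lit 12534694070) (nat_lit 29) (nat_lit 5) (nat_lit 32) (nat_lit 5) (nat_lit 30) (nat_lit 4) (nat_lit 353) (nat_lit 321) (nat_lit 226))) (XT.nd (nat_lit 78) (nat_lit 152) (nat_lit 0)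 (XT.lf (nat_lit 0) (nat_lit 5543637741) (nat_lit 152) (nat_lit 39636617650) (nat_lit 76) (nat_lit 54541340171) (nat_lit 27) (nat_lit 5) (nat_lit 29) (nat_lit 5) (nat_lit 28) (nat_lit 5) (nat_lit 354) (nat_lit 321) (nat_lit 225)) (XT.nd (nat_lit 78) (nat_lit 0) (nat_lit 0) (XT.lf (nat_lit 0) (nat_lit 32235475078) (nat_lit 152) (nat_lit 4573320693) (nat_lit 228) (nat_lit 68764465658) (nat_lit 25) (nat_lit 5) (nat_lit 27) (nat_lit 5) (nat_lit 28) (nat_lit 5) (nat_lit 355) (nat_lit 321) (nat_lit 224)) (XT.lf (nat_lit 0) (nat_lit 71886380797) (nat_lit 228) (nat_lit 1217266039) (nat_lit 76) (nat_lit 38723854655) (nat_lit 25) (nat_lit 5) (nat_lit 28) (nat_lit 5) (nat_lit 26) (nat_lit 4) (nat_lit 356) (nat_lit 321) (nat_lit 223))))) (XT.nd (nat_lit 234) (nat_lit 228) (nat_lit 0) (XT.nd (nat_lit 78) (nat_lit 228) (nat_lit 0) (XT.lf (nat_lit 0) (nat_lit 79121831266) (nat_lit 76) (nat_lit 31957201407)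 (nat_lit 152) (nat_lit 7437606603) (nat_lit 24) (nat_lit 5) (nat_lit 25) (nat_lit 5) (nat_lit 26) (nat_lit 4) (nat_lit 357) (nat_lit 321) (nat_lit 222)) (XT.nd (nat_lit 78) (nat_lit 0) (nat_lit 0) (XT.lf (nat_lit 0) (nat_lit 27652740249) (nat_lit 228) (nat_lit 84831494141) (nat_lit 76) (nat_lit 13191475577) (nat_lit 21) (nat_lit 5) (nat_lit 24) (nat_lit 5) (nat_lit 22) (nat_lit 4) (nat_lit 358) (nat_lit 321) (nat_lit 221)) (XT.lf (nat_lit 0) (nat_lit 66526226811) (nat_lit 228) (nat_lit 5145614345) (nat_lit 76) (nat_lit 61667745528) (nat_lit 21) (nat_lit 5) (nat_lit 24) (nat_lit 5) (nat_lit 22) (nat_lit 4) (nat_lit 359) (nat_lit 321) (nat_lit 220)))) (XT.nd (nat_lit 78) (nat_lit 152) (nat_lit 0) (XT.lf (nat_lit 0) (nat_lit 83584779131) (nat_lit 76) (nat_lit 26226719861) (nat_lit 152) (nat_lit 31739980360) (nat_lit 20) (nat_lit 5) (nat_lit 21) (nat_lit 5) (nat_lit 22) (nat_lit 4) (nat_lit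 360) (nat_lit 321) (nat_lit 219)) (XT.nd (nat_lit 78) (nat_lit 0) (nat_lit 0) (XT.lf (nat_lit 0) (nat_lit 6867429391) (nat_lit 152) (nat_lit 120714990030) (nat_lit 76) (nat_lit 22786879724) (nat_lit 18) (nat_lit 5) (nat_lit 20) (nat_lit 5) (nat_lit 19) (nat_lit 4) (nat_lit 361) (nat_lit 321) (nat_lit 218)) (XT.lf (nat_lit 0) (nat_lit 48931923340) (nat_lit 152) (nat_lit 34486381928) (nat_lit 76) (nat_lit 76374198530) (nat_lit 18) (nat_lit 5) (nat_lit 20) (nat_lit 5) (nat_lit 19) (nat_lit 4) (nat_lit 362) (nat_lit 321) (nat_lit 217)))))) (XT.nd (nat_lit 390) (nat_lit 304) (nat_lit 0) (XT.nd (nat_lit 156) (nat_lit 228) (nat_lit 0) (XT.nd (nat_lit 78) (nat_lit 0) (nat_lit 0) (XT.lf (nat_lit 0) (nat_lit 60574347908) (nat_lit 76) (nat_lit 34730291203) (nat_lit 152) (nat_lit 74617773468) (nat_lit 17) (nat_lit 5) (nat_lit 18) (nat_lit 5) (nat_lit 19) (nat_lit 4) (nat_lit 363) (nat_lit 321) (nat_lit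 216)) (XT.lf (nat_lit 0) (nat_lit 146273900073) (nat_lit 152) (nat_lit 16654628365) (nat_lit 0) (nat_lit 17889850031) (nat_lit 17) (nat_lit 5) (nat_lit 19) (nat_lit 4) (nat_lit 17) (nat_lit 4) (nat_lit 364) (nat_lit 321) (nat_lit 215))) (XT.nd (nat_lit 78) (nat_lit 76) (nat_lit 0) (XT.lf (nat_lit 0) (nat_lit 10406331224) (nat_lit 152) (nat_lit 107053796138) (nat_lit 76) (nat_lit 75021515574) (nat_lit 15) (nat_lit 5) (nat_lit 17) (nat_lit 5) (nat_lit 16) (nat_lit 4) (nat_lit 365) (nat_lit 321) (nat_lit 214)) (XT.nd (nat_lit 78) (nat_lit 76) (nat_lit 0) (XT.lf (nat_lit 0) (nat_lit 58051665868) (nat_lit 152) (nat_lit 9383383365) (nat_lit 76) (nat_lit 137599168313) (nat_lit 15) (nat_lit 5) (nat_lit 17) (nat_lit 5) (nat_lit 16) (nat_lit 4) (nat_lit 366) (nat_lit 321) (nat_lit 213)) (XT.lf (nat_lit 0) (nat_lit 99274039758) (nat_lit 76) (nat_lit 11782386824) (nat_lit 152) (nat_lit 107457182187)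 (nat_lit 14) (nat_lit 5) (nat_lit 15) (nat_lit 5) (nat_lit 16) (nat_lit 4) (nat_lit 367) (nat_lit 321) (nat_lit 212))))) (XT.nd (nat_lit 234) (nat_lit 152) (nat_lit 0) (XT.nd (nat_lit 78) (nat_lit 152) (nat_lit 0) (XT.lf (nat_lit 0) (nat_lit 169220074132) (nat_lit 152) (nat_lit 16865085925) (nat_lit 0) (nat_lit 46940266498) (nat_lit 14) (nat_lit 5) (nat_lit 16) (nat_lit 4) (nat_lit 14) (nat_lit 4) (nat_lit 368) (nat_lit 321) (nat_lit 211)) (XT.nd (nat_lit 78) (nat_lit 76) (nat_lit 0) (XT.lf (nat_lit 0) (nat_lit 96588495564) (nat_lit 76) (nat_lit 137153085806) (nat_lit 76) (nat_lit 14871370520) (nat_lit 13) (nat_lit 4) (nat_lit 14) (nat_lit 5) (nat_lit 14) (nat_lit 4) (nat_lit 369) (nat_lit 321) (nat_lit 210)) (XT.lf (nat_lit 0) (nat_lit 37058549110) (nat_lit 152) (nat_lit 46313455954) (nat_lit 76) (nat_lit 182030991476) (nat_lit 12) (nat_lit 5) (nat_lit 14) (nat_lit 5) (nat_lit 13) (nat_lit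 4) (nat_lit 370) (nat_lit 321) (nat_lit 209)))) (XT.nd (nat_lit 78) (nat_lit 76) (nat_lit 0) (XT.lf (nat_lit 0) (nat_lit 69835574376) (nat_lit 76) (nat_lit 23881836117) (nat_lit 152) (nat_lit 189751866618) (nat_lit 11) (nat_lit 5) (nat_lit 12) (nat_lit 5) (nat_lit 13) (nat_lit 4) (nat_lit 371) (nat_lit 321) (nat_lit 208)) (XT.nd (nat_lit 78) (nat_lit 76) (nat_lit 0) (XT.lf (nat_lit 0) (nat_lit 156357537288) (nat_lit 152) (nat_lit 106656816688) (nat_lit 0) (nat_lit 39894078723) (nat_lit 11) (nat_lit 5) (nat_lit 13) (nat_lit 4) (nat_lit 11) (nat_lit 4) (nat_lit 372) (nat_lit 321) (nat_lit 207)) (XT.lf (nat_lit 0) (nat_lit 8752722643) (nat_lit 76) (nat_lit 215793951224) (nat_lit 76) (nat_lit 99329157249) (nat_lit 10) (nat_lit 4) (nat_lit 11) (nat_lit 5) (nat_lit 11) (nat_lit 4) (nat_lit 373) (nat_lit 321) (nat_lit 206))))))))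
noncomputable def xc86 : XT := (XT.nd (nat_lit 43368) (nat_lit 0) (nat_lit 2280) (XT.nd (nat_lit 858) (nat_lit 0) (nat_lit 0) (XT.nd (nat_lit 390) (nat_lit 228) (nat_lit 0) (XT.nd (nat_lit 156) (nat_lit 76) (nat_lit 0) (XT.nd (nat_lit 78) (nat_lit 76) (nat_lit 0) (XT.lf (nat_lit 0) (nat_lit 137200885753) (nat_lit 76) (nat_lit 162846472800) (nat_lit 76) (nat_lit 46380442333) (nat_lit 10) (nat_lit 4) (nat_lit 11) (nat_lit 5) (nat_lit 11) (nat_lit 4) (nat_lit 374) (nat_lit 321) (nat_lit 205)) (XT.lf (nat_lit 0) (nat_lit 10456979724) (nat_lit 152) (nat_lit 95030366931) (nat_lit 76) (nat_lit 265288217169) (nat_lit 9) (nat_lit 5) (nat_lit 11) (nat_lit 5) (nat_lit 10) (nat_lit 4) (nat_lit 375) (nat_lit 321) (nat_lit 204))) (XT.nd (nat_lit 78) (nat_lit 0) (nat_lit 0) (XT.lf (nat_lit 0) (nat_lit 28427234786) (nat_lit 76) (nat_lit 42253482406) (nat_lit 152) (nat_lit 326329200805) (nat_lit 8) (nat_lit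 5) (nat_lit 9) (nat_lit 5) (nat_lit 10) (nat_lit 4) (nat_lit 376) (nat_lit 321) (nat_lit 203)) (XT.nd (nat_lit 78) (nat_lit 0) (nat_lit 0) (XT.lf (nat_lit 0) (nat_lit 137810156412) (nat_lit 152) (nat_lit 260541381634) (nat_lit 0) (nat_lit 26887092576) (nat_lit 8) (nat_lit 5) (nat_lit 10) (nat_lit 4) (nat_lit 8) (nat_lit 4) (nat_lit 377) (nat_lit 321) (nat_lit 202)) (XT.lf (nat_lit 0) (nat_lit 211021268620) (nat_lit 152) (nat_lit 144571466774) (nat_lit 0) (nat_lit 100097339206) (nat_lit 8) (nat_lit 5) (nat_lit 10) (nat_lit 4) (nat_lit 8) (nat_lit 4) (nat_lit 378) (nat_lit 321) (nat_lit 201))))) (XT.nd (nat_lit 234) (nat_lit 152) (nat_lit 0) (XT.nd (nat_lit 78) (nat_lit 76) (nat_lit 0) (XT.lf (nat_lit 0) (nat_lit 290088202171) (nat_lit 152) (nat_lit 19326014233) (nat_lit 0) (nat_lit 179163471294) (nat_lit 8) (nat_lit 5) (nat_lit 10) (nat_lit 4) (nat_lit 8) (nat_lit 4) (nat_lit 379) (nat_lit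 321) (nat_lit 200)) (XT.nd (nat_lit 78) (nat_lit 0) (nat_lit 0) (XT.lf (nat_lit 0) (nat_lit 119770577733) (nat_lit 76) (nat_lit 257578878498) (nat_lit 76) (nat_lit 146653405526) (nat_lit 7) (nat_lit 4) (nat_lit 8) (nat_lit 5) (nat_lit 8) (nat_lit 4) (nat_lit 380) (nat_lit 321) (nat_lit 199)) (XT.lf (nat_lit 0) (nat_lit 270683202257) (nat_lit 76) (nat_lit 201244111310) (nat_lit 76) (nat_lit 90317951213) (nat_lit 7) (nat_lit 4) (nat_lit 8) (nat_lit 5) (nat_lit 8) (nat_lit 4) (nat_lit 381) (nat_lit 321) (nat_lit 198)))) (XT.nd (nat_lit 78) (nat_lit 152) (nat_lit 0) (XT.lf (nat_lit 0) (nat_lit 433667151064) (nat_lit 76) (nat_lit 140403374585) (nat_lit 76) (nat_lit 29476578262) (nat_lit 7) (nat_lit 4) (nat_lit 8) (nat_lit 5) (nat_lit 8) (nat_lit 4) (nat_lit 382) (nat_lit 321) (nat_lit 197)) (XT.nd (nat_lit 78) (nat_lit 76) (nat_lit 0) (XT.lf (nat_lit 0) (nat_lit 35071628374) (nat_lit 152) (nat_lit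 39030547254) (nat_lit 76) (nat_lit 574022671589) (nat_lit 6) (nat_lit 5) (nat_lit 8) (nat_lit 5) (nat_lit 7) (nat_lit 4) (nat_lit 383) (nat_lit 321) (nat_lit 196)) (XT.lf (nat_lit 0) (nat_lit 105153892569) (nat_lit 76) (nat_lit 251874968) (nat_lit 152) (nat_lit 590756141878) (nat_lit 5) (nat_lit 5) (nat_lit 6) (nat_lit 5) (nat_lit 7) (nat_lit 4) (nat_lit 384) (nat_lit 321) (nat_lit 195)))))) (XT.nd (nat_lit 42042) (nat_lit 0) (nat_lit 6992) (XT.nd (nat_lit 156) (nat_lit 0) (nat_lit 0) (XT.nd (nat_lit 78) (nat_lit 0) (nat_lit 0) (XT.lf (nat_lit 0) (nat_lit 183298251214) (nat_lit 152) (nat_lit 486994983092) (nat_lit 0) (nat_lit 77652121746) (nat_lit 5) (nat_lit 5) (nat_lit 7) (nat_lit 4) (nat_lit 5) (nat_lit 4) (nat_lit 385) (nat_lit 321) (nat_lit 194)) (XT.lf (nat_lit 0) (nat_lit 267425697547) (nat_lit 152) (nat_lit 374666480094) (nat_lit 0) (nat_lit 161779122702) (nat_lit 5) (nat_lit 5)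 (nat_lit 7) (nat_lit 4) (nat_lit 5) (nat_lit 4) (nat_lit 386) (nat_lit 321) (nat_lit 193))) (XT.nd (nat_lit 78) (nat_lit 0) (nat_lit 0) (XT.lf (nat_lit 0) (nat_lit 358282707077) (nat_lit 152) (nat_lit 253352924992) (nat_lit 0) (nat_lit 252635719846) (nat_lit 5) (nat_lit 5) (nat_lit 7) (nat_lit 4) (nat_lit 5) (nat_lit 4) (nat_lit 387) (nat_lit 321) (nat_lit 192)) (XT.nd (nat_lit 41730) (nat_lit 0) (nat_lit 7752) (XT.lf (nat_lit 0) (nat_lit 456407691714) (nat_lit 152) (nat_lit 122335422643) (nat_lit 0) (nat_lit 350760322644) (nat_lit 5) (nat_lit 5) (nat_lit 7) (nat_lit 4) (nat_lit 5) (nat_lit 4) (nat_lit 388) (nat_lit 321) (nat_lit 191)) (XT.lf (nat_lit 0) (nat_lit 5374482964) (nat_lit 0) (nat_lit 5374482964) (nat_lit 684) (nat_lit 382073158) (nat_lit 107) (nat_lit 5) (nat_lit 107) (nat_lit 3) (nat_lit 116) (nat_lit 3) (nat_lit 322) (nat_lit 322) (nat_lit 256))))) (XT.nd (nat_lit 234) (nat_lit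 0) (nat_lit 152) (XT.nd (nat_lit 78) (nat_lit 760) (nat_lit 0) (XT.lf (nat_lit 76) (nat_lit 5253836043) (nat_lit 0) (nat_lit 17473967236) (nat_lit 760) (nat_lit 405996648) (nat_lit 108) (nat_lit 5) (nat_lit 107) (nat_lit 5) (nat_lit 117) (nat_lit 5) (nat_lit 323) (nat_lit 322) (nat_lit 255)) (XT.nd (nat_lit 78) (nat_lit 0) (nat_lit 76) (XT.lf (nat_lit 0) (nat_lit 346324881) (nat_lit 760) (nat_lit 488330087) (nat_lit 836) (nat_lit 23222399282) (nat_lit 97) (nat_lit 5) (nat_lit 107) (nat_lit 5) (nat_lit 108) (nat_lit 5) (nat_lit 324) (nat_lit 322) (nat_lit 254)) (XT.lf (nat_lit 0) (nat_lit 1693494723) (nat_lit 760) (nat_lit 6431783966) (nat_lit 836) (nat_lit 16901136372) (nat_lit 98) (nat_lit 5) (nat_lit 108) (nat_lit 5) (nat_lit 109) (nat_lit 5) (nat_lit 325) (nat_lit 322) (nat_lit 253)))) (XT.nd (nat_lit 78) (nat_lit 0) (nat_lit 76) (XT.lf (nat_lit 0) (nat_lit 3524565860) (nat_lit 760)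 (nat_lit 12664901476) (nat_lit 836) (nat_lit 9865072557) (nat_lit 99) (nat_lit 5) (nat_lit 109) (nat_lit 5) (nat_lit 110) (nat_lit 5) (nat_lit 326) (nat_lit 322) (nat_lit 252)) (XT.nd (nat_lit 78) (nat_lit 0) (nat_lit 0) (XT.lf (nat_lit 0) (nat_lit 5894225854) (nat_lit 760) (nat_lit 19208640155) (nat_lit 836) (nat_lit 2042463486) (nat_lit 100) (nat_lit 5) (nat_lit 110) (nat_lit 5) (nat_lit 111) (nat_lit 5) (nat_lit 327) (nat_lit 322) (nat_lit 251)) (XT.lf (nat_lit 76) (nat_lit 2104625943) (nat_lit 0) (nat_lit 6863803819) (nat_lit 836) (nat_lit 19329222413) (nat_lit 101) (nat_lit 5) (nat_lit 100) (nat_lit 5) (nat_lit 111) (nat_lit 5) (nat_lit 328) (nat_lit 322) (nat_lit 250))))))) (XT.nd (nat_lit 858) (nat_lit 1672) (nat_lit 0) (XT.nd (nat_lit 390) (nat_lit 1444) (nat_lit 0) (XT.nd (nat_lit 156) (nat_lit 1140) (nat_lit 0) (XT.nd (nat_lit 78) (nat_lit 760) (nat_lit 0) (XT.lf (nat_lit 0) (nat_lit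 12814903161) (nat_lit 760) (nat_lit 3935078748) (nat_lit 76) (nat_lit 12765879201) (nat_lit 101) (nat_lit 5) (nat_lit 111) (nat_lit 5) (nat_lit 102) (nat_lit 5) (nat_lit 329) (nat_lit 322) (nat_lit 249)) (XT.lf (nat_lit 0) (nat_lit 17444563003) (nat_lit 836) (nat_lit 10224391620) (nat_lit 76) (nat_lit 3138814540) (nat_lit 91) (nat_lit 5) (nat_lit 102) (nat_lit 5) (nat_lit 92) (nat_lit 5) (nat_lit 330) (nat_lit 322) (nat_lit 248))) (XT.nd (nat_lit 78) (nat_lit 760) (nat_lit 0) (XT.lf (nat_lit 0) (nat_lit 15195140979) (nat_lit 380) (nat_lit 7826522054) (nat_lit 456) (nat_lit 9152528116) (nat_lit 86) (nat_lit 5) (nat_lit 91) (nat_lit 5) (nat_lit 92) (nat_lit 5) (nat_lit 331) (nat_lit 322) (nat_lit 247)) (XT.nd (nat_lit 78) (nat_lit 456) (nat_lit 0) (XT.lf (nat_lit 0) (nat_lit 9447450435) (nat_lit 304) (nat_lit 20126847842) (nat_lit 380) (nat_lit 4049173830) (nat_lit 82) (nat_lit 5) (nat_lit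 86) (nat_lit 5) (nat_lit 87) (nat_lit 5) (nat_lit 332) (nat_lit 322) (nat_lit 246)) (XT.lf (nat_lit 0) (nat_lit 1912473766) (nat_lit 456) (nat_lit 31830318898) (nat_lit 76) (nat_lit 1419931577) (nat_lit 76) (nat_lit 5) (nat_lit 82) (nat_lit 5) (nat_lit 77) (nat_lit 5) (nat_lit 333) (nat_lit 322) (nat_lit 245))))) (XT.nd (nat_lit 234) (nat_lit 836) (nat_lit 0) (XT.nd (nat_lit 78) (nat_lit 608) (nat_lit 0) (XT.lf (nat_lit 0) (nat_lit 8968069799) (nat_lit 456) (nat_lit 3325600299) (nat_lit 76) (nat_lit 24490194539) (nat_lit 76) (nat_lit 5) (nat_lit 82) (nat_lit 5) (nat_lit 77) (nat_lit 5) (nat_lit 334) (nat_lit 322) (nat_lit 244)) (XT.nd (nat_lit 78) (nat_lit 304) (nat_lit 0) (XT.lf (nat_lit 0) (nat_lit 17198148507) (nat_lit 380) (nat_lit 10333888878) (nat_lit 76) (nat_lit 10972167391) (nat_lit 72) (nat_lit 5) (nat_lit 77) (nat_lit 5) (nat_lit 73) (nat_lit 5) (nat_lit 335) (nat_lit 322) (nat_lit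 243)) (XT.lf (nat_lit 0) (nat_lit 22444607503) (nat_lit 304) (nat_lit 4249498911) (nat_lit 380) (nat_lit 13637701569) (nat_lit 68) (nat_lit 5) (nat_lit 72) (nat_lit 5) (nat_lit 73) (nat_lit 5) (nat_lit 336) (nat_lit 322) (nat_lit 242)))) (XT.nd (nat_lit 78) (nat_lit 608) (nat_lit 0) (XT.lf (nat_lit 0) (nat_lit 16092825161) (nat_lit 228) (nat_lit 21608731162) (nat_lit 304) (nat_lit 4566481153) (nat_lit 65) (nat_lit 5) (nat_lit 68) (nat_lit 5) (nat_lit 69) (nat_lit 5) (nat_lit 337) (nat_lit 322) (nat_lit 241)) (XT.nd (nat_lit 78) (nat_lit 228) (nat_lit 0) (XT.lf (nat_lit 0) (nat_lit 5643502295) (nat_lit 380) (nat_lit 35173311871) (nat_lit 76) (nat_lit 3509252229) (nat_lit 60) (nat_lit 5) (nat_lit 65) (nat_lit 5) (nat_lit 61) (nat_lit 5) (nat_lit 338) (nat_lit 322) (nat_lit 240)) (XT.lf (nat_lit 0) (nat_lit 1297879950) (nat_lit 228) (nat_lit 16054729116) (nat_lit 304) (nat_lit 29150277134)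 (nat_lit 57) (nat_lit 5) (nat_lit 60) (nat_lit 5) (nat_lit 61) (nat_lit 5) (nat_lit 339) (nat_lit 322) (nat_lit 239)))))) (XT.nd (nat_lit 390) (nat_lit 836) (nat_lit 0) (XT.nd (nat_lit 156) (nat_lit 608) (nat_lit 0) (XT.nd (nat_lit 78) (nat_lit 228) (nat_lit 0) (XT.lf (nat_lit 0) (nat_lit 30780561695) (nat_lit 304) (nat_lit 7067771693) (nat_lit 76) (nat_lit 10966418984) (nat_lit 57) (nat_lit 5) (nat_lit 61) (nat_lit 5) (nat_lit 58) (nat_lit 5) (nat_lit 340) (nat_lit 322) (nat_lit 238)) (XT.lf (nat_lit 0) (nat_lit 34958977016) (nat_lit 228) (nat_lit 11133350627) (nat_lit 304) (nat_lit 5178767500) (nat_lit 54) (nat_lit 5) (nat_lit 57) (nat_lit 5) (nat_lit 58) (nat_lit 5) (nat_lit 341) (nat_lit 322) (nat_lit 237))) (XT.nd (nat_lit 78) (nat_lit 380) (nat_lit 0) (XT.lf (nat_lit 0) (nat_lit 9260798615) (nat_lit 228) (nat_lit 26765287200) (nat_lit 76) (nat_lit 17849353094) (nat_lit 51) (nat_lit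 5) (nat_lit 54) (nat_lit 5) (nat_lit 52) (nat_lit 5) (nat_lit 342) (nat_lit 322) (nat_lit 236)) (XT.nd (nat_lit 78) (nat_lit 152) (nat_lit 0) (XT.lf (nat_lit 0) (nat_lit 18208524307) (nat_lit 228) (nat_lit 7222437621) (nat_lit 304) (nat_lit 31215084851) (nat_lit 48) (nat_lit 5) (nat_lit 51) (nat_lit 5) (nat_lit 52) (nat_lit 5) (nat_lit 343) (nat_lit 322) (nat_lit 235)) (XT.lf (nat_lit 0) (nat_lit 7986908265) (nat_lit 152) (nat_lit 35873238265) (nat_lit 228) (nat_lit 15729890994) (nat_lit 46) (nat_lit 5) (nat_lit 48) (nat_lit 5) (nat_lit 49) (nat_lit 5) (nat_lit 344) (nat_lit 322) (nat_lit 234))))) (XT.nd (nat_lit 234) (nat_lit 380) (nat_lit 0) (XT.nd (nat_lit 78) (nat_lit 380) (nat_lit 0) (XT.lf (nat_lit 0) (nat_lit 1758745226) (nat_lit 228) (nat_lit 3395453219) (nat_lit 76) (nat_lit 57574754898) (nat_lit 45) (nat_lit 5) (nat_lit 48) (nat_lit 5) (nat_lit 46) (nat_lit 5) (nat_lit 345) (nat_lit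 322) (nat_lit 233)) (XT.nd (nat_lit 78) (nat_lit 152) (nat_lit 0) (XT.lf (nat_lit 0) (nat_lit 21332480303) (nat_lit 304) (nat_lit 16526128037) (nat_lit 76) (nat_lit 28185629200) (nat_lit 42) (nat_lit 5) (nat_lit 46) (nat_lit 5) (nat_lit 43) (nat_lit 5) (nat_lit 346) (nat_lit 322) (nat_lit 232)) (XT.lf (nat_lit 0) (nat_lit 38293804730) (nat_lit 152) (nat_lit 4918006317) (nat_lit 228) (nat_lit 26375952103) (nat_lit 40) (nat_lit 5) (nat_lit 42) (nat_lit 5) (nat_lit 43) (nat_lit 5) (nat_lit 347) (nat_lit 322) (nat_lit 231)))) (XT.nd (nat_lit 78) (nat_lit 228) (nat_lit 0) (XT.lf (nat_lit 0) (nat_lit 24997780949) (nat_lit 152) (nat_lit 43000257343) (nat_lit 228) (nat_lit 5358908273) (nat_lit 38) (nat_lit 5) (nat_lit 40) (nat_lit 5) (nat_lit 41) (nat_lit 5) (nat_lit 348) (nat_lit 322) (nat_lit 230)) (XT.nd (nat_lit 78) (nat_lit 0) (nat_lit 0) (XT.lf (nat_lit 0) (nat_lit 9441719871) (nat_lit 152)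 (nat_lit 8122386956) (nat_lit 228) (nat_lit 59811045792) (nat_lit 35) (nat_lit 5) (nat_lit 37) (nat_lit 5) (nat_lit 38) (nat_lit 5) (nat_lit 349) (nat_lit 322) (nat_lit 229)) (XT.lf (nat_lit 0) (nat_lit 43448588268) (nat_lit 228) (nat_lit 8652277452) (nat_lit 76) (nat_lit 29543790792) (nat_lit 35) (nat_lit 5) (nat_lit 38) (nat_lit 5) (nat_lit 36) (nat_lit 5) (nat_lit 350) (nat_lit 322) (nat_lit 228))))))))
noncomputable def xc87 : XT := (XT.nd (nat_lit 1716) (nat_lit 456) (nat_lit 0) (XT.nd (nat_lit 858) (nat_lit 684) (nat_lit 0) (XT.nd (nat_lit 390) (nat_lit 532) (nat_lit 0) (XT.nd (nat_lit 156) (nat_lit 304) (nat_lit 0) (XT.nd (nat_lit 78) (nat_lit 152) (nat_lit 0) (XT.lf (nat_lit 0) (nat_lit 57053359110) (nat_lit 152) (nat_lit 15373911241) (nat_lit 228) (nat_lit 13777280724) (nat_lit 33) (nat_lit 5) (nat_lit 35) (nat_lit 5) (nat_lit 36) (nat_lit 5) (nat_lit 351) (nat_lit 322) (nat_lit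 227)) (XT.lf (nat_lit 0) (nat_lit 13332388803) (nat_lit 152) (nat_lit 53256914500) (nat_lit 76) (nat_lit 24473079004) (nat_lit 31) (nat_lit 5) (nat_lit 33) (nat_lit 5) (nat_lit 32) (nat_lit 5) (nat_lit 352) (nat_lit 322) (nat_lit 226))) (XT.nd (nat_lit 78) (nat_lit 152) (nat_lit 0) (XT.lf (nat_lit 0) (nat_lit 14844643266) (nat_lit 152) (nat_lit 28293094260) (nat_lit 228) (nat_lit 53109331948) (nat_lit 29) (nat_lit 5) (nat_lit 31) (nat_lit 5) (nat_lit 32) (nat_lit 5) (nat_lit 353) (nat_lit 322) (nat_lit 225)) (XT.nd (nat_lit 78) (nat_lit 152) (nat_lit 0) (XT.lf (nat_lit 0) (nat_lit 76470606726) (nat_lit 228) (nat_lit 11729905338) (nat_lit 76) (nat_lit 13588866784) (nat_lit 29) (nat_lit 5) (nat_lit 32) (nat_lit 5) (nat_lit 30) (nat_lit 4) (nat_lit 354) (nat_lit 322) (nat_lit 224)) (XT.lf (nat_lit 0) (nat_lit 6059384522) (nat_lit 152) (nat_lit 42680952358) (nat_lit 76) (nat_lit 58955341486)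 (nat_lit 27) (nat_lit 5) (nat_lit 29) (nat_lit 5) (nat_lit 28) (nat_lit 5) (nat_lit 355) (nat_lit 322) (nat_lit 223))))) (XT.nd (nat_lit 234) (nat_lit 304) (nat_lit 0) (XT.nd (nat_lit 78) (nat_lit 76) (nat_lit 0) (XT.lf (nat_lit 0) (nat_lit 34935406136) (nat_lit 152) (nat_lit 4886887381) (nat_lit 228) (nat_lit 74193359443) (nat_lit 25) (nat_lit 5) (nat_lit 27) (nat_lit 5) (nat_lit 28) (nat_lit 5) (nat_lit 356) (nat_lit 322) (nat_lit 222)) (XT.nd (nat_lit 78) (nat_lit 76) (nat_lit 0) (XT.lf (nat_lit 0) (nat_lit 77701745537) (nat_lit 228) (nat_lit 1200067784) (nat_lit 76) (nat_lit 41868638096) (nat_lit 25) (nat_lit 5) (nat_lit 28) (nat_lit 5) (nat_lit 26) (nat_lit 4) (nat_lit 357) (nat_lit 322) (nat_lit 221)) (XT.lf (nat_lit 0) (nat_lit 85561177819) (nat_lit 76) (nat_lit 34465568518) (nat_lit 152) (nat_lit 7968129086) (nat_lit 24) (nat_lit 5) (nat_lit 25) (nat_lit 5) (nat_lit 26) (nat_lit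 4) (nat_lit 358) (nat_lit 322) (nat_lit 220)))) (XT.nd (nat_lit 78) (nat_lit 76) (nat_lit 0) (XT.lf (nat_lit 0) (nat_lit 29925165235) (nat_lit 228) (nat_lit 91508923069) (nat_lit 76) (nat_lit 14292645735) (nat_lit 21) (nat_lit 5) (nat_lit 24) (nat_lit 5) (nat_lit 22) (nat_lit 4) (nat_lit 359) (nat_lit 322) (nat_lit 219)) (XT.nd (nat_lit 78) (nat_lit 76) (nat_lit 0) (XT.lf (nat_lit 0) (nat_lit 71904071035) (nat_lit 228) (nat_lit 5456253675) (nat_lit 76) (nat_lit 66643620829) (nat_lit 21) (nat_lit 5) (nat_lit 24) (nat_lit 5) (nat_lit 22) (nat_lit 4) (nat_lit 360) (nat_lit 322) (nat_lit 218)) (XT.lf (nat_lit 0) (nat_lit 90368181516) (nat_lit 76) (nat_lit 28281362645) (nat_lit 152) (nat_lit 34223378040) (nat_lit 20) (nat_lit 5) (nat_lit 21) (nat_lit 5) (nat_lit 22) (nat_lit 4) (nat_lit 361) (nat_lit 322) (nat_lit 217)))))) (XT.nd (nat_lit 390) (nat_lit 304) (nat_lit 0) (XT.nd (nat_lit 156)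 (nat_lit 228) (nat_lit 0) (XT.nd (nat_lit 78) (nat_lit 0) (nat_lit 0) (XT.lf (nat_lit 0) (nat_lit 7468973417) (nat_lit 152) (nat_lit 130276117240) (nat_lit 76) (nat_lit 24651127973) (nat_lit 18) (nat_lit 5) (nat_lit 20) (nat_lit 5) (nat_lit 19) (nat_lit 4) (nat_lit 362) (nat_lit 322) (nat_lit 216)) (XT.lf (nat_lit 0) (nat_lit 52894763943) (nat_lit 152) (nat_lit 37156336933) (nat_lit 76) (nat_lit 82522373182) (nat_lit 18) (nat_lit 5) (nat_lit 20) (nat_lit 5) (nat_lit 19) (nat_lit 4) (nat_lit 363) (nat_lit 322) (nat_lit 215))) (XT.nd (nat_lit 78) (nat_lit 152) (nat_lit 0) (XT.lf (nat_lit 0) (nat_lit 65505385390) (nat_lit 76) (nat_lit 37469663278) (nat_lit 152) (nat_lit 80538840452) (nat_lit 17) (nat_lit 5) (nat_lit 18) (nat_lit 5) (nat_lit 19) (nat_lit 4) (nat_lit 364) (nat_lit 322) (nat_lit 214)) (XT.nd (nat_lit 78) (nat_lit 152) (nat_lit 0) (XT.lf (nat_lit 0) (nat_lit 158019004789) (nat_lit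 152) (nat_lit 17906631583) (nat_lit 0) (nat_lit 19356039273) (nat_lit 17) (nat_lit 5) (nat_lit 19) (nat_lit 4) (nat_lit 17) (nat_lit 4) (nat_lit 365) (nat_lit 322) (nat_lit 213)) (XT.lf (nat_lit 0) (nat_lit 11280718570) (nat_lit 152) (nat_lit 115539828787) (nat_lit 76) (nat_lit 81057521097) (nat_lit 15) (nat_lit 5) (nat_lit 17) (nat_lit 5) (nat_lit 16) (nat_lit 4) (nat_lit 366) (nat_lit 322) (nat_lit 212))))) (XT.nd (nat_lit 234) (nat_lit 228) (nat_lit 0) (XT.nd (nat_lit 78) (nat_lit 76) (nat_lit 0) (XT.lf (nat_lit 0) (nat_lit 62734577700) (nat_lit 152) (nat_lit 10061580847) (nat_lit 76) (nat_lit 148638846479) (nat_lit 15) (nat_lit 5) (nat_lit 17) (nat_lit 5) (nat_lit 16) (nat_lit 4) (nat_lit 367) (nat_lit 322) (nat_lit 211)) (XT.nd (nat_lit 78) (nat_lit 0) (nat_lit 0) (XT.lf (nat_lit 0) (nat_lit 107285286529) (nat_lit 76) (nat_lit 12692642592) (nat_lit 152) (nat_lit 116014908749) (nat_lit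 14) (nat_lit 5) (nat_lit 15) (nat_lit 5) (nat_lit 16) (nat_lit 4) (nat_lit 368) (nat_lit 322) (nat_lit 210)) (XT.lf (nat_lit 0) (nat_lit 182792396039) (nat_lit 152) (nat_lit 18148849883) (nat_lit 0) (nat_lit 50724469532) (nat_lit 14) (nat_lit 5) (nat_lit 16) (nat_lit 4) (nat_lit 14) (nat_lit 4) (nat_lit 369) (nat_lit 322) (nat_lit 209)))) (XT.nd (nat_lit 78) (nat_lit 152) (nat_lit 0) (XT.lf (nat_lit 0) (nat_lit 104378174056) (nat_lit 76) (nat_lit 148095855590) (nat_lit 76) (nat_lit 16026293578) (nat_lit 13) (nat_lit 4) (nat_lit 14) (nat_lit 5) (nat_lit 14) (nat_lit 4) (nat_lit 370) (nat_lit 322) (nat_lit 208)) (XT.nd (nat_lit 78) (nat_lit 76) (nat_lit 0) (XT.lf (nat_lit 0) (nat_lit 40054411924) (nat_lit 152) (nat_lit 49959531924) (nat_lit 76) (nat_lit 196619725775) (nat_lit 12) (nat_lit 5) (nat_lit 14) (nat_lit 5) (nat_lit 13) (nat_lit 4) (nat_lit 371) (nat_lit 322) (nat_lit 207)) (XT.lf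 (nat_lit 0) (nat_lit 75478856743) (nat_lit 76) (nat_lit 25765697058) (nat_lit 152) (nat_lit 204900770830) (nat_lit 11) (nat_lit 5) (nat_lit 12) (nat_lit 5) (nat_lit 13) (nat_lit 4) (nat_lit 372) (nat_lit 322) (nat_lit 206))))))) (XT.nd (nat_lit 858) (nat_lit 152) (nat_lit 0) (XT.nd (nat_lit 390) (nat_lit 76) (nat_lit 0) (XT.nd (nat_lit 156) (nat_lit 152) (nat_lit 0) (XT.nd (nat_lit 78) (nat_lit 76) (nat_lit 0) (XT.lf (nat_lit 0) (nat_lit 168894072780) (nat_lit 152) (nat_lit 115136107926) (nat_lit 0) (nat_lit 43109523384) (nat_lit 11) (nat_lit 5) (nat_lit 13) (nat_lit 4) (nat_lit 11) (nat_lit 4) (nat_lit 373) (nat_lit 322) (nat_lit 205)) (XT.lf (nat_lit 0) (nat_lit 9503880193) (nat_lit 76) (nat_lit 233033186330) (nat_lit 76) (nat_lit 107247492034) (nat_lit 10) (nat_lit 4) (nat_lit 11) (nat_lit 5) (nat_lit 11) (nat_lit 4) (nat_lit 374) (nat_lit 322) (nat_lit 204))) (XT.nd (nat_lit 78) (nat_lit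 152) (nat_lit 0) (XT.lf (nat_lit 0) (nat_lit 148224123038) (nat_lit 76) (nat_lit 175851708224) (nat_lit 76) (nat_lit 50064953835) (nat_lit 10) (nat_lit 4) (nat_lit 11) (nat_lit 5) (nat_lit 11) (nat_lit 4) (nat_lit 375) (nat_lit 322) (nat_lit 203)) (XT.nd (nat_lit 78) (nat_lit 76) (nat_lit 0) (XT.lf (nat_lit 0) (nat_lit 11316773433) (nat_lit 152) (nat_lit 102588350416) (nat_lit 76) (nat_lit 286531318325) (nat_lit 9) (nat_lit 5) (nat_lit 11) (nat_lit 5) (nat_lit 10) (nat_lit 4) (nat_lit 376) (nat_lit 322) (nat_lit 202)) (XT.lf (nat_lit 0) (nat_lit 30743927875) (nat_lit 76) (nat_lit 45613424656) (nat_lit 152) (nat_lit 352412245389) (nat_lit 8) (nat_lit 5) (nat_lit 9) (nat_lit 5) (nat_lit 10) (nat_lit 4) (nat_lit 377) (nat_lit 322) (nat_lit 201))))) (XT.nd (nat_lit 234) (nat_lit 76) (nat_lit 0) (XT.nd (nat_lit 78) (nat_lit 0) (nat_lit 0) (XT.lf (nat_lit 0) (nat_lit 148855798064) (nat_lit 152)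 (nat_lit 281344590020) (nat_lit 0) (nat_lit 29056287254) (nat_lit 8) (nat_lit 5) (nat_lit 10) (nat_lit 4) (nat_lit 8) (nat_lit 4) (nat_lit 378) (nat_lit 322) (nat_lit 200)) (XT.nd (nat_lit 78) (nat_lit 0) (nat_lit 0) (XT.lf (nat_lit 0) (nat_lit 227922256350) (nat_lit 152) (nat_lit 156100052501) (nat_lit 0) (nat_lit 108122003446) (nat_lit 8) (nat_lit 5) (nat_lit 10) (nat_lit 4) (nat_lit 8) (nat_lit 4) (nat_lit 379) (nat_lit 322) (nat_lit 199)) (XT.lf (nat_lit 0) (nat_lit 313313115975) (nat_lit 152) (nat_lit 20837714246) (nat_lit 0) (nat_lit 193512175945) (nat_lit 8) (nat_lit 5) (nat_lit 10) (nat_lit 4) (nat_lit 8) (nat_lit 4) (nat_lit 380) (nat_lit 322) (nat_lit 198)))) (XT.nd (nat_lit 78) (nat_lit 0) (nat_lit 0) (XT.lf (nat_lit 0) (nat_lit 129385110915) (nat_lit 76) (nat_lit 278169350114) (nat_lit 76) (nat_lit 158367773858) (nat_lit 7) (nat_lit 4) (nat_lit 8) (nat_lit 5) (nat_lit 8) (nat_lit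 4) (nat_lit 381) (nat_lit 322) (nat_lit 197)) (XT.nd (nat_lit 78) (nat_lit 0) (nat_lit 0) (XT.lf (nat_lit 0) (nat_lit 292368309330) (nat_lit 76) (nat_lit 217328974785) (nat_lit 76) (nat_lit 97526809430) (nat_lit 7) (nat_lit 4) (nat_lit 8) (nat_lit 5) (nat_lit 8) (nat_lit 4) (nat_lit 382) (nat_lit 322) (nat_lit 196)) (XT.lf (nat_lit 0) (nat_lit 468388718419) (nat_lit 76) (nat_lit 151622065451) (nat_lit 76) (nat_lit 31819354634) (nat_lit 7) (nat_lit 4) (nat_lit 8) (nat_lit 5) (nat_lit 8) (nat_lit 4) (nat_lit 383) (nat_lit 322) (nat_lit 195)))))) (XT.nd (nat_lit 42276) (nat_lit 0) (nat_lit 6992) (XT.nd (nat_lit 234) (nat_lit 0) (nat_lit 0) (XT.nd (nat_lit 78) (nat_lit 76) (nat_lit 0) (XT.lf (nat_lit 0) (nat_lit 37891116604) (nat_lit 152) (nat_lit 42126426835) (nat_lit 76) (nat_lit 619956601091) (nat_lit 6) (nat_lit 5) (nat_lit 8) (nat_lit 5) (nat_lit 7) (nat_lit 4) (nat_lit 384) (nat_lit 322)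 (nat_lit 194)) (XT.nd (nat_lit 78) (nat_lit 0) (nat_lit 0) (XT.lf (nat_lit 0) (nat_lit 113591613726) (nat_lit 76) (nat_lit 259750783) (nat_lit 152) (nat_lit 638002838503) (nat_lit 5) (nat_lit 5) (nat_lit 6) (nat_lit 5) (nat_lit 7) (nat_lit 4) (nat_lit 385) (nat_lit 322) (nat_lit 193)) (XT.lf (nat_lit 0) (nat_lit 197974451314) (nat_lit 152) (nat_lit 525930621301) (nat_lit 0) (nat_lit 83875292719) (nat_lit 5) (nat_lit 5) (nat_lit 7) (nat_lit 4) (nat_lit 5) (nat_lit 4) (nat_lit 386) (nat_lit 322) (nat_lit 192)))) (XT.nd (nat_lit 41886) (nat_lit 0) (nat_lit 7752) (XT.lf (nat_lit 0) (nat_lit 288831179279) (nat_lit 152) (nat_lit 404617612911) (nat_lit 0) (nat_lit 174731638845) (nat_lit 5) (nat_lit 5) (nat_lit 7) (nat_lit 4) (nat_lit 5) (nat_lit 4) (nat_lit 387) (nat_lit 322) (nat_lit 191)) (XT.nd (nat_lit 78) (nat_lit 0) (nat_lit 0) (XT.lf (nat_lit 0) (nat_lit 5901042319) (nat_lit 0) (nat_lit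 5901042319) (nat_lit 684) (nat_lit 209520178) (nat_lit 107) (nat_lit 5) (nat_lit 107) (nat_lit 3) (nat_lit 116) (nat_lit 3) (nat_lit 323) (nat_lit 323) (nat_lit 254)) (XT.lf (nat_lit 76) (nat_lit 5880806188) (nat_lit 0) (nat_lit 19023435405) (nat_lit 760) (nat_lit 61875096) (nat_lit 108) (nat_lit 5) (nat_lit 107) (nat_lit 5) (nat_lit 117) (nat_lit 5) (nat_lit 324) (nat_lit 323) (nat_lit 253))))) (XT.nd (nat_lit 234) (nat_lit 0) (nat_lit 228) (XT.nd (nat_lit 78) (nat_lit 0) (nat_lit 76) (XT.lf (nat_lit 0) (nat_lit 711575030) (nat_lit 760) (nat_lit 324460668) (nat_lit 836) (nat_lit 24928285465) (nat_lit 97) (nat_lit 5) (nat_lit 107) (nat_lit 5) (nat_lit 108) (nat_lit 5) (nat_lit 325) (nat_lit 323) (nat_lit 252)) (XT.nd (nat_lit 78) (nat_lit 0) (nat_lit 76) (XT.lf (nat_lit 0) (nat_lit 2142649636) (nat_lit 760) (nat_lit 6734146276) (nat_lit 836) (nat_lit 18135659496) (nat_lit 98) (nat_lit 5)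 (nat_lit 108) (nat_lit 5) (nat_lit 109) (nat_lit 5) (nat_lit 326) (nat_lit 323) (nat_lit 251)) (XT.lf (nat_lit 0) (nat_lit 4098724723) (nat_lit 760) (nat_lit 13458678280) (nat_lit 836) (nat_lit 10566530131) (nat_lit 99) (nat_lit 5) (nat_lit 109) (nat_lit 5) (nat_lit 110) (nat_lit 5) (nat_lit 327) (nat_lit 323) (nat_lit 250)))) (XT.nd (nat_lit 78) (nat_lit 0) (nat_lit 0) (XT.lf (nat_lit 0) (nat_lit 6638591972) (nat_lit 760) (nat_lit 20520428284) (nat_lit 836) (nat_lit 2143960612) (nat_lit 100) (nat_lit 5) (nat_lit 110) (nat_lit 5) (nat_lit 111) (nat_lit 5) (nat_lit 328) (nat_lit 323) (nat_lit 249)) (XT.nd (nat_lit 78) (nat_lit 0) (nat_lit 76) (XT.lf (nat_lit 76) (nat_lit 2488125088) (nat_lit 0) (nat_lit 7453756387) (nat_lit 836) (nat_lit 20606475134) (nat_lit 101) (nat_lit 5) (nat_lit 100) (nat_lit 5) (nat_lit 111) (nat_lit 5) (nat_lit 329) (nat_lit 323) (nat_lit 248)) (XT.lf (nat_lit 0)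 (nat_lit 14076520948) (nat_lit 760) (nat_lit 4037964153) (nat_lit 76) (nat_lit 13750537627) (nat_lit 101) (nat_lit 5) (nat_lit 111) (nat_lit 5) (nat_lit 102) (nat_lit 5) (nat_lit 330) (nat_lit 323) (nat_lit 247))))))))
noncomputable def xc88 : XT := (XT.nd (nat_lit 1716) (nat_lit 1672) (nat_lit 0) (XT.nd (nat_lit 858) (nat_lit 1824) (nat_lit 0) (XT.nd (nat_lit 390) (nat_lit 1444) (nat_lit 0) (XT.nd (nat_lit 156) (nat_lit 760) (nat_lit 0) (XT.nd (nat_lit 78) (nat_lit 380) (nat_lit 0) (XT.lf (nat_lit 0) (nat_lit 19061903099) (nat_lit 836) (nat_lit 10827960836) (nat_lit 76) (nat_lit 3371173199) (nat_lit 91) (nat_lit 5) (nat_lit 102) (nat_lit 5) (nat_lit 92) (nat_lit 5) (nat_lit 331) (nat_lit 323) (nat_lit 246)) (XT.lf (nat_lit 0) (nat_lit 16615817586) (nat_lit 380) (nat_lit 8456127409) (nat_lit 456) (nat_lit 9665508807) (nat_lit 86) (nat_lit 5) (nat_lit 91) (nat_lit 5) (nat_lit 92) (nat_lit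 5) (nat_lit 332) (nat_lit 323) (nat_lit 245))) (XT.nd (nat_lit 78) (nat_lit 456) (nat_lit 0) (XT.lf (nat_lit 0) (nat_lit 10409660753) (nat_lit 304) (nat_lit 21726854582) (nat_lit 380) (nat_lit 4166793849) (nat_lit 82) (nat_lit 5) (nat_lit 86) (nat_lit 5) (nat_lit 87) (nat_lit 5) (nat_lit 333) (nat_lit 323) (nat_lit 244)) (XT.nd (nat_lit 78) (nat_lit 0) (nat_lit 0) (XT.lf (nat_lit 0) (nat_lit 2253821045) (nat_lit 456) (nat_lit 34163419870) (nat_lit 76) (nat_lit 1548883593) (nat_lit 76) (nat_lit 5) (nat_lit 82) (nat_lit 5) (nat_lit 77) (nat_lit 5) (nat_lit 334) (nat_lit 323) (nat_lit 243)) (XT.lf (nat_lit 0) (nat_lit 9859912954) (nat_lit 456) (nat_lit 3394125600) (nat_lit 76) (nat_lit 26463630001) (nat_lit 76) (nat_lit 5) (nat_lit 82) (nat_lit 5) (nat_lit 77) (nat_lit 5) (nat_lit 335) (nat_lit 323) (nat_lit 242))))) (XT.nd (nat_lit 234) (nat_lit 608) (nat_lit 0) (XT.nd (nat_lit 78) (nat_lit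 532) (nat_lit 0) (XT.lf (nat_lit 0) (nat_lit 18738812145) (nat_lit 380) (nat_lit 10963650928) (nat_lit 76) (nat_lit 11873665856) (nat_lit 72) (nat_lit 5) (nat_lit 77) (nat_lit 5) (nat_lit 73) (nat_lit 5) (nat_lit 336) (nat_lit 323) (nat_lit 241)) (XT.nd (nat_lit 78) (nat_lit 228) (nat_lit 0) (XT.lf (nat_lit 0) (nat_lit 24428565998) (nat_lit 304) (nat_lit 4556613702) (nat_lit 380) (nat_lit 14565236755) (nat_lit 68) (nat_lit 5) (nat_lit 72) (nat_lit 5) (nat_lit 73) (nat_lit 5) (nat_lit 337) (nat_lit 323) (nat_lit 240)) (XT.lf (nat_lit 0) (nat_lit 17567554625) (nat_lit 228) (nat_lit 23297548292) (nat_lit 304) (nat_lit 4776859296) (nat_lit 65) (nat_lit 5) (nat_lit 68) (nat_lit 5) (nat_lit 69) (nat_lit 5) (nat_lit 338) (nat_lit 323) (nat_lit 239)))) (XT.nd (nat_lit 78) (nat_lit 228) (nat_lit 0) (XT.lf (nat_lit 0) (nat_lit 6237387801) (nat_lit 380) (nat_lit 37796579093) (nat_lit 76) (nat_lit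 3830934779) (nat_lit 60) (nat_lit 5) (nat_lit 65) (nat_lit 5) (nat_lit 61) (nat_lit 5) (nat_lit 339) (nat_lit 323) (nat_lit 238)) (XT.nd (nat_lit 78) (nat_lit 0) (nat_lit 0) (XT.lf (nat_lit 0) (nat_lit 1584024929) (nat_lit 228) (nat_lit 17291496084) (nat_lit 304) (nat_lit 31340740767) (nat_lit 57) (nat_lit 5) (nat_lit 60) (nat_lit 5) (nat_lit 61) (nat_lit 5) (nat_lit 340) (nat_lit 323) (nat_lit 237)) (XT.lf (nat_lit 0) (nat_lit 33368420120) (nat_lit 304) (nat_lit 7458724399) (nat_lit 76) (nat_lit 11886406115) (nat_lit 57) (nat_lit 5) (nat_lit 61) (nat_lit 5) (nat_lit 58) (nat_lit 5) (nat_lit 341) (nat_lit 323) (nat_lit 236)))))) (XT.nd (nat_lit 390) (nat_lit 912) (nat_lit 0) (XT.nd (nat_lit 156) (nat_lit 456) (nat_lit 0) (XT.nd (nat_lit 78) (nat_lit 228) (nat_lit 0) (XT.lf (nat_lit 0) (nat_lit 37922581996) (nat_lit 228) (nat_lit 11975861031) (nat_lit 304) (nat_lit 5468300256) (nat_lit 54)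 (nat_lit 5) (nat_lit 57) (nat_lit 5) (nat_lit 58) (nat_lit 5) (nat_lit 342) (nat_lit 323) (nat_lit 235)) (XT.lf (nat_lit 0) (nat_lit 10116812506) (nat_lit 228) (nat_lit 28737920032) (nat_lit 76) (nat_lit 19324893144) (nat_lit 51) (nat_lit 5) (nat_lit 54) (nat_lit 5) (nat_lit 52) (nat_lit 5) (nat_lit 343) (nat_lit 323) (nat_lit 234))) (XT.nd (nat_lit 78) (nat_lit 228) (nat_lit 0) (XT.lf (nat_lit 0) (nat_lit 19826469674) (nat_lit 228) (nat_lit 7748107354) (nat_lit 304) (nat_lit 33597612475) (nat_lit 48) (nat_lit 5) (nat_lit 51) (nat_lit 5) (nat_lit 52) (nat_lit 5) (nat_lit 344) (nat_lit 323) (nat_lit 233)) (XT.nd (nat_lit 78) (nat_lit 76) (nat_lit 0) (XT.lf (nat_lit 0) (nat_lit 8784637795) (nat_lit 152) (nat_lit 38688606786) (nat_lit 228) (nat_lit 16878703747) (nat_lit 46) (nat_lit 5) (nat_lit 48) (nat_lit 5) (nat_lit 49) (nat_lit 5) (nat_lit 345) (nat_lit 323) (nat_lit 232)) (XT.lf (nat_lit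 0) (nat_lit 1997659038) (nat_lit 228) (nat_lit 3516757774) (nat_lit 76) (nat_lit 62227873410) (nat_lit 45) (nat_lit 5) (nat_lit 48) (nat_lit 5) (nat_lit 46) (nat_lit 5) (nat_lit 346) (nat_lit 323) (nat_lit 231))))) (XT.nd (nat_lit 234) (nat_lit 380) (nat_lit 0) (XT.nd (nat_lit 78) (nat_lit 304) (nat_lit 0) (XT.lf (nat_lit 0) (nat_lit 23133053124) (nat_lit 304) (nat_lit 17700487241) (nat_lit 76) (nat_lit 30489473867) (nat_lit 42) (nat_lit 5) (nat_lit 46) (nat_lit 5) (nat_lit 43) (nat_lit 5) (nat_lit 347) (nat_lit 323) (nat_lit 230)) (XT.nd (nat_lit 78) (nat_lit 152) (nat_lit 0) (XT.lf (nat_lit 0) (nat_lit 41498619935) (nat_lit 152) (nat_lit 5259355583) (nat_lit 228) (nat_lit 28392288823) (nat_lit 40) (nat_lit 5) (nat_lit 42) (nat_lit 5) (nat_lit 43) (nat_lit 5) (nat_lit 348) (nat_lit 323) (nat_lit 229)) (XT.lf (nat_lit 0) (nat_lit 27136318543) (nat_lit 152) (nat_lit 46387092321) (nat_lit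 228) (nat_lit 5697760432) (nat_lit 38) (nat_lit 5) (nat_lit 40) (nat_lit 5) (nat_lit 41) (nat_lit 5) (nat_lit 349) (nat_lit 323) (nat_lit 228)))) (XT.nd (nat_lit 78) (nat_lit 152) (nat_lit 0) (XT.lf (nat_lit 0) (nat_lit 10332544960) (nat_lit 152) (nat_lit 8719346868) (nat_lit 228) (nat_lit 64509092100) (nat_lit 35) (nat_lit 5) (nat_lit 37) (nat_lit 5) (nat_lit 38) (nat_lit 5) (nat_lit 350) (nat_lit 323) (nat_lit 227)) (XT.nd (nat_lit 78) (nat_lit 152) (nat_lit 0) (XT.lf (nat_lit 0) (nat_lit 47001772826) (nat_lit 228) (nat_lit 9215900797) (nat_lit 76) (nat_lit 31954646019) (nat_lit 35) (nat_lit 5) (nat_lit 38) (nat_lit 5) (nat_lit 36) (nat_lit 5) (nat_lit 351) (nat_lit 323) (nat_lit 226)) (XT.lf (nat_lit 0) (nat_lit 61740599679) (nat_lit 152) (nat_lit 16554343991) (nat_lit 228) (nat_lit 14802255688) (nat_lit 33) (nat_lit 5) (nat_lit 35) (nat_lit 5) (nat_lit 36) (nat_lit 5) (nat_lit 352)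 (nat_lit 323) (nat_lit 225))))))) (XT.nd (nat_lit 858) (nat_lit 532) (nat_lit 0) (XT.nd (nat_lit 390) (nat_lit 532) (nat_lit 0) (XT.nd (nat_lit 156) (nat_lit 304) (nat_lit 0) (XT.nd (nat_lit 78) (nat_lit 152) (nat_lit 0) (XT.lf (nat_lit 0) (nat_lit 14470818557) (nat_lit 152) (nat_lit 57394613001) (nat_lit 76) (nat_lit 26478313053) (nat_lit 31) (nat_lit 5) (nat_lit 33) (nat_lit 5) (nat_lit 32) (nat_lit 5) (nat_lit 353) (nat_lit 323) (nat_lit 224)) (XT.lf (nat_lit 0) (nat_lit 16149730272) (nat_lit 152) (nat_lit 30507378272) (nat_lit 228) (nat_lit 57286275232) (nat_lit 29) (nat_lit 5) (nat_lit 31) (nat_lit 5) (nat_lit 32) (nat_lit 5) (nat_lit 354) (nat_lit 323) (nat_lit 223))) (XT.nd (nat_lit 78) (nat_lit 304) (nat_lit 0) (XT.lf (nat_lit 0) (nat_lit 82652254890) (nat_lit 228) (nat_lit 12557002191) (nat_lit 76) (nat_lit 14720040932) (nat_lit 29) (nat_lit 5) (nat_lit 32) (nat_lit 5) (nat_lit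 30) (nat_lit 4) (nat_lit 355) (nat_lit 323) (nat_lit 222)) (XT.nd (nat_lit 78) (nat_lit 152) (nat_lit 0) (XT.lf (nat_lit 0) (nat_lit 6606082952) (nat_lit 152) (nat_lit 45986893993) (nat_lit 76) (nat_lit 63715230827) (nat_lit 27) (nat_lit 5) (nat_lit 29) (nat_lit 5) (nat_lit 28) (nat_lit 5) (nat_lit 356) (nat_lit 323) (nat_lit 221)) (XT.lf (nat_lit 0) (nat_lit 37834056402) (nat_lit 152) (nat_lit 5233000436) (nat_lit 228) (nat_lit 80066873923) (nat_lit 25) (nat_lit 5) (nat_lit 27) (nat_lit 5) (nat_lit 28) (nat_lit 5) (nat_lit 357) (nat_lit 323) (nat_lit 220))))) (XT.nd (nat_lit 234) (nat_lit 228) (nat_lit 0) (XT.nd (nat_lit 78) (nat_lit 304) (nat_lit 0) (XT.lf (nat_lit 0) (nat_lit 83973144332) (nat_lit 228) (nat_lit 1197839721) (nat_lit 76) (nat_lit 45258316960) (nat_lit 25) (nat_lit 5) (nat_lit 28) (nat_lit 5) (nat_lit 26) (nat_lit 4) (nat_lit 358) (nat_lit 323) (nat_lit 219)) (XT.nd (nat_lit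 78) (nat_lit 228) (nat_lit 0) (XT.lf (nat_lit 0) (nat_lit 92500036423) (nat_lit 76) (nat_lit 37181482550) (nat_lit 152) (nat_lit 8550293022) (nat_lit 24) (nat_lit 5) (nat_lit 25) (nat_lit 5) (nat_lit 26) (nat_lit 4) (nat_lit 359) (nat_lit 323) (nat_lit 218)) (XT.lf (nat_lit 0) (nat_lit 32370795194) (nat_lit 228) (nat_lit 98736109306) (nat_lit 76) (nat_lit 15475368189) (nat_lit 21) (nat_lit 5) (nat_lit 24) (nat_lit 5) (nat_lit 22) (nat_lit 4) (nat_lit 360) (nat_lit 323) (nat_lit 217)))) (XT.nd (nat_lit 78) (nat_lit 228) (nat_lit 0) (XT.lf (nat_lit 0) (nat_lit 77704189996) (nat_lit 228) (nat_lit 5806154330) (nat_lit 76) (nat_lit 72011509380) (nat_lit 21) (nat_lit 5) (nat_lit 24) (nat_lit 5) (nat_lit 22) (nat_lit 4) (nat_lit 361) (nat_lit 323) (nat_lit 216)) (XT.nd (nat_lit 78) (nat_lit 152) (nat_lit 0) (XT.lf (nat_lit 0) (nat_lit 97680472160) (nat_lit 76) (nat_lit 30506581873) (nat_lit 152)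 (nat_lit 36913408135) (nat_lit 20) (nat_lit 5) (nat_lit 21) (nat_lit 5) (nat_lit 22) (nat_lit 4) (nat_lit 362) (nat_lit 323) (nat_lit 215)) (XT.lf (nat_lit 0) (nat_lit 8111201231) (nat_lit 152) (nat_lit 140615840370) (nat_lit 76) (nat_lit 26658624479) (nat_lit 18) (nat_lit 5) (nat_lit 20) (nat_lit 5) (nat_lit 19) (nat_lit 4) (nat_lit 363) (nat_lit 323) (nat_lit 214)))))) (XT.nd (nat_lit 390) (nat_lit 304) (nat_lit 0) (XT.nd (nat_lit 156) (nat_lit 152) (nat_lit 0) (XT.nd (nat_lit 78) (nat_lit 76) (nat_lit 0) (XT.lf (nat_lit 0) (nat_lit 57167743152) (nat_lit 152) (nat_lit 40052578842) (nat_lit 76) (nat_lit 89156946619) (nat_lit 18) (nat_lit 5) (nat_lit 20) (nat_lit 5) (nat_lit 19) (nat_lit 4) (nat_lit 364) (nat_lit 323) (nat_lit 213)) (XT.lf (nat_lit 0) (nat_lit 70818766881) (nat_lit 76) (nat_lit 40433756213) (nat_lit 152) (nat_lit 86940491161) (nat_lit 17) (nat_lit 5) (nat_lit 18) (nat_lit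 5) (nat_lit 19) (nat_lit 4) (nat_lit 365) (nat_lit 323) (nat_lit 212))) (XT.nd (nat_lit 78) (nat_lit 152) (nat_lit 0) (XT.lf (nat_lit 0) (nat_lit 170697555960) (nat_lit 152) (nat_lit 19270260317) (nat_lit 0) (nat_lit 20934530336) (nat_lit 17) (nat_lit 5) (nat_lit 19) (nat_lit 4) (nat_lit 17) (nat_lit 4) (nat_lit 366) (nat_lit 323) (nat_lit 211)) (XT.nd (nat_lit 78) (nat_lit 0) (nat_lit 0) (XT.lf (nat_lit 0) (nat_lit 12219082132) (nat_lit 152) (nat_lit 124715910287) (nat_lit 76) (nat_lit 87571516026) (nat_lit 15) (nat_lit 5) (nat_lit 17) (nat_lit 5) (nat_lit 16) (nat_lit 4) (nat_lit 367) (nat_lit 323) (nat_lit 210)) (XT.lf (nat_lit 0) (nat_lit 67786590284) (nat_lit 152) (nat_lit 10804373238) (nat_lit 76) (nat_lit 160557170162) (nat_lit 15) (nat_lit 5) (nat_lit 17) (nat_lit 5) (nat_lit 16) (nat_lit 4) (nat_lit 368) (nat_lit 323) (nat_lit 209))))) (XT.nd (nat_lit 234) (nat_lit 152) (nat_lit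 0) (XT.nd (nat_lit 78) (nat_lit 76) (nat_lit 0) (XT.lf (nat_lit 0) (nat_lit 115927543257) (nat_lit 76) (nat_lit 13680331795) (nat_lit 152) (nat_lit 125262795538) (nat_lit 14) (nat_lit 5) (nat_lit 15) (nat_lit 5) (nat_lit 16) (nat_lit 4) (nat_lit 369) (nat_lit 323) (nat_lit 208)) (XT.nd (nat_lit 78) (nat_lit 76) (nat_lit 0) (XT.lf (nat_lit 0) (nat_lit 197445551077) (nat_lit 152) (nat_lit 19544651121) (nat_lit 0) (nat_lit 54807274243) (nat_lit 14) (nat_lit 5) (nat_lit 16) (nat_lit 4) (nat_lit 14) (nat_lit 4) (nat_lit 370) (nat_lit 323) (nat_lit 207)) (XT.lf (nat_lit 0) (nat_lit 112782096402) (nat_lit 76) (nat_lit 159918252192) (nat_lit 76) (nat_lit 17278573176) (nat_lit 13) (nat_lit 4) (nat_lit 14) (nat_lit 5) (nat_lit 14) (nat_lit 4) (nat_lit 371) (nat_lit 323) (nat_lit 206)))) (XT.nd (nat_lit 78) (nat_lit 76) (nat_lit 0) (XT.lf (nat_lit 0) (nat_lit 43285495746) (nat_lit 152) (nat_lit 53905711052)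 (nat_lit 76) (nat_lit 212371813252) (nat_lit 12) (nat_lit 5) (nat_lit 14) (nat_lit 5) (nat_lit 13) (nat_lit 4) (nat_lit 372) (nat_lit 323) (nat_lit 205)) (XT.nd (nat_lit 78) (nat_lit 0) (nat_lit 0) (XT.lf (nat_lit 0) (nat_lit 81565550414) (nat_lit 76) (nat_lit 27804073922) (nat_lit 152) (nat_lit 221266044843) (nat_lit 11) (nat_lit 5) (nat_lit 12) (nat_lit 5) (nat_lit 13) (nat_lit 4) (nat_lit 373) (nat_lit 323) (nat_lit 204)) (XT.lf (nat_lit 0) (nat_lit 182429546228) (nat_lit 152) (nat_lit 124301339756) (nat_lit 0) (nat_lit 46578791395) (nat_lit 11) (nat_lit 5) (nat_lit 13) (nat_lit 4) (nat_lit 11) (nat_lit 4) (nat_lit 374) (nat_lit 323) (nat_lit 203))))))))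
noncomputable def xc89 : XT := (XT.nd (nat_lit 43602) (nat_lit 0) (nat_lit 1976) (XT.nd (nat_lit 858) (nat_lit 76) (nat_lit 0) (XT.nd (nat_lit 390) (nat_lit 152) (nat_lit 0) (XT.nd (nat_lit 156) (nat_lit 152) (nat_lit 0) (XT.nd (nat_lit 78) (nat_lit 0) (nat_lit 0) (XT.lf (nat_lit 0) (nat_lit 10307863225) (nat_lit 76) (nat_lit 251655024200) (nat_lit 76) (nat_lit 115803287800) (nat_lit 10) (nat_lit 4) (nat_lit 11) (nat_lit 5) (nat_lit 11) (nat_lit 4) (nat_lit 375) (nat_lit 323) (nat_lit 202)) (XT.lf (nat_lit 0) (nat_lit 160122490488) (nat_lit 76) (nat_lit 189900569848) (nat_lit 76) (nat_lit 54047924590) (nat_lit 10) (nat_lit 4) (nat_lit 11) (nat_lit 5) (nat_lit 11) (nat_lit 4) (nat_lit 376) (nat_lit 323) (nat_lit 201))) (XT.nd (nat_lit 78) (nat_lit 76) (nat_lit 0) (XT.lf (nat_lit 0) (nat_lit 12242035860) (nat_lit 152) (nat_lit 110757313280) (nat_lit 76) (nat_lit 309471008104) (nat_lit 9)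 (nat_lit 5) (nat_lit 11) (nat_lit 5) (nat_lit 10) (nat_lit 4) (nat_lit 377) (nat_lit 323) (nat_lit 200)) (XT.nd (nat_lit 78) (nat_lit 0) (nat_lit 0) (XT.lf (nat_lit 0) (nat_lit 33239891270) (nat_lit 76) (nat_lit 49245063492) (nat_lit 152) (nat_lit 380585256329) (nat_lit 8) (nat_lit 5) (nat_lit 9) (nat_lit 5) (nat_lit 10) (nat_lit 4) (nat_lit 378) (nat_lit 323) (nat_lit 199)) (XT.lf (nat_lit 0) (nat_lit 160782119539) (nat_lit 152) (nat_lit 303817776096) (nat_lit 0) (nat_lit 31396417182) (nat_lit 8) (nat_lit 5) (nat_lit 10) (nat_lit 4) (nat_lit 8) (nat_lit 4) (nat_lit 379) (nat_lit 323) (nat_lit 198))))) (XT.nd (nat_lit 234) (nat_lit 76) (nat_lit 0) (XT.nd (nat_lit 78) (nat_lit 76) (nat_lit 0) (XT.lf (nat_lit 0) (nat_lit 246172571700) (nat_lit 152) (nat_lit 168556222325) (nat_lit 0) (nat_lit 116786233117) (nat_lit 8) (nat_lit 5) (nat_lit 10) (nat_lit 4) (nat_lit 8) (nat_lit 4) (nat_lit 380)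 (nat_lit 323) (nat_lit 197)) (XT.nd (nat_lit 78) (nat_lit 76) (nat_lit 0) (XT.lf (nat_lit 0) (nat_lit 338393475292) (nat_lit 152) (nat_lit 22475255112) (nat_lit 0) (nat_lit 209006547610) (nat_lit 8) (nat_lit 5) (nat_lit 10) (nat_lit 4) (nat_lit 8) (nat_lit 4) (nat_lit 381) (nat_lit 323) (nat_lit 196)) (XT.lf (nat_lit 0) (nat_lit 139764115059) (nat_lit 76) (nat_lit 300409319022) (nat_lit 76) (nat_lit 171021845878) (nat_lit 7) (nat_lit 4) (nat_lit 8) (nat_lit 5) (nat_lit 8) (nat_lit 4) (nat_lit 382) (nat_lit 323) (nat_lit 195)))) (XT.nd (nat_lit 78) (nat_lit 76) (nat_lit 0) (XT.lf (nat_lit 0) (nat_lit 315783880809) (nat_lit 76) (nat_lit 234702719526) (nat_lit 76) (nat_lit 105314741324) (nat_lit 7) (nat_lit 4) (nat_lit 8) (nat_lit 5) (nat_lit 8) (nat_lit 4) (nat_lit 383) (nat_lit 323) (nat_lit 194)) (XT.nd (nat_lit 78) (nat_lit 76) (nat_lit 0) (XT.lf (nat_lit 0) (nat_lit 505883988793) (nat_lit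 76) (nat_lit 163740188796) (nat_lit 76) (nat_lit 34351742949) (nat_lit 7) (nat_lit 4) (nat_lit 8) (nat_lit 5) (nat_lit 8) (nat_lit 4) (nat_lit 384) (nat_lit 323) (nat_lit 193)) (XT.lf (nat_lit 0) (nat_lit 40934201165) (nat_lit 152) (nat_lit 45473766462) (nat_lit 76) (nat_lit 669563516502) (nat_lit 6) (nat_lit 5) (nat_lit 8) (nat_lit 5) (nat_lit 7) (nat_lit 4) (nat_lit 385) (nat_lit 323) (nat_lit 192)))))) (XT.nd (nat_lit 42276) (nat_lit 0) (nat_lit 6536) (XT.nd (nat_lit 42042) (nat_lit 0) (nat_lit 6992) (XT.nd (nat_lit 78) (nat_lit 0) (nat_lit 0) (XT.lf (nat_lit 0) (nat_lit 122700727591) (nat_lit 76) (nat_lit 270007712) (nat_lit 152) (nat_lit 689031238831) (nat_lit 5) (nat_lit 5) (nat_lit 6) (nat_lit 5) (nat_lit 7) (nat_lit 4) (nat_lit 386) (nat_lit 323) (nat_lit 191)) (XT.lf (nat_lit 0) (nat_lit 213822986983) (nat_lit 152) (nat_lit 567984528792) (nat_lit 0) (nat_lit 90594747921) (nat_lit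 5) (nat_lit 5) (nat_lit 7) (nat_lit 4) (nat_lit 5) (nat_lit 4) (nat_lit 387) (nat_lit 323) (nat_lit 190))) (XT.nd (nat_lit 78) (nat_lit 760) (nat_lit 0) (XT.lf (nat_lit 0) (nat_lit 6455945250) (nat_lit 0) (nat_lit 6455945250) (nat_lit 684) (nat_lit 52140131) (nat_lit 107) (nat_lit 5) (nat_lit 107) (nat_lit 3) (nat_lit 116) (nat_lit 3) (nat_lit 324) (nat_lit 324) (nat_lit 252)) (XT.nd (nat_lit 78) (nat_lit 0) (nat_lit 0) (XT.lf (nat_lit 0) (nat_lit 247854603) (nat_lit 760) (nat_lit 20423188473) (nat_lit 836) (nat_lit 6276398979) (nat_lit 97) (nat_lit 5) (nat_lit 107) (nat_lit 5) (nat_lit 108) (nat_lit 5) (nat_lit 325) (nat_lit 324) (nat_lit 251)) (XT.lf (nat_lit 0) (nat_lit 1057890742) (nat_lit 760) (nat_lit 176432761) (nat_lit 836) (nat_lit 26792313598) (nat_lit 97) (nat_lit 5) (nat_lit 107) (nat_lit 5) (nat_lit 108) (nat_lit 5) (nat_lit 326) (nat_lit 324) (nat_lit 250))))) (XT.nd (nat_lit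 234) (nat_lit 532) (nat_lit 0) (XT.nd (nat_lit 78) (nat_lit 0) (nat_lit 76) (XT.lf (nat_lit 0) (nat_lit 2582987648) (nat_lit 760) (nat_lit 7090967478) (nat_lit 836) (nat_lit 19485716829) (nat_lit 98) (nat_lit 5) (nat_lit 108) (nat_lit 5) (nat_lit 109) (nat_lit 5) (nat_lit 327) (nat_lit 324) (nat_lit 249)) (XT.nd (nat_lit 78) (nat_lit 0) (nat_lit 76) (XT.lf (nat_lit 0) (nat_lit 4677131613) (nat_lit 760) (nat_lit 14347259275) (nat_lit 836) (nat_lit 11336622578) (nat_lit 99) (nat_lit 5) (nat_lit 109) (nat_lit 5) (nat_lit 110) (nat_lit 5) (nat_lit 328) (nat_lit 324) (nat_lit 248)) (XT.lf (nat_lit 0) (nat_lit 7403585408) (nat_lit 760) (nat_lit 21969244402) (nat_lit 836) (nat_lit 2262408229) (nat_lit 100) (nat_lit 5) (nat_lit 110) (nat_lit 5) (nat_lit 111) (nat_lit 5) (nat_lit 329) (nat_lit 324) (nat_lit 247)))) (XT.nd (nat_lit 78) (nat_lit 684) (nat_lit 0) (XT.lf (nat_lit 76) (nat_lit 2871613598)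 (nat_lit 0) (nat_lit 8085077700) (nat_lit 836) (nat_lit 22024296066) (nat_lit 101) (nat_lit 5) (nat_lit 100) (nat_lit 5) (nat_lit 111) (nat_lit 5) (nat_lit 330) (nat_lit 324) (nat_lit 246)) (XT.nd (nat_lit 78) (nat_lit 760) (nat_lit 0) (XT.lf (nat_lit 0) (nat_lit 15405339412) (nat_lit 760) (nat_lit 4179313276) (nat_lit 76) (nat_lit 14819191826) (nat_lit 101) (nat_lit 5) (nat_lit 111) (nat_lit 5) (nat_lit 102) (nat_lit 5) (nat_lit 331) (nat_lit 324) (nat_lit 245)) (XT.lf (nat_lit 0) (nat_lit 20776991712) (nat_lit 836) (nat_lit 11510399594) (nat_lit 76) (nat_lit 3624794949) (nat_lit 91) (nat_lit 5) (nat_lit 102) (nat_lit 5) (nat_lit 92) (nat_lit 5) (nat_lit 332) (nat_lit 324) (nat_lit 244))))))) (XT.nd (nat_lit 858) (nat_lit 1748) (nat_lit 0) (XT.nd (nat_lit 390) (nat_lit 1368) (nat_lit 0) (XT.nd (nat_lit 156) (nat_lit 760) (nat_lit 0) (XT.nd (nat_lit 78) (nat_lit 304) (nat_lit 0) (XT.lf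 (nat_lit 0) (nat_lit 18120893459) (nat_lit 380) (nat_lit 9135604219) (nat_lit 456) (nat_lit 10250802360) (nat_lit 86) (nat_lit 5) (nat_lit 91) (nat_lit 5) (nat_lit 92) (nat_lit 5) (nat_lit 333) (nat_lit 324) (nat_lit 243)) (XT.lf (nat_lit 0) (nat_lit 11419400592) (nat_lit 304) (nat_lit 23456308601) (nat_lit 380) (nat_lit 4323256452) (nat_lit 82) (nat_lit 5) (nat_lit 86) (nat_lit 5) (nat_lit 87) (nat_lit 5) (nat_lit 334) (nat_lit 324) (nat_lit 242))) (XT.nd (nat_lit 78) (nat_lit 304) (nat_lit 0) (XT.lf (nat_lit 0) (nat_lit 2595605962) (nat_lit 456) (nat_lit 36713602050) (nat_lit 76) (nat_lit 1685960854) (nat_lit 76) (nat_lit 5) (nat_lit 82) (nat_lit 5) (nat_lit 77) (nat_lit 5) (nat_lit 335) (nat_lit 324) (nat_lit 241)) (XT.nd (nat_lit 78) (nat_lit 304) (nat_lit 0) (XT.lf (nat_lit 0) (nat_lit 10798223799) (nat_lit 456) (nat_lit 3496311750) (nat_lit 76) (nat_lit 28592911672) (nat_lit 76) (nat_lit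 5) (nat_lit 82) (nat_lit 5) (nat_lit 77) (nat_lit 5) (nat_lit 336) (nat_lit 324) (nat_lit 240)) (XT.lf (nat_lit 0) (nat_lit 20379216633) (nat_lit 380) (nat_lit 11671890926) (nat_lit 76) (nat_lit 12843899551) (nat_lit 72) (nat_lit 5) (nat_lit 77) (nat_lit 5) (nat_lit 73) (nat_lit 5) (nat_lit 337) (nat_lit 324) (nat_lit 239))))) (XT.nd (nat_lit 234) (nat_lit 456) (nat_lit 0) (XT.nd (nat_lit 78) (nat_lit 608) (nat_lit 0) (XT.lf (nat_lit 0) (nat_lit 26544365248) (nat_lit 304) (nat_lit 4892983400) (nat_lit 380) (nat_lit 15590297139) (nat_lit 68) (nat_lit 5) (nat_lit 72) (nat_lit 5) (nat_lit 73) (nat_lit 5) (nat_lit 338) (nat_lit 324) (nat_lit 238)) (XT.nd (nat_lit 78) (nat_lit 380) (nat_lit 0) (XT.lf (nat_lit 0) (nat_lit 19133541516) (nat_lit 228) (nat_lit 25127160315) (nat_lit 304) (nat_lit 5026171664) (nat_lit 65) (nat_lit 5) (nat_lit 68) (nat_lit 5) (nat_lit 69) (nat_lit 5) (nat_lit 339)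 (nat_lit 324) (nat_lit 237)) (XT.lf (nat_lit 0) (nat_lit 6858468437) (nat_lit 380) (nat_lit 40656898589) (nat_lit 76) (nat_lit 4172511047) (nat_lit 60) (nat_lit 5) (nat_lit 65) (nat_lit 5) (nat_lit 61) (nat_lit 5) (nat_lit 340) (nat_lit 324) (nat_lit 236)))) (XT.nd (nat_lit 78) (nat_lit 228) (nat_lit 0) (XT.lf (nat_lit 0) (nat_lit 1867052293) (nat_lit 228) (nat_lit 18633996702) (nat_lit 304) (nat_lit 33726636398) (nat_lit 57) (nat_lit 5) (nat_lit 60) (nat_lit 5) (nat_lit 61) (nat_lit 5) (nat_lit 341) (nat_lit 324) (nat_lit 235)) (XT.nd (nat_lit 78) (nat_lit 228) (nat_lit 0) (XT.lf (nat_lit 0) (nat_lit 36145415583) (nat_lit 304) (nat_lit 7905843279) (nat_lit 76) (nat_lit 12873904348) (nat_lit 57) (nat_lit 5) (nat_lit 61) (nat_lit 5) (nat_lit 58) (nat_lit 5) (nat_lit 342) (nat_lit 324) (nat_lit 234)) (XT.lf (nat_lit 0) (nat_lit 41099467104) (nat_lit 228) (nat_lit 12892642494) (nat_lit 304)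 (nat_lit 5798795274) (nat_lit 54) (nat_lit 5) (nat_lit 57) (nat_lit 5) (nat_lit 58) (nat_lit 5) (nat_lit 343) (nat_lit 324) (nat_lit 233)))))) (XT.nd (nat_lit 390) (nat_lit 836) (nat_lit 0) (XT.nd (nat_lit 156) (nat_lit 456) (nat_lit 0) (XT.nd (nat_lit 78) (nat_lit 228) (nat_lit 0) (XT.lf (nat_lit 0) (nat_lit 11024880073) (nat_lit 228) (nat_lit 30892414760) (nat_lit 76) (nat_lit 20911686895) (nat_lit 51) (nat_lit 5) (nat_lit 54) (nat_lit 5) (nat_lit 52) (nat_lit 5) (nat_lit 344) (nat_lit 324) (nat_lit 232)) (XT.lf (nat_lit 0) (nat_lit 21550844639) (nat_lit 228) (nat_lit 8323266920) (nat_lit 304) (nat_lit 36187102574) (nat_lit 48) (nat_lit 5) (nat_lit 51) (nat_lit 5) (nat_lit 52) (nat_lit 5) (nat_lit 345) (nat_lit 324) (nat_lit 231))) (XT.nd (nat_lit 78) (nat_lit 304) (nat_lit 0) (XT.lf (nat_lit 0) (nat_lit 9623534393) (nat_lit 152) (nat_lit 41736978473) (nat_lit 228) (nat_lit 18135054122)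 (nat_lit 46) (nat_lit 5) (nat_lit 48) (nat_lit 5) (nat_lit 49) (nat_lit 5) (nat_lit 346) (nat_lit 324) (nat_lit 230)) (XT.nd (nat_lit 78) (nat_lit 228) (nat_lit 0) (XT.lf (nat_lit 0) (nat_lit 2241674602) (nat_lit 228) (nat_lit 3669213191) (nat_lit 76) (nat_lit 67246516624) (nat_lit 45) (nat_lit 5) (nat_lit 48) (nat_lit 5) (nat_lit 46) (nat_lit 5) (nat_lit 347) (nat_lit 324) (nat_lit 229)) (XT.lf (nat_lit 0) (nat_lit 25064265272) (nat_lit 304) (nat_lit 18989870667) (nat_lit 76) (nat_lit 32970636518) (nat_lit 42) (nat_lit 5) (nat_lit 46) (nat_lit 5) (nat_lit 43) (nat_lit 5) (nat_lit 348) (nat_lit 324) (nat_lit 228))))) (XT.nd (nat_lit 234) (nat_lit 304) (nat_lit 0) (XT.nd (nat_lit 78) (nat_lit 380) (nat_lit 0) (XT.lf (nat_lit 0) (nat_lit 44939660788) (nat_lit 152) (nat_lit 5635444189) (nat_lit 228) (nat_lit 30583305461) (nat_lit 40) (nat_lit 5) (nat_lit 42) (nat_lit 5) (nat_lit 43) (nat_lit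 5) (nat_lit 349) (nat_lit 324) (nat_lit 227)) (XT.nd (nat_lit 78) (nat_lit 228) (nat_lit 0) (XT.lf (nat_lit 0) (nat_lit 29426149882) (nat_lit 152) (nat_lit 50052461619) (nat_lit 228) (nat_lit 6076540370) (nat_lit 38) (nat_lit 5) (nat_lit 40) (nat_lit 5) (nat_lit 41) (nat_lit 5) (nat_lit 350) (nat_lit 324) (nat_lit 226)) (XT.lf (nat_lit 0) (nat_lit 11275307251) (nat_lit 152) (nat_lit 9371600513) (nat_lit 228) (nat_lit 69595370433) (nat_lit 35) (nat_lit 5) (nat_lit 37) (nat_lit 5) (nat_lit 38) (nat_lit 5) (nat_lit 351) (nat_lit 324) (nat_lit 225)))) (XT.nd (nat_lit 78) (nat_lit 304) (nat_lit 0) (XT.lf (nat_lit 0) (nat_lit 50828184797) (nat_lit 228) (nat_lit 9842954368) (nat_lit 76) (nat_lit 34551614378) (nat_lit 35) (nat_lit 5) (nat_lit 38) (nat_lit 5) (nat_lit 36) (nat_lit 5) (nat_lit 352) (nat_lit 324) (nat_lit 224)) (XT.nd (nat_lit 78) (nat_lit 152) (nat_lit 0) (XT.lf (nat_lit 0) (nat_lit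 66785276185) (nat_lit 152) (nat_lit 17836270259) (nat_lit 228) (nat_lit 15920243162) (nat_lit 33) (nat_lit 5) (nat_lit 35) (nat_lit 5) (nat_lit 36) (nat_lit 5) (nat_lit 353) (nat_lit 324) (nat_lit 223)) (XT.lf (nat_lit 0) (nat_lit 15690074105) (nat_lit 152) (nat_lit 61880853973) (nat_lit 76) (nat_lit 28637205436) (nat_lit 31) (nat_lit 5) (nat_lit 33) (nat_lit 5) (nat_lit 32) (nat_lit 5) (nat_lit 354) (nat_lit 324) (nat_lit 222))))))))
noncomputable def xc90 : XT := (XT.nd (nat_lit 1716) (nat_lit 380) (nat_lit 0) (XT.nd (nat_lit 858) (nat_lit 608) (nat_lit 0) (XT.nd (nat_lit 390) (nat_lit 532) (nat_lit 0) (XT.nd (nat_lit 156) (nat_lit 304) (nat_lit 0) (XT.nd (nat_lit 78) (nat_lit 0) (nat_lit 0) (XT.lf (nat_lit 0) (nat_lit 17542459332) (nat_lit 152) (nat_lit 32905818732) (nat_lit 228) (nat_lit 61807617518) (nat_lit 29) (nat_lit 5) (nat_lit 31) (nat_lit 5) (nat_lit 32) (nat_lit 5) (nat_lit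 355) (nat_lit 324) (nat_lit 221)) (XT.lf (nat_lit 0) (nat_lit 89319304645) (nat_lit 228) (nat_lit 13466144350) (nat_lit 76) (nat_lit 15935422674) (nat_lit 29) (nat_lit 5) (nat_lit 32) (nat_lit 5) (nat_lit 30) (nat_lit 4) (nat_lit 356) (nat_lit 324) (nat_lit 220))) (XT.nd (nat_lit 78) (nat_lit 152) (nat_lit 0) (XT.lf (nat_lit 0) (nat_lit 7187679730) (nat_lit 152) (nat_lit 49572794626) (nat_lit 76) (nat_lit 68849710971) (nat_lit 27) (nat_lit 5) (nat_lit 29) (nat_lit 5) (nat_lit 28) (nat_lit 5) (nat_lit 357) (nat_lit 324) (nat_lit 219)) (XT.nd (nat_lit 78) (nat_lit 0) (nat_lit 0) (XT.lf (nat_lit 0) (nat_lit 40949787922) (nat_lit 152) (nat_lit 5613199169) (nat_lit 228) (nat_lit 86419108032) (nat_lit 25) (nat_lit 5) (nat_lit 27) (nat_lit 5) (nat_lit 28) (nat_lit 5) (nat_lit 358) (nat_lit 324) (nat_lit 218)) (XT.lf (nat_lit 0) (nat_lit 90738371696) (nat_lit 228) (nat_lit 1209447517) (nat_lit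 76) (nat_lit 48913436891) (nat_lit 25) (nat_lit 5) (nat_lit 28) (nat_lit 5) (nat_lit 26) (nat_lit 4) (nat_lit 359) (nat_lit 324) (nat_lit 217))))) (XT.nd (nat_lit 234) (nat_lit 228) (nat_lit 0) (XT.nd (nat_lit 78) (nat_lit 228) (nat_lit 0) (XT.lf (nat_lit 0) (nat_lit 99980598646) (nat_lit 76) (nat_lit 40120566099) (nat_lit 152) (nat_lit 9186917295) (nat_lit 24) (nat_lit 5) (nat_lit 25) (nat_lit 5) (nat_lit 26) (nat_lit 4) (nat_lit 360) (nat_lit 324) (nat_lit 216)) (XT.nd (nat_lit 78) (nat_lit 0) (nat_lit 0) (XT.lf (nat_lit 0) (nat_lit 35004711845) (nat_lit 228) (nat_lit 106554813200) (nat_lit 76) (nat_lit 16747100315) (nat_lit 21) (nat_lit 5) (nat_lit 24) (nat_lit 5) (nat_lit 22) (nat_lit 4) (nat_lit 361) (nat_lit 324) (nat_lit 215)) (XT.lf (nat_lit 0) (nat_lit 83961500228) (nat_lit 228) (nat_lit 6196401445) (nat_lit 76) (nat_lit 77803636307) (nat_lit 21) (nat_lit 5) (nat_lit 24) (nat_lit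 5) (nat_lit 22) (nat_lit 4) (nat_lit 362) (nat_lit 324) (nat_lit 214)))) (XT.nd (nat_lit 78) (nat_lit 152) (nat_lit 0) (XT.lf (nat_lit 0) (nat_lit 105565928557) (nat_lit 76) (nat_lit 32915138443) (nat_lit 152) (nat_lit 39825465569) (nat_lit 20) (nat_lit 5) (nat_lit 21) (nat_lit 5) (nat_lit 22) (nat_lit 4) (nat_lit 363) (nat_lit 324) (nat_lit 213)) (XT.nd (nat_lit 78) (nat_lit 0) (nat_lit 0) (XT.lf (nat_lit 0) (nat_lit 8798428897) (nat_lit 152) (nat_lit 151794491817) (nat_lit 76) (nat_lit 28821669606) (nat_lit 18) (nat_lit 5) (nat_lit 20) (nat_lit 5) (nat_lit 19) (nat_lit 4) (nat_lit 364) (nat_lit 324) (nat_lit 212)) (XT.lf (nat_lit 0) (nat_lit 61776654796) (nat_lit 152) (nat_lit 43191400166) (nat_lit 76) (nat_lit 96317608986) (nat_lit 18) (nat_lit 5) (nat_lit 20) (nat_lit 5) (nat_lit 19) (nat_lit 4) (nat_lit 365) (nat_lit 324) (nat_lit 211)))))) (XT.nd (nat_lit 390) (nat_lit 304) (nat_lit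 0) (XT.nd (nat_lit 156) (nat_lit 228) (nat_lit 0) (XT.nd (nat_lit 78) (nat_lit 0) (nat_lit 0) (XT.lf (nat_lit 0) (nat_lit 76546811664) (nat_lit 76) (nat_lit 43639752897) (nat_lit 152) (nat_lit 93860188164) (nat_lit 17) (nat_lit 5) (nat_lit 18) (nat_lit 5) (nat_lit 19) (nat_lit 4) (nat_lit 366) (nat_lit 324) (nat_lit 210)) (XT.lf (nat_lit 0) (nat_lit 184385108368) (nat_lit 152) (nat_lit 20752808961) (nat_lit 0) (nat_lit 22635019718) (nat_lit 17) (nat_lit 5) (nat_lit 19) (nat_lit 4) (nat_lit 17) (nat_lit 4) (nat_lit 367) (nat_lit 324) (nat_lit 209))) (XT.nd (nat_lit 78) (nat_lit 76) (nat_lit 0) (XT.lf (nat_lit 0) (nat_lit 13227392376) (nat_lit 152) (nat_lit 134635651558) (nat_lit 76) (nat_lit 94602437276) (nat_lit 15) (nat_lit 5) (nat_lit 17) (nat_lit 5) (nat_lit 16) (nat_lit 4) (nat_lit 368) (nat_lit 324) (nat_lit 208)) (XT.nd (nat_lit 78) (nat_lit 76) (nat_lit 0) (XT.lf (nat_lit 0) (nat_lit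 73238020908) (nat_lit 152) (nat_lit 11615453142) (nat_lit 76) (nat_lit 173425077077) (nat_lit 15) (nat_lit 5) (nat_lit 17) (nat_lit 5) (nat_lit 16) (nat_lit 4) (nat_lit 369) (nat_lit 324) (nat_lit 207)) (XT.lf (nat_lit 0) (nat_lit 125252701626) (nat_lit 76) (nat_lit 14750991018) (nat_lit 152) (nat_lit 135255264732) (nat_lit 14) (nat_lit 5) (nat_lit 15) (nat_lit 5) (nat_lit 16) (nat_lit 4) (nat_lit 370) (nat_lit 324) (nat_lit 206))))) (XT.nd (nat_lit 234) (nat_lit 152) (nat_lit 0) (XT.nd (nat_lit 78) (nat_lit 152) (nat_lit 0) (XT.lf (nat_lit 0) (nat_lit 213266712442) (nat_lit 152) (nat_lit 21060120714) (nat_lit 0) (nat_lit 59213158607) (nat_lit 14) (nat_lit 5) (nat_lit 16) (nat_lit 4) (nat_lit 14) (nat_lit 4) (nat_lit 371) (nat_lit 324) (nat_lit 205)) (XT.nd (nat_lit 78) (nat_lit 76) (nat_lit 0) (XT.lf (nat_lit 0) (nat_lit 121850676135) (nat_lit 76) (nat_lit 172690045834) (nat_lit 76) (nat_lit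 18635289853) (nat_lit 13) (nat_lit 4) (nat_lit 14) (nat_lit 5) (nat_lit 14) (nat_lit 4) (nat_lit 372) (nat_lit 324) (nat_lit 204)) (XT.lf (nat_lit 0) (nat_lit 46771252816) (nat_lit 152) (nat_lit 58174800803) (nat_lit 76) (nat_lit 229380856507) (nat_lit 12) (nat_lit 5) (nat_lit 14) (nat_lit 5) (nat_lit 13) (nat_lit 4) (nat_lit 373) (nat_lit 324) (nat_lit 203)))) (XT.nd (nat_lit 78) (nat_lit 76) (nat_lit 0) (XT.lf (nat_lit 0) (nat_lit 88132276898) (nat_lit 76) (nat_lit 30008784867) (nat_lit 152) (nat_lit 238944362336) (nat_lit 11) (nat_lit 5) (nat_lit 12) (nat_lit 5) (nat_lit 13) (nat_lit 4) (nat_lit 374) (nat_lit 324) (nat_lit 202)) (XT.nd (nat_lit 78) (nat_lit 76) (nat_lit 0) (XT.lf (nat_lit 0) (nat_lit 197044441155) (nat_lit 152) (nat_lit 134206303585) (nat_lit 0) (nat_lit 50322675418) (nat_lit 11) (nat_lit 5) (nat_lit 13) (nat_lit 4) (nat_lit 11) (nat_lit 4) (nat_lit 375) (nat_lit 324)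 (nat_lit 201)) (XT.lf (nat_lit 0) (nat_lit 11169934511) (nat_lit 76) (nat_lit 271769578883) (nat_lit 76) (nat_lit 125046971610) (nat_lit 10) (nat_lit 4) (nat_lit 11) (nat_lit 5) (nat_lit 11) (nat_lit 4) (nat_lit 376) (nat_lit 324) (nat_lit 200))))))) (XT.nd (nat_lit 42822) (nat_lit 0) (nat_lit 5852) (XT.nd (nat_lit 390) (nat_lit 228) (nat_lit 0) (XT.nd (nat_lit 156) (nat_lit 76) (nat_lit 0) (XT.nd (nat_lit 78) (nat_lit 76) (nat_lit 0) (XT.lf (nat_lit 0) (nat_lit 172966958458) (nat_lit 76) (nat_lit 205076090201) (nat_lit 76) (nat_lit 58352703729) (nat_lit 10) (nat_lit 4) (nat_lit 11) (nat_lit 5) (nat_lit 11) (nat_lit 4) (nat_lit 377) (nat_lit 324) (nat_lit 199)) (XT.lf (nat_lit 0) (nat_lit 13238477390) (nat_lit 152) (nat_lit 119585229302) (nat_lit 76) (nat_lit 334243421531) (nat_lit 9) (nat_lit 5) (nat_lit 11) (nat_lit 5) (nat_lit 10) (nat_lit 4) (nat_lit 378) (nat_lit 324) (nat_lit 198)))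 (XT.nd (nat_lit 78) (nat_lit 0) (nat_lit 0) (XT.lf (nat_lit 0) (nat_lit 35930331856) (nat_lit 76) (nat_lit 53169720752) (nat_lit 152) (nat_lit 411014956902) (nat_lit 8) (nat_lit 5) (nat_lit 9) (nat_lit 5) (nat_lit 10) (nat_lit 4) (nat_lit 379) (nat_lit 324) (nat_lit 197)) (XT.nd (nat_lit 78) (nat_lit 0) (nat_lit 0) (XT.lf (nat_lit 0) (nat_lit 173659999141) (nat_lit 152) (nat_lit 328093721910) (nat_lit 0) (nat_lit 33921528145) (nat_lit 8) (nat_lit 5) (nat_lit 10) (nat_lit 4) (nat_lit 8) (nat_lit 4) (nat_lit 380) (nat_lit 324) (nat_lit 196)) (XT.lf (nat_lit 0) (nat_lit 265880553399) (nat_lit 152) (nat_lit 182013427265) (nat_lit 0) (nat_lit 126141536941) (nat_lit 8) (nat_lit 5) (nat_lit 10) (nat_lit 4) (nat_lit 8) (nat_lit 4) (nat_lit 381) (nat_lit 324) (nat_lit 195))))) (XT.nd (nat_lit 234) (nat_lit 152) (nat_lit 0) (XT.nd (nat_lit 78) (nat_lit 76) (nat_lit 0) (XT.lf (nat_lit 0) (nat_lit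 365478079206) (nat_lit 152) (nat_lit 24248004368) (nat_lit 0) (nat_lit 225738557692) (nat_lit 8) (nat_lit 5) (nat_lit 10) (nat_lit 4) (nat_lit 8) (nat_lit 4) (nat_lit 382) (nat_lit 324) (nat_lit 194)) (XT.nd (nat_lit 78) (nat_lit 0) (nat_lit 0) (XT.lf (nat_lit 0) (nat_lit 150969417164) (nat_lit 76) (nat_lit 324430422653) (nat_lit 76) (nat_lit 184690433492) (nat_lit 7) (nat_lit 4) (nat_lit 8) (nat_lit 5) (nat_lit 8) (nat_lit 4) (nat_lit 383) (nat_lit 324) (nat_lit 193)) (XT.lf (nat_lit 0) (nat_lit 341068973589) (nat_lit 76) (nat_lit 253468157559) (nat_lit 76) (nat_lit 113727735394) (nat_lit 7) (nat_lit 4) (nat_lit 8) (nat_lit 5) (nat_lit 8) (nat_lit 4) (nat_lit 384) (nat_lit 324) (nat_lit 192)))) (XT.nd (nat_lit 78) (nat_lit 152) (nat_lit 0) (XT.lf (nat_lit 0) (nat_lit 546375432262) (nat_lit 76) (nat_lit 176829422855) (nat_lit 76) (nat_lit 37088599758) (nat_lit 7) (nat_lit 4) (nat_lit 8)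 (nat_lit 5) (nat_lit 8) (nat_lit 4) (nat_lit 385) (nat_lit 324) (nat_lit 191)) (XT.nd (nat_lit 78) (nat_lit 76) (nat_lit 0) (XT.lf (nat_lit 0) (nat_lit 44219049769) (nat_lit 152) (nat_lit 49092142300) (nat_lit 76) (nat_lit 723137503278) (nat_lit 6) (nat_lit 5) (nat_lit 8) (nat_lit 5) (nat_lit 7) (nat_lit 4) (nat_lit 386) (nat_lit 324) (nat_lit 190)) (XT.lf (nat_lit 0) (nat_lit 132535462725) (nat_lit 76) (nat_lit 282586439) (nat_lit 152) (nat_lit 744143598403) (nat_lit 5) (nat_lit 5) (nat_lit 6) (nat_lit 5) (nat_lit 7) (nat_lit 4) (nat_lit 387) (nat_lit 324) (nat_lit 189)))))) (XT.nd (nat_lit 390) (nat_lit 1064) (nat_lit 0) (XT.nd (nat_lit 156) (nat_lit 0) (nat_lit 76) (XT.nd (nat_lit 78) (nat_lit 0) (nat_lit 76) (XT.lf (nat_lit 0) (nat_lit 90010897) (nat_lit 836) (nat_lit 6951890006) (nat_lit 836) (nat_lit 6951890006) (nat_lit 96) (nat_lit 3) (nat_lit 107) (nat_lit 3) (nat_lit 107) (nat_lit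 5) (nat_lit 325) (nat_lit 325) (nat_lit 250)) (XT.lf (nat_lit 0) (nat_lit 535636407) (nat_lit 760) (nat_lit 21895946549) (nat_lit 836) (nat_lit 6657923207) (nat_lit 97) (nat_lit 5) (nat_lit 107) (nat_lit 5) (nat_lit 108) (nat_lit 5) (nat_lit 326) (nat_lit 325) (nat_lit 249))) (XT.nd (nat_lit 78) (nat_lit 0) (nat_lit 76) (XT.lf (nat_lit 0) (nat_lit 1390627034) (nat_lit 760) (nat_lit 41383492) (nat_lit 836) (nat_lit 28824043418) (nat_lit 97) (nat_lit 5) (nat_lit 107) (nat_lit 5) (nat_lit 108) (nat_lit 5) (nat_lit 327) (nat_lit 325) (nat_lit 248)) (XT.nd (nat_lit 78) (nat_lit 0) (nat_lit 76) (XT.lf (nat_lit 0) (nat_lit 3020187395) (nat_lit 760) (nat_lit 7502285943) (nat_lit 836) (nat_lit 20958158344) (nat_lit 98) (nat_lit 5) (nat_lit 108) (nat_lit 5) (nat_lit 109) (nat_lit 5) (nat_lit 328) (nat_lit 325) (nat_lit 247)) (XT.lf (nat_lit 0) (nat_lit 5266073156) (nat_lit 760) (nat_lit 15333763211)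 (nat_lit 836) (nat_lit 12179054816) (nat_lit 99) (nat_lit 5) (nat_lit 109) (nat_lit 5) (nat_lit 110) (nat_lit 5) (nat_lit 329) (nat_lit 325) (nat_lit 246))))) (XT.nd (nat_lit 234) (nat_lit 1368) (nat_lit 0) (XT.nd (nat_lit 78) (nat_lit 0) (nat_lit 0) (XT.lf (nat_lit 0) (nat_lit 8196409002) (nat_lit 760) (nat_lit 23561473474) (nat_lit 836) (nat_lit 2397902575) (nat_lit 100) (nat_lit 5) (nat_lit 110) (nat_lit 5) (nat_lit 111) (nat_lit 5) (nat_lit 330) (nat_lit 325) (nat_lit 245)) (XT.nd (nat_lit 78) (nat_lit 0) (nat_lit 76) (XT.lf (nat_lit 76) (nat_lit 3259468974) (nat_lit 0) (nat_lit 8761908608) (nat_lit 836) (nat_lit 23588454190) (nat_lit 101) (nat_lit 5) (nat_lit 100) (nat_lit 5) (nat_lit 111) (nat_lit 5) (nat_lit 331) (nat_lit 325) (nat_lit 244)) (XT.lf (nat_lit 0) (nat_lit 16811546390) (nat_lit 760) (nat_lit 4357890155) (nat_lit 76) (nat_lit 15977816325) (nat_lit 101) (nat_lit 5) (nat_lit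 111) (nat_lit 5) (nat_lit 102) (nat_lit 5) (nat_lit 332) (nat_lit 325) (nat_lit 243)))) (XT.nd (nat_lit 78) (nat_lit 684) (nat_lit 0) (XT.lf (nat_lit 0) (nat_lit 22602162336) (nat_lit 836) (nat_lit 12273654309) (nat_lit 76) (nat_lit 3900999304) (nat_lit 91) (nat_lit 5) (nat_lit 102) (nat_lit 5) (nat_lit 92) (nat_lit 5) (nat_lit 333) (nat_lit 325) (nat_lit 242)) (XT.nd (nat_lit 78) (nat_lit 304) (nat_lit 0) (XT.lf (nat_lit 0) (nat_lit 19721294074) (nat_lit 380) (nat_lit 9869013099) (nat_lit 456) (nat_lit 10909732159) (nat_lit 86) (nat_lit 5) (nat_lit 91) (nat_lit 5) (nat_lit 92) (nat_lit 5) (nat_lit 334) (nat_lit 325) (nat_lit 241)) (XT.lf (nat_lit 0) (nat_lit 12484673300) (nat_lit 304) (nat_lit 25325359287) (nat_lit 380) (nat_lit 4517470102) (nat_lit 82) (nat_lit 5) (nat_lit 86) (nat_lit 5) (nat_lit 87) (nat_lit 5) (nat_lit 335) (nat_lit 325) (nat_lit 240))))))))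
noncomputable def xc91 : XT := (XT.nd (nat_lit 1716) (nat_lit 1596) (nat_lit 0) (XT.nd (nat_lit 858) (nat_lit 1444) (nat_lit 0) (XT.nd (nat_lit 390) (nat_lit 1292) (nat_lit 0) (XT.nd (nat_lit 156) (nat_lit 836) (nat_lit 0) (XT.nd (nat_lit 78) (nat_lit 0) (nat_lit 0) (XT.lf (nat_lit 0) (nat_lit 2941696854) (nat_lit 456) (nat_lit 39493890308) (nat_lit 76) (nat_lit 1832125936) (nat_lit 76) (nat_lit 5) (nat_lit 82) (nat_lit 5) (nat_lit 77) (nat_lit 5) (nat_lit 336) (nat_lit 325) (nat_lit 239)) (XT.lf (nat_lit 0) (nat_lit 11790269124) (nat_lit 456) (nat_lit 3630831592) (nat_lit 76) (nat_lit 30890796656) (nat_lit 76) (nat_lit 5) (nat_lit 82) (nat_lit 5) (nat_lit 77) (nat_lit 5) (nat_lit 337) (nat_lit 325) (nat_lit 238))) (XT.nd (nat_lit 78) (nat_lit 532) (nat_lit 0) (XT.lf (nat_lit 0) (nat_lit 22130695526) (nat_lit 380) (nat_lit 12460878761) (nat_lit 76) (nat_lit 13888850152) (nat_lit 72) (nat_lit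 5) (nat_lit 77) (nat_lit 5) (nat_lit 73) (nat_lit 5) (nat_lit 338) (nat_lit 325) (nat_lit 237)) (XT.nd (nat_lit 78) (nat_lit 228) (nat_lit 0) (XT.lf (nat_lit 0) (nat_lit 28806386664) (nat_lit 304) (nat_lit 5260279927) (nat_lit 380) (nat_lit 16717357539) (nat_lit 68) (nat_lit 5) (nat_lit 72) (nat_lit 5) (nat_lit 73) (nat_lit 5) (nat_lit 339) (nat_lit 325) (nat_lit 236)) (XT.lf (nat_lit 0) (nat_lit 20801898465) (nat_lit 228) (nat_lit 27108019148) (nat_lit 304) (nat_lit 5314379615) (nat_lit 65) (nat_lit 5) (nat_lit 68) (nat_lit 5) (nat_lit 69) (nat_lit 5) (nat_lit 340) (nat_lit 325) (nat_lit 235))))) (XT.nd (nat_lit 234) (nat_lit 684) (nat_lit 0) (XT.nd (nat_lit 78) (nat_lit 228) (nat_lit 0) (XT.lf (nat_lit 0) (nat_lit 7511818075) (nat_lit 380) (nat_lit 43769355456) (nat_lit 76) (nat_lit 4536405796) (nat_lit 60) (nat_lit 5) (nat_lit 65) (nat_lit 5) (nat_lit 61) (nat_lit 5) (nat_lit 341) (nat_lit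 325) (nat_lit 234)) (XT.nd (nat_lit 78) (nat_lit 0) (nat_lit 0) (XT.lf (nat_lit 0) (nat_lit 2150423138) (nat_lit 228) (nat_lit 20089720666) (nat_lit 304) (nat_lit 36320717559) (nat_lit 57) (nat_lit 5) (nat_lit 60) (nat_lit 5) (nat_lit 61) (nat_lit 5) (nat_lit 342) (nat_lit 325) (nat_lit 233)) (XT.lf (nat_lit 0) (nat_lit 39129231488) (nat_lit 304) (nat_lit 8410070796) (nat_lit 76) (nat_lit 13935183074) (nat_lit 57) (nat_lit 5) (nat_lit 61) (nat_lit 5) (nat_lit 58) (nat_lit 5) (nat_lit 343) (nat_lit 325) (nat_lit 232)))) (XT.nd (nat_lit 78) (nat_lit 456) (nat_lit 0) (XT.lf (nat_lit 0) (nat_lit 44510091266) (nat_lit 228) (nat_lit 13888656586) (nat_lit 304) (nat_lit 6170990218) (nat_lit 54) (nat_lit 5) (nat_lit 57) (nat_lit 5) (nat_lit 58) (nat_lit 5) (nat_lit 344) (nat_lit 325) (nat_lit 231)) (XT.nd (nat_lit 78) (nat_lit 228) (nat_lit 0) (XT.lf (nat_lit 0) (nat_lit 11991509167) (nat_lit 228)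 (nat_lit 33239889152) (nat_lit 76) (nat_lit 22619603242) (nat_lit 51) (nat_lit 5) (nat_lit 54) (nat_lit 5) (nat_lit 52) (nat_lit 5) (nat_lit 345) (nat_lit 325) (nat_lit 230)) (XT.lf (nat_lit 0) (nat_lit 23393445640) (nat_lit 228) (nat_lit 8950814639) (nat_lit 304) (nat_lit 38997778170) (nat_lit 48) (nat_lit 5) (nat_lit 51) (nat_lit 5) (nat_lit 52) (nat_lit 5) (nat_lit 346) (nat_lit 325) (nat_lit 229)))))) (XT.nd (nat_lit 390) (nat_lit 684) (nat_lit 0) (XT.nd (nat_lit 156) (nat_lit 532) (nat_lit 0) (XT.nd (nat_lit 78) (nat_lit 76) (nat_lit 0) (XT.lf (nat_lit 0) (nat_lit 10510122883) (nat_lit 152) (nat_lit 45035884577) (nat_lit 228) (nat_lit 19505314964) (nat_lit 46) (nat_lit 5) (nat_lit 48) (nat_lit 5) (nat_lit 49) (nat_lit 5) (nat_lit 347) (nat_lit 325) (nat_lit 228)) (XT.lf (nat_lit 0) (nat_lit 2493198935) (nat_lit 228) (nat_lit 3852251957) (nat_lit 76) (nat_lit 72660885880) (nat_lit 45)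 (nat_lit 5) (nat_lit 48) (nat_lit 5) (nat_lit 46) (nat_lit 5) (nat_lit 348) (nat_lit 325) (nat_lit 227))) (XT.nd (nat_lit 78) (nat_lit 304) (nat_lit 0) (XT.lf (nat_lit 0) (nat_lit 27138480481) (nat_lit 304) (nat_lit 20400473597) (nat_lit 76) (nat_lit 35644299735) (nat_lit 42) (nat_lit 5) (nat_lit 46) (nat_lit 5) (nat_lit 43) (nat_lit 5) (nat_lit 349) (nat_lit 325) (nat_lit 226)) (XT.nd (nat_lit 78) (nat_lit 152) (nat_lit 0) (XT.lf (nat_lit 0) (nat_lit 48638701328) (nat_lit 152) (nat_lit 6047991108) (nat_lit 228) (nat_lit 32961068605) (nat_lit 40) (nat_lit 5) (nat_lit 42) (nat_lit 5) (nat_lit 43) (nat_lit 5) (nat_lit 350) (nat_lit 325) (nat_lit 225)) (XT.lf (nat_lit 0) (nat_lit 31882201625) (nat_lit 152) (nat_lit 54017565537) (nat_lit 228) (nat_lit 6496613447) (nat_lit 38) (nat_lit 5) (nat_lit 40) (nat_lit 5) (nat_lit 41) (nat_lit 5) (nat_lit 351) (nat_lit 325) (nat_lit 224))))) (XT.nd (nat_lit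 234) (nat_lit 304) (nat_lit 0) (XT.nd (nat_lit 78) (nat_lit 152) (nat_lit 0) (XT.lf (nat_lit 0) (nat_lit 12276919188) (nat_lit 152) (nat_lit 10082496159) (nat_lit 228) (nat_lit 75099172019) (nat_lit 35) (nat_lit 5) (nat_lit 37) (nat_lit 5) (nat_lit 38) (nat_lit 5) (nat_lit 352) (nat_lit 325) (nat_lit 223)) (XT.nd (nat_lit 78) (nat_lit 152) (nat_lit 0) (XT.lf (nat_lit 0) (nat_lit 54951255548) (nat_lit 228) (nat_lit 10535896124) (nat_lit 76) (nat_lit 37350548635) (nat_lit 35) (nat_lit 5) (nat_lit 38) (nat_lit 5) (nat_lit 36) (nat_lit 5) (nat_lit 353) (nat_lit 325) (nat_lit 222)) (XT.lf (nat_lit 0) (nat_lit 72218486253) (nat_lit 152) (nat_lit 19226802493) (nat_lit 228) (nat_lit 17137112802) (nat_lit 33) (nat_lit 5) (nat_lit 35) (nat_lit 5) (nat_lit 36) (nat_lit 5) (nat_lit 354) (nat_lit 325) (nat_lit 221)))) (XT.nd (nat_lit 78) (nat_lit 152) (nat_lit 0) (XT.lf (nat_lit 0) (nat_lit 16998083586)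 (nat_lit 152) (nat_lit 66741020449) (nat_lit 76) (nat_lit 30963013266) (nat_lit 31) (nat_lit 5) (nat_lit 33) (nat_lit 5) (nat_lit 32) (nat_lit 5) (nat_lit 355) (nat_lit 325) (nat_lit 220)) (XT.nd (nat_lit 78) (nat_lit 0) (nat_lit 0) (XT.lf (nat_lit 0) (nat_lit 19032233513) (nat_lit 152) (nat_lit 35502147569) (nat_lit 228) (nat_lit 66699449372) (nat_lit 29) (nat_lit 5) (nat_lit 31) (nat_lit 5) (nat_lit 32) (nat_lit 5) (nat_lit 356) (nat_lit 325) (nat_lit 219)) (XT.lf (nat_lit 0) (nat_lit 96511890653) (nat_lit 228) (nat_lit 14461630328) (nat_lit 76) (nat_lit 17242645436) (nat_lit 29) (nat_lit 5) (nat_lit 32) (nat_lit 5) (nat_lit 30) (nat_lit 4) (nat_lit 357) (nat_lit 325) (nat_lit 218))))))) (XT.nd (nat_lit 858) (nat_lit 684) (nat_lit 0) (XT.nd (nat_lit 390) (nat_lit 304) (nat_lit 0) (XT.nd (nat_lit 156) (nat_lit 304) (nat_lit 0) (XT.nd (nat_lit 78) (nat_lit 152) (nat_lit 0) (XT.lf (nat_lit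 0) (nat_lit 7808227495) (nat_lit 152) (nat_lit 53458842059) (nat_lit 76) (nat_lit 74389633732) (nat_lit 27) (nat_lit 5) (nat_lit 29) (nat_lit 5) (nat_lit 28) (nat_lit 5) (nat_lit 358) (nat_lit 325) (nat_lit 217)) (XT.lf (nat_lit 0) (nat_lit 44302080120) (nat_lit 152) (nat_lit 6029297881) (nat_lit 228) (nat_lit 93287098432) (nat_lit 25) (nat_lit 5) (nat_lit 27) (nat_lit 5) (nat_lit 28) (nat_lit 5) (nat_lit 359) (nat_lit 325) (nat_lit 216))) (XT.nd (nat_lit 78) (nat_lit 304) (nat_lit 0) (XT.lf (nat_lit 0) (nat_lit 98038058559) (nat_lit 228) (nat_lit 1233998774) (nat_lit 76) (nat_lit 52856051087) (nat_lit 25) (nat_lit 5) (nat_lit 28) (nat_lit 5) (nat_lit 26) (nat_lit 4) (nat_lit 360) (nat_lit 325) (nat_lit 215)) (XT.nd (nat_lit 78) (nat_lit 228) (nat_lit 0) (XT.lf (nat_lit 0) (nat_lit 108048113161) (nat_lit 76) (nat_lit 43299831538) (nat_lit 152) (nat_lit 9881233531) (nat_lit 24) (nat_lit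 5) (nat_lit 25) (nat_lit 5) (nat_lit 26) (nat_lit 4) (nat_lit 361) (nat_lit 325) (nat_lit 214)) (XT.lf (nat_lit 0) (nat_lit 37843028637) (nat_lit 228) (nat_lit 115010452671) (nat_lit 76) (nat_lit 18115762948) (nat_lit 21) (nat_lit 5) (nat_lit 24) (nat_lit 5) (nat_lit 22) (nat_lit 4) (nat_lit 362) (nat_lit 325) (nat_lit 213))))) (XT.nd (nat_lit 234) (nat_lit 76) (nat_lit 0) (XT.nd (nat_lit 78) (nat_lit 228) (nat_lit 0) (XT.lf (nat_lit 0) (nat_lit 90713549732) (nat_lit 228) (nat_lit 6628460242) (nat_lit 76) (nat_lit 84054681478) (nat_lit 21) (nat_lit 5) (nat_lit 24) (nat_lit 5) (nat_lit 22) (nat_lit 4) (nat_lit 363) (nat_lit 325) (nat_lit 212)) (XT.nd (nat_lit 78) (nat_lit 152) (nat_lit 0) (XT.lf (nat_lit 0) (nat_lit 114072089866) (nat_lit 76) (nat_lit 35520940414) (nat_lit 152) (nat_lit 42976338877) (nat_lit 20) (nat_lit 5) (nat_lit 21) (nat_lit 5) (nat_lit 22) (nat_lit 4) (nat_lit 364)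 (nat_lit 325) (nat_lit 211)) (XT.lf (nat_lit 0) (nat_lit 9535166350) (nat_lit 152) (nat_lit 163877509510) (nat_lit 76) (nat_lit 31153427838) (nat_lit 18) (nat_lit 5) (nat_lit 20) (nat_lit 5) (nat_lit 19) (nat_lit 4) (nat_lit 365) (nat_lit 325) (nat_lit 210)))) (XT.nd (nat_lit 78) (nat_lit 76) (nat_lit 0) (XT.lf (nat_lit 0) (nat_lit 66749216014) (nat_lit 152) (nat_lit 46590655094) (nat_lit 76) (nat_lit 104047114616) (nat_lit 18) (nat_lit 5) (nat_lit 20) (nat_lit 5) (nat_lit 19) (nat_lit 4) (nat_lit 366) (nat_lit 325) (nat_lit 209)) (XT.nd (nat_lit 78) (nat_lit 0) (nat_lit 0) (XT.lf (nat_lit 0) (nat_lit 82724177509) (nat_lit 76) (nat_lit 47106324235) (nat_lit 152) (nat_lit 101338531432) (nat_lit 17) (nat_lit 5) (nat_lit 18) (nat_lit 5) (nat_lit 19) (nat_lit 4) (nat_lit 367) (nat_lit 325) (nat_lit 208)) (XT.lf (nat_lit 0) (nat_lit 199163135772) (nat_lit 152) (nat_lit 22362388803) (nat_lit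 0) (nat_lit 24467878013) (nat_lit 17) (nat_lit 5) (nat_lit 19) (nat_lit 4) (nat_lit 17) (nat_lit 4) (nat_lit 368) (nat_lit 325) (nat_lit 207)))))) (XT.nd (nat_lit 468) (nat_lit 304) (nat_lit 0) (XT.nd (nat_lit 234) (nat_lit 152) (nat_lit 0) (XT.nd (nat_lit 78) (nat_lit 76) (nat_lit 0) (XT.lf (nat_lit 0) (nat_lit 14311975804) (nat_lit 152) (nat_lit 145357179649) (nat_lit 76) (nat_lit 102192237168) (nat_lit 15) (nat_lit 5) (nat_lit 17) (nat_lit 5) (nat_lit 16) (nat_lit 4) (nat_lit 369) (nat_lit 325) (nat_lit 206)) (XT.nd (nat_lit 78) (nat_lit 76) (nat_lit 0) (XT.lf (nat_lit 0) (nat_lit 79121499653) (nat_lit 152) (nat_lit 12499018992) (nat_lit 76) (nat_lit 187319087790) (nat_lit 15) (nat_lit 5) (nat_lit 17) (nat_lit 5) (nat_lit 16) (nat_lit 4) (nat_lit 370) (nat_lit 325) (nat_lit 205)) (XT.lf (nat_lit 0) (nat_lit 135316603377) (nat_lit 76) (nat_lit 15910693652) (nat_lit 152) (nat_lit 146051205072)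 (nat_lit 14) (nat_lit 5) (nat_lit 15) (nat_lit 5) (nat_lit 16) (nat_lit 4) (nat_lit 371) (nat_lit 325) (nat_lit 204)))) (XT.nd (nat_lit 78) (nat_lit 152) (nat_lit 0) (XT.lf (nat_lit 0) (nat_lit 230349926392) (nat_lit 152) (nat_lit 22703690233) (nat_lit 0) (nat_lit 63968474691) (nat_lit 14) (nat_lit 5) (nat_lit 16) (nat_lit 4) (nat_lit 14) (nat_lit 4) (nat_lit 372) (nat_lit 325) (nat_lit 203)) (XT.nd (nat_lit 78) (nat_lit 76) (nat_lit 0) (XT.lf (nat_lit 0) (nat_lit 131638178118) (nat_lit 76) (nat_lit 186486673940) (nat_lit 76) (nat_lit 20104191594) (nat_lit 13) (nat_lit 4) (nat_lit 14) (nat_lit 5) (nat_lit 14) (nat_lit 4) (nat_lit 373) (nat_lit 325) (nat_lit 202)) (XT.lf (nat_lit 0) (nat_lit 50532601027) (nat_lit 152) (nat_lit 62791604540) (nat_lit 76) (nat_lit 247747870119) (nat_lit 12) (nat_lit 5) (nat_lit 14) (nat_lit 5) (nat_lit 13) (nat_lit 4) (nat_lit 374) (nat_lit 325) (nat_lit 201)))))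 (XT.nd (nat_lit 234) (nat_lit 152) (nat_lit 0) (XT.nd (nat_lit 78) (nat_lit 76) (nat_lit 0) (XT.lf (nat_lit 0) (nat_lit 95218423566) (nat_lit 76) (nat_lit 32392670982) (nat_lit 152) (nat_lit 258040221598) (nat_lit 11) (nat_lit 5) (nat_lit 12) (nat_lit 5) (nat_lit 13) (nat_lit 4) (nat_lit 375) (nat_lit 325) (nat_lit 200)) (XT.nd (nat_lit 78) (nat_lit 76) (nat_lit 0) (XT.lf (nat_lit 0) (nat_lit 212825598666) (nat_lit 152) (nat_lit 144909248758) (nat_lit 0) (nat_lit 54363562077) (nat_lit 11) (nat_lit 5) (nat_lit 13) (nat_lit 4) (nat_lit 11) (nat_lit 4) (nat_lit 376) (nat_lit 325) (nat_lit 199)) (XT.lf (nat_lit 0) (nat_lit 12095629948) (nat_lit 76) (nat_lit 293495844050) (nat_lit 76) (nat_lit 135033085979) (nat_lit 10) (nat_lit 4) (nat_lit 11) (nat_lit 5) (nat_lit 11) (nat_lit 4) (nat_lit 377) (nat_lit 325) (nat_lit 198)))) (XT.nd (nat_lit 78) (nat_lit 152) (nat_lit 0) (XT.lf (nat_lit 0) (nat_lit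 186834037983) (nat_lit 76) (nat_lit 221468009692) (nat_lit 76) (nat_lit 63004583583) (nat_lit 10) (nat_lit 4) (nat_lit 11) (nat_lit 5) (nat_lit 11) (nat_lit 4) (nat_lit 378) (nat_lit 325) (nat_lit 197)) (XT.nd (nat_lit 78) (nat_lit 76) (nat_lit 0) (XT.lf (nat_lit 0) (nat_lit 14312197782) (nat_lit 152) (nat_lit 129124039209) (nat_lit 76) (nat_lit 360995526237) (nat_lit 9) (nat_lit 5) (nat_lit 11) (nat_lit 5) (nat_lit 10) (nat_lit 4) (nat_lit 379) (nat_lit 325) (nat_lit 196)) (XT.lf (nat_lit 0) (nat_lit 38831549629) (nat_lit 76) (nat_lit 57410483066) (nat_lit 152) (nat_lit 443881475871) (nat_lit 8) (nat_lit 5) (nat_lit 9) (nat_lit 5) (nat_lit 10) (nat_lit 4) (nat_lit 380) (nat_lit 325) (nat_lit 195))))))))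
noncomputable def xc92 : XT := (XT.nd (nat_lit 43758) (nat_lit 0) (nat_lit 1368) (XT.nd (nat_lit 42900) (nat_lit 0) (nat_lit 4712) (XT.nd (nat_lit 390) (nat_lit 76) (nat_lit 0) (XT.nd (nat_lit 156) (nat_lit 76) (nat_lit 0) (XT.nd (nat_lit 78) (nat_lit 0) (nat_lit 0) (XT.lf (nat_lit 0) (nat_lit 187565924963) (nat_lit 152) (nat_lit 354315948509) (nat_lit 0) (nat_lit 36646736670) (nat_lit 8) (nat_lit 5) (nat_lit 10) (nat_lit 4) (nat_lit 8) (nat_lit 4) (nat_lit 381) (nat_lit 325) (nat_lit 194)) (XT.lf (nat_lit 0) (nat_lit 287163151273) (nat_lit 152) (nat_lit 196551102230) (nat_lit 0) (nat_lit 136243495334) (nat_lit 8) (nat_lit 5) (nat_lit 10) (nat_lit 4) (nat_lit 8) (nat_lit 4) (nat_lit 382) (nat_lit 325) (nat_lit 193))) (XT.nd (nat_lit 78) (nat_lit 76) (nat_lit 0) (XT.lf (nat_lit 0) (nat_lit 394727578879) (nat_lit 152) (nat_lit 26166178776) (nat_lit 0) (nat_lit 243807489935) (nat_lit 8) (nat_lit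 5) (nat_lit 10) (nat_lit 4) (nat_lit 8) (nat_lit 4) (nat_lit 383) (nat_lit 325) (nat_lit 192)) (XT.nd (nat_lit 78) (nat_lit 0) (nat_lit 0) (XT.lf (nat_lit 0) (nat_lit 163067694903) (nat_lit 76) (nat_lit 350374875420) (nat_lit 76) (nat_lit 199454385545) (nat_lit 7) (nat_lit 4) (nat_lit 8) (nat_lit 5) (nat_lit 8) (nat_lit 4) (nat_lit 384) (nat_lit 325) (nat_lit 191)) (XT.lf (nat_lit 0) (nat_lit 368373680703) (nat_lit 76) (nat_lit 273736368456) (nat_lit 76) (nat_lit 122815507349) (nat_lit 7) (nat_lit 4) (nat_lit 8) (nat_lit 5) (nat_lit 8) (nat_lit 4) (nat_lit 385) (nat_lit 325) (nat_lit 190))))) (XT.nd (nat_lit 42276) (nat_lit 0) (nat_lit 6916) (XT.nd (nat_lit 78) (nat_lit 76) (nat_lit 0) (XT.lf (nat_lit 0) (nat_lit 590103234647) (nat_lit 76) (nat_lit 190967219546) (nat_lit 76) (nat_lit 40046014705) (nat_lit 7) (nat_lit 4) (nat_lit 8) (nat_lit 5) (nat_lit 8) (nat_lit 4) (nat_lit 386) (nat_lit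 325) (nat_lit 189)) (XT.nd (nat_lit 42120) (nat_lit 0) (nat_lit 6840) (XT.lf (nat_lit 0) (nat_lit 47765243599) (nat_lit 152) (nat_lit 53002773732) (nat_lit 76) (nat_lit 780996138534) (nat_lit 6) (nat_lit 5) (nat_lit 8) (nat_lit 5) (nat_lit 7) (nat_lit 4) (nat_lit 387) (nat_lit 325) (nat_lit 188)) (XT.lf (nat_lit 0) (nat_lit 221114311) (nat_lit 836) (nat_lit 7442915154) (nat_lit 836) (nat_lit 7442915154) (nat_lit 96) (nat_lit 3) (nat_lit 107) (nat_lit 3) (nat_lit 107) (nat_lit 5) (nat_lit 326) (nat_lit 326) (nat_lit 248)))) (XT.nd (nat_lit 78) (nat_lit 0) (nat_lit 0) (XT.lf (nat_lit 0) (nat_lit 808214201) (nat_lit 760) (nat_lit 23509507561) (nat_lit 836) (nat_lit 7087172556) (nat_lit 97) (nat_lit 5) (nat_lit 107) (nat_lit 5) (nat_lit 108) (nat_lit 5) (nat_lit 327) (nat_lit 326) (nat_lit 247)) (XT.nd (nat_lit 78) (nat_lit 0) (nat_lit 76) (XT.lf (nat_lit 76) (nat_lit 85940452) (nat_lit 0)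 (nat_lit 1629988592) (nat_lit 836) (nat_lit 30949641814) (nat_lit 98) (nat_lit 5) (nat_lit 97) (nat_lit 5) (nat_lit 108) (nat_lit 5) (nat_lit 328) (nat_lit 326) (nat_lit 246)) (XT.lf (nat_lit 0) (nat_lit 3459471056) (nat_lit 760) (nat_lit 7968759170) (nat_lit 836) (nat_lit 22560723363) (nat_lit 98) (nat_lit 5) (nat_lit 108) (nat_lit 5) (nat_lit 109) (nat_lit 5) (nat_lit 329) (nat_lit 326) (nat_lit 245)))))) (XT.nd (nat_lit 390) (nat_lit 1748) (nat_lit 0) (XT.nd (nat_lit 156) (nat_lit 608) (nat_lit 0) (XT.nd (nat_lit 78) (nat_lit 0) (nat_lit 76) (XT.lf (nat_lit 0) (nat_lit 5871490537) (nat_lit 760) (nat_lit 16422195402) (nat_lit 836) (nat_lit 13098082932) (nat_lit 99) (nat_lit 5) (nat_lit 109) (nat_lit 5) (nat_lit 110) (nat_lit 5) (nat_lit 330) (nat_lit 326) (nat_lit 244)) (XT.lf (nat_lit 0) (nat_lit 9024049673) (nat_lit 760) (nat_lit 25304664259) (nat_lit 836) (nat_lit 2550727312) (nat_lit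 100) (nat_lit 5) (nat_lit 110) (nat_lit 5) (nat_lit 111) (nat_lit 5) (nat_lit 331) (nat_lit 326) (nat_lit 243))) (XT.nd (nat_lit 78) (nat_lit 684) (nat_lit 0) (XT.lf (nat_lit 76) (nat_lit 3655794298) (nat_lit 0) (nat_lit 9488602631) (nat_lit 836) (nat_lit 25305961286) (nat_lit 101) (nat_lit 5) (nat_lit 100) (nat_lit 5) (nat_lit 111) (nat_lit 5) (nat_lit 332) (nat_lit 326) (nat_lit 242)) (XT.nd (nat_lit 78) (nat_lit 760) (nat_lit 0) (XT.lf (nat_lit 0) (nat_lit 18305458292) (nat_lit 760) (nat_lit 4572975256) (nat_lit 76) (nat_lit 17232969917) (nat_lit 101) (nat_lit 5) (nat_lit 111) (nat_lit 5) (nat_lit 102) (nat_lit 5) (nat_lit 333) (nat_lit 326) (nat_lit 241)) (XT.lf (nat_lit 0) (nat_lit 24550091228) (nat_lit 836) (nat_lit 13120449557) (nat_lit 76) (nat_lit 4201265771) (nat_lit 91) (nat_lit 5) (nat_lit 102) (nat_lit 5) (nat_lit 92) (nat_lit 5) (nat_lit 334) (nat_lit 326) (nat_lit 240)))))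 (XT.nd (nat_lit 234) (nat_lit 608) (nat_lit 0) (XT.nd (nat_lit 78) (nat_lit 760) (nat_lit 0) (XT.lf (nat_lit 0) (nat_lit 21428223541) (nat_lit 380) (nat_lit 10660729400) (nat_lit 456) (nat_lit 11644363964) (nat_lit 86) (nat_lit 5) (nat_lit 91) (nat_lit 5) (nat_lit 92) (nat_lit 5) (nat_lit 335) (nat_lit 326) (nat_lit 239)) (XT.nd (nat_lit 78) (nat_lit 456) (nat_lit 0) (XT.lf (nat_lit 0) (nat_lit 13613523176) (nat_lit 304) (nat_lit 27344997425) (nat_lit 380) (nat_lit 4748854965) (nat_lit 82) (nat_lit 5) (nat_lit 86) (nat_lit 5) (nat_lit 87) (nat_lit 5) (nat_lit 336) (nat_lit 326) (nat_lit 238)) (XT.lf (nat_lit 0) (nat_lit 3295724659) (nat_lit 456) (nat_lit 42518970887) (nat_lit 76) (nat_lit 1988373835) (nat_lit 76) (nat_lit 5) (nat_lit 82) (nat_lit 5) (nat_lit 77) (nat_lit 5) (nat_lit 337) (nat_lit 326) (nat_lit 237)))) (XT.nd (nat_lit 78) (nat_lit 608) (nat_lit 0) (XT.lf (nat_lit 0) (nat_lit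 12843390707) (nat_lit 456) (nat_lit 3796825299) (nat_lit 76) (nat_lit 33371021336) (nat_lit 76) (nat_lit 5) (nat_lit 82) (nat_lit 5) (nat_lit 77) (nat_lit 5) (nat_lit 338) (nat_lit 326) (nat_lit 236)) (XT.nd (nat_lit 78) (nat_lit 304) (nat_lit 0) (XT.lf (nat_lit 0) (nat_lit 24005010531) (nat_lit 380) (nat_lit 13333637746) (nat_lit 76) (nat_lit 15014908985) (nat_lit 72) (nat_lit 5) (nat_lit 77) (nat_lit 5) (nat_lit 73) (nat_lit 5) (nat_lit 339) (nat_lit 326) (nat_lit 235)) (XT.lf (nat_lit 0) (nat_lit 31229615187) (nat_lit 304) (nat_lit 5660404323) (nat_lit 380) (nat_lit 17951725419) (nat_lit 68) (nat_lit 5) (nat_lit 72) (nat_lit 5) (nat_lit 73) (nat_lit 5) (nat_lit 340) (nat_lit 326) (nat_lit 234))))))) (XT.nd (nat_lit 858) (nat_lit 1216) (nat_lit 0) (XT.nd (nat_lit 390) (nat_lit 1064) (nat_lit 0) (XT.nd (nat_lit 156) (nat_lit 456) (nat_lit 0) (XT.nd (nat_lit 78) (nat_lit 380) (nat_lit 0)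 (XT.lf (nat_lit 0) (nat_lit 22584083289) (nat_lit 228) (nat_lit 29251528656) (nat_lit 304) (nat_lit 5641891283) (nat_lit 65) (nat_lit 5) (nat_lit 68) (nat_lit 5) (nat_lit 69) (nat_lit 5) (nat_lit 341) (nat_lit 326) (nat_lit 233)) (XT.lf (nat_lit 0) (nat_lit 8202503030) (nat_lit 380) (nat_lit 47150794994) (nat_lit 76) (nat_lit 4925118900) (nat_lit 60) (nat_lit 5) (nat_lit 65) (nat_lit 5) (nat_lit 61) (nat_lit 5) (nat_lit 342) (nat_lit 326) (nat_lit 232))) (XT.nd (nat_lit 78) (nat_lit 228) (nat_lit 0) (XT.lf (nat_lit 0) (nat_lit 2437346101) (nat_lit 228) (nat_lit 21666895086) (nat_lit 304) (nat_lit 39137169073) (nat_lit 57) (nat_lit 5) (nat_lit 60) (nat_lit 5) (nat_lit 61) (nat_lit 5) (nat_lit 343) (nat_lit 326) (nat_lit 231)) (XT.nd (nat_lit 78) (nat_lit 228) (nat_lit 0) (XT.lf (nat_lit 0) (nat_lit 42338601779) (nat_lit 304) (nat_lit 8972931376) (nat_lit 76) (nat_lit 15076889334) (nat_lit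 57) (nat_lit 5) (nat_lit 61) (nat_lit 5) (nat_lit 58) (nat_lit 5) (nat_lit 344) (nat_lit 326) (nat_lit 230)) (XT.lf (nat_lit 0) (nat_lit 48176065571) (nat_lit 228) (nat_lit 14969401627) (nat_lit 304) (nat_lit 6586044026) (nat_lit 54) (nat_lit 5) (nat_lit 57) (nat_lit 5) (nat_lit 58) (nat_lit 5) (nat_lit 345) (nat_lit 326) (nat_lit 229))))) (XT.nd (nat_lit 234) (nat_lit 456) (nat_lit 0) (XT.nd (nat_lit 78) (nat_lit 380) (nat_lit 0) (XT.lf (nat_lit 0) (nat_lit 13023393934) (nat_lit 228) (nat_lit 35792839896) (nat_lit 76) (nat_lit 24459162409) (nat_lit 51) (nat_lit 5) (nat_lit 54) (nat_lit 5) (nat_lit 52) (nat_lit 5) (nat_lit 346) (nat_lit 326) (nat_lit 228)) (XT.nd (nat_lit 78) (nat_lit 152) (nat_lit 0) (XT.lf (nat_lit 0) (nat_lit 25366544601) (nat_lit 228) (nat_lit 9634032045) (nat_lit 304) (nat_lit 42045333097) (nat_lit 48) (nat_lit 5) (nat_lit 51) (nat_lit 5) (nat_lit 52) (nat_lit 5) (nat_lit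 347) (nat_lit 326) (nat_lit 227)) (XT.lf (nat_lit 0) (nat_lit 11450989074) (nat_lit 152) (nat_lit 48604417060) (nat_lit 228) (nat_lit 20996687102) (nat_lit 46) (nat_lit 5) (nat_lit 48) (nat_lit 5) (nat_lit 49) (nat_lit 5) (nat_lit 348) (nat_lit 326) (nat_lit 226)))) (XT.nd (nat_lit 78) (nat_lit 380) (nat_lit 0) (XT.lf (nat_lit 0) (nat_lit 2754546452) (nat_lit 228) (nat_lit 4065697641) (nat_lit 76) (nat_lit 78503461762) (nat_lit 45) (nat_lit 5) (nat_lit 48) (nat_lit 5) (nat_lit 46) (nat_lit 5) (nat_lit 349) (nat_lit 326) (nat_lit 225)) (XT.nd (nat_lit 78) (nat_lit 152) (nat_lit 0) (XT.lf (nat_lit 0) (nat_lit 29368778730) (nat_lit 304) (nat_lit 21939415871) (nat_lit 76) (nat_lit 38526718453) (nat_lit 42) (nat_lit 5) (nat_lit 46) (nat_lit 5) (nat_lit 43) (nat_lit 5) (nat_lit 350) (nat_lit 326) (nat_lit 224)) (XT.lf (nat_lit 0) (nat_lit 52618847226) (nat_lit 152) (nat_lit 6499004080) (nat_lit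 228) (nat_lit 35538882340) (nat_lit 40) (nat_lit 5) (nat_lit 42) (nat_lit 5) (nat_lit 43) (nat_lit 5) (nat_lit 351) (nat_lit 326) (nat_lit 223)))))) (XT.nd (nat_lit 390) (nat_lit 532) (nat_lit 0) (XT.nd (nat_lit 156) (nat_lit 304) (nat_lit 0) (XT.nd (nat_lit 78) (nat_lit 228) (nat_lit 0) (XT.lf (nat_lit 0) (nat_lit 34520191809) (nat_lit 152) (nat_lit 58305454824) (nat_lit 228) (nat_lit 6959715164) (nat_lit 38) (nat_lit 5) (nat_lit 40) (nat_lit 5) (nat_lit 41) (nat_lit 5) (nat_lit 352) (nat_lit 326) (nat_lit 222)) (XT.lf (nat_lit 0) (nat_lit 13344452830) (nat_lit 152) (nat_lit 10855803333) (nat_lit 228) (nat_lit 81052383517) (nat_lit 35) (nat_lit 5) (nat_lit 37) (nat_lit 5) (nat_lit 38) (nat_lit 5) (nat_lit 353) (nat_lit 326) (nat_lit 221))) (XT.nd (nat_lit 78) (nat_lit 304) (nat_lit 0) (XT.lf (nat_lit 0) (nat_lit 59396066527) (nat_lit 228) (nat_lit 11297753931) (nat_lit 76) (nat_lit 40368432295)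 (nat_lit 35) (nat_lit 5) (nat_lit 38) (nat_lit 5) (nat_lit 36) (nat_lit 5) (nat_lit 354) (nat_lit 326) (nat_lit 220)) (XT.nd (nat_lit 78) (nat_lit 152) (nat_lit 0) (XT.lf (nat_lit 0) (nat_lit 78073458272) (nat_lit 152) (nat_lit 20733765806) (nat_lit 228) (nat_lit 18459428008) (nat_lit 33) (nat_lit 5) (nat_lit 35) (nat_lit 5) (nat_lit 36) (nat_lit 5) (nat_lit 355) (nat_lit 326) (nat_lit 219)) (XT.lf (nat_lit 0) (nat_lit 18403200809) (nat_lit 152) (nat_lit 72002882811) (nat_lit 76) (nat_lit 33469916635) (nat_lit 31) (nat_lit 5) (nat_lit 33) (nat_lit 5) (nat_lit 32) (nat_lit 5) (nat_lit 356) (nat_lit 326) (nat_lit 218))))) (XT.nd (nat_lit 234) (nat_lit 228) (nat_lit 0) (XT.nd (nat_lit 78) (nat_lit 152) (nat_lit 0) (XT.lf (nat_lit 0) (nat_lit 20628866921) (nat_lit 152) (nat_lit 38311338011) (nat_lit 228) (nat_lit 71990157081) (nat_lit 29) (nat_lit 5) (nat_lit 31) (nat_lit 5) (nat_lit 32) (nat_lit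 5) (nat_lit 357) (nat_lit 326) (nat_lit 217)) (XT.nd (nat_lit 78) (nat_lit 152) (nat_lit 0) (XT.lf (nat_lit 0) (nat_lit 104273172526) (nat_lit 228) (nat_lit 15548425664) (nat_lit 76) (nat_lit 18649825372) (nat_lit 29) (nat_lit 5) (nat_lit 32) (nat_lit 5) (nat_lit 30) (nat_lit 4) (nat_lit 358) (nat_lit 326) (nat_lit 216)) (XT.lf (nat_lit 0) (nat_lit 8471923234) (nat_lit 152) (nat_lit 57667154244) (nat_lit 76) (nat_lit 80368192877) (nat_lit 27) (nat_lit 5) (nat_lit 29) (nat_lit 5) (nat_lit 28) (nat_lit 5) (nat_lit 359) (nat_lit 326) (nat_lit 215)))) (XT.nd (nat_lit 78) (nat_lit 76) (nat_lit 0) (XT.lf (nat_lit 0) (nat_lit 47911669337) (nat_lit 152) (nat_lit 6483386207) (nat_lit 228) (nat_lit 100711024604) (nat_lit 25) (nat_lit 5) (nat_lit 27) (nat_lit 5) (nat_lit 28) (nat_lit 5) (nat_lit 360) (nat_lit 326) (nat_lit 214)) (XT.nd (nat_lit 78) (nat_lit 76) (nat_lit 0) (XT.lf (nat_lit 0) (nat_lit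 105915925883) (nat_lit 228) (nat_lit 1270814917) (nat_lit 76) (nat_lit 57109860315) (nat_lit 25) (nat_lit 5) (nat_lit 28) (nat_lit 5) (nat_lit 26) (nat_lit 4) (nat_lit 361) (nat_lit 326) (nat_lit 213)) (XT.lf (nat_lit 0) (nat_lit 116751175711) (nat_lit 76) (nat_lit 46737772237) (nat_lit 152) (nat_lit 10636892410) (nat_lit 24) (nat_lit 5) (nat_lit 25) (nat_lit 5) (nat_lit 26) (nat_lit 4) (nat_lit 362) (nat_lit 326) (nat_lit 212))))))))
noncomputable def xc93 : XT := (XT.nd (nat_lit 1716) (nat_lit 76) (nat_lit 0) (XT.nd (nat_lit 858) (nat_lit 456) (nat_lit 0) (XT.nd (nat_lit 390) (nat_lit 304) (nat_lit 0) (XT.nd (nat_lit 156) (nat_lit 228) (nat_lit 0) (XT.nd (nat_lit 78) (nat_lit 0) (nat_lit 0) (XT.lf (nat_lit 0) (nat_lit 40902998230) (nat_lit 228) (nat_lit 124152350627) (nat_lit 76) (nat_lit 19589796453) (nat_lit 21) (nat_lit 5) (nat_lit 24) (nat_lit 5) (nat_lit 22) (nat_lit 4) (nat_lit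 363) (nat_lit 326) (nat_lit 211)) (XT.lf (nat_lit 0) (nat_lit 98000751583) (nat_lit 228) (nat_lit 7104164600) (nat_lit 76) (nat_lit 90801993468) (nat_lit 21) (nat_lit 5) (nat_lit 24) (nat_lit 5) (nat_lit 22) (nat_lit 4) (nat_lit 364) (nat_lit 326) (nat_lit 210))) (XT.nd (nat_lit 78) (nat_lit 152) (nat_lit 0) (XT.lf (nat_lit 0) (nat_lit 123250057864) (nat_lit 76) (nat_lit 38339116758) (nat_lit 152) (nat_lit 46384298579) (nat_lit 20) (nat_lit 5) (nat_lit 21) (nat_lit 5) (nat_lit 22) (nat_lit 4) (nat_lit 365) (nat_lit 326) (nat_lit 209)) (XT.nd (nat_lit 78) (nat_lit 0) (nat_lit 0) (XT.lf (nat_lit 0) (nat_lit 10326154505) (nat_lit 152) (nat_lit 176935805562) (nat_lit 76) (nat_lit 33668014020) (nat_lit 18) (nat_lit 5) (nat_lit 20) (nat_lit 5) (nat_lit 19) (nat_lit 4) (nat_lit 366) (nat_lit 326) (nat_lit 208)) (XT.lf (nat_lit 0) (nat_lit 72115241116) (nat_lit 152) (nat_lit 50269847586) (nat_lit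 76) (nat_lit 112391543002) (nat_lit 18) (nat_lit 5) (nat_lit 20) (nat_lit 5) (nat_lit 19) (nat_lit 4) (nat_lit 367) (nat_lit 326) (nat_lit 207))))) (XT.nd (nat_lit 234) (nat_lit 76) (nat_lit 0) (XT.nd (nat_lit 78) (nat_lit 152) (nat_lit 0) (XT.lf (nat_lit 0) (nat_lit 89388083000) (nat_lit 76) (nat_lit 50853732014) (nat_lit 152) (nat_lit 109419489302) (nat_lit 17) (nat_lit 5) (nat_lit 18) (nat_lit 5) (nat_lit 19) (nat_lit 4) (nat_lit 368) (nat_lit 326) (nat_lit 206)) (XT.nd (nat_lit 78) (nat_lit 152) (nat_lit 0) (XT.lf (nat_lit 0) (nat_lit 215119522311) (nat_lit 152) (nat_lit 24107960090) (nat_lit 0) (nat_lit 26444218335) (nat_lit 17) (nat_lit 5) (nat_lit 19) (nat_lit 4) (nat_lit 17) (nat_lit 4) (nat_lit 369) (nat_lit 326) (nat_lit 205)) (XT.lf (nat_lit 0) (nat_lit 15479560788) (nat_lit 152) (nat_lit 156943466612) (nat_lit 76) (nat_lit 110386138869) (nat_lit 15) (nat_lit 5) (nat_lit 17)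 (nat_lit 5) (nat_lit 16) (nat_lit 4) (nat_lit 370) (nat_lit 326) (nat_lit 204)))) (XT.nd (nat_lit 78) (nat_lit 76) (nat_lit 0) (XT.lf (nat_lit 0) (nat_lit 85472170476) (nat_lit 152) (nat_lit 13459785503) (nat_lit 76) (nat_lit 202321765487) (nat_lit 15) (nat_lit 5) (nat_lit 17) (nat_lit 5) (nat_lit 16) (nat_lit 4) (nat_lit 371) (nat_lit 326) (nat_lit 203)) (XT.nd (nat_lit 78) (nat_lit 0) (nat_lit 0) (XT.lf (nat_lit 0) (nat_lit 146179385027) (nat_lit 76) (nat_lit 17166079453) (nat_lit 152) (nat_lit 157714313105) (nat_lit 14) (nat_lit 5) (nat_lit 15) (nat_lit 5) (nat_lit 16) (nat_lit 4) (nat_lit 372) (nat_lit 326) (nat_lit 202)) (XT.lf (nat_lit 0) (nat_lit 248796676465) (nat_lit 152) (nat_lit 24484628680) (nat_lit 0) (nat_lit 69101610585) (nat_lit 14) (nat_lit 5) (nat_lit 16) (nat_lit 4) (nat_lit 14) (nat_lit 4) (nat_lit 373) (nat_lit 326) (nat_lit 201)))))) (XT.nd (nat_lit 390) (nat_lit 152)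 (nat_lit 0) (XT.nd (nat_lit 156) (nat_lit 152) (nat_lit 0) (XT.nd (nat_lit 78) (nat_lit 76) (nat_lit 0) (XT.lf (nat_lit 0) (nat_lit 142203052577) (nat_lit 76) (nat_lit 201389682306) (nat_lit 76) (nat_lit 21693732813) (nat_lit 13) (nat_lit 4) (nat_lit 14) (nat_lit 5) (nat_lit 14) (nat_lit 4) (nat_lit 374) (nat_lit 326) (nat_lit 200)) (XT.lf (nat_lit 0) (nat_lit 54592054091) (nat_lit 152) (nat_lit 67783056765) (nat_lit 76) (nat_lit 267581884478) (nat_lit 12) (nat_lit 5) (nat_lit 14) (nat_lit 5) (nat_lit 13) (nat_lit 4) (nat_lit 375) (nat_lit 326) (nat_lit 199))) (XT.nd (nat_lit 78) (nat_lit 76) (nat_lit 0) (XT.lf (nat_lit 0) (nat_lit 102866388291) (nat_lit 76) (nat_lit 34969667073) (nat_lit 152) (nat_lit 278666558561) (nat_lit 11) (nat_lit 5) (nat_lit 12) (nat_lit 5) (nat_lit 13) (nat_lit 4) (nat_lit 376) (nat_lit 326) (nat_lit 198)) (XT.nd (nat_lit 78) (nat_lit 76) (nat_lit 0) (XT.lf (nat_lit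 0) (nat_lit 229866737626) (nat_lit 152) (nat_lit 156473217127) (nat_lit 0) (nat_lit 58725569390) (nat_lit 11) (nat_lit 5) (nat_lit 13) (nat_lit 4) (nat_lit 11) (nat_lit 4) (nat_lit 377) (nat_lit 326) (nat_lit 197)) (XT.lf (nat_lit 0) (nat_lit 13090801500) (nat_lit 76) (nat_lit 316962393309) (nat_lit 76) (nat_lit 145820606520) (nat_lit 10) (nat_lit 4) (nat_lit 11) (nat_lit 5) (nat_lit 11) (nat_lit 4) (nat_lit 378) (nat_lit 326) (nat_lit 196))))) (XT.nd (nat_lit 234) (nat_lit 0) (nat_lit 0) (XT.nd (nat_lit 78) (nat_lit 152) (nat_lit 0) (XT.lf (nat_lit 0) (nat_lit 201806243573) (nat_lit 76) (nat_lit 239173303926) (nat_lit 76) (nat_lit 68030944402) (nat_lit 10) (nat_lit 4) (nat_lit 11) (nat_lit 5) (nat_lit 11) (nat_lit 4) (nat_lit 379) (nat_lit 326) (nat_lit 195)) (XT.nd (nat_lit 78) (nat_lit 76) (nat_lit 0) (XT.lf (nat_lit 0) (nat_lit 15469726931) (nat_lit 152) (nat_lit 139429949625) (nat_lit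 76) (nat_lit 389885997368) (nat_lit 9) (nat_lit 5) (nat_lit 11) (nat_lit 5) (nat_lit 10) (nat_lit 4) (nat_lit 380) (nat_lit 326) (nat_lit 194)) (XT.lf (nat_lit 0) (nat_lit 41961042756) (nat_lit 76) (nat_lit 61992334618) (nat_lit 152) (nat_lit 479379410278) (nat_lit 8) (nat_lit 5) (nat_lit 9) (nat_lit 5) (nat_lit 10) (nat_lit 4) (nat_lit 381) (nat_lit 326) (nat_lit 193)))) (XT.nd (nat_lit 78) (nat_lit 0) (nat_lit 0) (XT.lf (nat_lit 0) (nat_lit 202582452296) (nat_lit 152) (nat_lit 382639558448) (nat_lit 0) (nat_lit 39588323231) (nat_lit 8) (nat_lit 5) (nat_lit 10) (nat_lit 4) (nat_lit 8) (nat_lit 4) (nat_lit 382) (nat_lit 326) (nat_lit 192)) (XT.nd (nat_lit 78) (nat_lit 0) (nat_lit 0) (XT.lf (nat_lit 0) (nat_lit 310146623130) (nat_lit 152) (nat_lit 212255129352) (nat_lit 0) (nat_lit 147152093135) (nat_lit 8) (nat_lit 5) (nat_lit 10) (nat_lit 4) (nat_lit 8) (nat_lit 4) (nat_lit 383) (nat_lit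 326) (nat_lit 191)) (XT.lf (nat_lit 0) (nat_lit 426315433111) (nat_lit 152) (nat_lit 28240898026) (nat_lit 0) (nat_lit 263320531883) (nat_lit 8) (nat_lit 5) (nat_lit 10) (nat_lit 4) (nat_lit 8) (nat_lit 4) (nat_lit 384) (nat_lit 326) (nat_lit 190))))))) (XT.nd (nat_lit 42978) (nat_lit 0) (nat_lit 3800) (XT.nd (nat_lit 42510) (nat_lit 0) (nat_lit 6840) (XT.nd (nat_lit 156) (nat_lit 0) (nat_lit 0) (XT.nd (nat_lit 78) (nat_lit 0) (nat_lit 0) (XT.lf (nat_lit 0) (nat_lit 176130878299) (nat_lit 76) (nat_lit 378396308316) (nat_lit 76) (nat_lit 215401063355) (nat_lit 7) (nat_lit 4) (nat_lit 8) (nat_lit 5) (nat_lit 8) (nat_lit 4) (nat_lit 385) (nat_lit 326) (nat_lit 189)) (XT.lf (nat_lit 0) (nat_lit 397860026829) (nat_lit 76) (nat_lit 295627354657) (nat_lit 76) (nat_lit 132631791424) (nat_lit 7) (nat_lit 4) (nat_lit 8) (nat_lit 5) (nat_lit 8) (nat_lit 4) (nat_lit 386) (nat_lit 326) (nat_lit 188)))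 (XT.nd (nat_lit 42198) (nat_lit 0) (nat_lit 6764) (XT.lf (nat_lit 0) (nat_lit 637326726446) (nat_lit 76) (nat_lit 206237260744) (nat_lit 76) (nat_lit 43241402814) (nat_lit 7) (nat_lit 4) (nat_lit 8) (nat_lit 5) (nat_lit 8) (nat_lit 4) (nat_lit 387) (nat_lit 326) (nat_lit 187)) (XT.nd (nat_lit 78) (nat_lit 0) (nat_lit 76) (XT.lf (nat_lit 0) (nat_lit 345029915) (nat_lit 836) (nat_lit 7982513273) (nat_lit 836) (nat_lit 7982513273) (nat_lit 96) (nat_lit 3) (nat_lit 107) (nat_lit 3) (nat_lit 107) (nat_lit 5) (nat_lit 327) (nat_lit 327) (nat_lit 246)) (XT.lf (nat_lit 0) (nat_lit 1069825112) (nat_lit 760) (nat_lit 25271857061) (nat_lit 836) (nat_lit 7565510809) (nat_lit 97) (nat_lit 5) (nat_lit 107) (nat_lit 5) (nat_lit 108) (nat_lit 5) (nat_lit 328) (nat_lit 327) (nat_lit 245))))) (XT.nd (nat_lit 234) (nat_lit 0) (nat_lit 228) (XT.nd (nat_lit 78) (nat_lit 0) (nat_lit 76) (XT.lf (nat_lit 76) (nat_lit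 206080791) (nat_lit 0) (nat_lit 1831255568) (nat_lit 836) (nat_lit 33232046487) (nat_lit 98) (nat_lit 5) (nat_lit 97) (nat_lit 5) (nat_lit 108) (nat_lit 5) (nat_lit 329) (nat_lit 327) (nat_lit 244)) (XT.nd (nat_lit 78) (nat_lit 0) (nat_lit 76) (XT.lf (nat_lit 0) (nat_lit 3905697763) (nat_lit 760) (nat_lit 8491625432) (nat_lit 836) (nat_lit 24302063016) (nat_lit 98) (nat_lit 5) (nat_lit 108) (nat_lit 5) (nat_lit 109) (nat_lit 5) (nat_lit 330) (nat_lit 327) (nat_lit 243)) (XT.lf (nat_lit 0) (nat_lit 6499072887) (nat_lit 760) (nat_lit 17617427767) (nat_lit 836) (nat_lit 14098521928) (nat_lit 99) (nat_lit 5) (nat_lit 109) (nat_lit 5) (nat_lit 110) (nat_lit 5) (nat_lit 331) (nat_lit 327) (nat_lit 242)))) (XT.nd (nat_lit 78) (nat_lit 0) (nat_lit 0) (XT.lf (nat_lit 0) (nat_lit 9893374153) (nat_lit 760) (nat_lit 27207529262) (nat_lit 836) (nat_lit 2721342878) (nat_lit 100) (nat_lit 5) (nat_lit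 110) (nat_lit 5) (nat_lit 111) (nat_lit 5) (nat_lit 332) (nat_lit 327) (nat_lit 241)) (XT.nd (nat_lit 78) (nat_lit 0) (nat_lit 76) (XT.lf (nat_lit 76) (nat_lit 4064485384) (nat_lit 0) (nat_lit 10269759887) (nat_lit 836) (nat_lit 27185059897) (nat_lit 101) (nat_lit 5) (nat_lit 100) (nat_lit 5) (nat_lit 111) (nat_lit 5) (nat_lit 333) (nat_lit 327) (nat_lit 240)) (XT.lf (nat_lit 0) (nat_lit 19897628314) (nat_lit 760) (nat_lit 4824319012) (nat_lit 76) (nat_lit 18591827234) (nat_lit 101) (nat_lit 5) (nat_lit 111) (nat_lit 5) (nat_lit 102) (nat_lit 5) (nat_lit 334) (nat_lit 327) (nat_lit 239)))))) (XT.nd (nat_lit 390) (nat_lit 1444) (nat_lit 0) (XT.nd (nat_lit 156) (nat_lit 760) (nat_lit 0) (XT.nd (nat_lit 78) (nat_lit 380) (nat_lit 0) (XT.lf (nat_lit 0) (nat_lit 26633916688) (nat_lit 836) (nat_lit 14054261536) (nat_lit 76) (nat_lit 4527238879) (nat_lit 91) (nat_lit 5) (nat_lit 102) (nat_lit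 5) (nat_lit 92) (nat_lit 5) (nat_lit 335) (nat_lit 327) (nat_lit 238)) (XT.lf (nat_lit 0) (nat_lit 23253271841) (nat_lit 380) (nat_lit 11515469828) (nat_lit 456) (nat_lit 12457474494) (nat_lit 86) (nat_lit 5) (nat_lit 91) (nat_lit 5) (nat_lit 92) (nat_lit 5) (nat_lit 336) (nat_lit 327) (nat_lit 237))) (XT.nd (nat_lit 78) (nat_lit 456) (nat_lit 0) (XT.lf (nat_lit 0) (nat_lit 14814124245) (nat_lit 304) (nat_lit 29527118305) (nat_lit 380) (nat_lit 5017298388) (nat_lit 82) (nat_lit 5) (nat_lit 86) (nat_lit 5) (nat_lit 87) (nat_lit 5) (nat_lit 337) (nat_lit 327) (nat_lit 236)) (XT.nd (nat_lit 78) (nat_lit 0) (nat_lit 0) (XT.lf (nat_lit 0) (nat_lit 3661141939) (nat_lit 456) (nat_lit 45805235946) (nat_lit 76) (nat_lit 2155740916) (nat_lit 76) (nat_lit 5) (nat_lit 82) (nat_lit 5) (nat_lit 77) (nat_lit 5) (nat_lit 338) (nat_lit 327) (nat_lit 235)) (XT.lf (nat_lit 0) (nat_lit 13965083545) (nat_lit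 456) (nat_lit 3993855942) (nat_lit 76) (nat_lit 36048385612) (nat_lit 76) (nat_lit 5) (nat_lit 82) (nat_lit 5) (nat_lit 77) (nat_lit 5) (nat_lit 339) (nat_lit 327) (nat_lit 234))))) (XT.nd (nat_lit 234) (nat_lit 608) (nat_lit 0) (XT.nd (nat_lit 78) (nat_lit 532) (nat_lit 0) (XT.lf (nat_lit 0) (nat_lit 26014454038) (nat_lit 380) (nat_lit 14293923317) (nat_lit 76) (nat_lit 16228919622) (nat_lit 72) (nat_lit 5) (nat_lit 77) (nat_lit 5) (nat_lit 73) (nat_lit 5) (nat_lit 340) (nat_lit 327) (nat_lit 233)) (XT.nd (nat_lit 78) (nat_lit 228) (nat_lit 0) (XT.lf (nat_lit 0) (nat_lit 33829765600) (nat_lit 304) (nat_lit 6095491472) (nat_lit 380) (nat_lit 19299539788) (nat_lit 68) (nat_lit 5) (nat_lit 72) (nat_lit 5) (nat_lit 73) (nat_lit 5) (nat_lit 341) (nat_lit 327) (nat_lit 232)) (XT.lf (nat_lit 0) (nat_lit 24492004179) (nat_lit 228) (nat_lit 31570104289) (nat_lit 304) (nat_lit 6009533136) (nat_lit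 65) (nat_lit 5) (nat_lit 68) (nat_lit 5) (nat_lit 69) (nat_lit 5) (nat_lit 342) (nat_lit 327) (nat_lit 231)))) (XT.nd (nat_lit 78) (nat_lit 228) (nat_lit 0) (XT.lf (nat_lit 0) (nat_lit 8935640437) (nat_lit 380) (nat_lit 50819884571) (nat_lit 76) (nat_lit 5341248302) (nat_lit 60) (nat_lit 5) (nat_lit 65) (nat_lit 5) (nat_lit 61) (nat_lit 5) (nat_lit 343) (nat_lit 327) (nat_lit 230)) (XT.nd (nat_lit 78) (nat_lit 0) (nat_lit 0) (XT.lf (nat_lit 0) (nat_lit 2730832686) (nat_lit 228) (nat_lit 23374523756) (nat_lit 304) (nat_lit 42191662926) (nat_lit 57) (nat_lit 5) (nat_lit 60) (nat_lit 5) (nat_lit 61) (nat_lit 5) (nat_lit 344) (nat_lit 327) (nat_lit 229)) (XT.lf (nat_lit 0) (nat_lit 45793446928) (nat_lit 304) (nat_lit 9596505698) (nat_lit 76) (nat_lit 16306095705) (nat_lit 57) (nat_lit 5) (nat_lit 61) (nat_lit 5) (nat_lit 58) (nat_lit 5) (nat_lit 345) (nat_lit 327) (nat_lit 228))))))))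
noncomputable def xc94 : XT := (XT.nd (nat_lit 1716) (nat_lit 836) (nat_lit 0) (XT.nd (nat_lit 858) (nat_lit 1140) (nat_lit 0) (XT.nd (nat_lit 390) (nat_lit 912) (nat_lit 0) (XT.nd (nat_lit 156) (nat_lit 456) (nat_lit 0) (XT.nd (nat_lit 78) (nat_lit 228) (nat_lit 0) (XT.lf (nat_lit 0) (nat_lit 52120314572) (nat_lit 228) (nat_lit 16140935680) (nat_lit 304) (nat_lit 7045518932) (nat_lit 54) (nat_lit 5) (nat_lit 57) (nat_lit 5) (nat_lit 58) (nat_lit 5) (nat_lit 346) (nat_lit 327) (nat_lit 227)) (XT.lf (nat_lit 0) (nat_lit 14127477411) (nat_lit 228) (nat_lit 38565183079) (nat_lit 76) (nat_lit 26441607772) (nat_lit 51) (nat_lit 5) (nat_lit 54) (nat_lit 5) (nat_lit 52) (nat_lit 5) (nat_lit 347) (nat_lit 327) (nat_lit 226))) (XT.nd (nat_lit 78) (nat_lit 228) (nat_lit 0) (XT.lf (nat_lit 0) (nat_lit 27482993778) (nat_lit 228) (nat_lit 10376592943) (nat_lit 304) (nat_lit 45347002161) (nat_lit 48)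 (nat_lit 5) (nat_lit 51) (nat_lit 5) (nat_lit 52) (nat_lit 5) (nat_lit 348) (nat_lit 327) (nat_lit 225)) (XT.nd (nat_lit 78) (nat_lit 76) (nat_lit 0) (XT.lf (nat_lit 0) (nat_lit 12452850402) (nat_lit 152) (nat_lit 52463330882) (nat_lit 228) (nat_lit 22617220202) (nat_lit 46) (nat_lit 5) (nat_lit 48) (nat_lit 5) (nat_lit 49) (nat_lit 5) (nat_lit 349) (nat_lit 327) (nat_lit 224)) (XT.lf (nat_lit 0) (nat_lit 3027972241) (nat_lit 228) (nat_lit 4309733911) (nat_lit 76) (nat_lit 84809205963) (nat_lit 45) (nat_lit 5) (nat_lit 48) (nat_lit 5) (nat_lit 46) (nat_lit 5) (nat_lit 350) (nat_lit 327) (nat_lit 223))))) (XT.nd (nat_lit 234) (nat_lit 380) (nat_lit 0) (XT.nd (nat_lit 78) (nat_lit 304) (nat_lit 0) (XT.lf (nat_lit 0) (nat_lit 31769052471) (nat_lit 304) (nat_lit 23614754658) (nat_lit 76) (nat_lit 41635326042) (nat_lit 42) (nat_lit 5) (nat_lit 46) (nat_lit 5) (nat_lit 43) (nat_lit 5) (nat_lit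 351) (nat_lit 327) (nat_lit 222)) (XT.nd (nat_lit 78) (nat_lit 152) (nat_lit 0) (XT.lf (nat_lit 0) (nat_lit 56904700847) (nat_lit 152) (nat_lit 6990781131) (nat_lit 228) (nat_lit 38331348420) (nat_lit 40) (nat_lit 5) (nat_lit 42) (nat_lit 5) (nat_lit 43) (nat_lit 5) (nat_lit 352) (nat_lit 327) (nat_lit 221)) (XT.lf (nat_lit 0) (nat_lit 37356750616) (nat_lit 152) (nat_lit 62941156680) (nat_lit 228) (nat_lit 7467943544) (nat_lit 38) (nat_lit 5) (nat_lit 40) (nat_lit 5) (nat_lit 41) (nat_lit 5) (nat_lit 353) (nat_lit 327) (nat_lit 220)))) (XT.nd (nat_lit 78) (nat_lit 152) (nat_lit 0) (XT.lf (nat_lit 0) (nat_lit 14485208737) (nat_lit 152) (nat_lit 11695724630) (nat_lit 228) (nat_lit 87489658677) (nat_lit 35) (nat_lit 5) (nat_lit 37) (nat_lit 5) (nat_lit 38) (nat_lit 5) (nat_lit 354) (nat_lit 327) (nat_lit 219)) (XT.nd (nat_lit 78) (nat_lit 152) (nat_lit 0) (XT.lf (nat_lit 0) (nat_lit 64189513281)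 (nat_lit 228) (nat_lit 12132117899) (nat_lit 76) (nat_lit 43623489671) (nat_lit 35) (nat_lit 5) (nat_lit 38) (nat_lit 5) (nat_lit 36) (nat_lit 5) (nat_lit 355) (nat_lit 327) (nat_lit 218)) (XT.lf (nat_lit 0) (nat_lit 84385772792) (nat_lit 152) (nat_lit 22365734486) (nat_lit 228) (nat_lit 19894469443) (nat_lit 33) (nat_lit 5) (nat_lit 35) (nat_lit 5) (nat_lit 36) (nat_lit 5) (nat_lit 356) (nat_lit 327) (nat_lit 217)))))) (XT.nd (nat_lit 390) (nat_lit 532) (nat_lit 0) (XT.nd (nat_lit 156) (nat_lit 304) (nat_lit 0) (XT.nd (nat_lit 78) (nat_lit 152) (nat_lit 0) (XT.lf (nat_lit 0) (nat_lit 19914269061) (nat_lit 152) (nat_lit 77696738886) (nat_lit 76) (nat_lit 36173112081) (nat_lit 31) (nat_lit 5) (nat_lit 33) (nat_lit 5) (nat_lit 32) (nat_lit 5) (nat_lit 357) (nat_lit 327) (nat_lit 216)) (XT.lf (nat_lit 0) (nat_lit 22342666267) (nat_lit 152) (nat_lit 41349683527) (nat_lit 228) (nat_lit 77710576574)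 (nat_lit 29) (nat_lit 5) (nat_lit 31) (nat_lit 5) (nat_lit 32) (nat_lit 5) (nat_lit 358) (nat_lit 327) (nat_lit 215))) (XT.nd (nat_lit 78) (nat_lit 304) (nat_lit 0) (XT.lf (nat_lit 0) (nat_lit 112649603334) (nat_lit 228) (nat_lit 16732170181) (nat_lit 76) (nat_lit 20165618245) (nat_lit 29) (nat_lit 5) (nat_lit 32) (nat_lit 5) (nat_lit 30) (nat_lit 4) (nat_lit 359) (nat_lit 327) (nat_lit 214)) (XT.nd (nat_lit 78) (nat_lit 152) (nat_lit 0) (XT.lf (nat_lit 0) (nat_lit 9183145491) (nat_lit 152) (nat_lit 62221888741) (nat_lit 76) (nat_lit 86821129485) (nat_lit 27) (nat_lit 5) (nat_lit 29) (nat_lit 5) (nat_lit 28) (nat_lit 5) (nat_lit 360) (nat_lit 327) (nat_lit 213)) (XT.lf (nat_lit 0) (nat_lit 51800692398) (nat_lit 152) (nat_lit 6977832562) (nat_lit 228) (nat_lit 108734434605) (nat_lit 25) (nat_lit 5) (nat_lit 27) (nat_lit 5) (nat_lit 28) (nat_lit 5) (nat_lit 361) (nat_lit 327) (nat_lit 212)))))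 (XT.nd (nat_lit 234) (nat_lit 228) (nat_lit 0) (XT.nd (nat_lit 78) (nat_lit 304) (nat_lit 0) (XT.lf (nat_lit 0) (nat_lit 114419054755) (nat_lit 228) (nat_lit 1319407614) (nat_lit 76) (nat_lit 61700361367) (nat_lit 25) (nat_lit 5) (nat_lit 28) (nat_lit 5) (nat_lit 26) (nat_lit 4) (nat_lit 362) (nat_lit 327) (nat_lit 211)) (XT.nd (nat_lit 78) (nat_lit 228) (nat_lit 0) (XT.lf (nat_lit 0) (nat_lit 126142035798) (nat_lit 76) (nat_lit 50454463921) (nat_lit 152) (nat_lit 11457974286) (nat_lit 24) (nat_lit 5) (nat_lit 25) (nat_lit 5) (nat_lit 26) (nat_lit 4) (nat_lit 363) (nat_lit 327) (nat_lit 210)) (XT.lf (nat_lit 0) (nat_lit 44203125007) (nat_lit 228) (nat_lit 134034008620) (nat_lit 76) (nat_lit 21178218569) (nat_lit 21) (nat_lit 5) (nat_lit 24) (nat_lit 5) (nat_lit 22) (nat_lit 4) (nat_lit 364) (nat_lit 327) (nat_lit 209)))) (XT.nd (nat_lit 78) (nat_lit 228) (nat_lit 0) (XT.lf (nat_lit 0) (nat_lit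 105866632931) (nat_lit 228) (nat_lit 7625710678) (nat_lit 76) (nat_lit 98085818130) (nat_lit 21) (nat_lit 5) (nat_lit 24) (nat_lit 5) (nat_lit 22) (nat_lit 4) (nat_lit 365) (nat_lit 327) (nat_lit 208)) (XT.nd (nat_lit 78) (nat_lit 152) (nat_lit 0) (XT.lf (nat_lit 0) (nat_lit 133154816273) (nat_lit 76) (nat_lit 41386099588) (nat_lit 152) (nat_lit 50069195922) (nat_lit 20) (nat_lit 5) (nat_lit 21) (nat_lit 5) (nat_lit 22) (nat_lit 4) (nat_lit 366) (nat_lit 327) (nat_lit 207)) (XT.lf (nat_lit 0) (nat_lit 11176402255) (nat_lit 152) (nat_lit 191046170086) (nat_lit 76) (nat_lit 36380584047) (nat_lit 18) (nat_lit 5) (nat_lit 20) (nat_lit 5) (nat_lit 19) (nat_lit 4) (nat_lit 367) (nat_lit 327) (nat_lit 206))))))) (XT.nd (nat_lit 858) (nat_lit 304) (nat_lit 0) (XT.nd (nat_lit 390) (nat_lit 304) (nat_lit 0) (XT.nd (nat_lit 156) (nat_lit 152) (nat_lit 0) (XT.nd (nat_lit 78) (nat_lit 76) (nat_lit 0)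 (XT.lf (nat_lit 0) (nat_lit 77906826507) (nat_lit 152) (nat_lit 54250231762) (nat_lit 76) (nat_lit 121400578392) (nat_lit 18) (nat_lit 5) (nat_lit 20) (nat_lit 5) (nat_lit 19) (nat_lit 4) (nat_lit 368) (nat_lit 327) (nat_lit 205)) (XT.lf (nat_lit 0) (nat_lit 96578542612) (nat_lit 76) (nat_lit 54903942304) (nat_lit 152) (nat_lit 118150650774) (nat_lit 17) (nat_lit 5) (nat_lit 18) (nat_lit 5) (nat_lit 19) (nat_lit 4) (nat_lit 369) (nat_lit 327) (nat_lit 204))) (XT.nd (nat_lit 78) (nat_lit 152) (nat_lit 0) (XT.lf (nat_lit 0) (nat_lit 232349090678) (nat_lit 152) (nat_lit 25999371403) (nat_lit 0) (nat_lit 28575968147) (nat_lit 17) (nat_lit 5) (nat_lit 19) (nat_lit 4) (nat_lit 17) (nat_lit 4) (nat_lit 370) (nat_lit 327) (nat_lit 203)) (XT.nd (nat_lit 78) (nat_lit 0) (nat_lit 0) (XT.lf (nat_lit 0) (nat_lit 16737324587) (nat_lit 152) (nat_lit 169462689304) (nat_lit 76) (nat_lit 119232910233) (nat_lit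 15) (nat_lit 5) (nat_lit 17) (nat_lit 5) (nat_lit 16) (nat_lit 4) (nat_lit 371) (nat_lit 327) (nat_lit 202)) (XT.lf (nat_lit 0) (nat_lit 92327906092) (nat_lit 152) (nat_lit 14502999235) (nat_lit 76) (nat_lit 218522210665) (nat_lit 15) (nat_lit 5) (nat_lit 17) (nat_lit 5) (nat_lit 16) (nat_lit 4) (nat_lit 372) (nat_lit 327) (nat_lit 201))))) (XT.nd (nat_lit 234) (nat_lit 152) (nat_lit 0) (XT.nd (nat_lit 78) (nat_lit 76) (nat_lit 0) (XT.lf (nat_lit 0) (nat_lit 157905846065) (nat_lit 76) (nat_lit 18524388365) (nat_lit 152) (nat_lit 170313464006) (nat_lit 14) (nat_lit 5) (nat_lit 15) (nat_lit 5) (nat_lit 16) (nat_lit 4) (nat_lit 373) (nat_lit 327) (nat_lit 200)) (XT.nd (nat_lit 78) (nat_lit 76) (nat_lit 0) (XT.lf (nat_lit 0) (nat_lit 268716490797) (nat_lit 152) (nat_lit 26413086242) (nat_lit 0) (nat_lit 74643163573) (nat_lit 14) (nat_lit 5) (nat_lit 16) (nat_lit 4) (nat_lit 14) (nat_lit 4)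 (nat_lit 374) (nat_lit 327) (nat_lit 199)) (XT.lf (nat_lit 0) (nat_lit 153608292161) (nat_lit 76) (nat_lit 217487203298) (nat_lit 76) (nat_lit 23413118519) (nat_lit 13) (nat_lit 4) (nat_lit 14) (nat_lit 5) (nat_lit 14) (nat_lit 4) (nat_lit 375) (nat_lit 327) (nat_lit 198)))) (XT.nd (nat_lit 78) (nat_lit 76) (nat_lit 0) (XT.lf (nat_lit 0) (nat_lit 58973860274) (nat_lit 152) (nat_lit 73178372655) (nat_lit 76) (nat_lit 289000596372) (nat_lit 12) (nat_lit 5) (nat_lit 14) (nat_lit 5) (nat_lit 13) (nat_lit 4) (nat_lit 376) (nat_lit 327) (nat_lit 197)) (XT.nd (nat_lit 78) (nat_lit 0) (nat_lit 0) (XT.lf (nat_lit 0) (nat_lit 111121840335) (nat_lit 76) (nat_lit 37754879682) (nat_lit 152) (nat_lit 300945410710) (nat_lit 11) (nat_lit 5) (nat_lit 12) (nat_lit 5) (nat_lit 13) (nat_lit 4) (nat_lit 377) (nat_lit 327) (nat_lit 196)) (XT.lf (nat_lit 0) (nat_lit 248269014792) (nat_lit 152) (nat_lit 168966407546)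 (nat_lit 0) (nat_lit 63434693771) (nat_lit 11) (nat_lit 5) (nat_lit 13) (nat_lit 4) (nat_lit 11) (nat_lit 4) (nat_lit 378) (nat_lit 327) (nat_lit 195)))))) (XT.nd (nat_lit 390) (nat_lit 76) (nat_lit 0) (XT.nd (nat_lit 156) (nat_lit 152) (nat_lit 0) (XT.nd (nat_lit 78) (nat_lit 0) (nat_lit 0) (XT.lf (nat_lit 0) (nat_lit 14161660575) (nat_lit 76) (nat_lit 342308137977) (nat_lit 76) (nat_lit 157473286645) (nat_lit 10) (nat_lit 4) (nat_lit 11) (nat_lit 5) (nat_lit 11) (nat_lit 4) (nat_lit 379) (nat_lit 327) (nat_lit 194)) (XT.lf (nat_lit 0) (nat_lit 217972590240) (nat_lit 76) (nat_lit 258296754539) (nat_lit 76) (nat_lit 73461412180) (nat_lit 10) (nat_lit 4) (nat_lit 11) (nat_lit 5) (nat_lit 11) (nat_lit 4) (nat_lit 380) (nat_lit 327) (nat_lit 193))) (XT.nd (nat_lit 78) (nat_lit 76) (nat_lit 0) (XT.lf (nat_lit 0) (nat_lit 16718067539) (nat_lit 152) (nat_lit 150563758558) (nat_lit 76) (nat_lit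 421086161307) (nat_lit 9) (nat_lit 5) (nat_lit 11) (nat_lit 5) (nat_lit 10) (nat_lit 4) (nat_lit 381) (nat_lit 327) (nat_lit 192)) (XT.nd (nat_lit 78) (nat_lit 0) (nat_lit 0) (XT.lf (nat_lit 0) (nat_lit 45337618526) (nat_lit 76) (nat_lit 66942301726) (nat_lit 152) (nat_lit 517718974638) (nat_lit 8) (nat_lit 5) (nat_lit 9) (nat_lit 5) (nat_lit 10) (nat_lit 4) (nat_lit 382) (nat_lit 327) (nat_lit 191)) (XT.lf (nat_lit 0) (nat_lit 218798696401) (nat_lit 152) (nat_lit 413232148072) (nat_lit 0) (nat_lit 42763831843) (nat_lit 8) (nat_lit 5) (nat_lit 10) (nat_lit 4) (nat_lit 8) (nat_lit 4) (nat_lit 383) (nat_lit 327) (nat_lit 190))))) (XT.nd (nat_lit 234) (nat_lit 0) (nat_lit 0) (XT.nd (nat_lit 78) (nat_lit 76) (nat_lit 0) (XT.lf (nat_lit 0) (nat_lit 334967286242) (nat_lit 152) (nat_lit 229218340578) (nat_lit 0) (nat_lit 158932077950) (nat_lit 8) (nat_lit 5) (nat_lit 10) (nat_lit 4) (nat_lit 8)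 (nat_lit 4) (nat_lit 384) (nat_lit 327) (nat_lit 189)) (XT.nd (nat_lit 78) (nat_lit 76) (nat_lit 0) (XT.lf (nat_lit 0) (nat_lit 460428939297) (nat_lit 152) (nat_lit 30484244754) (nat_lit 0) (nat_lit 284393412734) (nat_lit 8) (nat_lit 5) (nat_lit 10) (nat_lit 4) (nat_lit 8) (nat_lit 4) (nat_lit 385) (nat_lit 327) (nat_lit 188)) (XT.lf (nat_lit 0) (nat_lit 190236581590) (nat_lit 76) (nat_lit 408660676616) (nat_lit 76) (nat_lit 232624855356) (nat_lit 7) (nat_lit 4) (nat_lit 8) (nat_lit 5) (nat_lit 8) (nat_lit 4) (nat_lit 386) (nat_lit 327) (nat_lit 187)))) (XT.nd (nat_lit 42276) (nat_lit 0) (nat_lit 6764) (XT.lf (nat_lit 0) (nat_lit 429702933631) (nat_lit 76) (nat_lit 319270750098) (nat_lit 76) (nat_lit 143234655972) (nat_lit 7) (nat_lit 4) (nat_lit 8) (nat_lit 5) (nat_lit 8) (nat_lit 4) (nat_lit 387) (nat_lit 327) (nat_lit 186)) (XT.nd (nat_lit 78) (nat_lit 0) (nat_lit 76) (XT.lf (nat_lit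 0) (nat_lit 463704375) (nat_lit 836) (nat_lit 8573244742) (nat_lit 836) (nat_lit 8573244742) (nat_lit 96) (nat_lit 3) (nat_lit 107) (nat_lit 3) (nat_lit 107) (nat_lit 5) (nat_lit 328) (nat_lit 328) (nat_lit 244)) (XT.lf (nat_lit 0) (nat_lit 1324267237) (nat_lit 760) (nat_lit 27192087188) (nat_lit 836) (nat_lit 8094760975) (nat_lit 97) (nat_lit 5) (nat_lit 107) (nat_lit 5) (nat_lit 108) (nat_lit 5) (nat_lit 329) (nat_lit 328) (nat_lit 243))))))))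
noncomputable def xc95 : XT := (XT.nd (nat_lit 1716) (nat_lit 2356) (nat_lit 0) (XT.nd (nat_lit 858) (nat_lit 2356) (nat_lit 0) (XT.nd (nat_lit 390) (nat_lit 1596) (nat_lit 0) (XT.nd (nat_lit 156) (nat_lit 0) (nat_lit 152) (XT.nd (nat_lit 78) (nat_lit 0) (nat_lit 76) (XT.lf (nat_lit 76) (nat_lit 319673824) (nat_lit 0) (nat_lit 2038513806) (nat_lit 836) (nat_lit 35724657983) (nat_lit 98) (nat_lit 5) (nat_lit 97) (nat_lit 5) (nat_lit 108) (nat_lit 5) (nat_lit 330) (nat_lit 328) (nat_lit 242)) (XT.lf (nat_lit 0) (nat_lit 4363445957) (nat_lit 760) (nat_lit 9072674883) (nat_lit 836) (nat_lit 26191771425) (nat_lit 98) (nat_lit 5) (nat_lit 108) (nat_lit 5) (nat_lit 109) (nat_lit 5) (nat_lit 331) (nat_lit 328) (nat_lit 241))) (XT.nd (nat_lit 78) (nat_lit 0) (nat_lit 76) (XT.lf (nat_lit 0) (nat_lit 7154340888) (nat_lit 760) (nat_lit 18925190243) (nat_lit 836) (nat_lit 15185759273) (nat_lit 99) (nat_lit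 5) (nat_lit 109) (nat_lit 5) (nat_lit 110) (nat_lit 5) (nat_lit 332) (nat_lit 328) (nat_lit 240)) (XT.nd (nat_lit 78) (nat_lit 0) (nat_lit 0) (XT.lf (nat_lit 0) (nat_lit 10811216261) (nat_lit 760) (nat_lit 29279957959) (nat_lit 836) (nat_lit 2910378654) (nat_lit 100) (nat_lit 5) (nat_lit 110) (nat_lit 5) (nat_lit 111) (nat_lit 5) (nat_lit 333) (nat_lit 328) (nat_lit 239)) (XT.lf (nat_lit 76) (nat_lit 4489290599) (nat_lit 0) (nat_lit 11110261327) (nat_lit 836) (nat_lit 29235226235) (nat_lit 101) (nat_lit 5) (nat_lit 100) (nat_lit 5) (nat_lit 111) (nat_lit 5) (nat_lit 334) (nat_lit 328) (nat_lit 238))))) (XT.nd (nat_lit 234) (nat_lit 760) (nat_lit 0) (XT.nd (nat_lit 78) (nat_lit 1140) (nat_lit 0) (XT.lf (nat_lit 0) (nat_lit 21598949347) (nat_lit 760) (nat_lit 5112104154) (nat_lit 76) (nat_lit 20062215015) (nat_lit 101) (nat_lit 5) (nat_lit 111) (nat_lit 5) (nat_lit 102) (nat_lit 5) (nat_lit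 335) (nat_lit 328) (nat_lit 237)) (XT.nd (nat_lit 78) (nat_lit 380) (nat_lit 0) (XT.lf (nat_lit 0) (nat_lit 28867354785) (nat_lit 836) (nat_lit 15079302060) (nat_lit 76) (nat_lit 4880734731) (nat_lit 91) (nat_lit 5) (nat_lit 102) (nat_lit 5) (nat_lit 92) (nat_lit 5) (nat_lit 336) (nat_lit 328) (nat_lit 236)) (XT.lf (nat_lit 0) (nat_lit 25208518512) (nat_lit 380) (nat_lit 12438320991) (nat_lit 456) (nat_lit 13352530455) (nat_lit 86) (nat_lit 5) (nat_lit 91) (nat_lit 5) (nat_lit 92) (nat_lit 5) (nat_lit 337) (nat_lit 328) (nat_lit 235)))) (XT.nd (nat_lit 78) (nat_lit 456) (nat_lit 0) (XT.lf (nat_lit 0) (nat_lit 16094863937) (nat_lit 304) (nat_lit 31884590484) (nat_lit 380) (nat_lit 5323119010) (nat_lit 82) (nat_lit 5) (nat_lit 86) (nat_lit 5) (nat_lit 87) (nat_lit 5) (nat_lit 338) (nat_lit 328) (nat_lit 234)) (XT.nd (nat_lit 78) (nat_lit 0) (nat_lit 0) (XT.lf (nat_lit 0) (nat_lit 4041275500)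 (nat_lit 456) (nat_lit 49370844284) (nat_lit 76) (nat_lit 2335313678) (nat_lit 76) (nat_lit 5) (nat_lit 82) (nat_lit 5) (nat_lit 77) (nat_lit 5) (nat_lit 339) (nat_lit 328) (nat_lit 233)) (XT.lf (nat_lit 0) (nat_lit 15163070048) (nat_lit 456) (nat_lit 4221873179) (nat_lit 76) (nat_lit 38938843025) (nat_lit 76) (nat_lit 5) (nat_lit 82) (nat_lit 5) (nat_lit 77) (nat_lit 5) (nat_lit 340) (nat_lit 328) (nat_lit 232)))))) (XT.nd (nat_lit 390) (nat_lit 912) (nat_lit 0) (XT.nd (nat_lit 156) (nat_lit 836) (nat_lit 0) (XT.nd (nat_lit 78) (nat_lit 304) (nat_lit 0) (XT.lf (nat_lit 0) (nat_lit 28171950093) (nat_lit 380) (nat_lit 15346211660) (nat_lit 76) (nat_lit 17538222492) (nat_lit 72) (nat_lit 5) (nat_lit 77) (nat_lit 5) (nat_lit 73) (nat_lit 5) (nat_lit 341) (nat_lit 328) (nat_lit 231)) (XT.lf (nat_lit 0) (nat_lit 36623407821) (nat_lit 304) (nat_lit 6567917143) (nat_lit 380) (nat_lit 20767779664)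 (nat_lit 68) (nat_lit 5) (nat_lit 72) (nat_lit 5) (nat_lit 73) (nat_lit 5) (nat_lit 342) (nat_lit 328) (nat_lit 230))) (XT.nd (nat_lit 78) (nat_lit 608) (nat_lit 0) (XT.lf (nat_lit 0) (nat_lit 26538122252) (nat_lit 228) (nat_lit 34077239844) (nat_lit 304) (nat_lit 6418528426) (nat_lit 65) (nat_lit 5) (nat_lit 68) (nat_lit 5) (nat_lit 69) (nat_lit 5) (nat_lit 343) (nat_lit 328) (nat_lit 229)) (XT.nd (nat_lit 78) (nat_lit 228) (nat_lit 0) (XT.lf (nat_lit 0) (nat_lit 9716452890) (nat_lit 380) (nat_lit 54797191710) (nat_lit 76) (nat_lit 5787512406) (nat_lit 60) (nat_lit 5) (nat_lit 65) (nat_lit 5) (nat_lit 61) (nat_lit 5) (nat_lit 344) (nat_lit 328) (nat_lit 228)) (XT.lf (nat_lit 0) (nat_lit 3033746229) (nat_lit 228) (nat_lit 25222432383) (nat_lit 304) (nat_lit 45501426967) (nat_lit 57) (nat_lit 5) (nat_lit 60) (nat_lit 5) (nat_lit 61) (nat_lit 5) (nat_lit 345) (nat_lit 328) (nat_lit 227)))))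 (XT.nd (nat_lit 234) (nat_lit 456) (nat_lit 0) (XT.nd (nat_lit 78) (nat_lit 456) (nat_lit 0) (XT.lf (nat_lit 0) (nat_lit 49515013394) (nat_lit 304) (nat_lit 10283413236) (nat_lit 76) (nat_lit 17630349500) (nat_lit 57) (nat_lit 5) (nat_lit 61) (nat_lit 5) (nat_lit 58) (nat_lit 5) (nat_lit 346) (nat_lit 328) (nat_lit 226)) (XT.nd (nat_lit 78) (nat_lit 228) (nat_lit 0) (XT.lf (nat_lit 0) (nat_lit 56367240625) (nat_lit 228) (nat_lit 17409904226) (nat_lit 304) (nat_lit 7551368423) (nat_lit 54) (nat_lit 5) (nat_lit 57) (nat_lit 5) (nat_lit 58) (nat_lit 5) (nat_lit 347) (nat_lit 328) (nat_lit 225)) (XT.lf (nat_lit 0) (nat_lit 15311012335) (nat_lit 228) (nat_lit 41572307868) (nat_lit 76) (nat_lit 28578980606) (nat_lit 51) (nat_lit 5) (nat_lit 54) (nat_lit 5) (nat_lit 52) (nat_lit 5) (nat_lit 348) (nat_lit 328) (nat_lit 224)))) (XT.nd (nat_lit 78) (nat_lit 228) (nat_lit 0) (XT.lf (nat_lit 0) (nat_lit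 29756329448) (nat_lit 228) (nat_lit 11182576290) (nat_lit 304) (nat_lit 48921643692) (nat_lit 48) (nat_lit 5) (nat_lit 51) (nat_lit 5) (nat_lit 52) (nat_lit 5) (nat_lit 349) (nat_lit 328) (nat_lit 223)) (XT.nd (nat_lit 78) (nat_lit 76) (nat_lit 0) (XT.lf (nat_lit 0) (nat_lit 13522622846) (nat_lit 152) (nat_lit 56635157689) (nat_lit 228) (nat_lit 24375841758) (nat_lit 46) (nat_lit 5) (nat_lit 48) (nat_lit 5) (nat_lit 49) (nat_lit 5) (nat_lit 350) (nat_lit 328) (nat_lit 222)) (XT.lf (nat_lit 0) (nat_lit 3315702195) (nat_lit 228) (nat_lit 4584879958) (nat_lit 76) (nat_lit 91615776511) (nat_lit 45) (nat_lit 5) (nat_lit 48) (nat_lit 5) (nat_lit 46) (nat_lit 5) (nat_lit 351) (nat_lit 328) (nat_lit 221))))))) (XT.nd (nat_lit 858) (nat_lit 836) (nat_lit 0) (XT.nd (nat_lit 390) (nat_lit 760) (nat_lit 0) (XT.nd (nat_lit 156) (nat_lit 380) (nat_lit 0) (XT.nd (nat_lit 78) (nat_lit 152) (nat_lit 0)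 (XT.lf (nat_lit 0) (nat_lit 34354104997) (nat_lit 304) (nat_lit 25435506975) (nat_lit 76) (nat_lit 44988845980) (nat_lit 42) (nat_lit 5) (nat_lit 46) (nat_lit 5) (nat_lit 43) (nat_lit 5) (nat_lit 352) (nat_lit 328) (nat_lit 220)) (XT.lf (nat_lit 0) (nat_lit 61522531170) (nat_lit 152) (nat_lit 7525915298) (nat_lit 228) (nat_lit 41354436792) (nat_lit 40) (nat_lit 5) (nat_lit 42) (nat_lit 5) (nat_lit 43) (nat_lit 5) (nat_lit 353) (nat_lit 328) (nat_lit 219))) (XT.nd (nat_lit 78) (nat_lit 228) (nat_lit 0) (XT.lf (nat_lit 0) (nat_lit 40409542605) (nat_lit 152) (nat_lit 67951813987) (nat_lit 228) (nat_lit 8023756227) (nat_lit 38) (nat_lit 5) (nat_lit 40) (nat_lit 5) (nat_lit 41) (nat_lit 5) (nat_lit 354) (nat_lit 328) (nat_lit 218)) (XT.nd (nat_lit 78) (nat_lit 0) (nat_lit 0) (XT.lf (nat_lit 0) (nat_lit 15706782363) (nat_lit 152) (nat_lit 12606911605) (nat_lit 228) (nat_lit 94448608874) (nat_lit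 35) (nat_lit 5) (nat_lit 37) (nat_lit 5) (nat_lit 38) (nat_lit 5) (nat_lit 355) (nat_lit 328) (nat_lit 217)) (XT.lf (nat_lit 0) (nat_lit 69360478041) (nat_lit 228) (nat_lit 13043139708) (nat_lit 76) (nat_lit 47135301966) (nat_lit 35) (nat_lit 5) (nat_lit 38) (nat_lit 5) (nat_lit 36) (nat_lit 5) (nat_lit 356) (nat_lit 328) (nat_lit 216))))) (XT.nd (nat_lit 234) (nat_lit 304) (nat_lit 0) (XT.nd (nat_lit 78) (nat_lit 304) (nat_lit 0) (XT.lf (nat_lit 0) (nat_lit 91193594371) (nat_lit 152) (nat_lit 24132074362) (nat_lit 228) (nat_lit 21450264990) (nat_lit 33) (nat_lit 5) (nat_lit 35) (nat_lit 5) (nat_lit 36) (nat_lit 5) (nat_lit 357) (nat_lit 328) (nat_lit 215)) (XT.nd (nat_lit 78) (nat_lit 152) (nat_lit 0) (XT.lf (nat_lit 0) (nat_lit 21540685781) (nat_lit 152) (nat_lit 83855572520) (nat_lit 76) (nat_lit 39088910734) (nat_lit 31) (nat_lit 5) (nat_lit 33) (nat_lit 5) (nat_lit 32) (nat_lit 5)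 (nat_lit 358) (nat_lit 328) (nat_lit 214)) (XT.lf (nat_lit 0) (nat_lit 24184512003) (nat_lit 152) (nat_lit 44634885983) (nat_lit 228) (nat_lit 83894163892) (nat_lit 29) (nat_lit 5) (nat_lit 31) (nat_lit 5) (nat_lit 32) (nat_lit 5) (nat_lit 359) (nat_lit 328) (nat_lit 213)))) (XT.nd (nat_lit 78) (nat_lit 304) (nat_lit 0) (XT.lf (nat_lit 0) (nat_lit 121691215811) (nat_lit 228) (nat_lit 18019192410) (nat_lit 76) (nat_lit 21799278235) (nat_lit 29) (nat_lit 5) (nat_lit 32) (nat_lit 5) (nat_lit 30) (nat_lit 4) (nat_lit 360) (nat_lit 328) (nat_lit 212)) (XT.nd (nat_lit 78) (nat_lit 152) (nat_lit 0) (XT.lf (nat_lit 0) (nat_lit 9946490887) (nat_lit 152) (nat_lit 67149367342) (nat_lit 76) (nat_lit 93786951169) (nat_lit 27) (nat_lit 5) (nat_lit 29) (nat_lit 5) (nat_lit 28) (nat_lit 5) (nat_lit 361) (nat_lit 328) (nat_lit 211)) (XT.lf (nat_lit 0) (nat_lit 55992835507) (nat_lit 152) (nat_lit 7515290528)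 (nat_lit 228) (nat_lit 117404492557) (nat_lit 25) (nat_lit 5) (nat_lit 27) (nat_lit 5) (nat_lit 28) (nat_lit 5) (nat_lit 362) (nat_lit 328) (nat_lit 210)))))) (XT.nd (nat_lit 468) (nat_lit 304) (nat_lit 0) (XT.nd (nat_lit 234) (nat_lit 228) (nat_lit 0) (XT.nd (nat_lit 78) (nat_lit 304) (nat_lit 0) (XT.lf (nat_lit 0) (nat_lit 123598174815) (nat_lit 228) (nat_lit 1379459112) (nat_lit 76) (nat_lit 66655005011) (nat_lit 25) (nat_lit 5) (nat_lit 28) (nat_lit 5) (nat_lit 26) (nat_lit 4) (nat_lit 363) (nat_lit 328) (nat_lit 209)) (XT.nd (nat_lit 78) (nat_lit 228) (nat_lit 0) (XT.lf (nat_lit 0) (nat_lit 136276922350) (nat_lit 76) (nat_lit 54471676576) (nat_lit 152) (nat_lit 12349003933) (nat_lit 24) (nat_lit 5) (nat_lit 25) (nat_lit 5) (nat_lit 26) (nat_lit 4) (nat_lit 364) (nat_lit 328) (nat_lit 208)) (XT.lf (nat_lit 0) (nat_lit 47763283546) (nat_lit 228) (nat_lit 144713407930) (nat_lit 76) (nat_lit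 22890684559) (nat_lit 21) (nat_lit 5) (nat_lit 24) (nat_lit 5) (nat_lit 22) (nat_lit 4) (nat_lit 365) (nat_lit 328) (nat_lit 207)))) (XT.nd (nat_lit 78) (nat_lit 228) (nat_lit 0) (XT.lf (nat_lit 0) (nat_lit 114358101100) (nat_lit 228) (nat_lit 8195655144) (nat_lit 76) (nat_lit 105949543307) (nat_lit 21) (nat_lit 5) (nat_lit 24) (nat_lit 5) (nat_lit 22) (nat_lit 4) (nat_lit 366) (nat_lit 328) (nat_lit 206)) (XT.nd (nat_lit 78) (nat_lit 152) (nat_lit 0) (XT.lf (nat_lit 0) (nat_lit 143845570728) (nat_lit 76) (nat_lit 44679715170) (nat_lit 152) (nat_lit 54052572350) (nat_lit 20) (nat_lit 5) (nat_lit 21) (nat_lit 5) (nat_lit 22) (nat_lit 4) (nat_lit 367) (nat_lit 328) (nat_lit 205)) (XT.lf (nat_lit 0) (nat_lit 12091223788) (nat_lit 152) (nat_lit 206291712182) (nat_lit 76) (nat_lit 39307430723) (nat_lit 18) (nat_lit 5) (nat_lit 20) (nat_lit 5) (nat_lit 19) (nat_lit 4) (nat_lit 368) (nat_lit 328)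 (nat_lit 204))))) (XT.nd (nat_lit 234) (nat_lit 228) (nat_lit 0) (XT.nd (nat_lit 78) (nat_lit 76) (nat_lit 0) (XT.lf (nat_lit 0) (nat_lit 84158547955) (nat_lit 152) (nat_lit 58554924830) (nat_lit 76) (nat_lit 131127809805) (nat_lit 18) (nat_lit 5) (nat_lit 20) (nat_lit 5) (nat_lit 19) (nat_lit 4) (nat_lit 369) (nat_lit 328) (nat_lit 203)) (XT.nd (nat_lit 78) (nat_lit 0) (nat_lit 0) (XT.lf (nat_lit 0) (nat_lit 104338616291) (nat_lit 76) (nat_lit 59280749912) (nat_lit 152) (nat_lit 127583500443) (nat_lit 17) (nat_lit 5) (nat_lit 18) (nat_lit 5) (nat_lit 19) (nat_lit 4) (nat_lit 370) (nat_lit 328) (nat_lit 202)) (XT.lf (nat_lit 0) (nat_lit 250954170352) (nat_lit 152) (nat_lit 28047406253) (nat_lit 0) (nat_lit 30875945073) (nat_lit 17) (nat_lit 5) (nat_lit 19) (nat_lit 4) (nat_lit 17) (nat_lit 4) (nat_lit 371) (nat_lit 328) (nat_lit 201)))) (XT.nd (nat_lit 78) (nat_lit 76) (nat_lit 0) (XT.lf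 (nat_lit 0) (nat_lit 18092942014) (nat_lit 152) (nat_lit 182988621941) (nat_lit 76) (nat_lit 128785157809) (nat_lit 15) (nat_lit 5) (nat_lit 17) (nat_lit 5) (nat_lit 16) (nat_lit 4) (nat_lit 372) (nat_lit 328) (nat_lit 200)) (XT.nd (nat_lit 78) (nat_lit 76) (nat_lit 0) (XT.lf (nat_lit 0) (nat_lit 99729538080) (nat_lit 152) (nat_lit 15634459074) (nat_lit 76) (nat_lit 236016593776) (nat_lit 15) (nat_lit 5) (nat_lit 17) (nat_lit 5) (nat_lit 16) (nat_lit 4) (nat_lit 373) (nat_lit 328) (nat_lit 199)) (XT.lf (nat_lit 0) (nat_lit 170565843101) (nat_lit 76) (nat_lit 19993498690) (nat_lit 152) (nat_lit 183923114046) (nat_lit 14) (nat_lit 5) (nat_lit 15) (nat_lit 5) (nat_lit 16) (nat_lit 4) (nat_lit 374) (nat_lit 328) (nat_lit 198))))))))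
noncomputable def xc96 : XT := (XT.nd (nat_lit 43992) (nat_lit 0) (nat_lit 1824) (XT.nd (nat_lit 858) (nat_lit 76) (nat_lit 0) (XT.nd (nat_lit 390) (nat_lit 228) (nat_lit 0) (XT.nd (nat_lit 156) (nat_lit 152) (nat_lit 0) (XT.nd (nat_lit 78) (nat_lit 76) (nat_lit 0) (XT.lf (nat_lit 0) (nat_lit 290227596253) (nat_lit 152) (nat_lit 28500144859) (nat_lit 0) (nat_lit 80626125696) (nat_lit 14) (nat_lit 5) (nat_lit 16) (nat_lit 4) (nat_lit 14) (nat_lit 4) (nat_lit 375) (nat_lit 328) (nat_lit 197)) (XT.lf (nat_lit 0) (nat_lit 165921814397) (nat_lit 76) (nat_lit 234874473808) (nat_lit 76) (nat_lit 25272353770) (nat_lit 13) (nat_lit 4) (nat_lit 14) (nat_lit 5) (nat_lit 14) (nat_lit 4) (nat_lit 376) (nat_lit 328) (nat_lit 196))) (XT.nd (nat_lit 78) (nat_lit 76) (nat_lit 0) (XT.lf (nat_lit 0) (nat_lit 63704150660) (nat_lit 152) (nat_lit 79009212555) (nat_lit 76) (nat_lit 312131070297) (nat_lit 12)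 (nat_lit 5) (nat_lit 14) (nat_lit 5) (nat_lit 13) (nat_lit 4) (nat_lit 377) (nat_lit 328) (nat_lit 195)) (XT.nd (nat_lit 78) (nat_lit 0) (nat_lit 0) (XT.lf (nat_lit 0) (nat_lit 120033999239) (nat_lit 76) (nat_lit 40764672699) (nat_lit 152) (nat_lit 325008635701) (nat_lit 11) (nat_lit 5) (nat_lit 12) (nat_lit 5) (nat_lit 13) (nat_lit 4) (nat_lit 378) (nat_lit 328) (nat_lit 194)) (XT.lf (nat_lit 0) (nat_lit 268141628360) (nat_lit 152) (nat_lit 182462572215) (nat_lit 0) (nat_lit 68518967584) (nat_lit 11) (nat_lit 5) (nat_lit 13) (nat_lit 4) (nat_lit 11) (nat_lit 4) (nat_lit 379) (nat_lit 328) (nat_lit 193))))) (XT.nd (nat_lit 234) (nat_lit 76) (nat_lit 0) (XT.nd (nat_lit 78) (nat_lit 76) (nat_lit 0) (XT.lf (nat_lit 0) (nat_lit 15314822292) (nat_lit 76) (nat_lit 369683146699) (nat_lit 76) (nat_lit 170060031268) (nat_lit 10) (nat_lit 4) (nat_lit 11) (nat_lit 5) (nat_lit 11) (nat_lit 4) (nat_lit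 380) (nat_lit 328) (nat_lit 192)) (XT.nd (nat_lit 78) (nat_lit 76) (nat_lit 0) (XT.lf (nat_lit 0) (nat_lit 235429127895) (nat_lit 76) (nat_lit 278951566832) (nat_lit 76) (nat_lit 79328030423) (nat_lit 10) (nat_lit 4) (nat_lit 11) (nat_lit 5) (nat_lit 11) (nat_lit 4) (nat_lit 381) (nat_lit 328) (nat_lit 191)) (XT.lf (nat_lit 0) (nat_lit 18064740012) (nat_lit 152) (nat_lit 162591209176) (nat_lit 76) (nat_lit 454781013874) (nat_lit 9) (nat_lit 5) (nat_lit 11) (nat_lit 5) (nat_lit 10) (nat_lit 4) (nat_lit 382) (nat_lit 328) (nat_lit 190)))) (XT.nd (nat_lit 78) (nat_lit 0) (nat_lit 0) (XT.lf (nat_lit 0) (nat_lit 48981511024) (nat_lit 76) (nat_lit 72289610022) (nat_lit 152) (nat_lit 559127243242) (nat_lit 8) (nat_lit 5) (nat_lit 9) (nat_lit 5) (nat_lit 10) (nat_lit 4) (nat_lit 383) (nat_lit 328) (nat_lit 189)) (XT.nd (nat_lit 78) (nat_lit 0) (nat_lit 0) (XT.lf (nat_lit 0) (nat_lit 236310863651)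 (nat_lit 152) (nat_lit 446274794804) (nat_lit 0) (nat_lit 46192176691) (nat_lit 8) (nat_lit 5) (nat_lit 10) (nat_lit 4) (nat_lit 8) (nat_lit 4) (nat_lit 384) (nat_lit 328) (nat_lit 188)) (XT.lf (nat_lit 0) (nat_lit 361772327972) (nat_lit 152) (nat_lit 247541062349) (nat_lit 0) (nat_lit 171653346316) (nat_lit 8) (nat_lit 5) (nat_lit 10) (nat_lit 4) (nat_lit 8) (nat_lit 4) (nat_lit 385) (nat_lit 328) (nat_lit 187)))))) (XT.nd (nat_lit 42666) (nat_lit 0) (nat_lit 6384) (XT.nd (nat_lit 42432) (nat_lit 0) (nat_lit 6764) (XT.nd (nat_lit 78) (nat_lit 76) (nat_lit 0) (XT.lf (nat_lit 0) (nat_lit 497270345951) (nat_lit 152) (nat_lit 32909331117) (nat_lit 0) (nat_lit 307151091428) (nat_lit 8) (nat_lit 5) (nat_lit 10) (nat_lit 4) (nat_lit 8) (nat_lit 4) (nat_lit 386) (nat_lit 328) (nat_lit 186)) (XT.lf (nat_lit 0) (nat_lit 205468567983) (nat_lit 76) (nat_lit 441347240994) (nat_lit 76) (nat_lit 251227733816)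 (nat_lit 7) (nat_lit 4) (nat_lit 8) (nat_lit 5) (nat_lit 8) (nat_lit 4) (nat_lit 387) (nat_lit 328) (nat_lit 185))) (XT.nd (nat_lit 78) (nat_lit 0) (nat_lit 76) (XT.lf (nat_lit 0) (nat_lit 578880344) (nat_lit 836) (nat_lit 9218063861) (nat_lit 836) (nat_lit 9218063861) (nat_lit 96) (nat_lit 3) (nat_lit 107) (nat_lit 3) (nat_lit 107) (nat_lit 5) (nat_lit 329) (nat_lit 329) (nat_lit 242)) (XT.nd (nat_lit 78) (nat_lit 0) (nat_lit 0) (XT.lf (nat_lit 0) (nat_lit 1574975520) (nat_lit 760) (nat_lit 29280418467) (nat_lit 836) (nat_lit 8677192076) (nat_lit 97) (nat_lit 5) (nat_lit 107) (nat_lit 5) (nat_lit 108) (nat_lit 5) (nat_lit 330) (nat_lit 329) (nat_lit 241)) (XT.lf (nat_lit 76) (nat_lit 428500962) (nat_lit 0) (nat_lit 2253684924) (nat_lit 836) (nat_lit 38440353339) (nat_lit 98) (nat_lit 5) (nat_lit 97) (nat_lit 5) (nat_lit 108) (nat_lit 5) (nat_lit 331) (nat_lit 329) (nat_lit 240))))) (XT.nd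 (nat_lit 234) (nat_lit 532) (nat_lit 0) (XT.nd (nat_lit 78) (nat_lit 0) (nat_lit 76) (XT.lf (nat_lit 0) (nat_lit 4837086425) (nat_lit 760) (nat_lit 9714229115) (nat_lit 836) (nat_lit 28240425353) (nat_lit 98) (nat_lit 5) (nat_lit 108) (nat_lit 5) (nat_lit 109) (nat_lit 5) (nat_lit 332) (nat_lit 329) (nat_lit 239)) (XT.nd (nat_lit 78) (nat_lit 0) (nat_lit 76) (XT.lf (nat_lit 0) (nat_lit 7842722256) (nat_lit 760) (nat_lit 20352072623) (nat_lit 836) (nat_lit 16365773986) (nat_lit 99) (nat_lit 5) (nat_lit 109) (nat_lit 5) (nat_lit 110) (nat_lit 5) (nat_lit 333) (nat_lit 329) (nat_lit 238)) (XT.lf (nat_lit 0) (nat_lit 11784457334) (nat_lit 760) (nat_lit 31533042487) (nat_lit 836) (nat_lit 3118627624) (nat_lit 100) (nat_lit 5) (nat_lit 110) (nat_lit 5) (nat_lit 111) (nat_lit 5) (nat_lit 334) (nat_lit 329) (nat_lit 237)))) (XT.nd (nat_lit 78) (nat_lit 684) (nat_lit 0) (XT.lf (nat_lit 76) (nat_lit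 4933864560) (nat_lit 0) (nat_lit 12015303641) (nat_lit 836) (nat_lit 31467186950) (nat_lit 101) (nat_lit 5) (nat_lit 100) (nat_lit 5) (nat_lit 111) (nat_lit 5) (nat_lit 335) (nat_lit 329) (nat_lit 236)) (XT.nd (nat_lit 78) (nat_lit 760) (nat_lit 0) (XT.lf (nat_lit 0) (nat_lit 23420753127) (nat_lit 760) (nat_lit 5436915784) (nat_lit 76) (nat_lit 21652653123) (nat_lit 101) (nat_lit 5) (nat_lit 111) (nat_lit 5) (nat_lit 102) (nat_lit 5) (nat_lit 336) (nat_lit 329) (nat_lit 235)) (XT.lf (nat_lit 0) (nat_lit 31264813094) (nat_lit 836) (nat_lit 16200512138) (nat_lit 76) (nat_lit 5263749014) (nat_lit 91) (nat_lit 5) (nat_lit 102) (nat_lit 5) (nat_lit 92) (nat_lit 5) (nat_lit 337) (nat_lit 329) (nat_lit 234))))))) (XT.nd (nat_lit 858) (nat_lit 1748) (nat_lit 0) (XT.nd (nat_lit 390) (nat_lit 1368) (nat_lit 0) (XT.nd (nat_lit 156) (nat_lit 760) (nat_lit 0) (XT.nd (nat_lit 78) (nat_lit 304) (nat_lit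 0) (XT.lf (nat_lit 0) (nat_lit 27306634257) (nat_lit 380) (nat_lit 13434770052) (nat_lit 456) (nat_lit 14333676995) (nat_lit 86) (nat_lit 5) (nat_lit 91) (nat_lit 5) (nat_lit 92) (nat_lit 5) (nat_lit 338) (nat_lit 329) (nat_lit 233)) (XT.lf (nat_lit 0) (nat_lit 17464423004) (nat_lit 304) (nat_lit 34431330557) (nat_lit 380) (nat_lit 5667038448) (nat_lit 82) (nat_lit 5) (nat_lit 86) (nat_lit 5) (nat_lit 87) (nat_lit 5) (nat_lit 339) (nat_lit 329) (nat_lit 232))) (XT.nd (nat_lit 78) (nat_lit 304) (nat_lit 0) (XT.lf (nat_lit 0) (nat_lit 4439373669) (nat_lit 456) (nat_lit 53235797717) (nat_lit 76) (nat_lit 2528237443) (nat_lit 76) (nat_lit 5) (nat_lit 82) (nat_lit 5) (nat_lit 77) (nat_lit 5) (nat_lit 340) (nat_lit 329) (nat_lit 231)) (XT.nd (nat_lit 78) (nat_lit 304) (nat_lit 0) (XT.lf (nat_lit 0) (nat_lit 16445371327) (nat_lit 456) (nat_lit 4481184043) (nat_lit 76) (nat_lit 42059597384) (nat_lit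 76) (nat_lit 5) (nat_lit 82) (nat_lit 5) (nat_lit 77) (nat_lit 5) (nat_lit 341) (nat_lit 329) (nat_lit 230)) (XT.lf (nat_lit 0) (nat_lit 30491155117) (nat_lit 380) (nat_lit 16495697411) (nat_lit 76) (nat_lit 18950701844) (nat_lit 72) (nat_lit 5) (nat_lit 77) (nat_lit 5) (nat_lit 73) (nat_lit 5) (nat_lit 342) (nat_lit 329) (nat_lit 229))))) (XT.nd (nat_lit 234) (nat_lit 456) (nat_lit 0) (XT.nd (nat_lit 78) (nat_lit 608) (nat_lit 0) (XT.lf (nat_lit 0) (nat_lit 39628092666) (nat_lit 304) (nat_lit 7080307265) (nat_lit 380) (nat_lit 22364281507) (nat_lit 68) (nat_lit 5) (nat_lit 72) (nat_lit 5) (nat_lit 73) (nat_lit 5) (nat_lit 343) (nat_lit 329) (nat_lit 228)) (XT.nd (nat_lit 78) (nat_lit 380) (nat_lit 0) (XT.lf (nat_lit 0) (nat_lit 28735552810) (nat_lit 228) (nat_lit 36787581594) (nat_lit 304) (nat_lit 6870481756) (nat_lit 65) (nat_lit 5) (nat_lit 68) (nat_lit 5) (nat_lit 69) (nat_lit 5) (nat_lit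 344) (nat_lit 329) (nat_lit 227)) (XT.lf (nat_lit 0) (nat_lit 10550320234) (nat_lit 380) (nat_lit 59105278067) (nat_lit 76) (nat_lit 6266772178) (nat_lit 60) (nat_lit 5) (nat_lit 65) (nat_lit 5) (nat_lit 61) (nat_lit 5) (nat_lit 345) (nat_lit 329) (nat_lit 226)))) (XT.nd (nat_lit 78) (nat_lit 228) (nat_lit 0) (XT.lf (nat_lit 0) (nat_lit 3348845556) (nat_lit 228) (nat_lit 27221319847) (nat_lit 304) (nat_lit 49085326282) (nat_lit 57) (nat_lit 5) (nat_lit 60) (nat_lit 5) (nat_lit 61) (nat_lit 5) (nat_lit 346) (nat_lit 329) (nat_lit 225)) (XT.nd (nat_lit 78) (nat_lit 228) (nat_lit 0) (XT.lf (nat_lit 0) (nat_lit 53526017887) (nat_lit 304) (nat_lit 11036802242) (nat_lit 76) (nat_lit 19057723739) (nat_lit 57) (nat_lit 5) (nat_lit 61) (nat_lit 5) (nat_lit 58) (nat_lit 5) (nat_lit 347) (nat_lit 329) (nat_lit 224)) (XT.lf (nat_lit 0) (nat_lit 60942892927) (nat_lit 228) (nat_lit 18783572501) (nat_lit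 304) (nat_lit 8105930551) (nat_lit 54) (nat_lit 5) (nat_lit 57) (nat_lit 5) (nat_lit 58) (nat_lit 5) (nat_lit 348) (nat_lit 329) (nat_lit 223)))))) (XT.nd (nat_lit 390) (nat_lit 836) (nat_lit 0) (XT.nd (nat_lit 156) (nat_lit 456) (nat_lit 0) (XT.nd (nat_lit 78) (nat_lit 228) (nat_lit 0) (XT.lf (nat_lit 0) (nat_lit 16581620971) (nat_lit 228) (nat_lit 44831143032) (nat_lit 76) (nat_lit 30884198414) (nat_lit 51) (nat_lit 5) (nat_lit 54) (nat_lit 5) (nat_lit 52) (nat_lit 5) (nat_lit 349) (nat_lit 329) (nat_lit 222)) (XT.lf (nat_lit 0) (nat_lit 32200875727) (nat_lit 228) (nat_lit 12056482729) (nat_lit 304) (nat_lit 52789834513) (nat_lit 48) (nat_lit 5) (nat_lit 51) (nat_lit 5) (nat_lit 52) (nat_lit 5) (nat_lit 350) (nat_lit 329) (nat_lit 221))) (XT.nd (nat_lit 78) (nat_lit 304) (nat_lit 0) (XT.lf (nat_lit 0) (nat_lit 14667485153) (nat_lit 152) (nat_lit 61144331361) (nat_lit 228) (nat_lit 26282393958)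 (nat_lit 46) (nat_lit 5) (nat_lit 48) (nat_lit 5) (nat_lit 49) (nat_lit 5) (nat_lit 351) (nat_lit 329) (nat_lit 220)) (XT.nd (nat_lit 78) (nat_lit 228) (nat_lit 0) (XT.lf (nat_lit 0) (nat_lit 3619960578) (nat_lit 228) (nat_lit 4891971567) (nat_lit 76) (nat_lit 98963757828) (nat_lit 45) (nat_lit 5) (nat_lit 48) (nat_lit 5) (nat_lit 46) (nat_lit 5) (nat_lit 352) (nat_lit 329) (nat_lit 219)) (XT.lf (nat_lit 0) (nat_lit 37139751922) (nat_lit 304) (nat_lit 27411681506) (nat_lit 76) (nat_lit 48607409982) (nat_lit 42) (nat_lit 5) (nat_lit 46) (nat_lit 5) (nat_lit 43) (nat_lit 5) (nat_lit 353) (nat_lit 329) (nat_lit 218))))) (XT.nd (nat_lit 234) (nat_lit 304) (nat_lit 0) (XT.nd (nat_lit 78) (nat_lit 380) (nat_lit 0) (XT.lf (nat_lit 0) (nat_lit 66500450137) (nat_lit 152) (nat_lit 8107302375) (nat_lit 228) (nat_lit 44625566510) (nat_lit 40) (nat_lit 5) (nat_lit 42) (nat_lit 5) (nat_lit 43) (nat_lit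 5) (nat_lit 354) (nat_lit 329) (nat_lit 217)) (XT.nd (nat_lit 78) (nat_lit 228) (nat_lit 0) (XT.lf (nat_lit 0) (nat_lit 43697391695) (nat_lit 152) (nat_lit 73366838369) (nat_lit 228) (nat_lit 8629971884) (nat_lit 38) (nat_lit 5) (nat_lit 40) (nat_lit 5) (nat_lit 41) (nat_lit 5) (nat_lit 355) (nat_lit 329) (nat_lit 216)) (XT.lf (nat_lit 0) (nat_lit 17017128903) (nat_lit 152) (nat_lit 13594484599) (nat_lit 228) (nat_lit 101970013276) (nat_lit 35) (nat_lit 5) (nat_lit 37) (nat_lit 5) (nat_lit 38) (nat_lit 5) (nat_lit 356) (nat_lit 329) (nat_lit 215)))) (XT.nd (nat_lit 78) (nat_lit 304) (nat_lit 0) (XT.lf (nat_lit 0) (nat_lit 74940012184) (nat_lit 228) (nat_lit 14035538397) (nat_lit 76) (nat_lit 50924930240) (nat_lit 35) (nat_lit 5) (nat_lit 38) (nat_lit 5) (nat_lit 36) (nat_lit 5) (nat_lit 357) (nat_lit 329) (nat_lit 214)) (XT.nd (nat_lit 78) (nat_lit 152) (nat_lit 0) (XT.lf (nat_lit 0) (nat_lit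 98537915730) (nat_lit 152) (nat_lit 26042991063) (nat_lit 228) (nat_lit 23135626031) (nat_lit 33) (nat_lit 5) (nat_lit 35) (nat_lit 5) (nat_lit 36) (nat_lit 5) (nat_lit 358) (nat_lit 329) (nat_lit 213)) (XT.lf (nat_lit 0) (nat_lit 23292468760) (nat_lit 152) (nat_lit 90515231046) (nat_lit 76) (nat_lit 42234841912) (nat_lit 31) (nat_lit 5) (nat_lit 33) (nat_lit 5) (nat_lit 32) (nat_lit 5) (nat_lit 359) (nat_lit 329) (nat_lit 212))))))))
noncomputable def xc97 : XT := (XT.nd (nat_lit 1716) (nat_lit 152) (nat_lit 0) (XT.nd (nat_lit 858) (nat_lit 608) (nat_lit 0) (XT.nd (nat_lit 390) (nat_lit 532) (nat_lit 0) (XT.nd (nat_lit 156) (nat_lit 304) (nat_lit 0) (XT.nd (nat_lit 78) (nat_lit 0) (nat_lit 0) (XT.lf (nat_lit 0) (nat_lit 26165940004) (nat_lit 152) (nat_lit 48186153347) (nat_lit 228) (nat_lit 90577182936) (nat_lit 29) (nat_lit 5) (nat_lit 31) (nat_lit 5) (nat_lit 32) (nat_lit 5) (nat_lit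 360) (nat_lit 329) (nat_lit 211)) (XT.lf (nat_lit 0) (nat_lit 131451928208) (nat_lit 228) (nat_lit 19416530799) (nat_lit 76) (nat_lit 23560719234) (nat_lit 29) (nat_lit 5) (nat_lit 32) (nat_lit 5) (nat_lit 30) (nat_lit 4) (nat_lit 361) (nat_lit 329) (nat_lit 210))) (XT.nd (nat_lit 78) (nat_lit 152) (nat_lit 0) (XT.lf (nat_lit 0) (nat_lit 10766810430) (nat_lit 152) (nat_lit 72478216165) (nat_lit 76) (nat_lit 101307166630) (nat_lit 27) (nat_lit 5) (nat_lit 29) (nat_lit 5) (nat_lit 28) (nat_lit 5) (nat_lit 362) (nat_lit 329) (nat_lit 209)) (XT.nd (nat_lit 78) (nat_lit 0) (nat_lit 0) (XT.lf (nat_lit 0) (nat_lit 60513489814) (nat_lit 152) (nat_lit 8098708009) (nat_lit 228) (nat_lit 126772249066) (nat_lit 25) (nat_lit 5) (nat_lit 27) (nat_lit 5) (nat_lit 28) (nat_lit 5) (nat_lit 363) (nat_lit 329) (nat_lit 208)) (XT.lf (nat_lit 0) (nat_lit 133507972970) (nat_lit 228) (nat_lit 1450805973) (nat_lit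 76) (nat_lit 72003364547) (nat_lit 25) (nat_lit 5) (nat_lit 28) (nat_lit 5) (nat_lit 26) (nat_lit 4) (nat_lit 364) (nat_lit 329) (nat_lit 207))))) (XT.nd (nat_lit 234) (nat_lit 228) (nat_lit 0) (XT.nd (nat_lit 78) (nat_lit 228) (nat_lit 0) (XT.lf (nat_lit 0) (nat_lit 147216390686) (nat_lit 76) (nat_lit 58812997416) (nat_lit 152) (nat_lit 13314969261) (nat_lit 24) (nat_lit 5) (nat_lit 25) (nat_lit 5) (nat_lit 26) (nat_lit 4) (nat_lit 365) (nat_lit 329) (nat_lit 206)) (XT.nd (nat_lit 78) (nat_lit 0) (nat_lit 0) (XT.lf (nat_lit 0) (nat_lit 51604843947) (nat_lit 228) (nat_lit 156253339464) (nat_lit 76) (nat_lit 24737550181) (nat_lit 21) (nat_lit 5) (nat_lit 24) (nat_lit 5) (nat_lit 22) (nat_lit 4) (nat_lit 366) (nat_lit 329) (nat_lit 205)) (XT.lf (nat_lit 0) (nat_lit 123525728557) (nat_lit 228) (nat_lit 8816917647) (nat_lit 76) (nat_lit 114439961269) (nat_lit 21) (nat_lit 5) (nat_lit 24) (nat_lit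 5) (nat_lit 22) (nat_lit 4) (nat_lit 367) (nat_lit 329) (nat_lit 204)))) (XT.nd (nat_lit 78) (nat_lit 152) (nat_lit 0) (XT.lf (nat_lit 0) (nat_lit 155386111750) (nat_lit 76) (nat_lit 48239284097) (nat_lit 152) (nat_lit 58357780157) (nat_lit 20) (nat_lit 5) (nat_lit 21) (nat_lit 5) (nat_lit 22) (nat_lit 4) (nat_lit 368) (nat_lit 329) (nat_lit 203)) (XT.nd (nat_lit 78) (nat_lit 0) (nat_lit 0) (XT.lf (nat_lit 0) (nat_lit 13076276624) (nat_lit 152) (nat_lit 222762340386) (nat_lit 76) (nat_lit 42466085498) (nat_lit 18) (nat_lit 5) (nat_lit 20) (nat_lit 5) (nat_lit 19) (nat_lit 4) (nat_lit 369) (nat_lit 329) (nat_lit 202)) (XT.lf (nat_lit 0) (nat_lit 90907671544) (nat_lit 152) (nat_lit 63209032918) (nat_lit 76) (nat_lit 141631053400) (nat_lit 18) (nat_lit 5) (nat_lit 20) (nat_lit 5) (nat_lit 19) (nat_lit 4) (nat_lit 370) (nat_lit 329) (nat_lit 201)))))) (XT.nd (nat_lit 390) (nat_lit 304) (nat_lit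 0) (XT.nd (nat_lit 156) (nat_lit 228) (nat_lit 0) (XT.nd (nat_lit 78) (nat_lit 0) (nat_lit 0) (XT.lf (nat_lit 0) (nat_lit 112714675305) (nat_lit 76) (nat_lit 64009914485) (nat_lit 152) (nat_lit 137773717521) (nat_lit 17) (nat_lit 5) (nat_lit 18) (nat_lit 5) (nat_lit 19) (nat_lit 4) (nat_lit 371) (nat_lit 329) (nat_lit 200)) (XT.lf (nat_lit 0) (nat_lit 271045209415) (nat_lit 152) (nat_lit 30263836904) (nat_lit 0) (nat_lit 33357937237) (nat_lit 17) (nat_lit 5) (nat_lit 19) (nat_lit 4) (nat_lit 17) (nat_lit 4) (nat_lit 372) (nat_lit 329) (nat_lit 199))) (XT.nd (nat_lit 78) (nat_lit 76) (nat_lit 0) (XT.lf (nat_lit 0) (nat_lit 19554636173) (nat_lit 152) (nat_lit 197601063456) (nat_lit 76) (nat_lit 139099642895) (nat_lit 15) (nat_lit 5) (nat_lit 17) (nat_lit 5) (nat_lit 16) (nat_lit 4) (nat_lit 373) (nat_lit 329) (nat_lit 198)) (XT.nd (nat_lit 78) (nat_lit 76) (nat_lit 0) (XT.lf (nat_lit 0) (nat_lit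 107721103716) (nat_lit 152) (nat_lit 16860541504) (nat_lit 76) (nat_lit 254908729112) (nat_lit 15) (nat_lit 5) (nat_lit 17) (nat_lit 5) (nat_lit 16) (nat_lit 4) (nat_lit 374) (nat_lit 329) (nat_lit 197)) (XT.lf (nat_lit 0) (nat_lit 184234712532) (nat_lit 76) (nat_lit 21581969717) (nat_lit 152) (nat_lit 198623736935) (nat_lit 14) (nat_lit 5) (nat_lit 15) (nat_lit 5) (nat_lit 16) (nat_lit 4) (nat_lit 375) (nat_lit 329) (nat_lit 196))))) (XT.nd (nat_lit 234) (nat_lit 152) (nat_lit 0) (XT.nd (nat_lit 78) (nat_lit 152) (nat_lit 0) (XT.lf (nat_lit 0) (nat_lit 313457623390) (nat_lit 152) (nat_lit 30757875684) (nat_lit 0) (nat_lit 87086082896) (nat_lit 14) (nat_lit 5) (nat_lit 16) (nat_lit 4) (nat_lit 14) (nat_lit 4) (nat_lit 376) (nat_lit 329) (nat_lit 195)) (XT.nd (nat_lit 78) (nat_lit 76) (nat_lit 0) (XT.lf (nat_lit 0) (nat_lit 179216872018) (nat_lit 76) (nat_lit 253654395915) (nat_lit 76) (nat_lit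 27282298595) (nat_lit 13) (nat_lit 4) (nat_lit 14) (nat_lit 5) (nat_lit 14) (nat_lit 4) (nat_lit 377) (nat_lit 329) (nat_lit 194)) (XT.lf (nat_lit 0) (nat_lit 68811097909) (nat_lit 152) (nat_lit 85309862185) (nat_lit 76) (nat_lit 337110494719) (nat_lit 12) (nat_lit 5) (nat_lit 14) (nat_lit 5) (nat_lit 13) (nat_lit 4) (nat_lit 378) (nat_lit 329) (nat_lit 193)))) (XT.nd (nat_lit 78) (nat_lit 76) (nat_lit 0) (XT.lf (nat_lit 0) (nat_lit 129655933580) (nat_lit 76) (nat_lit 44016760989) (nat_lit 152) (nat_lit 350998688811) (nat_lit 11) (nat_lit 5) (nat_lit 12) (nat_lit 5) (nat_lit 13) (nat_lit 4) (nat_lit 379) (nat_lit 329) (nat_lit 192)) (XT.nd (nat_lit 78) (nat_lit 76) (nat_lit 0) (XT.lf (nat_lit 0) (nat_lit 289602468560) (nat_lit 152) (nat_lit 197041447047) (nat_lit 0) (nat_lit 74008628261) (nat_lit 11) (nat_lit 5) (nat_lit 13) (nat_lit 4) (nat_lit 11) (nat_lit 4) (nat_lit 380) (nat_lit 329)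 (nat_lit 191)) (XT.lf (nat_lit 0) (nat_lit 16557351072) (nat_lit 76) (nat_lit 399249531704) (nat_lit 76) (nat_lit 183655301611) (nat_lit 10) (nat_lit 4) (nat_lit 11) (nat_lit 5) (nat_lit 11) (nat_lit 4) (nat_lit 381) (nat_lit 329) (nat_lit 190))))))) (XT.nd (nat_lit 43290) (nat_lit 0) (nat_lit 3952) (XT.nd (nat_lit 42822) (nat_lit 0) (nat_lit 6688) (XT.nd (nat_lit 156) (nat_lit 76) (nat_lit 0) (XT.nd (nat_lit 78) (nat_lit 76) (nat_lit 0) (XT.lf (nat_lit 0) (nat_lit 254279516457) (nat_lit 76) (nat_lit 301260037798) (nat_lit 76) (nat_lit 85665446785) (nat_lit 10) (nat_lit 4) (nat_lit 11) (nat_lit 5) (nat_lit 11) (nat_lit 4) (nat_lit 382) (nat_lit 329) (nat_lit 189)) (XT.lf (nat_lit 0) (nat_lit 19517829938) (nat_lit 152) (nat_lit 175583373823) (nat_lit 76) (nat_lit 491170319111) (nat_lit 9) (nat_lit 5) (nat_lit 11) (nat_lit 5) (nat_lit 10) (nat_lit 4) (nat_lit 383) (nat_lit 329) (nat_lit 188)))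 (XT.nd (nat_lit 78) (nat_lit 0) (nat_lit 0) (XT.lf (nat_lit 0) (nat_lit 52914506371) (nat_lit 76) (nat_lit 78065855092) (nat_lit 152) (nat_lit 603849492860) (nat_lit 8) (nat_lit 5) (nat_lit 9) (nat_lit 5) (nat_lit 10) (nat_lit 4) (nat_lit 384) (nat_lit 329) (nat_lit 187)) (XT.nd (nat_lit 78) (nat_lit 0) (nat_lit 0) (XT.lf (nat_lit 0) (nat_lit 255222824254) (nat_lit 152) (nat_lit 481963125171) (nat_lit 0) (nat_lit 49893756502) (nat_lit 8) (nat_lit 5) (nat_lit 10) (nat_lit 4) (nat_lit 8) (nat_lit 4) (nat_lit 385) (nat_lit 329) (nat_lit 186)) (XT.lf (nat_lit 0) (nat_lit 390720680423) (nat_lit 152) (nat_lit 267331705468) (nat_lit 0) (nat_lit 185391360017) (nat_lit 8) (nat_lit 5) (nat_lit 10) (nat_lit 4) (nat_lit 8) (nat_lit 4) (nat_lit 386) (nat_lit 329) (nat_lit 185))))) (XT.nd (nat_lit 234) (nat_lit 0) (nat_lit 152) (XT.nd (nat_lit 78) (nat_lit 0) (nat_lit 76) (XT.lf (nat_lit 0) (nat_lit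 692131459) (nat_lit 836) (nat_lit 9920323389) (nat_lit 836) (nat_lit 9920323389) (nat_lit 96) (nat_lit 3) (nat_lit 107) (nat_lit 3) (nat_lit 107) (nat_lit 5) (nat_lit 330) (nat_lit 330) (nat_lit 240)) (XT.nd (nat_lit 78) (nat_lit 0) (nat_lit 0) (XT.lf (nat_lit 0) (nat_lit 1825087848) (nat_lit 760) (nat_lit 31548232862) (nat_lit 836) (nat_lit 9315512010) (nat_lit 97) (nat_lit 5) (nat_lit 107) (nat_lit 5) (nat_lit 108) (nat_lit 5) (nat_lit 331) (nat_lit 330) (nat_lit 239)) (XT.lf (nat_lit 76) (nat_lit 534157266) (nat_lit 0) (nat_lit 2478638509) (nat_lit 836) (nat_lit 41393601769) (nat_lit 98) (nat_lit 5) (nat_lit 97) (nat_lit 5) (nat_lit 108) (nat_lit 5) (nat_lit 332) (nat_lit 330) (nat_lit 238)))) (XT.nd (nat_lit 78) (nat_lit 0) (nat_lit 76) (XT.lf (nat_lit 0) (nat_lit 5330847570) (nat_lit 760) (nat_lit 10419128281) (nat_lit 836) (nat_lit 30459632131) (nat_lit 98) (nat_lit 5) (nat_lit 108)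 (nat_lit 5) (nat_lit 109) (nat_lit 5) (nat_lit 333) (nat_lit 330) (nat_lit 237)) (XT.nd (nat_lit 78) (nat_lit 0) (nat_lit 76) (XT.lf (nat_lit 0) (nat_lit 8569620572) (nat_lit 760) (nat_lit 21905536066) (nat_lit 836) (nat_lit 17645161051) (nat_lit 99) (nat_lit 5) (nat_lit 109) (nat_lit 5) (nat_lit 110) (nat_lit 5) (nat_lit 334) (nat_lit 330) (nat_lit 236)) (XT.lf (nat_lit 0) (nat_lit 12820101243) (nat_lit 760) (nat_lit 33979115148) (nat_lit 836) (nat_lit 3347043312) (nat_lit 100) (nat_lit 5) (nat_lit 110) (nat_lit 5) (nat_lit 111) (nat_lit 5) (nat_lit 335) (nat_lit 330) (nat_lit 235)))))) (XT.nd (nat_lit 390) (nat_lit 1672) (nat_lit 0) (XT.nd (nat_lit 156) (nat_lit 1368) (nat_lit 0) (XT.nd (nat_lit 78) (nat_lit 0) (nat_lit 76) (XT.lf (nat_lit 76) (nat_lit 5401816792) (nat_lit 0) (nat_lit 12990435174) (nat_lit 836) (nat_lit 33892948922) (nat_lit 101) (nat_lit 5) (nat_lit 100) (nat_lit 5)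 (nat_lit 111) (nat_lit 5) (nat_lit 336) (nat_lit 330) (nat_lit 234)) (XT.lf (nat_lit 0) (nat_lit 25374907061) (nat_lit 760) (nat_lit 5799718238) (nat_lit 76) (nat_lit 23372400443) (nat_lit 101) (nat_lit 5) (nat_lit 111) (nat_lit 5) (nat_lit 102) (nat_lit 5) (nat_lit 337) (nat_lit 330) (nat_lit 233))) (XT.nd (nat_lit 78) (nat_lit 684) (nat_lit 0) (XT.lf (nat_lit 0) (nat_lit 33841503908) (nat_lit 836) (nat_lit 17423564351) (nat_lit 76) (nat_lit 5678466481) (nat_lit 91) (nat_lit 5) (nat_lit 102) (nat_lit 5) (nat_lit 92) (nat_lit 5) (nat_lit 338) (nat_lit 330) (nat_lit 232)) (XT.nd (nat_lit 78) (nat_lit 304) (nat_lit 0) (XT.lf (nat_lit 0) (nat_lit 29560981753) (nat_lit 380) (nat_lit 14510737683) (nat_lit 456) (nat_lit 15405734754) (nat_lit 86) (nat_lit 5) (nat_lit 91) (nat_lit 5) (nat_lit 92) (nat_lit 5) (nat_lit 339) (nat_lit 330) (nat_lit 231)) (XT.lf (nat_lit 0) (nat_lit 18931852866) (nat_lit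 304) (nat_lit 37182384356) (nat_lit 380) (nat_lit 6050159683) (nat_lit 82) (nat_lit 5) (nat_lit 86) (nat_lit 5) (nat_lit 87) (nat_lit 5) (nat_lit 340) (nat_lit 330) (nat_lit 230))))) (XT.nd (nat_lit 234) (nat_lit 912) (nat_lit 0) (XT.nd (nat_lit 78) (nat_lit 304) (nat_lit 0) (XT.lf (nat_lit 0) (nat_lit 4858649188) (nat_lit 456) (nat_lit 57422032839) (nat_lit 76) (nat_lit 2735725066) (nat_lit 76) (nat_lit 5) (nat_lit 82) (nat_lit 5) (nat_lit 77) (nat_lit 5) (nat_lit 341) (nat_lit 330) (nat_lit 229)) (XT.nd (nat_lit 78) (nat_lit 304) (nat_lit 0) (XT.lf (nat_lit 0) (nat_lit 17820376612) (nat_lit 456) (nat_lit 4772429974) (nat_lit 76) (nat_lit 45429206497) (nat_lit 76) (nat_lit 5) (nat_lit 82) (nat_lit 5) (nat_lit 77) (nat_lit 5) (nat_lit 342) (nat_lit 330) (nat_lit 228)) (XT.lf (nat_lit 0) (nat_lit 32986559509) (nat_lit 380) (nat_lit 17748299721) (nat_lit 76) (nat_lit 20474835455) (nat_lit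 72) (nat_lit 5) (nat_lit 77) (nat_lit 5) (nat_lit 73) (nat_lit 5) (nat_lit 343) (nat_lit 330) (nat_lit 227)))) (XT.nd (nat_lit 78) (nat_lit 608) (nat_lit 0) (XT.lf (nat_lit 0) (nat_lit 42862479499) (nat_lit 304) (nat_lit 7635549362) (nat_lit 380) (nat_lit 24097765136) (nat_lit 68) (nat_lit 5) (nat_lit 72) (nat_lit 5) (nat_lit 73) (nat_lit 5) (nat_lit 344) (nat_lit 330) (nat_lit 226)) (XT.nd (nat_lit 78) (nat_lit 380) (nat_lit 0) (XT.lf (nat_lit 0) (nat_lit 31098166563) (nat_lit 228) (nat_lit 39717010071) (nat_lit 304) (nat_lit 7367369144) (nat_lit 65) (nat_lit 5) (nat_lit 68) (nat_lit 5) (nat_lit 69) (nat_lit 5) (nat_lit 345) (nat_lit 330) (nat_lit 225)) (XT.lf (nat_lit 0) (nat_lit 11442829318) (nat_lit 380) (nat_lit 63768809211) (nat_lit 76) (nat_lit 6782053235) (nat_lit 60) (nat_lit 5) (nat_lit 65) (nat_lit 5) (nat_lit 61) (nat_lit 5) (nat_lit 346) (nat_lit 330) (nat_lit 224))))))))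
noncomputable def xc98 : XT := (XT.nd (nat_lit 1716) (nat_lit 988) (nat_lit 0) (XT.nd (nat_lit 858) (nat_lit 1064) (nat_lit 0) (XT.nd (nat_lit 390) (nat_lit 988) (nat_lit 0) (XT.nd (nat_lit 156) (nat_lit 684) (nat_lit 0) (XT.nd (nat_lit 78) (nat_lit 0) (nat_lit 0) (XT.lf (nat_lit 0) (nat_lit 3678824214) (nat_lit 228) (nat_lit 29382815622) (nat_lit 304) (nat_lit 52963957217) (nat_lit 57) (nat_lit 5) (nat_lit 60) (nat_lit 5) (nat_lit 61) (nat_lit 5) (nat_lit 347) (nat_lit 330) (nat_lit 223)) (XT.lf (nat_lit 0) (nat_lit 57850797725) (nat_lit 304) (nat_lit 11860346514) (nat_lit 76) (nat_lit 20596870340) (nat_lit 57) (nat_lit 5) (nat_lit 61) (nat_lit 5) (nat_lit 58) (nat_lit 5) (nat_lit 348) (nat_lit 330) (nat_lit 222))) (XT.nd (nat_lit 78) (nat_lit 456) (nat_lit 0) (XT.lf (nat_lit 0) (nat_lit 65875142821) (nat_lit 228) (nat_lit 20269862498) (nat_lit 304) (nat_lit 8711926133) (nat_lit 54) (nat_lit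 5) (nat_lit 57) (nat_lit 5) (nat_lit 58) (nat_lit 5) (nat_lit 349) (nat_lit 330) (nat_lit 221)) (XT.nd (nat_lit 78) (nat_lit 228) (nat_lit 0) (XT.lf (nat_lit 0) (nat_lit 17947354739) (nat_lit 228) (nat_lit 48360236098) (nat_lit 76) (nat_lit 33371137442) (nat_lit 51) (nat_lit 5) (nat_lit 54) (nat_lit 5) (nat_lit 52) (nat_lit 5) (nat_lit 350) (nat_lit 330) (nat_lit 220)) (XT.lf (nat_lit 0) (nat_lit 34831849698) (nat_lit 228) (nat_lit 13003254722) (nat_lit 304) (nat_lit 56973977486) (nat_lit 48) (nat_lit 5) (nat_lit 51) (nat_lit 5) (nat_lit 52) (nat_lit 5) (nat_lit 351) (nat_lit 330) (nat_lit 219))))) (XT.nd (nat_lit 234) (nat_lit 532) (nat_lit 0) (XT.nd (nat_lit 78) (nat_lit 304) (nat_lit 0) (XT.lf (nat_lit 0) (nat_lit 15894941303) (nat_lit 152) (nat_lit 66017325963) (nat_lit 228) (nat_lit 28347678256) (nat_lit 46) (nat_lit 5) (nat_lit 48) (nat_lit 5) (nat_lit 49) (nat_lit 5) (nat_lit 352)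 (nat_lit 330) (nat_lit 218)) (XT.nd (nat_lit 78) (nat_lit 228) (nat_lit 0) (XT.lf (nat_lit 0) (nat_lit 3942995531) (nat_lit 228) (nat_lit 5232147205) (nat_lit 76) (nat_lit 106896907148) (nat_lit 45) (nat_lit 5) (nat_lit 48) (nat_lit 5) (nat_lit 46) (nat_lit 5) (nat_lit 353) (nat_lit 330) (nat_lit 217)) (XT.lf (nat_lit 0) (nat_lit 40142926697) (nat_lit 304) (nat_lit 29554319363) (nat_lit 76) (nat_lit 52512683441) (nat_lit 42) (nat_lit 5) (nat_lit 46) (nat_lit 5) (nat_lit 43) (nat_lit 5) (nat_lit 354) (nat_lit 330) (nat_lit 216)))) (XT.nd (nat_lit 78) (nat_lit 380) (nat_lit 0) (XT.lf (nat_lit 0) (nat_lit 71868596979) (nat_lit 152) (nat_lit 8738151527) (nat_lit 228) (nat_lit 48163697201) (nat_lit 40) (nat_lit 5) (nat_lit 42) (nat_lit 5) (nat_lit 43) (nat_lit 5) (nat_lit 355) (nat_lit 330) (nat_lit 215)) (XT.nd (nat_lit 78) (nat_lit 228) (nat_lit 0) (XT.lf (nat_lit 0) (nat_lit 47240410124)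 (nat_lit 152) (nat_lit 79218077810) (nat_lit 228) (nat_lit 9289775634) (nat_lit 38) (nat_lit 5) (nat_lit 40) (nat_lit 5) (nat_lit 41) (nat_lit 5) (nat_lit 356) (nat_lit 330) (nat_lit 214)) (XT.lf (nat_lit 0) (nat_lit 18424627430) (nat_lit 152) (nat_lit 14664056454) (nat_lit 228) (nat_lit 110098049601) (nat_lit 35) (nat_lit 5) (nat_lit 37) (nat_lit 5) (nat_lit 38) (nat_lit 5) (nat_lit 357) (nat_lit 330) (nat_lit 213)))))) (XT.nd (nat_lit 390) (nat_lit 608) (nat_lit 0) (XT.nd (nat_lit 156) (nat_lit 304) (nat_lit 0) (XT.nd (nat_lit 78) (nat_lit 152) (nat_lit 0) (XT.lf (nat_lit 0) (nat_lit 80961529945) (nat_lit 228) (nat_lit 15114612188) (nat_lit 76) (nat_lit 55015046158) (nat_lit 35) (nat_lit 5) (nat_lit 38) (nat_lit 5) (nat_lit 36) (nat_lit 5) (nat_lit 358) (nat_lit 330) (nat_lit 212)) (XT.lf (nat_lit 0) (nat_lit 106462816109) (nat_lit 152) (nat_lit 28109584285) (nat_lit 228) (nat_lit 24960189970)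 (nat_lit 33) (nat_lit 5) (nat_lit 35) (nat_lit 5) (nat_lit 36) (nat_lit 5) (nat_lit 359) (nat_lit 330) (nat_lit 211))) (XT.nd (nat_lit 78) (nat_lit 152) (nat_lit 0) (XT.lf (nat_lit 0) (nat_lit 25180324522) (nat_lit 152) (nat_lit 97714622305) (nat_lit 76) (nat_lit 45629762941) (nat_lit 31) (nat_lit 5) (nat_lit 33) (nat_lit 5) (nat_lit 32) (nat_lit 5) (nat_lit 360) (nat_lit 330) (nat_lit 210)) (XT.nd (nat_lit 78) (nat_lit 0) (nat_lit 0) (XT.lf (nat_lit 0) (nat_lit 28299224669) (nat_lit 152) (nat_lit 52024307349) (nat_lit 228) (nat_lit 97798911355) (nat_lit 29) (nat_lit 5) (nat_lit 31) (nat_lit 5) (nat_lit 32) (nat_lit 5) (nat_lit 361) (nat_lit 330) (nat_lit 209)) (XT.lf (nat_lit 0) (nat_lit 141989871844) (nat_lit 228) (nat_lit 20931961456) (nat_lit 76) (nat_lit 25460579122) (nat_lit 29) (nat_lit 5) (nat_lit 32) (nat_lit 5) (nat_lit 30) (nat_lit 4) (nat_lit 362) (nat_lit 330) (nat_lit 208)))))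 (XT.nd (nat_lit 234) (nat_lit 304) (nat_lit 0) (XT.nd (nat_lit 78) (nat_lit 152) (nat_lit 0) (XT.lf (nat_lit 0) (nat_lit 11649246032) (nat_lit 152) (nat_lit 78239521671) (nat_lit 76) (nat_lit 109426537085) (nat_lit 27) (nat_lit 5) (nat_lit 29) (nat_lit 5) (nat_lit 28) (nat_lit 5) (nat_lit 363) (nat_lit 330) (nat_lit 207)) (XT.nd (nat_lit 78) (nat_lit 0) (nat_lit 0) (XT.lf (nat_lit 0) (nat_lit 65389914906) (nat_lit 152) (nat_lit 8731339080) (nat_lit 228) (nat_lit 136892935974) (nat_lit 25) (nat_lit 5) (nat_lit 27) (nat_lit 5) (nat_lit 28) (nat_lit 5) (nat_lit 364) (nat_lit 330) (nat_lit 206)) (XT.lf (nat_lit 0) (nat_lit 144207424396) (nat_lit 228) (nat_lit 1533425776) (nat_lit 76) (nat_lit 77777316096) (nat_lit 25) (nat_lit 5) (nat_lit 28) (nat_lit 5) (nat_lit 26) (nat_lit 4) (nat_lit 365) (nat_lit 330) (nat_lit 205)))) (XT.nd (nat_lit 78) (nat_lit 228) (nat_lit 0) (XT.lf (nat_lit 0) (nat_lit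 159025693151) (nat_lit 76) (nat_lit 63503965461) (nat_lit 152) (nat_lit 14361343940) (nat_lit 24) (nat_lit 5) (nat_lit 25) (nat_lit 5) (nat_lit 26) (nat_lit 4) (nat_lit 366) (nat_lit 330) (nat_lit 204)) (XT.nd (nat_lit 78) (nat_lit 0) (nat_lit 0) (XT.lf (nat_lit 0) (nat_lit 55750804952) (nat_lit 228) (nat_lit 168721764114) (nat_lit 76) (nat_lit 26729937990) (nat_lit 21) (nat_lit 5) (nat_lit 24) (nat_lit 5) (nat_lit 22) (nat_lit 4) (nat_lit 367) (nat_lit 330) (nat_lit 203)) (XT.lf (nat_lit 0) (nat_lit 133424058590) (nat_lit 228) (nat_lit 9492787256) (nat_lit 76) (nat_lit 123607550573) (nat_lit 21) (nat_lit 5) (nat_lit 24) (nat_lit 5) (nat_lit 22) (nat_lit 4) (nat_lit 368) (nat_lit 330) (nat_lit 202))))))) (XT.nd (nat_lit 858) (nat_lit 304) (nat_lit 0) (XT.nd (nat_lit 390) (nat_lit 380) (nat_lit 0) (XT.nd (nat_lit 156) (nat_lit 76) (nat_lit 0) (XT.nd (nat_lit 78) (nat_lit 152) (nat_lit 0)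 (XT.lf (nat_lit 0) (nat_lit 167845203163) (nat_lit 76) (nat_lit 52085731106) (nat_lit 152) (nat_lit 63010114863) (nat_lit 20) (nat_lit 5) (nat_lit 21) (nat_lit 5) (nat_lit 22) (nat_lit 4) (nat_lit 369) (nat_lit 330) (nat_lit 201)) (XT.lf (nat_lit 0) (nat_lit 14137600747) (nat_lit 152) (nat_lit 240555285118) (nat_lit 76) (nat_lit 45875426792) (nat_lit 18) (nat_lit 5) (nat_lit 20) (nat_lit 5) (nat_lit 19) (nat_lit 4) (nat_lit 370) (nat_lit 330) (nat_lit 200))) (XT.nd (nat_lit 78) (nat_lit 76) (nat_lit 0) (XT.lf (nat_lit 0) (nat_lit 98194379705) (nat_lit 152) (nat_lit 68239790275) (nat_lit 76) (nat_lit 152972699205) (nat_lit 18) (nat_lit 5) (nat_lit 20) (nat_lit 5) (nat_lit 19) (nat_lit 4) (nat_lit 371) (nat_lit 330) (nat_lit 199)) (XT.nd (nat_lit 78) (nat_lit 0) (nat_lit 0) (XT.lf (nat_lit 0) (nat_lit 121756686187) (nat_lit 76) (nat_lit 69119308965) (nat_lit 152) (nat_lit 148781500591) (nat_lit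 17) (nat_lit 5) (nat_lit 18) (nat_lit 5) (nat_lit 19) (nat_lit 4) (nat_lit 372) (nat_lit 330) (nat_lit 198)) (XT.lf (nat_lit 0) (nat_lit 292741433709) (nat_lit 152) (nat_lit 32661485480) (nat_lit 0) (nat_lit 36036788744) (nat_lit 17) (nat_lit 5) (nat_lit 19) (nat_lit 4) (nat_lit 17) (nat_lit 4) (nat_lit 373) (nat_lit 330) (nat_lit 197))))) (XT.nd (nat_lit 234) (nat_lit 152) (nat_lit 0) (XT.nd (nat_lit 78) (nat_lit 76) (nat_lit 0) (XT.lf (nat_lit 0) (nat_lit 21131231687) (nat_lit 152) (nat_lit 213386301961) (nat_lit 76) (nat_lit 150237621580) (nat_lit 15) (nat_lit 5) (nat_lit 17) (nat_lit 5) (nat_lit 16) (nat_lit 4) (nat_lit 374) (nat_lit 330) (nat_lit 196)) (XT.nd (nat_lit 78) (nat_lit 76) (nat_lit 0) (XT.lf (nat_lit 0) (nat_lit 116350111106) (nat_lit 152) (nat_lit 18188230591) (nat_lit 76) (nat_lit 275310693416) (nat_lit 15) (nat_lit 5) (nat_lit 17) (nat_lit 5) (nat_lit 16) (nat_lit 4)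 (nat_lit 375) (nat_lit 330) (nat_lit 195)) (XT.lf (nat_lit 0) (nat_lit 198993724429) (nat_lit 76) (nat_lit 23299088964) (nat_lit 152) (nat_lit 214502296525) (nat_lit 14) (nat_lit 5) (nat_lit 15) (nat_lit 5) (nat_lit 16) (nat_lit 4) (nat_lit 376) (nat_lit 330) (nat_lit 194)))) (XT.nd (nat_lit 78) (nat_lit 152) (nat_lit 0) (XT.lf (nat_lit 0) (nat_lit 338544366524) (nat_lit 152) (nat_lit 33199403576) (nat_lit 0) (nat_lit 94061429014) (nat_lit 14) (nat_lit 5) (nat_lit 16) (nat_lit 4) (nat_lit 14) (nat_lit 4) (nat_lit 377) (nat_lit 330) (nat_lit 193)) (XT.nd (nat_lit 78) (nat_lit 76) (nat_lit 0) (XT.lf (nat_lit 0) (nat_lit 193572493786) (nat_lit 76) (nat_lit 273938143510) (nat_lit 76) (nat_lit 29454728611) (nat_lit 13) (nat_lit 4) (nat_lit 14) (nat_lit 5) (nat_lit 14) (nat_lit 4) (nat_lit 378) (nat_lit 330) (nat_lit 192)) (XT.lf (nat_lit 0) (nat_lit 74325086560) (nat_lit 152) (nat_lit 92117429475)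 (nat_lit 76) (nat_lit 364086997875) (nat_lit 12) (nat_lit 5) (nat_lit 14) (nat_lit 5) (nat_lit 13) (nat_lit 4) (nat_lit 379) (nat_lit 330) (nat_lit 191)))))) (XT.nd (nat_lit 390) (nat_lit 76) (nat_lit 0) (XT.nd (nat_lit 156) (nat_lit 152) (nat_lit 0) (XT.nd (nat_lit 78) (nat_lit 0) (nat_lit 0) (XT.lf (nat_lit 0) (nat_lit 140044881518) (nat_lit 76) (nat_lit 47530312494) (nat_lit 152) (nat_lit 379069463764) (nat_lit 11) (nat_lit 5) (nat_lit 12) (nat_lit 5) (nat_lit 13) (nat_lit 4) (nat_lit 380) (nat_lit 330) (nat_lit 190)) (XT.lf (nat_lit 0) (nat_lit 312778819278) (nat_lit 152) (nat_lit 212789218448) (nat_lit 0) (nat_lit 79936300064) (nat_lit 11) (nat_lit 5) (nat_lit 13) (nat_lit 4) (nat_lit 11) (nat_lit 4) (nat_lit 381) (nat_lit 330) (nat_lit 189))) (XT.nd (nat_lit 78) (nat_lit 76) (nat_lit 0) (XT.lf (nat_lit 0) (nat_lit 17896807982) (nat_lit 76) (nat_lit 431182406850) (nat_lit 76) (nat_lit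 198339553450) (nat_lit 10) (nat_lit 4) (nat_lit 11) (nat_lit 5) (nat_lit 11) (nat_lit 4) (nat_lit 382) (nat_lit 330) (nat_lit 188)) (XT.nd (nat_lit 78) (nat_lit 76) (nat_lit 0) (XT.lf (nat_lit 0) (nat_lit 274635645203) (nat_lit 76) (nat_lit 325354278423) (nat_lit 76) (nat_lit 92511115593) (nat_lit 10) (nat_lit 4) (nat_lit 11) (nat_lit 5) (nat_lit 11) (nat_lit 4) (nat_lit 383) (nat_lit 330) (nat_lit 187)) (XT.lf (nat_lit 0) (nat_lit 21086038505) (nat_lit 152) (nat_lit 189617070404) (nat_lit 76) (nat_lit 530469795229) (nat_lit 9) (nat_lit 5) (nat_lit 11) (nat_lit 5) (nat_lit 10) (nat_lit 4) (nat_lit 384) (nat_lit 330) (nat_lit 186))))) (XT.nd (nat_lit 42744) (nat_lit 0) (nat_lit 6764) (XT.nd (nat_lit 78) (nat_lit 0) (nat_lit 0) (XT.lf (nat_lit 0) (nat_lit 57160076402) (nat_lit 76) (nat_lit 84305187514) (nat_lit 152) (nat_lit 652150653727) (nat_lit 8) (nat_lit 5) (nat_lit 9) (nat_lit 5) (nat_lit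 10) (nat_lit 4) (nat_lit 385) (nat_lit 330) (nat_lit 185)) (XT.nd (nat_lit 42588) (nat_lit 0) (nat_lit 6688) (XT.lf (nat_lit 0) (nat_lit 275646730021) (nat_lit 152) (nat_lit 520508469750) (nat_lit 0) (nat_lit 53890577389) (nat_lit 8) (nat_lit 5) (nat_lit 10) (nat_lit 4) (nat_lit 8) (nat_lit 4) (nat_lit 386) (nat_lit 330) (nat_lit 184)) (XT.lf (nat_lit 0) (nat_lit 804892827) (nat_lit 836) (nat_lit 10683783297) (nat_lit 836) (nat_lit 10683783297) (nat_lit 96) (nat_lit 3) (nat_lit 107) (nat_lit 3) (nat_lit 107) (nat_lit 5) (nat_lit 331) (nat_lit 331) (nat_lit 238)))) (XT.nd (nat_lit 78) (nat_lit 0) (nat_lit 0) (XT.lf (nat_lit 0) (nat_lit 2077502872) (nat_lit 760) (nat_lit 34008117656) (nat_lit 836) (nat_lit 10012865940) (nat_lit 97) (nat_lit 5) (nat_lit 107) (nat_lit 5) (nat_lit 108) (nat_lit 5) (nat_lit 332) (nat_lit 331) (nat_lit 237)) (XT.nd (nat_lit 78) (nat_lit 0) (nat_lit 76) (XT.lf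 (nat_lit 76) (nat_lit 638083458) (nat_lit 0) (nat_lit 2715217305) (nat_lit 836) (nat_lit 44600511860) (nat_lit 98) (nat_lit 5) (nat_lit 97) (nat_lit 5) (nat_lit 108) (nat_lit 5) (nat_lit 333) (nat_lit 331) (nat_lit 236)) (XT.lf (nat_lit 0) (nat_lit 5848874215) (nat_lit 760) (nat_lit 11190725106) (nat_lit 836) (nat_lit 32862085786) (nat_lit 98) (nat_lit 5) (nat_lit 108) (nat_lit 5) (nat_lit 109) (nat_lit 5) (nat_lit 334) (nat_lit 331) (nat_lit 235))))))))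
noncomputable def xc99 : XT := (XT.nd (nat_lit 1716) (nat_lit 1976) (nat_lit 0) (XT.nd (nat_lit 858) (nat_lit 2128) (nat_lit 0) (XT.nd (nat_lit 390) (nat_lit 1748) (nat_lit 0) (XT.nd (nat_lit 156) (nat_lit 608) (nat_lit 0) (XT.nd (nat_lit 78) (nat_lit 0) (nat_lit 76) (XT.lf (nat_lit 0) (nat_lit 9340478742) (nat_lit 760) (nat_lit 23593933713) (nat_lit 836) (nat_lit 19031161063) (nat_lit 99) (nat_lit 5) (nat_lit 109) (nat_lit 5) (nat_lit 110) (nat_lit 5) (nat_lit 335) (nat_lit 331) (nat_lit 234)) (XT.lf (nat_lit 0) (nat_lit 13925345249) (nat_lit 760) (nat_lit 36631797294) (nat_lit 836) (nat_lit 3596738771) (nat_lit 100) (nat_lit 5) (nat_lit 110) (nat_lit 5) (nat_lit 111) (nat_lit 5) (nat_lit 336) (nat_lit 331) (nat_lit 233))) (XT.nd (nat_lit 78) (nat_lit 684) (nat_lit 0) (XT.lf (nat_lit 76) (nat_lit 5896756260) (nat_lit 0) (nat_lit 14041593206) (nat_lit 836) (nat_lit 36525841468) (nat_lit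 101) (nat_lit 5) (nat_lit 100) (nat_lit 5) (nat_lit 111) (nat_lit 5) (nat_lit 337) (nat_lit 331) (nat_lit 232)) (XT.nd (nat_lit 78) (nat_lit 760) (nat_lit 0) (XT.lf (nat_lit 0) (nat_lit 27473909986) (nat_lit 760) (nat_lit 6201838009) (nat_lit 76) (nat_lit 25231505811) (nat_lit 101) (nat_lit 5) (nat_lit 111) (nat_lit 5) (nat_lit 102) (nat_lit 5) (nat_lit 338) (nat_lit 331) (nat_lit 231)) (XT.lf (nat_lit 0) (nat_lit 36613558245) (nat_lit 836) (nat_lit 18754873404) (nat_lit 76) (nat_lit 6127271873) (nat_lit 91) (nat_lit 5) (nat_lit 102) (nat_lit 5) (nat_lit 92) (nat_lit 5) (nat_lit 339) (nat_lit 331) (nat_lit 230))))) (XT.nd (nat_lit 234) (nat_lit 608) (nat_lit 0) (XT.nd (nat_lit 78) (nat_lit 760) (nat_lit 0) (XT.lf (nat_lit 0) (nat_lit 31985716907) (nat_lit 380) (nat_lit 15672613524) (nat_lit 456) (nat_lit 16574204852) (nat_lit 86) (nat_lit 5) (nat_lit 91) (nat_lit 5) (nat_lit 92) (nat_lit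 5) (nat_lit 340) (nat_lit 331) (nat_lit 229)) (XT.nd (nat_lit 78) (nat_lit 456) (nat_lit 0) (XT.lf (nat_lit 0) (nat_lit 20506651457) (nat_lit 304) (nat_lit 40154015018) (nat_lit 380) (nat_lit 6473951401) (nat_lit 82) (nat_lit 5) (nat_lit 86) (nat_lit 5) (nat_lit 87) (nat_lit 5) (nat_lit 341) (nat_lit 331) (nat_lit 228)) (XT.lf (nat_lit 0) (nat_lit 5302318510) (nat_lit 456) (nat_lit 61953528066) (nat_lit 76) (nat_lit 2959065776) (nat_lit 76) (nat_lit 5) (nat_lit 82) (nat_lit 5) (nat_lit 77) (nat_lit 5) (nat_lit 342) (nat_lit 331) (nat_lit 227)))) (XT.nd (nat_lit 78) (nat_lit 608) (nat_lit 0) (XT.lf (nat_lit 0) (nat_lit 19296911730) (nat_lit 456) (nat_lit 5096569372) (nat_lit 76) (nat_lit 49067693669) (nat_lit 76) (nat_lit 5) (nat_lit 82) (nat_lit 5) (nat_lit 77) (nat_lit 5) (nat_lit 343) (nat_lit 331) (nat_lit 226)) (XT.nd (nat_lit 78) (nat_lit 304) (nat_lit 0) (XT.lf (nat_lit 0) (nat_lit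 35673591250) (nat_lit 380) (nat_lit 19110676146) (nat_lit 76) (nat_lit 22119747414) (nat_lit 72) (nat_lit 5) (nat_lit 77) (nat_lit 5) (nat_lit 73) (nat_lit 5) (nat_lit 344) (nat_lit 331) (nat_lit 225)) (XT.lf (nat_lit 0) (nat_lit 46346467073) (nat_lit 304) (nat_lit 8236806133) (nat_lit 380) (nat_lit 25977867819) (nat_lit 68) (nat_lit 5) (nat_lit 72) (nat_lit 5) (nat_lit 73) (nat_lit 5) (nat_lit 345) (nat_lit 331) (nat_lit 224)))))) (XT.nd (nat_lit 390) (nat_lit 1064) (nat_lit 0) (XT.nd (nat_lit 156) (nat_lit 456) (nat_lit 0) (XT.nd (nat_lit 78) (nat_lit 380) (nat_lit 0) (XT.lf (nat_lit 0) (nat_lit 33640691980) (nat_lit 228) (nat_lit 42882729887) (nat_lit 304) (nat_lit 7911533065) (nat_lit 65) (nat_lit 5) (nat_lit 68) (nat_lit 5) (nat_lit 69) (nat_lit 5) (nat_lit 346) (nat_lit 331) (nat_lit 223)) (XT.lf (nat_lit 0) (nat_lit 12399822419) (nat_lit 380) (nat_lit 68814680288) (nat_lit 76) (nat_lit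 7336568182) (nat_lit 60) (nat_lit 5) (nat_lit 65) (nat_lit 5) (nat_lit 61) (nat_lit 5) (nat_lit 347) (nat_lit 331) (nat_lit 222))) (XT.nd (nat_lit 78) (nat_lit 228) (nat_lit 0) (XT.lf (nat_lit 0) (nat_lit 4026346040) (nat_lit 228) (nat_lit 31719543569) (nat_lit 304) (nat_lit 57159754207) (nat_lit 57) (nat_lit 5) (nat_lit 60) (nat_lit 5) (nat_lit 61) (nat_lit 5) (nat_lit 348) (nat_lit 331) (nat_lit 221)) (XT.nd (nat_lit 78) (nat_lit 228) (nat_lit 0) (XT.lf (nat_lit 0) (nat_lit 62515468546) (nat_lit 304) (nat_lit 12758248389) (nat_lit 76) (nat_lit 22257075988) (nat_lit 57) (nat_lit 5) (nat_lit 61) (nat_lit 5) (nat_lit 58) (nat_lit 5) (nat_lit 349) (nat_lit 331) (nat_lit 220)) (XT.lf (nat_lit 0) (nat_lit 71193866919) (nat_lit 228) (nat_lit 21877394740) (nat_lit 304) (nat_lit 9372461446) (nat_lit 54) (nat_lit 5) (nat_lit 57) (nat_lit 5) (nat_lit 58) (nat_lit 5) (nat_lit 350) (nat_lit 331) (nat_lit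 219))))) (XT.nd (nat_lit 234) (nat_lit 456) (nat_lit 0) (XT.nd (nat_lit 78) (nat_lit 380) (nat_lit 0) (XT.lf (nat_lit 0) (nat_lit 19416754305) (nat_lit 228) (nat_lit 52179845130) (nat_lit 76) (nat_lit 36054720030) (nat_lit 51) (nat_lit 5) (nat_lit 54) (nat_lit 5) (nat_lit 52) (nat_lit 5) (nat_lit 351) (nat_lit 331) (nat_lit 218)) (XT.nd (nat_lit 78) (nat_lit 152) (nat_lit 0) (XT.lf (nat_lit 0) (nat_lit 37665468929) (nat_lit 228) (nat_lit 14028300228) (nat_lit 304) (nat_lit 61498421930) (nat_lit 48) (nat_lit 5) (nat_lit 51) (nat_lit 5) (nat_lit 52) (nat_lit 5) (nat_lit 352) (nat_lit 331) (nat_lit 217)) (XT.lf (nat_lit 0) (nat_lit 17212882062) (nat_lit 152) (nat_lit 71282806771) (nat_lit 228) (nat_lit 30583507589) (nat_lit 46) (nat_lit 5) (nat_lit 48) (nat_lit 5) (nat_lit 49) (nat_lit 5) (nat_lit 353) (nat_lit 331) (nat_lit 216)))) (XT.nd (nat_lit 78) (nat_lit 380) (nat_lit 0) (XT.lf (nat_lit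 0) (nat_lit 4287102961) (nat_lit 228) (nat_lit 5606838590) (nat_lit 76) (nat_lit 115462418888) (nat_lit 45) (nat_lit 5) (nat_lit 48) (nat_lit 5) (nat_lit 46) (nat_lit 5) (nat_lit 354) (nat_lit 331) (nat_lit 215)) (XT.nd (nat_lit 78) (nat_lit 152) (nat_lit 0) (XT.lf (nat_lit 0) (nat_lit 43381791064) (nat_lit 304) (nat_lit 31875543630) (nat_lit 76) (nat_lit 56727999094) (nat_lit 42) (nat_lit 5) (nat_lit 46) (nat_lit 5) (nat_lit 43) (nat_lit 5) (nat_lit 355) (nat_lit 331) (nat_lit 214)) (XT.lf (nat_lit 0) (nat_lit 77659332021) (nat_lit 152) (nat_lit 9421998713) (nat_lit 228) (nat_lit 51989431326) (nat_lit 40) (nat_lit 5) (nat_lit 42) (nat_lit 5) (nat_lit 43) (nat_lit 5) (nat_lit 356) (nat_lit 331) (nat_lit 213))))))) (XT.nd (nat_lit 858) (nat_lit 760) (nat_lit 0) (XT.nd (nat_lit 390) (nat_lit 532) (nat_lit 0) (XT.nd (nat_lit 156) (nat_lit 304) (nat_lit 0) (XT.nd (nat_lit 78) (nat_lit 228)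 (nat_lit 0) (XT.lf (nat_lit 0) (nat_lit 51060132554) (nat_lit 152) (nat_lit 85539999662) (nat_lit 228) (nat_lit 10006728261) (nat_lit 38) (nat_lit 5) (nat_lit 40) (nat_lit 5) (nat_lit 41) (nat_lit 5) (nat_lit 357) (nat_lit 331) (nat_lit 212)) (XT.lf (nat_lit 0) (nat_lit 19938145134) (nat_lit 152) (nat_lit 15821760093) (nat_lit 228) (nat_lit 118880546573) (nat_lit 35) (nat_lit 5) (nat_lit 37) (nat_lit 5) (nat_lit 38) (nat_lit 5) (nat_lit 358) (nat_lit 331) (nat_lit 211))) (XT.nd (nat_lit 78) (nat_lit 304) (nat_lit 0) (XT.lf (nat_lit 0) (nat_lit 87461014743) (nat_lit 228) (nat_lit 16286256060) (nat_lit 76) (nat_lit 59430071437) (nat_lit 35) (nat_lit 5) (nat_lit 38) (nat_lit 5) (nat_lit 36) (nat_lit 5) (nat_lit 359) (nat_lit 331) (nat_lit 210)) (XT.nd (nat_lit 78) (nat_lit 152) (nat_lit 0) (XT.lf (nat_lit 0) (nat_lit 115015735705) (nat_lit 152) (nat_lit 30343908244) (nat_lit 228) (nat_lit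 26934469036) (nat_lit 33) (nat_lit 5) (nat_lit 35) (nat_lit 5) (nat_lit 36) (nat_lit 5) (nat_lit 360) (nat_lit 331) (nat_lit 209)) (XT.lf (nat_lit 0) (nat_lit 27215719501) (nat_lit 152) (nat_lit 105495931985) (nat_lit 76) (nat_lit 49293976002) (nat_lit 31) (nat_lit 5) (nat_lit 33) (nat_lit 5) (nat_lit 32) (nat_lit 5) (nat_lit 361) (nat_lit 331) (nat_lit 208))))) (XT.nd (nat_lit 234) (nat_lit 228) (nat_lit 0) (XT.nd (nat_lit 78) (nat_lit 152) (nat_lit 0) (XT.lf (nat_lit 0) (nat_lit 30597464310) (nat_lit 152) (nat_lit 56171901571) (nat_lit 228) (nat_lit 105601865572) (nat_lit 29) (nat_lit 5) (nat_lit 31) (nat_lit 5) (nat_lit 32) (nat_lit 5) (nat_lit 362) (nat_lit 331) (nat_lit 207)) (XT.nd (nat_lit 78) (nat_lit 152) (nat_lit 0) (XT.lf (nat_lit 0) (nat_lit 153367742472) (nat_lit 228) (nat_lit 22574032256) (nat_lit 76) (nat_lit 27510287549) (nat_lit 29) (nat_lit 5) (nat_lit 32) (nat_lit 5)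 (nat_lit 30) (nat_lit 4) (nat_lit 363) (nat_lit 331) (nat_lit 206)) (XT.lf (nat_lit 0) (nat_lit 12599267649) (nat_lit 152) (nat_lit 84467003203) (nat_lit 76) (nat_lit 118193346202) (nat_lit 27) (nat_lit 5) (nat_lit 29) (nat_lit 5) (nat_lit 28) (nat_lit 5) (nat_lit 364) (nat_lit 331) (nat_lit 205)))) (XT.nd (nat_lit 78) (nat_lit 76) (nat_lit 0) (XT.lf (nat_lit 0) (nat_lit 70651411518) (nat_lit 152) (nat_lit 9416758440) (nat_lit 228) (nat_lit 147826286990) (nat_lit 25) (nat_lit 5) (nat_lit 27) (nat_lit 5) (nat_lit 28) (nat_lit 5) (nat_lit 365) (nat_lit 331) (nat_lit 204)) (XT.nd (nat_lit 78) (nat_lit 76) (nat_lit 0) (XT.lf (nat_lit 0) (nat_lit 155760147968) (nat_lit 228) (nat_lit 1627426419) (nat_lit 76) (nat_lit 84011231824) (nat_lit 25) (nat_lit 5) (nat_lit 28) (nat_lit 5) (nat_lit 26) (nat_lit 4) (nat_lit 366) (nat_lit 331) (nat_lit 203)) (XT.lf (nat_lit 0) (nat_lit 171775175909) (nat_lit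 76) (nat_lit 68572218442) (nat_lit 152) (nat_lit 15494113885) (nat_lit 24) (nat_lit 5) (nat_lit 25) (nat_lit 5) (nat_lit 26) (nat_lit 4) (nat_lit 367) (nat_lit 331) (nat_lit 202)))))) (XT.nd (nat_lit 390) (nat_lit 304) (nat_lit 0) (XT.nd (nat_lit 156) (nat_lit 228) (nat_lit 0) (XT.nd (nat_lit 78) (nat_lit 0) (nat_lit 0) (XT.lf (nat_lit 0) (nat_lit 60225935783) (nat_lit 228) (nat_lit 182192205425) (nat_lit 76) (nat_lit 28879807476) (nat_lit 21) (nat_lit 5) (nat_lit 24) (nat_lit 5) (nat_lit 22) (nat_lit 4) (nat_lit 368) (nat_lit 331) (nat_lit 201)) (XT.lf (nat_lit 0) (nat_lit 144111933680) (nat_lit 228) (nat_lit 10226932628) (nat_lit 76) (nat_lit 133506779106) (nat_lit 21) (nat_lit 5) (nat_lit 24) (nat_lit 5) (nat_lit 22) (nat_lit 4) (nat_lit 369) (nat_lit 331) (nat_lit 200))) (XT.nd (nat_lit 78) (nat_lit 152) (nat_lit 0) (XT.lf (nat_lit 0) (nat_lit 181296998491) (nat_lit 76) (nat_lit 56241705062)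 (nat_lit 152) (nat_lit 68036959969) (nat_lit 20) (nat_lit 5) (nat_lit 21) (nat_lit 5) (nat_lit 22) (nat_lit 4) (nat_lit 370) (nat_lit 331) (nat_lit 199)) (XT.nd (nat_lit 78) (nat_lit 0) (nat_lit 0) (XT.lf (nat_lit 0) (nat_lit 15281659212) (nat_lit 152) (nat_lit 259775666005) (nat_lit 76) (nat_lit 49555795688) (nat_lit 18) (nat_lit 5) (nat_lit 20) (nat_lit 5) (nat_lit 19) (nat_lit 4) (nat_lit 371) (nat_lit 331) (nat_lit 198)) (XT.lf (nat_lit 0) (nat_lit 106062013790) (nat_lit 152) (nat_lit 73676712457) (nat_lit 76) (nat_lit 165220084356) (nat_lit 18) (nat_lit 5) (nat_lit 20) (nat_lit 5) (nat_lit 19) (nat_lit 4) (nat_lit 372) (nat_lit 331) (nat_lit 197))))) (XT.nd (nat_lit 234) (nat_lit 76) (nat_lit 0) (XT.nd (nat_lit 78) (nat_lit 152) (nat_lit 0) (XT.lf (nat_lit 0) (nat_lit 131518514684) (nat_lit 76) (nat_lit 74639081152) (nat_lit 152) (nat_lit 160671919873) (nat_lit 17) (nat_lit 5) (nat_lit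 18) (nat_lit 5) (nat_lit 19) (nat_lit 4) (nat_lit 373) (nat_lit 331) (nat_lit 196)) (XT.nd (nat_lit 78) (nat_lit 152) (nat_lit 0) (XT.lf (nat_lit 0) (nat_lit 316171557340) (nat_lit 152) (nat_lit 35254292542) (nat_lit 0) (nat_lit 38928490870) (nat_lit 17) (nat_lit 5) (nat_lit 19) (nat_lit 4) (nat_lit 17) (nat_lit 4) (nat_lit 374) (nat_lit 331) (nat_lit 195)) (XT.lf (nat_lit 0) (nat_lit 22832210863) (nat_lit 152) (nat_lit 230437618866) (nat_lit 76) (nat_lit 162265210913) (nat_lit 15) (nat_lit 5) (nat_lit 17) (nat_lit 5) (nat_lit 16) (nat_lit 4) (nat_lit 375) (nat_lit 331) (nat_lit 194)))) (XT.nd (nat_lit 78) (nat_lit 76) (nat_lit 0) (XT.lf (nat_lit 0) (nat_lit 125667824293) (nat_lit 152) (nat_lit 19625152694) (nat_lit 76) (nat_lit 297343492970) (nat_lit 15) (nat_lit 5) (nat_lit 17) (nat_lit 5) (nat_lit 16) (nat_lit 4) (nat_lit 376) (nat_lit 331) (nat_lit 193)) (XT.nd (nat_lit 78) (nat_lit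 0) (nat_lit 0) (XT.lf (nat_lit 0) (nat_lit 214930570545) (nat_lit 76) (nat_lit 25154924234) (nat_lit 152) (nat_lit 231652758569) (nat_lit 14) (nat_lit 5) (nat_lit 15) (nat_lit 5) (nat_lit 16) (nat_lit 4) (nat_lit 377) (nat_lit 331) (nat_lit 192)) (XT.lf (nat_lit 0) (nat_lit 365636603486) (nat_lit 152) (nat_lit 35838978836) (nat_lit 0) (nat_lit 101593595981) (nat_lit 14) (nat_lit 5) (nat_lit 16) (nat_lit 4) (nat_lit 14) (nat_lit 4) (nat_lit 378) (nat_lit 331) (nat_lit 191))))))))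
noncomputable def xc100 : XT := (XT.nd (nat_lit 44304) (nat_lit 0) (nat_lit 1292) (XT.nd (nat_lit 43446) (nat_lit 0) (nat_lit 4864) (XT.nd (nat_lit 390) (nat_lit 152) (nat_lit 0) (XT.nd (nat_lit 156) (nat_lit 152) (nat_lit 0) (XT.nd (nat_lit 78) (nat_lit 76) (nat_lit 0) (XT.lf (nat_lit 0) (nat_lit 209073958589) (nat_lit 76) (nat_lit 295845818380) (nat_lit 76) (nat_lit 31802401591) (nat_lit 13) (nat_lit 4) (nat_lit 14) (nat_lit 5) (nat_lit 14) (nat_lit 4) (nat_lit 379) (nat_lit 331) (nat_lit 190)) (XT.lf (nat_lit 0) (nat_lit 80278895971) (nat_lit 152) (nat_lit 99472059013) (nat_lit 76) (nat_lit 393220527988) (nat_lit 12) (nat_lit 5) (nat_lit 14) (nat_lit 5) (nat_lit 13) (nat_lit 4) (nat_lit 380) (nat_lit 331) (nat_lit 189))) (XT.nd (nat_lit 78) (nat_lit 76) (nat_lit 0) (XT.lf (nat_lit 0) (nat_lit 151262595198) (nat_lit 76) (nat_lit 51326059361) (nat_lit 152) (nat_lit 409387201805) (nat_lit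 11) (nat_lit 5) (nat_lit 12) (nat_lit 5) (nat_lit 13) (nat_lit 4) (nat_lit 381) (nat_lit 331) (nat_lit 188)) (XT.nd (nat_lit 78) (nat_lit 76) (nat_lit 0) (XT.lf (nat_lit 0) (nat_lit 337808114904) (nat_lit 152) (nat_lit 229799029138) (nat_lit 0) (nat_lit 86337189616) (nat_lit 11) (nat_lit 5) (nat_lit 13) (nat_lit 4) (nat_lit 11) (nat_lit 4) (nat_lit 382) (nat_lit 331) (nat_lit 187)) (XT.lf (nat_lit 0) (nat_lit 19341300241) (nat_lit 76) (nat_lit 465670923103) (nat_lit 76) (nat_lit 214199711306) (nat_lit 10) (nat_lit 4) (nat_lit 11) (nat_lit 5) (nat_lit 11) (nat_lit 4) (nat_lit 383) (nat_lit 331) (nat_lit 186))))) (XT.nd (nat_lit 42822) (nat_lit 0) (nat_lit 6688) (XT.nd (nat_lit 78) (nat_lit 152) (nat_lit 0) (XT.lf (nat_lit 0) (nat_lit 296618300171) (nat_lit 76) (nat_lit 351376994499) (nat_lit 76) (nat_lit 99905517414) (nat_lit 10) (nat_lit 4) (nat_lit 11) (nat_lit 5) (nat_lit 11) (nat_lit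 4) (nat_lit 384) (nat_lit 331) (nat_lit 185)) (XT.nd (nat_lit 78) (nat_lit 76) (nat_lit 0) (XT.lf (nat_lit 0) (nat_lit 22778736205) (nat_lit 152) (nat_lit 204775313500) (nat_lit 76) (nat_lit 572912394785) (nat_lit 9) (nat_lit 5) (nat_lit 11) (nat_lit 5) (nat_lit 10) (nat_lit 4) (nat_lit 385) (nat_lit 331) (nat_lit 184)) (XT.lf (nat_lit 0) (nat_lit 61743521678) (nat_lit 76) (nat_lit 91044513365) (nat_lit 152) (nat_lit 704316877355) (nat_lit 8) (nat_lit 5) (nat_lit 9) (nat_lit 5) (nat_lit 10) (nat_lit 4) (nat_lit 386) (nat_lit 331) (nat_lit 183)))) (XT.nd (nat_lit 78) (nat_lit 0) (nat_lit 76) (XT.lf (nat_lit 0) (nat_lit 918487657) (nat_lit 836) (nat_lit 11512623509) (nat_lit 836) (nat_lit 11512623509) (nat_lit 96) (nat_lit 3) (nat_lit 107) (nat_lit 3) (nat_lit 107) (nat_lit 5) (nat_lit 332) (nat_lit 332) (nat_lit 236)) (XT.nd (nat_lit 78) (nat_lit 0) (nat_lit 0) (XT.lf (nat_lit 0) (nat_lit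 2334930807) (nat_lit 760) (nat_lit 36673919815) (nat_lit 836) (nat_lit 10772839805) (nat_lit 97) (nat_lit 5) (nat_lit 107) (nat_lit 5) (nat_lit 108) (nat_lit 5) (nat_lit 333) (nat_lit 332) (nat_lit 235)) (XT.lf (nat_lit 76) (nat_lit 741593793) (nat_lit 0) (nat_lit 2965260234) (nat_lit 836) (nat_lit 48078893987) (nat_lit 98) (nat_lit 5) (nat_lit 97) (nat_lit 5) (nat_lit 108) (nat_lit 5) (nat_lit 334) (nat_lit 332) (nat_lit 234)))))) (XT.nd (nat_lit 390) (nat_lit 1976) (nat_lit 0) (XT.nd (nat_lit 156) (nat_lit 0) (nat_lit 152) (XT.nd (nat_lit 78) (nat_lit 0) (nat_lit 76) (XT.lf (nat_lit 0) (nat_lit 6395281101) (nat_lit 760) (nat_lit 12032885173) (nat_lit 836) (nat_lit 35461631424) (nat_lit 98) (nat_lit 5) (nat_lit 108) (nat_lit 5) (nat_lit 109) (nat_lit 5) (nat_lit 335) (nat_lit 332) (nat_lit 233)) (XT.lf (nat_lit 0) (nat_lit 10160838205) (nat_lit 760) (nat_lit 25426539941) (nat_lit 836)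 (nat_lit 20531695039) (nat_lit 99) (nat_lit 5) (nat_lit 109) (nat_lit 5) (nat_lit 110) (nat_lit 5) (nat_lit 336) (nat_lit 332) (nat_lit 232))) (XT.nd (nat_lit 78) (nat_lit 0) (nat_lit 0) (XT.lf (nat_lit 0) (nat_lit 15107647824) (nat_lit 760) (nat_lit 39506059299) (nat_lit 836) (nat_lit 3868987469) (nat_lit 100) (nat_lit 5) (nat_lit 110) (nat_lit 5) (nat_lit 111) (nat_lit 5) (nat_lit 337) (nat_lit 332) (nat_lit 231)) (XT.nd (nat_lit 78) (nat_lit 0) (nat_lit 76) (XT.lf (nat_lit 76) (nat_lit 6422332602) (nat_lit 0) (nat_lit 15175142901) (nat_lit 836) (nat_lit 39380570507) (nat_lit 101) (nat_lit 5) (nat_lit 100) (nat_lit 5) (nat_lit 111) (nat_lit 5) (nat_lit 338) (nat_lit 332) (nat_lit 230)) (XT.lf (nat_lit 0) (nat_lit 29730988045) (nat_lit 760) (nat_lit 6644952051) (nat_lit 76) (nat_lit 27240864181) (nat_lit 101) (nat_lit 5) (nat_lit 111) (nat_lit 5) (nat_lit 102) (nat_lit 5) (nat_lit 339)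 (nat_lit 332) (nat_lit 229))))) (XT.nd (nat_lit 234) (nat_lit 760) (nat_lit 0) (XT.nd (nat_lit 78) (nat_lit 684) (nat_lit 0) (XT.lf (nat_lit 0) (nat_lit 39598141898) (nat_lit 836) (nat_lit 20201614361) (nat_lit 76) (nat_lit 6612762329) (nat_lit 91) (nat_lit 5) (nat_lit 102) (nat_lit 5) (nat_lit 92) (nat_lit 5) (nat_lit 340) (nat_lit 332) (nat_lit 228)) (XT.nd (nat_lit 78) (nat_lit 304) (nat_lit 0) (XT.lf (nat_lit 0) (nat_lit 34595891659) (nat_lit 380) (nat_lit 16927294371) (nat_lit 456) (nat_lit 17845281258) (nat_lit 86) (nat_lit 5) (nat_lit 91) (nat_lit 5) (nat_lit 92) (nat_lit 5) (nat_lit 341) (nat_lit 332) (nat_lit 227)) (XT.lf (nat_lit 0) (nat_lit 22198838548) (nat_lit 304) (nat_lit 43363798422) (nat_lit 380) (nat_lit 6940237663) (nat_lit 82) (nat_lit 5) (nat_lit 86) (nat_lit 5) (nat_lit 87) (nat_lit 5) (nat_lit 342) (nat_lit 332) (nat_lit 226)))) (XT.nd (nat_lit 78) (nat_lit 304) (nat_lit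 0) (XT.lf (nat_lit 0) (nat_lit 5773638240) (nat_lit 456) (nat_lit 66856426052) (nat_lit 76) (nat_lit 3199634235) (nat_lit 76) (nat_lit 5) (nat_lit 82) (nat_lit 5) (nat_lit 77) (nat_lit 5) (nat_lit 343) (nat_lit 332) (nat_lit 225)) (XT.nd (nat_lit 78) (nat_lit 304) (nat_lit 0) (XT.lf (nat_lit 0) (nat_lit 20884307492) (nat_lit 456) (nat_lit 5454865052) (nat_lit 76) (nat_lit 52996667679) (nat_lit 76) (nat_lit 5) (nat_lit 82) (nat_lit 5) (nat_lit 77) (nat_lit 5) (nat_lit 344) (nat_lit 332) (nat_lit 224)) (XT.lf (nat_lit 0) (nat_lit 38568722532) (nat_lit 380) (nat_lit 20590243926) (nat_lit 76) (nat_lit 23895264384) (nat_lit 72) (nat_lit 5) (nat_lit 77) (nat_lit 5) (nat_lit 73) (nat_lit 5) (nat_lit 345) (nat_lit 332) (nat_lit 223))))))) (XT.nd (nat_lit 858) (nat_lit 1292) (nat_lit 0) (XT.nd (nat_lit 390) (nat_lit 1140) (nat_lit 0) (XT.nd (nat_lit 156) (nat_lit 608) (nat_lit 0) (XT.nd (nat_lit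 78) (nat_lit 228) (nat_lit 0) (XT.lf (nat_lit 0) (nat_lit 50101328827) (nat_lit 304) (nat_lit 8887531164) (nat_lit 380) (nat_lit 28015186299) (nat_lit 68) (nat_lit 5) (nat_lit 72) (nat_lit 5) (nat_lit 73) (nat_lit 5) (nat_lit 346) (nat_lit 332) (nat_lit 222)) (XT.lf (nat_lit 0) (nat_lit 36378819846) (nat_lit 228) (nat_lit 46303368005) (nat_lit 304) (nat_lit 8505682038) (nat_lit 65) (nat_lit 5) (nat_lit 68) (nat_lit 5) (nat_lit 69) (nat_lit 5) (nat_lit 347) (nat_lit 332) (nat_lit 221))) (XT.nd (nat_lit 78) (nat_lit 228) (nat_lit 0) (XT.lf (nat_lit 0) (nat_lit 13427445006) (nat_lit 380) (nat_lit 74272157815) (nat_lit 76) (nat_lit 7933739425) (nat_lit 60) (nat_lit 5) (nat_lit 65) (nat_lit 5) (nat_lit 61) (nat_lit 5) (nat_lit 348) (nat_lit 332) (nat_lit 220)) (XT.nd (nat_lit 78) (nat_lit 0) (nat_lit 0) (XT.lf (nat_lit 0) (nat_lit 4394077770) (nat_lit 228) (nat_lit 34245192357) (nat_lit 304)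 (nat_lit 61697109657) (nat_lit 57) (nat_lit 5) (nat_lit 60) (nat_lit 5) (nat_lit 61) (nat_lit 5) (nat_lit 349) (nat_lit 332) (nat_lit 219)) (XT.lf (nat_lit 0) (nat_lit 67548090633) (nat_lit 304) (nat_lit 13735247554) (nat_lit 76) (nat_lit 24048321096) (nat_lit 57) (nat_lit 5) (nat_lit 61) (nat_lit 5) (nat_lit 58) (nat_lit 5) (nat_lit 350) (nat_lit 332) (nat_lit 218))))) (XT.nd (nat_lit 234) (nat_lit 456) (nat_lit 0) (XT.nd (nat_lit 78) (nat_lit 456) (nat_lit 0) (XT.lf (nat_lit 0) (nat_lit 76931139536) (nat_lit 228) (nat_lit 23615534915) (nat_lit 304) (nat_lit 10091035129) (nat_lit 54) (nat_lit 5) (nat_lit 57) (nat_lit 5) (nat_lit 58) (nat_lit 5) (nat_lit 351) (nat_lit 332) (nat_lit 217)) (XT.nd (nat_lit 78) (nat_lit 228) (nat_lit 0) (XT.lf (nat_lit 0) (nat_lit 20998910826) (nat_lit 228) (nat_lit 56312043221) (nat_lit 76) (nat_lit 38951007435) (nat_lit 51) (nat_lit 5) (nat_lit 54) (nat_lit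 5) (nat_lit 52) (nat_lit 5) (nat_lit 352) (nat_lit 332) (nat_lit 216)) (XT.lf (nat_lit 0) (nat_lit 40719062458) (nat_lit 228) (nat_lit 15137519947) (nat_lit 304) (nat_lit 66389597335) (nat_lit 48) (nat_lit 5) (nat_lit 51) (nat_lit 5) (nat_lit 52) (nat_lit 5) (nat_lit 353) (nat_lit 332) (nat_lit 215)))) (XT.nd (nat_lit 78) (nat_lit 304) (nat_lit 0) (XT.lf (nat_lit 0) (nat_lit 18629646384) (nat_lit 152) (nat_lit 76971795108) (nat_lit 228) (nat_lit 33002766276) (nat_lit 46) (nat_lit 5) (nat_lit 48) (nat_lit 5) (nat_lit 49) (nat_lit 5) (nat_lit 354) (nat_lit 332) (nat_lit 214)) (XT.nd (nat_lit 78) (nat_lit 228) (nat_lit 0) (XT.lf (nat_lit 0) (nat_lit 4654649205) (nat_lit 228) (nat_lit 6017765315) (nat_lit 76) (nat_lit 124711208668) (nat_lit 45) (nat_lit 5) (nat_lit 48) (nat_lit 5) (nat_lit 46) (nat_lit 5) (nat_lit 355) (nat_lit 332) (nat_lit 213)) (XT.lf (nat_lit 0) (nat_lit 46875851350) (nat_lit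 304) (nat_lit 34388617572) (nat_lit 76) (nat_lit 61278499806) (nat_lit 42) (nat_lit 5) (nat_lit 46) (nat_lit 5) (nat_lit 43) (nat_lit 5) (nat_lit 356) (nat_lit 332) (nat_lit 212)))))) (XT.nd (nat_lit 390) (nat_lit 608) (nat_lit 0) (XT.nd (nat_lit 156) (nat_lit 380) (nat_lit 0) (XT.nd (nat_lit 78) (nat_lit 152) (nat_lit 0) (XT.lf (nat_lit 0) (nat_lit 83907441480) (nat_lit 152) (nat_lit 10162722828) (nat_lit 228) (nat_lit 56125127626) (nat_lit 40) (nat_lit 5) (nat_lit 42) (nat_lit 5) (nat_lit 43) (nat_lit 5) (nat_lit 357) (nat_lit 332) (nat_lit 211)) (XT.lf (nat_lit 0) (nat_lit 55179656482) (nat_lit 152) (nat_lit 92369889988) (nat_lit 228) (nat_lit 10784779018) (nat_lit 38) (nat_lit 5) (nat_lit 40) (nat_lit 5) (nat_lit 41) (nat_lit 5) (nat_lit 358) (nat_lit 332) (nat_lit 210))) (XT.nd (nat_lit 78) (nat_lit 152) (nat_lit 0) (XT.lf (nat_lit 0) (nat_lit 21567102361) (nat_lit 152) (nat_lit 17074279982)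 (nat_lit 228) (nat_lit 128369259335) (nat_lit 35) (nat_lit 5) (nat_lit 37) (nat_lit 5) (nat_lit 38) (nat_lit 5) (nat_lit 359) (nat_lit 332) (nat_lit 209)) (XT.nd (nat_lit 78) (nat_lit 152) (nat_lit 0) (XT.lf (nat_lit 0) (nat_lit 94477239546) (nat_lit 228) (nat_lit 17556984818) (nat_lit 76) (nat_lit 64196326935) (nat_lit 35) (nat_lit 5) (nat_lit 38) (nat_lit 5) (nat_lit 36) (nat_lit 5) (nat_lit 360) (nat_lit 332) (nat_lit 208)) (XT.lf (nat_lit 0) (nat_lit 124247768145) (nat_lit 152) (nat_lit 32759038545) (nat_lit 228) (nat_lit 29069905458) (nat_lit 33) (nat_lit 5) (nat_lit 35) (nat_lit 5) (nat_lit 36) (nat_lit 5) (nat_lit 361) (nat_lit 332) (nat_lit 207))))) (XT.nd (nat_lit 234) (nat_lit 304) (nat_lit 0) (XT.nd (nat_lit 78) (nat_lit 152) (nat_lit 0) (XT.lf (nat_lit 0) (nat_lit 29410954614) (nat_lit 152) (nat_lit 113904862285) (nat_lit 76) (nat_lit 53249352815) (nat_lit 31) (nat_lit 5) (nat_lit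 33) (nat_lit 5) (nat_lit 32) (nat_lit 5) (nat_lit 362) (nat_lit 332) (nat_lit 206)) (XT.nd (nat_lit 78) (nat_lit 0) (nat_lit 0) (XT.lf (nat_lit 0) (nat_lit 33074669605) (nat_lit 152) (nat_lit 60653350572) (nat_lit 228) (nat_lit 114032046119) (nat_lit 29) (nat_lit 5) (nat_lit 31) (nat_lit 5) (nat_lit 32) (nat_lit 5) (nat_lit 363) (nat_lit 332) (nat_lit 205)) (XT.lf (nat_lit 0) (nat_lit 165653177714) (nat_lit 228) (nat_lit 24352103227) (nat_lit 76) (nat_lit 29722137727) (nat_lit 29) (nat_lit 5) (nat_lit 32) (nat_lit 5) (nat_lit 30) (nat_lit 4) (nat_lit 364) (nat_lit 332) (nat_lit 204)))) (XT.nd (nat_lit 78) (nat_lit 152) (nat_lit 0) (XT.lf (nat_lit 0) (nat_lit 13622711405) (nat_lit 152) (nat_lit 91197202792) (nat_lit 76) (nat_lit 127659690227) (nat_lit 27) (nat_lit 5) (nat_lit 29) (nat_lit 5) (nat_lit 28) (nat_lit 5) (nat_lit 365) (nat_lit 332) (nat_lit 203)) (XT.nd (nat_lit 78) (nat_lit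 0) (nat_lit 0) (XT.lf (nat_lit 0) (nat_lit 76329504737) (nat_lit 152) (nat_lit 10158878466) (nat_lit 228) (nat_lit 159636885952) (nat_lit 25) (nat_lit 5) (nat_lit 27) (nat_lit 5) (nat_lit 28) (nat_lit 5) (nat_lit 366) (nat_lit 332) (nat_lit 202)) (XT.lf (nat_lit 0) (nat_lit 168234788355) (nat_lit 228) (nat_lit 1733037699) (nat_lit 76) (nat_lit 90742187332) (nat_lit 25) (nat_lit 5) (nat_lit 28) (nat_lit 5) (nat_lit 26) (nat_lit 4) (nat_lit 367) (nat_lit 332) (nat_lit 201))))))))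
noncomputable def xc101 : XT := (XT.nd (nat_lit 44382) (nat_lit 0) (nat_lit 2508) (XT.nd (nat_lit 858) (nat_lit 380) (nat_lit 0) (XT.nd (nat_lit 390) (nat_lit 304) (nat_lit 0) (XT.nd (nat_lit 156) (nat_lit 228) (nat_lit 0) (XT.nd (nat_lit 78) (nat_lit 228) (nat_lit 0) (XT.lf (nat_lit 0) (nat_lit 185540704476) (nat_lit 76) (nat_lit 74047652762) (nat_lit 152) (nat_lit 16719807631) (nat_lit 24) (nat_lit 5) (nat_lit 25) (nat_lit 5) (nat_lit 26) (nat_lit 4) (nat_lit 368) (nat_lit 332) (nat_lit 200)) (XT.lf (nat_lit 0) (nat_lit 65056927685) (nat_lit 228) (nat_lit 196744176666) (nat_lit 76) (nat_lit 31200029562) (nat_lit 21) (nat_lit 5) (nat_lit 24) (nat_lit 5) (nat_lit 22) (nat_lit 4) (nat_lit 369) (nat_lit 332) (nat_lit 199))) (XT.nd (nat_lit 78) (nat_lit 228) (nat_lit 0) (XT.lf (nat_lit 0) (nat_lit 155652848596) (nat_lit 228) (nat_lit 11023415763) (nat_lit 76) (nat_lit 144196430220) (nat_lit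 21) (nat_lit 5) (nat_lit 24) (nat_lit 5) (nat_lit 22) (nat_lit 4) (nat_lit 370) (nat_lit 332) (nat_lit 198)) (XT.nd (nat_lit 78) (nat_lit 152) (nat_lit 0) (XT.lf (nat_lit 0) (nat_lit 195821488030) (nat_lit 76) (nat_lit 60731709735) (nat_lit 152) (nat_lit 73467944816) (nat_lit 20) (nat_lit 5) (nat_lit 21) (nat_lit 5) (nat_lit 22) (nat_lit 4) (nat_lit 371) (nat_lit 332) (nat_lit 197)) (XT.lf (nat_lit 0) (nat_lit 16515380568) (nat_lit 152) (nat_lit 280537107211) (nat_lit 76) (nat_lit 53529119727) (nat_lit 18) (nat_lit 5) (nat_lit 20) (nat_lit 5) (nat_lit 19) (nat_lit 4) (nat_lit 372) (nat_lit 332) (nat_lit 196))))) (XT.nd (nat_lit 234) (nat_lit 228) (nat_lit 0) (XT.nd (nat_lit 78) (nat_lit 76) (nat_lit 0) (XT.lf (nat_lit 0) (nat_lit 114557334726) (nat_lit 152) (nat_lit 79551764200) (nat_lit 76) (nat_lit 178445895164) (nat_lit 18) (nat_lit 5) (nat_lit 20) (nat_lit 5) (nat_lit 19) (nat_lit 4)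 (nat_lit 373) (nat_lit 332) (nat_lit 195)) (XT.nd (nat_lit 78) (nat_lit 0) (nat_lit 0) (XT.lf (nat_lit 0) (nat_lit 142058251691) (nat_lit 76) (nat_lit 80601829275) (nat_lit 152) (nat_lit 173515299007) (nat_lit 17) (nat_lit 5) (nat_lit 18) (nat_lit 5) (nat_lit 19) (nat_lit 4) (nat_lit 374) (nat_lit 332) (nat_lit 194)) (XT.lf (nat_lit 0) (nat_lit 341474548846) (nat_lit 152) (nat_lit 38057393339) (nat_lit 0) (nat_lit 42050279592) (nat_lit 17) (nat_lit 5) (nat_lit 19) (nat_lit 4) (nat_lit 17) (nat_lit 4) (nat_lit 375) (nat_lit 332) (nat_lit 193)))) (XT.nd (nat_lit 78) (nat_lit 76) (nat_lit 0) (XT.lf (nat_lit 0) (nat_lit 24667773193) (nat_lit 152) (nat_lit 248855835464) (nat_lit 76) (nat_lit 175253783417) (nat_lit 15) (nat_lit 5) (nat_lit 17) (nat_lit 5) (nat_lit 16) (nat_lit 4) (nat_lit 376) (nat_lit 332) (nat_lit 192)) (XT.nd (nat_lit 78) (nat_lit 76) (nat_lit 0) (XT.lf (nat_lit 0) (nat_lit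 135729570107) (nat_lit 152) (nat_lit 21179615917) (nat_lit 76) (nat_lit 321137783177) (nat_lit 15) (nat_lit 5) (nat_lit 17) (nat_lit 5) (nat_lit 16) (nat_lit 4) (nat_lit 377) (nat_lit 332) (nat_lit 191)) (XT.lf (nat_lit 0) (nat_lit 232139889441) (nat_lit 76) (nat_lit 27160380718) (nat_lit 152) (nat_lit 250176644483) (nat_lit 14) (nat_lit 5) (nat_lit 15) (nat_lit 5) (nat_lit 16) (nat_lit 4) (nat_lit 378) (nat_lit 332) (nat_lit 190)))))) (XT.nd (nat_lit 390) (nat_lit 152) (nat_lit 0) (XT.nd (nat_lit 156) (nat_lit 152) (nat_lit 0) (XT.nd (nat_lit 78) (nat_lit 76) (nat_lit 0) (XT.lf (nat_lit 0) (nat_lit 394894980015) (nat_lit 152) (nat_lit 38692056482) (nat_lit 0) (nat_lit 109727301634) (nat_lit 14) (nat_lit 5) (nat_lit 16) (nat_lit 4) (nat_lit 14) (nat_lit 4) (nat_lit 379) (nat_lit 332) (nat_lit 189)) (XT.lf (nat_lit 0) (nat_lit 225813305747) (nat_lit 76) (nat_lit 319507159596) (nat_lit 76)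 (nat_lit 34339130319) (nat_lit 13) (nat_lit 4) (nat_lit 14) (nat_lit 5) (nat_lit 14) (nat_lit 4) (nat_lit 380) (nat_lit 332) (nat_lit 188))) (XT.nd (nat_lit 78) (nat_lit 76) (nat_lit 0) (XT.lf (nat_lit 0) (nat_lit 86707897022) (nat_lit 152) (nat_lit 107417165281) (nat_lit 76) (nat_lit 424683803187) (nat_lit 12) (nat_lit 5) (nat_lit 14) (nat_lit 5) (nat_lit 13) (nat_lit 4) (nat_lit 381) (nat_lit 332) (nat_lit 187)) (XT.nd (nat_lit 78) (nat_lit 0) (nat_lit 0) (XT.lf (nat_lit 0) (nat_lit 163375711146) (nat_lit 76) (nat_lit 55426418687) (nat_lit 152) (nat_lit 442131474365) (nat_lit 11) (nat_lit 5) (nat_lit 12) (nat_lit 5) (nat_lit 13) (nat_lit 4) (nat_lit 382) (nat_lit 332) (nat_lit 186)) (XT.lf (nat_lit 0) (nat_lit 364838756966) (nat_lit 152) (nat_lit 248171525898) (nat_lit 0) (nat_lit 93249296427) (nat_lit 11) (nat_lit 5) (nat_lit 13) (nat_lit 4) (nat_lit 11) (nat_lit 4) (nat_lit 383) (nat_lit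 332) (nat_lit 185))))) (XT.nd (nat_lit 42900) (nat_lit 0) (nat_lit 6612) (XT.nd (nat_lit 78) (nat_lit 76) (nat_lit 0) (XT.lf (nat_lit 0) (nat_lit 20899533290) (nat_lit 76) (nat_lit 502919387508) (nat_lit 76) (nat_lit 231329681333) (nat_lit 10) (nat_lit 4) (nat_lit 11) (nat_lit 5) (nat_lit 11) (nat_lit 4) (nat_lit 384) (nat_lit 332) (nat_lit 184)) (XT.nd (nat_lit 78) (nat_lit 76) (nat_lit 0) (XT.lf (nat_lit 0) (nat_lit 320357883657) (nat_lit 76) (nat_lit 379482330500) (nat_lit 76) (nat_lit 107892396884) (nat_lit 10) (nat_lit 4) (nat_lit 11) (nat_lit 5) (nat_lit 11) (nat_lit 4) (nat_lit 385) (nat_lit 332) (nat_lit 183)) (XT.lf (nat_lit 0) (nat_lit 24606020200) (nat_lit 152) (nat_lit 221147802799) (nat_lit 76) (nat_lit 618749686725) (nat_lit 9) (nat_lit 5) (nat_lit 11) (nat_lit 5) (nat_lit 10) (nat_lit 4) (nat_lit 386) (nat_lit 332) (nat_lit 182)))) (XT.nd (nat_lit 78) (nat_lit 0) (nat_lit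 76) (XT.lf (nat_lit 0) (nat_lit 1034150658) (nat_lit 836) (nat_lit 12411460506) (nat_lit 836) (nat_lit 12411460506) (nat_lit 96) (nat_lit 3) (nat_lit 107) (nat_lit 3) (nat_lit 107) (nat_lit 5) (nat_lit 333) (nat_lit 333) (nat_lit 234)) (XT.nd (nat_lit 78) (nat_lit 0) (nat_lit 0) (XT.lf (nat_lit 0) (nat_lit 2599938325) (nat_lit 760) (nat_lit 39560810722) (nat_lit 836) (nat_lit 11599468592) (nat_lit 97) (nat_lit 5) (nat_lit 107) (nat_lit 5) (nat_lit 108) (nat_lit 5) (nat_lit 334) (nat_lit 333) (nat_lit 233)) (XT.lf (nat_lit 76) (nat_lit 845900427) (nat_lit 0) (nat_lit 3230623666) (nat_lit 836) (nat_lit 51848337517) (nat_lit 98) (nat_lit 5) (nat_lit 97) (nat_lit 5) (nat_lit 108) (nat_lit 5) (nat_lit 335) (nat_lit 333) (nat_lit 232))))))) (XT.nd (nat_lit 858) (nat_lit 2280) (nat_lit 0) (XT.nd (nat_lit 390) (nat_lit 1976) (nat_lit 0) (XT.nd (nat_lit 156) (nat_lit 0) (nat_lit 152) (XT.nd (nat_lit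 78) (nat_lit 0) (nat_lit 76) (XT.lf (nat_lit 0) (nat_lit 6974202069) (nat_lit 760) (nat_lit 12949993061) (nat_lit 836) (nat_lit 38273337981) (nat_lit 98) (nat_lit 5) (nat_lit 108) (nat_lit 5) (nat_lit 109) (nat_lit 5) (nat_lit 336) (nat_lit 333) (nat_lit 231)) (XT.lf (nat_lit 0) (nat_lit 11036394873) (nat_lit 760) (nat_lit 27413587974) (nat_lit 836) (nat_lit 22155404417) (nat_lit 99) (nat_lit 5) (nat_lit 109) (nat_lit 5) (nat_lit 110) (nat_lit 5) (nat_lit 337) (nat_lit 333) (nat_lit 230))) (XT.nd (nat_lit 78) (nat_lit 0) (nat_lit 0) (XT.lf (nat_lit 0) (nat_lit 16374794419) (nat_lit 760) (nat_lit 42618291490) (nat_lit 836) (nat_lit 4165225943) (nat_lit 100) (nat_lit 5) (nat_lit 110) (nat_lit 5) (nat_lit 111) (nat_lit 5) (nat_lit 338) (nat_lit 333) (nat_lit 229)) (XT.nd (nat_lit 78) (nat_lit 0) (nat_lit 76) (XT.lf (nat_lit 76) (nat_lit 6982274766) (nat_lit 0) (nat_lit 16397918255) (nat_lit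 836) (nat_lit 42473284428) (nat_lit 101) (nat_lit 5) (nat_lit 100) (nat_lit 5) (nat_lit 111) (nat_lit 5) (nat_lit 339) (nat_lit 333) (nat_lit 228)) (XT.lf (nat_lit 0) (nat_lit 32160191763) (nat_lit 760) (nat_lit 7131080968) (nat_lit 76) (nat_lit 29412278296) (nat_lit 101) (nat_lit 5) (nat_lit 111) (nat_lit 5) (nat_lit 102) (nat_lit 5) (nat_lit 340) (nat_lit 333) (nat_lit 227))))) (XT.nd (nat_lit 234) (nat_lit 760) (nat_lit 0) (XT.nd (nat_lit 78) (nat_lit 684) (nat_lit 0) (XT.lf (nat_lit 0) (nat_lit 42813574690) (nat_lit 836) (nat_lit 21771748211) (nat_lit 76) (nat_lit 7137761286) (nat_lit 91) (nat_lit 5) (nat_lit 102) (nat_lit 5) (nat_lit 92) (nat_lit 5) (nat_lit 341) (nat_lit 333) (nat_lit 226)) (XT.nd (nat_lit 78) (nat_lit 304) (nat_lit 0) (XT.lf (nat_lit 0) (nat_lit 37407559391) (nat_lit 380) (nat_lit 18282225319) (nat_lit 456) (nat_lit 19225870166) (nat_lit 86) (nat_lit 5) (nat_lit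 91) (nat_lit 5) (nat_lit 92) (nat_lit 5) (nat_lit 342) (nat_lit 333) (nat_lit 225)) (XT.lf (nat_lit 0) (nat_lit 24019031447) (nat_lit 304) (nat_lit 46830726544) (nat_lit 380) (nat_lit 7451192401) (nat_lit 82) (nat_lit 5) (nat_lit 86) (nat_lit 5) (nat_lit 87) (nat_lit 5) (nat_lit 343) (nat_lit 333) (nat_lit 224)))) (XT.nd (nat_lit 78) (nat_lit 304) (nat_lit 0) (XT.lf (nat_lit 0) (nat_lit 6275939321) (nat_lit 456) (nat_lit 72159171739) (nat_lit 76) (nat_lit 3458899896) (nat_lit 76) (nat_lit 5) (nat_lit 82) (nat_lit 5) (nat_lit 77) (nat_lit 5) (nat_lit 344) (nat_lit 333) (nat_lit 223)) (XT.nd (nat_lit 78) (nat_lit 304) (nat_lit 0) (XT.lf (nat_lit 0) (nat_lit 22592468777) (nat_lit 456) (nat_lit 5848876111) (nat_lit 76) (nat_lit 57239451947) (nat_lit 76) (nat_lit 5) (nat_lit 82) (nat_lit 5) (nat_lit 77) (nat_lit 5) (nat_lit 345) (nat_lit 333) (nat_lit 222)) (XT.lf (nat_lit 0) (nat_lit 41689580402)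 (nat_lit 380) (nat_lit 22195208372) (nat_lit 76) (nat_lit 25811975707) (nat_lit 72) (nat_lit 5) (nat_lit 77) (nat_lit 5) (nat_lit 73) (nat_lit 5) (nat_lit 346) (nat_lit 333) (nat_lit 221)))))) (XT.nd (nat_lit 390) (nat_lit 1140) (nat_lit 0) (XT.nd (nat_lit 156) (nat_lit 608) (nat_lit 0) (XT.nd (nat_lit 78) (nat_lit 228) (nat_lit 0) (XT.lf (nat_lit 0) (nat_lit 54149853847) (nat_lit 304) (nat_lit 9591486795) (nat_lit 380) (nat_lit 30221326660) (nat_lit 68) (nat_lit 5) (nat_lit 72) (nat_lit 5) (nat_lit 73) (nat_lit 5) (nat_lit 347) (nat_lit 333) (nat_lit 220)) (XT.lf (nat_lit 0) (nat_lit 39329311053) (nat_lit 228) (nat_lit 49999080971) (nat_lit 304) (nat_lit 9152894427) (nat_lit 65) (nat_lit 5) (nat_lit 68) (nat_lit 5) (nat_lit 69) (nat_lit 5) (nat_lit 348) (nat_lit 333) (nat_lit 219))) (XT.nd (nat_lit 78) (nat_lit 228) (nat_lit 0) (XT.lf (nat_lit 0) (nat_lit 14532193414) (nat_lit 380) (nat_lit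 80173038040) (nat_lit 76) (nat_lit 8577222692) (nat_lit 60) (nat_lit 5) (nat_lit 65) (nat_lit 5) (nat_lit 61) (nat_lit 5) (nat_lit 349) (nat_lit 333) (nat_lit 218)) (XT.nd (nat_lit 78) (nat_lit 0) (nat_lit 0) (XT.lf (nat_lit 0) (nat_lit 4784719259) (nat_lit 228) (nat_lit 36974592814) (nat_lit 304) (nat_lit 66602507299) (nat_lit 57) (nat_lit 5) (nat_lit 60) (nat_lit 5) (nat_lit 61) (nat_lit 5) (nat_lit 350) (nat_lit 333) (nat_lit 217)) (XT.lf (nat_lit 0) (nat_lit 72978845123) (nat_lit 304) (nat_lit 14796635341) (nat_lit 76) (nat_lit 25981342331) (nat_lit 57) (nat_lit 5) (nat_lit 61) (nat_lit 5) (nat_lit 58) (nat_lit 5) (nat_lit 351) (nat_lit 333) (nat_lit 216))))) (XT.nd (nat_lit 234) (nat_lit 456) (nat_lit 0) (XT.nd (nat_lit 78) (nat_lit 456) (nat_lit 0) (XT.lf (nat_lit 0) (nat_lit 83121435967) (nat_lit 228) (nat_lit 25494445572) (nat_lit 304) (nat_lit 10871549051) (nat_lit 54) (nat_lit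 5) (nat_lit 57) (nat_lit 5) (nat_lit 58) (nat_lit 5) (nat_lit 352) (nat_lit 333) (nat_lit 215)) (XT.nd (nat_lit 78) (nat_lit 228) (nat_lit 0) (XT.lf (nat_lit 0) (nat_lit 22703528918) (nat_lit 228) (nat_lit 60780835966) (nat_lit 76) (nat_lit 42077298766) (nat_lit 51) (nat_lit 5) (nat_lit 54) (nat_lit 5) (nat_lit 52) (nat_lit 5) (nat_lit 353) (nat_lit 333) (nat_lit 214)) (XT.lf (nat_lit 0) (nat_lit 44011186233) (nat_lit 228) (nat_lit 16337338158) (nat_lit 304) (nat_lit 71676160913) (nat_lit 48) (nat_lit 5) (nat_lit 51) (nat_lit 5) (nat_lit 52) (nat_lit 5) (nat_lit 354) (nat_lit 333) (nat_lit 213)))) (XT.nd (nat_lit 78) (nat_lit 304) (nat_lit 0) (XT.lf (nat_lit 0) (nat_lit 20154083388) (nat_lit 152) (nat_lit 83117847869) (nat_lit 228) (nat_lit 35619477702) (nat_lit 46) (nat_lit 5) (nat_lit 48) (nat_lit 5) (nat_lit 49) (nat_lit 5) (nat_lit 355) (nat_lit 333) (nat_lit 212)) (XT.nd (nat_lit 78)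 (nat_lit 228) (nat_lit 0) (XT.lf (nat_lit 0) (nat_lit 5048092820) (nat_lit 228) (nat_lit 6466933143) (nat_lit 76) (nat_lit 134698218761) (nat_lit 45) (nat_lit 5) (nat_lit 48) (nat_lit 5) (nat_lit 46) (nat_lit 5) (nat_lit 356) (nat_lit 333) (nat_lit 211)) (XT.lf (nat_lit 0) (nat_lit 50646081497) (nat_lit 304) (nat_lit 37108011548) (nat_lit 76) (nat_lit 66191291436) (nat_lit 42) (nat_lit 5) (nat_lit 46) (nat_lit 5) (nat_lit 43) (nat_lit 5) (nat_lit 357) (nat_lit 333) (nat_lit 210))))))))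
noncomputable def xc102 : XT := (XT.nd (nat_lit 1716) (nat_lit 304) (nat_lit 0) (XT.nd (nat_lit 858) (nat_lit 836) (nat_lit 0) (XT.nd (nat_lit 390) (nat_lit 608) (nat_lit 0) (XT.nd (nat_lit 156) (nat_lit 380) (nat_lit 0) (XT.nd (nat_lit 78) (nat_lit 152) (nat_lit 0) (XT.lf (nat_lit 0) (nat_lit 90650354784) (nat_lit 152) (nat_lit 10964564573) (nat_lit 228) (nat_lit 60595026205) (nat_lit 40) (nat_lit 5) (nat_lit 42) (nat_lit 5) (nat_lit 43) (nat_lit 5) (nat_lit 358) (nat_lit 333) (nat_lit 209)) (XT.lf (nat_lit 0) (nat_lit 59623790081) (nat_lit 152) (nat_lit 99748070310) (nat_lit 228) (nat_lit 11628281930) (nat_lit 38) (nat_lit 5) (nat_lit 40) (nat_lit 5) (nat_lit 41) (nat_lit 5) (nat_lit 359) (nat_lit 333) (nat_lit 208))) (XT.nd (nat_lit 78) (nat_lit 152) (nat_lit 0) (XT.lf (nat_lit 0) (nat_lit 23321539150) (nat_lit 152) (nat_lit 18428887575) (nat_lit 228) (nat_lit 138620169283) (nat_lit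 35) (nat_lit 5) (nat_lit 37) (nat_lit 5) (nat_lit 38) (nat_lit 5) (nat_lit 360) (nat_lit 333) (nat_lit 207)) (XT.nd (nat_lit 78) (nat_lit 152) (nat_lit 0) (XT.lf (nat_lit 0) (nat_lit 102052002749) (nat_lit 228) (nat_lit 18933961532) (nat_lit 76) (nat_lit 69342192369) (nat_lit 35) (nat_lit 5) (nat_lit 38) (nat_lit 5) (nat_lit 36) (nat_lit 5) (nat_lit 361) (nat_lit 333) (nat_lit 206)) (XT.lf (nat_lit 0) (nat_lit 134213972985) (nat_lit 152) (nat_lit 35369145751) (nat_lit 228) (nat_lit 31378933166) (nat_lit 33) (nat_lit 5) (nat_lit 35) (nat_lit 5) (nat_lit 36) (nat_lit 5) (nat_lit 362) (nat_lit 333) (nat_lit 205))))) (XT.nd (nat_lit 234) (nat_lit 304) (nat_lit 0) (XT.nd (nat_lit 78) (nat_lit 152) (nat_lit 0) (XT.lf (nat_lit 0) (nat_lit 31779243836) (nat_lit 152) (nat_lit 122990893021) (nat_lit 76) (nat_lit 57519467993) (nat_lit 31) (nat_lit 5) (nat_lit 33) (nat_lit 5) (nat_lit 32) (nat_lit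 5) (nat_lit 363) (nat_lit 333) (nat_lit 204)) (XT.nd (nat_lit 78) (nat_lit 0) (nat_lit 0) (XT.lf (nat_lit 0) (nat_lit 35745855923) (nat_lit 152) (nat_lit 65495070670) (nat_lit 228) (nat_lit 123139204546) (nat_lit 29) (nat_lit 5) (nat_lit 31) (nat_lit 5) (nat_lit 32) (nat_lit 5) (nat_lit 364) (nat_lit 333) (nat_lit 203)) (XT.lf (nat_lit 0) (nat_lit 178919162937) (nat_lit 228) (nat_lit 26276393219) (nat_lit 76) (nat_lit 32109362771) (nat_lit 29) (nat_lit 5) (nat_lit 32) (nat_lit 5) (nat_lit 30) (nat_lit 4) (nat_lit 365) (nat_lit 333) (nat_lit 202)))) (XT.nd (nat_lit 78) (nat_lit 152) (nat_lit 0) (XT.lf (nat_lit 0) (nat_lit 14725819078) (nat_lit 152) (nat_lit 98469693122) (nat_lit 76) (nat_lit 137881790144) (nat_lit 27) (nat_lit 5) (nat_lit 29) (nat_lit 5) (nat_lit 28) (nat_lit 5) (nat_lit 366) (nat_lit 333) (nat_lit 201)) (XT.nd (nat_lit 78) (nat_lit 0) (nat_lit 0) (XT.lf (nat_lit 0) (nat_lit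 82458139033) (nat_lit 152) (nat_lit 10961968845) (nat_lit 228) (nat_lit 172394544649) (nat_lit 25) (nat_lit 5) (nat_lit 27) (nat_lit 5) (nat_lit 28) (nat_lit 5) (nat_lit 367) (nat_lit 333) (nat_lit 200)) (XT.lf (nat_lit 0) (nat_lit 181705427175) (nat_lit 228) (nat_lit 1850604896) (nat_lit 76) (nat_lit 98010184543) (nat_lit 25) (nat_lit 5) (nat_lit 28) (nat_lit 5) (nat_lit 26) (nat_lit 4) (nat_lit 368) (nat_lit 333) (nat_lit 199)))))) (XT.nd (nat_lit 390) (nat_lit 304) (nat_lit 0) (XT.nd (nat_lit 156) (nat_lit 228) (nat_lit 0) (XT.nd (nat_lit 78) (nat_lit 228) (nat_lit 0) (XT.lf (nat_lit 0) (nat_lit 200404120723) (nat_lit 76) (nat_lit 79962597395) (nat_lit 152) (nat_lit 18045530645) (nat_lit 24) (nat_lit 5) (nat_lit 25) (nat_lit 5) (nat_lit 26) (nat_lit 4) (nat_lit 369) (nat_lit 333) (nat_lit 198)) (XT.lf (nat_lit 0) (nat_lit 70272556178) (nat_lit 228) (nat_lit 212463644618) (nat_lit 76)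 (nat_lit 33704465988) (nat_lit 21) (nat_lit 5) (nat_lit 24) (nat_lit 5) (nat_lit 22) (nat_lit 4) (nat_lit 370) (nat_lit 333) (nat_lit 197))) (XT.nd (nat_lit 78) (nat_lit 228) (nat_lit 0) (XT.lf (nat_lit 0) (nat_lit 168115330446) (nat_lit 228) (nat_lit 11886709227) (nat_lit 76) (nat_lit 155739953953) (nat_lit 21) (nat_lit 5) (nat_lit 24) (nat_lit 5) (nat_lit 22) (nat_lit 4) (nat_lit 371) (nat_lit 333) (nat_lit 196)) (XT.nd (nat_lit 78) (nat_lit 152) (nat_lit 0) (XT.lf (nat_lit 0) (nat_lit 211504979414) (nat_lit 76) (nat_lit 65582246058) (nat_lit 152) (nat_lit 79335116383) (nat_lit 20) (nat_lit 5) (nat_lit 21) (nat_lit 5) (nat_lit 22) (nat_lit 4) (nat_lit 372) (nat_lit 333) (nat_lit 195)) (XT.lf (nat_lit 0) (nat_lit 17846203451) (nat_lit 152) (nat_lit 302962404257) (nat_lit 76) (nat_lit 57819045657) (nat_lit 18) (nat_lit 5) (nat_lit 20) (nat_lit 5) (nat_lit 19) (nat_lit 4) (nat_lit 373) (nat_lit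 333) (nat_lit 194))))) (XT.nd (nat_lit 234) (nat_lit 228) (nat_lit 0) (XT.nd (nat_lit 78) (nat_lit 76) (nat_lit 0) (XT.lf (nat_lit 0) (nat_lit 123730803391) (nat_lit 152) (nat_lit 85899542807) (nat_lit 76) (nat_lit 192728600436) (nat_lit 18) (nat_lit 5) (nat_lit 20) (nat_lit 5) (nat_lit 19) (nat_lit 4) (nat_lit 374) (nat_lit 333) (nat_lit 193)) (XT.nd (nat_lit 78) (nat_lit 0) (nat_lit 0) (XT.lf (nat_lit 0) (nat_lit 153438563259) (nat_lit 76) (nat_lit 87042792515) (nat_lit 152) (nat_lit 187387628504) (nat_lit 17) (nat_lit 5) (nat_lit 18) (nat_lit 5) (nat_lit 19) (nat_lit 4) (nat_lit 375) (nat_lit 333) (nat_lit 192)) (XT.lf (nat_lit 0) (nat_lit 368800457642) (nat_lit 152) (nat_lit 41087202050) (nat_lit 0) (nat_lit 45420740105) (nat_lit 17) (nat_lit 5) (nat_lit 19) (nat_lit 4) (nat_lit 17) (nat_lit 4) (nat_lit 376) (nat_lit 333) (nat_lit 191)))) (XT.nd (nat_lit 78) (nat_lit 76) (nat_lit 0)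 (XT.lf (nat_lit 0) (nat_lit 26648898633) (nat_lit 152) (nat_lit 268749905086) (nat_lit 76) (nat_lit 189280392357) (nat_lit 15) (nat_lit 5) (nat_lit 17) (nat_lit 5) (nat_lit 16) (nat_lit 4) (nat_lit 377) (nat_lit 333) (nat_lit 190)) (XT.nd (nat_lit 78) (nat_lit 76) (nat_lit 0) (XT.lf (nat_lit 0) (nat_lit 146595068664) (nat_lit 152) (nat_lit 22860654436) (nat_lit 76) (nat_lit 346834644967) (nat_lit 15) (nat_lit 5) (nat_lit 17) (nat_lit 5) (nat_lit 16) (nat_lit 4) (nat_lit 378) (nat_lit 333) (nat_lit 189)) (XT.lf (nat_lit 0) (nat_lit 250723832012) (nat_lit 76) (nat_lit 29327263426) (nat_lit 152) (nat_lit 270183630318) (nat_lit 14) (nat_lit 5) (nat_lit 15) (nat_lit 5) (nat_lit 16) (nat_lit 4) (nat_lit 379) (nat_lit 333) (nat_lit 188))))))) (XT.nd (nat_lit 43602) (nat_lit 0) (nat_lit 4408) (XT.nd (nat_lit 390) (nat_lit 76) (nat_lit 0) (XT.nd (nat_lit 156) (nat_lit 152) (nat_lit 0) (XT.nd (nat_lit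 78) (nat_lit 76) (nat_lit 0) (XT.lf (nat_lit 0) (nat_lit 426492964091) (nat_lit 152) (nat_lit 41775383398) (nat_lit 0) (nat_lit 118510816676) (nat_lit 14) (nat_lit 5) (nat_lit 16) (nat_lit 4) (nat_lit 14) (nat_lit 4) (nat_lit 380) (nat_lit 333) (nat_lit 187)) (XT.lf (nat_lit 0) (nat_lit 243889884670) (nat_lit 76) (nat_lit 345062310334) (nat_lit 76) (nat_lit 37079862083) (nat_lit 13) (nat_lit 4) (nat_lit 14) (nat_lit 5) (nat_lit 14) (nat_lit 4) (nat_lit 381) (nat_lit 333) (nat_lit 186))) (XT.nd (nat_lit 78) (nat_lit 76) (nat_lit 0) (XT.lf (nat_lit 0) (nat_lit 93650263844) (nat_lit 152) (nat_lit 115999685921) (nat_lit 76) (nat_lit 458663336796) (nat_lit 12) (nat_lit 5) (nat_lit 14) (nat_lit 5) (nat_lit 13) (nat_lit 4) (nat_lit 382) (nat_lit 333) (nat_lit 185)) (XT.nd (nat_lit 78) (nat_lit 0) (nat_lit 0) (XT.lf (nat_lit 0) (nat_lit 176456148981) (nat_lit 76) (nat_lit 59855623555) (nat_lit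 152) (nat_lit 477496245071) (nat_lit 11) (nat_lit 5) (nat_lit 12) (nat_lit 5) (nat_lit 13) (nat_lit 4) (nat_lit 383) (nat_lit 333) (nat_lit 184)) (XT.lf (nat_lit 0) (nat_lit 394030995443) (nat_lit 152) (nat_lit 268015452384) (nat_lit 0) (nat_lit 100713639697) (nat_lit 11) (nat_lit 5) (nat_lit 13) (nat_lit 4) (nat_lit 11) (nat_lit 4) (nat_lit 384) (nat_lit 333) (nat_lit 183))))) (XT.nd (nat_lit 42978) (nat_lit 0) (nat_lit 6612) (XT.nd (nat_lit 78) (nat_lit 0) (nat_lit 0) (XT.lf (nat_lit 0) (nat_lit 22580865835) (nat_lit 76) (nat_lit 543148472251) (nat_lit 76) (nat_lit 249830905912) (nat_lit 10) (nat_lit 4) (nat_lit 11) (nat_lit 5) (nat_lit 11) (nat_lit 4) (nat_lit 385) (nat_lit 333) (nat_lit 182)) (XT.nd (nat_lit 42822) (nat_lit 0) (nat_lit 6536) (XT.lf (nat_lit 0) (nat_lit 345995190166) (nat_lit 76) (nat_lit 409836781516) (nat_lit 76) (nat_lit 116519020183) (nat_lit 10) (nat_lit 4) (nat_lit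 11) (nat_lit 5) (nat_lit 11) (nat_lit 4) (nat_lit 386) (nat_lit 333) (nat_lit 181)) (XT.lf (nat_lit 0) (nat_lit 1153048682) (nat_lit 836) (nat_lit 13385367673) (nat_lit 836) (nat_lit 13385367673) (nat_lit 96) (nat_lit 3) (nat_lit 107) (nat_lit 3) (nat_lit 107) (nat_lit 5) (nat_lit 334) (nat_lit 334) (nat_lit 232)))) (XT.nd (nat_lit 78) (nat_lit 0) (nat_lit 0) (XT.lf (nat_lit 0) (nat_lit 2874988478) (nat_lit 760) (nat_lit 42685361211) (nat_lit 836) (nat_lit 12497249127) (nat_lit 97) (nat_lit 5) (nat_lit 107) (nat_lit 5) (nat_lit 108) (nat_lit 5) (nat_lit 335) (nat_lit 334) (nat_lit 231)) (XT.nd (nat_lit 78) (nat_lit 0) (nat_lit 76) (XT.lf (nat_lit 76) (nat_lit 952134816) (nat_lit 0) (nat_lit 3513201315) (nat_lit 836) (nat_lit 55930302608) (nat_lit 98) (nat_lit 5) (nat_lit 97) (nat_lit 5) (nat_lit 108) (nat_lit 5) (nat_lit 336) (nat_lit 334) (nat_lit 230)) (XT.lf (nat_lit 0) (nat_lit 7589835835)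 (nat_lit 760) (nat_lit 13946963934) (nat_lit 836) (nat_lit 41313579541) (nat_lit 98) (nat_lit 5) (nat_lit 108) (nat_lit 5) (nat_lit 109) (nat_lit 5) (nat_lit 337) (nat_lit 334) (nat_lit 229)))))) (XT.nd (nat_lit 390) (nat_lit 1748) (nat_lit 0) (XT.nd (nat_lit 156) (nat_lit 608) (nat_lit 0) (XT.nd (nat_lit 78) (nat_lit 0) (nat_lit 76) (XT.lf (nat_lit 0) (nat_lit 11973052701) (nat_lit 760) (nat_lit 29566315648) (nat_lit 836) (nat_lit 23911696316) (nat_lit 99) (nat_lit 5) (nat_lit 109) (nat_lit 5) (nat_lit 110) (nat_lit 5) (nat_lit 338) (nat_lit 334) (nat_lit 228)) (XT.lf (nat_lit 0) (nat_lit 17734962102) (nat_lit 760) (nat_lit 45986386022) (nat_lit 836) (nat_lit 4487058110) (nat_lit 100) (nat_lit 5) (nat_lit 110) (nat_lit 5) (nat_lit 111) (nat_lit 5) (nat_lit 339) (nat_lit 334) (nat_lit 227))) (XT.nd (nat_lit 78) (nat_lit 684) (nat_lit 0) (XT.lf (nat_lit 76) (nat_lit 7580427698) (nat_lit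 0) (nat_lit 17717265365) (nat_lit 836) (nat_lit 45821651537) (nat_lit 101) (nat_lit 5) (nat_lit 100) (nat_lit 5) (nat_lit 111) (nat_lit 5) (nat_lit 340) (nat_lit 334) (nat_lit 226)) (XT.nd (nat_lit 78) (nat_lit 760) (nat_lit 0) (XT.lf (nat_lit 0) (nat_lit 34776495336) (nat_lit 760) (nat_lit 7662586608) (nat_lit 76) (nat_lit 31758526146) (nat_lit 101) (nat_lit 5) (nat_lit 111) (nat_lit 5) (nat_lit 102) (nat_lit 5) (nat_lit 341) (nat_lit 334) (nat_lit 225)) (XT.lf (nat_lit 0) (nat_lit 46279454082) (nat_lit 836) (nat_lit 23474054514) (nat_lit 76) (nat_lit 7705333947) (nat_lit 91) (nat_lit 5) (nat_lit 102) (nat_lit 5) (nat_lit 92) (nat_lit 5) (nat_lit 342) (nat_lit 334) (nat_lit 224))))) (XT.nd (nat_lit 234) (nat_lit 608) (nat_lit 0) (XT.nd (nat_lit 78) (nat_lit 760) (nat_lit 0) (XT.lf (nat_lit 0) (nat_lit 40437883962) (nat_lit 380) (nat_lit 19745444118) (nat_lit 456) (nat_lit 20723616054)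 (nat_lit 86) (nat_lit 5) (nat_lit 91) (nat_lit 5) (nat_lit 92) (nat_lit 5) (nat_lit 343) (nat_lit 334) (nat_lit 223)) (XT.nd (nat_lit 78) (nat_lit 456) (nat_lit 0) (XT.lf (nat_lit 0) (nat_lit 25978521910) (nat_lit 304) (nat_lit 50575319311) (nat_lit 380) (nat_lit 8009338312) (nat_lit 82) (nat_lit 5) (nat_lit 86) (nat_lit 5) (nat_lit 87) (nat_lit 5) (nat_lit 344) (nat_lit 334) (nat_lit 222)) (XT.lf (nat_lit 0) (nat_lit 6812659546) (nat_lit 456) (nat_lit 77892666454) (nat_lit 76) (nat_lit 3738436753) (nat_lit 76) (nat_lit 5) (nat_lit 82) (nat_lit 5) (nat_lit 77) (nat_lit 5) (nat_lit 345) (nat_lit 334) (nat_lit 221)))) (XT.nd (nat_lit 78) (nat_lit 608) (nat_lit 0) (XT.lf (nat_lit 0) (nat_lit 24431945057) (nat_lit 456) (nat_lit 6280453770) (nat_lit 76) (nat_lit 61821223718) (nat_lit 76) (nat_lit 5) (nat_lit 82) (nat_lit 5) (nat_lit 77) (nat_lit 5) (nat_lit 346) (nat_lit 334) (nat_lit 220))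 (XT.nd (nat_lit 78) (nat_lit 304) (nat_lit 0) (XT.lf (nat_lit 0) (nat_lit 45055062392) (nat_lit 380) (nat_lit 23934598132) (nat_lit 76) (nat_lit 27881297765) (nat_lit 72) (nat_lit 5) (nat_lit 77) (nat_lit 5) (nat_lit 73) (nat_lit 5) (nat_lit 347) (nat_lit 334) (nat_lit 219)) (XT.lf (nat_lit 0) (nat_lit 58516494688) (nat_lit 304) (nat_lit 10352764190) (nat_lit 380) (nat_lit 32608962026) (nat_lit 68) (nat_lit 5) (nat_lit 72) (nat_lit 5) (nat_lit 73) (nat_lit 5) (nat_lit 348) (nat_lit 334) (nat_lit 218))))))))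
noncomputable def xc103 : XT := (XT.nd (nat_lit 1716) (nat_lit 1064) (nat_lit 0) (XT.nd (nat_lit 858) (nat_lit 1216) (nat_lit 0) (XT.nd (nat_lit 390) (nat_lit 1064) (nat_lit 0) (XT.nd (nat_lit 156) (nat_lit 456) (nat_lit 0) (XT.nd (nat_lit 78) (nat_lit 380) (nat_lit 0) (XT.lf (nat_lit 0) (nat_lit 42510108629) (nat_lit 228) (nat_lit 53991671650) (nat_lit 304) (nat_lit 9856626175) (nat_lit 65) (nat_lit 5) (nat_lit 68) (nat_lit 5) (nat_lit 69) (nat_lit 5) (nat_lit 349) (nat_lit 334) (nat_lit 217)) (XT.lf (nat_lit 0) (nat_lit 15720962994) (nat_lit 380) (nat_lit 86551822440) (nat_lit 76) (nat_lit 9270931468) (nat_lit 60) (nat_lit 5) (nat_lit 65) (nat_lit 5) (nat_lit 61) (nat_lit 5) (nat_lit 350) (nat_lit 334) (nat_lit 216))) (XT.nd (nat_lit 78) (nat_lit 228) (nat_lit 0) (XT.lf (nat_lit 0) (nat_lit 5201031837) (nat_lit 228) (nat_lit 39923802581) (nat_lit 304) (nat_lit 71904669534) (nat_lit 57)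 (nat_lit 5) (nat_lit 60) (nat_lit 5) (nat_lit 61) (nat_lit 5) (nat_lit 351) (nat_lit 334) (nat_lit 215)) (XT.nd (nat_lit 78) (nat_lit 228) (nat_lit 0) (XT.lf (nat_lit 0) (nat_lit 78840221354) (nat_lit 304) (nat_lit 15948274247) (nat_lit 76) (nat_lit 28067699123) (nat_lit 57) (nat_lit 5) (nat_lit 61) (nat_lit 5) (nat_lit 58) (nat_lit 5) (nat_lit 352) (nat_lit 334) (nat_lit 214)) (XT.lf (nat_lit 0) (nat_lit 89801848090) (nat_lit 228) (nat_lit 27525143076) (nat_lit 304) (nat_lit 11718322967) (nat_lit 54) (nat_lit 5) (nat_lit 57) (nat_lit 5) (nat_lit 58) (nat_lit 5) (nat_lit 353) (nat_lit 334) (nat_lit 213))))) (XT.nd (nat_lit 234) (nat_lit 456) (nat_lit 0) (XT.nd (nat_lit 78) (nat_lit 380) (nat_lit 0) (XT.lf (nat_lit 0) (nat_lit 24540991981) (nat_lit 228) (nat_lit 65612292286) (nat_lit 76) (nat_lit 45452236727) (nat_lit 51) (nat_lit 5) (nat_lit 54) (nat_lit 5) (nat_lit 52) (nat_lit 5) (nat_lit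 354) (nat_lit 334) (nat_lit 212)) (XT.nd (nat_lit 78) (nat_lit 152) (nat_lit 0) (XT.lf (nat_lit 0) (nat_lit 47561744007) (nat_lit 228) (nat_lit 17634737261) (nat_lit 304) (nat_lit 77389159642) (nat_lit 48) (nat_lit 5) (nat_lit 51) (nat_lit 5) (nat_lit 52) (nat_lit 5) (nat_lit 355) (nat_lit 334) (nat_lit 211)) (XT.lf (nat_lit 0) (nat_lit 21795615556) (nat_lit 152) (nat_lit 89757252681) (nat_lit 228) (nat_lit 38448879988) (nat_lit 46) (nat_lit 5) (nat_lit 48) (nat_lit 5) (nat_lit 49) (nat_lit 5) (nat_lit 356) (nat_lit 334) (nat_lit 210)))) (XT.nd (nat_lit 78) (nat_lit 380) (nat_lit 0) (XT.lf (nat_lit 0) (nat_lit 5470005814) (nat_lit 228) (nat_lit 6956635704) (nat_lit 76) (nat_lit 145482746872) (nat_lit 45) (nat_lit 5) (nat_lit 48) (nat_lit 5) (nat_lit 46) (nat_lit 5) (nat_lit 357) (nat_lit 334) (nat_lit 209)) (XT.nd (nat_lit 78) (nat_lit 152) (nat_lit 0) (XT.lf (nat_lit 0) (nat_lit 54715053715)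 (nat_lit 304) (nat_lit 40049478750) (nat_lit 76) (nat_lit 71495606793) (nat_lit 42) (nat_lit 5) (nat_lit 46) (nat_lit 5) (nat_lit 43) (nat_lit 5) (nat_lit 358) (nat_lit 334) (nat_lit 208)) (XT.lf (nat_lit 0) (nat_lit 97928375952) (nat_lit 152) (nat_lit 11832148049) (nat_lit 228) (nat_lit 65425385820) (nat_lit 40) (nat_lit 5) (nat_lit 42) (nat_lit 5) (nat_lit 43) (nat_lit 5) (nat_lit 359) (nat_lit 334) (nat_lit 207)))))) (XT.nd (nat_lit 390) (nat_lit 532) (nat_lit 0) (XT.nd (nat_lit 156) (nat_lit 304) (nat_lit 0) (XT.nd (nat_lit 78) (nat_lit 228) (nat_lit 0) (XT.lf (nat_lit 0) (nat_lit 64419208616) (nat_lit 152) (nat_lit 107718132947) (nat_lit 228) (nat_lit 12542015498) (nat_lit 38) (nat_lit 5) (nat_lit 40) (nat_lit 5) (nat_lit 41) (nat_lit 5) (nat_lit 360) (nat_lit 334) (nat_lit 206)) (XT.lf (nat_lit 0) (nat_lit 25212183921) (nat_lit 152) (nat_lit 19893480812) (nat_lit 228) (nat_lit 149693809919)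 (nat_lit 35) (nat_lit 5) (nat_lit 37) (nat_lit 5) (nat_lit 38) (nat_lit 5) (nat_lit 361) (nat_lit 334) (nat_lit 205))) (XT.nd (nat_lit 78) (nat_lit 304) (nat_lit 0) (XT.lf (nat_lit 0) (nat_lit 110230381109) (nat_lit 228) (nat_lit 20425031275) (nat_lit 76) (nat_lit 74898277703) (nat_lit 35) (nat_lit 5) (nat_lit 38) (nat_lit 5) (nat_lit 36) (nat_lit 5) (nat_lit 362) (nat_lit 334) (nat_lit 204)) (XT.nd (nat_lit 78) (nat_lit 152) (nat_lit 0) (XT.lf (nat_lit 0) (nat_lit 144973710326) (nat_lit 152) (nat_lit 38189576008) (nat_lit 228) (nat_lit 33875046234) (nat_lit 33) (nat_lit 5) (nat_lit 35) (nat_lit 5) (nat_lit 36) (nat_lit 5) (nat_lit 363) (nat_lit 334) (nat_lit 203)) (XT.lf (nat_lit 0) (nat_lit 34334797381) (nat_lit 152) (nat_lit 132807566515) (nat_lit 76) (nat_lit 62129741955) (nat_lit 31) (nat_lit 5) (nat_lit 33) (nat_lit 5) (nat_lit 32) (nat_lit 5) (nat_lit 364) (nat_lit 334) (nat_lit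 202))))) (XT.nd (nat_lit 234) (nat_lit 228) (nat_lit 0) (XT.nd (nat_lit 78) (nat_lit 152) (nat_lit 0) (XT.lf (nat_lit 0) (nat_lit 38627140266) (nat_lit 152) (nat_lit 70725633159) (nat_lit 228) (nat_lit 132977133379) (nat_lit 29) (nat_lit 5) (nat_lit 31) (nat_lit 5) (nat_lit 32) (nat_lit 5) (nat_lit 365) (nat_lit 334) (nat_lit 201)) (XT.nd (nat_lit 78) (nat_lit 152) (nat_lit 0) (XT.lf (nat_lit 0) (nat_lit 193244468095) (nat_lit 228) (nat_lit 28358032912) (nat_lit 76) (nat_lit 34686217095) (nat_lit 29) (nat_lit 5) (nat_lit 32) (nat_lit 5) (nat_lit 30) (nat_lit 4) (nat_lit 366) (nat_lit 334) (nat_lit 200)) (XT.lf (nat_lit 0) (nat_lit 15915279290) (nat_lit 152) (nat_lit 106327304670) (nat_lit 76) (nat_lit 148920327781) (nat_lit 27) (nat_lit 5) (nat_lit 29) (nat_lit 5) (nat_lit 28) (nat_lit 5) (nat_lit 367) (nat_lit 334) (nat_lit 199)))) (XT.nd (nat_lit 78) (nat_lit 76) (nat_lit 0) (XT.lf (nat_lit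 0) (nat_lit 89073886450) (nat_lit 152) (nat_lit 11830678840) (nat_lit 228) (nat_lit 186174712320) (nat_lit 25) (nat_lit 5) (nat_lit 27) (nat_lit 5) (nat_lit 28) (nat_lit 5) (nat_lit 368) (nat_lit 334) (nat_lit 198)) (XT.nd (nat_lit 78) (nat_lit 76) (nat_lit 0) (XT.lf (nat_lit 0) (nat_lit 196252025746) (nat_lit 228) (nat_lit 1980584171) (nat_lit 76) (nat_lit 105858391473) (nat_lit 25) (nat_lit 5) (nat_lit 28) (nat_lit 5) (nat_lit 26) (nat_lit 4) (nat_lit 369) (nat_lit 334) (nat_lit 197)) (XT.lf (nat_lit 0) (nat_lit 216453734237) (nat_lit 76) (nat_lit 86352002659) (nat_lit 152) (nat_lit 19479003690) (nat_lit 24) (nat_lit 5) (nat_lit 25) (nat_lit 5) (nat_lit 26) (nat_lit 4) (nat_lit 370) (nat_lit 334) (nat_lit 196))))))) (XT.nd (nat_lit 858) (nat_lit 304) (nat_lit 0) (XT.nd (nat_lit 390) (nat_lit 304) (nat_lit 0) (XT.nd (nat_lit 156) (nat_lit 228) (nat_lit 0) (XT.nd (nat_lit 78) (nat_lit 0)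 (nat_lit 0) (XT.lf (nat_lit 0) (nat_lit 75903855082) (nat_lit 228) (nat_lit 229443532672) (nat_lit 76) (nat_lit 36408054114) (nat_lit 21) (nat_lit 5) (nat_lit 24) (nat_lit 5) (nat_lit 22) (nat_lit 4) (nat_lit 371) (nat_lit 334) (nat_lit 195)) (XT.lf (nat_lit 0) (nat_lit 181573348001) (nat_lit 228) (nat_lit 12821716784) (nat_lit 76) (nat_lit 168205845499) (nat_lit 21) (nat_lit 5) (nat_lit 24) (nat_lit 5) (nat_lit 22) (nat_lit 4) (nat_lit 372) (nat_lit 334) (nat_lit 194))) (XT.nd (nat_lit 78) (nat_lit 152) (nat_lit 0) (XT.lf (nat_lit 0) (nat_lit 228440614686) (nat_lit 76) (nat_lit 70821966641) (nat_lit 152) (nat_lit 85673125952) (nat_lit 20) (nat_lit 5) (nat_lit 21) (nat_lit 5) (nat_lit 22) (nat_lit 4) (nat_lit 373) (nat_lit 334) (nat_lit 193)) (XT.nd (nat_lit 78) (nat_lit 0) (nat_lit 0) (XT.lf (nat_lit 0) (nat_lit 19282123696) (nat_lit 152) (nat_lit 327184246108) (nat_lit 76) (nat_lit 62451081957)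 (nat_lit 18) (nat_lit 5) (nat_lit 20) (nat_lit 5) (nat_lit 19) (nat_lit 4) (nat_lit 374) (nat_lit 334) (nat_lit 192)) (XT.lf (nat_lit 0) (nat_lit 133636882448) (nat_lit 152) (nat_lit 92757478000) (nat_lit 76) (nat_lit 208152918700) (nat_lit 18) (nat_lit 5) (nat_lit 20) (nat_lit 5) (nat_lit 19) (nat_lit 4) (nat_lit 375) (nat_lit 334) (nat_lit 191))))) (XT.nd (nat_lit 234) (nat_lit 76) (nat_lit 0) (XT.nd (nat_lit 78) (nat_lit 152) (nat_lit 0) (XT.lf (nat_lit 0) (nat_lit 165727066901) (nat_lit 76) (nat_lit 94000057565) (nat_lit 152) (nat_lit 202371013250) (nat_lit 17) (nat_lit 5) (nat_lit 18) (nat_lit 5) (nat_lit 19) (nat_lit 4) (nat_lit 376) (nat_lit 334) (nat_lit 190)) (XT.nd (nat_lit 78) (nat_lit 152) (nat_lit 0) (XT.lf (nat_lit 0) (nat_lit 398311305716) (nat_lit 152) (nat_lit 44361504383) (nat_lit 0) (nat_lit 49059918986) (nat_lit 17) (nat_lit 5) (nat_lit 19) (nat_lit 4) (nat_lit 17) (nat_lit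 4) (nat_lit 377) (nat_lit 334) (nat_lit 189)) (XT.lf (nat_lit 0) (nat_lit 28787415106) (nat_lit 152) (nat_lit 290237554201) (nat_lit 76) (nat_lit 204428230354) (nat_lit 15) (nat_lit 5) (nat_lit 17) (nat_lit 5) (nat_lit 16) (nat_lit 4) (nat_lit 378) (nat_lit 334) (nat_lit 188)))) (XT.nd (nat_lit 78) (nat_lit 76) (nat_lit 0) (XT.lf (nat_lit 0) (nat_lit 158328789511) (nat_lit 152) (nat_lit 24678077817) (nat_lit 76) (nat_lit 374586422683) (nat_lit 15) (nat_lit 5) (nat_lit 17) (nat_lit 5) (nat_lit 16) (nat_lit 4) (nat_lit 379) (nat_lit 334) (nat_lit 187)) (XT.nd (nat_lit 78) (nat_lit 0) (nat_lit 0) (XT.lf (nat_lit 0) (nat_lit 270792670858) (nat_lit 76) (nat_lit 31668345264) (nat_lit 152) (nat_lit 291792194438) (nat_lit 14) (nat_lit 5) (nat_lit 15) (nat_lit 5) (nat_lit 16) (nat_lit 4) (nat_lit 380) (nat_lit 334) (nat_lit 186)) (XT.lf (nat_lit 0) (nat_lit 460617875905) (nat_lit 152) (nat_lit 45107093765)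 (nat_lit 0) (nat_lit 127996252407) (nat_lit 14) (nat_lit 5) (nat_lit 16) (nat_lit 4) (nat_lit 14) (nat_lit 4) (nat_lit 381) (nat_lit 334) (nat_lit 185)))))) (XT.nd (nat_lit 43290) (nat_lit 0) (nat_lit 6612) (XT.nd (nat_lit 234) (nat_lit 76) (nat_lit 0) (XT.nd (nat_lit 78) (nat_lit 152) (nat_lit 0) (XT.lf (nat_lit 0) (nat_lit 263410947241) (nat_lit 76) (nat_lit 372662646645) (nat_lit 76) (nat_lit 40040765229) (nat_lit 13) (nat_lit 4) (nat_lit 14) (nat_lit 5) (nat_lit 14) (nat_lit 4) (nat_lit 382) (nat_lit 334) (nat_lit 184)) (XT.nd (nat_lit 78) (nat_lit 76) (nat_lit 0) (XT.lf (nat_lit 0) (nat_lit 101147201841) (nat_lit 152) (nat_lit 125270356453) (nat_lit 76) (nat_lit 495360544133) (nat_lit 12) (nat_lit 5) (nat_lit 14) (nat_lit 5) (nat_lit 13) (nat_lit 4) (nat_lit 383) (nat_lit 334) (nat_lit 183)) (XT.lf (nat_lit 0) (nat_lit 190581540885) (nat_lit 76) (nat_lit 64639865084) (nat_lit 152)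 (nat_lit 515691017342) (nat_lit 11) (nat_lit 5) (nat_lit 12) (nat_lit 5) (nat_lit 13) (nat_lit 4) (nat_lit 384) (nat_lit 334) (nat_lit 182)))) (XT.nd (nat_lit 78) (nat_lit 76) (nat_lit 0) (XT.lf (nat_lit 0) (nat_lit 425557880017) (nat_lit 152) (nat_lit 289448290439) (nat_lit 0) (nat_lit 108774502783) (nat_lit 11) (nat_lit 5) (nat_lit 13) (nat_lit 4) (nat_lit 11) (nat_lit 4) (nat_lit 385) (nat_lit 334) (nat_lit 181)) (XT.nd (nat_lit 42900) (nat_lit 0) (nat_lit 6536) (XT.lf (nat_lit 0) (nat_lit 24395368264) (nat_lit 76) (nat_lit 586596520935) (nat_lit 76) (nat_lit 269812963151) (nat_lit 10) (nat_lit 4) (nat_lit 11) (nat_lit 5) (nat_lit 11) (nat_lit 4) (nat_lit 386) (nat_lit 334) (nat_lit 180)) (XT.lf (nat_lit 0) (nat_lit 1276299067) (nat_lit 836) (nat_lit 14439899355) (nat_lit 836) (nat_lit 14439899355) (nat_lit 96) (nat_lit 3) (nat_lit 107) (nat_lit 3) (nat_lit 107) (nat_lit 5) (nat_lit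 335) (nat_lit 335) (nat_lit 230))))) (XT.nd (nat_lit 234) (nat_lit 0) (nat_lit 152) (XT.nd (nat_lit 78) (nat_lit 0) (nat_lit 0) (XT.lf (nat_lit 0) (nat_lit 3162476486) (nat_lit 760) (nat_lit 46065627035) (nat_lit 836) (nat_lit 13471157185) (nat_lit 97) (nat_lit 5) (nat_lit 107) (nat_lit 5) (nat_lit 108) (nat_lit 5) (nat_lit 336) (nat_lit 335) (nat_lit 229)) (XT.nd (nat_lit 78) (nat_lit 0) (nat_lit 76) (XT.lf (nat_lit 76) (nat_lit 1061366605) (nat_lit 0) (nat_lit 3814943081) (nat_lit 836) (nat_lit 60348226550) (nat_lit 98) (nat_lit 5) (nat_lit 97) (nat_lit 5) (nat_lit 108) (nat_lit 5) (nat_lit 337) (nat_lit 335) (nat_lit 228)) (XT.lf (nat_lit 0) (nat_lit 8246489094) (nat_lit 760) (nat_lit 15029260339) (nat_lit 836) (nat_lit 44600125542) (nat_lit 98) (nat_lit 5) (nat_lit 108) (nat_lit 5) (nat_lit 109) (nat_lit 5) (nat_lit 338) (nat_lit 335) (nat_lit 227)))) (XT.nd (nat_lit 78) (nat_lit 0)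 (nat_lit 76) (XT.lf (nat_lit 0) (nat_lit 12976975654) (nat_lit 760) (nat_lit 31897019250) (nat_lit 836) (nat_lit 25810794184) (nat_lit 99) (nat_lit 5) (nat_lit 109) (nat_lit 5) (nat_lit 110) (nat_lit 5) (nat_lit 339) (nat_lit 335) (nat_lit 226)) (XT.nd (nat_lit 78) (nat_lit 0) (nat_lit 0) (XT.lf (nat_lit 0) (nat_lit 19196783873) (nat_lit 760) (nat_lit 49629829836) (nat_lit 836) (nat_lit 4836261178) (nat_lit 100) (nat_lit 5) (nat_lit 110) (nat_lit 5) (nat_lit 111) (nat_lit 5) (nat_lit 340) (nat_lit 335) (nat_lit 225)) (XT.lf (nat_lit 76) (nat_lit 8220787626) (nat_lit 0) (nat_lit 19141088338) (nat_lit 836) (nat_lit 49444949123) (nat_lit 101) (nat_lit 5) (nat_lit 100) (nat_lit 5) (nat_lit 111) (nat_lit 5) (nat_lit 341) (nat_lit 335) (nat_lit 224))))))))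
noncomputable def xc104 : XT := (XT.nd (nat_lit 1716) (nat_lit 1824) (nat_lit 0) (XT.nd (nat_lit 858) (nat_lit 1672) (nat_lit 0) (XT.nd (nat_lit 390) (nat_lit 1444) (nat_lit 0) (XT.nd (nat_lit 156) (nat_lit 1140) (nat_lit 0) (XT.nd (nat_lit 78) (nat_lit 760) (nat_lit 0) (XT.lf (nat_lit 0) (nat_lit 37595899113) (nat_lit 760) (nat_lit 8242173752) (nat_lit 76) (nat_lit 34293434564) (nat_lit 101) (nat_lit 5) (nat_lit 111) (nat_lit 5) (nat_lit 102) (nat_lit 5) (nat_lit 342) (nat_lit 335) (nat_lit 223)) (XT.lf (nat_lit 0) (nat_lit 50016784188) (nat_lit 836) (nat_lit 25318170957) (nat_lit 76) (nat_lit 8318804352) (nat_lit 91) (nat_lit 5) (nat_lit 102) (nat_lit 5) (nat_lit 92) (nat_lit 5) (nat_lit 343) (nat_lit 335) (nat_lit 222))) (XT.nd (nat_lit 78) (nat_lit 760) (nat_lit 0) (XT.lf (nat_lit 0) (nat_lit 43705253346) (nat_lit 380) (nat_lit 21325629007) (nat_lit 456) (nat_lit 22346934244) (nat_lit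 86) (nat_lit 5) (nat_lit 91) (nat_lit 5) (nat_lit 92) (nat_lit 5) (nat_lit 344) (nat_lit 335) (nat_lit 221)) (XT.nd (nat_lit 78) (nat_lit 456) (nat_lit 0) (XT.lf (nat_lit 0) (nat_lit 28089355059) (nat_lit 304) (nat_lit 54619745613) (nat_lit 380) (nat_lit 8617549814) (nat_lit 82) (nat_lit 5) (nat_lit 86) (nat_lit 5) (nat_lit 87) (nat_lit 5) (nat_lit 345) (nat_lit 335) (nat_lit 220)) (XT.lf (nat_lit 0) (nat_lit 7387374882) (nat_lit 456) (nat_lit 84090438632) (nat_lit 76) (nat_lit 4039933559) (nat_lit 76) (nat_lit 5) (nat_lit 82) (nat_lit 5) (nat_lit 77) (nat_lit 5) (nat_lit 346) (nat_lit 335) (nat_lit 219))))) (XT.nd (nat_lit 234) (nat_lit 836) (nat_lit 0) (XT.nd (nat_lit 78) (nat_lit 608) (nat_lit 0) (XT.lf (nat_lit 0) (nat_lit 26414003043) (nat_lit 456) (nat_lit 6751740869) (nat_lit 76) (nat_lit 66769164084) (nat_lit 76) (nat_lit 5) (nat_lit 82) (nat_lit 5) (nat_lit 77) (nat_lit 5) (nat_lit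 347) (nat_lit 335) (nat_lit 218)) (XT.nd (nat_lit 78) (nat_lit 304) (nat_lit 0) (XT.lf (nat_lit 0) (nat_lit 48685458089) (nat_lit 380) (nat_lit 25818307246) (nat_lit 76) (nat_lit 30115543015) (nat_lit 72) (nat_lit 5) (nat_lit 77) (nat_lit 5) (nat_lit 73) (nat_lit 5) (nat_lit 348) (nat_lit 335) (nat_lit 217)) (XT.lf (nat_lit 0) (nat_lit 63227523225) (nat_lit 304) (nat_lit 11175805671) (nat_lit 380) (nat_lit 35191898152) (nat_lit 68) (nat_lit 5) (nat_lit 72) (nat_lit 5) (nat_lit 73) (nat_lit 5) (nat_lit 349) (nat_lit 335) (nat_lit 216)))) (XT.nd (nat_lit 78) (nat_lit 608) (nat_lit 0) (XT.lf (nat_lit 0) (nat_lit 45940454950) (nat_lit 228) (nat_lit 58304716118) (nat_lit 304) (nat_lit 10620722279) (nat_lit 65) (nat_lit 5) (nat_lit 68) (nat_lit 5) (nat_lit 69) (nat_lit 5) (nat_lit 350) (nat_lit 335) (nat_lit 215)) (XT.nd (nat_lit 78) (nat_lit 228) (nat_lit 0) (XT.lf (nat_lit 0) (nat_lit 17001097259)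 (nat_lit 380) (nat_lit 93445911100) (nat_lit 76) (nat_lit 10019062571) (nat_lit 60) (nat_lit 5) (nat_lit 65) (nat_lit 5) (nat_lit 61) (nat_lit 5) (nat_lit 351) (nat_lit 335) (nat_lit 214)) (XT.lf (nat_lit 0) (nat_lit 5645865273) (nat_lit 228) (nat_lit 43110198507) (nat_lit 304) (nat_lit 77634719409) (nat_lit 57) (nat_lit 5) (nat_lit 60) (nat_lit 5) (nat_lit 61) (nat_lit 5) (nat_lit 352) (nat_lit 335) (nat_lit 213)))))) (XT.nd (nat_lit 390) (nat_lit 836) (nat_lit 0) (XT.nd (nat_lit 156) (nat_lit 608) (nat_lit 0) (XT.nd (nat_lit 78) (nat_lit 228) (nat_lit 0) (XT.lf (nat_lit 0) (nat_lit 85167216687) (nat_lit 304) (nat_lit 17196622536) (nat_lit 76) (nat_lit 30319844654) (nat_lit 57) (nat_lit 5) (nat_lit 61) (nat_lit 5) (nat_lit 58) (nat_lit 5) (nat_lit 353) (nat_lit 335) (nat_lit 212)) (XT.lf (nat_lit 0) (nat_lit 97012313878) (nat_lit 228) (nat_lit 29719560093) (nat_lit 304) (nat_lit 12636112872)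 (nat_lit 54) (nat_lit 5) (nat_lit 57) (nat_lit 5) (nat_lit 58) (nat_lit 5) (nat_lit 354) (nat_lit 335) (nat_lit 211))) (XT.nd (nat_lit 78) (nat_lit 380) (nat_lit 0) (XT.lf (nat_lit 0) (nat_lit 26522430419) (nat_lit 228) (nat_lit 70834689115) (nat_lit 76) (nat_lit 49095920861) (nat_lit 51) (nat_lit 5) (nat_lit 54) (nat_lit 5) (nat_lit 52) (nat_lit 5) (nat_lit 355) (nat_lit 335) (nat_lit 210)) (XT.nd (nat_lit 78) (nat_lit 152) (nat_lit 0) (XT.lf (nat_lit 0) (nat_lit 51392114662) (nat_lit 228) (nat_lit 19037296120) (nat_lit 304) (nat_lit 83562207585) (nat_lit 48) (nat_lit 5) (nat_lit 51) (nat_lit 5) (nat_lit 52) (nat_lit 5) (nat_lit 356) (nat_lit 335) (nat_lit 209)) (XT.lf (nat_lit 0) (nat_lit 23564303808) (nat_lit 152) (nat_lit 96929239774) (nat_lit 228) (nat_lit 41507509926) (nat_lit 46) (nat_lit 5) (nat_lit 48) (nat_lit 5) (nat_lit 49) (nat_lit 5) (nat_lit 357) (nat_lit 335) (nat_lit 208)))))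 (XT.nd (nat_lit 234) (nat_lit 380) (nat_lit 0) (XT.nd (nat_lit 78) (nat_lit 380) (nat_lit 0) (XT.lf (nat_lit 0) (nat_lit 5923094593) (nat_lit 228) (nat_lit 7489459351) (nat_lit 76) (nat_lit 157128800272) (nat_lit 45) (nat_lit 5) (nat_lit 48) (nat_lit 5) (nat_lit 46) (nat_lit 5) (nat_lit 358) (nat_lit 335) (nat_lit 207)) (XT.nd (nat_lit 78) (nat_lit 152) (nat_lit 0) (XT.lf (nat_lit 0) (nat_lit 59107077712) (nat_lit 304) (nat_lit 43230139963) (nat_lit 76) (nat_lit 77222981710) (nat_lit 42) (nat_lit 5) (nat_lit 46) (nat_lit 5) (nat_lit 43) (nat_lit 5) (nat_lit 359) (nat_lit 335) (nat_lit 206)) (XT.lf (nat_lit 0) (nat_lit 105784930652) (nat_lit 152) (nat_lit 12770505140) (nat_lit 228) (nat_lit 70644634037) (nat_lit 40) (nat_lit 5) (nat_lit 42) (nat_lit 5) (nat_lit 43) (nat_lit 5) (nat_lit 360) (nat_lit 335) (nat_lit 205)))) (XT.nd (nat_lit 78) (nat_lit 228) (nat_lit 0) (XT.lf (nat_lit 0) (nat_lit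 69594620588) (nat_lit 152) (nat_lit 116327196247) (nat_lit 228) (nat_lit 13531205796) (nat_lit 38) (nat_lit 5) (nat_lit 40) (nat_lit 5) (nat_lit 41) (nat_lit 5) (nat_lit 361) (nat_lit 335) (nat_lit 204)) (XT.nd (nat_lit 78) (nat_lit 0) (nat_lit 0) (XT.lf (nat_lit 0) (nat_lit 27250524924) (nat_lit 152) (nat_lit 21476627857) (nat_lit 228) (nat_lit 161655620519) (nat_lit 35) (nat_lit 5) (nat_lit 37) (nat_lit 5) (nat_lit 38) (nat_lit 5) (nat_lit 362) (nat_lit 335) (nat_lit 203)) (XT.lf (nat_lit 0) (nat_lit 119061001362) (nat_lit 228) (nat_lit 22038760131) (nat_lit 76) (nat_lit 80897607292) (nat_lit 35) (nat_lit 5) (nat_lit 38) (nat_lit 5) (nat_lit 36) (nat_lit 5) (nat_lit 363) (nat_lit 335) (nat_lit 202))))))) (XT.nd (nat_lit 858) (nat_lit 684) (nat_lit 0) (XT.nd (nat_lit 390) (nat_lit 532) (nat_lit 0) (XT.nd (nat_lit 156) (nat_lit 304) (nat_lit 0) (XT.nd (nat_lit 78) (nat_lit 152) (nat_lit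 0) (XT.lf (nat_lit 0) (nat_lit 156590999730) (nat_lit 152) (nat_lit 41236939102) (nat_lit 228) (nat_lit 36572874362) (nat_lit 33) (nat_lit 5) (nat_lit 35) (nat_lit 5) (nat_lit 36) (nat_lit 5) (nat_lit 364) (nat_lit 335) (nat_lit 201)) (XT.lf (nat_lit 0) (nat_lit 37092910079) (nat_lit 152) (nat_lit 143412797737) (nat_lit 76) (nat_lit 67107594325) (nat_lit 31) (nat_lit 5) (nat_lit 33) (nat_lit 5) (nat_lit 32) (nat_lit 5) (nat_lit 365) (nat_lit 335) (nat_lit 200))) (XT.nd (nat_lit 78) (nat_lit 152) (nat_lit 0) (XT.lf (nat_lit 0) (nat_lit 41735843611) (nat_lit 152) (nat_lit 76375930756) (nat_lit 228) (nat_lit 143603980721) (nat_lit 29) (nat_lit 5) (nat_lit 31) (nat_lit 5) (nat_lit 32) (nat_lit 5) (nat_lit 366) (nat_lit 335) (nat_lit 199)) (XT.nd (nat_lit 78) (nat_lit 152) (nat_lit 0) (XT.lf (nat_lit 0) (nat_lit 208714118242) (nat_lit 228) (nat_lit 30609124307) (nat_lit 76) (nat_lit 37468063453)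 (nat_lit 29) (nat_lit 5) (nat_lit 32) (nat_lit 5) (nat_lit 30) (nat_lit 4) (nat_lit 367) (nat_lit 335) (nat_lit 198)) (XT.lf (nat_lit 0) (nat_lit 17198270740) (nat_lit 152) (nat_lit 114816373217) (nat_lit 76) (nat_lit 160840807936) (nat_lit 27) (nat_lit 5) (nat_lit 29) (nat_lit 5) (nat_lit 28) (nat_lit 5) (nat_lit 368) (nat_lit 335) (nat_lit 197))))) (XT.nd (nat_lit 234) (nat_lit 304) (nat_lit 0) (XT.nd (nat_lit 78) (nat_lit 76) (nat_lit 0) (XT.lf (nat_lit 0) (nat_lit 96216169360) (nat_lit 152) (nat_lit 12770062234) (nat_lit 228) (nat_lit 201058919158) (nat_lit 25) (nat_lit 5) (nat_lit 27) (nat_lit 5) (nat_lit 28) (nat_lit 5) (nat_lit 369) (nat_lit 335) (nat_lit 196)) (XT.nd (nat_lit 78) (nat_lit 76) (nat_lit 0) (XT.lf (nat_lit 0) (nat_lit 211960902138) (nat_lit 228) (nat_lit 2123539549) (nat_lit 76) (nat_lit 114333400383) (nat_lit 25) (nat_lit 5) (nat_lit 28) (nat_lit 5) (nat_lit 26) (nat_lit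 4) (nat_lit 370) (nat_lit 335) (nat_lit 195)) (XT.lf (nat_lit 0) (nat_lit 233784851096) (nat_lit 76) (nat_lit 93253644929) (nat_lit 152) (nat_lit 21028605358) (nat_lit 24) (nat_lit 5) (nat_lit 25) (nat_lit 5) (nat_lit 26) (nat_lit 4) (nat_lit 371) (nat_lit 335) (nat_lit 194)))) (XT.nd (nat_lit 78) (nat_lit 76) (nat_lit 0) (XT.lf (nat_lit 0) (nat_lit 81984303414) (nat_lit 228) (nat_lit 247784266044) (nat_lit 76) (nat_lit 39326897730) (nat_lit 21) (nat_lit 5) (nat_lit 24) (nat_lit 5) (nat_lit 22) (nat_lit 4) (nat_lit 372) (nat_lit 335) (nat_lit 193)) (XT.nd (nat_lit 78) (nat_lit 76) (nat_lit 0) (XT.lf (nat_lit 0) (nat_lit 196106752809) (nat_lit 228) (nat_lit 13833797421) (nat_lit 76) (nat_lit 181668053219) (nat_lit 21) (nat_lit 5) (nat_lit 24) (nat_lit 5) (nat_lit 22) (nat_lit 4) (nat_lit 373) (nat_lit 335) (nat_lit 192)) (XT.lf (nat_lit 0) (nat_lit 246728927062) (nat_lit 76) (nat_lit 76481843398)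 (nat_lit 152) (nat_lit 92519431669) (nat_lit 20) (nat_lit 5) (nat_lit 21) (nat_lit 5) (nat_lit 22) (nat_lit 4) (nat_lit 374) (nat_lit 335) (nat_lit 191)))))) (XT.nd (nat_lit 390) (nat_lit 304) (nat_lit 0) (XT.nd (nat_lit 156) (nat_lit 228) (nat_lit 0) (XT.nd (nat_lit 78) (nat_lit 0) (nat_lit 0) (XT.lf (nat_lit 0) (nat_lit 20831744320) (nat_lit 152) (nat_lit 353345996694) (nat_lit 76) (nat_lit 67452752058) (nat_lit 18) (nat_lit 5) (nat_lit 20) (nat_lit 5) (nat_lit 19) (nat_lit 4) (nat_lit 375) (nat_lit 335) (nat_lit 190)) (XT.lf (nat_lit 0) (nat_lit 144334361496) (nat_lit 152) (nat_lit 100166049293) (nat_lit 76) (nat_lit 224810322145) (nat_lit 18) (nat_lit 5) (nat_lit 20) (nat_lit 5) (nat_lit 19) (nat_lit 4) (nat_lit 376) (nat_lit 335) (nat_lit 189))) (XT.nd (nat_lit 78) (nat_lit 152) (nat_lit 0) (XT.lf (nat_lit 0) (nat_lit 178996736524) (nat_lit 76) (nat_lit 101514782376) (nat_lit 152)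 (nat_lit 218554156643) (nat_lit 17) (nat_lit 5) (nat_lit 18) (nat_lit 5) (nat_lit 19) (nat_lit 4) (nat_lit 377) (nat_lit 335) (nat_lit 188)) (XT.nd (nat_lit 78) (nat_lit 152) (nat_lit 0) (XT.lf (nat_lit 0) (nat_lit 430182049904) (nat_lit 152) (nat_lit 47899558966) (nat_lit 0) (nat_lit 52989444734) (nat_lit 17) (nat_lit 5) (nat_lit 19) (nat_lit 4) (nat_lit 17) (nat_lit 4) (nat_lit 378) (nat_lit 335) (nat_lit 187)) (XT.lf (nat_lit 0) (nat_lit 31096070679) (nat_lit 152) (nat_lit 313445976154) (nat_lit 76) (nat_lit 220787124077) (nat_lit 15) (nat_lit 5) (nat_lit 17) (nat_lit 5) (nat_lit 16) (nat_lit 4) (nat_lit 379) (nat_lit 335) (nat_lit 186))))) (XT.nd (nat_lit 234) (nat_lit 228) (nat_lit 0) (XT.nd (nat_lit 78) (nat_lit 76) (nat_lit 0) (XT.lf (nat_lit 0) (nat_lit 171000335602) (nat_lit 152) (nat_lit 26642525540) (nat_lit 76) (nat_lit 404557628437) (nat_lit 15) (nat_lit 5) (nat_lit 17) (nat_lit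 5) (nat_lit 16) (nat_lit 4) (nat_lit 380) (nat_lit 335) (nat_lit 185)) (XT.nd (nat_lit 78) (nat_lit 0) (nat_lit 0) (XT.lf (nat_lit 0) (nat_lit 292465457198) (nat_lit 76) (nat_lit 34197441112) (nat_lit 152) (nat_lit 315130317673) (nat_lit 14) (nat_lit 5) (nat_lit 15) (nat_lit 5) (nat_lit 16) (nat_lit 4) (nat_lit 381) (nat_lit 335) (nat_lit 184)) (XT.lf (nat_lit 0) (nat_lit 497471999639) (nat_lit 152) (nat_lit 48706813268) (nat_lit 0) (nat_lit 138239870978) (nat_lit 14) (nat_lit 5) (nat_lit 16) (nat_lit 4) (nat_lit 14) (nat_lit 4) (nat_lit 382) (nat_lit 335) (nat_lit 183)))) (XT.nd (nat_lit 78) (nat_lit 152) (nat_lit 0) (XT.lf (nat_lit 0) (nat_lit 284492286494) (nat_lit 76) (nat_lit 402471673023) (nat_lit 76) (nat_lit 43239323240) (nat_lit 13) (nat_lit 4) (nat_lit 14) (nat_lit 5) (nat_lit 14) (nat_lit 4) (nat_lit 383) (nat_lit 335) (nat_lit 182)) (XT.nd (nat_lit 78) (nat_lit 76) (nat_lit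 0) (XT.lf (nat_lit 0) (nat_lit 109243193429) (nat_lit 152) (nat_lit 135284007997) (nat_lit 76) (nat_lit 534992937383) (nat_lit 12) (nat_lit 5) (nat_lit 14) (nat_lit 5) (nat_lit 13) (nat_lit 4) (nat_lit 384) (nat_lit 335) (nat_lit 181)) (XT.lf (nat_lit 0) (nat_lit 205835694459) (nat_lit 76) (nat_lit 69807446303) (nat_lit 152) (nat_lit 556942074335) (nat_lit 11) (nat_lit 5) (nat_lit 12) (nat_lit 5) (nat_lit 13) (nat_lit 4) (nat_lit 385) (nat_lit 335) (nat_lit 180))))))))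
noncomputable def xc105 : XT := (XT.nd (nat_lit 1716) (nat_lit 2356) (nat_lit 0) (XT.nd (nat_lit 858) (nat_lit 2584) (nat_lit 0) (XT.nd (nat_lit 390) (nat_lit 1064) (nat_lit 0) (XT.nd (nat_lit 156) (nat_lit 0) (nat_lit 76) (XT.nd (nat_lit 78) (nat_lit 0) (nat_lit 76) (XT.lf (nat_lit 0) (nat_lit 1404986061) (nat_lit 836) (nat_lit 15581118626) (nat_lit 836) (nat_lit 15581118626) (nat_lit 96) (nat_lit 3) (nat_lit 107) (nat_lit 3) (nat_lit 107) (nat_lit 5) (nat_lit 336) (nat_lit 336) (nat_lit 228)) (XT.lf (nat_lit 0) (nat_lit 3464762095) (nat_lit 760) (nat_lit 49721244934) (nat_lit 836) (nat_lit 14526668799) (nat_lit 97) (nat_lit 5) (nat_lit 107) (nat_lit 5) (nat_lit 108) (nat_lit 5) (nat_lit 337) (nat_lit 336) (nat_lit 227))) (XT.nd (nat_lit 78) (nat_lit 0) (nat_lit 76) (XT.lf (nat_lit 76) (nat_lit 1174620415) (nat_lit 0) (nat_lit 4137873148) (nat_lit 836) (nat_lit 65127644802) (nat_lit 98)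 (nat_lit 5) (nat_lit 97) (nat_lit 5) (nat_lit 108) (nat_lit 5) (nat_lit 338) (nat_lit 336) (nat_lit 226)) (XT.nd (nat_lit 78) (nat_lit 0) (nat_lit 76) (XT.lf (nat_lit 0) (nat_lit 8948617681) (nat_lit 760) (nat_lit 16202914001) (nat_lit 836) (nat_lit 48152240214) (nat_lit 98) (nat_lit 5) (nat_lit 108) (nat_lit 5) (nat_lit 109) (nat_lit 5) (nat_lit 339) (nat_lit 336) (nat_lit 225)) (XT.lf (nat_lit 0) (nat_lit 14054638795) (nat_lit 760) (nat_lit 34419115452) (nat_lit 836) (nat_lit 27863794003) (nat_lit 99) (nat_lit 5) (nat_lit 109) (nat_lit 5) (nat_lit 110) (nat_lit 5) (nat_lit 340) (nat_lit 336) (nat_lit 224))))) (XT.nd (nat_lit 234) (nat_lit 1368) (nat_lit 0) (XT.nd (nat_lit 78) (nat_lit 0) (nat_lit 0) (XT.lf (nat_lit 0) (nat_lit 20769413417) (nat_lit 760) (nat_lit 53569808930) (nat_lit 836) (nat_lit 5214793089) (nat_lit 100) (nat_lit 5) (nat_lit 110) (nat_lit 5) (nat_lit 111) (nat_lit 5)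 (nat_lit 341) (nat_lit 336) (nat_lit 223)) (XT.nd (nat_lit 78) (nat_lit 0) (nat_lit 76) (XT.lf (nat_lit 76) (nat_lit 8907536465) (nat_lit 0) (nat_lit 20677898163) (nat_lit 836) (nat_lit 53364164276) (nat_lit 101) (nat_lit 5) (nat_lit 100) (nat_lit 5) (nat_lit 111) (nat_lit 5) (nat_lit 342) (nat_lit 336) (nat_lit 222)) (XT.lf (nat_lit 0) (nat_lit 40635536192) (nat_lit 760) (nat_lit 8872895574) (nat_lit 76) (nat_lit 37031959334) (nat_lit 101) (nat_lit 5) (nat_lit 111) (nat_lit 5) (nat_lit 102) (nat_lit 5) (nat_lit 343) (nat_lit 336) (nat_lit 221)))) (XT.nd (nat_lit 78) (nat_lit 684) (nat_lit 0) (XT.lf (nat_lit 0) (nat_lit 54048111302) (nat_lit 836) (nat_lit 27314639794) (nat_lit 76) (nat_lit 8981774140) (nat_lit 91) (nat_lit 5) (nat_lit 102) (nat_lit 5) (nat_lit 92) (nat_lit 5) (nat_lit 344) (nat_lit 336) (nat_lit 220)) (XT.nd (nat_lit 78) (nat_lit 304) (nat_lit 0) (XT.lf (nat_lit 0) (nat_lit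 47229398807) (nat_lit 380) (nat_lit 23032150315) (nat_lit 456) (nat_lit 24105049843) (nat_lit 86) (nat_lit 5) (nat_lit 91) (nat_lit 5) (nat_lit 92) (nat_lit 5) (nat_lit 345) (nat_lit 336) (nat_lit 219)) (XT.lf (nat_lit 0) (nat_lit 30364411039) (nat_lit 304) (nat_lit 58987954169) (nat_lit 380) (nat_lit 9279059797) (nat_lit 82) (nat_lit 5) (nat_lit 86) (nat_lit 5) (nat_lit 87) (nat_lit 5) (nat_lit 346) (nat_lit 336) (nat_lit 218)))))) (XT.nd (nat_lit 390) (nat_lit 1292) (nat_lit 0) (XT.nd (nat_lit 156) (nat_lit 836) (nat_lit 0) (XT.nd (nat_lit 78) (nat_lit 0) (nat_lit 0) (XT.lf (nat_lit 0) (nat_lit 8003830041) (nat_lit 456) (nat_lit 90788831868) (nat_lit 76) (nat_lit 4365204604) (nat_lit 76) (nat_lit 5) (nat_lit 82) (nat_lit 5) (nat_lit 77) (nat_lit 5) (nat_lit 347) (nat_lit 336) (nat_lit 217)) (XT.lf (nat_lit 0) (nat_lit 28550702146) (nat_lit 456) (nat_lit 7265174718) (nat_lit 76) (nat_lit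 72112619766) (nat_lit 76) (nat_lit 5) (nat_lit 82) (nat_lit 5) (nat_lit 77) (nat_lit 5) (nat_lit 348) (nat_lit 336) (nat_lit 216))) (XT.nd (nat_lit 78) (nat_lit 532) (nat_lit 0) (XT.lf (nat_lit 0) (nat_lit 52602577576) (nat_lit 380) (nat_lit 27857143966) (nat_lit 76) (nat_lit 32527994128) (nat_lit 72) (nat_lit 5) (nat_lit 77) (nat_lit 5) (nat_lit 73) (nat_lit 5) (nat_lit 349) (nat_lit 336) (nat_lit 215)) (XT.nd (nat_lit 78) (nat_lit 228) (nat_lit 0) (XT.lf (nat_lit 0) (nat_lit 68311195729) (nat_lit 304) (nat_lit 12065429407) (nat_lit 380) (nat_lit 37985147093) (nat_lit 68) (nat_lit 5) (nat_lit 72) (nat_lit 5) (nat_lit 73) (nat_lit 5) (nat_lit 350) (nat_lit 336) (nat_lit 214)) (XT.lf (nat_lit 0) (nat_lit 49641015103) (nat_lit 228) (nat_lit 62963701377) (nat_lit 304) (nat_lit 11449431853) (nat_lit 65) (nat_lit 5) (nat_lit 68) (nat_lit 5) (nat_lit 69) (nat_lit 5) (nat_lit 351) (nat_lit 336)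 (nat_lit 213))))) (XT.nd (nat_lit 234) (nat_lit 684) (nat_lit 0) (XT.nd (nat_lit 78) (nat_lit 228) (nat_lit 0) (XT.lf (nat_lit 0) (nat_lit 18380438490) (nat_lit 380) (nat_lit 100895814839) (nat_lit 76) (nat_lit 10826123057) (nat_lit 60) (nat_lit 5) (nat_lit 65) (nat_lit 5) (nat_lit 61) (nat_lit 5) (nat_lit 352) (nat_lit 336) (nat_lit 212)) (XT.nd (nat_lit 78) (nat_lit 0) (nat_lit 0) (XT.lf (nat_lit 0) (nat_lit 6122183748) (nat_lit 228) (nat_lit 46552577248) (nat_lit 304) (nat_lit 83826357998) (nat_lit 57) (nat_lit 5) (nat_lit 60) (nat_lit 5) (nat_lit 61) (nat_lit 5) (nat_lit 353) (nat_lit 336) (nat_lit 211)) (XT.lf (nat_lit 0) (nat_lit 91997550147) (nat_lit 304) (nat_lit 18548763819) (nat_lit 76) (nat_lit 32751201773) (nat_lit 57) (nat_lit 5) (nat_lit 61) (nat_lit 5) (nat_lit 58) (nat_lit 5) (nat_lit 354) (nat_lit 336) (nat_lit 210)))) (XT.nd (nat_lit 78) (nat_lit 456) (nat_lit 0) (XT.lf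 (nat_lit 0) (nat_lit 104795862381) (nat_lit 228) (nat_lit 32090613902) (nat_lit 304) (nat_lit 13630132961) (nat_lit 54) (nat_lit 5) (nat_lit 57) (nat_lit 5) (nat_lit 58) (nat_lit 5) (nat_lit 355) (nat_lit 336) (nat_lit 209)) (XT.nd (nat_lit 78) (nat_lit 228) (nat_lit 0) (XT.lf (nat_lit 0) (nat_lit 28659793336) (nat_lit 228) (nat_lit 76478670560) (nat_lit 76) (nat_lit 53030029025) (nat_lit 51) (nat_lit 5) (nat_lit 54) (nat_lit 5) (nat_lit 52) (nat_lit 5) (nat_lit 356) (nat_lit 336) (nat_lit 208)) (XT.lf (nat_lit 0) (nat_lit 55525286935) (nat_lit 228) (nat_lit 20553232381) (nat_lit 304) (nat_lit 90231679367) (nat_lit 48) (nat_lit 5) (nat_lit 51) (nat_lit 5) (nat_lit 52) (nat_lit 5) (nat_lit 357) (nat_lit 336) (nat_lit 207))))))) (XT.nd (nat_lit 858) (nat_lit 912) (nat_lit 0) (XT.nd (nat_lit 390) (nat_lit 684) (nat_lit 0) (XT.nd (nat_lit 156) (nat_lit 532) (nat_lit 0) (XT.nd (nat_lit 78) (nat_lit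 76) (nat_lit 0) (XT.lf (nat_lit 0) (nat_lit 25470915025) (nat_lit 152) (nat_lit 104676211738) (nat_lit 228) (nat_lit 44813295511) (nat_lit 46) (nat_lit 5) (nat_lit 48) (nat_lit 5) (nat_lit 49) (nat_lit 5) (nat_lit 358) (nat_lit 336) (nat_lit 206)) (XT.lf (nat_lit 0) (nat_lit 6410220893) (nat_lit 228) (nat_lit 8068290988) (nat_lit 76) (nat_lit 169705477451) (nat_lit 45) (nat_lit 5) (nat_lit 48) (nat_lit 5) (nat_lit 46) (nat_lit 5) (nat_lit 359) (nat_lit 336) (nat_lit 205))) (XT.nd (nat_lit 78) (nat_lit 304) (nat_lit 0) (XT.lf (nat_lit 0) (nat_lit 63848349433) (nat_lit 304) (nat_lit 46668577663) (nat_lit 76) (nat_lit 83407444367) (nat_lit 42) (nat_lit 5) (nat_lit 46) (nat_lit 5) (nat_lit 43) (nat_lit 5) (nat_lit 360) (nat_lit 336) (nat_lit 204)) (XT.nd (nat_lit 78) (nat_lit 152) (nat_lit 0) (XT.lf (nat_lit 0) (nat_lit 114266830577) (nat_lit 152) (nat_lit 13785102723) (nat_lit 228) (nat_lit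 76283531021) (nat_lit 40) (nat_lit 5) (nat_lit 42) (nat_lit 5) (nat_lit 43) (nat_lit 5) (nat_lit 361) (nat_lit 336) (nat_lit 203)) (XT.lf (nat_lit 0) (nat_lit 75180944764) (nat_lit 152) (nat_lit 125626181159) (nat_lit 228) (nat_lit 14601552961) (nat_lit 38) (nat_lit 5) (nat_lit 40) (nat_lit 5) (nat_lit 41) (nat_lit 5) (nat_lit 362) (nat_lit 336) (nat_lit 202))))) (XT.nd (nat_lit 234) (nat_lit 304) (nat_lit 0) (XT.nd (nat_lit 78) (nat_lit 152) (nat_lit 0) (XT.lf (nat_lit 0) (nat_lit 29448885067) (nat_lit 152) (nat_lit 23187615235) (nat_lit 228) (nat_lit 174576329597) (nat_lit 35) (nat_lit 5) (nat_lit 37) (nat_lit 5) (nat_lit 38) (nat_lit 5) (nat_lit 363) (nat_lit 336) (nat_lit 201)) (XT.nd (nat_lit 78) (nat_lit 152) (nat_lit 0) (XT.lf (nat_lit 0) (nat_lit 128596332229) (nat_lit 228) (nat_lit 23784479558) (nat_lit 76) (nat_lit 87375817945) (nat_lit 35) (nat_lit 5) (nat_lit 38) (nat_lit 5)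 (nat_lit 36) (nat_lit 5) (nat_lit 364) (nat_lit 336) (nat_lit 200)) (XT.lf (nat_lit 0) (nat_lit 169134905718) (nat_lit 152) (nat_lit 44529204427) (nat_lit 228) (nat_lit 39488265721) (nat_lit 33) (nat_lit 5) (nat_lit 35) (nat_lit 5) (nat_lit 36) (nat_lit 5) (nat_lit 365) (nat_lit 336) (nat_lit 199)))) (XT.nd (nat_lit 78) (nat_lit 152) (nat_lit 0) (XT.lf (nat_lit 0) (nat_lit 40070055598) (nat_lit 152) (nat_lit 154869211390) (nat_lit 76) (nat_lit 72482608775) (nat_lit 31) (nat_lit 5) (nat_lit 33) (nat_lit 5) (nat_lit 32) (nat_lit 5) (nat_lit 366) (nat_lit 336) (nat_lit 198)) (XT.nd (nat_lit 78) (nat_lit 0) (nat_lit 0) (XT.lf (nat_lit 0) (nat_lit 45090599409) (nat_lit 152) (nat_lit 82479358221) (nat_lit 228) (nat_lit 155082591250) (nat_lit 29) (nat_lit 5) (nat_lit 31) (nat_lit 5) (nat_lit 32) (nat_lit 5) (nat_lit 367) (nat_lit 336) (nat_lit 197)) (XT.lf (nat_lit 0) (nat_lit 225419900563) (nat_lit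 228) (nat_lit 33042806893) (nat_lit 76) (nat_lit 40471466169) (nat_lit 29) (nat_lit 5) (nat_lit 32) (nat_lit 5) (nat_lit 30) (nat_lit 4) (nat_lit 368) (nat_lit 336) (nat_lit 196)))))) (XT.nd (nat_lit 390) (nat_lit 304) (nat_lit 0) (XT.nd (nat_lit 156) (nat_lit 304) (nat_lit 0) (XT.nd (nat_lit 78) (nat_lit 152) (nat_lit 0) (XT.lf (nat_lit 0) (nat_lit 18582507833) (nat_lit 152) (nat_lit 123987009011) (nat_lit 76) (nat_lit 173713948713) (nat_lit 27) (nat_lit 5) (nat_lit 29) (nat_lit 5) (nat_lit 28) (nat_lit 5) (nat_lit 369) (nat_lit 336) (nat_lit 195)) (XT.lf (nat_lit 0) (nat_lit 103927499255) (nat_lit 152) (nat_lit 13785605045) (nat_lit 228) (nat_lit 217135256363) (nat_lit 25) (nat_lit 5) (nat_lit 27) (nat_lit 5) (nat_lit 28) (nat_lit 5) (nat_lit 370) (nat_lit 336) (nat_lit 194))) (XT.nd (nat_lit 78) (nat_lit 304) (nat_lit 0) (XT.lf (nat_lit 0) (nat_lit 228925245444) (nat_lit 228) (nat_lit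 2280141372) (nat_lit 76) (nat_lit 123485505877) (nat_lit 25) (nat_lit 5) (nat_lit 28) (nat_lit 5) (nat_lit 26) (nat_lit 4) (nat_lit 371) (nat_lit 336) (nat_lit 193)) (XT.nd (nat_lit 78) (nat_lit 228) (nat_lit 0) (XT.lf (nat_lit 0) (nat_lit 252500343333) (nat_lit 76) (nat_lit 100708348439) (nat_lit 152) (nat_lit 22703418969) (nat_lit 24) (nat_lit 5) (nat_lit 25) (nat_lit 5) (nat_lit 26) (nat_lit 4) (nat_lit 372) (nat_lit 336) (nat_lit 192)) (XT.lf (nat_lit 0) (nat_lit 88550026362) (nat_lit 228) (nat_lit 267594362230) (nat_lit 76) (nat_lit 42478364437) (nat_lit 21) (nat_lit 5) (nat_lit 24) (nat_lit 5) (nat_lit 22) (nat_lit 4) (nat_lit 373) (nat_lit 336) (nat_lit 191))))) (XT.nd (nat_lit 234) (nat_lit 76) (nat_lit 0) (XT.nd (nat_lit 78) (nat_lit 228) (nat_lit 0) (XT.lf (nat_lit 0) (nat_lit 211801754770) (nat_lit 228) (nat_lit 14928792791) (nat_lit 76) (nat_lit 196206418670) (nat_lit 21) (nat_lit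 5) (nat_lit 24) (nat_lit 5) (nat_lit 22) (nat_lit 4) (nat_lit 374) (nat_lit 336) (nat_lit 190)) (XT.nd (nat_lit 78) (nat_lit 152) (nat_lit 0) (XT.lf (nat_lit 0) (nat_lit 266478440817) (nat_lit 76) (nat_lit 82595349225) (nat_lit 152) (nat_lit 99914518130) (nat_lit 20) (nat_lit 5) (nat_lit 21) (nat_lit 5) (nat_lit 22) (nat_lit 4) (nat_lit 375) (nat_lit 336) (nat_lit 189)) (XT.lf (nat_lit 0) (nat_lit 22504328729) (nat_lit 152) (nat_lit 381602540367) (nat_lit 76) (nat_lit 72853759213) (nat_lit 18) (nat_lit 5) (nat_lit 20) (nat_lit 5) (nat_lit 19) (nat_lit 4) (nat_lit 376) (nat_lit 336) (nat_lit 188)))) (XT.nd (nat_lit 78) (nat_lit 76) (nat_lit 0) (XT.lf (nat_lit 0) (nat_lit 155886707511) (nat_lit 152) (nat_lit 108169022068) (nat_lit 76) (nat_lit 242799580314) (nat_lit 18) (nat_lit 5) (nat_lit 20) (nat_lit 5) (nat_lit 19) (nat_lit 4) (nat_lit 377) (nat_lit 336) (nat_lit 187)) (XT.nd (nat_lit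 78) (nat_lit 0) (nat_lit 0) (XT.lf (nat_lit 0) (nat_lit 193326338504) (nat_lit 76) (nat_lit 109631438394) (nat_lit 152) (nat_lit 236032884179) (nat_lit 17) (nat_lit 5) (nat_lit 18) (nat_lit 5) (nat_lit 19) (nat_lit 4) (nat_lit 378) (nat_lit 336) (nat_lit 186)) (XT.lf (nat_lit 0) (nat_lit 464601620524) (nat_lit 152) (nat_lit 51722208040) (nat_lit 0) (nat_lit 57232657437) (nat_lit 17) (nat_lit 5) (nat_lit 19) (nat_lit 4) (nat_lit 17) (nat_lit 4) (nat_lit 379) (nat_lit 336) (nat_lit 185))))))))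
noncomputable def xc106 : XT := (XT.nd (nat_lit 44772) (nat_lit 0) (nat_lit 684) (XT.nd (nat_lit 43914) (nat_lit 0) (nat_lit 4028) (XT.nd (nat_lit 390) (nat_lit 76) (nat_lit 0) (XT.nd (nat_lit 156) (nat_lit 152) (nat_lit 0) (XT.nd (nat_lit 78) (nat_lit 0) (nat_lit 0) (XT.lf (nat_lit 0) (nat_lit 33588610898) (nat_lit 152) (nat_lit 338512581559) (nat_lit 76) (nat_lit 238454068021) (nat_lit 15) (nat_lit 5) (nat_lit 17) (nat_lit 5) (nat_lit 16) (nat_lit 4) (nat_lit 380) (nat_lit 336) (nat_lit 184)) (XT.lf (nat_lit 0) (nat_lit 184684857418) (nat_lit 152) (nat_lit 28765526946) (nat_lit 76) (nat_lit 436925918358) (nat_lit 15) (nat_lit 5) (nat_lit 17) (nat_lit 5) (nat_lit 16) (nat_lit 4) (nat_lit 381) (nat_lit 336) (nat_lit 183))) (XT.nd (nat_lit 78) (nat_lit 76) (nat_lit 0) (XT.lf (nat_lit 0) (nat_lit 315870729329) (nat_lit 76) (nat_lit 36929488310) (nat_lit 152) (nat_lit 340336240069) (nat_lit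 14) (nat_lit 5) (nat_lit 15) (nat_lit 5) (nat_lit 16) (nat_lit 4) (nat_lit 382) (nat_lit 336) (nat_lit 182)) (XT.nd (nat_lit 78) (nat_lit 76) (nat_lit 0) (XT.lf (nat_lit 0) (nat_lit 537273783668) (nat_lit 152) (nat_lit 52595772598) (nat_lit 0) (nat_lit 149302420035) (nat_lit 14) (nat_lit 5) (nat_lit 16) (nat_lit 4) (nat_lit 14) (nat_lit 4) (nat_lit 383) (nat_lit 336) (nat_lit 181)) (XT.lf (nat_lit 0) (nat_lit 307258925479) (nat_lit 76) (nat_lit 434665990067) (nat_lit 76) (nat_lit 46694436857) (nat_lit 13) (nat_lit 4) (nat_lit 14) (nat_lit 5) (nat_lit 14) (nat_lit 4) (nat_lit 384) (nat_lit 336) (nat_lit 180))))) (XT.nd (nat_lit 43290) (nat_lit 0) (nat_lit 6460) (XT.nd (nat_lit 43134) (nat_lit 0) (nat_lit 6384) (XT.lf (nat_lit 0) (nat_lit 117986262963) (nat_lit 152) (nat_lit 146099889669) (nat_lit 76) (nat_lit 577795415687) (nat_lit 12) (nat_lit 5) (nat_lit 14) (nat_lit 5) (nat_lit 13) (nat_lit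 4) (nat_lit 385) (nat_lit 336) (nat_lit 179)) (XT.nd (nat_lit 78) (nat_lit 0) (nat_lit 76) (XT.lf (nat_lit 0) (nat_lit 1540175642) (nat_lit 836) (nat_lit 16815628797) (nat_lit 836) (nat_lit 16815628797) (nat_lit 96) (nat_lit 3) (nat_lit 107) (nat_lit 3) (nat_lit 107) (nat_lit 5) (nat_lit 337) (nat_lit 337) (nat_lit 226)) (XT.lf (nat_lit 0) (nat_lit 3784199142) (nat_lit 760) (nat_lit 53673539639) (nat_lit 836) (nat_lit 15669785704) (nat_lit 97) (nat_lit 5) (nat_lit 107) (nat_lit 5) (nat_lit 108) (nat_lit 5) (nat_lit 338) (nat_lit 337) (nat_lit 225)))) (XT.nd (nat_lit 78) (nat_lit 0) (nat_lit 76) (XT.lf (nat_lit 76) (nat_lit 1292890873) (nat_lit 0) (nat_lit 4484107579) (nat_lit 836) (nat_lit 70296327004) (nat_lit 98) (nat_lit 5) (nat_lit 97) (nat_lit 5) (nat_lit 108) (nat_lit 5) (nat_lit 339) (nat_lit 337) (nat_lit 224)) (XT.nd (nat_lit 78) (nat_lit 0) (nat_lit 76) (XT.lf (nat_lit 0) (nat_lit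 9700866370) (nat_lit 760) (nat_lit 17474552501) (nat_lit 836) (nat_lit 51990791711) (nat_lit 98) (nat_lit 5) (nat_lit 108) (nat_lit 5) (nat_lit 109) (nat_lit 5) (nat_lit 340) (nat_lit 337) (nat_lit 223)) (XT.lf (nat_lit 0) (nat_lit 15212879146) (nat_lit 760) (nat_lit 37147211443) (nat_lit 836) (nat_lit 30082726300) (nat_lit 99) (nat_lit 5) (nat_lit 109) (nat_lit 5) (nat_lit 110) (nat_lit 5) (nat_lit 341) (nat_lit 337) (nat_lit 222)))))) (XT.nd (nat_lit 390) (nat_lit 1596) (nat_lit 0) (XT.nd (nat_lit 156) (nat_lit 1064) (nat_lit 0) (XT.nd (nat_lit 78) (nat_lit 0) (nat_lit 0) (XT.lf (nat_lit 0) (nat_lit 22462591004) (nat_lit 760) (nat_lit 57829324291) (nat_lit 836) (nat_lit 5624801483) (nat_lit 100) (nat_lit 5) (nat_lit 110) (nat_lit 5) (nat_lit 111) (nat_lit 5) (nat_lit 342) (nat_lit 337) (nat_lit 221)) (XT.lf (nat_lit 76) (nat_lit 9645075794) (nat_lit 0) (nat_lit 22336864890) (nat_lit 836)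 (nat_lit 57602106767) (nat_lit 101) (nat_lit 5) (nat_lit 100) (nat_lit 5) (nat_lit 111) (nat_lit 5) (nat_lit 343) (nat_lit 337) (nat_lit 220))) (XT.nd (nat_lit 78) (nat_lit 1140) (nat_lit 0) (XT.lf (nat_lit 0) (nat_lit 43913784050) (nat_lit 760) (nat_lit 9558162681) (nat_lit 76) (nat_lit 39990272258) (nat_lit 101) (nat_lit 5) (nat_lit 111) (nat_lit 5) (nat_lit 102) (nat_lit 5) (nat_lit 344) (nat_lit 337) (nat_lit 219)) (XT.nd (nat_lit 78) (nat_lit 380) (nat_lit 0) (XT.lf (nat_lit 0) (nat_lit 58397666978) (nat_lit 836) (nat_lit 29474961149) (nat_lit 76) (nat_lit 9698143094) (nat_lit 91) (nat_lit 5) (nat_lit 102) (nat_lit 5) (nat_lit 92) (nat_lit 5) (nat_lit 345) (nat_lit 337) (nat_lit 218)) (XT.lf (nat_lit 0) (nat_lit 51031520597) (nat_lit 380) (nat_lit 24875126137) (nat_lit 456) (nat_lit 26008043044) (nat_lit 86) (nat_lit 5) (nat_lit 91) (nat_lit 5) (nat_lit 92) (nat_lit 5) (nat_lit 346)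 (nat_lit 337) (nat_lit 217))))) (XT.nd (nat_lit 234) (nat_lit 836) (nat_lit 0) (XT.nd (nat_lit 78) (nat_lit 456) (nat_lit 0) (XT.lf (nat_lit 0) (nat_lit 32817490170) (nat_lit 304) (nat_lit 63705815012) (nat_lit 380) (nat_lit 9997469971) (nat_lit 82) (nat_lit 5) (nat_lit 86) (nat_lit 5) (nat_lit 87) (nat_lit 5) (nat_lit 347) (nat_lit 337) (nat_lit 216)) (XT.nd (nat_lit 78) (nat_lit 0) (nat_lit 0) (XT.lf (nat_lit 0) (nat_lit 8665968721) (nat_lit 456) (nat_lit 98027211176) (nat_lit 76) (nat_lit 4716201116) (nat_lit 76) (nat_lit 5) (nat_lit 82) (nat_lit 5) (nat_lit 77) (nat_lit 5) (nat_lit 348) (nat_lit 337) (nat_lit 215)) (XT.lf (nat_lit 0) (nat_lit 30854973389) (nat_lit 456) (nat_lit 7823493102) (nat_lit 76) (nat_lit 77883277629) (nat_lit 76) (nat_lit 5) (nat_lit 82) (nat_lit 5) (nat_lit 77) (nat_lit 5) (nat_lit 349) (nat_lit 337) (nat_lit 214)))) (XT.nd (nat_lit 78) (nat_lit 532) (nat_lit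 0) (XT.lf (nat_lit 0) (nat_lit 56829887726) (nat_lit 380) (nat_lit 30062886384) (nat_lit 76) (nat_lit 35132983720) (nat_lit 72) (nat_lit 5) (nat_lit 77) (nat_lit 5) (nat_lit 73) (nat_lit 5) (nat_lit 350) (nat_lit 337) (nat_lit 213)) (XT.nd (nat_lit 78) (nat_lit 228) (nat_lit 0) (XT.lf (nat_lit 0) (nat_lit 73797928361) (nat_lit 304) (nat_lit 13026856559) (nat_lit 380) (nat_lit 41005009176) (nat_lit 68) (nat_lit 5) (nat_lit 72) (nat_lit 5) (nat_lit 73) (nat_lit 5) (nat_lit 351) (nat_lit 337) (nat_lit 212)) (XT.lf (nat_lit 0) (nat_lit 53634007351) (nat_lit 228) (nat_lit 67996174690) (nat_lit 304) (nat_lit 12347426689) (nat_lit 65) (nat_lit 5) (nat_lit 68) (nat_lit 5) (nat_lit 69) (nat_lit 5) (nat_lit 352) (nat_lit 337) (nat_lit 211))))))) (XT.nd (nat_lit 858) (nat_lit 1292) (nat_lit 0) (XT.nd (nat_lit 390) (nat_lit 988) (nat_lit 0) (XT.nd (nat_lit 156) (nat_lit 456) (nat_lit 0) (XT.nd (nat_lit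 78) (nat_lit 228) (nat_lit 0) (XT.lf (nat_lit 0) (nat_lit 19867380300) (nat_lit 380) (nat_lit 108945387134) (nat_lit 76) (nat_lit 11696958684) (nat_lit 60) (nat_lit 5) (nat_lit 65) (nat_lit 5) (nat_lit 61) (nat_lit 5) (nat_lit 353) (nat_lit 337) (nat_lit 210)) (XT.lf (nat_lit 0) (nat_lit 6633091209) (nat_lit 228) (nat_lit 50271264618) (nat_lit 304) (nat_lit 90516058061) (nat_lit 57) (nat_lit 5) (nat_lit 60) (nat_lit 5) (nat_lit 61) (nat_lit 5) (nat_lit 354) (nat_lit 337) (nat_lit 209))) (XT.nd (nat_lit 78) (nat_lit 456) (nat_lit 0) (XT.lf (nat_lit 0) (nat_lit 99371891302) (nat_lit 304) (nat_lit 20012441570) (nat_lit 76) (nat_lit 35376244372) (nat_lit 57) (nat_lit 5) (nat_lit 61) (nat_lit 5) (nat_lit 58) (nat_lit 5) (nat_lit 355) (nat_lit 337) (nat_lit 208)) (XT.nd (nat_lit 78) (nat_lit 228) (nat_lit 0) (XT.lf (nat_lit 0) (nat_lit 113198875843) (nat_lit 228) (nat_lit 34652280882) (nat_lit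 304) (nat_lit 14706081201) (nat_lit 54) (nat_lit 5) (nat_lit 57) (nat_lit 5) (nat_lit 58) (nat_lit 5) (nat_lit 356) (nat_lit 337) (nat_lit 207)) (XT.lf (nat_lit 0) (nat_lit 30965924268) (nat_lit 228) (nat_lit 82577422294) (nat_lit 76) (nat_lit 57277947890) (nat_lit 51) (nat_lit 5) (nat_lit 54) (nat_lit 5) (nat_lit 52) (nat_lit 5) (nat_lit 357) (nat_lit 337) (nat_lit 206))))) (XT.nd (nat_lit 234) (nat_lit 532) (nat_lit 0) (XT.nd (nat_lit 78) (nat_lit 228) (nat_lit 0) (XT.lf (nat_lit 0) (nat_lit 59986002533) (nat_lit 228) (nat_lit 22191448936) (nat_lit 304) (nat_lit 97436920828) (nat_lit 48) (nat_lit 5) (nat_lit 51) (nat_lit 5) (nat_lit 52) (nat_lit 5) (nat_lit 358) (nat_lit 337) (nat_lit 205)) (XT.nd (nat_lit 78) (nat_lit 76) (nat_lit 0) (XT.lf (nat_lit 0) (nat_lit 27526992645) (nat_lit 152) (nat_lit 113043992476) (nat_lit 228) (nat_lit 48385657497) (nat_lit 46) (nat_lit 5) (nat_lit 48)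 (nat_lit 5) (nat_lit 49) (nat_lit 5) (nat_lit 359) (nat_lit 337) (nat_lit 204)) (XT.lf (nat_lit 0) (nat_lit 6934422937) (nat_lit 228) (nat_lit 8696328760) (nat_lit 76) (nat_lit 183287379602) (nat_lit 45) (nat_lit 5) (nat_lit 48) (nat_lit 5) (nat_lit 46) (nat_lit 5) (nat_lit 360) (nat_lit 337) (nat_lit 203)))) (XT.nd (nat_lit 78) (nat_lit 304) (nat_lit 0) (XT.lf (nat_lit 0) (nat_lit 68967110310) (nat_lit 304) (nat_lit 50384939822) (nat_lit 76) (nat_lit 90085719031) (nat_lit 42) (nat_lit 5) (nat_lit 46) (nat_lit 5) (nat_lit 43) (nat_lit 5) (nat_lit 361) (nat_lit 337) (nat_lit 202)) (XT.nd (nat_lit 78) (nat_lit 152) (nat_lit 0) (XT.lf (nat_lit 0) (nat_lit 123424556887) (nat_lit 152) (nat_lit 14881872852) (nat_lit 228) (nat_lit 82375347815) (nat_lit 40) (nat_lit 5) (nat_lit 42) (nat_lit 5) (nat_lit 43) (nat_lit 5) (nat_lit 362) (nat_lit 337) (nat_lit 201)) (XT.lf (nat_lit 0) (nat_lit 81211499330)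 (nat_lit 152) (nat_lit 135670110710) (nat_lit 228) (nat_lit 15759261133) (nat_lit 38) (nat_lit 5) (nat_lit 40) (nat_lit 5) (nat_lit 41) (nat_lit 5) (nat_lit 363) (nat_lit 337) (nat_lit 200)))))) (XT.nd (nat_lit 390) (nat_lit 608) (nat_lit 0) (XT.nd (nat_lit 156) (nat_lit 456) (nat_lit 0) (XT.nd (nat_lit 78) (nat_lit 0) (nat_lit 0) (XT.lf (nat_lit 0) (nat_lit 31820500732) (nat_lit 152) (nat_lit 25036500611) (nat_lit 228) (nat_lit 188532370324) (nat_lit 35) (nat_lit 5) (nat_lit 37) (nat_lit 5) (nat_lit 38) (nat_lit 5) (nat_lit 364) (nat_lit 337) (nat_lit 199)) (XT.lf (nat_lit 0) (nat_lit 138892998648) (nat_lit 228) (nat_lit 25672336188) (nat_lit 76) (nat_lit 94371372123) (nat_lit 35) (nat_lit 5) (nat_lit 38) (nat_lit 5) (nat_lit 36) (nat_lit 5) (nat_lit 365) (nat_lit 337) (nat_lit 198))) (XT.nd (nat_lit 78) (nat_lit 304) (nat_lit 0) (XT.lf (nat_lit 0) (nat_lit 182679952299) (nat_lit 152)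 (nat_lit 48085805353) (nat_lit 228) (nat_lit 42638377571) (nat_lit 33) (nat_lit 5) (nat_lit 35) (nat_lit 5) (nat_lit 36) (nat_lit 5) (nat_lit 366) (nat_lit 337) (nat_lit 197)) (XT.nd (nat_lit 78) (nat_lit 152) (nat_lit 0) (XT.lf (nat_lit 0) (nat_lit 43283987131) (nat_lit 152) (nat_lit 167244507761) (nat_lit 76) (nat_lit 78286710365) (nat_lit 31) (nat_lit 5) (nat_lit 33) (nat_lit 5) (nat_lit 32) (nat_lit 5) (nat_lit 367) (nat_lit 337) (nat_lit 196)) (XT.lf (nat_lit 0) (nat_lit 48711469026) (nat_lit 152) (nat_lit 89072008151) (nat_lit 228) (nat_lit 167480875566) (nat_lit 29) (nat_lit 5) (nat_lit 31) (nat_lit 5) (nat_lit 32) (nat_lit 5) (nat_lit 368) (nat_lit 337) (nat_lit 195))))) (XT.nd (nat_lit 234) (nat_lit 304) (nat_lit 0) (XT.nd (nat_lit 78) (nat_lit 304) (nat_lit 0) (XT.lf (nat_lit 0) (nat_lit 243460911043) (nat_lit 228) (nat_lit 35673330761) (nat_lit 76) (nat_lit 43714291178) (nat_lit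 29) (nat_lit 5) (nat_lit 32) (nat_lit 5) (nat_lit 30) (nat_lit 4) (nat_lit 369) (nat_lit 337) (nat_lit 194)) (XT.nd (nat_lit 78) (nat_lit 152) (nat_lit 0) (XT.lf (nat_lit 0) (nat_lit 20076289045) (nat_lit 152) (nat_lit 133893389088) (nat_lit 76) (nat_lit 187616102454) (nat_lit 27) (nat_lit 5) (nat_lit 29) (nat_lit 5) (nat_lit 28) (nat_lit 5) (nat_lit 370) (nat_lit 337) (nat_lit 193)) (XT.lf (nat_lit 0) (nat_lit 112253733100) (nat_lit 152) (nat_lit 14883256117) (nat_lit 228) (nat_lit 234498895522) (nat_lit 25) (nat_lit 5) (nat_lit 27) (nat_lit 5) (nat_lit 28) (nat_lit 5) (nat_lit 371) (nat_lit 337) (nat_lit 192)))) (XT.nd (nat_lit 78) (nat_lit 304) (nat_lit 0) (XT.lf (nat_lit 0) (nat_lit 247245670373) (nat_lit 228) (nat_lit 2451166073) (nat_lit 76) (nat_lit 133369004667) (nat_lit 25) (nat_lit 5) (nat_lit 28) (nat_lit 5) (nat_lit 26) (nat_lit 4) (nat_lit 372) (nat_lit 337) (nat_lit 191))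 (XT.nd (nat_lit 78) (nat_lit 228) (nat_lit 0) (XT.lf (nat_lit 0) (nat_lit 272711262561) (nat_lit 76) (nat_lit 108760225432) (nat_lit 152) (nat_lit 24513284036) (nat_lit 24) (nat_lit 5) (nat_lit 25) (nat_lit 5) (nat_lit 26) (nat_lit 4) (nat_lit 373) (nat_lit 337) (nat_lit 190)) (XT.lf (nat_lit 0) (nat_lit 95640011559) (nat_lit 228) (nat_lit 288991070075) (nat_lit 76) (nat_lit 45881190253) (nat_lit 21) (nat_lit 5) (nat_lit 24) (nat_lit 5) (nat_lit 22) (nat_lit 4) (nat_lit 374) (nat_lit 337) (nat_lit 189))))))))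
noncomputable def xc107 : XT := (XT.nd (nat_lit 44850) (nat_lit 0) (nat_lit 1064) (XT.nd (nat_lit 43992) (nat_lit 0) (nat_lit 5244) (XT.nd (nat_lit 390) (nat_lit 304) (nat_lit 0) (XT.nd (nat_lit 156) (nat_lit 228) (nat_lit 0) (XT.nd (nat_lit 78) (nat_lit 76) (nat_lit 0) (XT.lf (nat_lit 0) (nat_lit 228751435048) (nat_lit 228) (nat_lit 16113058128) (nat_lit 76) (nat_lit 211907151294) (nat_lit 21) (nat_lit 5) (nat_lit 24) (nat_lit 5) (nat_lit 22) (nat_lit 4) (nat_lit 375) (nat_lit 337) (nat_lit 188)) (XT.lf (nat_lit 0) (nat_lit 287806317926) (nat_lit 76) (nat_lit 89198654765) (nat_lit 152) (nat_lit 107902134251) (nat_lit 20) (nat_lit 5) (nat_lit 21) (nat_lit 5) (nat_lit 22) (nat_lit 4) (nat_lit 376) (nat_lit 337) (nat_lit 187))) (XT.nd (nat_lit 78) (nat_lit 76) (nat_lit 0) (XT.lf (nat_lit 0) (nat_lit 24309857522) (nat_lit 152) (nat_lit 412121196218) (nat_lit 76) (nat_lit 78686164022) (nat_lit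 18) (nat_lit 5) (nat_lit 20) (nat_lit 5) (nat_lit 19) (nat_lit 4) (nat_lit 377) (nat_lit 337) (nat_lit 186)) (XT.nd (nat_lit 78) (nat_lit 76) (nat_lit 0) (XT.lf (nat_lit 0) (nat_lit 168362442719) (nat_lit 152) (nat_lit 116813703669) (nat_lit 76) (nat_lit 262227346806) (nat_lit 18) (nat_lit 5) (nat_lit 20) (nat_lit 5) (nat_lit 19) (nat_lit 4) (nat_lit 378) (nat_lit 337) (nat_lit 185)) (XT.lf (nat_lit 0) (nat_lit 208800901567) (nat_lit 76) (nat_lit 118398072659) (nat_lit 152) (nat_lit 254910709533) (nat_lit 17) (nat_lit 5) (nat_lit 18) (nat_lit 5) (nat_lit 19) (nat_lit 4) (nat_lit 379) (nat_lit 337) (nat_lit 184))))) (XT.nd (nat_lit 234) (nat_lit 152) (nat_lit 0) (XT.nd (nat_lit 78) (nat_lit 152) (nat_lit 0) (XT.lf (nat_lit 0) (nat_lit 501774042542) (nat_lit 152) (nat_lit 55851998020) (nat_lit 0) (nat_lit 61814748361) (nat_lit 17) (nat_lit 5) (nat_lit 19) (nat_lit 4) (nat_lit 17) (nat_lit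 4) (nat_lit 380) (nat_lit 337) (nat_lit 183)) (XT.nd (nat_lit 78) (nat_lit 0) (nat_lit 0) (XT.lf (nat_lit 0) (nat_lit 36279861777) (nat_lit 152) (nat_lit 365585809716) (nat_lit 76) (nat_lit 257533800543) (nat_lit 15) (nat_lit 5) (nat_lit 17) (nat_lit 5) (nat_lit 16) (nat_lit 4) (nat_lit 381) (nat_lit 337) (nat_lit 182)) (XT.lf (nat_lit 0) (nat_lit 199463499721) (nat_lit 152) (nat_lit 31059566910) (nat_lit 76) (nat_lit 471883146531) (nat_lit 15) (nat_lit 5) (nat_lit 17) (nat_lit 5) (nat_lit 16) (nat_lit 4) (nat_lit 382) (nat_lit 337) (nat_lit 181)))) (XT.nd (nat_lit 78) (nat_lit 76) (nat_lit 0) (XT.lf (nat_lit 0) (nat_lit 341147276869) (nat_lit 76) (nat_lit 39880633992) (nat_lit 152) (nat_lit 367559278663) (nat_lit 14) (nat_lit 5) (nat_lit 15) (nat_lit 5) (nat_lit 16) (nat_lit 4) (nat_lit 383) (nat_lit 337) (nat_lit 180)) (XT.nd (nat_lit 78) (nat_lit 76) (nat_lit 0) (XT.lf (nat_lit 0) (nat_lit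 580259136342) (nat_lit 152) (nat_lit 56796930864) (nat_lit 0) (nat_lit 161249493763) (nat_lit 14) (nat_lit 5) (nat_lit 16) (nat_lit 4) (nat_lit 14) (nat_lit 4) (nat_lit 384) (nat_lit 337) (nat_lit 179)) (XT.lf (nat_lit 0) (nat_lit 331845860424) (nat_lit 76) (nat_lit 469436339919) (nat_lit 76) (nat_lit 50426534807) (nat_lit 13) (nat_lit 4) (nat_lit 14) (nat_lit 5) (nat_lit 14) (nat_lit 4) (nat_lit 385) (nat_lit 337) (nat_lit 178)))))) (XT.nd (nat_lit 390) (nat_lit 1064) (nat_lit 0) (XT.nd (nat_lit 156) (nat_lit 0) (nat_lit 76) (XT.nd (nat_lit 78) (nat_lit 0) (nat_lit 76) (XT.lf (nat_lit 0) (nat_lit 1682929042) (nat_lit 836) (nat_lit 18150608765) (nat_lit 836) (nat_lit 18150608765) (nat_lit 96) (nat_lit 3) (nat_lit 107) (nat_lit 3) (nat_lit 107) (nat_lit 5) (nat_lit 338) (nat_lit 338) (nat_lit 224)) (XT.lf (nat_lit 0) (nat_lit 4123162851) (nat_lit 760) (nat_lit 57945642211) (nat_lit 836)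 (nat_lit 16907064892) (nat_lit 97) (nat_lit 5) (nat_lit 107) (nat_lit 5) (nat_lit 108) (nat_lit 5) (nat_lit 339) (nat_lit 338) (nat_lit 223))) (XT.nd (nat_lit 78) (nat_lit 0) (nat_lit 76) (XT.lf (nat_lit 76) (nat_lit 1417156183) (nat_lit 0) (nat_lit 4855871660) (nat_lit 836) (nat_lit 75884428412) (nat_lit 98) (nat_lit 5) (nat_lit 97) (nat_lit 5) (nat_lit 108) (nat_lit 5) (nat_lit 340) (nat_lit 338) (nat_lit 222)) (XT.nd (nat_lit 78) (nat_lit 0) (nat_lit 76) (XT.lf (nat_lit 0) (nat_lit 10508107898) (nat_lit 760) (nat_lit 18851430778) (nat_lit 836) (nat_lit 56138371475) (nat_lit 98) (nat_lit 5) (nat_lit 108) (nat_lit 5) (nat_lit 109) (nat_lit 5) (nat_lit 341) (nat_lit 338) (nat_lit 221)) (XT.lf (nat_lit 0) (nat_lit 16458946897) (nat_lit 760) (nat_lit 40097183450) (nat_lit 836) (nat_lit 32480624219) (nat_lit 99) (nat_lit 5) (nat_lit 109) (nat_lit 5) (nat_lit 110) (nat_lit 5) (nat_lit 342)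 (nat_lit 338) (nat_lit 220))))) (XT.nd (nat_lit 234) (nat_lit 1368) (nat_lit 0) (XT.nd (nat_lit 78) (nat_lit 0) (nat_lit 0) (XT.lf (nat_lit 0) (nat_lit 24286711209) (nat_lit 760) (nat_lit 62433319966) (nat_lit 836) (nat_lit 6068634149) (nat_lit 100) (nat_lit 5) (nat_lit 110) (nat_lit 5) (nat_lit 111) (nat_lit 5) (nat_lit 343) (nat_lit 338) (nat_lit 219)) (XT.nd (nat_lit 78) (nat_lit 0) (nat_lit 76) (XT.lf (nat_lit 76) (nat_lit 10438060810) (nat_lit 0) (nat_lit 24127873472) (nat_lit 836) (nat_lit 62183534351) (nat_lit 101) (nat_lit 5) (nat_lit 100) (nat_lit 5) (nat_lit 111) (nat_lit 5) (nat_lit 344) (nat_lit 338) (nat_lit 218)) (XT.lf (nat_lit 0) (nat_lit 47450382113) (nat_lit 760) (nat_lit 10301755562) (nat_lit 76) (nat_lit 43185855645) (nat_lit 101) (nat_lit 5) (nat_lit 111) (nat_lit 5) (nat_lit 102) (nat_lit 5) (nat_lit 345) (nat_lit 338) (nat_lit 217)))) (XT.nd (nat_lit 78) (nat_lit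 684) (nat_lit 0) (XT.lf (nat_lit 0) (nat_lit 63091519749) (nat_lit 836) (nat_lit 31811653319) (nat_lit 76) (nat_lit 10472131564) (nat_lit 91) (nat_lit 5) (nat_lit 102) (nat_lit 5) (nat_lit 92) (nat_lit 5) (nat_lit 346) (nat_lit 338) (nat_lit 216)) (XT.nd (nat_lit 78) (nat_lit 304) (nat_lit 0) (XT.lf (nat_lit 0) (nat_lit 55134421090) (nat_lit 380) (nat_lit 26865482418) (nat_lit 456) (nat_lit 28066900833) (nat_lit 86) (nat_lit 5) (nat_lit 91) (nat_lit 5) (nat_lit 92) (nat_lit 5) (nat_lit 347) (nat_lit 338) (nat_lit 215)) (XT.lf (nat_lit 0) (nat_lit 35463402284) (nat_lit 304) (nat_lit 68801272418) (nat_lit 380) (nat_lit 10776764645) (nat_lit 82) (nat_lit 5) (nat_lit 86) (nat_lit 5) (nat_lit 87) (nat_lit 5) (nat_lit 348) (nat_lit 338) (nat_lit 214))))))) (XT.nd (nat_lit 858) (nat_lit 1596) (nat_lit 0) (XT.nd (nat_lit 390) (nat_lit 1292) (nat_lit 0) (XT.nd (nat_lit 156) (nat_lit 836) (nat_lit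 0) (XT.nd (nat_lit 78) (nat_lit 0) (nat_lit 0) (XT.lf (nat_lit 0) (nat_lit 9377963877) (nat_lit 456) (nat_lit 105848188447) (nat_lit 76) (nat_lit 5095023391) (nat_lit 76) (nat_lit 5) (nat_lit 82) (nat_lit 5) (nat_lit 77) (nat_lit 5) (nat_lit 349) (nat_lit 338) (nat_lit 213)) (XT.lf (nat_lit 0) (nat_lit 33340702426) (nat_lit 456) (nat_lit 8429743269) (nat_lit 76) (nat_lit 84115352974) (nat_lit 76) (nat_lit 5) (nat_lit 82) (nat_lit 5) (nat_lit 77) (nat_lit 5) (nat_lit 350) (nat_lit 338) (nat_lit 212))) (XT.nd (nat_lit 78) (nat_lit 532) (nat_lit 0) (XT.lf (nat_lit 0) (nat_lit 61392657297) (nat_lit 380) (nat_lit 32448345023) (nat_lit 76) (nat_lit 37945980152) (nat_lit 72) (nat_lit 5) (nat_lit 77) (nat_lit 5) (nat_lit 73) (nat_lit 5) (nat_lit 351) (nat_lit 338) (nat_lit 211)) (XT.nd (nat_lit 78) (nat_lit 228) (nat_lit 0) (XT.lf (nat_lit 0) (nat_lit 79720484315) (nat_lit 304) (nat_lit 14065741023)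 (nat_lit 380) (nat_lit 44269163611) (nat_lit 68) (nat_lit 5) (nat_lit 72) (nat_lit 5) (nat_lit 73) (nat_lit 5) (nat_lit 352) (nat_lit 338) (nat_lit 210)) (XT.lf (nat_lit 0) (nat_lit 57943341657) (nat_lit 228) (nat_lit 73431905361) (nat_lit 304) (nat_lit 13319823265) (nat_lit 65) (nat_lit 5) (nat_lit 68) (nat_lit 5) (nat_lit 69) (nat_lit 5) (nat_lit 353) (nat_lit 338) (nat_lit 209))))) (XT.nd (nat_lit 234) (nat_lit 684) (nat_lit 0) (XT.nd (nat_lit 78) (nat_lit 228) (nat_lit 0) (XT.lf (nat_lit 0) (nat_lit 21470922585) (nat_lit 380) (nat_lit 117642077011) (nat_lit 76) (nat_lit 12636784123) (nat_lit 60) (nat_lit 5) (nat_lit 65) (nat_lit 5) (nat_lit 61) (nat_lit 5) (nat_lit 354) (nat_lit 338) (nat_lit 208)) (XT.nd (nat_lit 78) (nat_lit 0) (nat_lit 0) (XT.lf (nat_lit 0) (nat_lit 7181856443) (nat_lit 228) (nat_lit 54288234297) (nat_lit 304) (nat_lit 97743274996) (nat_lit 57) (nat_lit 5) (nat_lit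 60) (nat_lit 5) (nat_lit 61) (nat_lit 5) (nat_lit 355) (nat_lit 338) (nat_lit 207)) (XT.lf (nat_lit 0) (nat_lit 107334105865) (nat_lit 304) (nat_lit 21596098629) (nat_lit 76) (nat_lit 38210584712) (nat_lit 57) (nat_lit 5) (nat_lit 61) (nat_lit 5) (nat_lit 58) (nat_lit 5) (nat_lit 356) (nat_lit 338) (nat_lit 206)))) (XT.nd (nat_lit 78) (nat_lit 456) (nat_lit 0) (XT.lf (nat_lit 0) (nat_lit 122271370678) (nat_lit 228) (nat_lit 37419677574) (nat_lit 304) (nat_lit 15870168522) (nat_lit 54) (nat_lit 5) (nat_lit 57) (nat_lit 5) (nat_lit 58) (nat_lit 5) (nat_lit 357) (nat_lit 338) (nat_lit 205)) (XT.nd (nat_lit 78) (nat_lit 228) (nat_lit 0) (XT.lf (nat_lit 0) (nat_lit 33454641509) (nat_lit 228) (nat_lit 89166862038) (nat_lit 76) (nat_lit 61864913268) (nat_lit 51) (nat_lit 5) (nat_lit 54) (nat_lit 5) (nat_lit 52) (nat_lit 5) (nat_lit 358) (nat_lit 338) (nat_lit 204)) (XT.lf (nat_lit 0) (nat_lit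 64800908664) (nat_lit 228) (nat_lit 23961584780) (nat_lit 304) (nat_lit 105220477985) (nat_lit 48) (nat_lit 5) (nat_lit 51) (nat_lit 5) (nat_lit 52) (nat_lit 5) (nat_lit 359) (nat_lit 338) (nat_lit 203)))))) (XT.nd (nat_lit 468) (nat_lit 608) (nat_lit 0) (XT.nd (nat_lit 234) (nat_lit 532) (nat_lit 0) (XT.nd (nat_lit 78) (nat_lit 304) (nat_lit 0) (XT.lf (nat_lit 0) (nat_lit 29744930879) (nat_lit 152) (nat_lit 122082096750) (nat_lit 228) (nat_lit 52245620475) (nat_lit 46) (nat_lit 5) (nat_lit 48) (nat_lit 5) (nat_lit 49) (nat_lit 5) (nat_lit 360) (nat_lit 338) (nat_lit 202)) (XT.nd (nat_lit 78) (nat_lit 228) (nat_lit 0) (XT.lf (nat_lit 0) (nat_lit 7498937036) (nat_lit 228) (nat_lit 9377095497) (nat_lit 76) (nat_lit 197955054431) (nat_lit 45) (nat_lit 5) (nat_lit 48) (nat_lit 5) (nat_lit 46) (nat_lit 5) (nat_lit 361) (nat_lit 338) (nat_lit 201)) (XT.lf (nat_lit 0) (nat_lit 74493818059) (nat_lit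 304) (nat_lit 54401053891) (nat_lit 76) (nat_lit 97297445480) (nat_lit 42) (nat_lit 5) (nat_lit 46) (nat_lit 5) (nat_lit 43) (nat_lit 5) (nat_lit 362) (nat_lit 338) (nat_lit 200)))) (XT.nd (nat_lit 78) (nat_lit 380) (nat_lit 0) (XT.lf (nat_lit 0) (nat_lit 133312564531) (nat_lit 152) (nat_lit 16067245992) (nat_lit 228) (nat_lit 88956060064) (nat_lit 40) (nat_lit 5) (nat_lit 42) (nat_lit 5) (nat_lit 43) (nat_lit 5) (nat_lit 363) (nat_lit 338) (nat_lit 199)) (XT.nd (nat_lit 78) (nat_lit 228) (nat_lit 0) (XT.lf (nat_lit 0) (nat_lit 87722204415) (nat_lit 152) (nat_lit 146518434123) (nat_lit 228) (nat_lit 17011071927) (nat_lit 38) (nat_lit 5) (nat_lit 40) (nat_lit 5) (nat_lit 41) (nat_lit 5) (nat_lit 364) (nat_lit 338) (nat_lit 198)) (XT.lf (nat_lit 0) (nat_lit 34379605177) (nat_lit 152) (nat_lit 27034170451) (nat_lit 228) (nat_lit 203606330285) (nat_lit 35) (nat_lit 5) (nat_lit 37) (nat_lit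 5) (nat_lit 38) (nat_lit 5) (nat_lit 365) (nat_lit 338) (nat_lit 197))))) (XT.nd (nat_lit 234) (nat_lit 304) (nat_lit 0) (XT.nd (nat_lit 78) (nat_lit 304) (nat_lit 0) (XT.lf (nat_lit 0) (nat_lit 150012120158) (nat_lit 228) (nat_lit 27713347248) (nat_lit 76) (nat_lit 101925787605) (nat_lit 35) (nat_lit 5) (nat_lit 38) (nat_lit 5) (nat_lit 36) (nat_lit 5) (nat_lit 366) (nat_lit 338) (nat_lit 196)) (XT.nd (nat_lit 78) (nat_lit 152) (nat_lit 0) (XT.lf (nat_lit 0) (nat_lit 197306569096) (nat_lit 152) (nat_lit 51927752576) (nat_lit 228) (nat_lit 46041775102) (nat_lit 33) (nat_lit 5) (nat_lit 35) (nat_lit 5) (nat_lit 36) (nat_lit 5) (nat_lit 367) (nat_lit 338) (nat_lit 195)) (XT.lf (nat_lit 0) (nat_lit 46753845234) (nat_lit 152) (nat_lit 180611859413) (nat_lit 76) (nat_lit 84554356461) (nat_lit 31) (nat_lit 5) (nat_lit 33) (nat_lit 5) (nat_lit 32) (nat_lit 5) (nat_lit 368) (nat_lit 338) (nat_lit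 194)))) (XT.nd (nat_lit 78) (nat_lit 152) (nat_lit 0) (XT.lf (nat_lit 0) (nat_lit 52620064929) (nat_lit 152) (nat_lit 96192883063) (nat_lit 228) (nat_lit 180872209993) (nat_lit 29) (nat_lit 5) (nat_lit 31) (nat_lit 5) (nat_lit 32) (nat_lit 5) (nat_lit 369) (nat_lit 338) (nat_lit 193)) (XT.nd (nat_lit 78) (nat_lit 152) (nat_lit 0) (XT.lf (nat_lit 0) (nat_lit 262944144039) (nat_lit 228) (nat_lit 38516136964) (nat_lit 76) (nat_lit 47215813515) (nat_lit 29) (nat_lit 5) (nat_lit 32) (nat_lit 5) (nat_lit 30) (nat_lit 4) (nat_lit 370) (nat_lit 338) (nat_lit 192)) (XT.lf (nat_lit 0) (nat_lit 21688548363) (nat_lit 152) (nat_lit 144594074341) (nat_lit 76) (nat_lit 202629709791) (nat_lit 27) (nat_lit 5) (nat_lit 29) (nat_lit 5) (nat_lit 28) (nat_lit 5) (nat_lit 371) (nat_lit 338) (nat_lit 191))))))))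
noncomputable def xc108 : XT := (XT.nd (nat_lit 44928) (nat_lit 0) (nat_lit 1444) (XT.nd (nat_lit 858) (nat_lit 76) (nat_lit 0) (XT.nd (nat_lit 390) (nat_lit 456) (nat_lit 0) (XT.nd (nat_lit 156) (nat_lit 304) (nat_lit 0) (XT.nd (nat_lit 78) (nat_lit 0) (nat_lit 0) (XT.lf (nat_lit 0) (nat_lit 121244348881) (nat_lit 152) (nat_lit 16069460732) (nat_lit 228) (nat_lit 253252650313) (nat_lit 25) (nat_lit 5) (nat_lit 27) (nat_lit 5) (nat_lit 28) (nat_lit 5) (nat_lit 372) (nat_lit 338) (nat_lit 190)) (XT.lf (nat_lit 0) (nat_lit 267030815510) (nat_lit 228) (nat_lit 2637497177) (nat_lit 76) (nat_lit 144042518798) (nat_lit 25) (nat_lit 5) (nat_lit 28) (nat_lit 5) (nat_lit 26) (nat_lit 4) (nat_lit 373) (nat_lit 338) (nat_lit 189))) (XT.nd (nat_lit 78) (nat_lit 228) (nat_lit 0) (XT.lf (nat_lit 0) (nat_lit 294537501495) (nat_lit 76) (nat_lit 117456936058) (nat_lit 152) (nat_lit 26468852545) (nat_lit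 24) (nat_lit 5) (nat_lit 25) (nat_lit 5) (nat_lit 26) (nat_lit 4) (nat_lit 374) (nat_lit 338) (nat_lit 188)) (XT.nd (nat_lit 78) (nat_lit 0) (nat_lit 0) (XT.lf (nat_lit 0) (nat_lit 103296342018) (nat_lit 228) (nat_lit 312101061157) (nat_lit 76) (nat_lit 49555592075) (nat_lit 21) (nat_lit 5) (nat_lit 24) (nat_lit 5) (nat_lit 22) (nat_lit 4) (nat_lit 375) (nat_lit 338) (nat_lit 187)) (XT.lf (nat_lit 0) (nat_lit 247056299420) (nat_lit 228) (nat_lit 17393496737) (nat_lit 76) (nat_lit 228863340621) (nat_lit 21) (nat_lit 5) (nat_lit 24) (nat_lit 5) (nat_lit 22) (nat_lit 4) (nat_lit 376) (nat_lit 338) (nat_lit 186))))) (XT.nd (nat_lit 234) (nat_lit 228) (nat_lit 0) (XT.nd (nat_lit 78) (nat_lit 152) (nat_lit 0) (XT.lf (nat_lit 0) (nat_lit 310839055393) (nat_lit 76) (nat_lit 96330841387) (nat_lit 152) (nat_lit 116529550764) (nat_lit 20) (nat_lit 5) (nat_lit 21) (nat_lit 5) (nat_lit 22) (nat_lit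 4) (nat_lit 377) (nat_lit 338) (nat_lit 185)) (XT.nd (nat_lit 78) (nat_lit 0) (nat_lit 0) (XT.lf (nat_lit 0) (nat_lit 26259089279) (nat_lit 152) (nat_lit 445082706577) (nat_lit 76) (nat_lit 84984575724) (nat_lit 18) (nat_lit 5) (nat_lit 20) (nat_lit 5) (nat_lit 19) (nat_lit 4) (nat_lit 378) (nat_lit 338) (nat_lit 184)) (XT.lf (nat_lit 0) (nat_lit 181835552168) (nat_lit 152) (nat_lit 126151220945) (nat_lit 76) (nat_lit 283208792496) (nat_lit 18) (nat_lit 5) (nat_lit 20) (nat_lit 5) (nat_lit 19) (nat_lit 4) (nat_lit 379) (nat_lit 338) (nat_lit 183)))) (XT.nd (nat_lit 78) (nat_lit 152) (nat_lit 0) (XT.lf (nat_lit 0) (nat_lit 225512223334) (nat_lit 76) (nat_lit 127866591306) (nat_lit 152) (nat_lit 275299446456) (nat_lit 17) (nat_lit 5) (nat_lit 18) (nat_lit 5) (nat_lit 19) (nat_lit 4) (nat_lit 380) (nat_lit 338) (nat_lit 182)) (XT.nd (nat_lit 78) (nat_lit 152) (nat_lit 0) (XT.lf (nat_lit 0)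 (nat_lit 541919645966) (nat_lit 152) (nat_lit 60313310585) (nat_lit 0) (nat_lit 66762910338) (nat_lit 17) (nat_lit 5) (nat_lit 19) (nat_lit 4) (nat_lit 17) (nat_lit 4) (nat_lit 381) (nat_lit 338) (nat_lit 181)) (XT.lf (nat_lit 0) (nat_lit 39185818969) (nat_lit 152) (nat_lit 394826005797) (nat_lit 76) (nat_lit 278139425608) (nat_lit 15) (nat_lit 5) (nat_lit 17) (nat_lit 5) (nat_lit 16) (nat_lit 4) (nat_lit 382) (nat_lit 338) (nat_lit 180)))))) (XT.nd (nat_lit 43602) (nat_lit 0) (nat_lit 6308) (XT.nd (nat_lit 156) (nat_lit 0) (nat_lit 0) (XT.nd (nat_lit 78) (nat_lit 76) (nat_lit 0) (XT.lf (nat_lit 0) (nat_lit 215423883634) (nat_lit 152) (nat_lit 33538157544) (nat_lit 76) (nat_lit 509636502903) (nat_lit 15) (nat_lit 5) (nat_lit 17) (nat_lit 5) (nat_lit 16) (nat_lit 4) (nat_lit 383) (nat_lit 338) (nat_lit 179)) (XT.lf (nat_lit 0) (nat_lit 368444965392) (nat_lit 76) (nat_lit 43068329752) (nat_lit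 152) (nat_lit 396960711103) (nat_lit 14) (nat_lit 5) (nat_lit 15) (nat_lit 5) (nat_lit 16) (nat_lit 4) (nat_lit 384) (nat_lit 338) (nat_lit 178))) (XT.nd (nat_lit 43290) (nat_lit 0) (nat_lit 6232) (XT.lf (nat_lit 0) (nat_lit 626682825053) (nat_lit 152) (nat_lit 61335109593) (nat_lit 0) (nat_lit 174151922507) (nat_lit 14) (nat_lit 5) (nat_lit 16) (nat_lit 4) (nat_lit 14) (nat_lit 4) (nat_lit 385) (nat_lit 338) (nat_lit 177)) (XT.nd (nat_lit 78) (nat_lit 0) (nat_lit 76) (XT.lf (nat_lit 0) (nat_lit 1834315208) (nat_lit 836) (nat_lit 19593852309) (nat_lit 836) (nat_lit 19593852309) (nat_lit 96) (nat_lit 3) (nat_lit 107) (nat_lit 3) (nat_lit 107) (nat_lit 5) (nat_lit 339) (nat_lit 339) (nat_lit 222)) (XT.lf (nat_lit 0) (nat_lit 4484075358) (nat_lit 760) (nat_lit 62562620235) (nat_lit 836) (nat_lit 18245652316) (nat_lit 97) (nat_lit 5) (nat_lit 107) (nat_lit 5) (nat_lit 108) (nat_lit 5) (nat_lit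 340) (nat_lit 339) (nat_lit 221))))) (XT.nd (nat_lit 234) (nat_lit 0) (nat_lit 228) (XT.nd (nat_lit 78) (nat_lit 0) (nat_lit 76) (XT.lf (nat_lit 76) (nat_lit 1548390510) (nat_lit 0) (nat_lit 5255517212) (nat_lit 836) (nat_lit 81924657350) (nat_lit 98) (nat_lit 5) (nat_lit 97) (nat_lit 5) (nat_lit 108) (nat_lit 5) (nat_lit 341) (nat_lit 339) (nat_lit 220)) (XT.nd (nat_lit 78) (nat_lit 0) (nat_lit 76) (XT.lf (nat_lit 0) (nat_lit 11375481682) (nat_lit 760) (nat_lit 20341467460) (nat_lit 836) (nat_lit 60619424413) (nat_lit 98) (nat_lit 5) (nat_lit 108) (nat_lit 5) (nat_lit 109) (nat_lit 5) (nat_lit 342) (nat_lit 339) (nat_lit 219)) (XT.lf (nat_lit 0) (nat_lit 17800557556) (nat_lit 760) (nat_lit 43286263931) (nat_lit 836) (nat_lit 35071598003) (nat_lit 99) (nat_lit 5) (nat_lit 109) (nat_lit 5) (nat_lit 110) (nat_lit 5) (nat_lit 343) (nat_lit 339) (nat_lit 218)))) (XT.nd (nat_lit 78) (nat_lit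 0) (nat_lit 0) (XT.lf (nat_lit 0) (nat_lit 26252893067) (nat_lit 760) (nat_lit 67408823810) (nat_lit 836) (nat_lit 6548851002) (nat_lit 100) (nat_lit 5) (nat_lit 110) (nat_lit 5) (nat_lit 111) (nat_lit 5) (nat_lit 344) (nat_lit 339) (nat_lit 217)) (XT.nd (nat_lit 78) (nat_lit 0) (nat_lit 76) (XT.lf (nat_lit 76) (nat_lit 11291434681) (nat_lit 0) (nat_lit 26061583624) (nat_lit 836) (nat_lit 67135291039) (nat_lit 101) (nat_lit 5) (nat_lit 100) (nat_lit 5) (nat_lit 111) (nat_lit 5) (nat_lit 345) (nat_lit 339) (nat_lit 216)) (XT.lf (nat_lit 0) (nat_lit 51266556148) (nat_lit 760) (nat_lit 11107840337) (nat_lit 76) (nat_lit 46637604760) (nat_lit 101) (nat_lit 5) (nat_lit 111) (nat_lit 5) (nat_lit 102) (nat_lit 5) (nat_lit 346) (nat_lit 339) (nat_lit 215))))))) (XT.nd (nat_lit 858) (nat_lit 1824) (nat_lit 0) (XT.nd (nat_lit 390) (nat_lit 1444) (nat_lit 0) (XT.nd (nat_lit 156) (nat_lit 760) (nat_lit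 0) (XT.nd (nat_lit 78) (nat_lit 380) (nat_lit 0) (XT.lf (nat_lit 0) (nat_lit 68157736574) (nat_lit 836) (nat_lit 34338320219) (nat_lit 76) (nat_lit 11308304886) (nat_lit 91) (nat_lit 5) (nat_lit 102) (nat_lit 5) (nat_lit 92) (nat_lit 5) (nat_lit 347) (nat_lit 339) (nat_lit 214)) (XT.lf (nat_lit 0) (nat_lit 59562646353) (nat_lit 380) (nat_lit 29015017813) (nat_lit 456) (nat_lit 30293575213) (nat_lit 86) (nat_lit 5) (nat_lit 91) (nat_lit 5) (nat_lit 92) (nat_lit 5) (nat_lit 348) (nat_lit 339) (nat_lit 213))) (XT.nd (nat_lit 78) (nat_lit 456) (nat_lit 0) (XT.lf (nat_lit 0) (nat_lit 38318060973) (nat_lit 304) (nat_lit 74304510191) (nat_lit 380) (nat_lit 11621327864) (nat_lit 82) (nat_lit 5) (nat_lit 86) (nat_lit 5) (nat_lit 87) (nat_lit 5) (nat_lit 349) (nat_lit 339) (nat_lit 212)) (XT.nd (nat_lit 78) (nat_lit 0) (nat_lit 0) (XT.lf (nat_lit 0) (nat_lit 10144248363) (nat_lit 456) (nat_lit 114297868262)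 (nat_lit 76) (nat_lit 5503933722) (nat_lit 76) (nat_lit 5) (nat_lit 82) (nat_lit 5) (nat_lit 77) (nat_lit 5) (nat_lit 350) (nat_lit 339) (nat_lit 211)) (XT.lf (nat_lit 0) (nat_lit 36022817301) (nat_lit 456) (nat_lit 9087293785) (nat_lit 76) (nat_lit 90845792748) (nat_lit 76) (nat_lit 5) (nat_lit 82) (nat_lit 5) (nat_lit 77) (nat_lit 5) (nat_lit 351) (nat_lit 339) (nat_lit 210))))) (XT.nd (nat_lit 234) (nat_lit 608) (nat_lit 0) (XT.nd (nat_lit 78) (nat_lit 532) (nat_lit 0) (XT.lf (nat_lit 0) (nat_lit 66318111850) (nat_lit 380) (nat_lit 35027432556) (nat_lit 76) (nat_lit 40983679941) (nat_lit 72) (nat_lit 5) (nat_lit 77) (nat_lit 5) (nat_lit 73) (nat_lit 5) (nat_lit 352) (nat_lit 339) (nat_lit 209)) (XT.nd (nat_lit 78) (nat_lit 228) (nat_lit 0) (XT.lf (nat_lit 0) (nat_lit 86114173887) (nat_lit 304) (nat_lit 15188201899) (nat_lit 380) (nat_lit 47796768116) (nat_lit 68) (nat_lit 5) (nat_lit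 72) (nat_lit 5) (nat_lit 73) (nat_lit 5) (nat_lit 353) (nat_lit 339) (nat_lit 208)) (XT.lf (nat_lit 0) (nat_lit 62594767252) (nat_lit 228) (nat_lit 79303059896) (nat_lit 304) (nat_lit 14372208202) (nat_lit 65) (nat_lit 5) (nat_lit 68) (nat_lit 5) (nat_lit 69) (nat_lit 5) (nat_lit 354) (nat_lit 339) (nat_lit 207)))) (XT.nd (nat_lit 78) (nat_lit 228) (nat_lit 0) (XT.lf (nat_lit 0) (nat_lit 23200729332) (nat_lit 380) (nat_lit 127037204237) (nat_lit 76) (nat_lit 13651215145) (nat_lit 60) (nat_lit 5) (nat_lit 65) (nat_lit 5) (nat_lit 61) (nat_lit 5) (nat_lit 355) (nat_lit 339) (nat_lit 206)) (XT.nd (nat_lit 78) (nat_lit 0) (nat_lit 0) (XT.lf (nat_lit 0) (nat_lit 7771938169) (nat_lit 228) (nat_lit 58627236551) (nat_lit 304) (nat_lit 105550676202) (nat_lit 57) (nat_lit 5) (nat_lit 60) (nat_lit 5) (nat_lit 61) (nat_lit 5) (nat_lit 356) (nat_lit 339) (nat_lit 205)) (XT.lf (nat_lit 0) (nat_lit 115931519569)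 (nat_lit 304) (nat_lit 23308921750) (nat_lit 76) (nat_lit 41271067283) (nat_lit 57) (nat_lit 5) (nat_lit 61) (nat_lit 5) (nat_lit 58) (nat_lit 5) (nat_lit 357) (nat_lit 339) (nat_lit 204)))))) (XT.nd (nat_lit 390) (nat_lit 912) (nat_lit 0) (XT.nd (nat_lit 156) (nat_lit 456) (nat_lit 0) (XT.nd (nat_lit 78) (nat_lit 228) (nat_lit 0) (XT.lf (nat_lit 0) (nat_lit 132067299097) (nat_lit 228) (nat_lit 40409148747) (nat_lit 304) (nat_lit 17129151709) (nat_lit 54) (nat_lit 5) (nat_lit 57) (nat_lit 5) (nat_lit 58) (nat_lit 5) (nat_lit 358) (nat_lit 339) (nat_lit 203)) (XT.lf (nat_lit 0) (nat_lit 36140823615) (nat_lit 228) (nat_lit 96285847114) (nat_lit 76) (nat_lit 66818161153) (nat_lit 51) (nat_lit 5) (nat_lit 54) (nat_lit 5) (nat_lit 52) (nat_lit 5) (nat_lit 359) (nat_lit 339) (nat_lit 202))) (XT.nd (nat_lit 78) (nat_lit 228) (nat_lit 0) (XT.lf (nat_lit 0) (nat_lit 69998721008) (nat_lit 228) (nat_lit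 25874070487) (nat_lit 304) (nat_lit 113628345553) (nat_lit 48) (nat_lit 5) (nat_lit 51) (nat_lit 5) (nat_lit 52) (nat_lit 5) (nat_lit 360) (nat_lit 339) (nat_lit 201)) (XT.nd (nat_lit 78) (nat_lit 76) (nat_lit 0) (XT.lf (nat_lit 0) (nat_lit 32138053145) (nat_lit 152) (nat_lit 131844021893) (nat_lit 228) (nat_lit 56415934017) (nat_lit 46) (nat_lit 5) (nat_lit 48) (nat_lit 5) (nat_lit 49) (nat_lit 5) (nat_lit 361) (nat_lit 339) (nat_lit 200)) (XT.lf (nat_lit 0) (nat_lit 8107219853) (nat_lit 228) (nat_lit 10114454869) (nat_lit 76) (nat_lit 213795474955) (nat_lit 45) (nat_lit 5) (nat_lit 48) (nat_lit 5) (nat_lit 46) (nat_lit 5) (nat_lit 362) (nat_lit 339) (nat_lit 199))))) (XT.nd (nat_lit 234) (nat_lit 380) (nat_lit 0) (XT.nd (nat_lit 78) (nat_lit 304) (nat_lit 0) (XT.lf (nat_lit 0) (nat_lit 80461330127) (nat_lit 304) (nat_lit 58740551511) (nat_lit 76) (nat_lit 105085415437) (nat_lit 42) (nat_lit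 5) (nat_lit 46) (nat_lit 5) (nat_lit 43) (nat_lit 5) (nat_lit 363) (nat_lit 339) (nat_lit 198)) (XT.nd (nat_lit 78) (nat_lit 152) (nat_lit 0) (XT.lf (nat_lit 0) (nat_lit 143989609382) (nat_lit 152) (nat_lit 17348187495) (nat_lit 228) (nat_lit 96064558264) (nat_lit 40) (nat_lit 5) (nat_lit 42) (nat_lit 5) (nat_lit 43) (nat_lit 5) (nat_lit 364) (nat_lit 339) (nat_lit 197)) (XT.lf (nat_lit 0) (nat_lit 94751799303) (nat_lit 152) (nat_lit 158235377436) (nat_lit 228) (nat_lit 18364301562) (nat_lit 38) (nat_lit 5) (nat_lit 40) (nat_lit 5) (nat_lit 41) (nat_lit 5) (nat_lit 365) (nat_lit 339) (nat_lit 196)))) (XT.nd (nat_lit 78) (nat_lit 152) (nat_lit 0) (XT.lf (nat_lit 0) (nat_lit 37141517132) (nat_lit 152) (nat_lit 29192402880) (nat_lit 228) (nat_lit 219887438161) (nat_lit 35) (nat_lit 5) (nat_lit 37) (nat_lit 5) (nat_lit 38) (nat_lit 5) (nat_lit 366) (nat_lit 339) (nat_lit 195)) (XT.nd (nat_lit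 78) (nat_lit 152) (nat_lit 0) (XT.lf (nat_lit 0) (nat_lit 162019675521) (nat_lit 228) (nat_lit 29919461808) (nat_lit 76) (nat_lit 110083885002) (nat_lit 35) (nat_lit 5) (nat_lit 38) (nat_lit 5) (nat_lit 36) (nat_lit 5) (nat_lit 367) (nat_lit 339) (nat_lit 194)) (XT.lf (nat_lit 0) (nat_lit 213101571830) (nat_lit 152) (nat_lit 56077757071) (nat_lit 228) (nat_lit 49718539028) (nat_lit 33) (nat_lit 5) (nat_lit 35) (nat_lit 5) (nat_lit 36) (nat_lit 5) (nat_lit 368) (nat_lit 339) (nat_lit 193))))))))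
noncomputable def xc109 : XT := (XT.nd (nat_lit 45006) (nat_lit 0) (nat_lit 1824) (XT.nd (nat_lit 858) (nat_lit 304) (nat_lit 0) (XT.nd (nat_lit 390) (nat_lit 532) (nat_lit 0) (XT.nd (nat_lit 156) (nat_lit 304) (nat_lit 0) (XT.nd (nat_lit 78) (nat_lit 152) (nat_lit 0) (XT.lf (nat_lit 0) (nat_lit 50500273510) (nat_lit 152) (nat_lit 195050340944) (nat_lit 76) (nat_lit 91322742414) (nat_lit 31) (nat_lit 5) (nat_lit 33) (nat_lit 5) (nat_lit 32) (nat_lit 5) (nat_lit 369) (nat_lit 339) (nat_lit 192)) (XT.lf (nat_lit 0) (nat_lit 56839682453) (nat_lit 152) (nat_lit 103884124973) (nat_lit 228) (nat_lit 195335869151) (nat_lit 29) (nat_lit 5) (nat_lit 31) (nat_lit 5) (nat_lit 32) (nat_lit 5) (nat_lit 370) (nat_lit 339) (nat_lit 191))) (XT.nd (nat_lit 78) (nat_lit 304) (nat_lit 0) (XT.lf (nat_lit 0) (nat_lit 283985128333) (nat_lit 228) (nat_lit 41587945533) (nat_lit 76) (nat_lit 50996832919) (nat_lit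 29) (nat_lit 5) (nat_lit 32) (nat_lit 5) (nat_lit 30) (nat_lit 4) (nat_lit 371) (nat_lit 339) (nat_lit 190)) (XT.nd (nat_lit 78) (nat_lit 152) (nat_lit 0) (XT.lf (nat_lit 0) (nat_lit 23428910176) (nat_lit 152) (nat_lit 156152353139) (nat_lit 76) (nat_lit 218843789540) (nat_lit 27) (nat_lit 5) (nat_lit 29) (nat_lit 5) (nat_lit 28) (nat_lit 5) (nat_lit 372) (nat_lit 339) (nat_lit 189)) (XT.lf (nat_lit 0) (nat_lit 130952742071) (nat_lit 152) (nat_lit 17351197396) (nat_lit 228) (nat_lit 273507583831) (nat_lit 25) (nat_lit 5) (nat_lit 27) (nat_lit 5) (nat_lit 28) (nat_lit 5) (nat_lit 373) (nat_lit 339) (nat_lit 188))))) (XT.nd (nat_lit 234) (nat_lit 228) (nat_lit 0) (XT.nd (nat_lit 78) (nat_lit 304) (nat_lit 0) (XT.lf (nat_lit 0) (nat_lit 288397988834) (nat_lit 228) (nat_lit 2840127454) (nat_lit 76) (nat_lit 155569344306) (nat_lit 25) (nat_lit 5) (nat_lit 28) (nat_lit 5) (nat_lit 26) (nat_lit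 4) (nat_lit 374) (nat_lit 339) (nat_lit 187)) (XT.nd (nat_lit 78) (nat_lit 228) (nat_lit 0) (XT.lf (nat_lit 0) (nat_lit 318108507384) (nat_lit 76) (nat_lit 126849969501) (nat_lit 152) (nat_lit 28581650345) (nat_lit 24) (nat_lit 5) (nat_lit 25) (nat_lit 5) (nat_lit 26) (nat_lit 4) (nat_lit 375) (nat_lit 339) (nat_lit 186)) (XT.lf (nat_lit 0) (nat_lit 111564447128) (nat_lit 228) (nat_lit 337061177493) (nat_lit 76) (nat_lit 53523388723) (nat_lit 21) (nat_lit 5) (nat_lit 24) (nat_lit 5) (nat_lit 22) (nat_lit 4) (nat_lit 376) (nat_lit 339) (nat_lit 185)))) (XT.nd (nat_lit 78) (nat_lit 228) (nat_lit 0) (XT.lf (nat_lit 0) (nat_lit 266824875364) (nat_lit 228) (nat_lit 18777598183) (nat_lit 76) (nat_lit 247175509057) (nat_lit 21) (nat_lit 5) (nat_lit 24) (nat_lit 5) (nat_lit 22) (nat_lit 4) (nat_lit 377) (nat_lit 339) (nat_lit 184)) (XT.nd (nat_lit 78) (nat_lit 152) (nat_lit 0) (XT.lf (nat_lit 0)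 (nat_lit 335713237466) (nat_lit 76) (nat_lit 104034131607) (nat_lit 152) (nat_lit 125847838843) (nat_lit 20) (nat_lit 5) (nat_lit 21) (nat_lit 5) (nat_lit 22) (nat_lit 4) (nat_lit 378) (nat_lit 339) (nat_lit 183)) (XT.lf (nat_lit 0) (nat_lit 28363625710) (nat_lit 152) (nat_lit 480682305496) (nat_lit 76) (nat_lit 91786358398) (nat_lit 18) (nat_lit 5) (nat_lit 20) (nat_lit 5) (nat_lit 19) (nat_lit 4) (nat_lit 379) (nat_lit 339) (nat_lit 182)))))) (XT.nd (nat_lit 390) (nat_lit 76) (nat_lit 0) (XT.nd (nat_lit 156) (nat_lit 152) (nat_lit 0) (XT.nd (nat_lit 78) (nat_lit 76) (nat_lit 0) (XT.lf (nat_lit 0) (nat_lit 196385923461) (nat_lit 152) (nat_lit 136236820836) (nat_lit 76) (nat_lit 305868289058) (nat_lit 18) (nat_lit 5) (nat_lit 20) (nat_lit 5) (nat_lit 19) (nat_lit 4) (nat_lit 380) (nat_lit 339) (nat_lit 181)) (XT.lf (nat_lit 0) (nat_lit 243559416601) (nat_lit 76) (nat_lit 138093066102) (nat_lit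 152) (nat_lit 297319870075) (nat_lit 17) (nat_lit 5) (nat_lit 18) (nat_lit 5) (nat_lit 19) (nat_lit 4) (nat_lit 381) (nat_lit 339) (nat_lit 180))) (XT.nd (nat_lit 78) (nat_lit 152) (nat_lit 0) (XT.lf (nat_lit 0) (nat_lit 585276372668) (nat_lit 152) (nat_lit 65132504996) (nat_lit 0) (nat_lit 72106499841) (nat_lit 17) (nat_lit 5) (nat_lit 19) (nat_lit 4) (nat_lit 17) (nat_lit 4) (nat_lit 382) (nat_lit 339) (nat_lit 179)) (XT.nd (nat_lit 78) (nat_lit 0) (nat_lit 0) (XT.lf (nat_lit 0) (nat_lit 42323743686) (nat_lit 152) (nat_lit 426406368929) (nat_lit 76) (nat_lit 300393083962) (nat_lit 15) (nat_lit 5) (nat_lit 17) (nat_lit 5) (nat_lit 16) (nat_lit 4) (nat_lit 383) (nat_lit 339) (nat_lit 178)) (XT.lf (nat_lit 0) (nat_lit 232660626917) (nat_lit 152) (nat_lit 36215916322) (nat_lit 76) (nat_lit 550409741937) (nat_lit 15) (nat_lit 5) (nat_lit 17) (nat_lit 5) (nat_lit 16) (nat_lit 4) (nat_lit 384)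 (nat_lit 339) (nat_lit 177))))) (XT.nd (nat_lit 43524) (nat_lit 0) (nat_lit 6308) (XT.nd (nat_lit 43368) (nat_lit 0) (nat_lit 6232) (XT.lf (nat_lit 0) (nat_lit 397925626386) (nat_lit 76) (nat_lit 46511434199) (nat_lit 152) (nat_lit 428714730326) (nat_lit 14) (nat_lit 5) (nat_lit 15) (nat_lit 5) (nat_lit 16) (nat_lit 4) (nat_lit 385) (nat_lit 339) (nat_lit 176)) (XT.nd (nat_lit 78) (nat_lit 0) (nat_lit 76) (XT.lf (nat_lit 0) (nat_lit 1995422429) (nat_lit 836) (nat_lit 21153811491) (nat_lit 836) (nat_lit 21153811491) (nat_lit 96) (nat_lit 3) (nat_lit 107) (nat_lit 3) (nat_lit 107) (nat_lit 5) (nat_lit 340) (nat_lit 340) (nat_lit 220)) (XT.lf (nat_lit 0) (nat_lit 4869429885) (nat_lit 760) (nat_lit 67551620464) (nat_lit 836) (nat_lit 19693320818) (nat_lit 97) (nat_lit 5) (nat_lit 107) (nat_lit 5) (nat_lit 108) (nat_lit 5) (nat_lit 341) (nat_lit 340) (nat_lit 219)))) (XT.nd (nat_lit 78) (nat_lit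 0) (nat_lit 76) (XT.lf (nat_lit 76) (nat_lit 1687575392) (nat_lit 0) (nat_lit 5685540053) (nat_lit 836) (nat_lit 88452459382) (nat_lit 98) (nat_lit 5) (nat_lit 97) (nat_lit 5) (nat_lit 108) (nat_lit 5) (nat_lit 342) (nat_lit 340) (nat_lit 218)) (XT.nd (nat_lit 78) (nat_lit 0) (nat_lit 76) (XT.lf (nat_lit 0) (nat_lit 12308432728) (nat_lit 760) (nat_lit 21953286074) (nat_lit 836) (nat_lit 65460390591) (nat_lit 98) (nat_lit 5) (nat_lit 108) (nat_lit 5) (nat_lit 109) (nat_lit 5) (nat_lit 343) (nat_lit 340) (nat_lit 217)) (XT.lf (nat_lit 0) (nat_lit 19245945531) (nat_lit 760) (nat_lit 46733137787) (nat_lit 836) (nat_lit 37870916247) (nat_lit 99) (nat_lit 5) (nat_lit 109) (nat_lit 5) (nat_lit 110) (nat_lit 5) (nat_lit 344) (nat_lit 340) (nat_lit 216))))))) (XT.nd (nat_lit 858) (nat_lit 2052) (nat_lit 0) (XT.nd (nat_lit 390) (nat_lit 1596) (nat_lit 0) (XT.nd (nat_lit 156) (nat_lit 1064) (nat_lit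 0) (XT.nd (nat_lit 78) (nat_lit 0) (nat_lit 0) (XT.lf (nat_lit 0) (nat_lit 28373053321) (nat_lit 760) (nat_lit 72785101600) (nat_lit 836) (nat_lit 7068237582) (nat_lit 100) (nat_lit 5) (nat_lit 110) (nat_lit 5) (nat_lit 111) (nat_lit 5) (nat_lit 345) (nat_lit 340) (nat_lit 215)) (XT.lf (nat_lit 76) (nat_lit 12210463625) (nat_lit 0) (nat_lit 28149494088) (nat_lit 836) (nat_lit 72486458921) (nat_lit 101) (nat_lit 5) (nat_lit 100) (nat_lit 5) (nat_lit 111) (nat_lit 5) (nat_lit 346) (nat_lit 340) (nat_lit 214))) (XT.nd (nat_lit 78) (nat_lit 1140) (nat_lit 0) (XT.lf (nat_lit 0) (nat_lit 55385150416) (nat_lit 760) (nat_lit 11980987738) (nat_lit 76) (nat_lit 50365938813) (nat_lit 101) (nat_lit 5) (nat_lit 111) (nat_lit 5) (nat_lit 102) (nat_lit 5) (nat_lit 347) (nat_lit 340) (nat_lit 213)) (XT.nd (nat_lit 78) (nat_lit 380) (nat_lit 0) (XT.lf (nat_lit 0) (nat_lit 73626555127) (nat_lit 836) (nat_lit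 37069726229) (nat_lit 76) (nat_lit 12211599932) (nat_lit 91) (nat_lit 5) (nat_lit 102) (nat_lit 5) (nat_lit 92) (nat_lit 5) (nat_lit 348) (nat_lit 340) (nat_lit 212)) (XT.lf (nat_lit 0) (nat_lit 64342637121) (nat_lit 380) (nat_lit 31336473698) (nat_lit 456) (nat_lit 32701048125) (nat_lit 86) (nat_lit 5) (nat_lit 91) (nat_lit 5) (nat_lit 92) (nat_lit 5) (nat_lit 349) (nat_lit 340) (nat_lit 211))))) (XT.nd (nat_lit 234) (nat_lit 836) (nat_lit 0) (XT.nd (nat_lit 78) (nat_lit 456) (nat_lit 0) (XT.lf (nat_lit 0) (nat_lit 41398583446) (nat_lit 304) (nat_lit 80248130247) (nat_lit 380) (nat_lit 12535963832) (nat_lit 82) (nat_lit 5) (nat_lit 86) (nat_lit 5) (nat_lit 87) (nat_lit 5) (nat_lit 350) (nat_lit 340) (nat_lit 210)) (XT.nd (nat_lit 78) (nat_lit 0) (nat_lit 0) (XT.lf (nat_lit 0) (nat_lit 10969546270) (nat_lit 456) (nat_lit 123426115367) (nat_lit 76) (nat_lit 5945370212) (nat_lit 76) (nat_lit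 5) (nat_lit 82) (nat_lit 5) (nat_lit 77) (nat_lit 5) (nat_lit 351) (nat_lit 340) (nat_lit 209)) (XT.lf (nat_lit 0) (nat_lit 38917381609) (nat_lit 456) (nat_lit 9799849180) (nat_lit 76) (nat_lit 98114494865) (nat_lit 76) (nat_lit 5) (nat_lit 82) (nat_lit 5) (nat_lit 77) (nat_lit 5) (nat_lit 352) (nat_lit 340) (nat_lit 208)))) (XT.nd (nat_lit 78) (nat_lit 532) (nat_lit 0) (XT.lf (nat_lit 0) (nat_lit 71635599523) (nat_lit 380) (nat_lit 37815240956) (nat_lit 76) (nat_lit 44264107342) (nat_lit 72) (nat_lit 5) (nat_lit 77) (nat_lit 5) (nat_lit 73) (nat_lit 5) (nat_lit 353) (nat_lit 340) (nat_lit 207)) (XT.nd (nat_lit 78) (nat_lit 228) (nat_lit 0) (XT.lf (nat_lit 0) (nat_lit 93017068796) (nat_lit 304) (nat_lit 16400858869) (nat_lit 380) (nat_lit 51608568050) (nat_lit 68) (nat_lit 5) (nat_lit 72) (nat_lit 5) (nat_lit 73) (nat_lit 5) (nat_lit 354) (nat_lit 340) (nat_lit 206)) (XT.lf (nat_lit 0)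 (nat_lit 67616030270) (nat_lit 228) (nat_lit 85644391542) (nat_lit 304) (nat_lit 15510667193) (nat_lit 65) (nat_lit 5) (nat_lit 68) (nat_lit 5) (nat_lit 69) (nat_lit 5) (nat_lit 355) (nat_lit 340) (nat_lit 205)))))) (XT.nd (nat_lit 390) (nat_lit 988) (nat_lit 0) (XT.nd (nat_lit 156) (nat_lit 456) (nat_lit 0) (XT.nd (nat_lit 78) (nat_lit 228) (nat_lit 0) (XT.lf (nat_lit 0) (nat_lit 25067189719) (nat_lit 380) (nat_lit 137186258307) (nat_lit 76) (nat_lit 14746303005) (nat_lit 60) (nat_lit 5) (nat_lit 65) (nat_lit 5) (nat_lit 61) (nat_lit 5) (nat_lit 356) (nat_lit 340) (nat_lit 204)) (XT.lf (nat_lit 0) (nat_lit 8407010447) (nat_lit 228) (nat_lit 63313937689) (nat_lit 304) (nat_lit 113984390112) (nat_lit 57) (nat_lit 5) (nat_lit 60) (nat_lit 5) (nat_lit 61) (nat_lit 5) (nat_lit 357) (nat_lit 340) (nat_lit 203))) (XT.nd (nat_lit 78) (nat_lit 456) (nat_lit 0) (XT.lf (nat_lit 0) (nat_lit 125215202001)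 (nat_lit 304) (nat_lit 25160891346) (nat_lit 76) (nat_lit 44575869772) (nat_lit 57) (nat_lit 5) (nat_lit 61) (nat_lit 5) (nat_lit 58) (nat_lit 5) (nat_lit 358) (nat_lit 340) (nat_lit 202)) (XT.nd (nat_lit 78) (nat_lit 228) (nat_lit 0) (XT.lf (nat_lit 0) (nat_lit 142644873323) (nat_lit 228) (nat_lit 43638362957) (nat_lit 304) (nat_lit 18490370082) (nat_lit 54) (nat_lit 5) (nat_lit 57) (nat_lit 5) (nat_lit 58) (nat_lit 5) (nat_lit 359) (nat_lit 340) (nat_lit 201)) (XT.lf (nat_lit 0) (nat_lit 39040500672) (nat_lit 228) (nat_lit 103976400164) (nat_lit 76) (nat_lit 72167090403) (nat_lit 51) (nat_lit 5) (nat_lit 54) (nat_lit 5) (nat_lit 52) (nat_lit 5) (nat_lit 360) (nat_lit 340) (nat_lit 200))))) (XT.nd (nat_lit 234) (nat_lit 532) (nat_lit 0) (XT.nd (nat_lit 78) (nat_lit 228) (nat_lit 0) (XT.lf (nat_lit 0) (nat_lit 75610398225) (nat_lit 228) (nat_lit 27940188619) (nat_lit 304) (nat_lit 122710236423)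 (nat_lit 48) (nat_lit 5) (nat_lit 51) (nat_lit 5) (nat_lit 52) (nat_lit 5) (nat_lit 361) (nat_lit 340) (nat_lit 199)) (XT.nd (nat_lit 78) (nat_lit 76) (nat_lit 0) (XT.lf (nat_lit 0) (nat_lit 34720695302) (nat_lit 152) (nat_lit 142387563367) (nat_lit 228) (nat_lit 60921204542) (nat_lit 46) (nat_lit 5) (nat_lit 48) (nat_lit 5) (nat_lit 49) (nat_lit 5) (nat_lit 362) (nat_lit 340) (nat_lit 198)) (XT.lf (nat_lit 0) (nat_lit 8762971527) (nat_lit 228) (nat_lit 10912630233) (nat_lit 76) (nat_lit 230902556170) (nat_lit 45) (nat_lit 5) (nat_lit 48) (nat_lit 5) (nat_lit 46) (nat_lit 5) (nat_lit 363) (nat_lit 340) (nat_lit 197)))) (XT.nd (nat_lit 78) (nat_lit 304) (nat_lit 0) (XT.lf (nat_lit 0) (nat_lit 86905100926) (nat_lit 304) (nat_lit 63429004574) (nat_lit 76) (nat_lit 113495827478) (nat_lit 42) (nat_lit 5) (nat_lit 46) (nat_lit 5) (nat_lit 43) (nat_lit 5) (nat_lit 364) (nat_lit 340) (nat_lit 196))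 (XT.nd (nat_lit 78) (nat_lit 152) (nat_lit 0) (XT.lf (nat_lit 0) (nat_lit 155519100225) (nat_lit 152) (nat_lit 18732237474) (nat_lit 228) (nat_lit 103742875698) (nat_lit 40) (nat_lit 5) (nat_lit 42) (nat_lit 5) (nat_lit 43) (nat_lit 5) (nat_lit 365) (nat_lit 340) (nat_lit 195)) (XT.lf (nat_lit 0) (nat_lit 102342075735) (nat_lit 152) (nat_lit 170890322672) (nat_lit 228) (nat_lit 19826881799) (nat_lit 38) (nat_lit 5) (nat_lit 40) (nat_lit 5) (nat_lit 41) (nat_lit 5) (nat_lit 366) (nat_lit 340) (nat_lit 194))))))))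
noncomputable def xc110 : XT := (XT.nd (nat_lit 45084) (nat_lit 0) (nat_lit 2052) (XT.nd (nat_lit 858) (nat_lit 456) (nat_lit 0) (XT.nd (nat_lit 390) (nat_lit 608) (nat_lit 0) (XT.nd (nat_lit 156) (nat_lit 456) (nat_lit 0) (XT.nd (nat_lit 78) (nat_lit 0) (nat_lit 0) (XT.lf (nat_lit 0) (nat_lit 40122735229) (nat_lit 152) (nat_lit 31523936051) (nat_lit 228) (nat_lit 237472090153) (nat_lit 35) (nat_lit 5) (nat_lit 37) (nat_lit 5) (nat_lit 38) (nat_lit 5) (nat_lit 367) (nat_lit 340) (nat_lit 193)) (XT.lf (nat_lit 0) (nat_lit 174986895782) (nat_lit 228) (nat_lit 32303628132) (nat_lit 76) (nat_lit 118894054641) (nat_lit 35) (nat_lit 5) (nat_lit 38) (nat_lit 5) (nat_lit 36) (nat_lit 5) (nat_lit 368) (nat_lit 340) (nat_lit 192))) (XT.nd (nat_lit 78) (nat_lit 304) (nat_lit 0) (XT.lf (nat_lit 0) (nat_lit 230158680093) (nat_lit 152) (nat_lit 60560363344) (nat_lit 228) (nat_lit 53690382506) (nat_lit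 33) (nat_lit 5) (nat_lit 35) (nat_lit 5) (nat_lit 36) (nat_lit 5) (nat_lit 369) (nat_lit 340) (nat_lit 191)) (XT.nd (nat_lit 78) (nat_lit 152) (nat_lit 0) (XT.lf (nat_lit 0) (nat_lit 54545542867) (nat_lit 152) (nat_lit 210645394263) (nat_lit 76) (nat_lit 98632023259) (nat_lit 31) (nat_lit 5) (nat_lit 33) (nat_lit 5) (nat_lit 32) (nat_lit 5) (nat_lit 370) (nat_lit 340) (nat_lit 190)) (XT.lf (nat_lit 0) (nat_lit 61395441009) (nat_lit 152) (nat_lit 112191263806) (nat_lit 228) (nat_lit 210957493791) (nat_lit 29) (nat_lit 5) (nat_lit 31) (nat_lit 5) (nat_lit 32) (nat_lit 5) (nat_lit 371) (nat_lit 340) (nat_lit 189))))) (XT.nd (nat_lit 234) (nat_lit 304) (nat_lit 0) (XT.nd (nat_lit 78) (nat_lit 304) (nat_lit 0) (XT.lf (nat_lit 0) (nat_lit 306708613472) (nat_lit 228) (nat_lit 44906851557) (nat_lit 76) (nat_lit 55079798280) (nat_lit 29) (nat_lit 5) (nat_lit 32) (nat_lit 5) (nat_lit 30) (nat_lit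 4) (nat_lit 372) (nat_lit 340) (nat_lit 188)) (XT.nd (nat_lit 78) (nat_lit 152) (nat_lit 0) (XT.lf (nat_lit 0) (nat_lit 25307747976) (nat_lit 152) (nat_lit 168636613451) (nat_lit 76) (nat_lit 236354467400) (nat_lit 27) (nat_lit 5) (nat_lit 29) (nat_lit 5) (nat_lit 28) (nat_lit 5) (nat_lit 373) (nat_lit 340) (nat_lit 187)) (XT.lf (nat_lit 0) (nat_lit 141436544838) (nat_lit 152) (nat_lit 18736017987) (nat_lit 228) (nat_lit 295383665068) (nat_lit 25) (nat_lit 5) (nat_lit 27) (nat_lit 5) (nat_lit 28) (nat_lit 5) (nat_lit 374) (nat_lit 340) (nat_lit 186)))) (XT.nd (nat_lit 78) (nat_lit 304) (nat_lit 0) (XT.lf (nat_lit 0) (nat_lit 311473864362) (nat_lit 228) (nat_lit 3060162155) (nat_lit 76) (nat_lit 168017827382) (nat_lit 25) (nat_lit 5) (nat_lit 28) (nat_lit 5) (nat_lit 26) (nat_lit 4) (nat_lit 375) (nat_lit 340) (nat_lit 185)) (XT.nd (nat_lit 78) (nat_lit 228) (nat_lit 0) (XT.lf (nat_lit 0)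 (nat_lit 343564051631) (nat_lit 76) (nat_lit 136994947993) (nat_lit 152) (nat_lit 30864143962) (nat_lit 24) (nat_lit 5) (nat_lit 25) (nat_lit 5) (nat_lit 26) (nat_lit 4) (nat_lit 376) (nat_lit 340) (nat_lit 184)) (XT.lf (nat_lit 0) (nat_lit 120493373259) (nat_lit 228) (nat_lit 364019239940) (nat_lit 76) (nat_lit 57808131290) (nat_lit 21) (nat_lit 5) (nat_lit 24) (nat_lit 5) (nat_lit 22) (nat_lit 4) (nat_lit 377) (nat_lit 340) (nat_lit 183)))))) (XT.nd (nat_lit 390) (nat_lit 152) (nat_lit 0) (XT.nd (nat_lit 156) (nat_lit 228) (nat_lit 0) (XT.nd (nat_lit 78) (nat_lit 76) (nat_lit 0) (XT.lf (nat_lit 0) (nat_lit 288174356467) (nat_lit 228) (nat_lit 20273480340) (nat_lit 76) (nat_lit 266952208550) (nat_lit 21) (nat_lit 5) (nat_lit 24) (nat_lit 5) (nat_lit 22) (nat_lit 4) (nat_lit 378) (nat_lit 340) (nat_lit 182)) (XT.lf (nat_lit 0) (nat_lit 362576347254) (nat_lit 76) (nat_lit 112354138292) (nat_lit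 152) (nat_lit 135912171452) (nat_lit 20) (nat_lit 5) (nat_lit 21) (nat_lit 5) (nat_lit 22) (nat_lit 4) (nat_lit 379) (nat_lit 340) (nat_lit 181))) (XT.nd (nat_lit 78) (nat_lit 76) (nat_lit 0) (XT.lf (nat_lit 0) (nat_lit 30635981618) (nat_lit 152) (nat_lit 519130873467) (nat_lit 76) (nat_lit 99131853332) (nat_lit 18) (nat_lit 5) (nat_lit 20) (nat_lit 5) (nat_lit 19) (nat_lit 4) (nat_lit 380) (nat_lit 340) (nat_lit 180)) (XT.nd (nat_lit 78) (nat_lit 76) (nat_lit 0) (XT.lf (nat_lit 0) (nat_lit 212099821275) (nat_lit 152) (nat_lit 147130195699) (nat_lit 76) (nat_lit 330340146870) (nat_lit 18) (nat_lit 5) (nat_lit 20) (nat_lit 5) (nat_lit 19) (nat_lit 4) (nat_lit 381) (nat_lit 340) (nat_lit 179)) (XT.lf (nat_lit 0) (nat_lit 263049498632) (nat_lit 76) (nat_lit 149138065824) (nat_lit 152) (nat_lit 321102431476) (nat_lit 17) (nat_lit 5) (nat_lit 18) (nat_lit 5) (nat_lit 19) (nat_lit 4) (nat_lit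 382) (nat_lit 340) (nat_lit 178))))) (XT.nd (nat_lit 43602) (nat_lit 0) (nat_lit 6156) (XT.nd (nat_lit 78) (nat_lit 152) (nat_lit 0) (XT.lf (nat_lit 0) (nat_lit 632101187407) (nat_lit 152) (nat_lit 70338072443) (nat_lit 0) (nat_lit 77877211766) (nat_lit 17) (nat_lit 5) (nat_lit 19) (nat_lit 4) (nat_lit 17) (nat_lit 4) (nat_lit 383) (nat_lit 340) (nat_lit 177)) (XT.nd (nat_lit 78) (nat_lit 0) (nat_lit 0) (XT.lf (nat_lit 0) (nat_lit 45712265951) (nat_lit 152) (nat_lit 460513976753) (nat_lit 76) (nat_lit 324426677717) (nat_lit 15) (nat_lit 5) (nat_lit 17) (nat_lit 5) (nat_lit 16) (nat_lit 4) (nat_lit 384) (nat_lit 340) (nat_lit 176)) (XT.lf (nat_lit 0) (nat_lit 251275905562) (nat_lit 152) (nat_lit 39108651025) (nat_lit 76) (nat_lit 594444509290) (nat_lit 15) (nat_lit 5) (nat_lit 17) (nat_lit 5) (nat_lit 16) (nat_lit 4) (nat_lit 385) (nat_lit 340) (nat_lit 175)))) (XT.nd (nat_lit 78) (nat_lit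 0) (nat_lit 76) (XT.lf (nat_lit 0) (nat_lit 2167369327) (nat_lit 836) (nat_lit 22839644356) (nat_lit 836) (nat_lit 22839644356) (nat_lit 96) (nat_lit 3) (nat_lit 107) (nat_lit 3) (nat_lit 107) (nat_lit 5) (nat_lit 341) (nat_lit 341) (nat_lit 218)) (XT.nd (nat_lit 78) (nat_lit 0) (nat_lit 0) (XT.lf (nat_lit 0) (nat_lit 5281813920) (nat_lit 760) (nat_lit 72942024629) (nat_lit 836) (nat_lit 21258512407) (nat_lit 97) (nat_lit 5) (nat_lit 107) (nat_lit 5) (nat_lit 108) (nat_lit 5) (nat_lit 342) (nat_lit 341) (nat_lit 217)) (XT.lf (nat_lit 76) (nat_lit 1835710403) (nat_lit 0) (nat_lit 6148597818) (nat_lit 836) (nat_lit 95506219099) (nat_lit 98) (nat_lit 5) (nat_lit 97) (nat_lit 5) (nat_lit 108) (nat_lit 5) (nat_lit 343) (nat_lit 341) (nat_lit 216))))))) (XT.nd (nat_lit 858) (nat_lit 2280) (nat_lit 0) (XT.nd (nat_lit 390) (nat_lit 1976) (nat_lit 0) (XT.nd (nat_lit 156) (nat_lit 0) (nat_lit 152)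 (XT.nd (nat_lit 78) (nat_lit 0) (nat_lit 76) (XT.lf (nat_lit 0) (nat_lit 13312751131) (nat_lit 760) (nat_lit 23696261252) (nat_lit 836) (nat_lit 70689859206) (nat_lit 98) (nat_lit 5) (nat_lit 108) (nat_lit 5) (nat_lit 109) (nat_lit 5) (nat_lit 344) (nat_lit 341) (nat_lit 215)) (XT.lf (nat_lit 0) (nat_lit 20803919674) (nat_lit 760) (nat_lit 50458048019) (nat_lit 836) (nat_lit 40895094351) (nat_lit 99) (nat_lit 5) (nat_lit 109) (nat_lit 5) (nat_lit 110) (nat_lit 5) (nat_lit 345) (nat_lit 341) (nat_lit 214))) (XT.nd (nat_lit 78) (nat_lit 0) (nat_lit 0) (XT.lf (nat_lit 0) (nat_lit 30659983328) (nat_lit 760) (nat_lit 78593825268) (nat_lit 836) (nat_lit 7629820130) (nat_lit 100) (nat_lit 5) (nat_lit 110) (nat_lit 5) (nat_lit 111) (nat_lit 5) (nat_lit 346) (nat_lit 341) (nat_lit 213)) (XT.nd (nat_lit 78) (nat_lit 0) (nat_lit 76) (XT.lf (nat_lit 76) (nat_lit 13200773082) (nat_lit 0) (nat_lit 30404011720)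 (nat_lit 836) (nat_lit 78268524296) (nat_lit 101) (nat_lit 5) (nat_lit 100) (nat_lit 5) (nat_lit 111) (nat_lit 5) (nat_lit 347) (nat_lit 341) (nat_lit 212)) (XT.lf (nat_lit 0) (nat_lit 59830768498) (nat_lit 760) (nat_lit 12926195300) (nat_lit 76) (nat_lit 54392921113) (nat_lit 101) (nat_lit 5) (nat_lit 111) (nat_lit 5) (nat_lit 102) (nat_lit 5) (nat_lit 348) (nat_lit 341) (nat_lit 211))))) (XT.nd (nat_lit 234) (nat_lit 760) (nat_lit 0) (XT.nd (nat_lit 78) (nat_lit 684) (nat_lit 0) (XT.lf (nat_lit 0) (nat_lit 79530568106) (nat_lit 836) (nat_lit 40021878738) (nat_lit 76) (nat_lit 13187353935) (nat_lit 91) (nat_lit 5) (nat_lit 102) (nat_lit 5) (nat_lit 92) (nat_lit 5) (nat_lit 349) (nat_lit 341) (nat_lit 210)) (XT.nd (nat_lit 78) (nat_lit 304) (nat_lit 0) (XT.lf (nat_lit 0) (nat_lit 69502890220) (nat_lit 380) (nat_lit 33843609752) (nat_lit 456) (nat_lit 35303403317) (nat_lit 86) (nat_lit 5)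 (nat_lit 91) (nat_lit 5) (nat_lit 92) (nat_lit 5) (nat_lit 350) (nat_lit 341) (nat_lit 209)) (XT.lf (nat_lit 0) (nat_lit 44723396729) (nat_lit 304) (nat_lit 86667345586) (nat_lit 380) (nat_lit 13525920619) (nat_lit 82) (nat_lit 5) (nat_lit 86) (nat_lit 5) (nat_lit 87) (nat_lit 5) (nat_lit 351) (nat_lit 341) (nat_lit 208)))) (XT.nd (nat_lit 78) (nat_lit 304) (nat_lit 0) (XT.lf (nat_lit 0) (nat_lit 11858905272) (nat_lit 456) (nat_lit 133286845237) (nat_lit 76) (nat_lit 6421961585) (nat_lit 76) (nat_lit 5) (nat_lit 82) (nat_lit 5) (nat_lit 77) (nat_lit 5) (nat_lit 352) (nat_lit 341) (nat_lit 207)) (XT.nd (nat_lit 78) (nat_lit 304) (nat_lit 0) (XT.lf (nat_lit 0) (nat_lit 42041693712) (nat_lit 456) (nat_lit 10571467338) (nat_lit 76) (nat_lit 105964544970) (nat_lit 76) (nat_lit 5) (nat_lit 82) (nat_lit 5) (nat_lit 77) (nat_lit 5) (nat_lit 353) (nat_lit 341) (nat_lit 206)) (XT.lf (nat_lit 0) (nat_lit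 77376768751) (nat_lit 380) (nat_lit 40828126381) (nat_lit 76) (nat_lit 47806721702) (nat_lit 72) (nat_lit 5) (nat_lit 77) (nat_lit 5) (nat_lit 73) (nat_lit 5) (nat_lit 354) (nat_lit 341) (nat_lit 205)))))) (XT.nd (nat_lit 390) (nat_lit 1140) (nat_lit 0) (XT.nd (nat_lit 156) (nat_lit 608) (nat_lit 0) (XT.nd (nat_lit 78) (nat_lit 228) (nat_lit 0) (XT.lf (nat_lit 0) (nat_lit 100470232137) (nat_lit 304) (nat_lit 17710870667) (nat_lit 380) (nat_lit 55727015570) (nat_lit 68) (nat_lit 5) (nat_lit 72) (nat_lit 5) (nat_lit 73) (nat_lit 5) (nat_lit 355) (nat_lit 341) (nat_lit 204)) (XT.lf (nat_lit 0) (nat_lit 73037042491) (nat_lit 228) (nat_lit 92493445312) (nat_lit 304) (nat_lit 16741817495) (nat_lit 65) (nat_lit 5) (nat_lit 68) (nat_lit 5) (nat_lit 69) (nat_lit 5) (nat_lit 356) (nat_lit 341) (nat_lit 203))) (XT.nd (nat_lit 78) (nat_lit 228) (nat_lit 0) (XT.lf (nat_lit 0) (nat_lit 27081482970) (nat_lit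 380) (nat_lit 148149222869) (nat_lit 76) (nat_lit 15928571244) (nat_lit 60) (nat_lit 5) (nat_lit 65) (nat_lit 5) (nat_lit 61) (nat_lit 5) (nat_lit 357) (nat_lit 341) (nat_lit 202)) (XT.nd (nat_lit 78) (nat_lit 0) (nat_lit 0) (XT.lf (nat_lit 0) (nat_lit 9090988657) (nat_lit 228) (nat_lit 68376071062) (nat_lit 304) (nat_lit 123094276277) (nat_lit 57) (nat_lit 5) (nat_lit 60) (nat_lit 5) (nat_lit 61) (nat_lit 5) (nat_lit 358) (nat_lit 341) (nat_lit 201)) (XT.lf (nat_lit 0) (nat_lit 135240272128) (nat_lit 304) (nat_lit 27162836605) (nat_lit 76) (nat_lit 48144611771) (nat_lit 57) (nat_lit 5) (nat_lit 61) (nat_lit 5) (nat_lit 58) (nat_lit 5) (nat_lit 359) (nat_lit 341) (nat_lit 200))))) (XT.nd (nat_lit 234) (nat_lit 456) (nat_lit 0) (XT.nd (nat_lit 78) (nat_lit 456) (nat_lit 0) (XT.lf (nat_lit 0) (nat_lit 154066914405) (nat_lit 228) (nat_lit 47126416141) (nat_lit 304) (nat_lit 19961786105) (nat_lit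 54) (nat_lit 5) (nat_lit 57) (nat_lit 5) (nat_lit 58) (nat_lit 5) (nat_lit 360) (nat_lit 341) (nat_lit 199)) (XT.nd (nat_lit 78) (nat_lit 228) (nat_lit 0) (XT.lf (nat_lit 0) (nat_lit 42170951945) (nat_lit 228) (nat_lit 112283954291) (nat_lit 76) (nat_lit 77943438052) (nat_lit 51) (nat_lit 5) (nat_lit 54) (nat_lit 5) (nat_lit 52) (nat_lit 5) (nat_lit 361) (nat_lit 341) (nat_lit 198)) (XT.lf (nat_lit 0) (nat_lit 81669329136) (nat_lit 228) (nat_lit 30172139385) (nat_lit 304) (nat_lit 132519873603) (nat_lit 48) (nat_lit 5) (nat_lit 51) (nat_lit 5) (nat_lit 52) (nat_lit 5) (nat_lit 362) (nat_lit 341) (nat_lit 197)))) (XT.nd (nat_lit 78) (nat_lit 304) (nat_lit 0) (XT.lf (nat_lit 0) (nat_lit 37508294260) (nat_lit 152) (nat_lit 153775155989) (nat_lit 228) (nat_lit 65788038596) (nat_lit 46) (nat_lit 5) (nat_lit 48) (nat_lit 5) (nat_lit 49) (nat_lit 5) (nat_lit 363) (nat_lit 341) (nat_lit 196)) (XT.nd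 (nat_lit 78) (nat_lit 228) (nat_lit 0) (XT.lf (nat_lit 0) (nat_lit 9470159872) (nat_lit 228) (nat_lit 11776226193) (nat_lit 76) (nat_lit 249377712668) (nat_lit 45) (nat_lit 5) (nat_lit 48) (nat_lit 5) (nat_lit 46) (nat_lit 5) (nat_lit 364) (nat_lit 341) (nat_lit 195)) (XT.lf (nat_lit 0) (nat_lit 93863394107) (nat_lit 304) (nat_lit 68494073346) (nat_lit 76) (nat_lit 122578561926) (nat_lit 42) (nat_lit 5) (nat_lit 46) (nat_lit 5) (nat_lit 43) (nat_lit 5) (nat_lit 365) (nat_lit 341) (nat_lit 194))))))))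
noncomputable def xc111 : XT := (XT.nd (nat_lit 45240) (nat_lit 0) (nat_lit 1748) (XT.nd (nat_lit 858) (nat_lit 608) (nat_lit 0) (XT.nd (nat_lit 390) (nat_lit 608) (nat_lit 0) (XT.nd (nat_lit 156) (nat_lit 380) (nat_lit 0) (XT.nd (nat_lit 78) (nat_lit 152) (nat_lit 0) (XT.lf (nat_lit 0) (nat_lit 167969477774) (nat_lit 152) (nat_lit 20227554280) (nat_lit 228) (nat_lit 112036435361) (nat_lit 40) (nat_lit 5) (nat_lit 42) (nat_lit 5) (nat_lit 43) (nat_lit 5) (nat_lit 366) (nat_lit 341) (nat_lit 193)) (XT.lf (nat_lit 0) (nat_lit 110538128769) (nat_lit 152) (nat_lit 184558217759) (nat_lit 228) (nat_lit 21407404867) (nat_lit 38) (nat_lit 5) (nat_lit 40) (nat_lit 5) (nat_lit 41) (nat_lit 5) (nat_lit 367) (nat_lit 341) (nat_lit 192))) (XT.nd (nat_lit 78) (nat_lit 152) (nat_lit 0) (XT.lf (nat_lit 0) (nat_lit 43341038895) (nat_lit 152) (nat_lit 34042542413) (nat_lit 228) (nat_lit 256464419213) (nat_lit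 35) (nat_lit 5) (nat_lit 37) (nat_lit 5) (nat_lit 38) (nat_lit 5) (nat_lit 368) (nat_lit 341) (nat_lit 191)) (XT.nd (nat_lit 78) (nat_lit 152) (nat_lit 0) (XT.lf (nat_lit 0) (nat_lit 188990688168) (nat_lit 228) (nat_lit 34879867439) (nat_lit 76) (nat_lit 128408544409) (nat_lit 35) (nat_lit 5) (nat_lit 38) (nat_lit 5) (nat_lit 36) (nat_lit 5) (nat_lit 369) (nat_lit 341) (nat_lit 190)) (XT.lf (nat_lit 0) (nat_lit 248579075559) (nat_lit 152) (nat_lit 65402093738) (nat_lit 228) (nat_lit 57980778020) (nat_lit 33) (nat_lit 5) (nat_lit 35) (nat_lit 5) (nat_lit 36) (nat_lit 5) (nat_lit 370) (nat_lit 341) (nat_lit 189))))) (XT.nd (nat_lit 234) (nat_lit 304) (nat_lit 0) (XT.nd (nat_lit 78) (nat_lit 152) (nat_lit 0) (XT.lf (nat_lit 0) (nat_lit 58913685161) (nat_lit 152) (nat_lit 227489332083) (nat_lit 76) (nat_lit 106525552756) (nat_lit 31) (nat_lit 5) (nat_lit 33) (nat_lit 5) (nat_lit 32) (nat_lit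 5) (nat_lit 371) (nat_lit 341) (nat_lit 188)) (XT.nd (nat_lit 78) (nat_lit 0) (nat_lit 0) (XT.lf (nat_lit 0) (nat_lit 66314435650) (nat_lit 152) (nat_lit 121163486065) (nat_lit 228) (nat_lit 227829596645) (nat_lit 29) (nat_lit 5) (nat_lit 31) (nat_lit 5) (nat_lit 32) (nat_lit 5) (nat_lit 372) (nat_lit 341) (nat_lit 187)) (XT.lf (nat_lit 0) (nat_lit 331249310499) (nat_lit 228) (nat_lit 48492429843) (nat_lit 76) (nat_lit 59488941682) (nat_lit 29) (nat_lit 5) (nat_lit 32) (nat_lit 5) (nat_lit 30) (nat_lit 4) (nat_lit 373) (nat_lit 341) (nat_lit 186)))) (XT.nd (nat_lit 78) (nat_lit 152) (nat_lit 0) (XT.lf (nat_lit 0) (nat_lit 27336247261) (nat_lit 152) (nat_lit 182120745596) (nat_lit 76) (nat_lit 255265546583) (nat_lit 27) (nat_lit 5) (nat_lit 29) (nat_lit 5) (nat_lit 28) (nat_lit 5) (nat_lit 374) (nat_lit 341) (nat_lit 185)) (XT.nd (nat_lit 78) (nat_lit 0) (nat_lit 0) (XT.lf (nat_lit 0) (nat_lit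 152757969969) (nat_lit 152) (nat_lit 20232091470) (nat_lit 228) (nat_lit 319010478414) (nat_lit 25) (nat_lit 5) (nat_lit 27) (nat_lit 5) (nat_lit 28) (nat_lit 5) (nat_lit 375) (nat_lit 341) (nat_lit 184)) (XT.lf (nat_lit 0) (nat_lit 336395234092) (nat_lit 228) (nat_lit 3298823297) (nat_lit 76) (nat_lit 181461770317) (nat_lit 25) (nat_lit 5) (nat_lit 28) (nat_lit 5) (nat_lit 26) (nat_lit 4) (nat_lit 376) (nat_lit 341) (nat_lit 183)))))) (XT.nd (nat_lit 390) (nat_lit 76) (nat_lit 0) (XT.nd (nat_lit 156) (nat_lit 228) (nat_lit 0) (XT.nd (nat_lit 78) (nat_lit 228) (nat_lit 0) (XT.lf (nat_lit 0) (nat_lit 371055060241) (nat_lit 76) (nat_lit 147951955468) (nat_lit 152) (nat_lit 33329813192) (nat_lit 24) (nat_lit 5) (nat_lit 25) (nat_lit 5) (nat_lit 26) (nat_lit 4) (nat_lit 377) (nat_lit 341) (nat_lit 182)) (XT.lf (nat_lit 0) (nat_lit 130136075596) (nat_lit 228) (nat_lit 393134922008) (nat_lit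 76) (nat_lit 62435243615) (nat_lit 21) (nat_lit 5) (nat_lit 24) (nat_lit 5) (nat_lit 22) (nat_lit 4) (nat_lit 378) (nat_lit 341) (nat_lit 181))) (XT.nd (nat_lit 78) (nat_lit 228) (nat_lit 0) (XT.lf (nat_lit 0) (nat_lit 311231298019) (nat_lit 228) (nat_lit 21889935502) (nat_lit 76) (nat_lit 288310664699) (nat_lit 21) (nat_lit 5) (nat_lit 24) (nat_lit 5) (nat_lit 22) (nat_lit 4) (nat_lit 379) (nat_lit 341) (nat_lit 180)) (XT.nd (nat_lit 78) (nat_lit 152) (nat_lit 0) (XT.lf (nat_lit 0) (nat_lit 391587642611) (nat_lit 76) (nat_lit 121340134098) (nat_lit 152) (nat_lit 146782149199) (nat_lit 20) (nat_lit 5) (nat_lit 21) (nat_lit 5) (nat_lit 22) (nat_lit 4) (nat_lit 380) (nat_lit 341) (nat_lit 179)) (XT.lf (nat_lit 0) (nat_lit 33089660089) (nat_lit 152) (nat_lit 560656185193) (nat_lit 76) (nat_lit 107064618901) (nat_lit 18) (nat_lit 5) (nat_lit 20) (nat_lit 5) (nat_lit 19) (nat_lit 4) (nat_lit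 381) (nat_lit 341) (nat_lit 178))))) (XT.nd (nat_lit 43758) (nat_lit 0) (nat_lit 6004) (XT.nd (nat_lit 78) (nat_lit 76) (nat_lit 0) (XT.lf (nat_lit 0) (nat_lit 229070399515) (nat_lit 152) (nat_lit 158895835289) (nat_lit 76) (nat_lit 356769411677) (nat_lit 18) (nat_lit 5) (nat_lit 20) (nat_lit 5) (nat_lit 19) (nat_lit 4) (nat_lit 382) (nat_lit 341) (nat_lit 177)) (XT.nd (nat_lit 78) (nat_lit 0) (nat_lit 0) (XT.lf (nat_lit 0) (nat_lit 284098027027) (nat_lit 76) (nat_lit 161067014412) (nat_lit 152) (nat_lit 346788029797) (nat_lit 17) (nat_lit 5) (nat_lit 18) (nat_lit 5) (nat_lit 19) (nat_lit 4) (nat_lit 383) (nat_lit 341) (nat_lit 176)) (XT.lf (nat_lit 0) (nat_lit 682671601437) (nat_lit 152) (nat_lit 75960803293) (nat_lit 0) (nat_lit 84109267940) (nat_lit 17) (nat_lit 5) (nat_lit 19) (nat_lit 4) (nat_lit 17) (nat_lit 4) (nat_lit 384) (nat_lit 341) (nat_lit 175)))) (XT.nd (nat_lit 78) (nat_lit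 0) (nat_lit 76) (XT.lf (nat_lit 0) (nat_lit 2351315376) (nat_lit 836) (nat_lit 24661267162) (nat_lit 836) (nat_lit 24661267162) (nat_lit 96) (nat_lit 3) (nat_lit 107) (nat_lit 3) (nat_lit 107) (nat_lit 5) (nat_lit 342) (nat_lit 342) (nat_lit 216)) (XT.nd (nat_lit 78) (nat_lit 0) (nat_lit 0) (XT.lf (nat_lit 0) (nat_lit 5723931775) (nat_lit 760) (nat_lit 78765619220) (nat_lit 836) (nat_lit 22950385035) (nat_lit 97) (nat_lit 5) (nat_lit 107) (nat_lit 5) (nat_lit 108) (nat_lit 5) (nat_lit 343) (nat_lit 342) (nat_lit 215)) (XT.lf (nat_lit 76) (nat_lit 1993823219) (nat_lit 0) (nat_lit 6647528305) (nat_lit 836) (nat_lit 103127480488) (nat_lit 98) (nat_lit 5) (nat_lit 97) (nat_lit 5) (nat_lit 108) (nat_lit 5) (nat_lit 344) (nat_lit 342) (nat_lit 214))))))) (XT.nd (nat_lit 858) (nat_lit 2432) (nat_lit 0) (XT.nd (nat_lit 390) (nat_lit 1976) (nat_lit 0) (XT.nd (nat_lit 156) (nat_lit 0) (nat_lit 152)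 (XT.nd (nat_lit 78) (nat_lit 0) (nat_lit 76) (XT.lf (nat_lit 0) (nat_lit 14394612601) (nat_lit 760) (nat_lit 25580570084) (nat_lit 836) (nat_lit 76338735671) (nat_lit 98) (nat_lit 5) (nat_lit 108) (nat_lit 5) (nat_lit 109) (nat_lit 5) (nat_lit 345) (nat_lit 342) (nat_lit 213)) (XT.lf (nat_lit 0) (nat_lit 22483921263) (nat_lit 760) (nat_lit 54482911347) (nat_lit 836) (nat_lit 44161990654) (nat_lit 99) (nat_lit 5) (nat_lit 109) (nat_lit 5) (nat_lit 110) (nat_lit 5) (nat_lit 346) (nat_lit 342) (nat_lit 212))) (XT.nd (nat_lit 78) (nat_lit 0) (nat_lit 0) (XT.lf (nat_lit 0) (nat_lit 33127430264) (nat_lit 760) (nat_lit 84869256135) (nat_lit 836) (nat_lit 8236882302) (nat_lit 100) (nat_lit 5) (nat_lit 110) (nat_lit 5) (nat_lit 111) (nat_lit 5) (nat_lit 347) (nat_lit 342) (nat_lit 211)) (XT.nd (nat_lit 78) (nat_lit 0) (nat_lit 76) (XT.lf (nat_lit 76) (nat_lit 14268385311) (nat_lit 0) (nat_lit 32838525820)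 (nat_lit 836) (nat_lit 84515558932) (nat_lit 101) (nat_lit 5) (nat_lit 100) (nat_lit 5) (nat_lit 111) (nat_lit 5) (nat_lit 348) (nat_lit 342) (nat_lit 210)) (XT.lf (nat_lit 0) (nat_lit 64629923778) (nat_lit 760) (nat_lit 13948912790) (nat_lit 76) (nat_lit 58742389091) (nat_lit 101) (nat_lit 5) (nat_lit 111) (nat_lit 5) (nat_lit 102) (nat_lit 5) (nat_lit 349) (nat_lit 342) (nat_lit 209))))) (XT.nd (nat_lit 234) (nat_lit 760) (nat_lit 0) (XT.nd (nat_lit 78) (nat_lit 684) (nat_lit 0) (XT.lf (nat_lit 0) (nat_lit 85904920764) (nat_lit 836) (nat_lit 43212118759) (nat_lit 76) (nat_lit 14241335741) (nat_lit 91) (nat_lit 5) (nat_lit 102) (nat_lit 5) (nat_lit 92) (nat_lit 5) (nat_lit 350) (nat_lit 342) (nat_lit 208)) (XT.nd (nat_lit 78) (nat_lit 304) (nat_lit 0) (XT.lf (nat_lit 0) (nat_lit 75074131494) (nat_lit 380) (nat_lit 36551285568) (nat_lit 456) (nat_lit 38115905472) (nat_lit 86) (nat_lit 5)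 (nat_lit 91) (nat_lit 5) (nat_lit 92) (nat_lit 5) (nat_lit 351) (nat_lit 342) (nat_lit 207)) (XT.lf (nat_lit 0) (nat_lit 48312350949) (nat_lit 304) (nat_lit 93600188753) (nat_lit 380) (nat_lit 14596917177) (nat_lit 82) (nat_lit 5) (nat_lit 86) (nat_lit 5) (nat_lit 87) (nat_lit 5) (nat_lit 352) (nat_lit 342) (nat_lit 206)))) (XT.nd (nat_lit 78) (nat_lit 304) (nat_lit 0) (XT.lf (nat_lit 0) (nat_lit 12817730262) (nat_lit 456) (nat_lit 143938339359) (nat_lit 76) (nat_lit 6936543063) (nat_lit 76) (nat_lit 5) (nat_lit 82) (nat_lit 5) (nat_lit 77) (nat_lit 5) (nat_lit 353) (nat_lit 342) (nat_lit 205)) (XT.nd (nat_lit 78) (nat_lit 304) (nat_lit 0) (XT.lf (nat_lit 0) (nat_lit 45414392698) (nat_lit 456) (nat_lit 11406579635) (nat_lit 76) (nat_lit 114442472040) (nat_lit 76) (nat_lit 5) (nat_lit 82) (nat_lit 5) (nat_lit 77) (nat_lit 5) (nat_lit 354) (nat_lit 342) (nat_lit 204)) (XT.lf (nat_lit 0) (nat_lit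 83575759074) (nat_lit 380) (nat_lit 44083802202) (nat_lit 76) (nat_lit 51632533248) (nat_lit 72) (nat_lit 5) (nat_lit 77) (nat_lit 5) (nat_lit 73) (nat_lit 5) (nat_lit 355) (nat_lit 342) (nat_lit 203)))))) (XT.nd (nat_lit 468) (nat_lit 1064) (nat_lit 0) (XT.nd (nat_lit 234) (nat_lit 456) (nat_lit 0) (XT.nd (nat_lit 78) (nat_lit 608) (nat_lit 0) (XT.lf (nat_lit 0) (nat_lit 108517965452) (nat_lit 304) (nat_lit 19125976850) (nat_lit 380) (nat_lit 60176399445) (nat_lit 68) (nat_lit 5) (nat_lit 72) (nat_lit 5) (nat_lit 73) (nat_lit 5) (nat_lit 356) (nat_lit 342) (nat_lit 202)) (XT.nd (nat_lit 78) (nat_lit 380) (nat_lit 0) (XT.lf (nat_lit 0) (nat_lit 78890062303) (nat_lit 228) (nat_lit 99890779687) (nat_lit 304) (nat_lit 18072844073) (nat_lit 65) (nat_lit 5) (nat_lit 68) (nat_lit 5) (nat_lit 69) (nat_lit 5) (nat_lit 357) (nat_lit 342) (nat_lit 201)) (XT.lf (nat_lit 0) (nat_lit 29255647418) (nat_lit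 380) (nat_lit 159990927415) (nat_lit 76) (nat_lit 17205055159) (nat_lit 60) (nat_lit 5) (nat_lit 65) (nat_lit 5) (nat_lit 61) (nat_lit 5) (nat_lit 358) (nat_lit 342) (nat_lit 200)))) (XT.nd (nat_lit 78) (nat_lit 228) (nat_lit 0) (XT.lf (nat_lit 0) (nat_lit 9828056307) (nat_lit 228) (nat_lit 73843600471) (nat_lit 304) (nat_lit 132934218033) (nat_lit 57) (nat_lit 5) (nat_lit 60) (nat_lit 5) (nat_lit 61) (nat_lit 5) (nat_lit 359) (nat_lit 342) (nat_lit 199)) (XT.nd (nat_lit 78) (nat_lit 228) (nat_lit 0) (XT.lf (nat_lit 0) (nat_lit 146066227409) (nat_lit 304) (nat_lit 29326496207) (nat_lit 76) (nat_lit 51998471879) (nat_lit 57) (nat_lit 5) (nat_lit 61) (nat_lit 5) (nat_lit 58) (nat_lit 5) (nat_lit 360) (nat_lit 342) (nat_lit 198)) (XT.lf (nat_lit 0) (nat_lit 166401227791) (nat_lit 228) (nat_lit 50893943825) (nat_lit 304) (nat_lit 21552030105) (nat_lit 54) (nat_lit 5) (nat_lit 57) (nat_lit 5)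 (nat_lit 58) (nat_lit 5) (nat_lit 361) (nat_lit 342) (nat_lit 197))))) (XT.nd (nat_lit 234) (nat_lit 456) (nat_lit 0) (XT.nd (nat_lit 78) (nat_lit 380) (nat_lit 0) (XT.lf (nat_lit 0) (nat_lit 45550810560) (nat_lit 228) (nat_lit 121257618948) (nat_lit 76) (nat_lit 84181468323) (nat_lit 51) (nat_lit 5) (nat_lit 54) (nat_lit 5) (nat_lit 52) (nat_lit 5) (nat_lit 362) (nat_lit 342) (nat_lit 196)) (XT.nd (nat_lit 78) (nat_lit 152) (nat_lit 0) (XT.lf (nat_lit 0) (nat_lit 88211533778) (nat_lit 228) (nat_lit 32583111905) (nat_lit 304) (nat_lit 143115306312) (nat_lit 48) (nat_lit 5) (nat_lit 51) (nat_lit 5) (nat_lit 52) (nat_lit 5) (nat_lit 363) (nat_lit 342) (nat_lit 195)) (XT.lf (nat_lit 0) (nat_lit 40517482608) (nat_lit 152) (nat_lit 166074242845) (nat_lit 228) (nat_lit 71045198360) (nat_lit 46) (nat_lit 5) (nat_lit 48) (nat_lit 5) (nat_lit 49) (nat_lit 5) (nat_lit 364) (nat_lit 342) (nat_lit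 194)))) (XT.nd (nat_lit 78) (nat_lit 380) (nat_lit 0) (XT.lf (nat_lit 0) (nat_lit 10233045829) (nat_lit 228) (nat_lit 12710252907) (nat_lit 76) (nat_lit 269330460550) (nat_lit 45) (nat_lit 5) (nat_lit 48) (nat_lit 5) (nat_lit 46) (nat_lit 5) (nat_lit 365) (nat_lit 342) (nat_lit 193)) (XT.nd (nat_lit 78) (nat_lit 152) (nat_lit 0) (XT.lf (nat_lit 0) (nat_lit 101377511166) (nat_lit 304) (nat_lit 73965667463) (nat_lit 76) (nat_lit 132387477409) (nat_lit 42) (nat_lit 5) (nat_lit 46) (nat_lit 5) (nat_lit 43) (nat_lit 5) (nat_lit 366) (nat_lit 342) (nat_lit 192)) (XT.lf (nat_lit 0) (nat_lit 181414623043) (nat_lit 152) (nat_lit 21842961819) (nat_lit 228) (nat_lit 120994317273) (nat_lit 40) (nat_lit 5) (nat_lit 42) (nat_lit 5) (nat_lit 43) (nat_lit 5) (nat_lit 367) (nat_lit 342) (nat_lit 191))))))))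
noncomputable def xc112 : XT := (XT.nd (nat_lit 45318) (nat_lit 0) (nat_lit 1596) (XT.nd (nat_lit 858) (nat_lit 532) (nat_lit 0) (XT.nd (nat_lit 390) (nat_lit 532) (nat_lit 0) (XT.nd (nat_lit 156) (nat_lit 304) (nat_lit 0) (XT.nd (nat_lit 78) (nat_lit 228) (nat_lit 0) (XT.lf (nat_lit 0) (nat_lit 119388626752) (nat_lit 152) (nat_lit 199320019619) (nat_lit 228) (nat_lit 23115172603) (nat_lit 38) (nat_lit 5) (nat_lit 40) (nat_lit 5) (nat_lit 41) (nat_lit 5) (nat_lit 368) (nat_lit 342) (nat_lit 190)) (XT.lf (nat_lit 0) (nat_lit 46815596395) (nat_lit 152) (nat_lit 36763109282) (nat_lit 228) (nat_lit 276976910410) (nat_lit 35) (nat_lit 5) (nat_lit 37) (nat_lit 5) (nat_lit 38) (nat_lit 5) (nat_lit 369) (nat_lit 342) (nat_lit 189))) (XT.nd (nat_lit 78) (nat_lit 304) (nat_lit 0) (XT.lf (nat_lit 0) (nat_lit 204114093361) (nat_lit 228) (nat_lit 37663354447) (nat_lit 76) (nat_lit 138683770312) (nat_lit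 35) (nat_lit 5) (nat_lit 38) (nat_lit 5) (nat_lit 36) (nat_lit 5) (nat_lit 370) (nat_lit 342) (nat_lit 188)) (XT.nd (nat_lit 78) (nat_lit 152) (nat_lit 0) (XT.lf (nat_lit 0) (nat_lit 268472004021) (nat_lit 152) (nat_lit 70631604624) (nat_lit 228) (nat_lit 62615094954) (nat_lit 33) (nat_lit 5) (nat_lit 35) (nat_lit 5) (nat_lit 36) (nat_lit 5) (nat_lit 371) (nat_lit 342) (nat_lit 187)) (XT.lf (nat_lit 0) (nat_lit 63630637025) (nat_lit 152) (nat_lit 245681882524) (nat_lit 76) (nat_lit 115050141246) (nat_lit 31) (nat_lit 5) (nat_lit 33) (nat_lit 5) (nat_lit 32) (nat_lit 5) (nat_lit 372) (nat_lit 342) (nat_lit 186))))) (XT.nd (nat_lit 234) (nat_lit 228) (nat_lit 0) (XT.nd (nat_lit 78) (nat_lit 152) (nat_lit 0) (XT.lf (nat_lit 0) (nat_lit 71625899969) (nat_lit 152) (nat_lit 130853925337) (nat_lit 228) (nat_lit 246052109224) (nat_lit 29) (nat_lit 5) (nat_lit 31) (nat_lit 5) (nat_lit 32) (nat_lit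 5) (nat_lit 373) (nat_lit 342) (nat_lit 185)) (XT.nd (nat_lit 78) (nat_lit 152) (nat_lit 0) (XT.lf (nat_lit 0) (nat_lit 357752691510) (nat_lit 228) (nat_lit 52365848718) (nat_lit 76) (nat_lit 64250422877) (nat_lit 29) (nat_lit 5) (nat_lit 32) (nat_lit 5) (nat_lit 30) (nat_lit 4) (nat_lit 374) (nat_lit 342) (nat_lit 184)) (XT.lf (nat_lit 0) (nat_lit 29526473042) (nat_lit 152) (nat_lit 196684577972) (nat_lit 76) (nat_lit 275689123806) (nat_lit 27) (nat_lit 5) (nat_lit 29) (nat_lit 5) (nat_lit 28) (nat_lit 5) (nat_lit 375) (nat_lit 342) (nat_lit 183)))) (XT.nd (nat_lit 78) (nat_lit 76) (nat_lit 0) (XT.lf (nat_lit 0) (nat_lit 164984181593) (nat_lit 152) (nat_lit 21848251417) (nat_lit 228) (nat_lit 344527990332) (nat_lit 25) (nat_lit 5) (nat_lit 27) (nat_lit 5) (nat_lit 28) (nat_lit 5) (nat_lit 376) (nat_lit 342) (nat_lit 182)) (XT.nd (nat_lit 78) (nat_lit 76) (nat_lit 0) (XT.lf (nat_lit 0)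 (nat_lit 363309819710) (nat_lit 228) (nat_lit 3557454958) (nat_lit 76) (nat_lit 195980869646) (nat_lit 25) (nat_lit 5) (nat_lit 28) (nat_lit 5) (nat_lit 26) (nat_lit 4) (nat_lit 377) (nat_lit 342) (nat_lit 181)) (XT.lf (nat_lit 0) (nat_lit 400744510053) (nat_lit 76) (nat_lit 159785892800) (nat_lit 152) (nat_lit 35993229894) (nat_lit 24) (nat_lit 5) (nat_lit 25) (nat_lit 5) (nat_lit 26) (nat_lit 4) (nat_lit 378) (nat_lit 342) (nat_lit 180)))))) (XT.nd (nat_lit 390) (nat_lit 76) (nat_lit 0) (XT.nd (nat_lit 156) (nat_lit 228) (nat_lit 0) (XT.nd (nat_lit 78) (nat_lit 0) (nat_lit 0) (XT.lf (nat_lit 0) (nat_lit 140549732972) (nat_lit 228) (nat_lit 424580694226) (nat_lit 76) (nat_lit 67432173719) (nat_lit 21) (nat_lit 5) (nat_lit 24) (nat_lit 5) (nat_lit 22) (nat_lit 4) (nat_lit 379) (nat_lit 342) (nat_lit 179)) (XT.lf (nat_lit 0) (nat_lit 336132367904) (nat_lit 228) (nat_lit 23636480766) (nat_lit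 76) (nat_lit 311377472148) (nat_lit 21) (nat_lit 5) (nat_lit 24) (nat_lit 5) (nat_lit 22) (nat_lit 4) (nat_lit 380) (nat_lit 342) (nat_lit 178))) (XT.nd (nat_lit 78) (nat_lit 152) (nat_lit 0) (XT.lf (nat_lit 0) (nat_lit 422919101531) (nat_lit 76) (nat_lit 131045342720) (nat_lit 152) (nat_lit 158522152574) (nat_lit 20) (nat_lit 5) (nat_lit 21) (nat_lit 5) (nat_lit 22) (nat_lit 4) (nat_lit 381) (nat_lit 342) (nat_lit 177)) (XT.nd (nat_lit 78) (nat_lit 0) (nat_lit 0) (XT.lf (nat_lit 0) (nat_lit 35739233394) (nat_lit 152) (nat_lit 605504257725) (nat_lit 76) (nat_lit 115631689392) (nat_lit 18) (nat_lit 5) (nat_lit 20) (nat_lit 5) (nat_lit 19) (nat_lit 4) (nat_lit 382) (nat_lit 342) (nat_lit 176)) (XT.lf (nat_lit 0) (nat_lit 247398254159) (nat_lit 152) (nat_lit 171603407405) (nat_lit 76) (nat_lit 385312724778) (nat_lit 18) (nat_lit 5) (nat_lit 20) (nat_lit 5) (nat_lit 19) (nat_lit 4) (nat_lit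 383) (nat_lit 342) (nat_lit 175))))) (XT.nd (nat_lit 43836) (nat_lit 0) (nat_lit 6080) (XT.nd (nat_lit 43680) (nat_lit 0) (nat_lit 6004) (XT.lf (nat_lit 0) (nat_lit 306829785945) (nat_lit 76) (nat_lit 173950578000) (nat_lit 152) (nat_lit 374528846360) (nat_lit 17) (nat_lit 5) (nat_lit 18) (nat_lit 5) (nat_lit 19) (nat_lit 4) (nat_lit 384) (nat_lit 342) (nat_lit 174)) (XT.nd (nat_lit 78) (nat_lit 0) (nat_lit 76) (XT.lf (nat_lit 0) (nat_lit 2548471105) (nat_lit 836) (nat_lit 26629411383) (nat_lit 836) (nat_lit 26629411383) (nat_lit 96) (nat_lit 3) (nat_lit 107) (nat_lit 3) (nat_lit 107) (nat_lit 5) (nat_lit 343) (nat_lit 343) (nat_lit 214)) (XT.lf (nat_lit 0) (nat_lit 6198626787) (nat_lit 760) (nat_lit 85056780126) (nat_lit 836) (nat_lit 24778864085) (nat_lit 97) (nat_lit 5) (nat_lit 107) (nat_lit 5) (nat_lit 108) (nat_lit 5) (nat_lit 344) (nat_lit 343) (nat_lit 213)))) (XT.nd (nat_lit 78)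 (nat_lit 0) (nat_lit 76) (XT.lf (nat_lit 76) (nat_lit 2162979268) (nat_lit 0) (nat_lit 7185368517) (nat_lit 836) (nat_lit 111361187038) (nat_lit 98) (nat_lit 5) (nat_lit 97) (nat_lit 5) (nat_lit 108) (nat_lit 5) (nat_lit 345) (nat_lit 343) (nat_lit 212)) (XT.nd (nat_lit 78) (nat_lit 0) (nat_lit 76) (XT.lf (nat_lit 0) (nat_lit 15560620378) (nat_lit 760) (nat_lit 27617248828) (nat_lit 836) (nat_lit 82440422770) (nat_lit 98) (nat_lit 5) (nat_lit 108) (nat_lit 5) (nat_lit 109) (nat_lit 5) (nat_lit 346) (nat_lit 343) (nat_lit 211)) (XT.lf (nat_lit 0) (nat_lit 24296084908) (nat_lit 760) (nat_lit 58831444363) (nat_lit 836) (nat_lit 47690910774) (nat_lit 99) (nat_lit 5) (nat_lit 109) (nat_lit 5) (nat_lit 110) (nat_lit 5) (nat_lit 347) (nat_lit 343) (nat_lit 210))))))) (XT.nd (nat_lit 858) (nat_lit 2052) (nat_lit 0) (XT.nd (nat_lit 390) (nat_lit 1596) (nat_lit 0) (XT.nd (nat_lit 156) (nat_lit 1064)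 (nat_lit 0) (XT.nd (nat_lit 78) (nat_lit 0) (nat_lit 0) (XT.lf (nat_lit 0) (nat_lit 35790183214) (nat_lit 760) (nat_lit 91648444127) (nat_lit 836) (nat_lit 8892983574) (nat_lit 100) (nat_lit 5) (nat_lit 110) (nat_lit 5) (nat_lit 111) (nat_lit 5) (nat_lit 348) (nat_lit 343) (nat_lit 209)) (XT.lf (nat_lit 76) (nat_lit 15419758728) (nat_lit 0) (nat_lit 35467488170) (nat_lit 836) (nat_lit 91264417410) (nat_lit 101) (nat_lit 5) (nat_lit 100) (nat_lit 5) (nat_lit 111) (nat_lit 5) (nat_lit 349) (nat_lit 343) (nat_lit 208))) (XT.nd (nat_lit 78) (nat_lit 1140) (nat_lit 0) (XT.lf (nat_lit 0) (nat_lit 69811200569) (nat_lit 760) (nat_lit 15055070897) (nat_lit 76) (nat_lit 63440094938) (nat_lit 101) (nat_lit 5) (nat_lit 111) (nat_lit 5) (nat_lit 102) (nat_lit 5) (nat_lit 350) (nat_lit 343) (nat_lit 207)) (XT.nd (nat_lit 78) (nat_lit 380) (nat_lit 0) (XT.lf (nat_lit 0) (nat_lit 92787522938) (nat_lit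 836) (nat_lit 46659220051) (nat_lit 76) (nat_lit 15379779681) (nat_lit 91) (nat_lit 5) (nat_lit 102) (nat_lit 5) (nat_lit 92) (nat_lit 5) (nat_lit 351) (nat_lit 343) (nat_lit 206)) (XT.lf (nat_lit 0) (nat_lit 81089501362) (nat_lit 380) (nat_lit 39475548767) (nat_lit 456) (nat_lit 41155086937) (nat_lit 86) (nat_lit 5) (nat_lit 91) (nat_lit 5) (nat_lit 92) (nat_lit 5) (nat_lit 352) (nat_lit 343) (nat_lit 205))))) (XT.nd (nat_lit 234) (nat_lit 836) (nat_lit 0) (XT.nd (nat_lit 78) (nat_lit 456) (nat_lit 0) (XT.lf (nat_lit 0) (nat_lit 52186840467) (nat_lit 304) (nat_lit 101087737049) (nat_lit 380) (nat_lit 15755173730) (nat_lit 82) (nat_lit 5) (nat_lit 86) (nat_lit 5) (nat_lit 87) (nat_lit 5) (nat_lit 353) (nat_lit 343) (nat_lit 204)) (XT.nd (nat_lit 78) (nat_lit 0) (nat_lit 0) (XT.lf (nat_lit 0) (nat_lit 13851818581) (nat_lit 456) (nat_lit 155443586980) (nat_lit 76) (nat_lit 7492173428) (nat_lit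 76) (nat_lit 5) (nat_lit 82) (nat_lit 5) (nat_lit 77) (nat_lit 5) (nat_lit 354) (nat_lit 343) (nat_lit 203)) (XT.lf (nat_lit 0) (nat_lit 49055571797) (nat_lit 456) (nat_lit 12310013851) (nat_lit 76) (nat_lit 123598524359) (nat_lit 76) (nat_lit 5) (nat_lit 82) (nat_lit 5) (nat_lit 77) (nat_lit 5) (nat_lit 355) (nat_lit 343) (nat_lit 202)))) (XT.nd (nat_lit 78) (nat_lit 532) (nat_lit 0) (XT.lf (nat_lit 0) (nat_lit 90269406239) (nat_lit 380) (nat_lit 47601440629) (nat_lit 76) (nat_lit 55764227996) (nat_lit 72) (nat_lit 5) (nat_lit 77) (nat_lit 5) (nat_lit 73) (nat_lit 5) (nat_lit 356) (nat_lit 343) (nat_lit 201)) (XT.nd (nat_lit 78) (nat_lit 228) (nat_lit 0) (XT.lf (nat_lit 0) (nat_lit 117208074451) (nat_lit 304) (nat_lit 20654543107) (nat_lit 380) (nat_lit 64982986220) (nat_lit 68) (nat_lit 5) (nat_lit 72) (nat_lit 5) (nat_lit 73) (nat_lit 5) (nat_lit 357) (nat_lit 343) (nat_lit 200)) (XT.lf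 (nat_lit 0) (nat_lit 85209889040) (nat_lit 228) (nat_lit 107880206286) (nat_lit 304) (nat_lit 19511539550) (nat_lit 65) (nat_lit 5) (nat_lit 68) (nat_lit 5) (nat_lit 69) (nat_lit 5) (nat_lit 358) (nat_lit 343) (nat_lit 199)))))) (XT.nd (nat_lit 390) (nat_lit 988) (nat_lit 0) (XT.nd (nat_lit 156) (nat_lit 456) (nat_lit 0) (XT.nd (nat_lit 78) (nat_lit 228) (nat_lit 0) (XT.lf (nat_lit 0) (nat_lit 31602654261) (nat_lit 380) (nat_lit 172781428217) (nat_lit 76) (nat_lit 18583344187) (nat_lit 60) (nat_lit 5) (nat_lit 65) (nat_lit 5) (nat_lit 61) (nat_lit 5) (nat_lit 359) (nat_lit 343) (nat_lit 198)) (XT.lf (nat_lit 0) (nat_lit 10622692922) (nat_lit 228) (nat_lit 79748896913) (nat_lit 304) (nat_lit 143562439404) (nat_lit 57) (nat_lit 5) (nat_lit 60) (nat_lit 5) (nat_lit 61) (nat_lit 5) (nat_lit 360) (nat_lit 343) (nat_lit 197))) (XT.nd (nat_lit 78) (nat_lit 456) (nat_lit 0) (XT.lf (nat_lit 0) (nat_lit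 157757298501) (nat_lit 304) (nat_lit 31664584931) (nat_lit 76) (nat_lit 56160313936) (nat_lit 57) (nat_lit 5) (nat_lit 61) (nat_lit 5) (nat_lit 58) (nat_lit 5) (nat_lit 361) (nat_lit 343) (nat_lit 196)) (XT.nd (nat_lit 78) (nat_lit 228) (nat_lit 0) (XT.lf (nat_lit 0) (nat_lit 179721007971) (nat_lit 228) (nat_lit 54963242590) (nat_lit 304) (nat_lit 23270449297) (nat_lit 54) (nat_lit 5) (nat_lit 57) (nat_lit 5) (nat_lit 58) (nat_lit 5) (nat_lit 362) (nat_lit 343) (nat_lit 195)) (XT.lf (nat_lit 0) (nat_lit 49200175867) (nat_lit 228) (nat_lit 130950468102) (nat_lit 76) (nat_lit 90918176484) (nat_lit 51) (nat_lit 5) (nat_lit 54) (nat_lit 5) (nat_lit 52) (nat_lit 5) (nat_lit 363) (nat_lit 343) (nat_lit 194))))) (XT.nd (nat_lit 234) (nat_lit 532) (nat_lit 0) (XT.nd (nat_lit 78) (nat_lit 228) (nat_lit 0) (XT.lf (nat_lit 0) (nat_lit 95275879586) (nat_lit 228) (nat_lit 35187361482) (nat_lit 304)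 (nat_lit 154559252028) (nat_lit 48) (nat_lit 5) (nat_lit 51) (nat_lit 5) (nat_lit 52) (nat_lit 5) (nat_lit 364) (nat_lit 343) (nat_lit 193)) (XT.nd (nat_lit 78) (nat_lit 76) (nat_lit 0) (XT.lf (nat_lit 0) (nat_lit 43766189864) (nat_lit 152) (nat_lit 179357674022) (nat_lit 228) (nat_lit 76723770227) (nat_lit 46) (nat_lit 5) (nat_lit 48) (nat_lit 5) (nat_lit 49) (nat_lit 5) (nat_lit 365) (nat_lit 343) (nat_lit 192)) (XT.lf (nat_lit 0) (nat_lit 11056210386) (nat_lit 228) (nat_lit 13720153231) (nat_lit 76) (nat_lit 290879067206) (nat_lit 45) (nat_lit 5) (nat_lit 48) (nat_lit 5) (nat_lit 46) (nat_lit 5) (nat_lit 366) (nat_lit 343) (nat_lit 191)))) (XT.nd (nat_lit 78) (nat_lit 304) (nat_lit 0) (XT.lf (nat_lit 0) (nat_lit 109492037788) (nat_lit 304) (nat_lit 79876120663) (nat_lit 76) (nat_lit 142980730856) (nat_lit 42) (nat_lit 5) (nat_lit 46) (nat_lit 5) (nat_lit 43) (nat_lit 5) (nat_lit 367)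 (nat_lit 343) (nat_lit 190)) (XT.nd (nat_lit 78) (nat_lit 152) (nat_lit 0) (XT.lf (nat_lit 0) (nat_lit 195934297555) (nat_lit 152) (nat_lit 23588000957) (nat_lit 228) (nat_lit 130669547741) (nat_lit 40) (nat_lit 5) (nat_lit 42) (nat_lit 5) (nat_lit 43) (nat_lit 5) (nat_lit 368) (nat_lit 343) (nat_lit 189)) (XT.lf (nat_lit 0) (nat_lit 128946102079) (nat_lit 152) (nat_lit 215263173006) (nat_lit 228) (nat_lit 24960250049) (nat_lit 38) (nat_lit 5) (nat_lit 40) (nat_lit 5) (nat_lit 41) (nat_lit 5) (nat_lit 369) (nat_lit 343) (nat_lit 188))))))))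
noncomputable def xc113 : XT := (XT.nd (nat_lit 45396) (nat_lit 0) (nat_lit 1292) (XT.nd (nat_lit 858) (nat_lit 228) (nat_lit 0) (XT.nd (nat_lit 390) (nat_lit 608) (nat_lit 0) (XT.nd (nat_lit 156) (nat_lit 456) (nat_lit 0) (XT.nd (nat_lit 78) (nat_lit 0) (nat_lit 0) (XT.lf (nat_lit 0) (nat_lit 50567080723) (nat_lit 152) (nat_lit 39701726163) (nat_lit 228) (nat_lit 299131066039) (nat_lit 35) (nat_lit 5) (nat_lit 37) (nat_lit 5) (nat_lit 38) (nat_lit 5) (nat_lit 370) (nat_lit 343) (nat_lit 187)) (XT.lf (nat_lit 0) (nat_lit 220446778906) (nat_lit 228) (nat_lit 40670505119) (nat_lit 76) (nat_lit 149780651592) (nat_lit 35) (nat_lit 5) (nat_lit 38) (nat_lit 5) (nat_lit 36) (nat_lit 5) (nat_lit 371) (nat_lit 343) (nat_lit 186))) (XT.nd (nat_lit 78) (nat_lit 304) (nat_lit 0) (XT.lf (nat_lit 0) (nat_lit 289955424852) (nat_lit 152) (nat_lit 76279855377) (nat_lit 228) (nat_lit 67620748617) (nat_lit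 33) (nat_lit 5) (nat_lit 35) (nat_lit 5) (nat_lit 36) (nat_lit 5) (nat_lit 372) (nat_lit 343) (nat_lit 185)) (XT.nd (nat_lit 78) (nat_lit 152) (nat_lit 0) (XT.lf (nat_lit 0) (nat_lit 68724394788) (nat_lit 152) (nat_lit 265330778012) (nat_lit 76) (nat_lit 124256333847) (nat_lit 31) (nat_lit 5) (nat_lit 33) (nat_lit 5) (nat_lit 32) (nat_lit 5) (nat_lit 373) (nat_lit 343) (nat_lit 184)) (XT.lf (nat_lit 0) (nat_lit 77361381316) (nat_lit 152) (nat_lit 141319976321) (nat_lit 228) (nat_lit 265732972791) (nat_lit 29) (nat_lit 5) (nat_lit 31) (nat_lit 5) (nat_lit 32) (nat_lit 5) (nat_lit 374) (nat_lit 343) (nat_lit 183))))) (XT.nd (nat_lit 234) (nat_lit 304) (nat_lit 0) (XT.nd (nat_lit 78) (nat_lit 304) (nat_lit 0) (XT.lf (nat_lit 0) (nat_lit 386375852793) (nat_lit 228) (nat_lit 56549993576) (nat_lit 76) (nat_lit 69392485052) (nat_lit 29) (nat_lit 5) (nat_lit 32) (nat_lit 5) (nat_lit 30) (nat_lit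 4) (nat_lit 375) (nat_lit 343) (nat_lit 182)) (XT.nd (nat_lit 78) (nat_lit 152) (nat_lit 0) (XT.lf (nat_lit 0) (nat_lit 31891442395) (nat_lit 152) (nat_lit 212414348263) (nat_lit 76) (nat_lit 297746254308) (nat_lit 27) (nat_lit 5) (nat_lit 29) (nat_lit 5) (nat_lit 28) (nat_lit 5) (nat_lit 376) (nat_lit 343) (nat_lit 181)) (XT.lf (nat_lit 0) (nat_lit 178187694949) (nat_lit 152) (nat_lit 23594047598) (nat_lit 228) (nat_lit 372087377745) (nat_lit 25) (nat_lit 5) (nat_lit 27) (nat_lit 5) (nat_lit 28) (nat_lit 5) (nat_lit 377) (nat_lit 343) (nat_lit 180)))) (XT.nd (nat_lit 78) (nat_lit 304) (nat_lit 0) (XT.lf (nat_lit 0) (nat_lit 392377148917) (nat_lit 228) (nat_lit 3837529575) (nat_lit 76) (nat_lit 211661189100) (nat_lit 25) (nat_lit 5) (nat_lit 28) (nat_lit 5) (nat_lit 26) (nat_lit 4) (nat_lit 378) (nat_lit 343) (nat_lit 179)) (XT.nd (nat_lit 78) (nat_lit 228) (nat_lit 0) (XT.lf (nat_lit 0)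 (nat_lit 432808396126) (nat_lit 76) (nat_lit 172566861699) (nat_lit 152) (nat_lit 38870143402) (nat_lit 24) (nat_lit 5) (nat_lit 25) (nat_lit 5) (nat_lit 26) (nat_lit 4) (nat_lit 379) (nat_lit 343) (nat_lit 178)) (XT.lf (nat_lit 0) (nat_lit 151796087576) (nat_lit 228) (nat_lit 458542844601) (nat_lit 76) (nat_lit 72828557130) (nat_lit 21) (nat_lit 5) (nat_lit 24) (nat_lit 5) (nat_lit 22) (nat_lit 4) (nat_lit 380) (nat_lit 343) (nat_lit 177)))))) (XT.nd (nat_lit 44070) (nat_lit 0) (nat_lit 6004) (XT.nd (nat_lit 156) (nat_lit 152) (nat_lit 0) (XT.nd (nat_lit 78) (nat_lit 76) (nat_lit 0) (XT.lf (nat_lit 0) (nat_lit 363025157306) (nat_lit 228) (nat_lit 25523412965) (nat_lit 76) (nat_lit 336289345395) (nat_lit 21) (nat_lit 5) (nat_lit 24) (nat_lit 5) (nat_lit 22) (nat_lit 4) (nat_lit 381) (nat_lit 343) (nat_lit 176)) (XT.lf (nat_lit 0) (nat_lit 456756442678) (nat_lit 76) (nat_lit 141527253654)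 (nat_lit 152) (nat_lit 171201722654) (nat_lit 20) (nat_lit 5) (nat_lit 21) (nat_lit 5) (nat_lit 22) (nat_lit 4) (nat_lit 382) (nat_lit 343) (nat_lit 175))) (XT.nd (nat_lit 78) (nat_lit 0) (nat_lit 0) (XT.lf (nat_lit 0) (nat_lit 38600430106) (nat_lit 152) (nat_lit 653940806948) (nat_lit 76) (nat_lit 124883854327) (nat_lit 18) (nat_lit 5) (nat_lit 20) (nat_lit 5) (nat_lit 19) (nat_lit 4) (nat_lit 383) (nat_lit 343) (nat_lit 174)) (XT.nd (nat_lit 43758) (nat_lit 0) (nat_lit 5928) (XT.lf (nat_lit 0) (nat_lit 267192020085) (nat_lit 152) (nat_lit 185328169446) (nat_lit 76) (nat_lit 416139251819) (nat_lit 18) (nat_lit 5) (nat_lit 20) (nat_lit 5) (nat_lit 19) (nat_lit 4) (nat_lit 384) (nat_lit 343) (nat_lit 173)) (XT.lf (nat_lit 0) (nat_lit 2760108137) (nat_lit 836) (nat_lit 28755685802) (nat_lit 836) (nat_lit 28755685802) (nat_lit 96) (nat_lit 3) (nat_lit 107) (nat_lit 3) (nat_lit 107) (nat_lit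 5) (nat_lit 344) (nat_lit 344) (nat_lit 212))))) (XT.nd (nat_lit 234) (nat_lit 0) (nat_lit 152) (XT.nd (nat_lit 78) (nat_lit 0) (nat_lit 0) (XT.lf (nat_lit 0) (nat_lit 6708903479) (nat_lit 760) (nat_lit 91852673161) (nat_lit 836) (nat_lit 26754698801) (nat_lit 97) (nat_lit 5) (nat_lit 107) (nat_lit 5) (nat_lit 108) (nat_lit 5) (nat_lit 345) (nat_lit 344) (nat_lit 211)) (XT.nd (nat_lit 78) (nat_lit 0) (nat_lit 76) (XT.lf (nat_lit 76) (nat_lit 2344291094) (nat_lit 0) (nat_lit 7765374565) (nat_lit 836) (nat_lit 120255942864) (nat_lit 98) (nat_lit 5) (nat_lit 97) (nat_lit 5) (nat_lit 108) (nat_lit 5) (nat_lit 346) (nat_lit 344) (nat_lit 210)) (XT.lf (nat_lit 0) (nat_lit 16817848925) (nat_lit 760) (nat_lit 29818255224) (nat_lit 836) (nat_lit 89031016884) (nat_lit 98) (nat_lit 5) (nat_lit 108) (nat_lit 5) (nat_lit 109) (nat_lit 5) (nat_lit 347) (nat_lit 344) (nat_lit 209)))) (XT.nd (nat_lit 78)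 (nat_lit 0) (nat_lit 76) (XT.lf (nat_lit 0) (nat_lit 26251302859) (nat_lit 760) (nat_lit 63529300883) (nat_lit 836) (nat_lit 51502720730) (nat_lit 99) (nat_lit 5) (nat_lit 109) (nat_lit 5) (nat_lit 110) (nat_lit 5) (nat_lit 348) (nat_lit 344) (nat_lit 208)) (XT.nd (nat_lit 78) (nat_lit 0) (nat_lit 0) (XT.lf (nat_lit 0) (nat_lit 38664164787) (nat_lit 760) (nat_lit 98971444058) (nat_lit 836) (nat_lit 9601979433) (nat_lit 100) (nat_lit 5) (nat_lit 110) (nat_lit 5) (nat_lit 111) (nat_lit 5) (nat_lit 349) (nat_lit 344) (nat_lit 207)) (XT.lf (nat_lit 76) (nat_lit 16661829303) (nat_lit 0) (nat_lit 38306499264) (nat_lit 836) (nat_lit 98554951601) (nat_lit 101) (nat_lit 5) (nat_lit 100) (nat_lit 5) (nat_lit 111) (nat_lit 5) (nat_lit 350) (nat_lit 344) (nat_lit 206))))))) (XT.nd (nat_lit 858) (nat_lit 1672) (nat_lit 0) (XT.nd (nat_lit 390) (nat_lit 1444) (nat_lit 0) (XT.nd (nat_lit 156) (nat_lit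 1140) (nat_lit 0) (XT.nd (nat_lit 78) (nat_lit 760) (nat_lit 0) (XT.lf (nat_lit 0) (nat_lit 75405426936) (nat_lit 760) (nat_lit 16251113300) (nat_lit 76) (nat_lit 68513857677) (nat_lit 101) (nat_lit 5) (nat_lit 111) (nat_lit 5) (nat_lit 102) (nat_lit 5) (nat_lit 351) (nat_lit 344) (nat_lit 205)) (XT.lf (nat_lit 0) (nat_lit 100219276927) (nat_lit 836) (nat_lit 50383497256) (nat_lit 76) (nat_lit 16609422242) (nat_lit 91) (nat_lit 5) (nat_lit 102) (nat_lit 5) (nat_lit 92) (nat_lit 5) (nat_lit 352) (nat_lit 344) (nat_lit 204))) (XT.nd (nat_lit 78) (nat_lit 760) (nat_lit 0) (XT.lf (nat_lit 0) (nat_lit 87584754190) (nat_lit 380) (nat_lit 42633730145) (nat_lit 456) (nat_lit 44438842509) (nat_lit 86) (nat_lit 5) (nat_lit 91) (nat_lit 5) (nat_lit 92) (nat_lit 5) (nat_lit 353) (nat_lit 344) (nat_lit 203)) (XT.nd (nat_lit 78) (nat_lit 456) (nat_lit 0) (XT.lf (nat_lit 0) (nat_lit 56369933660) (nat_lit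 304) (nat_lit 109174355804) (nat_lit 380) (nat_lit 17007445635) (nat_lit 82) (nat_lit 5) (nat_lit 86) (nat_lit 5) (nat_lit 87) (nat_lit 5) (nat_lit 354) (nat_lit 344) (nat_lit 202)) (XT.lf (nat_lit 0) (nat_lit 14967397107) (nat_lit 456) (nat_lit 167870655276) (nat_lit 76) (nat_lit 8092153372) (nat_lit 76) (nat_lit 5) (nat_lit 82) (nat_lit 5) (nat_lit 77) (nat_lit 5) (nat_lit 355) (nat_lit 344) (nat_lit 201))))) (XT.nd (nat_lit 234) (nat_lit 836) (nat_lit 0) (XT.nd (nat_lit 78) (nat_lit 608) (nat_lit 0) (XT.lf (nat_lit 0) (nat_lit 52986899985) (nat_lit 456) (nat_lit 13287019901) (nat_lit 76) (nat_lit 133486967483) (nat_lit 76) (nat_lit 5) (nat_lit 82) (nat_lit 5) (nat_lit 77) (nat_lit 5) (nat_lit 356) (nat_lit 344) (nat_lit 200)) (XT.nd (nat_lit 78) (nat_lit 304) (nat_lit 0) (XT.lf (nat_lit 0) (nat_lit 97497462887) (nat_lit 380) (nat_lit 51401783461) (nat_lit 76) (nat_lit 60226302524) (nat_lit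 72) (nat_lit 5) (nat_lit 77) (nat_lit 5) (nat_lit 73) (nat_lit 5) (nat_lit 357) (nat_lit 344) (nat_lit 199)) (XT.lf (nat_lit 0) (nat_lit 126592155046) (nat_lit 304) (nat_lit 22305610352) (nat_lit 380) (nat_lit 70175173489) (nat_lit 68) (nat_lit 5) (nat_lit 72) (nat_lit 5) (nat_lit 73) (nat_lit 5) (nat_lit 358) (nat_lit 344) (nat_lit 198)))) (XT.nd (nat_lit 78) (nat_lit 608) (nat_lit 0) (XT.lf (nat_lit 0) (nat_lit 92034071926) (nat_lit 228) (nat_lit 116509048906) (nat_lit 304) (nat_lit 21066348131) (nat_lit 65) (nat_lit 5) (nat_lit 68) (nat_lit 5) (nat_lit 69) (nat_lit 5) (nat_lit 359) (nat_lit 344) (nat_lit 197)) (XT.nd (nat_lit 78) (nat_lit 228) (nat_lit 0) (XT.lf (nat_lit 0) (nat_lit 34136486501) (nat_lit 380) (nat_lit 186596420705) (nat_lit 76) (nat_lit 20071627476) (nat_lit 60) (nat_lit 5) (nat_lit 65) (nat_lit 5) (nat_lit 61) (nat_lit 5) (nat_lit 360) (nat_lit 344) (nat_lit 196)) (XT.lf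 (nat_lit 0) (nat_lit 11479703237) (nat_lit 228) (nat_lit 86126929726) (nat_lit 304) (nat_lit 155041848076) (nat_lit 57) (nat_lit 5) (nat_lit 60) (nat_lit 5) (nat_lit 61) (nat_lit 5) (nat_lit 361) (nat_lit 344) (nat_lit 195)))))) (XT.nd (nat_lit 390) (nat_lit 836) (nat_lit 0) (XT.nd (nat_lit 156) (nat_lit 608) (nat_lit 0) (XT.nd (nat_lit 78) (nat_lit 228) (nat_lit 0) (XT.lf (nat_lit 0) (nat_lit 170382831713) (nat_lit 304) (nat_lit 34190866462) (nat_lit 76) (nat_lit 60654823127) (nat_lit 57) (nat_lit 5) (nat_lit 61) (nat_lit 5) (nat_lit 58) (nat_lit 5) (nat_lit 362) (nat_lit 344) (nat_lit 194)) (XT.lf (nat_lit 0) (nat_lit 194105274647) (nat_lit 228) (nat_lit 59358401499) (nat_lit 304) (nat_lit 25127161357) (nat_lit 54) (nat_lit 5) (nat_lit 57) (nat_lit 5) (nat_lit 58) (nat_lit 5) (nat_lit 363) (nat_lit 344) (nat_lit 193))) (XT.nd (nat_lit 78) (nat_lit 380) (nat_lit 0) (XT.lf (nat_lit 0) (nat_lit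 53140734228) (nat_lit 228) (nat_lit 141419852291) (nat_lit 76) (nat_lit 98193508770) (nat_lit 51) (nat_lit 5) (nat_lit 54) (nat_lit 5) (nat_lit 52) (nat_lit 5) (nat_lit 364) (nat_lit 344) (nat_lit 192)) (XT.nd (nat_lit 78) (nat_lit 152) (nat_lit 0) (XT.lf (nat_lit 0) (nat_lit 102904314069) (nat_lit 228) (nat_lit 38000293324) (nat_lit 304) (nat_lit 166919466479) (nat_lit 48) (nat_lit 5) (nat_lit 51) (nat_lit 5) (nat_lit 52) (nat_lit 5) (nat_lit 365) (nat_lit 344) (nat_lit 191)) (XT.lf (nat_lit 0) (nat_lit 47273751040) (nat_lit 152) (nat_lit 193704137524) (nat_lit 228) (nat_lit 82857347427) (nat_lit 46) (nat_lit 5) (nat_lit 48) (nat_lit 5) (nat_lit 49) (nat_lit 5) (nat_lit 366) (nat_lit 344) (nat_lit 190))))) (XT.nd (nat_lit 234) (nat_lit 380) (nat_lit 0) (XT.nd (nat_lit 78) (nat_lit 380) (nat_lit 0) (XT.lf (nat_lit 0) (nat_lit 11944583152) (nat_lit 228) (nat_lit 14811832783) (nat_lit 76)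 (nat_lit 314151252846) (nat_lit 45) (nat_lit 5) (nat_lit 48) (nat_lit 5) (nat_lit 46) (nat_lit 5) (nat_lit 367) (nat_lit 344) (nat_lit 189)) (XT.nd (nat_lit 78) (nat_lit 152) (nat_lit 0) (XT.lf (nat_lit 0) (nat_lit 118255109427) (nat_lit 304) (nat_lit 86260380242) (nat_lit 76) (nat_lit 154421122842) (nat_lit 42) (nat_lit 5) (nat_lit 46) (nat_lit 5) (nat_lit 43) (nat_lit 5) (nat_lit 368) (nat_lit 344) (nat_lit 188)) (XT.lf (nat_lit 0) (nat_lit 211614618065) (nat_lit 152) (nat_lit 25472985299) (nat_lit 228) (nat_lit 141119412217) (nat_lit 40) (nat_lit 5) (nat_lit 42) (nat_lit 5) (nat_lit 43) (nat_lit 5) (nat_lit 369) (nat_lit 344) (nat_lit 187)))) (XT.nd (nat_lit 78) (nat_lit 228) (nat_lit 0) (XT.lf (nat_lit 0) (nat_lit 139267264513) (nat_lit 152) (nat_lit 232482127923) (nat_lit 228) (nat_lit 26953523788) (nat_lit 38) (nat_lit 5) (nat_lit 40) (nat_lit 5) (nat_lit 41) (nat_lit 5) (nat_lit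 370) (nat_lit 344) (nat_lit 186)) (XT.nd (nat_lit 78) (nat_lit 0) (nat_lit 0) (XT.lf (nat_lit 0) (nat_lit 54617794074) (nat_lit 152) (nat_lit 42875779326) (nat_lit 228) (nat_lit 323058124363) (nat_lit 35) (nat_lit 5) (nat_lit 37) (nat_lit 5) (nat_lit 38) (nat_lit 5) (nat_lit 371) (nat_lit 344) (nat_lit 185)) (XT.lf (nat_lit 0) (nat_lit 238085571695) (nat_lit 228) (nat_lit 43919072069) (nat_lit 76) (nat_lit 161764972422) (nat_lit 35) (nat_lit 5) (nat_lit 38) (nat_lit 5) (nat_lit 36) (nat_lit 5) (nat_lit 372) (nat_lit 344) (nat_lit 184))))))))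
noncomputable def xc114 : XT := (XT.nd (nat_lit 45474) (nat_lit 0) (nat_lit 836) (XT.nd (nat_lit 858) (nat_lit 152) (nat_lit 0) (XT.nd (nat_lit 390) (nat_lit 532) (nat_lit 0) (XT.nd (nat_lit 156) (nat_lit 304) (nat_lit 0) (XT.nd (nat_lit 78) (nat_lit 152) (nat_lit 0) (XT.lf (nat_lit 0) (nat_lit 313156711814) (nat_lit 152) (nat_lit 82380291117) (nat_lit 228) (nat_lit 73027361582) (nat_lit 33) (nat_lit 5) (nat_lit 35) (nat_lit 5) (nat_lit 36) (nat_lit 5) (nat_lit 373) (nat_lit 344) (nat_lit 183)) (XT.lf (nat_lit 0) (nat_lit 74225181419) (nat_lit 152) (nat_lit 286552391904) (nat_lit 76) (nat_lit 134198710669) (nat_lit 31) (nat_lit 5) (nat_lit 33) (nat_lit 5) (nat_lit 32) (nat_lit 5) (nat_lit 374) (nat_lit 344) (nat_lit 182))) (XT.nd (nat_lit 78) (nat_lit 152) (nat_lit 0) (XT.lf (nat_lit 0) (nat_lit 83554929468) (nat_lit 152) (nat_lit 152623634231) (nat_lit 228) (nat_lit 286988776962) (nat_lit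 29) (nat_lit 5) (nat_lit 31) (nat_lit 5) (nat_lit 32) (nat_lit 5) (nat_lit 375) (nat_lit 344) (nat_lit 181)) (XT.nd (nat_lit 78) (nat_lit 152) (nat_lit 0) (XT.lf (nat_lit 0) (nat_lit 417288446705) (nat_lit 228) (nat_lit 61069600882) (nat_lit 76) (nat_lit 74945622834) (nat_lit 29) (nat_lit 5) (nat_lit 32) (nat_lit 5) (nat_lit 30) (nat_lit 4) (nat_lit 376) (nat_lit 344) (nat_lit 180)) (XT.lf (nat_lit 0) (nat_lit 34445202496) (nat_lit 152) (nat_lit 229403212904) (nat_lit 76) (nat_lit 321567669843) (nat_lit 27) (nat_lit 5) (nat_lit 29) (nat_lit 5) (nat_lit 28) (nat_lit 5) (nat_lit 377) (nat_lit 344) (nat_lit 179))))) (XT.nd (nat_lit 234) (nat_lit 304) (nat_lit 0) (XT.nd (nat_lit 78) (nat_lit 76) (nat_lit 0) (XT.lf (nat_lit 0) (nat_lit 192446807621) (nat_lit 152) (nat_lit 25479801917) (nat_lit 228) (nat_lit 401851922995) (nat_lit 25) (nat_lit 5) (nat_lit 27) (nat_lit 5) (nat_lit 28) (nat_lit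 5) (nat_lit 378) (nat_lit 344) (nat_lit 178)) (XT.nd (nat_lit 78) (nat_lit 76) (nat_lit 0) (XT.lf (nat_lit 0) (nat_lit 423769501584) (nat_lit 228) (nat_lit 4140655245) (nat_lit 76) (nat_lit 228595670204) (nat_lit 25) (nat_lit 5) (nat_lit 28) (nat_lit 5) (nat_lit 26) (nat_lit 4) (nat_lit 379) (nat_lit 344) (nat_lit 177)) (XT.lf (nat_lit 0) (nat_lit 467436776036) (nat_lit 76) (nat_lit 186370579526) (nat_lit 152) (nat_lit 41977573046) (nat_lit 24) (nat_lit 5) (nat_lit 25) (nat_lit 5) (nat_lit 26) (nat_lit 4) (nat_lit 380) (nat_lit 344) (nat_lit 176)))) (XT.nd (nat_lit 78) (nat_lit 76) (nat_lit 0) (XT.lf (nat_lit 0) (nat_lit 163941811591) (nat_lit 228) (nat_lit 495222581186) (nat_lit 76) (nat_lit 78656393065) (nat_lit 21) (nat_lit 5) (nat_lit 24) (nat_lit 5) (nat_lit 22) (nat_lit 4) (nat_lit 381) (nat_lit 344) (nat_lit 175)) (XT.nd (nat_lit 78) (nat_lit 76) (nat_lit 0) (XT.lf (nat_lit 0) (nat_lit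 392069056009) (nat_lit 228) (nat_lit 27561868425) (nat_lit 76) (nat_lit 363193929476) (nat_lit 21) (nat_lit 5) (nat_lit 24) (nat_lit 5) (nat_lit 22) (nat_lit 4) (nat_lit 382) (nat_lit 344) (nat_lit 174)) (XT.lf (nat_lit 0) (nat_lit 493300227146) (nat_lit 76) (nat_lit 152847962338) (nat_lit 152) (nat_lit 184895972497) (nat_lit 20) (nat_lit 5) (nat_lit 21) (nat_lit 5) (nat_lit 22) (nat_lit 4) (nat_lit 383) (nat_lit 344) (nat_lit 173)))))) (XT.nd (nat_lit 44148) (nat_lit 0) (nat_lit 5168) (XT.nd (nat_lit 43914) (nat_lit 0) (nat_lit 6004) (XT.nd (nat_lit 43836) (nat_lit 0) (nat_lit 5928) (XT.lf (nat_lit 0) (nat_lit 41690228953) (nat_lit 152) (nat_lit 706252820994) (nat_lit 76) (nat_lit 134875959950) (nat_lit 18) (nat_lit 5) (nat_lit 20) (nat_lit 5) (nat_lit 19) (nat_lit 4) (nat_lit 384) (nat_lit 344) (nat_lit 172)) (XT.lf (nat_lit 0) (nat_lit 2987569176) (nat_lit 836) (nat_lit 31052644017)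 (nat_lit 836) (nat_lit 31052644017) (nat_lit 96) (nat_lit 3) (nat_lit 107) (nat_lit 3) (nat_lit 107) (nat_lit 5) (nat_lit 345) (nat_lit 345) (nat_lit 210))) (XT.nd (nat_lit 78) (nat_lit 0) (nat_lit 0) (XT.lf (nat_lit 0) (nat_lit 7257949904) (nat_lit 760) (nat_lit 99193471569) (nat_lit 836) (nat_lit 28889523941) (nat_lit 97) (nat_lit 5) (nat_lit 107) (nat_lit 5) (nat_lit 108) (nat_lit 5) (nat_lit 346) (nat_lit 345) (nat_lit 209)) (XT.nd (nat_lit 78) (nat_lit 0) (nat_lit 76) (XT.lf (nat_lit 76) (nat_lit 2538927561) (nat_lit 0) (nat_lit 8391042602) (nat_lit 836) (nat_lit 129864296262) (nat_lit 98) (nat_lit 5) (nat_lit 97) (nat_lit 5) (nat_lit 108) (nat_lit 5) (nat_lit 347) (nat_lit 345) (nat_lit 208)) (XT.lf (nat_lit 0) (nat_lit 18173889764) (nat_lit 760) (nat_lit 32196536707) (nat_lit 836) (nat_lit 96149520433) (nat_lit 98) (nat_lit 5) (nat_lit 108) (nat_lit 5) (nat_lit 109) (nat_lit 5) (nat_lit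 348) (nat_lit 345) (nat_lit 207))))) (XT.nd (nat_lit 234) (nat_lit 988) (nat_lit 0) (XT.nd (nat_lit 78) (nat_lit 0) (nat_lit 76) (XT.lf (nat_lit 0) (nat_lit 28361293198) (nat_lit 760) (nat_lit 68604221232) (nat_lit 836) (nat_lit 55619969506) (nat_lit 99) (nat_lit 5) (nat_lit 109) (nat_lit 5) (nat_lit 110) (nat_lit 5) (nat_lit 349) (nat_lit 345) (nat_lit 206)) (XT.nd (nat_lit 78) (nat_lit 0) (nat_lit 0) (XT.lf (nat_lit 0) (nat_lit 41766528864) (nat_lit 760) (nat_lit 106881550187) (nat_lit 836) (nat_lit 10368043458) (nat_lit 100) (nat_lit 5) (nat_lit 110) (nat_lit 5) (nat_lit 111) (nat_lit 5) (nat_lit 350) (nat_lit 345) (nat_lit 205)) (XT.lf (nat_lit 76) (nat_lit 18002054348) (nat_lit 0) (nat_lit 41372401269) (nat_lit 836) (nat_lit 106430243475) (nat_lit 101) (nat_lit 5) (nat_lit 100) (nat_lit 5) (nat_lit 111) (nat_lit 5) (nat_lit 351) (nat_lit 345) (nat_lit 204)))) (XT.nd (nat_lit 78) (nat_lit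 1140) (nat_lit 0) (XT.lf (nat_lit 0) (nat_lit 81445860339) (nat_lit 760) (nat_lit 17544032209) (nat_lit 76) (nat_lit 73993727559) (nat_lit 101) (nat_lit 5) (nat_lit 111) (nat_lit 5) (nat_lit 102) (nat_lit 5) (nat_lit 352) (nat_lit 345) (nat_lit 203)) (XT.nd (nat_lit 78) (nat_lit 380) (nat_lit 0) (XT.lf (nat_lit 0) (nat_lit 108244322643) (nat_lit 836) (nat_lit 54406923609) (nat_lit 76) (nat_lit 17937541750) (nat_lit 91) (nat_lit 5) (nat_lit 102) (nat_lit 5) (nat_lit 92) (nat_lit 5) (nat_lit 353) (nat_lit 345) (nat_lit 202)) (XT.lf (nat_lit 0) (nat_lit 94598472729) (nat_lit 380) (nat_lit 46044546421) (nat_lit 456) (nat_lit 47986532744) (nat_lit 86) (nat_lit 5) (nat_lit 91) (nat_lit 5) (nat_lit 92) (nat_lit 5) (nat_lit 354) (nat_lit 345) (nat_lit 201))))))) (XT.nd (nat_lit 858) (nat_lit 1672) (nat_lit 0) (XT.nd (nat_lit 390) (nat_lit 1292) (nat_lit 0) (XT.nd (nat_lit 156) (nat_lit 608) (nat_lit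 0) (XT.nd (nat_lit 78) (nat_lit 456) (nat_lit 0) (XT.lf (nat_lit 0) (nat_lit 60886512196) (nat_lit 304) (nat_lit 117907961154) (nat_lit 380) (nat_lit 18361060840) (nat_lit 82) (nat_lit 5) (nat_lit 86) (nat_lit 5) (nat_lit 87) (nat_lit 5) (nat_lit 355) (nat_lit 345) (nat_lit 200)) (XT.lf (nat_lit 0) (nat_lit 16171161509) (nat_lit 456) (nat_lit 181293090052) (nat_lit 76) (nat_lit 8740045249) (nat_lit 76) (nat_lit 5) (nat_lit 82) (nat_lit 5) (nat_lit 77) (nat_lit 5) (nat_lit 356) (nat_lit 345) (nat_lit 199))) (XT.nd (nat_lit 78) (nat_lit 608) (nat_lit 0) (XT.lf (nat_lit 0) (nat_lit 57231752571) (nat_lit 456) (nat_lit 14343298488) (nat_lit 76) (nat_lit 144166406000) (nat_lit 76) (nat_lit 5) (nat_lit 82) (nat_lit 5) (nat_lit 77) (nat_lit 5) (nat_lit 357) (nat_lit 345) (nat_lit 198)) (XT.nd (nat_lit 78) (nat_lit 304) (nat_lit 0) (XT.lf (nat_lit 0) (nat_lit 105302836177) (nat_lit 380) (nat_lit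 55507262541) (nat_lit 76) (nat_lit 65045209443) (nat_lit 72) (nat_lit 5) (nat_lit 77) (nat_lit 5) (nat_lit 73) (nat_lit 5) (nat_lit 358) (nat_lit 345) (nat_lit 197)) (XT.lf (nat_lit 0) (nat_lit 136725901454) (nat_lit 304) (nat_lit 24088947895) (nat_lit 380) (nat_lit 75783656136) (nat_lit 68) (nat_lit 5) (nat_lit 72) (nat_lit 5) (nat_lit 73) (nat_lit 5) (nat_lit 359) (nat_lit 345) (nat_lit 196))))) (XT.nd (nat_lit 234) (nat_lit 456) (nat_lit 0) (XT.nd (nat_lit 78) (nat_lit 608) (nat_lit 0) (XT.lf (nat_lit 0) (nat_lit 99403134926) (nat_lit 228) (nat_lit 125828423469) (nat_lit 304) (nat_lit 22746413713) (nat_lit 65) (nat_lit 5) (nat_lit 68) (nat_lit 5) (nat_lit 69) (nat_lit 5) (nat_lit 360) (nat_lit 345) (nat_lit 195)) (XT.nd (nat_lit 78) (nat_lit 228) (nat_lit 0) (XT.lf (nat_lit 0) (nat_lit 36872223578) (nat_lit 380) (nat_lit 201517685657) (nat_lit 76) (nat_lit 21678742923) (nat_lit 60) (nat_lit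 5) (nat_lit 65) (nat_lit 5) (nat_lit 61) (nat_lit 5) (nat_lit 361) (nat_lit 345) (nat_lit 194)) (XT.lf (nat_lit 0) (nat_lit 12404247948) (nat_lit 228) (nat_lit 93015473216) (nat_lit 304) (nat_lit 167440406415) (nat_lit 57) (nat_lit 5) (nat_lit 60) (nat_lit 5) (nat_lit 61) (nat_lit 5) (nat_lit 362) (nat_lit 345) (nat_lit 193)))) (XT.nd (nat_lit 78) (nat_lit 456) (nat_lit 0) (XT.lf (nat_lit 0) (nat_lit 184017701504) (nat_lit 304) (nat_lit 36920232774) (nat_lit 76) (nat_lit 65508652801) (nat_lit 57) (nat_lit 5) (nat_lit 61) (nat_lit 5) (nat_lit 58) (nat_lit 5) (nat_lit 363) (nat_lit 345) (nat_lit 192)) (XT.nd (nat_lit 78) (nat_lit 228) (nat_lit 0) (XT.lf (nat_lit 0) (nat_lit 209639343086) (nat_lit 228) (nat_lit 64105444247) (nat_lit 304) (nat_lit 27133112830) (nat_lit 54) (nat_lit 5) (nat_lit 57) (nat_lit 5) (nat_lit 58) (nat_lit 5) (nat_lit 364) (nat_lit 345) (nat_lit 191)) (XT.lf (nat_lit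 0) (nat_lit 57395888964) (nat_lit 228) (nat_lit 152727736377) (nat_lit 76) (nat_lit 106050599698) (nat_lit 51) (nat_lit 5) (nat_lit 54) (nat_lit 5) (nat_lit 52) (nat_lit 5) (nat_lit 365) (nat_lit 345) (nat_lit 190)))))) (XT.nd (nat_lit 390) (nat_lit 836) (nat_lit 0) (XT.nd (nat_lit 156) (nat_lit 456) (nat_lit 0) (XT.nd (nat_lit 78) (nat_lit 152) (nat_lit 0) (XT.lf (nat_lit 0) (nat_lit 111142115399) (nat_lit 228) (nat_lit 41038553177) (nat_lit 304) (nat_lit 180269143730) (nat_lit 48) (nat_lit 5) (nat_lit 51) (nat_lit 5) (nat_lit 52) (nat_lit 5) (nat_lit 366) (nat_lit 345) (nat_lit 189)) (XT.lf (nat_lit 0) (nat_lit 51061023197) (nat_lit 152) (nat_lit 209198624887) (nat_lit 228) (nat_lit 89482227729) (nat_lit 46) (nat_lit 5) (nat_lit 48) (nat_lit 5) (nat_lit 49) (nat_lit 5) (nat_lit 367) (nat_lit 345) (nat_lit 188))) (XT.nd (nat_lit 78) (nat_lit 380) (nat_lit 0) (XT.lf (nat_lit 0) (nat_lit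 12903472794) (nat_lit 228) (nat_lit 15991693066) (nat_lit 76) (nat_lit 339284947950) (nat_lit 45) (nat_lit 5) (nat_lit 48) (nat_lit 5) (nat_lit 46) (nat_lit 5) (nat_lit 368) (nat_lit 345) (nat_lit 187)) (XT.nd (nat_lit 78) (nat_lit 152) (nat_lit 0) (XT.lf (nat_lit 0) (nat_lit 127718697721) (nat_lit 304) (nat_lit 93156212313) (nat_lit 76) (nat_lit 166776470349) (nat_lit 42) (nat_lit 5) (nat_lit 46) (nat_lit 5) (nat_lit 43) (nat_lit 5) (nat_lit 369) (nat_lit 345) (nat_lit 186)) (XT.lf (nat_lit 0) (nat_lit 228548568637) (nat_lit 152) (nat_lit 27509061662) (nat_lit 228) (nat_lit 152405793603) (nat_lit 40) (nat_lit 5) (nat_lit 42) (nat_lit 5) (nat_lit 43) (nat_lit 5) (nat_lit 370) (nat_lit 345) (nat_lit 185))))) (XT.nd (nat_lit 234) (nat_lit 456) (nat_lit 0) (XT.nd (nat_lit 78) (nat_lit 228) (nat_lit 0) (XT.lf (nat_lit 0) (nat_lit 150413338977) (nat_lit 152) (nat_lit 251078898670) (nat_lit 228)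 (nat_lit 29106765341) (nat_lit 38) (nat_lit 5) (nat_lit 40) (nat_lit 5) (nat_lit 41) (nat_lit 5) (nat_lit 371) (nat_lit 345) (nat_lit 184)) (XT.nd (nat_lit 78) (nat_lit 0) (nat_lit 0) (XT.lf (nat_lit 0) (nat_lit 58991801699) (nat_lit 152) (nat_lit 46304054180) (nat_lit 228) (nat_lit 348899836248) (nat_lit 35) (nat_lit 5) (nat_lit 37) (nat_lit 5) (nat_lit 38) (nat_lit 5) (nat_lit 372) (nat_lit 345) (nat_lit 183)) (XT.lf (nat_lit 0) (nat_lit 257135032723) (nat_lit 228) (nat_lit 47428248160) (nat_lit 76) (nat_lit 174707772328) (nat_lit 35) (nat_lit 5) (nat_lit 38) (nat_lit 5) (nat_lit 36) (nat_lit 5) (nat_lit 373) (nat_lit 345) (nat_lit 182)))) (XT.nd (nat_lit 78) (nat_lit 304) (nat_lit 0) (XT.lf (nat_lit 0) (nat_lit 338213409401) (nat_lit 152) (nat_lit 88969040290) (nat_lit 228) (nat_lit 78866938262) (nat_lit 33) (nat_lit 5) (nat_lit 35) (nat_lit 5) (nat_lit 36) (nat_lit 5) (nat_lit 374)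 (nat_lit 345) (nat_lit 181)) (XT.nd (nat_lit 78) (nat_lit 152) (nat_lit 0) (XT.lf (nat_lit 0) (nat_lit 80165626529) (nat_lit 152) (nat_lit 309472426578) (nat_lit 76) (nat_lit 144936210845) (nat_lit 31) (nat_lit 5) (nat_lit 33) (nat_lit 5) (nat_lit 32) (nat_lit 5) (nat_lit 375) (nat_lit 345) (nat_lit 180)) (XT.lf (nat_lit 0) (nat_lit 90243299859) (nat_lit 152) (nat_lit 164831861566) (nat_lit 228) (nat_lit 309945449719) (nat_lit 29) (nat_lit 5) (nat_lit 31) (nat_lit 5) (nat_lit 32) (nat_lit 5) (nat_lit 376) (nat_lit 345) (nat_lit 179))))))))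
noncomputable def xc115 : XT := (XT.nd (nat_lit 45552) (nat_lit 0) (nat_lit 304) (XT.nd (nat_lit 44694) (nat_lit 0) (nat_lit 3952) (XT.nd (nat_lit 390) (nat_lit 304) (nat_lit 0) (XT.nd (nat_lit 156) (nat_lit 228) (nat_lit 0) (XT.nd (nat_lit 78) (nat_lit 152) (nat_lit 0) (XT.lf (nat_lit 0) (nat_lit 450673687811) (nat_lit 228) (nat_lit 65951403366) (nat_lit 76) (nat_lit 80942763554) (nat_lit 29) (nat_lit 5) (nat_lit 32) (nat_lit 5) (nat_lit 30) (nat_lit 4) (nat_lit 377) (nat_lit 345) (nat_lit 178)) (XT.lf (nat_lit 0) (nat_lit 37202914640) (nat_lit 152) (nat_lit 247751797767) (nat_lit 76) (nat_lit 347294553929) (nat_lit 27) (nat_lit 5) (nat_lit 29) (nat_lit 5) (nat_lit 28) (nat_lit 5) (nat_lit 378) (nat_lit 345) (nat_lit 177))) (XT.nd (nat_lit 78) (nat_lit 76) (nat_lit 0) (XT.lf (nat_lit 0) (nat_lit 207846064813) (nat_lit 152) (nat_lit 27516669019) (nat_lit 228) (nat_lit 433997980667) (nat_lit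 25) (nat_lit 5) (nat_lit 27) (nat_lit 5) (nat_lit 28) (nat_lit 5) (nat_lit 379) (nat_lit 345) (nat_lit 176)) (XT.nd (nat_lit 78) (nat_lit 76) (nat_lit 0) (XT.lf (nat_lit 0) (nat_lit 457672931355) (nat_lit 228) (nat_lit 4468584022) (nat_lit 76) (nat_lit 246884683540) (nat_lit 25) (nat_lit 5) (nat_lit 28) (nat_lit 5) (nat_lit 26) (nat_lit 4) (nat_lit 380) (nat_lit 345) (nat_lit 175)) (XT.lf (nat_lit 0) (nat_lit 504834897320) (nat_lit 76) (nat_lit 201278827475) (nat_lit 152) (nat_lit 45333908324) (nat_lit 24) (nat_lit 5) (nat_lit 25) (nat_lit 5) (nat_lit 26) (nat_lit 4) (nat_lit 381) (nat_lit 345) (nat_lit 174))))) (XT.nd (nat_lit 44070) (nat_lit 0) (nat_lit 5776) (XT.nd (nat_lit 78) (nat_lit 76) (nat_lit 0) (XT.lf (nat_lit 0) (nat_lit 177058902925) (nat_lit 228) (nat_lit 534837223257) (nat_lit 76) (nat_lit 84950234556) (nat_lit 21) (nat_lit 5) (nat_lit 24) (nat_lit 5) (nat_lit 22) (nat_lit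 4) (nat_lit 382) (nat_lit 345) (nat_lit 173)) (XT.nd (nat_lit 78) (nat_lit 76) (nat_lit 0) (XT.lf (nat_lit 0) (nat_lit 423436197533) (nat_lit 228) (nat_lit 29763887877) (nat_lit 76) (nat_lit 392250675358) (nat_lit 21) (nat_lit 5) (nat_lit 24) (nat_lit 5) (nat_lit 22) (nat_lit 4) (nat_lit 383) (nat_lit 345) (nat_lit 172)) (XT.lf (nat_lit 0) (nat_lit 532767048004) (nat_lit 76) (nat_lit 165074537659) (nat_lit 152) (nat_lit 199686031668) (nat_lit 20) (nat_lit 5) (nat_lit 21) (nat_lit 5) (nat_lit 22) (nat_lit 4) (nat_lit 384) (nat_lit 345) (nat_lit 171)))) (XT.nd (nat_lit 78) (nat_lit 0) (nat_lit 76) (XT.lf (nat_lit 0) (nat_lit 3232278059) (nat_lit 836) (nat_lit 33533857726) (nat_lit 836) (nat_lit 33533857726) (nat_lit 96) (nat_lit 3) (nat_lit 107) (nat_lit 3) (nat_lit 107) (nat_lit 5) (nat_lit 346) (nat_lit 346) (nat_lit 208)) (XT.nd (nat_lit 78) (nat_lit 0) (nat_lit 0) (XT.lf (nat_lit 0) (nat_lit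 7849160439) (nat_lit 760) (nat_lit 107122591745) (nat_lit 836) (nat_lit 31195926971) (nat_lit 97) (nat_lit 5) (nat_lit 107) (nat_lit 5) (nat_lit 108) (nat_lit 5) (nat_lit 347) (nat_lit 346) (nat_lit 207)) (XT.lf (nat_lit 76) (nat_lit 2748123023) (nat_lit 0) (nat_lit 9066130941) (nat_lit 836) (nat_lit 140243047276) (nat_lit 98) (nat_lit 5) (nat_lit 97) (nat_lit 5) (nat_lit 108) (nat_lit 5) (nat_lit 348) (nat_lit 346) (nat_lit 206)))))) (XT.nd (nat_lit 390) (nat_lit 1976) (nat_lit 0) (XT.nd (nat_lit 156) (nat_lit 0) (nat_lit 152) (XT.nd (nat_lit 78) (nat_lit 0) (nat_lit 76) (XT.lf (nat_lit 0) (nat_lit 19636899819) (nat_lit 760) (nat_lit 34766104864) (nat_lit 836) (nat_lit 103838071745) (nat_lit 98) (nat_lit 5) (nat_lit 108) (nat_lit 5) (nat_lit 109) (nat_lit 5) (nat_lit 349) (nat_lit 346) (nat_lit 205)) (XT.lf (nat_lit 0) (nat_lit 30638672400) (nat_lit 760) (nat_lit 74086194285) (nat_lit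 836) (nat_lit 60067021727) (nat_lit 99) (nat_lit 5) (nat_lit 109) (nat_lit 5) (nat_lit 110) (nat_lit 5) (nat_lit 350) (nat_lit 346) (nat_lit 204))) (XT.nd (nat_lit 78) (nat_lit 0) (nat_lit 0) (XT.lf (nat_lit 0) (nat_lit 45115765177) (nat_lit 760) (nat_lit 115425550371) (nat_lit 836) (nat_lit 11195691385) (nat_lit 100) (nat_lit 5) (nat_lit 110) (nat_lit 5) (nat_lit 111) (nat_lit 5) (nat_lit 351) (nat_lit 346) (nat_lit 203)) (XT.nd (nat_lit 78) (nat_lit 0) (nat_lit 76) (XT.lf (nat_lit 76) (nat_lit 19448459008) (nat_lit 0) (nat_lit 44683378269) (nat_lit 836) (nat_lit 114936857523) (nat_lit 101) (nat_lit 5) (nat_lit 100) (nat_lit 5) (nat_lit 111) (nat_lit 5) (nat_lit 352) (nat_lit 346) (nat_lit 202)) (XT.lf (nat_lit 0) (nat_lit 87968387232) (nat_lit 760) (nat_lit 18941407534) (nat_lit 76) (nat_lit 79912163752) (nat_lit 101) (nat_lit 5) (nat_lit 111) (nat_lit 5) (nat_lit 102) (nat_lit 5) (nat_lit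 353) (nat_lit 346) (nat_lit 201))))) (XT.nd (nat_lit 234) (nat_lit 760) (nat_lit 0) (XT.nd (nat_lit 78) (nat_lit 684) (nat_lit 0) (XT.lf (nat_lit 0) (nat_lit 116910301549) (nat_lit 836) (nat_lit 58753258852) (nat_lit 76) (nat_lit 19372001305) (nat_lit 91) (nat_lit 5) (nat_lit 102) (nat_lit 5) (nat_lit 92) (nat_lit 5) (nat_lit 354) (nat_lit 346) (nat_lit 200)) (XT.nd (nat_lit 78) (nat_lit 304) (nat_lit 0) (XT.lf (nat_lit 0) (nat_lit 102172298938) (nat_lit 380) (nat_lit 49728211184) (nat_lit 456) (nat_lit 51819096338) (nat_lit 86) (nat_lit 5) (nat_lit 91) (nat_lit 5) (nat_lit 92) (nat_lit 5) (nat_lit 355) (nat_lit 346) (nat_lit 199)) (XT.lf (nat_lit 0) (nat_lit 65763420692) (nat_lit 304) (nat_lit 127340303881) (nat_lit 380) (nat_lit 19823961099) (nat_lit 82) (nat_lit 5) (nat_lit 86) (nat_lit 5) (nat_lit 87) (nat_lit 5) (nat_lit 356) (nat_lit 346) (nat_lit 198)))) (XT.nd (nat_lit 78) (nat_lit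 304) (nat_lit 0) (XT.lf (nat_lit 0) (nat_lit 17470317936) (nat_lit 456) (nat_lit 195790349288) (nat_lit 76) (nat_lit 9439694348) (nat_lit 76) (nat_lit 5) (nat_lit 82) (nat_lit 5) (nat_lit 77) (nat_lit 5) (nat_lit 357) (nat_lit 346) (nat_lit 197)) (XT.nd (nat_lit 78) (nat_lit 304) (nat_lit 0) (XT.lf (nat_lit 0) (nat_lit 61815351578) (nat_lit 456) (nat_lit 15485032767) (nat_lit 76) (nat_lit 155700130960) (nat_lit 76) (nat_lit 5) (nat_lit 82) (nat_lit 5) (nat_lit 77) (nat_lit 5) (nat_lit 358) (nat_lit 346) (nat_lit 196)) (XT.lf (nat_lit 0) (nat_lit 113731843814) (nat_lit 380) (nat_lit 59942130585) (nat_lit 76) (nat_lit 70249514399) (nat_lit 72) (nat_lit 5) (nat_lit 77) (nat_lit 5) (nat_lit 73) (nat_lit 5) (nat_lit 359) (nat_lit 346) (nat_lit 195))))))) (XT.nd (nat_lit 858) (nat_lit 1368) (nat_lit 0) (XT.nd (nat_lit 390) (nat_lit 1140) (nat_lit 0) (XT.nd (nat_lit 156) (nat_lit 608) (nat_lit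 0) (XT.nd (nat_lit 78) (nat_lit 228) (nat_lit 0) (XT.lf (nat_lit 0) (nat_lit 147669438252) (nat_lit 304) (nat_lit 26015110978) (nat_lit 380) (nat_lit 81841606487) (nat_lit 68) (nat_lit 5) (nat_lit 72) (nat_lit 5) (nat_lit 73) (nat_lit 5) (nat_lit 360) (nat_lit 346) (nat_lit 194)) (XT.lf (nat_lit 0) (nat_lit 107360818886) (nat_lit 228) (nat_lit 135893540496) (nat_lit 304) (nat_lit 24561632409) (nat_lit 65) (nat_lit 5) (nat_lit 68) (nat_lit 5) (nat_lit 69) (nat_lit 5) (nat_lit 361) (nat_lit 346) (nat_lit 193))) (XT.nd (nat_lit 78) (nat_lit 228) (nat_lit 0) (XT.lf (nat_lit 0) (nat_lit 39826132258) (nat_lit 380) (nat_lit 217633571785) (nat_lit 76) (nat_lit 23414229985) (nat_lit 60) (nat_lit 5) (nat_lit 65) (nat_lit 5) (nat_lit 61) (nat_lit 5) (nat_lit 362) (nat_lit 346) (nat_lit 192)) (XT.nd (nat_lit 78) (nat_lit 0) (nat_lit 0) (XT.lf (nat_lit 0) (nat_lit 13401876237) (nat_lit 228) (nat_lit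 100455329997) (nat_lit 304) (nat_lit 180831532697) (nat_lit 57) (nat_lit 5) (nat_lit 60) (nat_lit 5) (nat_lit 61) (nat_lit 5) (nat_lit 363) (nat_lit 346) (nat_lit 191)) (XT.lf (nat_lit 0) (nat_lit 198742755530) (nat_lit 304) (nat_lit 39868790521) (nat_lit 76) (nat_lit 70750582871) (nat_lit 57) (nat_lit 5) (nat_lit 61) (nat_lit 5) (nat_lit 58) (nat_lit 5) (nat_lit 364) (nat_lit 346) (nat_lit 190))))) (XT.nd (nat_lit 234) (nat_lit 456) (nat_lit 0) (XT.nd (nat_lit 78) (nat_lit 456) (nat_lit 0) (XT.lf (nat_lit 0) (nat_lit 226415331468) (nat_lit 228) (nat_lit 69232482864) (nat_lit 304) (nat_lit 29300142655) (nat_lit 54) (nat_lit 5) (nat_lit 57) (nat_lit 5) (nat_lit 58) (nat_lit 5) (nat_lit 365) (nat_lit 346) (nat_lit 189)) (XT.nd (nat_lit 78) (nat_lit 228) (nat_lit 0) (XT.lf (nat_lit 0) (nat_lit 61990900272) (nat_lit 228) (nat_lit 164941064943) (nat_lit 76) (nat_lit 114536028184) (nat_lit 51)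 (nat_lit 5) (nat_lit 54) (nat_lit 5) (nat_lit 52) (nat_lit 5) (nat_lit 366) (nat_lit 346) (nat_lit 188)) (XT.lf (nat_lit 0) (nat_lit 120038162447) (nat_lit 228) (nat_lit 44320125418) (nat_lit 304) (nat_lit 194687348696) (nat_lit 48) (nat_lit 5) (nat_lit 51) (nat_lit 5) (nat_lit 52) (nat_lit 5) (nat_lit 367) (nat_lit 346) (nat_lit 187)))) (XT.nd (nat_lit 78) (nat_lit 304) (nat_lit 0) (XT.lf (nat_lit 0) (nat_lit 55150510741) (nat_lit 152) (nat_lit 225932934254) (nat_lit 228) (nat_lit 96637627371) (nat_lit 46) (nat_lit 5) (nat_lit 48) (nat_lit 5) (nat_lit 49) (nat_lit 5) (nat_lit 368) (nat_lit 346) (nat_lit 186)) (XT.nd (nat_lit 78) (nat_lit 228) (nat_lit 0) (XT.lf (nat_lit 0) (nat_lit 13938599546) (nat_lit 228) (nat_lit 17266667796) (nat_lit 76) (nat_lit 366429111136) (nat_lit 45) (nat_lit 5) (nat_lit 48) (nat_lit 5) (nat_lit 46) (nat_lit 5) (nat_lit 369) (nat_lit 346) (nat_lit 185)) (XT.lf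 (nat_lit 0) (nat_lit 137938919482) (nat_lit 304) (nat_lit 100604424021) (nat_lit 76) (nat_lit 180120009170) (nat_lit 42) (nat_lit 5) (nat_lit 46) (nat_lit 5) (nat_lit 43) (nat_lit 5) (nat_lit 370) (nat_lit 346) (nat_lit 184)))))) (XT.nd (nat_lit 468) (nat_lit 532) (nat_lit 0) (XT.nd (nat_lit 234) (nat_lit 304) (nat_lit 0) (XT.nd (nat_lit 78) (nat_lit 380) (nat_lit 0) (XT.lf (nat_lit 0) (nat_lit 246836553172) (nat_lit 152) (nat_lit 29708275569) (nat_lit 228) (nat_lit 164595537964) (nat_lit 40) (nat_lit 5) (nat_lit 42) (nat_lit 5) (nat_lit 43) (nat_lit 5) (nat_lit 371) (nat_lit 346) (nat_lit 183)) (XT.nd (nat_lit 78) (nat_lit 228) (nat_lit 0) (XT.lf (nat_lit 0) (nat_lit 162450429846) (nat_lit 152) (nat_lit 271163667793) (nat_lit 228) (nat_lit 31432699958) (nat_lit 38) (nat_lit 5) (nat_lit 40) (nat_lit 5) (nat_lit 41) (nat_lit 5) (nat_lit 372) (nat_lit 346) (nat_lit 182)) (XT.lf (nat_lit 0)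 (nat_lit 63715075961) (nat_lit 152) (nat_lit 50006846029) (nat_lit 228) (nat_lit 376809304231) (nat_lit 35) (nat_lit 5) (nat_lit 37) (nat_lit 5) (nat_lit 38) (nat_lit 5) (nat_lit 373) (nat_lit 346) (nat_lit 181)))) (XT.nd (nat_lit 78) (nat_lit 304) (nat_lit 0) (XT.lf (nat_lit 0) (nat_lit 277708077532) (nat_lit 228) (nat_lit 51218778868) (nat_lit 76) (nat_lit 188685767666) (nat_lit 35) (nat_lit 5) (nat_lit 38) (nat_lit 5) (nat_lit 36) (nat_lit 5) (nat_lit 374) (nat_lit 346) (nat_lit 180)) (XT.nd (nat_lit 78) (nat_lit 152) (nat_lit 0) (XT.lf (nat_lit 0) (nat_lit 365274049234) (nat_lit 152) (nat_lit 96085128228) (nat_lit 228) (nat_lit 85174053742) (nat_lit 33) (nat_lit 5) (nat_lit 35) (nat_lit 5) (nat_lit 36) (nat_lit 5) (nat_lit 375) (nat_lit 346) (nat_lit 179)) (XT.lf (nat_lit 0) (nat_lit 86580960497) (nat_lit 152) (nat_lit 334226657023) (nat_lit 76) (nat_lit 156532482302) (nat_lit 31) (nat_lit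 5) (nat_lit 33) (nat_lit 5) (nat_lit 32) (nat_lit 5) (nat_lit 376) (nat_lit 346) (nat_lit 178))))) (XT.nd (nat_lit 234) (nat_lit 228) (nat_lit 0) (XT.nd (nat_lit 78) (nat_lit 152) (nat_lit 0) (XT.lf (nat_lit 0) (nat_lit 97466172656) (nat_lit 152) (nat_lit 178016984390) (nat_lit 228) (nat_lit 334739002878) (nat_lit 29) (nat_lit 5) (nat_lit 31) (nat_lit 5) (nat_lit 32) (nat_lit 5) (nat_lit 377) (nat_lit 346) (nat_lit 177)) (XT.nd (nat_lit 78) (nat_lit 152) (nat_lit 0) (XT.lf (nat_lit 0) (nat_lit 486729439292) (nat_lit 228) (nat_lit 71224287251) (nat_lit 76) (nat_lit 87419462839) (nat_lit 29) (nat_lit 5) (nat_lit 32) (nat_lit 5) (nat_lit 30) (nat_lit 4) (nat_lit 378) (nat_lit 346) (nat_lit 176)) (XT.lf (nat_lit 0) (nat_lit 40180944745) (nat_lit 152) (nat_lit 267568793294) (nat_lit 76) (nat_lit 375079378959) (nat_lit 27) (nat_lit 5) (nat_lit 29) (nat_lit 5) (nat_lit 28) (nat_lit 5) (nat_lit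 379) (nat_lit 346) (nat_lit 175)))) (XT.nd (nat_lit 78) (nat_lit 76) (nat_lit 0) (XT.lf (nat_lit 0) (nat_lit 224476761471) (nat_lit 152) (nat_lit 29716701913) (nat_lit 228) (nat_lit 468716021994) (nat_lit 25) (nat_lit 5) (nat_lit 27) (nat_lit 5) (nat_lit 28) (nat_lit 5) (nat_lit 380) (nat_lit 346) (nat_lit 174)) (XT.nd (nat_lit 78) (nat_lit 76) (nat_lit 0) (XT.lf (nat_lit 0) (nat_lit 494288368782) (nat_lit 228) (nat_lit 4823221256) (nat_lit 76) (nat_lit 266636623963) (nat_lit 25) (nat_lit 5) (nat_lit 28) (nat_lit 5) (nat_lit 26) (nat_lit 4) (nat_lit 381) (nat_lit 346) (nat_lit 173)) (XT.lf (nat_lit 0) (nat_lit 545224414758) (nat_lit 76) (nat_lit 217379934760) (nat_lit 152) (nat_lit 48959017281) (nat_lit 24) (nat_lit 5) (nat_lit 25) (nat_lit 5) (nat_lit 26) (nat_lit 4) (nat_lit 382) (nat_lit 346) (nat_lit 172))))))))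
noncomputable def xc116 : XT := (XT.nd (nat_lit 45708) (nat_lit 0) (nat_lit 228) (XT.nd (nat_lit 44850) (nat_lit 0) (nat_lit 2280) (XT.nd (nat_lit 44382) (nat_lit 0) (nat_lit 4940) (XT.nd (nat_lit 44148) (nat_lit 0) (nat_lit 5776) (XT.nd (nat_lit 44070) (nat_lit 0) (nat_lit 5700) (XT.lf (nat_lit 0) (nat_lit 191225112421) (nat_lit 228) (nat_lit 577621488135) (nat_lit 76) (nat_lit 91747393621) (nat_lit 21) (nat_lit 5) (nat_lit 24) (nat_lit 5) (nat_lit 22) (nat_lit 4) (nat_lit 383) (nat_lit 346) (nat_lit 171)) (XT.lf (nat_lit 0) (nat_lit 3495750007) (nat_lit 836) (nat_lit 36213996202) (nat_lit 836) (nat_lit 36213996202) (nat_lit 96) (nat_lit 3) (nat_lit 107) (nat_lit 3) (nat_lit 107) (nat_lit 5) (nat_lit 347) (nat_lit 347) (nat_lit 206))) (XT.nd (nat_lit 78) (nat_lit 0) (nat_lit 0) (XT.lf (nat_lit 0) (nat_lit 8486159241) (nat_lit 760) (nat_lit 115686948511) (nat_lit 836) (nat_lit 33687521151)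 (nat_lit 97) (nat_lit 5) (nat_lit 107) (nat_lit 5) (nat_lit 108) (nat_lit 5) (nat_lit 348) (nat_lit 347) (nat_lit 205)) (XT.nd (nat_lit 78) (nat_lit 0) (nat_lit 76) (XT.lf (nat_lit 76) (nat_lit 2973186564) (nat_lit 0) (nat_lit 9794683531) (nat_lit 836) (nat_lit 151453581003) (nat_lit 98) (nat_lit 5) (nat_lit 97) (nat_lit 5) (nat_lit 108) (nat_lit 5) (nat_lit 349) (nat_lit 347) (nat_lit 204)) (XT.lf (nat_lit 0) (nat_lit 21215652622) (nat_lit 760) (nat_lit 37542116521) (nat_lit 836) (nat_lit 112142193681) (nat_lit 98) (nat_lit 5) (nat_lit 108) (nat_lit 5) (nat_lit 109) (nat_lit 5) (nat_lit 350) (nat_lit 347) (nat_lit 203))))) (XT.nd (nat_lit 234) (nat_lit 988) (nat_lit 0) (XT.nd (nat_lit 78) (nat_lit 0) (nat_lit 76) (XT.lf (nat_lit 0) (nat_lit 33097032778) (nat_lit 760) (nat_lit 80007633171) (nat_lit 836) (nat_lit 64870201248) (nat_lit 99) (nat_lit 5) (nat_lit 109) (nat_lit 5) (nat_lit 110)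 (nat_lit 5) (nat_lit 351) (nat_lit 347) (nat_lit 202)) (XT.nd (nat_lit 78) (nat_lit 0) (nat_lit 0) (XT.lf (nat_lit 0) (nat_lit 48731811374) (nat_lit 760) (nat_lit 124654001268) (nat_lit 836) (nat_lit 12089807301) (nat_lit 100) (nat_lit 5) (nat_lit 110) (nat_lit 5) (nat_lit 111) (nat_lit 5) (nat_lit 352) (nat_lit 347) (nat_lit 201)) (XT.lf (nat_lit 76) (nat_lit 21009685791) (nat_lit 0) (nat_lit 48259064389) (nat_lit 836) (nat_lit 124125114226) (nat_lit 101) (nat_lit 5) (nat_lit 100) (nat_lit 5) (nat_lit 111) (nat_lit 5) (nat_lit 353) (nat_lit 347) (nat_lit 200)))) (XT.nd (nat_lit 78) (nat_lit 1140) (nat_lit 0) (XT.lf (nat_lit 0) (nat_lit 95011737896) (nat_lit 760) (nat_lit 20451449858) (nat_lit 76) (nat_lit 86304226347) (nat_lit 101) (nat_lit 5) (nat_lit 111) (nat_lit 5) (nat_lit 102) (nat_lit 5) (nat_lit 354) (nat_lit 347) (nat_lit 199)) (XT.nd (nat_lit 78) (nat_lit 380) (nat_lit 0) (XT.lf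 (nat_lit 0) (nat_lit 126268641015) (nat_lit 836) (nat_lit 63448188074) (nat_lit 76) (nat_lit 20921295201) (nat_lit 91) (nat_lit 5) (nat_lit 102) (nat_lit 5) (nat_lit 92) (nat_lit 5) (nat_lit 355) (nat_lit 347) (nat_lit 198)) (XT.lf (nat_lit 0) (nat_lit 110351182639) (nat_lit 380) (nat_lit 53706554712) (nat_lit 456) (nat_lit 55959172207) (nat_lit 86) (nat_lit 5) (nat_lit 91) (nat_lit 5) (nat_lit 92) (nat_lit 5) (nat_lit 356) (nat_lit 347) (nat_lit 197)))))) (XT.nd (nat_lit 390) (nat_lit 1292) (nat_lit 0) (XT.nd (nat_lit 156) (nat_lit 608) (nat_lit 0) (XT.nd (nat_lit 78) (nat_lit 456) (nat_lit 0) (XT.lf (nat_lit 0) (nat_lit 71029627681) (nat_lit 304) (nat_lit 137527275992) (nat_lit 380) (nat_lit 21404747150) (nat_lit 82) (nat_lit 5) (nat_lit 86) (nat_lit 5) (nat_lit 87) (nat_lit 5) (nat_lit 357) (nat_lit 347) (nat_lit 196)) (XT.lf (nat_lit 0) (nat_lit 18872627447) (nat_lit 456) (nat_lit 211448272046)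 (nat_lit 76) (nat_lit 10195251822) (nat_lit 76) (nat_lit 5) (nat_lit 82) (nat_lit 5) (nat_lit 77) (nat_lit 5) (nat_lit 358) (nat_lit 347) (nat_lit 195))) (XT.nd (nat_lit 78) (nat_lit 608) (nat_lit 0) (XT.lf (nat_lit 0) (nat_lit 66764916812) (nat_lit 456) (nat_lit 16718923180) (nat_lit 76) (nat_lit 168156495073) (nat_lit 76) (nat_lit 5) (nat_lit 82) (nat_lit 5) (nat_lit 77) (nat_lit 5) (nat_lit 359) (nat_lit 347) (nat_lit 194)) (XT.nd (nat_lit 78) (nat_lit 304) (nat_lit 0) (XT.lf (nat_lit 0) (nat_lit 122834490037) (nat_lit 380) (nat_lit 64732603090) (nat_lit 76) (nat_lit 75870065571) (nat_lit 72) (nat_lit 5) (nat_lit 77) (nat_lit 5) (nat_lit 73) (nat_lit 5) (nat_lit 360) (nat_lit 347) (nat_lit 193)) (XT.lf (nat_lit 0) (nat_lit 159487678395) (nat_lit 304) (nat_lit 28095503028) (nat_lit 380) (nat_lit 88384869385) (nat_lit 68) (nat_lit 5) (nat_lit 72) (nat_lit 5) (nat_lit 73) (nat_lit 5) (nat_lit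 361) (nat_lit 347) (nat_lit 192))))) (XT.nd (nat_lit 234) (nat_lit 456) (nat_lit 0) (XT.nd (nat_lit 78) (nat_lit 608) (nat_lit 0) (XT.lf (nat_lit 0) (nat_lit 115954342462) (nat_lit 228) (nat_lit 146764031922) (nat_lit 304) (nat_lit 26522709778) (nat_lit 65) (nat_lit 5) (nat_lit 68) (nat_lit 5) (nat_lit 69) (nat_lit 5) (nat_lit 362) (nat_lit 347) (nat_lit 191)) (XT.nd (nat_lit 78) (nat_lit 228) (nat_lit 0) (XT.lf (nat_lit 0) (nat_lit 43015764328) (nat_lit 380) (nat_lit 235039517538) (nat_lit 76) (nat_lit 25288386583) (nat_lit 60) (nat_lit 5) (nat_lit 65) (nat_lit 5) (nat_lit 61) (nat_lit 5) (nat_lit 363) (nat_lit 347) (nat_lit 190)) (XT.lf (nat_lit 0) (nat_lit 14478560332) (nat_lit 228) (nat_lit 108490572346) (nat_lit 304) (nat_lit 195294534883) (nat_lit 57) (nat_lit 5) (nat_lit 60) (nat_lit 5) (nat_lit 61) (nat_lit 5) (nat_lit 364) (nat_lit 347) (nat_lit 189)))) (XT.nd (nat_lit 78) (nat_lit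 456) (nat_lit 0) (XT.lf (nat_lit 0) (nat_lit 214645294891) (nat_lit 304) (nat_lit 43053954879) (nat_lit 76) (nat_lit 76411690754) (nat_lit 57) (nat_lit 5) (nat_lit 61) (nat_lit 5) (nat_lit 58) (nat_lit 5) (nat_lit 365) (nat_lit 347) (nat_lit 188)) (XT.nd (nat_lit 78) (nat_lit 228) (nat_lit 0) (XT.lf (nat_lit 0) (nat_lit 244532708308) (nat_lit 228) (nat_lit 74769883857) (nat_lit 304) (nat_lit 31641051186) (nat_lit 54) (nat_lit 5) (nat_lit 57) (nat_lit 5) (nat_lit 58) (nat_lit 5) (nat_lit 366) (nat_lit 347) (nat_lit 187)) (XT.lf (nat_lit 0) (nat_lit 66953035968) (nat_lit 228) (nat_lit 178132157457) (nat_lit 76) (nat_lit 123700094003) (nat_lit 51) (nat_lit 5) (nat_lit 54) (nat_lit 5) (nat_lit 52) (nat_lit 5) (nat_lit 367) (nat_lit 347) (nat_lit 186))))))) (XT.nd (nat_lit 858) (nat_lit 380) (nat_lit 0) (XT.nd (nat_lit 390) (nat_lit 836) (nat_lit 0) (XT.nd (nat_lit 156) (nat_lit 456) (nat_lit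 0) (XT.nd (nat_lit 78) (nat_lit 152) (nat_lit 0) (XT.lf (nat_lit 0) (nat_lit 129645225916) (nat_lit 228) (nat_lit 47864439144) (nat_lit 304) (nat_lit 210259484626) (nat_lit 48) (nat_lit 5) (nat_lit 51) (nat_lit 5) (nat_lit 52) (nat_lit 5) (nat_lit 368) (nat_lit 347) (nat_lit 185)) (XT.lf (nat_lit 0) (nat_lit 59566500235) (nat_lit 152) (nat_lit 244006213865) (nat_lit 228) (nat_lit 104365912444) (nat_lit 46) (nat_lit 5) (nat_lit 48) (nat_lit 5) (nat_lit 49) (nat_lit 5) (nat_lit 369) (nat_lit 347) (nat_lit 184))) (XT.nd (nat_lit 78) (nat_lit 380) (nat_lit 0) (XT.lf (nat_lit 0) (nat_lit 15056130007) (nat_lit 228) (nat_lit 18644262608) (nat_lit 76) (nat_lit 395744612309) (nat_lit 45) (nat_lit 5) (nat_lit 48) (nat_lit 5) (nat_lit 46) (nat_lit 5) (nat_lit 370) (nat_lit 347) (nat_lit 183)) (XT.nd (nat_lit 78) (nat_lit 152) (nat_lit 0) (XT.lf (nat_lit 0) (nat_lit 148976370098) (nat_lit 304) (nat_lit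 108649104007) (nat_lit 76) (nat_lit 194530828348) (nat_lit 42) (nat_lit 5) (nat_lit 46) (nat_lit 5) (nat_lit 43) (nat_lit 5) (nat_lit 371) (nat_lit 347) (nat_lit 182)) (XT.lf (nat_lit 0) (nat_lit 266586991697) (nat_lit 152) (nat_lit 32083642154) (nat_lit 228) (nat_lit 177760849787) (nat_lit 40) (nat_lit 5) (nat_lit 42) (nat_lit 5) (nat_lit 43) (nat_lit 5) (nat_lit 372) (nat_lit 347) (nat_lit 181))))) (XT.nd (nat_lit 234) (nat_lit 456) (nat_lit 0) (XT.nd (nat_lit 78) (nat_lit 228) (nat_lit 0) (XT.lf (nat_lit 0) (nat_lit 175449913951) (nat_lit 152) (nat_lit 292855438539) (nat_lit 228) (nat_lit 33945081207) (nat_lit 38) (nat_lit 5) (nat_lit 40) (nat_lit 5) (nat_lit 41) (nat_lit 5) (nat_lit 373) (nat_lit 347) (nat_lit 180)) (XT.nd (nat_lit 78) (nat_lit 0) (nat_lit 0) (XT.lf (nat_lit 0) (nat_lit 68815651487) (nat_lit 152) (nat_lit 54006079852) (nat_lit 228) (nat_lit 406951889004) (nat_lit 35)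 (nat_lit 5) (nat_lit 37) (nat_lit 5) (nat_lit 38) (nat_lit 5) (nat_lit 374) (nat_lit 347) (nat_lit 179)) (XT.lf (nat_lit 0) (nat_lit 299926646052) (nat_lit 228) (nat_lit 55313084037) (nat_lit 76) (nat_lit 203781806679) (nat_lit 35) (nat_lit 5) (nat_lit 38) (nat_lit 5) (nat_lit 36) (nat_lit 5) (nat_lit 375) (nat_lit 347) (nat_lit 178)))) (XT.nd (nat_lit 78) (nat_lit 304) (nat_lit 0) (XT.lf (nat_lit 0) (nat_lit 394499031370) (nat_lit 152) (nat_lit 103770707960) (nat_lit 228) (nat_lit 91986057962) (nat_lit 33) (nat_lit 5) (nat_lit 35) (nat_lit 5) (nat_lit 36) (nat_lit 5) (nat_lit 376) (nat_lit 347) (nat_lit 177)) (XT.nd (nat_lit 78) (nat_lit 152) (nat_lit 0) (XT.lf (nat_lit 0) (nat_lit 93509223898) (nat_lit 152) (nat_lit 360961734302) (nat_lit 76) (nat_lit 169056259376) (nat_lit 31) (nat_lit 5) (nat_lit 33) (nat_lit 5) (nat_lit 32) (nat_lit 5) (nat_lit 377) (nat_lit 347) (nat_lit 176)) (XT.lf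 (nat_lit 0) (nat_lit 105266388972) (nat_lit 152) (nat_lit 192257120489) (nat_lit 228) (nat_lit 361516337427) (nat_lit 29) (nat_lit 5) (nat_lit 31) (nat_lit 5) (nat_lit 32) (nat_lit 5) (nat_lit 378) (nat_lit 347) (nat_lit 175)))))) (XT.nd (nat_lit 44460) (nat_lit 0) (nat_lit 5472) (XT.nd (nat_lit 156) (nat_lit 228) (nat_lit 0) (XT.nd (nat_lit 78) (nat_lit 152) (nat_lit 0) (XT.lf (nat_lit 0) (nat_lit 525669386048) (nat_lit 228) (nat_lit 76919462413) (nat_lit 76) (nat_lit 94414115718) (nat_lit 29) (nat_lit 5) (nat_lit 32) (nat_lit 5) (nat_lit 30) (nat_lit 4) (nat_lit 379) (nat_lit 347) (nat_lit 174)) (XT.lf (nat_lit 0) (nat_lit 43396960906) (nat_lit 152) (nat_lit 288971597603) (nat_lit 76) (nat_lit 405086810136) (nat_lit 27) (nat_lit 5) (nat_lit 29) (nat_lit 5) (nat_lit 28) (nat_lit 5) (nat_lit 380) (nat_lit 347) (nat_lit 173))) (XT.nd (nat_lit 78) (nat_lit 76) (nat_lit 0) (XT.lf (nat_lit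 0) (nat_lit 242437484241) (nat_lit 152) (nat_lit 32092922988) (nat_lit 228) (nat_lit 506211763008) (nat_lit 25) (nat_lit 5) (nat_lit 27) (nat_lit 5) (nat_lit 28) (nat_lit 5) (nat_lit 381) (nat_lit 347) (nat_lit 172)) (XT.nd (nat_lit 78) (nat_lit 76) (nat_lit 0) (XT.lf (nat_lit 0) (nat_lit 533832812529) (nat_lit 228) (nat_lit 5206635980) (nat_lit 76) (nat_lit 287968553314) (nat_lit 25) (nat_lit 5) (nat_lit 28) (nat_lit 5) (nat_lit 26) (nat_lit 4) (nat_lit 382) (nat_lit 347) (nat_lit 171)) (XT.lf (nat_lit 0) (nat_lit 588844704746) (nat_lit 76) (nat_lit 234769301665) (nat_lit 152) (nat_lit 52874363742) (nat_lit 24) (nat_lit 5) (nat_lit 25) (nat_lit 5) (nat_lit 26) (nat_lit 4) (nat_lit 383) (nat_lit 347) (nat_lit 170))))) (XT.nd (nat_lit 234) (nat_lit 0) (nat_lit 152) (XT.nd (nat_lit 78) (nat_lit 0) (nat_lit 76) (XT.lf (nat_lit 0) (nat_lit 3779602140) (nat_lit 836) (nat_lit 39108912416) (nat_lit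 836) (nat_lit 39108912416) (nat_lit 96) (nat_lit 3) (nat_lit 107) (nat_lit 3) (nat_lit 107) (nat_lit 5) (nat_lit 348) (nat_lit 348) (nat_lit 204)) (XT.nd (nat_lit 78) (nat_lit 0) (nat_lit 0) (XT.lf (nat_lit 0) (nat_lit 9172824584) (nat_lit 760) (nat_lit 124937231403) (nat_lit 836) (nat_lit 36379024920) (nat_lit 97) (nat_lit 5) (nat_lit 107) (nat_lit 5) (nat_lit 108) (nat_lit 5) (nat_lit 349) (nat_lit 348) (nat_lit 203)) (XT.lf (nat_lit 76) (nat_lit 3215511395) (nat_lit 0) (nat_lit 10581054951) (nat_lit 836) (nat_lit 163562228548) (nat_lit 98) (nat_lit 5) (nat_lit 97) (nat_lit 5) (nat_lit 108) (nat_lit 5) (nat_lit 350) (nat_lit 348) (nat_lit 202)))) (XT.nd (nat_lit 78) (nat_lit 0) (nat_lit 76) (XT.lf (nat_lit 0) (nat_lit 22919592775) (nat_lit 760) (nat_lit 40540961896) (nat_lit 836) (nat_lit 121111062486) (nat_lit 98) (nat_lit 5) (nat_lit 108) (nat_lit 5) (nat_lit 109) (nat_lit 5) (nat_lit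 351) (nat_lit 348) (nat_lit 201)) (XT.nd (nat_lit 78) (nat_lit 0) (nat_lit 76) (XT.lf (nat_lit 0) (nat_lit 35751025327) (nat_lit 760) (nat_lit 86403565620) (nat_lit 836) (nat_lit 70057946447) (nat_lit 99) (nat_lit 5) (nat_lit 109) (nat_lit 5) (nat_lit 110) (nat_lit 5) (nat_lit 352) (nat_lit 348) (nat_lit 200)) (XT.lf (nat_lit 0) (nat_lit 52636173313) (nat_lit 760) (nat_lit 134621526160) (nat_lit 836) (nat_lit 13055672102) (nat_lit 100) (nat_lit 5) (nat_lit 110) (nat_lit 5) (nat_lit 111) (nat_lit 5) (nat_lit 353) (nat_lit 348) (nat_lit 199))))))))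
noncomputable def xc117 : XT := (XT.nd (nat_lit 1716) (nat_lit 760) (nat_lit 0) (XT.nd (nat_lit 858) (nat_lit 1900) (nat_lit 0) (XT.nd (nat_lit 390) (nat_lit 1672) (nat_lit 0) (XT.nd (nat_lit 156) (nat_lit 1368) (nat_lit 0) (XT.nd (nat_lit 78) (nat_lit 0) (nat_lit 76) (XT.lf (nat_lit 76) (nat_lit 22695047471) (nat_lit 0) (nat_lit 52120660475) (nat_lit 836) (nat_lit 134049386140) (nat_lit 101) (nat_lit 5) (nat_lit 100) (nat_lit 5) (nat_lit 111) (nat_lit 5) (nat_lit 354) (nat_lit 348) (nat_lit 198)) (XT.lf (nat_lit 0) (nat_lit 102617717810) (nat_lit 760) (nat_lit 22083047433) (nat_lit 76) (nat_lit 93207783844) (nat_lit 101) (nat_lit 5) (nat_lit 111) (nat_lit 5) (nat_lit 102) (nat_lit 5) (nat_lit 355) (nat_lit 348) (nat_lit 197))) (XT.nd (nat_lit 78) (nat_lit 684) (nat_lit 0) (XT.lf (nat_lit 0) (nat_lit 136374860813) (nat_lit 836) (nat_lit 68519472230) (nat_lit 76) (nat_lit 22594599118) (nat_lit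 91) (nat_lit 5) (nat_lit 102) (nat_lit 5) (nat_lit 92) (nat_lit 5) (nat_lit 356) (nat_lit 348) (nat_lit 196)) (XT.nd (nat_lit 78) (nat_lit 304) (nat_lit 0) (XT.lf (nat_lit 0) (nat_lit 119183649495) (nat_lit 380) (nat_lit 58003153364) (nat_lit 456) (nat_lit 60431231911) (nat_lit 86) (nat_lit 5) (nat_lit 91) (nat_lit 5) (nat_lit 92) (nat_lit 5) (nat_lit 357) (nat_lit 348) (nat_lit 195)) (XT.lf (nat_lit 0) (nat_lit 76716398902) (nat_lit 304) (nat_lit 148529241851) (nat_lit 380) (nat_lit 23112728056) (nat_lit 82) (nat_lit 5) (nat_lit 86) (nat_lit 5) (nat_lit 87) (nat_lit 5) (nat_lit 358) (nat_lit 348) (nat_lit 194))))) (XT.nd (nat_lit 234) (nat_lit 912) (nat_lit 0) (XT.nd (nat_lit 78) (nat_lit 304) (nat_lit 0) (XT.lf (nat_lit 0) (nat_lit 20386453483) (nat_lit 456) (nat_lit 228359585468) (nat_lit 76) (nat_lit 11011199409) (nat_lit 76) (nat_lit 5) (nat_lit 82) (nat_lit 5) (nat_lit 77) (nat_lit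 5) (nat_lit 359) (nat_lit 348) (nat_lit 193)) (XT.nd (nat_lit 78) (nat_lit 304) (nat_lit 0) (XT.lf (nat_lit 0) (nat_lit 72109828528) (nat_lit 456) (nat_lit 18052225607) (nat_lit 76) (nat_lit 181609317865) (nat_lit 76) (nat_lit 5) (nat_lit 82) (nat_lit 5) (nat_lit 77) (nat_lit 5) (nat_lit 360) (nat_lit 348) (nat_lit 192)) (XT.lf (nat_lit 0) (nat_lit 132664763229) (nat_lit 380) (nat_lit 69907012141) (nat_lit 76) (nat_lit 81940176665) (nat_lit 72) (nat_lit 5) (nat_lit 77) (nat_lit 5) (nat_lit 73) (nat_lit 5) (nat_lit 361) (nat_lit 348) (nat_lit 191)))) (XT.nd (nat_lit 78) (nat_lit 608) (nat_lit 0) (XT.lf (nat_lit 0) (nat_lit 172250709371) (nat_lit 304) (nat_lit 30342442972) (nat_lit 380) (nat_lit 95452173321) (nat_lit 68) (nat_lit 5) (nat_lit 72) (nat_lit 5) (nat_lit 73) (nat_lit 5) (nat_lit 362) (nat_lit 348) (nat_lit 190)) (XT.nd (nat_lit 78) (nat_lit 380) (nat_lit 0) (XT.lf (nat_lit 0)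 (nat_lit 125234683399) (nat_lit 228) (nat_lit 158504304157) (nat_lit 304) (nat_lit 28641223042) (nat_lit 65) (nat_lit 5) (nat_lit 68) (nat_lit 5) (nat_lit 69) (nat_lit 5) (nat_lit 363) (nat_lit 348) (nat_lit 189)) (XT.lf (nat_lit 0) (nat_lit 46460061730) (nat_lit 380) (nat_lit 253838615163) (nat_lit 76) (nat_lit 27312330451) (nat_lit 60) (nat_lit 5) (nat_lit 65) (nat_lit 5) (nat_lit 61) (nat_lit 5) (nat_lit 364) (nat_lit 348) (nat_lit 188)))))) (XT.nd (nat_lit 390) (nat_lit 988) (nat_lit 0) (XT.nd (nat_lit 156) (nat_lit 684) (nat_lit 0) (XT.nd (nat_lit 78) (nat_lit 0) (nat_lit 0) (XT.lf (nat_lit 0) (nat_lit 15640732330) (nat_lit 228) (nat_lit 117168803001) (nat_lit 304) (nat_lit 210915079471) (nat_lit 57) (nat_lit 5) (nat_lit 60) (nat_lit 5) (nat_lit 61) (nat_lit 5) (nat_lit 365) (nat_lit 348) (nat_lit 187)) (XT.lf (nat_lit 0) (nat_lit 231819592452) (nat_lit 304) (nat_lit 46494551375) (nat_lit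 76) (nat_lit 82525535868) (nat_lit 57) (nat_lit 5) (nat_lit 61) (nat_lit 5) (nat_lit 58) (nat_lit 5) (nat_lit 366) (nat_lit 348) (nat_lit 186))) (XT.nd (nat_lit 78) (nat_lit 456) (nat_lit 0) (XT.lf (nat_lit 0) (nat_lit 264098883204) (nat_lit 228) (nat_lit 80750447785) (nat_lit 304) (nat_lit 34169675061) (nat_lit 54) (nat_lit 5) (nat_lit 57) (nat_lit 5) (nat_lit 58) (nat_lit 5) (nat_lit 367) (nat_lit 348) (nat_lit 185)) (XT.nd (nat_lit 78) (nat_lit 228) (nat_lit 0) (XT.lf (nat_lit 0) (nat_lit 72311733985) (nat_lit 228) (nat_lit 192379135504) (nat_lit 76) (nat_lit 133597116239) (nat_lit 51) (nat_lit 5) (nat_lit 54) (nat_lit 5) (nat_lit 52) (nat_lit 5) (nat_lit 368) (nat_lit 348) (nat_lit 184)) (XT.lf (nat_lit 0) (nat_lit 140020282324) (nat_lit 228) (nat_lit 51692482900) (nat_lit 304) (nat_lit 227077798296) (nat_lit 48) (nat_lit 5) (nat_lit 51) (nat_lit 5) (nat_lit 52) (nat_lit 5) (nat_lit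 369) (nat_lit 348) (nat_lit 183))))) (XT.nd (nat_lit 234) (nat_lit 532) (nat_lit 0) (XT.nd (nat_lit 78) (nat_lit 304) (nat_lit 0) (XT.lf (nat_lit 0) (nat_lit 64335205572) (nat_lit 152) (nat_lit 263525549169) (nat_lit 228) (nat_lit 112712849090) (nat_lit 46) (nat_lit 5) (nat_lit 48) (nat_lit 5) (nat_lit 49) (nat_lit 5) (nat_lit 370) (nat_lit 348) (nat_lit 182)) (XT.nd (nat_lit 78) (nat_lit 228) (nat_lit 0) (XT.lf (nat_lit 0) (nat_lit 16262714454) (nat_lit 228) (nat_lit 20132598360) (nat_lit 76) (nat_lit 427405186336) (nat_lit 45) (nat_lit 5) (nat_lit 48) (nat_lit 5) (nat_lit 46) (nat_lit 5) (nat_lit 371) (nat_lit 348) (nat_lit 181)) (XT.lf (nat_lit 0) (nat_lit 160896483355) (nat_lit 304) (nat_lit 117337882520) (nat_lit 76) (nat_lit 210094339235) (nat_lit 42) (nat_lit 5) (nat_lit 46) (nat_lit 5) (nat_lit 43) (nat_lit 5) (nat_lit 372) (nat_lit 348) (nat_lit 180)))) (XT.nd (nat_lit 78) (nat_lit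 380) (nat_lit 0) (XT.lf (nat_lit 0) (nat_lit 287916963953) (nat_lit 152) (nat_lit 34649222877) (nat_lit 228) (nat_lit 191979719130) (nat_lit 40) (nat_lit 5) (nat_lit 42) (nat_lit 5) (nat_lit 43) (nat_lit 5) (nat_lit 373) (nat_lit 348) (nat_lit 179)) (XT.nd (nat_lit 78) (nat_lit 228) (nat_lit 0) (XT.lf (nat_lit 0) (nat_lit 189488864644) (nat_lit 152) (nat_lit 316282739639) (nat_lit 228) (nat_lit 36658771767) (nat_lit 38) (nat_lit 5) (nat_lit 40) (nat_lit 5) (nat_lit 41) (nat_lit 5) (nat_lit 374) (nat_lit 348) (nat_lit 178)) (XT.lf (nat_lit 0) (nat_lit 74323792366) (nat_lit 152) (nat_lit 58325439817) (nat_lit 228) (nat_lit 439506188645) (nat_lit 35) (nat_lit 5) (nat_lit 37) (nat_lit 5) (nat_lit 38) (nat_lit 5) (nat_lit 375) (nat_lit 348) (nat_lit 177))))))) (XT.nd (nat_lit 45006) (nat_lit 0) (nat_lit 3572) (XT.nd (nat_lit 390) (nat_lit 304) (nat_lit 0) (XT.nd (nat_lit 156) (nat_lit 304) (nat_lit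 0) (XT.nd (nat_lit 78) (nat_lit 152) (nat_lit 0) (XT.lf (nat_lit 0) (nat_lit 323922425814) (nat_lit 228) (nat_lit 59735389728) (nat_lit 76) (nat_lit 220085360816) (nat_lit 35) (nat_lit 5) (nat_lit 38) (nat_lit 5) (nat_lit 36) (nat_lit 5) (nat_lit 376) (nat_lit 348) (nat_lit 176)) (XT.lf (nat_lit 0) (nat_lit 426061575790) (nat_lit 152) (nat_lit 112071309620) (nat_lit 228) (nat_lit 99343296440) (nat_lit 33) (nat_lit 5) (nat_lit 35) (nat_lit 5) (nat_lit 36) (nat_lit 5) (nat_lit 377) (nat_lit 348) (nat_lit 175))) (XT.nd (nat_lit 78) (nat_lit 152) (nat_lit 0) (XT.lf (nat_lit 0) (nat_lit 100991493498) (nat_lit 152) (nat_lit 389836053634) (nat_lit 76) (nat_lit 182581770490) (nat_lit 31) (nat_lit 5) (nat_lit 33) (nat_lit 5) (nat_lit 32) (nat_lit 5) (nat_lit 378) (nat_lit 348) (nat_lit 174)) (XT.nd (nat_lit 78) (nat_lit 0) (nat_lit 0) (XT.lf (nat_lit 0) (nat_lit 113690205666) (nat_lit 152) (nat_lit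 207636641902) (nat_lit 228) (nat_lit 390436113487) (nat_lit 29) (nat_lit 5) (nat_lit 31) (nat_lit 5) (nat_lit 32) (nat_lit 5) (nat_lit 379) (nat_lit 348) (nat_lit 173)) (XT.lf (nat_lit 0) (nat_lit 567724301482) (nat_lit 228) (nat_lit 83070646448) (nat_lit 76) (nat_lit 101968184491) (nat_lit 29) (nat_lit 5) (nat_lit 32) (nat_lit 5) (nat_lit 30) (nat_lit 4) (nat_lit 380) (nat_lit 348) (nat_lit 172))))) (XT.nd (nat_lit 44382) (nat_lit 0) (nat_lit 5396) (XT.nd (nat_lit 78) (nat_lit 152) (nat_lit 0) (XT.lf (nat_lit 0) (nat_lit 46870038579) (nat_lit 152) (nat_lit 312087011321) (nat_lit 76) (nat_lit 437494681611) (nat_lit 27) (nat_lit 5) (nat_lit 29) (nat_lit 5) (nat_lit 28) (nat_lit 5) (nat_lit 381) (nat_lit 348) (nat_lit 171)) (XT.nd (nat_lit 78) (nat_lit 0) (nat_lit 0) (XT.lf (nat_lit 0) (nat_lit 261834696503) (nat_lit 152) (nat_lit 34659400827) (nat_lit 228) (nat_lit 546707383107) (nat_lit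 25) (nat_lit 5) (nat_lit 27) (nat_lit 5) (nat_lit 28) (nat_lit 5) (nat_lit 382) (nat_lit 348) (nat_lit 170)) (XT.lf (nat_lit 0) (nat_lit 576540615724) (nat_lit 228) (nat_lit 5621072400) (nat_lit 76) (nat_lit 311006894433) (nat_lit 25) (nat_lit 5) (nat_lit 28) (nat_lit 5) (nat_lit 26) (nat_lit 4) (nat_lit 383) (nat_lit 348) (nat_lit 169)))) (XT.nd (nat_lit 78) (nat_lit 0) (nat_lit 76) (XT.lf (nat_lit 0) (nat_lit 4085564389) (nat_lit 836) (nat_lit 42235736279) (nat_lit 836) (nat_lit 42235736279) (nat_lit 96) (nat_lit 3) (nat_lit 107) (nat_lit 3) (nat_lit 107) (nat_lit 5) (nat_lit 349) (nat_lit 349) (nat_lit 202)) (XT.nd (nat_lit 78) (nat_lit 0) (nat_lit 0) (XT.lf (nat_lit 0) (nat_lit 9913314307) (nat_lit 760) (nat_lit 134928203581) (nat_lit 836) (nat_lit 39286348009) (nat_lit 97) (nat_lit 5) (nat_lit 107) (nat_lit 5) (nat_lit 108) (nat_lit 5) (nat_lit 350) (nat_lit 349) (nat_lit 201)) (XT.lf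 (nat_lit 76) (nat_lit 3476584530) (nat_lit 0) (nat_lit 11429937100) (nat_lit 836) (nat_lit 176640657676) (nat_lit 98) (nat_lit 5) (nat_lit 97) (nat_lit 5) (nat_lit 108) (nat_lit 5) (nat_lit 351) (nat_lit 349) (nat_lit 200)))))) (XT.nd (nat_lit 390) (nat_lit 1976) (nat_lit 0) (XT.nd (nat_lit 156) (nat_lit 0) (nat_lit 152) (XT.nd (nat_lit 78) (nat_lit 0) (nat_lit 76) (XT.lf (nat_lit 0) (nat_lit 24758894031) (nat_lit 760) (nat_lit 43780360292) (nat_lit 836) (nat_lit 130797798403) (nat_lit 98) (nat_lit 5) (nat_lit 108) (nat_lit 5) (nat_lit 109) (nat_lit 5) (nat_lit 352) (nat_lit 349) (nat_lit 199)) (XT.lf (nat_lit 0) (nat_lit 38616448511) (nat_lit 760) (nat_lit 93311840064) (nat_lit 836) (nat_lit 75660978168) (nat_lit 99) (nat_lit 5) (nat_lit 109) (nat_lit 5) (nat_lit 110) (nat_lit 5) (nat_lit 353) (nat_lit 349) (nat_lit 198))) (XT.nd (nat_lit 78) (nat_lit 0) (nat_lit 0) (XT.lf (nat_lit 0)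 (nat_lit 56852054343) (nat_lit 760) (nat_lit 145387137133) (nat_lit 836) (nat_lit 14098994369) (nat_lit 100) (nat_lit 5) (nat_lit 110) (nat_lit 5) (nat_lit 111) (nat_lit 5) (nat_lit 354) (nat_lit 349) (nat_lit 197)) (XT.nd (nat_lit 78) (nat_lit 0) (nat_lit 76) (XT.lf (nat_lit 76) (nat_lit 24514583724) (nat_lit 0) (nat_lit 56291060000) (nat_lit 836) (nat_lit 144768418286) (nat_lit 101) (nat_lit 5) (nat_lit 100) (nat_lit 5) (nat_lit 111) (nat_lit 5) (nat_lit 355) (nat_lit 349) (nat_lit 196)) (XT.lf (nat_lit 0) (nat_lit 110831456980) (nat_lit 760) (nat_lit 23845817416) (nat_lit 76) (nat_lit 100663737304) (nat_lit 101) (nat_lit 5) (nat_lit 111) (nat_lit 5) (nat_lit 102) (nat_lit 5) (nat_lit 356) (nat_lit 349) (nat_lit 195))))) (XT.nd (nat_lit 234) (nat_lit 760) (nat_lit 0) (XT.nd (nat_lit 78) (nat_lit 684) (nat_lit 0) (XT.lf (nat_lit 0) (nat_lit 147288903619) (nat_lit 836) (nat_lit 73997111207)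 (nat_lit 76) (nat_lit 24401824371) (nat_lit 91) (nat_lit 5) (nat_lit 102) (nat_lit 5) (nat_lit 92) (nat_lit 5) (nat_lit 357) (nat_lit 349) (nat_lit 194)) (XT.nd (nat_lit 78) (nat_lit 304) (nat_lit 0) (XT.lf (nat_lit 0) (nat_lit 128722089949) (nat_lit 380) (nat_lit 62643469311) (nat_lit 456) (nat_lit 65261723199) (nat_lit 86) (nat_lit 5) (nat_lit 91) (nat_lit 5) (nat_lit 92) (nat_lit 5) (nat_lit 358) (nat_lit 349) (nat_lit 193)) (XT.lf (nat_lit 0) (nat_lit 82857483968) (nat_lit 304) (nat_lit 160411395824) (nat_lit 380) (nat_lit 24957974983) (nat_lit 82) (nat_lit 5) (nat_lit 86) (nat_lit 5) (nat_lit 87) (nat_lit 5) (nat_lit 359) (nat_lit 349) (nat_lit 192)))) (XT.nd (nat_lit 78) (nat_lit 304) (nat_lit 0) (XT.lf (nat_lit 0) (nat_lit 22020812697) (nat_lit 456) (nat_lit 246624452836) (nat_lit 76) (nat_lit 11892376089) (nat_lit 76) (nat_lit 5) (nat_lit 82) (nat_lit 5) (nat_lit 77) (nat_lit 5)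 (nat_lit 360) (nat_lit 349) (nat_lit 191)) (XT.nd (nat_lit 78) (nat_lit 304) (nat_lit 0) (XT.lf (nat_lit 0) (nat_lit 77881802713) (nat_lit 456) (nat_lit 19492793036) (nat_lit 76) (nat_lit 196138323227) (nat_lit 76) (nat_lit 5) (nat_lit 82) (nat_lit 5) (nat_lit 77) (nat_lit 5) (nat_lit 361) (nat_lit 349) (nat_lit 190)) (XT.lf (nat_lit 0) (nat_lit 143280956966) (nat_lit 380) (nat_lit 75495972979) (nat_lit 76) (nat_lit 88495824481) (nat_lit 72) (nat_lit 5) (nat_lit 77) (nat_lit 5) (nat_lit 73) (nat_lit 5) (nat_lit 362) (nat_lit 349) (nat_lit 189))))))))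
noncomputable def xc118 : XT := (XT.nd (nat_lit 45942) (nat_lit 0) (nat_lit 1596) (XT.nd (nat_lit 858) (nat_lit 1292) (nat_lit 0) (XT.nd (nat_lit 390) (nat_lit 1140) (nat_lit 0) (XT.nd (nat_lit 156) (nat_lit 608) (nat_lit 0) (XT.nd (nat_lit 78) (nat_lit 228) (nat_lit 0) (XT.lf (nat_lit 0) (nat_lit 186034209797) (nat_lit 304) (nat_lit 32769238017) (nat_lit 380) (nat_lit 103085358834) (nat_lit 68) (nat_lit 5) (nat_lit 72) (nat_lit 5) (nat_lit 73) (nat_lit 5) (nat_lit 363) (nat_lit 349) (nat_lit 188)) (XT.lf (nat_lit 0) (nat_lit 135256881887) (nat_lit 228) (nat_lit 171183919477) (nat_lit 304) (nat_lit 30929688650) (nat_lit 65) (nat_lit 5) (nat_lit 68) (nat_lit 5) (nat_lit 69) (nat_lit 5) (nat_lit 364) (nat_lit 349) (nat_lit 187))) (XT.nd (nat_lit 78) (nat_lit 228) (nat_lit 0) (XT.lf (nat_lit 0) (nat_lit 50179469769) (nat_lit 380) (nat_lit 274142220342) (nat_lit 76) (nat_lit 29498065294) (nat_lit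 60) (nat_lit 5) (nat_lit 65) (nat_lit 5) (nat_lit 61) (nat_lit 5) (nat_lit 365) (nat_lit 349) (nat_lit 186)) (XT.nd (nat_lit 78) (nat_lit 0) (nat_lit 0) (XT.lf (nat_lit 0) (nat_lit 16895323539) (nat_lit 228) (nat_lit 126541436928) (nat_lit 304) (nat_lit 227785698207) (nat_lit 57) (nat_lit 5) (nat_lit 60) (nat_lit 5) (nat_lit 61) (nat_lit 5) (nat_lit 366) (nat_lit 349) (nat_lit 185)) (XT.lf (nat_lit 0) (nat_lit 250367452346) (nat_lit 304) (nat_lit 50210926275) (nat_lit 76) (nat_lit 89128358791) (nat_lit 57) (nat_lit 5) (nat_lit 61) (nat_lit 5) (nat_lit 58) (nat_lit 5) (nat_lit 367) (nat_lit 349) (nat_lit 184))))) (XT.nd (nat_lit 234) (nat_lit 456) (nat_lit 0) (XT.nd (nat_lit 78) (nat_lit 456) (nat_lit 0) (XT.lf (nat_lit 0) (nat_lit 285229844471) (nat_lit 228) (nat_lit 87209603310) (nat_lit 304) (nat_lit 36900968355) (nat_lit 54) (nat_lit 5) (nat_lit 57) (nat_lit 5) (nat_lit 58) (nat_lit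 5) (nat_lit 368) (nat_lit 349) (nat_lit 183)) (XT.nd (nat_lit 78) (nat_lit 228) (nat_lit 0) (XT.lf (nat_lit 0) (nat_lit 78098777590) (nat_lit 228) (nat_lit 207766384598) (nat_lit 76) (nat_lit 144285755493) (nat_lit 51) (nat_lit 5) (nat_lit 54) (nat_lit 5) (nat_lit 52) (nat_lit 5) (nat_lit 369) (nat_lit 349) (nat_lit 182)) (XT.lf (nat_lit 0) (nat_lit 151224852727) (nat_lit 228) (nat_lit 55826928708) (nat_lit 304) (nat_lit 245241925880) (nat_lit 48) (nat_lit 5) (nat_lit 51) (nat_lit 5) (nat_lit 52) (nat_lit 5) (nat_lit 370) (nat_lit 349) (nat_lit 181)))) (XT.nd (nat_lit 78) (nat_lit 304) (nat_lit 0) (XT.lf (nat_lit 0) (nat_lit 69484924382) (nat_lit 152) (nat_lit 284606597042) (nat_lit 228) (nat_lit 121727873975) (nat_lit 46) (nat_lit 5) (nat_lit 48) (nat_lit 5) (nat_lit 49) (nat_lit 5) (nat_lit 371) (nat_lit 349) (nat_lit 180)) (XT.nd (nat_lit 78) (nat_lit 228) (nat_lit 0) (XT.lf (nat_lit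 0) (nat_lit 17565526919) (nat_lit 228) (nat_lit 21740458238) (nat_lit 76) (nat_lit 461598462905) (nat_lit 45) (nat_lit 5) (nat_lit 48) (nat_lit 5) (nat_lit 46) (nat_lit 5) (nat_lit 372) (nat_lit 349) (nat_lit 179)) (XT.lf (nat_lit 0) (nat_lit 173769919830) (nat_lit 304) (nat_lit 126722212670) (nat_lit 76) (nat_lit 226902781967) (nat_lit 42) (nat_lit 5) (nat_lit 46) (nat_lit 5) (nat_lit 43) (nat_lit 5) (nat_lit 373) (nat_lit 349) (nat_lit 178)))))) (XT.nd (nat_lit 390) (nat_lit 608) (nat_lit 0) (XT.nd (nat_lit 156) (nat_lit 380) (nat_lit 0) (XT.nd (nat_lit 78) (nat_lit 152) (nat_lit 0) (XT.lf (nat_lit 0) (nat_lit 310952904163) (nat_lit 152) (nat_lit 37420208504) (nat_lit 228) (nat_lit 207336383148) (nat_lit 40) (nat_lit 5) (nat_lit 42) (nat_lit 5) (nat_lit 43) (nat_lit 5) (nat_lit 374) (nat_lit 349) (nat_lit 177)) (XT.lf (nat_lit 0) (nat_lit 204650509461) (nat_lit 152) (nat_lit 341584386603)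 (nat_lit 228) (nat_lit 39589830902) (nat_lit 38) (nat_lit 5) (nat_lit 40) (nat_lit 5) (nat_lit 41) (nat_lit 5) (nat_lit 375) (nat_lit 349) (nat_lit 176))) (XT.nd (nat_lit 78) (nat_lit 152) (nat_lit 0) (XT.lf (nat_lit 0) (nat_lit 80272172402) (nat_lit 152) (nat_lit 62990509277) (nat_lit 228) (nat_lit 474665096392) (nat_lit 35) (nat_lit 5) (nat_lit 37) (nat_lit 5) (nat_lit 38) (nat_lit 5) (nat_lit 376) (nat_lit 349) (nat_lit 175)) (XT.nd (nat_lit 78) (nat_lit 152) (nat_lit 0) (XT.lf (nat_lit 0) (nat_lit 349837632840) (nat_lit 228) (nat_lit 64511870912) (nat_lit 76) (nat_lit 237693055252) (nat_lit 35) (nat_lit 5) (nat_lit 38) (nat_lit 5) (nat_lit 36) (nat_lit 5) (nat_lit 377) (nat_lit 349) (nat_lit 174)) (XT.lf (nat_lit 0) (nat_lit 460148749719) (nat_lit 152) (nat_lit 121036109916) (nat_lit 228) (nat_lit 107289348840) (nat_lit 33) (nat_lit 5) (nat_lit 35) (nat_lit 5) (nat_lit 36) (nat_lit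 5) (nat_lit 378) (nat_lit 349) (nat_lit 173))))) (XT.nd (nat_lit 234) (nat_lit 304) (nat_lit 0) (XT.nd (nat_lit 78) (nat_lit 152) (nat_lit 0) (XT.lf (nat_lit 0) (nat_lit 109072126153) (nat_lit 152) (nat_lit 421020692201) (nat_lit 76) (nat_lit 197189178354) (nat_lit 31) (nat_lit 5) (nat_lit 33) (nat_lit 5) (nat_lit 32) (nat_lit 5) (nat_lit 379) (nat_lit 349) (nat_lit 172)) (XT.nd (nat_lit 78) (nat_lit 0) (nat_lit 0) (XT.lf (nat_lit 0) (nat_lit 122787570246) (nat_lit 152) (nat_lit 224246674568) (nat_lit 228) (nat_lit 421669690037) (nat_lit 29) (nat_lit 5) (nat_lit 31) (nat_lit 5) (nat_lit 32) (nat_lit 5) (nat_lit 380) (nat_lit 349) (nat_lit 171)) (XT.lf (nat_lit 0) (nat_lit 613143415483) (nat_lit 228) (nat_lit 89714263734) (nat_lit 76) (nat_lit 110126444734) (nat_lit 29) (nat_lit 5) (nat_lit 32) (nat_lit 5) (nat_lit 30) (nat_lit 4) (nat_lit 381) (nat_lit 349) (nat_lit 170)))) (XT.nd (nat_lit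 78) (nat_lit 152) (nat_lit 0) (XT.lf (nat_lit 0) (nat_lit 50620774039) (nat_lit 152) (nat_lit 337051988268) (nat_lit 76) (nat_lit 472495050605) (nat_lit 27) (nat_lit 5) (nat_lit 29) (nat_lit 5) (nat_lit 28) (nat_lit 5) (nat_lit 382) (nat_lit 349) (nat_lit 169)) (XT.nd (nat_lit 44304) (nat_lit 0) (nat_lit 5396) (XT.lf (nat_lit 0) (nat_lit 282783369962) (nat_lit 152) (nat_lit 37431333278) (nat_lit 228) (nat_lit 590442841262) (nat_lit 25) (nat_lit 5) (nat_lit 27) (nat_lit 5) (nat_lit 28) (nat_lit 5) (nat_lit 383) (nat_lit 349) (nat_lit 168)) (XT.lf (nat_lit 0) (nat_lit 4415490882) (nat_lit 836) (nat_lit 45612975556) (nat_lit 836) (nat_lit 45612975556) (nat_lit 96) (nat_lit 3) (nat_lit 107) (nat_lit 3) (nat_lit 107) (nat_lit 5) (nat_lit 350) (nat_lit 350) (nat_lit 200))))))) (XT.nd (nat_lit 858) (nat_lit 2280) (nat_lit 0) (XT.nd (nat_lit 390) (nat_lit 1596) (nat_lit 0) (XT.nd (nat_lit 156)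 (nat_lit 0) (nat_lit 76) (XT.nd (nat_lit 78) (nat_lit 0) (nat_lit 0) (XT.lf (nat_lit 0) (nat_lit 10712092548) (nat_lit 760) (nat_lit 145719025082) (nat_lit 836) (nat_lit 42426684772) (nat_lit 97) (nat_lit 5) (nat_lit 107) (nat_lit 5) (nat_lit 108) (nat_lit 5) (nat_lit 351) (nat_lit 350) (nat_lit 199)) (XT.lf (nat_lit 76) (nat_lit 3757996807) (nat_lit 0) (nat_lit 12346387753) (nat_lit 836) (nat_lit 190766295444) (nat_lit 98) (nat_lit 5) (nat_lit 97) (nat_lit 5) (nat_lit 108) (nat_lit 5) (nat_lit 352) (nat_lit 350) (nat_lit 198))) (XT.nd (nat_lit 78) (nat_lit 0) (nat_lit 76) (XT.lf (nat_lit 0) (nat_lit 26744521391) (nat_lit 760) (nat_lit 47279463880) (nat_lit 836) (nat_lit 141259779783) (nat_lit 98) (nat_lit 5) (nat_lit 108) (nat_lit 5) (nat_lit 109) (nat_lit 5) (nat_lit 353) (nat_lit 350) (nat_lit 197)) (XT.nd (nat_lit 78) (nat_lit 0) (nat_lit 76) (XT.lf (nat_lit 0) (nat_lit 41710343574)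 (nat_lit 760) (nat_lit 100773348650) (nat_lit 836) (nat_lit 81712481254) (nat_lit 99) (nat_lit 5) (nat_lit 109) (nat_lit 5) (nat_lit 110) (nat_lit 5) (nat_lit 354) (nat_lit 350) (nat_lit 196)) (XT.lf (nat_lit 0) (nat_lit 61404494381) (nat_lit 760) (nat_lit 157014583481) (nat_lit 836) (nat_lit 15225943838) (nat_lit 100) (nat_lit 5) (nat_lit 110) (nat_lit 5) (nat_lit 111) (nat_lit 5) (nat_lit 355) (nat_lit 350) (nat_lit 195))))) (XT.nd (nat_lit 234) (nat_lit 1140) (nat_lit 0) (XT.nd (nat_lit 78) (nat_lit 684) (nat_lit 0) (XT.lf (nat_lit 76) (nat_lit 26479121868) (nat_lit 0) (nat_lit 60794984963) (nat_lit 836) (nat_lit 156345674718) (nat_lit 101) (nat_lit 5) (nat_lit 100) (nat_lit 5) (nat_lit 111) (nat_lit 5) (nat_lit 356) (nat_lit 350) (nat_lit 194)) (XT.nd (nat_lit 78) (nat_lit 760) (nat_lit 0) (XT.lf (nat_lit 0) (nat_lit 119701678738) (nat_lit 760) (nat_lit 25750161641) (nat_lit 76) (nat_lit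 108716262516) (nat_lit 101) (nat_lit 5) (nat_lit 111) (nat_lit 5) (nat_lit 102) (nat_lit 5) (nat_lit 357) (nat_lit 350) (nat_lit 193)) (XT.lf (nat_lit 0) (nat_lit 159075491510) (nat_lit 836) (nat_lit 79913520363) (nat_lit 76) (nat_lit 26353676530) (nat_lit 91) (nat_lit 5) (nat_lit 102) (nat_lit 5) (nat_lit 92) (nat_lit 5) (nat_lit 358) (nat_lit 350) (nat_lit 192)))) (XT.nd (nat_lit 78) (nat_lit 760) (nat_lit 0) (XT.lf (nat_lit 0) (nat_lit 139023070876) (nat_lit 380) (nat_lit 67655001450) (nat_lit 456) (nat_lit 70479225472) (nat_lit 86) (nat_lit 5) (nat_lit 91) (nat_lit 5) (nat_lit 92) (nat_lit 5) (nat_lit 359) (nat_lit 350) (nat_lit 191)) (XT.nd (nat_lit 78) (nat_lit 456) (nat_lit 0) (XT.lf (nat_lit 0) (nat_lit 89489317556) (nat_lit 304) (nat_lit 173244148562) (nat_lit 380) (nat_lit 26951379684) (nat_lit 82) (nat_lit 5) (nat_lit 86) (nat_lit 5) (nat_lit 87) (nat_lit 5) (nat_lit 360) (nat_lit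 350) (nat_lit 190)) (XT.lf (nat_lit 0) (nat_lit 23785429475) (nat_lit 456) (nat_lit 266351065897) (nat_lit 76) (nat_lit 12844006855) (nat_lit 76) (nat_lit 5) (nat_lit 82) (nat_lit 5) (nat_lit 77) (nat_lit 5) (nat_lit 361) (nat_lit 350) (nat_lit 189)))))) (XT.nd (nat_lit 390) (nat_lit 1064) (nat_lit 0) (XT.nd (nat_lit 156) (nat_lit 912) (nat_lit 0) (XT.nd (nat_lit 78) (nat_lit 304) (nat_lit 0) (XT.lf (nat_lit 0) (nat_lit 84115080044) (nat_lit 456) (nat_lit 21049120954) (nat_lit 76) (nat_lit 211829611935) (nat_lit 76) (nat_lit 5) (nat_lit 82) (nat_lit 5) (nat_lit 77) (nat_lit 5) (nat_lit 362) (nat_lit 350) (nat_lit 188)) (XT.lf (nat_lit 0) (nat_lit 154746016411) (nat_lit 380) (nat_lit 81532564283) (nat_lit 76) (nat_lit 95575862253) (nat_lit 72) (nat_lit 5) (nat_lit 77) (nat_lit 5) (nat_lit 73) (nat_lit 5) (nat_lit 363) (nat_lit 350) (nat_lit 187))) (XT.nd (nat_lit 78) (nat_lit 608) (nat_lit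 0) (XT.lf (nat_lit 0) (nat_lit 200919898978) (nat_lit 304) (nat_lit 35390262318) (nat_lit 380) (nat_lit 111329625511) (nat_lit 68) (nat_lit 5) (nat_lit 72) (nat_lit 5) (nat_lit 73) (nat_lit 5) (nat_lit 364) (nat_lit 350) (nat_lit 186)) (XT.nd (nat_lit 78) (nat_lit 380) (nat_lit 0) (XT.lf (nat_lit 0) (nat_lit 146080367809) (nat_lit 228) (nat_lit 184878008025) (nat_lit 304) (nat_lit 33401635558) (nat_lit 65) (nat_lit 5) (nat_lit 68) (nat_lit 5) (nat_lit 69) (nat_lit 5) (nat_lit 365) (nat_lit 350) (nat_lit 185)) (XT.lf (nat_lit 0) (nat_lit 54196059090) (nat_lit 380) (nat_lit 296070610971) (nat_lit 76) (nat_lit 31858552156) (nat_lit 60) (nat_lit 5) (nat_lit 65) (nat_lit 5) (nat_lit 61) (nat_lit 5) (nat_lit 366) (nat_lit 350) (nat_lit 184))))) (XT.nd (nat_lit 234) (nat_lit 608) (nat_lit 0) (XT.nd (nat_lit 78) (nat_lit 228) (nat_lit 0) (XT.lf (nat_lit 0) (nat_lit 18249806609) (nat_lit 228) (nat_lit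 136664005729) (nat_lit 304) (nat_lit 246006335595) (nat_lit 57) (nat_lit 5) (nat_lit 60) (nat_lit 5) (nat_lit 61) (nat_lit 5) (nat_lit 367) (nat_lit 350) (nat_lit 183)) (XT.nd (nat_lit 78) (nat_lit 228) (nat_lit 0) (XT.lf (nat_lit 0) (nat_lit 270398813981) (nat_lit 304) (nat_lit 54225066144) (nat_lit 76) (nat_lit 96259296264) (nat_lit 57) (nat_lit 5) (nat_lit 61) (nat_lit 5) (nat_lit 58) (nat_lit 5) (nat_lit 368) (nat_lit 350) (nat_lit 182)) (XT.lf (nat_lit 0) (nat_lit 308050847436) (nat_lit 228) (nat_lit 94185616860) (nat_lit 304) (nat_lit 39851090482) (nat_lit 54) (nat_lit 5) (nat_lit 57) (nat_lit 5) (nat_lit 58) (nat_lit 5) (nat_lit 369) (nat_lit 350) (nat_lit 181)))) (XT.nd (nat_lit 78) (nat_lit 380) (nat_lit 0) (XT.lf (nat_lit 0) (nat_lit 84348484398) (nat_lit 228) (nat_lit 224385053266) (nat_lit 76) (nat_lit 155829361779) (nat_lit 51) (nat_lit 5) (nat_lit 54) (nat_lit 5) (nat_lit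 52) (nat_lit 5) (nat_lit 370) (nat_lit 350) (nat_lit 180)) (XT.nd (nat_lit 78) (nat_lit 152) (nat_lit 0) (XT.lf (nat_lit 0) (nat_lit 163325368223) (nat_lit 228) (nat_lit 60292266111) (nat_lit 304) (nat_lit 264859482728) (nat_lit 48) (nat_lit 5) (nat_lit 51) (nat_lit 5) (nat_lit 52) (nat_lit 5) (nat_lit 371) (nat_lit 350) (nat_lit 179)) (XT.lf (nat_lit 0) (nat_lit 75046206642) (nat_lit 152) (nat_lit 307374270844) (nat_lit 228) (nat_lit 131464386607) (nat_lit 46) (nat_lit 5) (nat_lit 48) (nat_lit 5) (nat_lit 49) (nat_lit 5) (nat_lit 372) (nat_lit 350) (nat_lit 178))))))))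
noncomputable def xc119 : XT := (XT.nd (nat_lit 46098) (nat_lit 0) (nat_lit 0) (XT.nd (nat_lit 45240) (nat_lit 0) (nat_lit 3572) (XT.nd (nat_lit 390) (nat_lit 456) (nat_lit 0) (XT.nd (nat_lit 156) (nat_lit 532) (nat_lit 0) (XT.nd (nat_lit 78) (nat_lit 228) (nat_lit 0) (XT.lf (nat_lit 0) (nat_lit 18972308260) (nat_lit 228) (nat_lit 23477338938) (nat_lit 76) (nat_lit 498527078674) (nat_lit 45) (nat_lit 5) (nat_lit 48) (nat_lit 5) (nat_lit 46) (nat_lit 5) (nat_lit 373) (nat_lit 350) (nat_lit 177)) (XT.lf (nat_lit 0) (nat_lit 187672986159) (nat_lit 304) (nat_lit 136857674481) (nat_lit 76) (nat_lit 245055772351) (nat_lit 42) (nat_lit 5) (nat_lit 46) (nat_lit 5) (nat_lit 43) (nat_lit 5) (nat_lit 374) (nat_lit 350) (nat_lit 176))) (XT.nd (nat_lit 78) (nat_lit 380) (nat_lit 0) (XT.lf (nat_lit 0) (nat_lit 335831351082) (nat_lit 152) (nat_lit 40413008824) (nat_lit 228) (nat_lit 223921824740) (nat_lit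 40) (nat_lit 5) (nat_lit 42) (nat_lit 5) (nat_lit 43) (nat_lit 5) (nat_lit 375) (nat_lit 350) (nat_lit 175)) (XT.nd (nat_lit 78) (nat_lit 228) (nat_lit 0) (XT.lf (nat_lit 0) (nat_lit 221024724125) (nat_lit 152) (nat_lit 368910304021) (nat_lit 228) (nat_lit 42755609104) (nat_lit 38) (nat_lit 5) (nat_lit 40) (nat_lit 5) (nat_lit 41) (nat_lit 5) (nat_lit 376) (nat_lit 350) (nat_lit 174)) (XT.lf (nat_lit 0) (nat_lit 86696069519) (nat_lit 152) (nat_lit 68028922065) (nat_lit 228) (nat_lit 512636943211) (nat_lit 35) (nat_lit 5) (nat_lit 37) (nat_lit 5) (nat_lit 38) (nat_lit 5) (nat_lit 377) (nat_lit 350) (nat_lit 173))))) (XT.nd (nat_lit 234) (nat_lit 152) (nat_lit 0) (XT.nd (nat_lit 78) (nat_lit 304) (nat_lit 0) (XT.lf (nat_lit 0) (nat_lit 377825854854) (nat_lit 228) (nat_lit 69670805844) (nat_lit 76) (nat_lit 256709241760) (nat_lit 35) (nat_lit 5) (nat_lit 38) (nat_lit 5) (nat_lit 36) (nat_lit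 5) (nat_lit 378) (nat_lit 350) (nat_lit 172)) (XT.nd (nat_lit 78) (nat_lit 152) (nat_lit 0) (XT.lf (nat_lit 0) (nat_lit 496962576879) (nat_lit 152) (nat_lit 130718223269) (nat_lit 228) (nat_lit 115871286771) (nat_lit 33) (nat_lit 5) (nat_lit 35) (nat_lit 5) (nat_lit 36) (nat_lit 5) (nat_lit 379) (nat_lit 350) (nat_lit 171)) (XT.lf (nat_lit 0) (nat_lit 117799022082) (nat_lit 152) (nat_lit 454700422231) (nat_lit 76) (nat_lit 212965055271) (nat_lit 31) (nat_lit 5) (nat_lit 33) (nat_lit 5) (nat_lit 32) (nat_lit 5) (nat_lit 380) (nat_lit 350) (nat_lit 170)))) (XT.nd (nat_lit 78) (nat_lit 0) (nat_lit 0) (XT.lf (nat_lit 0) (nat_lit 132612417539) (nat_lit 152) (nat_lit 242185638056) (nat_lit 228) (nat_lit 455402139958) (nat_lit 29) (nat_lit 5) (nat_lit 31) (nat_lit 5) (nat_lit 32) (nat_lit 5) (nat_lit 381) (nat_lit 350) (nat_lit 169)) (XT.nd (nat_lit 44460) (nat_lit 0) (nat_lit 5092) (XT.lf (nat_lit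 0) (nat_lit 662195891707) (nat_lit 228) (nat_lit 96889660638) (nat_lit 76) (nat_lit 118937250884) (nat_lit 29) (nat_lit 5) (nat_lit 32) (nat_lit 5) (nat_lit 30) (nat_lit 4) (nat_lit 382) (nat_lit 350) (nat_lit 168)) (XT.lf (nat_lit 0) (nat_lit 4771371907) (nat_lit 836) (nat_lit 49260625034) (nat_lit 836) (nat_lit 49260625034) (nat_lit 96) (nat_lit 3) (nat_lit 107) (nat_lit 3) (nat_lit 107) (nat_lit 5) (nat_lit 351) (nat_lit 351) (nat_lit 198)))))) (XT.nd (nat_lit 390) (nat_lit 1596) (nat_lit 0) (XT.nd (nat_lit 156) (nat_lit 0) (nat_lit 76) (XT.nd (nat_lit 78) (nat_lit 0) (nat_lit 0) (XT.lf (nat_lit 0) (nat_lit 11573958011) (nat_lit 760) (nat_lit 157373602313) (nat_lit 836) (nat_lit 45818615269) (nat_lit 97) (nat_lit 5) (nat_lit 107) (nat_lit 5) (nat_lit 108) (nat_lit 5) (nat_lit 352) (nat_lit 351) (nat_lit 197)) (XT.lf (nat_lit 76) (nat_lit 4061453351) (nat_lit 0) (nat_lit 13335861193)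 (nat_lit 836) (nat_lit 206022785254) (nat_lit 98) (nat_lit 5) (nat_lit 97) (nat_lit 5) (nat_lit 108) (nat_lit 5) (nat_lit 353) (nat_lit 351) (nat_lit 196))) (XT.nd (nat_lit 78) (nat_lit 0) (nat_lit 76) (XT.lf (nat_lit 0) (nat_lit 28888297641) (nat_lit 760) (nat_lit 51058970136) (nat_lit 836) (nat_lit 152558982526) (nat_lit 98) (nat_lit 5) (nat_lit 108) (nat_lit 5) (nat_lit 109) (nat_lit 5) (nat_lit 354) (nat_lit 351) (nat_lit 195)) (XT.nd (nat_lit 78) (nat_lit 0) (nat_lit 76) (XT.lf (nat_lit 0) (nat_lit 45051096970) (nat_lit 760) (nat_lit 108832268479) (nat_lit 836) (nat_lit 88248300770) (nat_lit 99) (nat_lit 5) (nat_lit 109) (nat_lit 5) (nat_lit 110) (nat_lit 5) (nat_lit 355) (nat_lit 351) (nat_lit 194)) (XT.lf (nat_lit 0) (nat_lit 66320519647) (nat_lit 760) (nat_lit 169572728364) (nat_lit 836) (nat_lit 16443187658) (nat_lit 100) (nat_lit 5) (nat_lit 110) (nat_lit 5) (nat_lit 111) (nat_lit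 5) (nat_lit 356) (nat_lit 351) (nat_lit 193))))) (XT.nd (nat_lit 234) (nat_lit 1140) (nat_lit 0) (XT.nd (nat_lit 78) (nat_lit 684) (nat_lit 0) (XT.lf (nat_lit 76) (nat_lit 28600342090) (nat_lit 0) (nat_lit 65659132597) (nat_lit 836) (nat_lit 168849713271) (nat_lit 101) (nat_lit 5) (nat_lit 100) (nat_lit 5) (nat_lit 111) (nat_lit 5) (nat_lit 357) (nat_lit 351) (nat_lit 192)) (XT.nd (nat_lit 78) (nat_lit 760) (nat_lit 0) (XT.lf (nat_lit 0) (nat_lit 129280989648) (nat_lit 760) (nat_lit 27807327205) (nat_lit 76) (nat_lit 117413071600) (nat_lit 101) (nat_lit 5) (nat_lit 111) (nat_lit 5) (nat_lit 102) (nat_lit 5) (nat_lit 358) (nat_lit 351) (nat_lit 191)) (XT.lf (nat_lit 0) (nat_lit 171804510598) (nat_lit 836) (nat_lit 86303721556) (nat_lit 76) (nat_lit 28461718775) (nat_lit 91) (nat_lit 5) (nat_lit 102) (nat_lit 5) (nat_lit 92) (nat_lit 5) (nat_lit 359) (nat_lit 351) (nat_lit 190)))) (XT.nd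 (nat_lit 78) (nat_lit 760) (nat_lit 0) (XT.lf (nat_lit 0) (nat_lit 150147671802) (nat_lit 380) (nat_lit 73067448372) (nat_lit 456) (nat_lit 76114618051) (nat_lit 86) (nat_lit 5) (nat_lit 91) (nat_lit 5) (nat_lit 92) (nat_lit 5) (nat_lit 360) (nat_lit 351) (nat_lit 189)) (XT.nd (nat_lit 78) (nat_lit 456) (nat_lit 0) (XT.lf (nat_lit 0) (nat_lit 96651236341) (nat_lit 304) (nat_lit 187103544191) (nat_lit 380) (nat_lit 29104718027) (nat_lit 82) (nat_lit 5) (nat_lit 86) (nat_lit 5) (nat_lit 87) (nat_lit 5) (nat_lit 361) (nat_lit 351) (nat_lit 188)) (XT.lf (nat_lit 0) (nat_lit 25690794494) (nat_lit 456) (nat_lit 287656284942) (nat_lit 76) (nat_lit 13871733746) (nat_lit 76) (nat_lit 5) (nat_lit 82) (nat_lit 5) (nat_lit 77) (nat_lit 5) (nat_lit 362) (nat_lit 351) (nat_lit 187))))))) (XT.nd (nat_lit 858) (nat_lit 1292) (nat_lit 0) (XT.nd (nat_lit 390) (nat_lit 1064) (nat_lit 0) (XT.nd (nat_lit 156)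 (nat_lit 912) (nat_lit 0) (XT.nd (nat_lit 78) (nat_lit 304) (nat_lit 0) (XT.lf (nat_lit 0) (nat_lit 90846629651) (nat_lit 456) (nat_lit 22730396717) (nat_lit 76) (nat_lit 228776171949) (nat_lit 76) (nat_lit 5) (nat_lit 82) (nat_lit 5) (nat_lit 77) (nat_lit 5) (nat_lit 363) (nat_lit 351) (nat_lit 186)) (XT.lf (nat_lit 0) (nat_lit 167127912133) (nat_lit 380) (nat_lit 88052523220) (nat_lit 76) (nat_lit 103222250003) (nat_lit 72) (nat_lit 5) (nat_lit 77) (nat_lit 5) (nat_lit 73) (nat_lit 5) (nat_lit 364) (nat_lit 351) (nat_lit 185))) (XT.nd (nat_lit 78) (nat_lit 608) (nat_lit 0) (XT.lf (nat_lit 0) (nat_lit 216996022101) (nat_lit 304) (nat_lit 38221041997) (nat_lit 380) (nat_lit 120233799023) (nat_lit 68) (nat_lit 5) (nat_lit 72) (nat_lit 5) (nat_lit 73) (nat_lit 5) (nat_lit 365) (nat_lit 351) (nat_lit 184)) (XT.nd (nat_lit 78) (nat_lit 380) (nat_lit 0) (XT.lf (nat_lit 0) (nat_lit 157769313842)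 (nat_lit 228) (nat_lit 199667712821) (nat_lit 304) (nat_lit 36071684625) (nat_lit 65) (nat_lit 5) (nat_lit 68) (nat_lit 5) (nat_lit 69) (nat_lit 5) (nat_lit 366) (nat_lit 351) (nat_lit 183)) (XT.lf (nat_lit 0) (nat_lit 58533657174) (nat_lit 380) (nat_lit 319753698980) (nat_lit 76) (nat_lit 34407786430) (nat_lit 60) (nat_lit 5) (nat_lit 65) (nat_lit 5) (nat_lit 61) (nat_lit 5) (nat_lit 367) (nat_lit 351) (nat_lit 182))))) (XT.nd (nat_lit 234) (nat_lit 608) (nat_lit 0) (XT.nd (nat_lit 78) (nat_lit 228) (nat_lit 0) (XT.lf (nat_lit 0) (nat_lit 19712240714) (nat_lit 228) (nat_lit 147596486482) (nat_lit 304) (nat_lit 265684940464) (nat_lit 57) (nat_lit 5) (nat_lit 60) (nat_lit 5) (nat_lit 61) (nat_lit 5) (nat_lit 368) (nat_lit 351) (nat_lit 181)) (XT.nd (nat_lit 78) (nat_lit 228) (nat_lit 0) (XT.lf (nat_lit 0) (nat_lit 292032404155) (nat_lit 304) (nat_lit 58560727272) (nat_lit 76) (nat_lit 103960613327)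 (nat_lit 57) (nat_lit 5) (nat_lit 61) (nat_lit 5) (nat_lit 58) (nat_lit 5) (nat_lit 369) (nat_lit 351) (nat_lit 180)) (XT.lf (nat_lit 0) (nat_lit 332697157520) (nat_lit 228) (nat_lit 101719819164) (nat_lit 304) (nat_lit 43037501330) (nat_lit 54) (nat_lit 5) (nat_lit 57) (nat_lit 5) (nat_lit 58) (nat_lit 5) (nat_lit 370) (nat_lit 351) (nat_lit 179)))) (XT.nd (nat_lit 78) (nat_lit 380) (nat_lit 0) (XT.lf (nat_lit 0) (nat_lit 91097910305) (nat_lit 228) (nat_lit 242333592351) (nat_lit 76) (nat_lit 168296350164) (nat_lit 51) (nat_lit 5) (nat_lit 54) (nat_lit 5) (nat_lit 52) (nat_lit 5) (nat_lit 371) (nat_lit 351) (nat_lit 178)) (XT.nd (nat_lit 78) (nat_lit 152) (nat_lit 0) (XT.lf (nat_lit 0) (nat_lit 176393564415) (nat_lit 228) (nat_lit 65114947045) (nat_lit 304) (nat_lit 286046700518) (nat_lit 48) (nat_lit 5) (nat_lit 51) (nat_lit 5) (nat_lit 52) (nat_lit 5) (nat_lit 372) (nat_lit 351) (nat_lit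 177)) (XT.lf (nat_lit 0) (nat_lit 81052036498) (nat_lit 152) (nat_lit 331963480377) (nat_lit 228) (nat_lit 141980065239) (nat_lit 46) (nat_lit 5) (nat_lit 48) (nat_lit 5) (nat_lit 49) (nat_lit 5) (nat_lit 373) (nat_lit 351) (nat_lit 176)))))) (XT.nd (nat_lit 468) (nat_lit 456) (nat_lit 0) (XT.nd (nat_lit 234) (nat_lit 380) (nat_lit 0) (XT.nd (nat_lit 78) (nat_lit 380) (nat_lit 0) (XT.lf (nat_lit 0) (nat_lit 20491412525) (nat_lit 228) (nat_lit 25353506198) (nat_lit 76) (nat_lit 538409878315) (nat_lit 45) (nat_lit 5) (nat_lit 48) (nat_lit 5) (nat_lit 46) (nat_lit 5) (nat_lit 374) (nat_lit 351) (nat_lit 175)) (XT.nd (nat_lit 78) (nat_lit 152) (nat_lit 0) (XT.lf (nat_lit 0) (nat_lit 202688087691) (nat_lit 304) (nat_lit 147804303527) (nat_lit 76) (nat_lit 264660892426) (nat_lit 42) (nat_lit 5) (nat_lit 46) (nat_lit 5) (nat_lit 43) (nat_lit 5) (nat_lit 375) (nat_lit 351) (nat_lit 174)) (XT.lf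 (nat_lit 0) (nat_lit 362699757820) (nat_lit 152) (nat_lit 43645349633) (nat_lit 228) (nat_lit 241834311237) (nat_lit 40) (nat_lit 5) (nat_lit 42) (nat_lit 5) (nat_lit 43) (nat_lit 5) (nat_lit 376) (nat_lit 351) (nat_lit 173)))) (XT.nd (nat_lit 78) (nat_lit 228) (nat_lit 0) (XT.lf (nat_lit 0) (nat_lit 238708565830) (nat_lit 152) (nat_lit 398422413741) (nat_lit 228) (nat_lit 46174850467) (nat_lit 38) (nat_lit 5) (nat_lit 40) (nat_lit 5) (nat_lit 41) (nat_lit 5) (nat_lit 377) (nat_lit 351) (nat_lit 172)) (XT.nd (nat_lit 78) (nat_lit 0) (nat_lit 0) (XT.lf (nat_lit 0) (nat_lit 93633575489) (nat_lit 152) (nat_lit 73470525993) (nat_lit 228) (nat_lit 553646731922) (nat_lit 35) (nat_lit 5) (nat_lit 37) (nat_lit 5) (nat_lit 38) (nat_lit 5) (nat_lit 378) (nat_lit 351) (nat_lit 171)) (XT.lf (nat_lit 0) (nat_lit 408052961811) (nat_lit 228) (nat_lit 75242742996) (nat_lit 76) (nat_lit 277246617321) (nat_lit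 35) (nat_lit 5) (nat_lit 38) (nat_lit 5) (nat_lit 36) (nat_lit 5) (nat_lit 379) (nat_lit 351) (nat_lit 170))))) (XT.nd (nat_lit 44694) (nat_lit 0) (nat_lit 5092) (XT.nd (nat_lit 78) (nat_lit 304) (nat_lit 0) (XT.lf (nat_lit 0) (nat_lit 536721235278) (nat_lit 152) (nat_lit 141175016316) (nat_lit 228) (nat_lit 125139952354) (nat_lit 33) (nat_lit 5) (nat_lit 35) (nat_lit 5) (nat_lit 36) (nat_lit 5) (nat_lit 380) (nat_lit 351) (nat_lit 169)) (XT.nd (nat_lit 78) (nat_lit 152) (nat_lit 0) (XT.lf (nat_lit 0) (nat_lit 127223909072) (nat_lit 152) (nat_lit 491074805335) (nat_lit 76) (nat_lit 230002896394) (nat_lit 31) (nat_lit 5) (nat_lit 33) (nat_lit 5) (nat_lit 32) (nat_lit 5) (nat_lit 381) (nat_lit 351) (nat_lit 168)) (XT.lf (nat_lit 0) (nat_lit 143222989880) (nat_lit 152) (nat_lit 261559828540) (nat_lit 228) (nat_lit 491833346407) (nat_lit 29) (nat_lit 5) (nat_lit 31) (nat_lit 5) (nat_lit 32)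 (nat_lit 5) (nat_lit 382) (nat_lit 351) (nat_lit 167)))) (XT.nd (nat_lit 78) (nat_lit 0) (nat_lit 76) (XT.lf (nat_lit 0) (nat_lit 5155346539) (nat_lit 836) (nat_lit 53200284563) (nat_lit 836) (nat_lit 53200284563) (nat_lit 96) (nat_lit 3) (nat_lit 107) (nat_lit 3) (nat_lit 107) (nat_lit 5) (nat_lit 352) (nat_lit 352) (nat_lit 196)) (XT.nd (nat_lit 78) (nat_lit 0) (nat_lit 0) (XT.lf (nat_lit 0) (nat_lit 12504073949) (nat_lit 760) (nat_lit 169960965828) (nat_lit 836) (nat_lit 49482214672) (nat_lit 97) (nat_lit 5) (nat_lit 107) (nat_lit 5) (nat_lit 108) (nat_lit 5) (nat_lit 353) (nat_lit 352) (nat_lit 195)) (XT.lf (nat_lit 76) (nat_lit 4388784570) (nat_lit 0) (nat_lit 14404241079) (nat_lit 836) (nat_lit 222500480995) (nat_lit 98) (nat_lit 5) (nat_lit 97) (nat_lit 5) (nat_lit 108) (nat_lit 5) (nat_lit 354) (nat_lit 352) (nat_lit 194))))))))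
noncomputable def xc120 : XT := (XT.nd (nat_lit 1716) (nat_lit 836) (nat_lit 0) (XT.nd (nat_lit 858) (nat_lit 2280) (nat_lit 0) (XT.nd (nat_lit 390) (nat_lit 1976) (nat_lit 0) (XT.nd (nat_lit 156) (nat_lit 0) (nat_lit 152) (XT.nd (nat_lit 78) (nat_lit 0) (nat_lit 76) (XT.lf (nat_lit 0) (nat_lit 31202974741) (nat_lit 760) (nat_lit 55141243599) (nat_lit 836) (nat_lit 164762346842) (nat_lit 98) (nat_lit 5) (nat_lit 108) (nat_lit 5) (nat_lit 109) (nat_lit 5) (nat_lit 355) (nat_lit 352) (nat_lit 193)) (XT.lf (nat_lit 0) (nat_lit 48658550563) (nat_lit 760) (nat_lit 117536322470) (nat_lit 836) (nat_lit 95307154043) (nat_lit 99) (nat_lit 5) (nat_lit 109) (nat_lit 5) (nat_lit 110) (nat_lit 5) (nat_lit 356) (nat_lit 352) (nat_lit 192))) (XT.nd (nat_lit 78) (nat_lit 0) (nat_lit 0) (XT.lf (nat_lit 0) (nat_lit 71629303978) (nat_lit 760) (nat_lit 183135955930) (nat_lit 836) (nat_lit 17757929633) (nat_lit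 100) (nat_lit 5) (nat_lit 110) (nat_lit 5) (nat_lit 111) (nat_lit 5) (nat_lit 357) (nat_lit 352) (nat_lit 191)) (XT.nd (nat_lit 78) (nat_lit 0) (nat_lit 76) (XT.lf (nat_lit 76) (nat_lit 30890847571) (nat_lit 0) (nat_lit 70912333744) (nat_lit 836) (nat_lit 182354590689) (nat_lit 101) (nat_lit 5) (nat_lit 100) (nat_lit 5) (nat_lit 111) (nat_lit 5) (nat_lit 358) (nat_lit 352) (nat_lit 190)) (XT.lf (nat_lit 0) (nat_lit 139626192252) (nat_lit 760) (nat_lit 30029472223) (nat_lit 76) (nat_lit 126805695588) (nat_lit 101) (nat_lit 5) (nat_lit 111) (nat_lit 5) (nat_lit 102) (nat_lit 5) (nat_lit 359) (nat_lit 352) (nat_lit 189))))) (XT.nd (nat_lit 234) (nat_lit 760) (nat_lit 0) (XT.nd (nat_lit 78) (nat_lit 684) (nat_lit 0) (XT.lf (nat_lit 0) (nat_lit 185551426116) (nat_lit 836) (nat_lit 93205549771) (nat_lit 76) (nat_lit 30738440332) (nat_lit 91) (nat_lit 5) (nat_lit 102) (nat_lit 5) (nat_lit 92)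 (nat_lit 5) (nat_lit 360) (nat_lit 352) (nat_lit 188)) (XT.nd (nat_lit 78) (nat_lit 304) (nat_lit 0) (XT.lf (nat_lit 0) (nat_lit 162161847734) (nat_lit 380) (nat_lit 78912884370) (nat_lit 456) (nat_lit 82201262239) (nat_lit 86) (nat_lit 5) (nat_lit 91) (nat_lit 5) (nat_lit 92) (nat_lit 5) (nat_lit 361) (nat_lit 352) (nat_lit 187)) (XT.lf (nat_lit 0) (nat_lit 104385712975) (nat_lit 304) (nat_lit 202071710910) (nat_lit 380) (nat_lit 31430718899) (nat_lit 82) (nat_lit 5) (nat_lit 86) (nat_lit 5) (nat_lit 87) (nat_lit 5) (nat_lit 362) (nat_lit 352) (nat_lit 186)))) (XT.nd (nat_lit 78) (nat_lit 304) (nat_lit 0) (XT.lf (nat_lit 0) (nat_lit 27748227687) (nat_lit 456) (nat_lit 310666330410) (nat_lit 76) (nat_lit 14981649352) (nat_lit 76) (nat_lit 5) (nat_lit 82) (nat_lit 5) (nat_lit 77) (nat_lit 5) (nat_lit 363) (nat_lit 352) (nat_lit 185)) (XT.nd (nat_lit 78) (nat_lit 304) (nat_lit 0) (XT.lf (nat_lit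 0) (nat_lit 98116368943) (nat_lit 456) (nat_lit 24546553151) (nat_lit 76) (nat_lit 247078429506) (nat_lit 76) (nat_lit 5) (nat_lit 82) (nat_lit 5) (nat_lit 77) (nat_lit 5) (nat_lit 364) (nat_lit 352) (nat_lit 184)) (XT.lf (nat_lit 0) (nat_lit 180500043602) (nat_lit 380) (nat_lit 95094456382) (nat_lit 76) (nat_lit 111480303297) (nat_lit 72) (nat_lit 5) (nat_lit 77) (nat_lit 5) (nat_lit 73) (nat_lit 5) (nat_lit 365) (nat_lit 352) (nat_lit 183)))))) (XT.nd (nat_lit 390) (nat_lit 1140) (nat_lit 0) (XT.nd (nat_lit 156) (nat_lit 608) (nat_lit 0) (XT.nd (nat_lit 78) (nat_lit 228) (nat_lit 0) (XT.lf (nat_lit 0) (nat_lit 234357873970) (nat_lit 304) (nat_lit 41278347007) (nat_lit 380) (nat_lit 129850619776) (nat_lit 68) (nat_lit 5) (nat_lit 72) (nat_lit 5) (nat_lit 73) (nat_lit 5) (nat_lit 366) (nat_lit 352) (nat_lit 182)) (XT.lf (nat_lit 0) (nat_lit 170393016534) (nat_lit 228) (nat_lit 215640670446)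 (nat_lit 304) (nat_lit 38955634607) (nat_lit 65) (nat_lit 5) (nat_lit 68) (nat_lit 5) (nat_lit 69) (nat_lit 5) (nat_lit 367) (nat_lit 352) (nat_lit 181))) (XT.nd (nat_lit 78) (nat_lit 228) (nat_lit 0) (XT.lf (nat_lit 0) (nat_lit 63217990143) (nat_lit 380) (nat_lit 345331799365) (nat_lit 76) (nat_lit 37160880967) (nat_lit 60) (nat_lit 5) (nat_lit 65) (nat_lit 5) (nat_lit 61) (nat_lit 5) (nat_lit 368) (nat_lit 352) (nat_lit 180)) (XT.nd (nat_lit 78) (nat_lit 0) (nat_lit 0) (XT.lf (nat_lit 0) (nat_lit 21291320089) (nat_lit 228) (nat_lit 159403656956) (nat_lit 304) (nat_lit 286938105060) (nat_lit 57) (nat_lit 5) (nat_lit 60) (nat_lit 5) (nat_lit 61) (nat_lit 5) (nat_lit 369) (nat_lit 352) (nat_lit 179)) (XT.lf (nat_lit 0) (nat_lit 315396441150) (nat_lit 304) (nat_lit 63243575710) (nat_lit 76) (nat_lit 112277953959) (nat_lit 57) (nat_lit 5) (nat_lit 61) (nat_lit 5) (nat_lit 58) (nat_lit 5) (nat_lit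 370) (nat_lit 352) (nat_lit 178))))) (XT.nd (nat_lit 234) (nat_lit 456) (nat_lit 0) (XT.nd (nat_lit 78) (nat_lit 456) (nat_lit 0) (XT.lf (nat_lit 0) (nat_lit 359314852524) (nat_lit 228) (nat_lit 109856849959) (nat_lit 304) (nat_lit 46479064202) (nat_lit 54) (nat_lit 5) (nat_lit 57) (nat_lit 5) (nat_lit 58) (nat_lit 5) (nat_lit 371) (nat_lit 352) (nat_lit 177)) (XT.nd (nat_lit 78) (nat_lit 228) (nat_lit 0) (XT.lf (nat_lit 0) (nat_lit 98387069565) (nat_lit 228) (nat_lit 261718337716) (nat_lit 76) (nat_lit 181760606396) (nat_lit 51) (nat_lit 5) (nat_lit 54) (nat_lit 5) (nat_lit 52) (nat_lit 5) (nat_lit 372) (nat_lit 352) (nat_lit 176)) (XT.lf (nat_lit 0) (nat_lit 190506907194) (nat_lit 228) (nat_lit 70323542367) (nat_lit 304) (nat_lit 308929115548) (nat_lit 48) (nat_lit 5) (nat_lit 51) (nat_lit 5) (nat_lit 52) (nat_lit 5) (nat_lit 373) (nat_lit 352) (nat_lit 175)))) (XT.nd (nat_lit 78) (nat_lit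 304) (nat_lit 0) (XT.lf (nat_lit 0) (nat_lit 87538028400) (nat_lit 152) (nat_lit 358519931120) (nat_lit 228) (nat_lit 153337208202) (nat_lit 46) (nat_lit 5) (nat_lit 48) (nat_lit 5) (nat_lit 49) (nat_lit 5) (nat_lit 374) (nat_lit 352) (nat_lit 174)) (XT.nd (nat_lit 78) (nat_lit 228) (nat_lit 0) (XT.lf (nat_lit 0) (nat_lit 22131856876) (nat_lit 228) (nat_lit 27380054993) (nat_lit 76) (nat_lit 581483211574) (nat_lit 45) (nat_lit 5) (nat_lit 48) (nat_lit 5) (nat_lit 46) (nat_lit 5) (nat_lit 375) (nat_lit 352) (nat_lit 173)) (XT.lf (nat_lit 0) (nat_lit 218904217216) (nat_lit 304) (nat_lit 159626946066) (nat_lit 76) (nat_lit 285834328195) (nat_lit 42) (nat_lit 5) (nat_lit 46) (nat_lit 5) (nat_lit 43) (nat_lit 5) (nat_lit 376) (nat_lit 352) (nat_lit 172))))))) (XT.nd (nat_lit 45396) (nat_lit 0) (nat_lit 2584) (XT.nd (nat_lit 390) (nat_lit 152) (nat_lit 0) (XT.nd (nat_lit 156) (nat_lit 380) (nat_lit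 0) (XT.nd (nat_lit 78) (nat_lit 152) (nat_lit 0) (XT.lf (nat_lit 0) (nat_lit 391717366233) (nat_lit 152) (nat_lit 47136377554) (nat_lit 228) (nat_lit 261179976333) (nat_lit 40) (nat_lit 5) (nat_lit 42) (nat_lit 5) (nat_lit 43) (nat_lit 5) (nat_lit 377) (nat_lit 352) (nat_lit 171)) (XT.lf (nat_lit 0) (nat_lit 257806848983) (nat_lit 152) (nat_lit 430295594185) (nat_lit 228) (nat_lit 49867803384) (nat_lit 38) (nat_lit 5) (nat_lit 40) (nat_lit 5) (nat_lit 41) (nat_lit 5) (nat_lit 378) (nat_lit 352) (nat_lit 170))) (XT.nd (nat_lit 78) (nat_lit 152) (nat_lit 0) (XT.lf (nat_lit 0) (nat_lit 101125822235) (nat_lit 152) (nat_lit 79347559501) (nat_lit 228) (nat_lit 597937470180) (nat_lit 35) (nat_lit 5) (nat_lit 37) (nat_lit 5) (nat_lit 38) (nat_lit 5) (nat_lit 379) (nat_lit 352) (nat_lit 169)) (XT.nd (nat_lit 78) (nat_lit 152) (nat_lit 0) (XT.lf (nat_lit 0) (nat_lit 440698089161) (nat_lit 228) (nat_lit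 81260681541) (nat_lit 76) (nat_lit 299426892164) (nat_lit 35) (nat_lit 5) (nat_lit 38) (nat_lit 5) (nat_lit 36) (nat_lit 5) (nat_lit 380) (nat_lit 352) (nat_lit 168)) (XT.lf (nat_lit 0) (nat_lit 579660350637) (nat_lit 152) (nat_lit 152468447650) (nat_lit 228) (nat_lit 135150259174) (nat_lit 33) (nat_lit 5) (nat_lit 35) (nat_lit 5) (nat_lit 36) (nat_lit 5) (nat_lit 381) (nat_lit 352) (nat_lit 167))))) (XT.nd (nat_lit 44772) (nat_lit 0) (nat_lit 5016) (XT.nd (nat_lit 44616) (nat_lit 0) (nat_lit 4940) (XT.lf (nat_lit 0) (nat_lit 137402649322) (nat_lit 152) (nat_lit 530359374575) (nat_lit 76) (nat_lit 248403673974) (nat_lit 31) (nat_lit 5) (nat_lit 33) (nat_lit 5) (nat_lit 32) (nat_lit 5) (nat_lit 382) (nat_lit 352) (nat_lit 166)) (XT.nd (nat_lit 78) (nat_lit 0) (nat_lit 76) (XT.lf (nat_lit 0) (nat_lit 5569716030) (nat_lit 836) (nat_lit 57455286690) (nat_lit 836) (nat_lit 57455286690) (nat_lit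 96) (nat_lit 3) (nat_lit 107) (nat_lit 3) (nat_lit 107) (nat_lit 5) (nat_lit 353) (nat_lit 353) (nat_lit 194)) (XT.lf (nat_lit 0) (nat_lit 13508000084) (nat_lit 760) (nat_lit 183555678596) (nat_lit 836) (nat_lit 53439171631) (nat_lit 97) (nat_lit 5) (nat_lit 107) (nat_lit 5) (nat_lit 108) (nat_lit 5) (nat_lit 354) (nat_lit 353) (nat_lit 193)))) (XT.nd (nat_lit 78) (nat_lit 0) (nat_lit 76) (XT.lf (nat_lit 76) (nat_lit 4741957767) (nat_lit 0) (nat_lit 15557875796) (nat_lit 836) (nat_lit 240296981170) (nat_lit 98) (nat_lit 5) (nat_lit 97) (nat_lit 5) (nat_lit 108) (nat_lit 5) (nat_lit 355) (nat_lit 353) (nat_lit 192)) (XT.nd (nat_lit 78) (nat_lit 0) (nat_lit 76) (XT.lf (nat_lit 0) (nat_lit 33702310532) (nat_lit 760) (nat_lit 59550447624) (nat_lit 836) (nat_lit 177942173507) (nat_lit 98) (nat_lit 5) (nat_lit 108) (nat_lit 5) (nat_lit 109) (nat_lit 5) (nat_lit 356) (nat_lit 353) (nat_lit 191))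 (XT.lf (nat_lit 0) (nat_lit 52554120270) (nat_lit 760) (nat_lit 126937061354) (nat_lit 836) (nat_lit 102930859777) (nat_lit 99) (nat_lit 5) (nat_lit 109) (nat_lit 5) (nat_lit 110) (nat_lit 5) (nat_lit 357) (nat_lit 353) (nat_lit 190)))))) (XT.nd (nat_lit 390) (nat_lit 1596) (nat_lit 0) (XT.nd (nat_lit 156) (nat_lit 1064) (nat_lit 0) (XT.nd (nat_lit 78) (nat_lit 0) (nat_lit 0) (XT.lf (nat_lit 0) (nat_lit 77362342707) (nat_lit 760) (nat_lit 197784611294) (nat_lit 836) (nat_lit 19177952689) (nat_lit 100) (nat_lit 5) (nat_lit 110) (nat_lit 5) (nat_lit 111) (nat_lit 5) (nat_lit 358) (nat_lit 353) (nat_lit 189)) (XT.lf (nat_lit 76) (nat_lit 33364239960) (nat_lit 0) (nat_lit 76585723855) (nat_lit 836) (nat_lit 196940300499) (nat_lit 101) (nat_lit 5) (nat_lit 100) (nat_lit 5) (nat_lit 111) (nat_lit 5) (nat_lit 359) (nat_lit 353) (nat_lit 188))) (XT.nd (nat_lit 78) (nat_lit 1140) (nat_lit 0) (XT.lf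 (nat_lit 0) (nat_lit 150798622536) (nat_lit 760) (nat_lit 32429737101) (nat_lit 76) (nat_lit 136949789661) (nat_lit 101) (nat_lit 5) (nat_lit 111) (nat_lit 5) (nat_lit 102) (nat_lit 5) (nat_lit 360) (nat_lit 353) (nat_lit 187)) (XT.nd (nat_lit 78) (nat_lit 380) (nat_lit 0) (XT.lf (nat_lit 0) (nat_lit 200397730424) (nat_lit 836) (nat_lit 100659876546) (nat_lit 76) (nat_lit 33197330421) (nat_lit 91) (nat_lit 5) (nat_lit 102) (nat_lit 5) (nat_lit 92) (nat_lit 5) (nat_lit 361) (nat_lit 353) (nat_lit 186)) (XT.lf (nat_lit 0) (nat_lit 175136820748) (nat_lit 380) (nat_lit 85225949523) (nat_lit 456) (nat_lit 88775198218) (nat_lit 86) (nat_lit 5) (nat_lit 91) (nat_lit 5) (nat_lit 92) (nat_lit 5) (nat_lit 362) (nat_lit 353) (nat_lit 185))))) (XT.nd (nat_lit 234) (nat_lit 836) (nat_lit 0) (XT.nd (nat_lit 78) (nat_lit 456) (nat_lit 0) (XT.lf (nat_lit 0) (nat_lit 112738608530) (nat_lit 304) (nat_lit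 218237347631) (nat_lit 380) (nat_lit 33943138885) (nat_lit 82) (nat_lit 5) (nat_lit 86) (nat_lit 5) (nat_lit 87) (nat_lit 5) (nat_lit 363) (nat_lit 353) (nat_lit 184)) (XT.nd (nat_lit 78) (nat_lit 0) (nat_lit 0) (XT.lf (nat_lit 0) (nat_lit 29969946013) (nat_lit 456) (nat_lit 335517530081) (nat_lit 76) (nat_lit 16180332968) (nat_lit 76) (nat_lit 5) (nat_lit 82) (nat_lit 5) (nat_lit 77) (nat_lit 5) (nat_lit 364) (nat_lit 353) (nat_lit 183)) (XT.lf (nat_lit 0) (nat_lit 105967400784) (nat_lit 456) (nat_lit 26508326698) (nat_lit 76) (nat_lit 266844844301) (nat_lit 76) (nat_lit 5) (nat_lit 82) (nat_lit 5) (nat_lit 77) (nat_lit 5) (nat_lit 365) (nat_lit 353) (nat_lit 182)))) (XT.nd (nat_lit 78) (nat_lit 532) (nat_lit 0) (XT.lf (nat_lit 0) (nat_lit 194941674747) (nat_lit 380) (nat_lit 102700067853) (nat_lit 76) (nat_lit 120398961866) (nat_lit 72) (nat_lit 5) (nat_lit 77) (nat_lit 5) (nat_lit 73)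 (nat_lit 5) (nat_lit 366) (nat_lit 353) (nat_lit 181)) (XT.nd (nat_lit 78) (nat_lit 228) (nat_lit 0) (XT.lf (nat_lit 0) (nat_lit 253108364398) (nat_lit 304) (nat_lit 44580290394) (nat_lit 380) (nat_lit 140237054844) (nat_lit 68) (nat_lit 5) (nat_lit 72) (nat_lit 5) (nat_lit 73) (nat_lit 5) (nat_lit 367) (nat_lit 353) (nat_lit 180)) (XT.lf (nat_lit 0) (nat_lit 184026307639) (nat_lit 228) (nat_lit 232891530219) (nat_lit 304) (nat_lit 42070555207) (nat_lit 65) (nat_lit 5) (nat_lit 68) (nat_lit 5) (nat_lit 69) (nat_lit 5) (nat_lit 368) (nat_lit 353) (nat_lit 179))))))))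
noncomputable def xc121 : XT := (XT.nd (nat_lit 46332) (nat_lit 0) (nat_lit 152) (XT.nd (nat_lit 858) (nat_lit 380) (nat_lit 0) (XT.nd (nat_lit 390) (nat_lit 988) (nat_lit 0) (XT.nd (nat_lit 156) (nat_lit 456) (nat_lit 0) (XT.nd (nat_lit 78) (nat_lit 228) (nat_lit 0) (XT.lf (nat_lit 0) (nat_lit 68276835729) (nat_lit 380) (nat_lit 372956460999) (nat_lit 76) (nat_lit 40134155786) (nat_lit 60) (nat_lit 5) (nat_lit 65) (nat_lit 5) (nat_lit 61) (nat_lit 5) (nat_lit 369) (nat_lit 353) (nat_lit 178)) (XT.lf (nat_lit 0) (nat_lit 22996426208) (nat_lit 228) (nat_lit 172155479310) (nat_lit 304) (nat_lit 309891755454) (nat_lit 57) (nat_lit 5) (nat_lit 60) (nat_lit 5) (nat_lit 61) (nat_lit 5) (nat_lit 370) (nat_lit 353) (nat_lit 177))) (XT.nd (nat_lit 78) (nat_lit 456) (nat_lit 0) (XT.lf (nat_lit 0) (nat_lit 340629395007) (nat_lit 304) (nat_lit 68301338737) (nat_lit 76) (nat_lit 121260611714) (nat_lit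 57) (nat_lit 5) (nat_lit 61) (nat_lit 5) (nat_lit 58) (nat_lit 5) (nat_lit 371) (nat_lit 353) (nat_lit 176)) (XT.nd (nat_lit 78) (nat_lit 228) (nat_lit 0) (XT.lf (nat_lit 0) (nat_lit 388061688876) (nat_lit 228) (nat_lit 118644922358) (nat_lit 304) (nat_lit 50196157141) (nat_lit 54) (nat_lit 5) (nat_lit 57) (nat_lit 5) (nat_lit 58) (nat_lit 5) (nat_lit 372) (nat_lit 353) (nat_lit 175)) (XT.lf (nat_lit 0) (nat_lit 106259172334) (nat_lit 228) (nat_lit 282654139762) (nat_lit 76) (nat_lit 196301924918) (nat_lit 51) (nat_lit 5) (nat_lit 54) (nat_lit 5) (nat_lit 52) (nat_lit 5) (nat_lit 373) (nat_lit 353) (nat_lit 174))))) (XT.nd (nat_lit 234) (nat_lit 532) (nat_lit 0) (XT.nd (nat_lit 78) (nat_lit 228) (nat_lit 0) (XT.lf (nat_lit 0) (nat_lit 205749052383) (nat_lit 228) (nat_lit 75948910975) (nat_lit 304) (nat_lit 333642312237) (nat_lit 48) (nat_lit 5) (nat_lit 51) (nat_lit 5) (nat_lit 52) (nat_lit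 5) (nat_lit 374) (nat_lit 353) (nat_lit 173)) (XT.nd (nat_lit 78) (nat_lit 76) (nat_lit 0) (XT.lf (nat_lit 0) (nat_lit 94542638729) (nat_lit 152) (nat_lit 387200987469) (nat_lit 228) (nat_lit 165603102677) (nat_lit 46) (nat_lit 5) (nat_lit 48) (nat_lit 5) (nat_lit 49) (nat_lit 5) (nat_lit 375) (nat_lit 353) (nat_lit 172)) (XT.lf (nat_lit 0) (nat_lit 23903375375) (nat_lit 228) (nat_lit 29568974739) (nat_lit 76) (nat_lit 628002334029) (nat_lit 45) (nat_lit 5) (nat_lit 48) (nat_lit 5) (nat_lit 46) (nat_lit 5) (nat_lit 376) (nat_lit 353) (nat_lit 171)))) (XT.nd (nat_lit 78) (nat_lit 304) (nat_lit 0) (XT.lf (nat_lit 0) (nat_lit 236417482670) (nat_lit 304) (nat_lit 172395642782) (nat_lit 76) (nat_lit 308701558312) (nat_lit 42) (nat_lit 5) (nat_lit 46) (nat_lit 5) (nat_lit 43) (nat_lit 5) (nat_lit 377) (nat_lit 353) (nat_lit 170)) (XT.nd (nat_lit 78) (nat_lit 152) (nat_lit 0) (XT.lf (nat_lit 0)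 (nat_lit 423056151097) (nat_lit 152) (nat_lit 50906773313) (nat_lit 228) (nat_lit 282073448682) (nat_lit 40) (nat_lit 5) (nat_lit 42) (nat_lit 5) (nat_lit 43) (nat_lit 5) (nat_lit 378) (nat_lit 353) (nat_lit 169)) (XT.lf (nat_lit 0) (nat_lit 278432766832) (nat_lit 152) (nat_lit 464718716466) (nat_lit 228) (nat_lit 53856340206) (nat_lit 38) (nat_lit 5) (nat_lit 40) (nat_lit 5) (nat_lit 41) (nat_lit 5) (nat_lit 379) (nat_lit 353) (nat_lit 168)))))) (XT.nd (nat_lit 45006) (nat_lit 0) (nat_lit 4864) (XT.nd (nat_lit 156) (nat_lit 152) (nat_lit 0) (XT.nd (nat_lit 78) (nat_lit 0) (nat_lit 0) (XT.lf (nat_lit 0) (nat_lit 109217226069) (nat_lit 152) (nat_lit 85694842509) (nat_lit 228) (nat_lit 645771610201) (nat_lit 35) (nat_lit 5) (nat_lit 37) (nat_lit 5) (nat_lit 38) (nat_lit 5) (nat_lit 380) (nat_lit 353) (nat_lit 167)) (XT.lf (nat_lit 0) (nat_lit 475954699672) (nat_lit 228) (nat_lit 87760266436)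 (nat_lit 76) (nat_lit 323381511178) (nat_lit 35) (nat_lit 5) (nat_lit 38) (nat_lit 5) (nat_lit 36) (nat_lit 5) (nat_lit 381) (nat_lit 353) (nat_lit 166))) (XT.nd (nat_lit 44694) (nat_lit 0) (nat_lit 4788) (XT.lf (nat_lit 0) (nat_lit 626034393140) (nat_lit 152) (nat_lit 164665434803) (nat_lit 228) (nat_lit 145961517418) (nat_lit 33) (nat_lit 5) (nat_lit 35) (nat_lit 5) (nat_lit 36) (nat_lit 5) (nat_lit 382) (nat_lit 353) (nat_lit 165)) (XT.nd (nat_lit 78) (nat_lit 0) (nat_lit 76) (XT.lf (nat_lit 0) (nat_lit 6016958066) (nat_lit 836) (nat_lit 62050834592) (nat_lit 836) (nat_lit 62050834592) (nat_lit 96) (nat_lit 3) (nat_lit 107) (nat_lit 3) (nat_lit 107) (nat_lit 5) (nat_lit 354) (nat_lit 354) (nat_lit 192)) (XT.lf (nat_lit 0) (nat_lit 14591726699) (nat_lit 760) (nat_lit 198238277176) (nat_lit 836) (nat_lit 57712916288) (nat_lit 97) (nat_lit 5) (nat_lit 107) (nat_lit 5) (nat_lit 108) (nat_lit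 5) (nat_lit 355) (nat_lit 354) (nat_lit 191))))) (XT.nd (nat_lit 234) (nat_lit 0) (nat_lit 228) (XT.nd (nat_lit 78) (nat_lit 0) (nat_lit 76) (XT.lf (nat_lit 76) (nat_lit 5123089449) (nat_lit 0) (nat_lit 16803616483) (nat_lit 836) (nat_lit 259517706137) (nat_lit 98) (nat_lit 5) (nat_lit 97) (nat_lit 5) (nat_lit 108) (nat_lit 5) (nat_lit 356) (nat_lit 354) (nat_lit 190)) (XT.nd (nat_lit 78) (nat_lit 0) (nat_lit 76) (XT.lf (nat_lit 0) (nat_lit 36401151249) (nat_lit 760) (nat_lit 64312686913) (nat_lit 836) (nat_lit 192176551947) (nat_lit 98) (nat_lit 5) (nat_lit 108) (nat_lit 5) (nat_lit 109) (nat_lit 5) (nat_lit 357) (nat_lit 354) (nat_lit 189)) (XT.lf (nat_lit 0) (nat_lit 56760923881) (nat_lit 760) (nat_lit 137090168483) (nat_lit 836) (nat_lit 111164585599) (nat_lit 99) (nat_lit 5) (nat_lit 109) (nat_lit 5) (nat_lit 110) (nat_lit 5) (nat_lit 358) (nat_lit 354) (nat_lit 188)))) (XT.nd (nat_lit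 78) (nat_lit 0) (nat_lit 0) (XT.lf (nat_lit 0) (nat_lit 83553640146) (nat_lit 760) (nat_lit 213605475954) (nat_lit 836) (nat_lit 20711664800) (nat_lit 100) (nat_lit 5) (nat_lit 110) (nat_lit 5) (nat_lit 111) (nat_lit 5) (nat_lit 359) (nat_lit 354) (nat_lit 187)) (XT.nd (nat_lit 78) (nat_lit 0) (nat_lit 76) (XT.lf (nat_lit 76) (nat_lit 36035200645) (nat_lit 0) (nat_lit 82712927624) (nat_lit 836) (nat_lit 212693246209) (nat_lit 101) (nat_lit 5) (nat_lit 100) (nat_lit 5) (nat_lit 111) (nat_lit 5) (nat_lit 360) (nat_lit 354) (nat_lit 186)) (XT.lf (nat_lit 0) (nat_lit 162864514143) (nat_lit 760) (nat_lit 35022321745) (nat_lit 76) (nat_lit 147905462843) (nat_lit 101) (nat_lit 5) (nat_lit 111) (nat_lit 5) (nat_lit 102) (nat_lit 5) (nat_lit 361) (nat_lit 354) (nat_lit 185))))))) (XT.nd (nat_lit 858) (nat_lit 1672) (nat_lit 0) (XT.nd (nat_lit 390) (nat_lit 1444) (nat_lit 0) (XT.nd (nat_lit 156)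 (nat_lit 760) (nat_lit 0) (XT.nd (nat_lit 78) (nat_lit 380) (nat_lit 0) (XT.lf (nat_lit 0) (nat_lit 216431426617) (nat_lit 836) (nat_lit 108710851506) (nat_lit 76) (nat_lit 35852958129) (nat_lit 91) (nat_lit 5) (nat_lit 102) (nat_lit 5) (nat_lit 92) (nat_lit 5) (nat_lit 362) (nat_lit 354) (nat_lit 184)) (XT.lf (nat_lit 0) (nat_lit 189149502686) (nat_lit 380) (nat_lit 92044054980) (nat_lit 456) (nat_lit 95875357937) (nat_lit 86) (nat_lit 5) (nat_lit 91) (nat_lit 5) (nat_lit 92) (nat_lit 5) (nat_lit 363) (nat_lit 354) (nat_lit 183))) (XT.nd (nat_lit 78) (nat_lit 456) (nat_lit 0) (XT.lf (nat_lit 0) (nat_lit 121759444913) (nat_lit 304) (nat_lit 235696249577) (nat_lit 380) (nat_lit 36656843146) (nat_lit 82) (nat_lit 5) (nat_lit 86) (nat_lit 5) (nat_lit 87) (nat_lit 5) (nat_lit 364) (nat_lit 354) (nat_lit 182)) (XT.nd (nat_lit 78) (nat_lit 0) (nat_lit 0) (XT.lf (nat_lit 0) (nat_lit 32369136439)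 (nat_lit 456) (nat_lit 362357126279) (nat_lit 76) (nat_lit 17474889637) (nat_lit 76) (nat_lit 5) (nat_lit 82) (nat_lit 5) (nat_lit 77) (nat_lit 5) (nat_lit 365) (nat_lit 354) (nat_lit 181)) (XT.lf (nat_lit 0) (nat_lit 114446269463) (nat_lit 456) (nat_lit 28627320418) (nat_lit 76) (nat_lit 288192552244) (nat_lit 76) (nat_lit 5) (nat_lit 82) (nat_lit 5) (nat_lit 77) (nat_lit 5) (nat_lit 366) (nat_lit 354) (nat_lit 180))))) (XT.nd (nat_lit 234) (nat_lit 608) (nat_lit 0) (XT.nd (nat_lit 78) (nat_lit 532) (nat_lit 0) (XT.lf (nat_lit 0) (nat_lit 210538404181) (nat_lit 380) (nat_lit 110914405723) (nat_lit 76) (nat_lit 130031079694) (nat_lit 72) (nat_lit 5) (nat_lit 77) (nat_lit 5) (nat_lit 73) (nat_lit 5) (nat_lit 367) (nat_lit 354) (nat_lit 179)) (XT.nd (nat_lit 78) (nat_lit 228) (nat_lit 0) (XT.lf (nat_lit 0) (nat_lit 273358628639) (nat_lit 304) (nat_lit 48146435528) (nat_lit 380) (nat_lit 151454635046)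 (nat_lit 68) (nat_lit 5) (nat_lit 72) (nat_lit 5) (nat_lit 73) (nat_lit 5) (nat_lit 368) (nat_lit 354) (nat_lit 178)) (XT.lf (nat_lit 0) (nat_lit 198749998139) (nat_lit 228) (nat_lit 251522514963) (nat_lit 304) (nat_lit 45434887751) (nat_lit 65) (nat_lit 5) (nat_lit 68) (nat_lit 5) (nat_lit 69) (nat_lit 5) (nat_lit 369) (nat_lit 354) (nat_lit 177)))) (XT.nd (nat_lit 78) (nat_lit 228) (nat_lit 0) (XT.lf (nat_lit 0) (nat_lit 73740188326) (nat_lit 380) (nat_lit 402791364097) (nat_lit 76) (nat_lit 43345234906) (nat_lit 60) (nat_lit 5) (nat_lit 65) (nat_lit 5) (nat_lit 61) (nat_lit 5) (nat_lit 370) (nat_lit 354) (nat_lit 176)) (XT.nd (nat_lit 78) (nat_lit 0) (nat_lit 0) (XT.lf (nat_lit 0) (nat_lit 24837683954) (nat_lit 228) (nat_lit 185927514531) (nat_lit 304) (nat_lit 334681897321) (nat_lit 57) (nat_lit 5) (nat_lit 60) (nat_lit 5) (nat_lit 61) (nat_lit 5) (nat_lit 371) (nat_lit 354) (nat_lit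 175)) (XT.lf (nat_lit 0) (nat_lit 367880808478) (nat_lit 304) (nat_lit 73763968614) (nat_lit 76) (nat_lit 130961821967) (nat_lit 57) (nat_lit 5) (nat_lit 61) (nat_lit 5) (nat_lit 58) (nat_lit 5) (nat_lit 372) (nat_lit 354) (nat_lit 174)))))) (XT.nd (nat_lit 390) (nat_lit 760) (nat_lit 0) (XT.nd (nat_lit 156) (nat_lit 456) (nat_lit 0) (XT.nd (nat_lit 78) (nat_lit 228) (nat_lit 0) (XT.lf (nat_lit 0) (nat_lit 419108037009) (nat_lit 228) (nat_lit 128136108398) (nat_lit 304) (nat_lit 54210793302) (nat_lit 54) (nat_lit 5) (nat_lit 57) (nat_lit 5) (nat_lit 58) (nat_lit 5) (nat_lit 373) (nat_lit 354) (nat_lit 173)) (XT.lf (nat_lit 0) (nat_lit 114760881091) (nat_lit 228) (nat_lit 305265043498) (nat_lit 76) (nat_lit 212006481869) (nat_lit 51) (nat_lit 5) (nat_lit 54) (nat_lit 5) (nat_lit 52) (nat_lit 5) (nat_lit 374) (nat_lit 354) (nat_lit 172))) (XT.nd (nat_lit 78) (nat_lit 228) (nat_lit 0) (XT.lf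 (nat_lit 0) (nat_lit 222210341984) (nat_lit 228) (nat_lit 82024382511) (nat_lit 304) (nat_lit 360332726233) (nat_lit 48) (nat_lit 5) (nat_lit 51) (nat_lit 5) (nat_lit 52) (nat_lit 5) (nat_lit 375) (nat_lit 354) (nat_lit 171)) (XT.nd (nat_lit 78) (nat_lit 76) (nat_lit 0) (XT.lf (nat_lit 0) (nat_lit 102107394184) (nat_lit 152) (nat_lit 418176605097) (nat_lit 228) (nat_lit 178850423095) (nat_lit 46) (nat_lit 5) (nat_lit 48) (nat_lit 5) (nat_lit 49) (nat_lit 5) (nat_lit 376) (nat_lit 354) (nat_lit 170)) (XT.lf (nat_lit 0) (nat_lit 25816476980) (nat_lit 228) (nat_lit 31933219866) (nat_lit 76) (nat_lit 678242919867) (nat_lit 45) (nat_lit 5) (nat_lit 48) (nat_lit 5) (nat_lit 46) (nat_lit 5) (nat_lit 377) (nat_lit 354) (nat_lit 169))))) (XT.nd (nat_lit 45084) (nat_lit 0) (nat_lit 4636) (XT.nd (nat_lit 78) (nat_lit 532) (nat_lit 0) (XT.lf (nat_lit 0) (nat_lit 255331676961) (nat_lit 304) (nat_lit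 186186043372) (nat_lit 76) (nat_lit 333398097810) (nat_lit 42) (nat_lit 5) (nat_lit 46) (nat_lit 5) (nat_lit 43) (nat_lit 5) (nat_lit 378) (nat_lit 354) (nat_lit 168)) (XT.nd (nat_lit 156) (nat_lit 380) (nat_lit 0) (XT.lf (nat_lit 0) (nat_lit 456901839657) (nat_lit 152) (nat_lit 54978874124) (nat_lit 228) (nat_lit 304638530890) (nat_lit 40) (nat_lit 5) (nat_lit 42) (nat_lit 5) (nat_lit 43) (nat_lit 5) (nat_lit 379) (nat_lit 354) (nat_lit 167)) (XT.lf (nat_lit 0) (nat_lit 117955751321) (nat_lit 152) (nat_lit 92549982592) (nat_lit 228) (nat_lit 697432603769) (nat_lit 35) (nat_lit 5) (nat_lit 37) (nat_lit 5) (nat_lit 38) (nat_lit 5) (nat_lit 381) (nat_lit 354) (nat_lit 165)))) (XT.nd (nat_lit 78) (nat_lit 0) (nat_lit 76) (XT.lf (nat_lit 0) (nat_lit 6499741969) (nat_lit 836) (nat_lit 67014151160) (nat_lit 836) (nat_lit 67014151160) (nat_lit 96) (nat_lit 3) (nat_lit 107) (nat_lit 3) (nat_lit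 107) (nat_lit 5) (nat_lit 355) (nat_lit 355) (nat_lit 190)) (XT.nd (nat_lit 78) (nat_lit 0) (nat_lit 0) (XT.lf (nat_lit 0) (nat_lit 15761711104) (nat_lit 760) (nat_lit 214095748380) (nat_lit 836) (nat_lit 62328758685) (nat_lit 97) (nat_lit 5) (nat_lit 107) (nat_lit 5) (nat_lit 108) (nat_lit 5) (nat_lit 356) (nat_lit 355) (nat_lit 189)) (XT.lf (nat_lit 76) (nat_lit 5534458434) (nat_lit 0) (nat_lit 18148857982) (nat_lit 836) (nat_lit 280276521868) (nat_lit 98) (nat_lit 5) (nat_lit 97) (nat_lit 5) (nat_lit 108) (nat_lit 5) (nat_lit 357) (nat_lit 355) (nat_lit 188))))))))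
noncomputable def xc122 : XT := (XT.nd (nat_lit 1794) (nat_lit 304) (nat_lit 0) (XT.nd (nat_lit 858) (nat_lit 2280) (nat_lit 0) (XT.nd (nat_lit 390) (nat_lit 1976) (nat_lit 0) (XT.nd (nat_lit 156) (nat_lit 0) (nat_lit 152) (XT.nd (nat_lit 78) (nat_lit 0) (nat_lit 76) (XT.lf (nat_lit 0) (nat_lit 39315520333) (nat_lit 760) (nat_lit 69456161638) (nat_lit 836) (nat_lit 207549822673) (nat_lit 98) (nat_lit 5) (nat_lit 108) (nat_lit 5) (nat_lit 109) (nat_lit 5) (nat_lit 358) (nat_lit 355) (nat_lit 187)) (XT.lf (nat_lit 0) (nat_lit 61303918839) (nat_lit 760) (nat_lit 148055789215) (nat_lit 836) (nat_lit 120057115479) (nat_lit 99) (nat_lit 5) (nat_lit 109) (nat_lit 5) (nat_lit 110) (nat_lit 5) (nat_lit 359) (nat_lit 355) (nat_lit 186))) (XT.nd (nat_lit 78) (nat_lit 0) (nat_lit 0) (XT.lf (nat_lit 0) (nat_lit 90239911829) (nat_lit 760) (nat_lit 230692281448) (nat_lit 836) (nat_lit 22368148650) (nat_lit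 100) (nat_lit 5) (nat_lit 110) (nat_lit 5) (nat_lit 111) (nat_lit 5) (nat_lit 360) (nat_lit 355) (nat_lit 185)) (XT.nd (nat_lit 78) (nat_lit 0) (nat_lit 76) (XT.lf (nat_lit 76) (nat_lit 38919578329) (nat_lit 0) (nat_lit 89330258353) (nat_lit 836) (nat_lit 229706752604) (nat_lit 101) (nat_lit 5) (nat_lit 100) (nat_lit 5) (nat_lit 111) (nat_lit 5) (nat_lit 361) (nat_lit 355) (nat_lit 184)) (XT.lf (nat_lit 0) (nat_lit 175895391499) (nat_lit 760) (nat_lit 37822569140) (nat_lit 76) (nat_lit 159737634102) (nat_lit 101) (nat_lit 5) (nat_lit 111) (nat_lit 5) (nat_lit 102) (nat_lit 5) (nat_lit 362) (nat_lit 355) (nat_lit 183))))) (XT.nd (nat_lit 234) (nat_lit 760) (nat_lit 0) (XT.nd (nat_lit 78) (nat_lit 684) (nat_lit 0) (XT.lf (nat_lit 0) (nat_lit 233747550622) (nat_lit 836) (nat_lit 117406163417) (nat_lit 76) (nat_lit 38721058697) (nat_lit 91) (nat_lit 5) (nat_lit 102) (nat_lit 5) (nat_lit 92)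 (nat_lit 5) (nat_lit 363) (nat_lit 355) (nat_lit 182)) (XT.nd (nat_lit 78) (nat_lit 304) (nat_lit 0) (XT.lf (nat_lit 0) (nat_lit 204282951480) (nat_lit 380) (nat_lit 99407604666) (nat_lit 456) (nat_lit 103543795232) (nat_lit 86) (nat_lit 5) (nat_lit 91) (nat_lit 5) (nat_lit 92) (nat_lit 5) (nat_lit 364) (nat_lit 355) (nat_lit 181)) (XT.lf (nat_lit 0) (nat_lit 131501698877) (nat_lit 304) (nat_lit 254551875928) (nat_lit 380) (nat_lit 39587892956) (nat_lit 82) (nat_lit 5) (nat_lit 86) (nat_lit 5) (nat_lit 87) (nat_lit 5) (nat_lit 365) (nat_lit 355) (nat_lit 180)))) (XT.nd (nat_lit 78) (nat_lit 304) (nat_lit 0) (XT.lf (nat_lit 0) (nat_lit 34960034592) (nat_lit 456) (nat_lit 391344147848) (nat_lit 76) (nat_lit 18872992289) (nat_lit 76) (nat_lit 5) (nat_lit 82) (nat_lit 5) (nat_lit 77) (nat_lit 5) (nat_lit 366) (nat_lit 355) (nat_lit 179)) (XT.nd (nat_lit 78) (nat_lit 304) (nat_lit 0) (XT.lf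 (nat_lit 0) (nat_lit 123603236980) (nat_lit 456) (nat_lit 30916072224) (nat_lit 76) (nat_lit 311248059646) (nat_lit 76) (nat_lit 5) (nat_lit 82) (nat_lit 5) (nat_lit 77) (nat_lit 5) (nat_lit 367) (nat_lit 355) (nat_lit 178)) (XT.lf (nat_lit 0) (nat_lit 227382672892) (nat_lit 380) (nat_lit 119786128518) (nat_lit 76) (nat_lit 140433738291) (nat_lit 72) (nat_lit 5) (nat_lit 77) (nat_lit 5) (nat_lit 73) (nat_lit 5) (nat_lit 368) (nat_lit 355) (nat_lit 177)))))) (XT.nd (nat_lit 390) (nat_lit 1140) (nat_lit 0) (XT.nd (nat_lit 156) (nat_lit 608) (nat_lit 0) (XT.nd (nat_lit 78) (nat_lit 228) (nat_lit 0) (XT.lf (nat_lit 0) (nat_lit 295228686461) (nat_lit 304) (nat_lit 51997911946) (nat_lit 380) (nat_lit 163569819134) (nat_lit 68) (nat_lit 5) (nat_lit 72) (nat_lit 5) (nat_lit 73) (nat_lit 5) (nat_lit 369) (nat_lit 355) (nat_lit 176)) (XT.lf (nat_lit 0) (nat_lit 214651357635) (nat_lit 228) (nat_lit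 271644026659) (nat_lit 304) (nat_lit 49068554052) (nat_lit 65) (nat_lit 5) (nat_lit 68) (nat_lit 5) (nat_lit 69) (nat_lit 5) (nat_lit 370) (nat_lit 355) (nat_lit 175))) (XT.nd (nat_lit 78) (nat_lit 228) (nat_lit 0) (XT.lf (nat_lit 0) (nat_lit 79640437119) (nat_lit 380) (nat_lit 435013289667) (nat_lit 76) (nat_lit 46813150901) (nat_lit 60) (nat_lit 5) (nat_lit 65) (nat_lit 5) (nat_lit 61) (nat_lit 5) (nat_lit 371) (nat_lit 355) (nat_lit 174)) (XT.nd (nat_lit 78) (nat_lit 0) (nat_lit 0) (XT.lf (nat_lit 0) (nat_lit 26826022101) (nat_lit 228) (nat_lit 200801370081) (nat_lit 304) (nat_lit 361455421526) (nat_lit 57) (nat_lit 5) (nat_lit 60) (nat_lit 5) (nat_lit 61) (nat_lit 5) (nat_lit 372) (nat_lit 355) (nat_lit 173)) (XT.lf (nat_lit 0) (nat_lit 397312183538) (nat_lit 304) (nat_lit 79663819625) (nat_lit 76) (nat_lit 141439077494) (nat_lit 57) (nat_lit 5) (nat_lit 61) (nat_lit 5) (nat_lit 58)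 (nat_lit 5) (nat_lit 373) (nat_lit 355) (nat_lit 172))))) (XT.nd (nat_lit 234) (nat_lit 456) (nat_lit 0) (XT.nd (nat_lit 78) (nat_lit 456) (nat_lit 0) (XT.lf (nat_lit 0) (nat_lit 452637891409) (nat_lit 228) (nat_lit 138386647492) (nat_lit 304) (nat_lit 58546751065) (nat_lit 54) (nat_lit 5) (nat_lit 57) (nat_lit 5) (nat_lit 58) (nat_lit 5) (nat_lit 374) (nat_lit 355) (nat_lit 171)) (XT.nd (nat_lit 78) (nat_lit 228) (nat_lit 0) (XT.lf (nat_lit 0) (nat_lit 123942587458) (nat_lit 228) (nat_lit 329685023174) (nat_lit 76) (nat_lit 228967345890) (nat_lit 51) (nat_lit 5) (nat_lit 54) (nat_lit 5) (nat_lit 52) (nat_lit 5) (nat_lit 375) (nat_lit 355) (nat_lit 170)) (XT.lf (nat_lit 0) (nat_lit 239988339961) (nat_lit 228) (nat_lit 88585954732) (nat_lit 304) (nat_lit 389158511870) (nat_lit 48) (nat_lit 5) (nat_lit 51) (nat_lit 5) (nat_lit 52) (nat_lit 5) (nat_lit 376) (nat_lit 355) (nat_lit 169)))) (XT.nd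 (nat_lit 78) (nat_lit 304) (nat_lit 0) (XT.lf (nat_lit 0) (nat_lit 110277138288) (nat_lit 152) (nat_lit 451630337956) (nat_lit 228) (nat_lit 193157661506) (nat_lit 46) (nat_lit 5) (nat_lit 48) (nat_lit 5) (nat_lit 49) (nat_lit 5) (nat_lit 377) (nat_lit 355) (nat_lit 168)) (XT.nd (nat_lit 78) (nat_lit 228) (nat_lit 0) (XT.lf (nat_lit 0) (nat_lit 27882508080) (nat_lit 228) (nat_lit 34486786190) (nat_lit 76) (nat_lit 732502695635) (nat_lit 45) (nat_lit 5) (nat_lit 48) (nat_lit 5) (nat_lit 46) (nat_lit 5) (nat_lit 378) (nat_lit 355) (nat_lit 167)) (XT.lf (nat_lit 0) (nat_lit 275758893282) (nat_lit 304) (nat_lit 201079854456) (nat_lit 76) (nat_lit 360070301287) (nat_lit 42) (nat_lit 5) (nat_lit 46) (nat_lit 5) (nat_lit 43) (nat_lit 5) (nat_lit 379) (nat_lit 355) (nat_lit 166))))))) (XT.nd (nat_lit 45708) (nat_lit 0) (nat_lit 988) (XT.nd (nat_lit 45240) (nat_lit 0) (nat_lit 3648) (XT.nd (nat_lit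 45006) (nat_lit 0) (nat_lit 4484) (XT.nd (nat_lit 44928) (nat_lit 0) (nat_lit 4408) (XT.lf (nat_lit 0) (nat_lit 324766254626) (nat_lit 152) (nat_lit 542047038464) (nat_lit 228) (nat_lit 62816561202) (nat_lit 38) (nat_lit 5) (nat_lit 40) (nat_lit 5) (nat_lit 41) (nat_lit 5) (nat_lit 381) (nat_lit 355) (nat_lit 164)) (XT.lf (nat_lit 0) (nat_lit 7020944970) (nat_lit 836) (nat_lit 72374640077) (nat_lit 836) (nat_lit 72374640077) (nat_lit 96) (nat_lit 3) (nat_lit 107) (nat_lit 3) (nat_lit 107) (nat_lit 5) (nat_lit 356) (nat_lit 356) (nat_lit 188))) (XT.nd (nat_lit 78) (nat_lit 0) (nat_lit 0) (XT.lf (nat_lit 0) (nat_lit 17024916742) (nat_lit 760) (nat_lit 231222044250) (nat_lit 836) (nat_lit 67314038369) (nat_lit 97) (nat_lit 5) (nat_lit 107) (nat_lit 5) (nat_lit 108) (nat_lit 5) (nat_lit 357) (nat_lit 356) (nat_lit 187)) (XT.nd (nat_lit 78) (nat_lit 0) (nat_lit 76) (XT.lf (nat_lit 76) (nat_lit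 5978519832) (nat_lit 0) (nat_lit 19601582961) (nat_lit 836) (nat_lit 302696413885) (nat_lit 98) (nat_lit 5) (nat_lit 97) (nat_lit 5) (nat_lit 108) (nat_lit 5) (nat_lit 358) (nat_lit 356) (nat_lit 186)) (XT.lf (nat_lit 0) (nat_lit 42462714106) (nat_lit 760) (nat_lit 75011334072) (nat_lit 836) (nat_lit 224153076808) (nat_lit 98) (nat_lit 5) (nat_lit 108) (nat_lit 5) (nat_lit 109) (nat_lit 5) (nat_lit 359) (nat_lit 356) (nat_lit 185))))) (XT.nd (nat_lit 234) (nat_lit 988) (nat_lit 0) (XT.nd (nat_lit 78) (nat_lit 0) (nat_lit 76) (XT.lf (nat_lit 0) (nat_lit 66210050802) (nat_lit 760) (nat_lit 159898886829) (nat_lit 836) (nat_lit 129661138619) (nat_lit 99) (nat_lit 5) (nat_lit 109) (nat_lit 5) (nat_lit 110) (nat_lit 5) (nat_lit 360) (nat_lit 356) (nat_lit 184)) (XT.nd (nat_lit 78) (nat_lit 0) (nat_lit 0) (XT.lf (nat_lit 0) (nat_lit 97460802711) (nat_lit 760) (nat_lit 249146264288) (nat_lit 836)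 (nat_lit 24157215309) (nat_lit 100) (nat_lit 5) (nat_lit 110) (nat_lit 5) (nat_lit 111) (nat_lit 5) (nat_lit 361) (nat_lit 356) (nat_lit 183)) (XT.lf (nat_lit 76) (nat_lit 42034483443) (nat_lit 0) (nat_lit 96476933239) (nat_lit 836) (nat_lit 248081618171) (nat_lit 101) (nat_lit 5) (nat_lit 100) (nat_lit 5) (nat_lit 111) (nat_lit 5) (nat_lit 362) (nat_lit 356) (nat_lit 182)))) (XT.nd (nat_lit 78) (nat_lit 1140) (nat_lit 0) (XT.lf (nat_lit 0) (nat_lit 189968494204) (nat_lit 760) (nat_lit 40847055790) (nat_lit 76) (nat_lit 172516416978) (nat_lit 101) (nat_lit 5) (nat_lit 111) (nat_lit 5) (nat_lit 102) (nat_lit 5) (nat_lit 363) (nat_lit 356) (nat_lit 181)) (XT.nd (nat_lit 78) (nat_lit 380) (nat_lit 0) (XT.lf (nat_lit 0) (nat_lit 252448734881) (nat_lit 836) (nat_lit 126797322291) (nat_lit 76) (nat_lit 41818626725) (nat_lit 91) (nat_lit 5) (nat_lit 102) (nat_lit 5) (nat_lit 92) (nat_lit 5) (nat_lit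 364) (nat_lit 356) (nat_lit 180)) (XT.lf (nat_lit 0) (nat_lit 220626863815) (nat_lit 380) (nat_lit 107360234719) (nat_lit 456) (nat_lit 111825934533) (nat_lit 86) (nat_lit 5) (nat_lit 91) (nat_lit 5) (nat_lit 92) (nat_lit 5) (nat_lit 365) (nat_lit 356) (nat_lit 179)))))) (XT.nd (nat_lit 390) (nat_lit 1292) (nat_lit 0) (XT.nd (nat_lit 156) (nat_lit 608) (nat_lit 0) (XT.nd (nat_lit 78) (nat_lit 456) (nat_lit 0) (XT.lf (nat_lit 0) (nat_lit 142023119399) (nat_lit 304) (nat_lit 274915962890) (nat_lit 380) (nat_lit 42753640405) (nat_lit 82) (nat_lit 5) (nat_lit 86) (nat_lit 5) (nat_lit 87) (nat_lit 5) (nat_lit 366) (nat_lit 356) (nat_lit 178)) (XT.lf (nat_lit 0) (nat_lit 37758009544) (nat_lit 456) (nat_lit 422650352058) (nat_lit 76) (nat_lit 20382927249) (nat_lit 76) (nat_lit 5) (nat_lit 82) (nat_lit 5) (nat_lit 77) (nat_lit 5) (nat_lit 367) (nat_lit 356) (nat_lit 177))) (XT.nd (nat_lit 78) (nat_lit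 608) (nat_lit 0) (XT.lf (nat_lit 0) (nat_lit 133492581295) (nat_lit 456) (nat_lit 33388128727) (nat_lit 76) (nat_lit 336147992915) (nat_lit 76) (nat_lit 5) (nat_lit 82) (nat_lit 5) (nat_lit 77) (nat_lit 5) (nat_lit 368) (nat_lit 356) (nat_lit 176)) (XT.nd (nat_lit 78) (nat_lit 304) (nat_lit 0) (XT.lf (nat_lit 0) (nat_lit 245574312423) (nat_lit 380) (nat_lit 129367793094) (nat_lit 76) (nat_lit 151668585007) (nat_lit 72) (nat_lit 5) (nat_lit 77) (nat_lit 5) (nat_lit 73) (nat_lit 5) (nat_lit 369) (nat_lit 356) (nat_lit 175)) (XT.lf (nat_lit 0) (nat_lit 318848153816) (nat_lit 304) (nat_lit 56157540491) (nat_lit 380) (nat_lit 176654387247) (nat_lit 68) (nat_lit 5) (nat_lit 72) (nat_lit 5) (nat_lit 73) (nat_lit 5) (nat_lit 370) (nat_lit 356) (nat_lit 174))))) (XT.nd (nat_lit 234) (nat_lit 456) (nat_lit 0) (XT.nd (nat_lit 78) (nat_lit 608) (nat_lit 0) (XT.lf (nat_lit 0) (nat_lit 231824631922)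 (nat_lit 228) (nat_lit 293375300592) (nat_lit 304) (nat_lit 52993074111) (nat_lit 65) (nat_lit 5) (nat_lit 68) (nat_lit 5) (nat_lit 69) (nat_lit 5) (nat_lit 371) (nat_lit 356) (nat_lit 173)) (XT.nd (nat_lit 78) (nat_lit 228) (nat_lit 0) (XT.lf (nat_lit 0) (nat_lit 86012558343) (nat_lit 380) (nat_lit 469813166663) (nat_lit 76) (nat_lit 50558457776) (nat_lit 60) (nat_lit 5) (nat_lit 65) (nat_lit 5) (nat_lit 61) (nat_lit 5) (nat_lit 372) (nat_lit 356) (nat_lit 172)) (XT.lf (nat_lit 0) (nat_lit 28973238497) (nat_lit 228) (nat_lit 216865183380) (nat_lit 304) (nat_lit 390370974264) (nat_lit 57) (nat_lit 5) (nat_lit 60) (nat_lit 5) (nat_lit 61) (nat_lit 5) (nat_lit 373) (nat_lit 356) (nat_lit 171)))) (XT.nd (nat_lit 78) (nat_lit 456) (nat_lit 0) (XT.lf (nat_lit 0) (nat_lit 429097938728) (nat_lit 304) (nat_lit 86035839393) (nat_lit 76) (nat_lit 152754469271) (nat_lit 57) (nat_lit 5) (nat_lit 61)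 (nat_lit 5) (nat_lit 58) (nat_lit 5) (nat_lit 374) (nat_lit 356) (nat_lit 170)) (XT.nd (nat_lit 78) (nat_lit 228) (nat_lit 0) (XT.lf (nat_lit 0) (nat_lit 488849961336) (nat_lit 228) (nat_lit 149457279584) (nat_lit 304) (nat_lit 63229714657) (nat_lit 54) (nat_lit 5) (nat_lit 57) (nat_lit 5) (nat_lit 58) (nat_lit 5) (nat_lit 375) (nat_lit 356) (nat_lit 169)) (XT.lf (nat_lit 0) (nat_lit 133858711086) (nat_lit 228) (nat_lit 356058775814) (nat_lit 76) (nat_lit 247285029747) (nat_lit 51) (nat_lit 5) (nat_lit 54) (nat_lit 5) (nat_lit 52) (nat_lit 5) (nat_lit 376) (nat_lit 356) (nat_lit 168))))))))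
noncomputable def xc123 : XT := (XT.nd (nat_lit 46722) (nat_lit 0) (nat_lit 152) (XT.nd (nat_lit 45864) (nat_lit 0) (nat_lit 1292) (XT.nd (nat_lit 45396) (nat_lit 0) (nat_lit 4332) (XT.nd (nat_lit 156) (nat_lit 456) (nat_lit 0) (XT.nd (nat_lit 78) (nat_lit 152) (nat_lit 0) (XT.lf (nat_lit 0) (nat_lit 259188410775) (nat_lit 228) (nat_lit 95672506710) (nat_lit 304) (nat_lit 420290479118) (nat_lit 48) (nat_lit 5) (nat_lit 51) (nat_lit 5) (nat_lit 52) (nat_lit 5) (nat_lit 377) (nat_lit 356) (nat_lit 167)) (XT.lf (nat_lit 0) (nat_lit 119100297493) (nat_lit 152) (nat_lit 487760425872) (nat_lit 228) (nat_lit 208609592469) (nat_lit 46) (nat_lit 5) (nat_lit 48) (nat_lit 5) (nat_lit 49) (nat_lit 5) (nat_lit 378) (nat_lit 356) (nat_lit 166))) (XT.nd (nat_lit 156) (nat_lit 380) (nat_lit 0) (XT.lf (nat_lit 0) (nat_lit 30113719959) (nat_lit 228) (nat_lit 37244793502) (nat_lit 76) (nat_lit 791103204648)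 (nat_lit 45) (nat_lit 5) (nat_lit 48) (nat_lit 5) (nat_lit 46) (nat_lit 5) (nat_lit 379) (nat_lit 356) (nat_lit 165)) (XT.nd (nat_lit 45006) (nat_lit 0) (nat_lit 4256) (XT.lf (nat_lit 0) (nat_lit 532932293063) (nat_lit 152) (nat_lit 64126626207) (nat_lit 228) (nat_lit 355329064150) (nat_lit 40) (nat_lit 5) (nat_lit 42) (nat_lit 5) (nat_lit 43) (nat_lit 5) (nat_lit 381) (nat_lit 356) (nat_lit 163)) (XT.lf (nat_lit 0) (nat_lit 7583669645) (nat_lit 836) (nat_lit 78164059864) (nat_lit 836) (nat_lit 78164059864) (nat_lit 96) (nat_lit 3) (nat_lit 107) (nat_lit 3) (nat_lit 107) (nat_lit 5) (nat_lit 357) (nat_lit 357) (nat_lit 186))))) (XT.nd (nat_lit 234) (nat_lit 0) (nat_lit 152) (XT.nd (nat_lit 78) (nat_lit 0) (nat_lit 0) (XT.lf (nat_lit 0) (nat_lit 18388855168) (nat_lit 760) (nat_lit 249718638379) (nat_lit 836) (nat_lit 72698286087) (nat_lit 97) (nat_lit 5) (nat_lit 107) (nat_lit 5) (nat_lit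 108) (nat_lit 5) (nat_lit 358) (nat_lit 357) (nat_lit 185)) (XT.nd (nat_lit 78) (nat_lit 0) (nat_lit 76) (XT.lf (nat_lit 76) (nat_lit 6457920008) (nat_lit 0) (nat_lit 21170409479) (nat_lit 836) (nat_lit 326910215359) (nat_lit 98) (nat_lit 5) (nat_lit 97) (nat_lit 5) (nat_lit 108) (nat_lit 5) (nat_lit 359) (nat_lit 357) (nat_lit 184)) (XT.lf (nat_lit 0) (nat_lit 45861404886) (nat_lit 760) (nat_lit 81011108685) (nat_lit 836) (nat_lit 242084695656) (nat_lit 98) (nat_lit 5) (nat_lit 108) (nat_lit 5) (nat_lit 109) (nat_lit 5) (nat_lit 360) (nat_lit 357) (nat_lit 183)))) (XT.nd (nat_lit 78) (nat_lit 0) (nat_lit 76) (XT.lf (nat_lit 0) (nat_lit 71508413899) (nat_lit 760) (nat_lit 172689627060) (nat_lit 836) (nat_lit 140033561518) (nat_lit 99) (nat_lit 5) (nat_lit 109) (nat_lit 5) (nat_lit 110) (nat_lit 5) (nat_lit 361) (nat_lit 357) (nat_lit 182)) (XT.nd (nat_lit 78) (nat_lit 0) (nat_lit 0) (XT.lf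 (nat_lit 0) (nat_lit 105259122634) (nat_lit 760) (nat_lit 269076765434) (nat_lit 836) (nat_lit 26089462260) (nat_lit 100) (nat_lit 5) (nat_lit 110) (nat_lit 5) (nat_lit 111) (nat_lit 5) (nat_lit 362) (nat_lit 357) (nat_lit 181)) (XT.lf (nat_lit 76) (nat_lit 45398389965) (nat_lit 0) (nat_lit 104195305849) (nat_lit 836) (nat_lit 267926711890) (nat_lit 101) (nat_lit 5) (nat_lit 100) (nat_lit 5) (nat_lit 111) (nat_lit 5) (nat_lit 363) (nat_lit 357) (nat_lit 180)))))) (XT.nd (nat_lit 390) (nat_lit 1444) (nat_lit 0) (XT.nd (nat_lit 156) (nat_lit 1140) (nat_lit 0) (XT.nd (nat_lit 78) (nat_lit 760) (nat_lit 0) (XT.lf (nat_lit 0) (nat_lit 205167235217) (nat_lit 760) (nat_lit 44113689524) (nat_lit 76) (nat_lit 186317534989) (nat_lit 101) (nat_lit 5) (nat_lit 111) (nat_lit 5) (nat_lit 102) (nat_lit 5) (nat_lit 364) (nat_lit 357) (nat_lit 179)) (XT.lf (nat_lit 0) (nat_lit 272645816978) (nat_lit 836)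 (nat_lit 136939964214) (nat_lit 76) (nat_lit 45164016839) (nat_lit 91) (nat_lit 5) (nat_lit 102) (nat_lit 5) (nat_lit 92) (nat_lit 5) (nat_lit 365) (nat_lit 357) (nat_lit 178))) (XT.nd (nat_lit 78) (nat_lit 760) (nat_lit 0) (XT.lf (nat_lit 0) (nat_lit 238278107070) (nat_lit 380) (nat_lit 115949072084) (nat_lit 456) (nat_lit 120770839614) (nat_lit 86) (nat_lit 5) (nat_lit 91) (nat_lit 5) (nat_lit 92) (nat_lit 5) (nat_lit 366) (nat_lit 357) (nat_lit 177)) (XT.nd (nat_lit 78) (nat_lit 456) (nat_lit 0) (XT.lf (nat_lit 0) (nat_lit 153386070298) (nat_lit 304) (nat_lit 296909185812) (nat_lit 380) (nat_lit 46172830826) (nat_lit 82) (nat_lit 5) (nat_lit 86) (nat_lit 5) (nat_lit 87) (nat_lit 5) (nat_lit 367) (nat_lit 357) (nat_lit 176)) (XT.lf (nat_lit 0) (nat_lit 40779655268) (nat_lit 456) (nat_lit 456461242005) (nat_lit 76) (nat_lit 22013643370) (nat_lit 76) (nat_lit 5) (nat_lit 82) (nat_lit 5)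 (nat_lit 77) (nat_lit 5) (nat_lit 368) (nat_lit 357) (nat_lit 175))))) (XT.nd (nat_lit 234) (nat_lit 836) (nat_lit 0) (XT.nd (nat_lit 78) (nat_lit 608) (nat_lit 0) (XT.lf (nat_lit 0) (nat_lit 144172918318) (nat_lit 456) (nat_lit 36058125120) (nat_lit 76) (nat_lit 363039908220) (nat_lit 76) (nat_lit 5) (nat_lit 82) (nat_lit 5) (nat_lit 77) (nat_lit 5) (nat_lit 369) (nat_lit 357) (nat_lit 174)) (XT.nd (nat_lit 78) (nat_lit 304) (nat_lit 0) (XT.lf (nat_lit 0) (nat_lit 265221136789) (nat_lit 380) (nat_lit 139716165697) (nat_lit 76) (nat_lit 163802198395) (nat_lit 72) (nat_lit 5) (nat_lit 77) (nat_lit 5) (nat_lit 73) (nat_lit 5) (nat_lit 370) (nat_lit 357) (nat_lit 173)) (XT.lf (nat_lit 0) (nat_lit 344357011297) (nat_lit 304) (nat_lit 60649968482) (nat_lit 380) (nat_lit 190785865955) (nat_lit 68) (nat_lit 5) (nat_lit 72) (nat_lit 5) (nat_lit 73) (nat_lit 5) (nat_lit 371) (nat_lit 357) (nat_lit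 172)))) (XT.nd (nat_lit 78) (nat_lit 608) (nat_lit 0) (XT.lf (nat_lit 0) (nat_lit 250371601855) (nat_lit 228) (nat_lit 316845111848) (nat_lit 304) (nat_lit 57231693337) (nat_lit 65) (nat_lit 5) (nat_lit 68) (nat_lit 5) (nat_lit 69) (nat_lit 5) (nat_lit 372) (nat_lit 357) (nat_lit 171)) (XT.nd (nat_lit 78) (nat_lit 228) (nat_lit 0) (XT.lf (nat_lit 0) (nat_lit 92894322831) (nat_lit 380) (nat_lit 507397203039) (nat_lit 76) (nat_lit 54603352851) (nat_lit 60) (nat_lit 5) (nat_lit 65) (nat_lit 5) (nat_lit 61) (nat_lit 5) (nat_lit 373) (nat_lit 357) (nat_lit 170)) (XT.lf (nat_lit 0) (nat_lit 31292070338) (nat_lit 228) (nat_lit 234214144014) (nat_lit 304) (nat_lit 421599896903) (nat_lit 57) (nat_lit 5) (nat_lit 60) (nat_lit 5) (nat_lit 61) (nat_lit 5) (nat_lit 374) (nat_lit 357) (nat_lit 169))))))) (XT.nd (nat_lit 45942) (nat_lit 0) (nat_lit 1368) (XT.nd (nat_lit 468) (nat_lit 304) (nat_lit 0)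 (XT.nd (nat_lit 156) (nat_lit 608) (nat_lit 0) (XT.nd (nat_lit 78) (nat_lit 228) (nat_lit 0) (XT.lf (nat_lit 0) (nat_lit 463426442984) (nat_lit 304) (nat_lit 92917775645) (nat_lit 76) (nat_lit 164975054503) (nat_lit 57) (nat_lit 5) (nat_lit 61) (nat_lit 5) (nat_lit 58) (nat_lit 5) (nat_lit 375) (nat_lit 357) (nat_lit 168)) (XT.lf (nat_lit 0) (nat_lit 527958848687) (nat_lit 228) (nat_lit 161413605000) (nat_lit 304) (nat_lit 68287426112) (nat_lit 54) (nat_lit 5) (nat_lit 57) (nat_lit 5) (nat_lit 58) (nat_lit 5) (nat_lit 376) (nat_lit 357) (nat_lit 167))) (XT.nd (nat_lit 78) (nat_lit 380) (nat_lit 0) (XT.lf (nat_lit 0) (nat_lit 144568022369) (nat_lit 228) (nat_lit 384542578346) (nat_lit 76) (nat_lit 267068086058) (nat_lit 51) (nat_lit 5) (nat_lit 54) (nat_lit 5) (nat_lit 52) (nat_lit 5) (nat_lit 377) (nat_lit 357) (nat_lit 166)) (XT.nd (nat_lit 78) (nat_lit 152) (nat_lit 0) (XT.lf (nat_lit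 0) (nat_lit 279924344077) (nat_lit 228) (nat_lit 103326029127) (nat_lit 304) (nat_lit 453913105564) (nat_lit 48) (nat_lit 5) (nat_lit 51) (nat_lit 5) (nat_lit 52) (nat_lit 5) (nat_lit 378) (nat_lit 357) (nat_lit 165)) (XT.lf (nat_lit 0) (nat_lit 128629168465) (nat_lit 152) (nat_lit 526780969202) (nat_lit 228) (nat_lit 225297775198) (nat_lit 46) (nat_lit 5) (nat_lit 48) (nat_lit 5) (nat_lit 49) (nat_lit 5) (nat_lit 379) (nat_lit 357) (nat_lit 164))))) (XT.nd (nat_lit 45240) (nat_lit 0) (nat_lit 4180) (XT.nd (nat_lit 45084) (nat_lit 0) (nat_lit 4104) (XT.lf (nat_lit 0) (nat_lit 321646306170) (nat_lit 304) (nat_lit 234537761050) (nat_lit 76) (nat_lit 419986590143) (nat_lit 42) (nat_lit 5) (nat_lit 46) (nat_lit 5) (nat_lit 43) (nat_lit 5) (nat_lit 381) (nat_lit 357) (nat_lit 162)) (XT.nd (nat_lit 78) (nat_lit 0) (nat_lit 76) (XT.lf (nat_lit 0) (nat_lit 8191262631) (nat_lit 836) (nat_lit 84416711900)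 (nat_lit 836) (nat_lit 84416711900) (nat_lit 96) (nat_lit 3) (nat_lit 107) (nat_lit 3) (nat_lit 107) (nat_lit 5) (nat_lit 358) (nat_lit 358) (nat_lit 184)) (XT.lf (nat_lit 0) (nat_lit 19861631180) (nat_lit 760) (nat_lit 269695126868) (nat_lit 836) (nat_lit 78513398501) (nat_lit 97) (nat_lit 5) (nat_lit 107) (nat_lit 5) (nat_lit 108) (nat_lit 5) (nat_lit 359) (nat_lit 358) (nat_lit 183)))) (XT.nd (nat_lit 78) (nat_lit 0) (nat_lit 76) (XT.lf (nat_lit 76) (nat_lit 6975512619) (nat_lit 0) (nat_lit 22864642273) (nat_lit 836) (nat_lit 353061393668) (nat_lit 98) (nat_lit 5) (nat_lit 97) (nat_lit 5) (nat_lit 108) (nat_lit 5) (nat_lit 360) (nat_lit 358) (nat_lit 182)) (XT.nd (nat_lit 78) (nat_lit 0) (nat_lit 76) (XT.lf (nat_lit 0) (nat_lit 49531752164) (nat_lit 760) (nat_lit 87491026775) (nat_lit 836) (nat_lit 261450933502) (nat_lit 98) (nat_lit 5) (nat_lit 108) (nat_lit 5) (nat_lit 109) (nat_lit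 5) (nat_lit 361) (nat_lit 358) (nat_lit 181)) (XT.lf (nat_lit 0) (nat_lit 77230423631) (nat_lit 760) (nat_lit 186503793524) (nat_lit 836) (nat_lit 151235845041) (nat_lit 99) (nat_lit 5) (nat_lit 109) (nat_lit 5) (nat_lit 110) (nat_lit 5) (nat_lit 362) (nat_lit 358) (nat_lit 180)))))) (XT.nd (nat_lit 468) (nat_lit 1672) (nat_lit 0) (XT.nd (nat_lit 234) (nat_lit 1368) (nat_lit 0) (XT.nd (nat_lit 78) (nat_lit 0) (nat_lit 0) (XT.lf (nat_lit 0) (nat_lit 113681100478) (nat_lit 760) (nat_lit 290601877865) (nat_lit 836) (nat_lit 28176336084) (nat_lit 100) (nat_lit 5) (nat_lit 110) (nat_lit 5) (nat_lit 111) (nat_lit 5) (nat_lit 363) (nat_lit 358) (nat_lit 179)) (XT.nd (nat_lit 78) (nat_lit 0) (nat_lit 76) (XT.lf (nat_lit 76) (nat_lit 49031245255) (nat_lit 0) (nat_lit 112531117175) (nat_lit 836) (nat_lit 289359617930) (nat_lit 101) (nat_lit 5) (nat_lit 100) (nat_lit 5) (nat_lit 111) (nat_lit 5) (nat_lit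 364) (nat_lit 358) (nat_lit 178)) (XT.lf (nat_lit 0) (nat_lit 221581695547) (nat_lit 760) (nat_lit 47641815269) (nat_lit 76) (nat_lit 201222770309) (nat_lit 101) (nat_lit 5) (nat_lit 111) (nat_lit 5) (nat_lit 102) (nat_lit 5) (nat_lit 365) (nat_lit 358) (nat_lit 177)))) (XT.nd (nat_lit 78) (nat_lit 684) (nat_lit 0) (XT.lf (nat_lit 0) (nat_lit 294458496831) (nat_lit 836) (nat_lit 147894180674) (nat_lit 76) (nat_lit 48777052431) (nat_lit 91) (nat_lit 5) (nat_lit 102) (nat_lit 5) (nat_lit 92) (nat_lit 5) (nat_lit 366) (nat_lit 358) (nat_lit 176)) (XT.nd (nat_lit 78) (nat_lit 304) (nat_lit 0) (XT.lf (nat_lit 0) (nat_lit 257341293693) (nat_lit 380) (nat_lit 125225013786) (nat_lit 456) (nat_lit 130431503969) (nat_lit 86) (nat_lit 5) (nat_lit 91) (nat_lit 5) (nat_lit 92) (nat_lit 5) (nat_lit 367) (nat_lit 358) (nat_lit 175)) (XT.lf (nat_lit 0) (nat_lit 165657900150) (nat_lit 304) (nat_lit 320661874288)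 (nat_lit 380) (nat_lit 49865713523) (nat_lit 82) (nat_lit 5) (nat_lit 86) (nat_lit 5) (nat_lit 87) (nat_lit 5) (nat_lit 368) (nat_lit 358) (nat_lit 174))))) (XT.nd (nat_lit 234) (nat_lit 912) (nat_lit 0) (XT.nd (nat_lit 78) (nat_lit 304) (nat_lit 0) (XT.lf (nat_lit 0) (nat_lit 44042889281) (nat_lit 456) (nat_lit 492977165527) (nat_lit 76) (nat_lit 23774805092) (nat_lit 76) (nat_lit 5) (nat_lit 82) (nat_lit 5) (nat_lit 77) (nat_lit 5) (nat_lit 369) (nat_lit 358) (nat_lit 173)) (XT.nd (nat_lit 78) (nat_lit 304) (nat_lit 0) (XT.lf (nat_lit 0) (nat_lit 155707549553) (nat_lit 456) (nat_lit 38941871575) (nat_lit 76) (nat_lit 392083165926) (nat_lit 76) (nat_lit 5) (nat_lit 82) (nat_lit 5) (nat_lit 77) (nat_lit 5) (nat_lit 370) (nat_lit 358) (nat_lit 172)) (XT.lf (nat_lit 0) (nat_lit 286439581652) (nat_lit 380) (nat_lit 150892558023) (nat_lit 76) (nat_lit 176906482796) (nat_lit 72) (nat_lit 5)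 (nat_lit 77) (nat_lit 5) (nat_lit 73) (nat_lit 5) (nat_lit 371) (nat_lit 358) (nat_lit 171)))) (XT.nd (nat_lit 78) (nat_lit 608) (nat_lit 0) (XT.lf (nat_lit 0) (nat_lit 371906433978) (nat_lit 304) (nat_lit 65501815712) (nat_lit 380) (nat_lit 206047987399) (nat_lit 68) (nat_lit 5) (nat_lit 72) (nat_lit 5) (nat_lit 73) (nat_lit 5) (nat_lit 372) (nat_lit 358) (nat_lit 170)) (XT.nd (nat_lit 78) (nat_lit 380) (nat_lit 0) (XT.lf (nat_lit 0) (nat_lit 270402186811) (nat_lit 228) (nat_lit 342192538361) (nat_lit 304) (nat_lit 61809520040) (nat_lit 65) (nat_lit 5) (nat_lit 68) (nat_lit 5) (nat_lit 69) (nat_lit 5) (nat_lit 373) (nat_lit 358) (nat_lit 169)) (XT.lf (nat_lit 0) (nat_lit 100326520081) (nat_lit 380) (nat_lit 547988107406) (nat_lit 76) (nat_lit 58971808367) (nat_lit 60) (nat_lit 5) (nat_lit 65) (nat_lit 5) (nat_lit 61) (nat_lit 5) (nat_lit 374) (nat_lit 358) (nat_lit 168))))))))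
noncomputable def xc124 : XT := (XT.nd (nat_lit 46956) (nat_lit 0) (nat_lit 152) (XT.nd (nat_lit 46098) (nat_lit 0) (nat_lit 1064) (XT.nd (nat_lit 45630) (nat_lit 0) (nat_lit 3800) (XT.nd (nat_lit 156) (nat_lit 836) (nat_lit 0) (XT.nd (nat_lit 78) (nat_lit 0) (nat_lit 0) (XT.lf (nat_lit 0) (nat_lit 33796269950) (nat_lit 228) (nat_lit 252951057740) (nat_lit 304) (nat_lit 455327241105) (nat_lit 57) (nat_lit 5) (nat_lit 60) (nat_lit 5) (nat_lit 61) (nat_lit 5) (nat_lit 375) (nat_lit 358) (nat_lit 167)) (XT.lf (nat_lit 0) (nat_lit 500501132118) (nat_lit 304) (nat_lit 100350399600) (nat_lit 76) (nat_lit 178173254071) (nat_lit 57) (nat_lit 5) (nat_lit 61) (nat_lit 5) (nat_lit 58) (nat_lit 5) (nat_lit 376) (nat_lit 358) (nat_lit 166))) (XT.nd (nat_lit 78) (nat_lit 608) (nat_lit 0) (XT.lf (nat_lit 0) (nat_lit 570196319994) (nat_lit 228) (nat_lit 174326473106) (nat_lit 304) (nat_lit 73749849455)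 (nat_lit 54) (nat_lit 5) (nat_lit 57) (nat_lit 5) (nat_lit 58) (nat_lit 5) (nat_lit 377) (nat_lit 358) (nat_lit 165)) (XT.nd (nat_lit 156) (nat_lit 380) (nat_lit 0) (XT.lf (nat_lit 0) (nat_lit 156133990905) (nat_lit 228) (nat_lit 415305213410) (nat_lit 76) (nat_lit 288433750648) (nat_lit 51) (nat_lit 5) (nat_lit 54) (nat_lit 5) (nat_lit 52) (nat_lit 5) (nat_lit 378) (nat_lit 358) (nat_lit 164)) (XT.lf (nat_lit 0) (nat_lit 138920228256) (nat_lit 152) (nat_lit 568923197475) (nat_lit 228) (nat_lit 243321095954) (nat_lit 46) (nat_lit 5) (nat_lit 48) (nat_lit 5) (nat_lit 49) (nat_lit 5) (nat_lit 380) (nat_lit 358) (nat_lit 162))))) (XT.nd (nat_lit 234) (nat_lit 0) (nat_lit 152) (XT.nd (nat_lit 78) (nat_lit 0) (nat_lit 76) (XT.lf (nat_lit 0) (nat_lit 8847334744) (nat_lit 836) (nat_lit 91169643543) (nat_lit 836) (nat_lit 91169643543) (nat_lit 96) (nat_lit 3) (nat_lit 107) (nat_lit 3) (nat_lit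 107) (nat_lit 5) (nat_lit 359) (nat_lit 359) (nat_lit 182)) (XT.nd (nat_lit 78) (nat_lit 0) (nat_lit 0) (XT.lf (nat_lit 0) (nat_lit 21451991371) (nat_lit 760) (nat_lit 291269877465) (nat_lit 836) (nat_lit 84793826971) (nat_lit 97) (nat_lit 5) (nat_lit 107) (nat_lit 5) (nat_lit 108) (nat_lit 5) (nat_lit 360) (nat_lit 359) (nat_lit 181)) (XT.lf (nat_lit 76) (nat_lit 7534375826) (nat_lit 0) (nat_lit 24694328088) (nat_lit 836) (nat_lit 381304900052) (nat_lit 98) (nat_lit 5) (nat_lit 97) (nat_lit 5) (nat_lit 108) (nat_lit 5) (nat_lit 361) (nat_lit 359) (nat_lit 180)))) (XT.nd (nat_lit 78) (nat_lit 0) (nat_lit 76) (XT.lf (nat_lit 0) (nat_lit 53495522520) (nat_lit 760) (nat_lit 94489476780) (nat_lit 836) (nat_lit 282366547101) (nat_lit 98) (nat_lit 5) (nat_lit 108) (nat_lit 5) (nat_lit 109) (nat_lit 5) (nat_lit 362) (nat_lit 359) (nat_lit 179)) (XT.nd (nat_lit 78) (nat_lit 0) (nat_lit 76) (XT.lf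 (nat_lit 0) (nat_lit 83410003457) (nat_lit 760) (nat_lit 201423236495) (nat_lit 836) (nat_lit 163334368510) (nat_lit 99) (nat_lit 5) (nat_lit 109) (nat_lit 5) (nat_lit 110) (nat_lit 5) (nat_lit 363) (nat_lit 359) (nat_lit 178)) (XT.lf (nat_lit 0) (nat_lit 122776658503) (nat_lit 760) (nat_lit 313849146061) (nat_lit 836) (nat_lit 30430200209) (nat_lit 100) (nat_lit 5) (nat_lit 110) (nat_lit 5) (nat_lit 111) (nat_lit 5) (nat_lit 364) (nat_lit 359) (nat_lit 177)))))) (XT.nd (nat_lit 390) (nat_lit 1672) (nat_lit 0) (XT.nd (nat_lit 156) (nat_lit 1368) (nat_lit 0) (XT.nd (nat_lit 78) (nat_lit 0) (nat_lit 76) (XT.lf (nat_lit 76) (nat_lit 52954588577) (nat_lit 0) (nat_lit 121533766749) (nat_lit 836) (nat_lit 312507332057) (nat_lit 101) (nat_lit 5) (nat_lit 100) (nat_lit 5) (nat_lit 111) (nat_lit 5) (nat_lit 365) (nat_lit 359) (nat_lit 176)) (XT.lf (nat_lit 0) (nat_lit 239309158413) (nat_lit 760)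 (nat_lit 51452329371) (nat_lit 76) (nat_lit 217320448348) (nat_lit 101) (nat_lit 5) (nat_lit 111) (nat_lit 5) (nat_lit 102) (nat_lit 5) (nat_lit 366) (nat_lit 359) (nat_lit 175))) (XT.nd (nat_lit 78) (nat_lit 684) (nat_lit 0) (XT.lf (nat_lit 0) (nat_lit 318016046343) (nat_lit 836) (nat_lit 159724874357) (nat_lit 76) (nat_lit 52679143105) (nat_lit 91) (nat_lit 5) (nat_lit 102) (nat_lit 5) (nat_lit 92) (nat_lit 5) (nat_lit 367) (nat_lit 359) (nat_lit 174)) (XT.nd (nat_lit 78) (nat_lit 304) (nat_lit 0) (XT.lf (nat_lit 0) (nat_lit 277929401422) (nat_lit 380) (nat_lit 135243028551) (nat_lit 456) (nat_lit 140865164535) (nat_lit 86) (nat_lit 5) (nat_lit 91) (nat_lit 5) (nat_lit 92) (nat_lit 5) (nat_lit 368) (nat_lit 359) (nat_lit 173)) (XT.lf (nat_lit 0) (nat_lit 178911341686) (nat_lit 304) (nat_lit 346314784459) (nat_lit 380) (nat_lit 53854161476) (nat_lit 82) (nat_lit 5) (nat_lit 86) (nat_lit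 5) (nat_lit 87) (nat_lit 5) (nat_lit 369) (nat_lit 359) (nat_lit 172))))) (XT.nd (nat_lit 234) (nat_lit 912) (nat_lit 0) (XT.nd (nat_lit 78) (nat_lit 304) (nat_lit 0) (XT.lf (nat_lit 0) (nat_lit 47567059099) (nat_lit 456) (nat_lit 532414502145) (nat_lit 76) (nat_lit 25676849729) (nat_lit 76) (nat_lit 5) (nat_lit 82) (nat_lit 5) (nat_lit 77) (nat_lit 5) (nat_lit 370) (nat_lit 359) (nat_lit 171)) (XT.nd (nat_lit 78) (nat_lit 304) (nat_lit 0) (XT.lf (nat_lit 0) (nat_lit 168164837476) (nat_lit 456) (nat_lit 42056446649) (nat_lit 76) (nat_lit 423449874968) (nat_lit 76) (nat_lit 5) (nat_lit 82) (nat_lit 5) (nat_lit 77) (nat_lit 5) (nat_lit 371) (nat_lit 359) (nat_lit 170)) (XT.lf (nat_lit 0) (nat_lit 309355394549) (nat_lit 380) (nat_lit 162963190262) (nat_lit 76) (nat_lit 191059094465) (nat_lit 72) (nat_lit 5) (nat_lit 77) (nat_lit 5) (nat_lit 73) (nat_lit 5) (nat_lit 372) (nat_lit 359) (nat_lit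 169)))) (XT.nd (nat_lit 78) (nat_lit 608) (nat_lit 0) (XT.lf (nat_lit 0) (nat_lit 401659687530) (nat_lit 304) (nat_lit 70741832156) (nat_lit 380) (nat_lit 222531185246) (nat_lit 68) (nat_lit 5) (nat_lit 72) (nat_lit 5) (nat_lit 73) (nat_lit 5) (nat_lit 373) (nat_lit 359) (nat_lit 168)) (XT.nd (nat_lit 78) (nat_lit 380) (nat_lit 0) (XT.lf (nat_lit 0) (nat_lit 292035096329) (nat_lit 228) (nat_lit 369567785022) (nat_lit 304) (nat_lit 66753673993) (nat_lit 65) (nat_lit 5) (nat_lit 68) (nat_lit 5) (nat_lit 69) (nat_lit 5) (nat_lit 374) (nat_lit 359) (nat_lit 167)) (XT.lf (nat_lit 0) (nat_lit 108353200178) (nat_lit 380) (nat_lit 591826408505) (nat_lit 76) (nat_lit 63689713606) (nat_lit 60) (nat_lit 5) (nat_lit 65) (nat_lit 5) (nat_lit 61) (nat_lit 5) (nat_lit 375) (nat_lit 359) (nat_lit 166))))))) (XT.nd (nat_lit 46176) (nat_lit 0) (nat_lit 684) (XT.nd (nat_lit 45708) (nat_lit 0) (nat_lit 3724)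 (XT.nd (nat_lit 156) (nat_lit 684) (nat_lit 0) (XT.nd (nat_lit 78) (nat_lit 0) (nat_lit 0) (XT.lf (nat_lit 0) (nat_lit 36500686554) (nat_lit 228) (nat_lit 273186955636) (nat_lit 304) (nat_lit 491752865224) (nat_lit 57) (nat_lit 5) (nat_lit 60) (nat_lit 5) (nat_lit 61) (nat_lit 5) (nat_lit 376) (nat_lit 359) (nat_lit 165)) (XT.lf (nat_lit 0) (nat_lit 540541714539) (nat_lit 304) (nat_lit 108377747328) (nat_lit 76) (nat_lit 192427281755) (nat_lit 57) (nat_lit 5) (nat_lit 61) (nat_lit 5) (nat_lit 58) (nat_lit 5) (nat_lit 377) (nat_lit 359) (nat_lit 164))) (XT.nd (nat_lit 156) (nat_lit 456) (nat_lit 0) (XT.lf (nat_lit 0) (nat_lit 615812680097) (nat_lit 228) (nat_lit 188272402088) (nat_lit 304) (nat_lit 79649348089) (nat_lit 54) (nat_lit 5) (nat_lit 57) (nat_lit 5) (nat_lit 58) (nat_lit 5) (nat_lit 378) (nat_lit 359) (nat_lit 163)) (XT.nd (nat_lit 45318) (nat_lit 0) (nat_lit 3648) (XT.lf (nat_lit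 0) (nat_lit 326505184084) (nat_lit 228) (nat_lit 120519018428) (nat_lit 304) (nat_lit 529443230017) (nat_lit 48) (nat_lit 5) (nat_lit 51) (nat_lit 5) (nat_lit 52) (nat_lit 5) (nat_lit 380) (nat_lit 359) (nat_lit 161)) (XT.lf (nat_lit 0) (nat_lit 9555782620) (nat_lit 836) (nat_lit 98462867539) (nat_lit 836) (nat_lit 98462867539) (nat_lit 96) (nat_lit 3) (nat_lit 107) (nat_lit 3) (nat_lit 107) (nat_lit 5) (nat_lit 360) (nat_lit 360) (nat_lit 180))))) (XT.nd (nat_lit 234) (nat_lit 0) (nat_lit 152) (XT.nd (nat_lit 78) (nat_lit 0) (nat_lit 0) (XT.lf (nat_lit 0) (nat_lit 23169376416) (nat_lit 760) (nat_lit 314570730735) (nat_lit 836) (nat_lit 91576781509) (nat_lit 97) (nat_lit 5) (nat_lit 107) (nat_lit 5) (nat_lit 108) (nat_lit 5) (nat_lit 361) (nat_lit 360) (nat_lit 179)) (XT.nd (nat_lit 78) (nat_lit 0) (nat_lit 76) (XT.lf (nat_lit 76) (nat_lit 8137830793) (nat_lit 0) (nat_lit 26670315379) (nat_lit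 836) (nat_lit 411808087401) (nat_lit 98) (nat_lit 5) (nat_lit 97) (nat_lit 5) (nat_lit 108) (nat_lit 5) (nat_lit 362) (nat_lit 360) (nat_lit 178)) (XT.lf (nat_lit 0) (nat_lit 57776219006) (nat_lit 760) (nat_lit 102047921499) (nat_lit 836) (nat_lit 304955475566) (nat_lit 98) (nat_lit 5) (nat_lit 108) (nat_lit 5) (nat_lit 109) (nat_lit 5) (nat_lit 363) (nat_lit 360) (nat_lit 177)))) (XT.nd (nat_lit 78) (nat_lit 0) (nat_lit 76) (XT.lf (nat_lit 0) (nat_lit 90083786189) (nat_lit 760) (nat_lit 217536357665) (nat_lit 836) (nat_lit 176400822951) (nat_lit 99) (nat_lit 5) (nat_lit 109) (nat_lit 5) (nat_lit 110) (nat_lit 5) (nat_lit 364) (nat_lit 360) (nat_lit 176)) (XT.nd (nat_lit 78) (nat_lit 0) (nat_lit 0) (XT.lf (nat_lit 0) (nat_lit 132599708525) (nat_lit 760) (nat_lit 338956321545) (nat_lit 836) (nat_lit 32864408097) (nat_lit 100) (nat_lit 5) (nat_lit 110) (nat_lit 5) (nat_lit 111) (nat_lit 5)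 (nat_lit 365) (nat_lit 360) (nat_lit 175)) (XT.lf (nat_lit 76) (nat_lit 57191679001) (nat_lit 0) (nat_lit 131256605435) (nat_lit 836) (nat_lit 337507013865) (nat_lit 101) (nat_lit 5) (nat_lit 100) (nat_lit 5) (nat_lit 111) (nat_lit 5) (nat_lit 366) (nat_lit 360) (nat_lit 174)))))) (XT.nd (nat_lit 390) (nat_lit 1444) (nat_lit 0) (XT.nd (nat_lit 156) (nat_lit 1140) (nat_lit 0) (XT.nd (nat_lit 78) (nat_lit 760) (nat_lit 0) (XT.lf (nat_lit 0) (nat_lit 258454686030) (nat_lit 760) (nat_lit 55567803170) (nat_lit 76) (nat_lit 234705961114) (nat_lit 101) (nat_lit 5) (nat_lit 111) (nat_lit 5) (nat_lit 102) (nat_lit 5) (nat_lit 367) (nat_lit 360) (nat_lit 173)) (XT.lf (nat_lit 0) (nat_lit 343458075735) (nat_lit 836) (nat_lit 172502143479) (nat_lit 76) (nat_lit 56893411521) (nat_lit 91) (nat_lit 5) (nat_lit 102) (nat_lit 5) (nat_lit 92) (nat_lit 5) (nat_lit 368) (nat_lit 360) (nat_lit 172))) (XT.nd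 (nat_lit 78) (nat_lit 760) (nat_lit 0) (XT.lf (nat_lit 0) (nat_lit 300164443036) (nat_lit 380) (nat_lit 146062482548) (nat_lit 456) (nat_lit 152133640600) (nat_lit 86) (nat_lit 5) (nat_lit 91) (nat_lit 5) (nat_lit 92) (nat_lit 5) (nat_lit 369) (nat_lit 360) (nat_lit 171)) (XT.nd (nat_lit 78) (nat_lit 456) (nat_lit 0) (XT.lf (nat_lit 0) (nat_lit 193224943056) (nat_lit 304) (nat_lit 374019933118) (nat_lit 380) (nat_lit 58161800695) (nat_lit 82) (nat_lit 5) (nat_lit 86) (nat_lit 5) (nat_lit 87) (nat_lit 5) (nat_lit 370) (nat_lit 360) (nat_lit 170)) (XT.lf (nat_lit 0) (nat_lit 51373057122) (nat_lit 456) (nat_lit 575006945046) (nat_lit 76) (nat_lit 27731049344) (nat_lit 76) (nat_lit 5) (nat_lit 82) (nat_lit 5) (nat_lit 77) (nat_lit 5) (nat_lit 371) (nat_lit 360) (nat_lit 169))))) (XT.nd (nat_lit 234) (nat_lit 836) (nat_lit 0) (XT.nd (nat_lit 78) (nat_lit 608) (nat_lit 0) (XT.lf (nat_lit 0) (nat_lit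 181618610859) (nat_lit 456) (nat_lit 45420298242) (nat_lit 76) (nat_lit 457325912778) (nat_lit 76) (nat_lit 5) (nat_lit 82) (nat_lit 5) (nat_lit 77) (nat_lit 5) (nat_lit 372) (nat_lit 360) (nat_lit 168)) (XT.nd (nat_lit 78) (nat_lit 304) (nat_lit 0) (XT.lf (nat_lit 0) (nat_lit 334104380267) (nat_lit 380) (nat_lit 175999583273) (nat_lit 76) (nat_lit 206343901794) (nat_lit 72) (nat_lit 5) (nat_lit 77) (nat_lit 5) (nat_lit 73) (nat_lit 5) (nat_lit 373) (nat_lit 360) (nat_lit 167)) (XT.lf (nat_lit 0) (nat_lit 433793095964) (nat_lit 304) (nat_lit 76401068292) (nat_lit 380) (nat_lit 240333130386) (nat_lit 68) (nat_lit 5) (nat_lit 72) (nat_lit 5) (nat_lit 73) (nat_lit 5) (nat_lit 374) (nat_lit 360) (nat_lit 166)))) (XT.nd (nat_lit 78) (nat_lit 608) (nat_lit 0) (XT.lf (nat_lit 0) (nat_lit 315398533814) (nat_lit 228) (nat_lit 399133073729) (nat_lit 304) (nat_lit 72093446950) (nat_lit 65) (nat_lit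 5) (nat_lit 68) (nat_lit 5) (nat_lit 69) (nat_lit 5) (nat_lit 375) (nat_lit 360) (nat_lit 165)) (XT.nd (nat_lit 78) (nat_lit 228) (nat_lit 0) (XT.lf (nat_lit 0) (nat_lit 117021935008) (nat_lit 380) (nat_lit 639171880331) (nat_lit 76) (nat_lit 68785028357) (nat_lit 60) (nat_lit 5) (nat_lit 65) (nat_lit 5) (nat_lit 61) (nat_lit 5) (nat_lit 376) (nat_lit 360) (nat_lit 164)) (XT.lf (nat_lit 0) (nat_lit 39421354483) (nat_lit 228) (nat_lit 295041752001) (nat_lit 304) (nat_lit 531092618474) (nat_lit 57) (nat_lit 5) (nat_lit 60) (nat_lit 5) (nat_lit 61) (nat_lit 5) (nat_lit 377) (nat_lit 360) (nat_lit 163))))))))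
noncomputable def xc125 : XT := (XT.nd (nat_lit 92664) (nat_lit 0) (nat_lit 456) (XT.nd (nat_lit 46254) (nat_lit 0) (nat_lit 228) (XT.nd (nat_lit 45786) (nat_lit 0) (nat_lit 3040) (XT.nd (nat_lit 45552) (nat_lit 0) (nat_lit 3420) (XT.nd (nat_lit 156) (nat_lit 456) (nat_lit 0) (XT.lf (nat_lit 0) (nat_lit 583785473386) (nat_lit 304) (nat_lit 117047380490) (nat_lit 76) (nat_lit 207821607779) (nat_lit 57) (nat_lit 5) (nat_lit 61) (nat_lit 5) (nat_lit 58) (nat_lit 5) (nat_lit 378) (nat_lit 360) (nat_lit 162)) (XT.lf (nat_lit 0) (nat_lit 182115561893) (nat_lit 228) (nat_lit 484410719986) (nat_lit 76) (nat_lit 336429488355) (nat_lit 51) (nat_lit 5) (nat_lit 54) (nat_lit 5) (nat_lit 52) (nat_lit 5) (nat_lit 380) (nat_lit 360) (nat_lit 160))) (XT.nd (nat_lit 78) (nat_lit 0) (nat_lit 76) (XT.lf (nat_lit 0) (nat_lit 10320812014) (nat_lit 836) (nat_lit 106339599027) (nat_lit 836) (nat_lit 106339599027)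 (nat_lit 96) (nat_lit 3) (nat_lit 107) (nat_lit 3) (nat_lit 107) (nat_lit 5) (nat_lit 361) (nat_lit 361) (nat_lit 178)) (XT.nd (nat_lit 78) (nat_lit 0) (nat_lit 0) (XT.lf (nat_lit 0) (nat_lit 25023977399) (nat_lit 760) (nat_lit 339735757398) (nat_lit 836) (nat_lit 98902451104) (nat_lit 97) (nat_lit 5) (nat_lit 107) (nat_lit 5) (nat_lit 108) (nat_lit 5) (nat_lit 362) (nat_lit 361) (nat_lit 177)) (XT.lf (nat_lit 76) (nat_lit 8789461596) (nat_lit 0) (nat_lit 28804318733) (nat_lit 836) (nat_lit 444751701596) (nat_lit 98) (nat_lit 5) (nat_lit 97) (nat_lit 5) (nat_lit 108) (nat_lit 5) (nat_lit 363) (nat_lit 361) (nat_lit 176))))) (XT.nd (nat_lit 234) (nat_lit 532) (nat_lit 0) (XT.nd (nat_lit 78) (nat_lit 0) (nat_lit 76) (XT.lf (nat_lit 0) (nat_lit 62399220749) (nat_lit 760) (nat_lit 110211143573) (nat_lit 836) (nat_lit 329351574702) (nat_lit 98) (nat_lit 5) (nat_lit 108) (nat_lit 5) (nat_lit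 109) (nat_lit 5) (nat_lit 364) (nat_lit 361) (nat_lit 175)) (XT.nd (nat_lit 78) (nat_lit 0) (nat_lit 76) (XT.lf (nat_lit 0) (nat_lit 97291331381) (nat_lit 760) (nat_lit 234938633777) (nat_lit 836) (nat_lit 190512635838) (nat_lit 99) (nat_lit 5) (nat_lit 109) (nat_lit 5) (nat_lit 110) (nat_lit 5) (nat_lit 365) (nat_lit 361) (nat_lit 174)) (XT.lf (nat_lit 0) (nat_lit 143208471680) (nat_lit 760) (nat_lit 366072178947) (nat_lit 836) (nat_lit 35493382307) (nat_lit 100) (nat_lit 5) (nat_lit 110) (nat_lit 5) (nat_lit 111) (nat_lit 5) (nat_lit 366) (nat_lit 361) (nat_lit 173)))) (XT.nd (nat_lit 78) (nat_lit 684) (nat_lit 0) (XT.lf (nat_lit 76) (nat_lit 61767633467) (nat_lit 0) (nat_lit 141757251621) (nat_lit 836) (nat_lit 364506799291) (nat_lit 101) (nat_lit 5) (nat_lit 100) (nat_lit 5) (nat_lit 111) (nat_lit 5) (nat_lit 367) (nat_lit 361) (nat_lit 172)) (XT.nd (nat_lit 78) (nat_lit 760) (nat_lit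 0) (XT.lf (nat_lit 0) (nat_lit 279131742449) (nat_lit 760) (nat_lit 60012616526) (nat_lit 76) (nat_lit 253482332463) (nat_lit 101) (nat_lit 5) (nat_lit 111) (nat_lit 5) (nat_lit 102) (nat_lit 5) (nat_lit 368) (nat_lit 361) (nat_lit 171)) (XT.lf (nat_lit 0) (nat_lit 370935361097) (nat_lit 836) (nat_lit 186301696965) (nat_lit 76) (nat_lit 61444830403) (nat_lit 91) (nat_lit 5) (nat_lit 102) (nat_lit 5) (nat_lit 92) (nat_lit 5) (nat_lit 369) (nat_lit 361) (nat_lit 170)))))) (XT.nd (nat_lit 390) (nat_lit 1368) (nat_lit 0) (XT.nd (nat_lit 156) (nat_lit 760) (nat_lit 0) (XT.nd (nat_lit 78) (nat_lit 304) (nat_lit 0) (XT.lf (nat_lit 0) (nat_lit 324178189614) (nat_lit 380) (nat_lit 157747491194) (nat_lit 456) (nat_lit 164303699905) (nat_lit 86) (nat_lit 5) (nat_lit 91) (nat_lit 5) (nat_lit 92) (nat_lit 5) (nat_lit 370) (nat_lit 361) (nat_lit 169)) (XT.lf (nat_lit 0) (nat_lit 208683533524) (nat_lit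 304) (nat_lit 403941498534) (nat_lit 380) (nat_lit 62814150017) (nat_lit 82) (nat_lit 5) (nat_lit 86) (nat_lit 5) (nat_lit 87) (nat_lit 5) (nat_lit 371) (nat_lit 361) (nat_lit 168))) (XT.nd (nat_lit 78) (nat_lit 304) (nat_lit 0) (XT.lf (nat_lit 0) (nat_lit 55483444641) (nat_lit 456) (nat_lit 621006885706) (nat_lit 76) (nat_lit 29949577562) (nat_lit 76) (nat_lit 5) (nat_lit 82) (nat_lit 5) (nat_lit 77) (nat_lit 5) (nat_lit 372) (nat_lit 361) (nat_lit 167)) (XT.nd (nat_lit 78) (nat_lit 304) (nat_lit 0) (XT.lf (nat_lit 0) (nat_lit 196148602458) (nat_lit 456) (nat_lit 49053352709) (nat_lit 76) (nat_lit 493912026791) (nat_lit 76) (nat_lit 5) (nat_lit 82) (nat_lit 5) (nat_lit 77) (nat_lit 5) (nat_lit 373) (nat_lit 361) (nat_lit 166)) (XT.lf (nat_lit 0) (nat_lit 360833205786) (nat_lit 380) (nat_lit 190078982196) (nat_lit 76) (nat_lit 222851482329) (nat_lit 72) (nat_lit 5) (nat_lit 77) (nat_lit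 5) (nat_lit 73) (nat_lit 5) (nat_lit 374) (nat_lit 361) (nat_lit 165))))) (XT.nd (nat_lit 390) (nat_lit 456) (nat_lit 0) (XT.nd (nat_lit 78) (nat_lit 608) (nat_lit 0) (XT.lf (nat_lit 0) (nat_lit 468497086707) (nat_lit 304) (nat_lit 82513059074) (nat_lit 380) (nat_lit 259559309556) (nat_lit 68) (nat_lit 5) (nat_lit 72) (nat_lit 5) (nat_lit 73) (nat_lit 5) (nat_lit 375) (nat_lit 361) (nat_lit 164)) (XT.nd (nat_lit 78) (nat_lit 380) (nat_lit 0) (XT.lf (nat_lit 0) (nat_lit 340630956453) (nat_lit 228) (nat_lit 431063604662) (nat_lit 304) (nat_lit 77860476064) (nat_lit 65) (nat_lit 5) (nat_lit 68) (nat_lit 5) (nat_lit 69) (nat_lit 5) (nat_lit 376) (nat_lit 361) (nat_lit 163)) (XT.lf (nat_lit 0) (nat_lit 126384100315) (nat_lit 380) (nat_lit 690305081327) (nat_lit 76) (nat_lit 74287948649) (nat_lit 60) (nat_lit 5) (nat_lit 65) (nat_lit 5) (nat_lit 61) (nat_lit 5) (nat_lit 377) (nat_lit 361) (nat_lit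 162)))) (XT.nd (nat_lit 45474) (nat_lit 0) (nat_lit 3192) (XT.lf (nat_lit 0) (nat_lit 718284997165) (nat_lit 228) (nat_lit 219600616097) (nat_lit 304) (nat_lit 92902186869) (nat_lit 54) (nat_lit 5) (nat_lit 57) (nat_lit 5) (nat_lit 58) (nat_lit 5) (nat_lit 380) (nat_lit 361) (nat_lit 159)) (XT.nd (nat_lit 78) (nat_lit 0) (nat_lit 76) (XT.lf (nat_lit 0) (nat_lit 11146962900) (nat_lit 836) (nat_lit 114846511535) (nat_lit 836) (nat_lit 114846511535) (nat_lit 96) (nat_lit 3) (nat_lit 107) (nat_lit 3) (nat_lit 107) (nat_lit 5) (nat_lit 362) (nat_lit 362) (nat_lit 176)) (XT.lf (nat_lit 0) (nat_lit 27026796542) (nat_lit 760) (nat_lit 366914076326) (nat_lit 836) (nat_lit 106814241735) (nat_lit 97) (nat_lit 5) (nat_lit 107) (nat_lit 5) (nat_lit 108) (nat_lit 5) (nat_lit 363) (nat_lit 362) (nat_lit 175))))))) (XT.nd (nat_lit 858) (nat_lit 1444) (nat_lit 0) (XT.nd (nat_lit 390) (nat_lit 1596) (nat_lit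 0) (XT.nd (nat_lit 156) (nat_lit 0) (nat_lit 152) (XT.nd (nat_lit 78) (nat_lit 0) (nat_lit 76) (XT.lf (nat_lit 76) (nat_lit 9493136647) (nat_lit 0) (nat_lit 31108988412) (nat_lit 836) (nat_lit 480330952266) (nat_lit 98) (nat_lit 5) (nat_lit 97) (nat_lit 5) (nat_lit 108) (nat_lit 5) (nat_lit 364) (nat_lit 362) (nat_lit 174)) (XT.lf (nat_lit 0) (nat_lit 67391933633) (nat_lit 760) (nat_lit 119027510672) (nat_lit 836) (nat_lit 355699410119) (nat_lit 98) (nat_lit 5) (nat_lit 108) (nat_lit 5) (nat_lit 109) (nat_lit 5) (nat_lit 365) (nat_lit 362) (nat_lit 173))) (XT.nd (nat_lit 78) (nat_lit 0) (nat_lit 76) (XT.lf (nat_lit 0) (nat_lit 105075360025) (nat_lit 760) (nat_lit 253733182211) (nat_lit 836) (nat_lit 205753429843) (nat_lit 99) (nat_lit 5) (nat_lit 109) (nat_lit 5) (nat_lit 110) (nat_lit 5) (nat_lit 366) (nat_lit 362) (nat_lit 172)) (XT.nd (nat_lit 78) (nat_lit 0) (nat_lit 0) (XT.lf (nat_lit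 0) (nat_lit 154665823688) (nat_lit 760) (nat_lit 395357397433) (nat_lit 836) (nat_lit 38332699911) (nat_lit 100) (nat_lit 5) (nat_lit 110) (nat_lit 5) (nat_lit 111) (nat_lit 5) (nat_lit 367) (nat_lit 362) (nat_lit 171)) (XT.lf (nat_lit 76) (nat_lit 66709575819) (nat_lit 0) (nat_lit 153097932704) (nat_lit 836) (nat_lit 393666678211) (nat_lit 101) (nat_lit 5) (nat_lit 100) (nat_lit 5) (nat_lit 111) (nat_lit 5) (nat_lit 368) (nat_lit 362) (nat_lit 170))))) (XT.nd (nat_lit 234) (nat_lit 760) (nat_lit 0) (XT.nd (nat_lit 78) (nat_lit 1140) (nat_lit 0) (XT.lf (nat_lit 0) (nat_lit 301462866152) (nat_lit 760) (nat_lit 64813102102) (nat_lit 76) (nat_lit 273760828577) (nat_lit 101) (nat_lit 5) (nat_lit 111) (nat_lit 5) (nat_lit 102) (nat_lit 5) (nat_lit 369) (nat_lit 362) (nat_lit 169)) (XT.nd (nat_lit 78) (nat_lit 380) (nat_lit 0) (XT.lf (nat_lit 0) (nat_lit 400610738085) (nat_lit 836) (nat_lit 201205302893)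 (nat_lit 76) (nat_lit 66360370505) (nat_lit 91) (nat_lit 5) (nat_lit 102) (nat_lit 5) (nat_lit 92) (nat_lit 5) (nat_lit 370) (nat_lit 362) (nat_lit 168)) (XT.lf (nat_lit 0) (nat_lit 350112951586) (nat_lit 380) (nat_lit 170367299099) (nat_lit 456) (nat_lit 177447454108) (nat_lit 86) (nat_lit 5) (nat_lit 91) (nat_lit 5) (nat_lit 92) (nat_lit 5) (nat_lit 371) (nat_lit 362) (nat_lit 167)))) (XT.nd (nat_lit 78) (nat_lit 456) (nat_lit 0) (XT.lf (nat_lit 0) (nat_lit 225378726343) (nat_lit 304) (nat_lit 436256793354) (nat_lit 380) (nat_lit 67838772129) (nat_lit 82) (nat_lit 5) (nat_lit 86) (nat_lit 5) (nat_lit 87) (nat_lit 5) (nat_lit 372) (nat_lit 362) (nat_lit 166)) (XT.nd (nat_lit 78) (nat_lit 0) (nat_lit 0) (XT.lf (nat_lit 0) (nat_lit 59922585703) (nat_lit 456) (nat_lit 670686909347) (nat_lit 76) (nat_lit 32345581722) (nat_lit 76) (nat_lit 5) (nat_lit 82) (nat_lit 5) (nat_lit 77) (nat_lit 5)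 (nat_lit 373) (nat_lit 362) (nat_lit 165)) (XT.lf (nat_lit 0) (nat_lit 211840921664) (nat_lit 456) (nat_lit 52977132763) (nat_lit 76) (nat_lit 533425024078) (nat_lit 76) (nat_lit 5) (nat_lit 82) (nat_lit 5) (nat_lit 77) (nat_lit 5) (nat_lit 374) (nat_lit 362) (nat_lit 164)))))) (XT.nd (nat_lit 46020) (nat_lit 0) (nat_lit 3040) (XT.nd (nat_lit 156) (nat_lit 836) (nat_lit 0) (XT.nd (nat_lit 78) (nat_lit 304) (nat_lit 0) (XT.lf (nat_lit 0) (nat_lit 389700269569) (nat_lit 380) (nat_lit 205284814027) (nat_lit 76) (nat_lit 240679659550) (nat_lit 72) (nat_lit 5) (nat_lit 77) (nat_lit 5) (nat_lit 73) (nat_lit 5) (nat_lit 375) (nat_lit 362) (nat_lit 163)) (XT.lf (nat_lit 0) (nat_lit 505977319235) (nat_lit 304) (nat_lit 89114022626) (nat_lit 380) (nat_lit 280323650290) (nat_lit 68) (nat_lit 5) (nat_lit 72) (nat_lit 5) (nat_lit 73) (nat_lit 5) (nat_lit 376) (nat_lit 362) (nat_lit 162))) (XT.nd (nat_lit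 156) (nat_lit 608) (nat_lit 0) (XT.lf (nat_lit 0) (nat_lit 367881895875) (nat_lit 228) (nat_lit 465548594471) (nat_lit 304) (nat_lit 84088931226) (nat_lit 65) (nat_lit 5) (nat_lit 68) (nat_lit 5) (nat_lit 69) (nat_lit 5) (nat_lit 377) (nat_lit 362) (nat_lit 161)) (XT.nd (nat_lit 45630) (nat_lit 0) (nat_lit 2964) (XT.lf (nat_lit 0) (nat_lit 45982086042) (nat_lit 228) (nat_lit 344136433638) (nat_lit 304) (nat_lit 619465639625) (nat_lit 57) (nat_lit 5) (nat_lit 60) (nat_lit 5) (nat_lit 61) (nat_lit 5) (nat_lit 379) (nat_lit 362) (nat_lit 159)) (XT.lf (nat_lit 0) (nat_lit 12039136535) (nat_lit 836) (nat_lit 124034013482) (nat_lit 836) (nat_lit 124034013482) (nat_lit 96) (nat_lit 3) (nat_lit 107) (nat_lit 3) (nat_lit 107) (nat_lit 5) (nat_lit 363) (nat_lit 363) (nat_lit 174))))) (XT.nd (nat_lit 234) (nat_lit 0) (nat_lit 152) (XT.nd (nat_lit 78) (nat_lit 0) (nat_lit 0) (XT.lf (nat_lit 0) (nat_lit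 29189712686) (nat_lit 760) (nat_lit 396266738044) (nat_lit 836) (nat_lit 115359033460) (nat_lit 97) (nat_lit 5) (nat_lit 107) (nat_lit 5) (nat_lit 108) (nat_lit 5) (nat_lit 364) (nat_lit 363) (nat_lit 173)) (XT.nd (nat_lit 78) (nat_lit 0) (nat_lit 76) (XT.lf (nat_lit 76) (nat_lit 10253031786) (nat_lit 0) (nat_lit 33597985417) (nat_lit 836) (nat_lit 518756669310) (nat_lit 98) (nat_lit 5) (nat_lit 97) (nat_lit 5) (nat_lit 108) (nat_lit 5) (nat_lit 365) (nat_lit 363) (nat_lit 172)) (XT.lf (nat_lit 0) (nat_lit 72783952954) (nat_lit 760) (nat_lit 128549261948) (nat_lit 836) (nat_lit 384155113820) (nat_lit 98) (nat_lit 5) (nat_lit 108) (nat_lit 5) (nat_lit 109) (nat_lit 5) (nat_lit 366) (nat_lit 363) (nat_lit 171)))) (XT.nd (nat_lit 78) (nat_lit 0) (nat_lit 76) (XT.lf (nat_lit 0) (nat_lit 113482007941) (nat_lit 760) (nat_lit 274031371881) (nat_lit 836) (nat_lit 222213518305) (nat_lit 99) (nat_lit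 5) (nat_lit 109) (nat_lit 5) (nat_lit 110) (nat_lit 5) (nat_lit 367) (nat_lit 363) (nat_lit 170)) (XT.nd (nat_lit 78) (nat_lit 0) (nat_lit 0) (XT.lf (nat_lit 0) (nat_lit 167039667664) (nat_lit 760) (nat_lit 426985512692) (nat_lit 836) (nat_lit 41399184747) (nat_lit 100) (nat_lit 5) (nat_lit 110) (nat_lit 5) (nat_lit 111) (nat_lit 5) (nat_lit 368) (nat_lit 363) (nat_lit 169)) (XT.lf (nat_lit 76) (nat_lit 72046797710) (nat_lit 0) (nat_lit 165345853872) (nat_lit 836) (nat_lit 425159442318) (nat_lit 101) (nat_lit 5) (nat_lit 100) (nat_lit 5) (nat_lit 111) (nat_lit 5) (nat_lit 369) (nat_lit 363) (nat_lit 168))))))))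
noncomputable def xc126 : XT := (XT.nd (nat_lit 47580) (nat_lit 0) (nat_lit 380) (XT.nd (nat_lit 46566) (nat_lit 0) (nat_lit 1216) (XT.nd (nat_lit 390) (nat_lit 1216) (nat_lit 0) (XT.nd (nat_lit 156) (nat_lit 1140) (nat_lit 0) (XT.nd (nat_lit 78) (nat_lit 760) (nat_lit 0) (XT.lf (nat_lit 0) (nat_lit 325580396394) (nat_lit 760) (nat_lit 69997701242) (nat_lit 76) (nat_lit 295661617288) (nat_lit 101) (nat_lit 5) (nat_lit 111) (nat_lit 5) (nat_lit 102) (nat_lit 5) (nat_lit 370) (nat_lit 363) (nat_lit 167)) (XT.lf (nat_lit 0) (nat_lit 432660067039) (nat_lit 836) (nat_lit 217301272882) (nat_lit 76) (nat_lit 71669160424) (nat_lit 91) (nat_lit 5) (nat_lit 102) (nat_lit 5) (nat_lit 92) (nat_lit 5) (nat_lit 371) (nat_lit 363) (nat_lit 166))) (XT.nd (nat_lit 78) (nat_lit 760) (nat_lit 0) (XT.lf (nat_lit 0) (nat_lit 378122422215) (nat_lit 380) (nat_lit 183996690408) (nat_lit 456) (nat_lit 191642785940)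 (nat_lit 86) (nat_lit 5) (nat_lit 91) (nat_lit 5) (nat_lit 92) (nat_lit 5) (nat_lit 372) (nat_lit 363) (nat_lit 165)) (XT.nd (nat_lit 78) (nat_lit 456) (nat_lit 0) (XT.lf (nat_lit 0) (nat_lit 243409461811) (nat_lit 304) (nat_lit 471157315335) (nat_lit 380) (nat_lit 73265436752) (nat_lit 82) (nat_lit 5) (nat_lit 86) (nat_lit 5) (nat_lit 87) (nat_lit 5) (nat_lit 373) (nat_lit 363) (nat_lit 164)) (XT.lf (nat_lit 0) (nat_lit 64716791643) (nat_lit 456) (nat_lit 724341410093) (nat_lit 76) (nat_lit 34933260800) (nat_lit 76) (nat_lit 5) (nat_lit 82) (nat_lit 5) (nat_lit 77) (nat_lit 5) (nat_lit 374) (nat_lit 363) (nat_lit 163))))) (XT.nd (nat_lit 312) (nat_lit 608) (nat_lit 0) (XT.nd (nat_lit 78) (nat_lit 608) (nat_lit 0) (XT.lf (nat_lit 0) (nat_lit 228788564919) (nat_lit 456) (nat_lit 57214884864) (nat_lit 76) (nat_lit 576099056134) (nat_lit 76) (nat_lit 5) (nat_lit 82) (nat_lit 5) (nat_lit 77)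 (nat_lit 5) (nat_lit 375) (nat_lit 363) (nat_lit 162)) (XT.nd (nat_lit 78) (nat_lit 304) (nat_lit 0) (XT.lf (nat_lit 0) (nat_lit 420876640345) (nat_lit 380) (nat_lit 221707181845) (nat_lit 76) (nat_lit 259934082584) (nat_lit 72) (nat_lit 5) (nat_lit 77) (nat_lit 5) (nat_lit 73) (nat_lit 5) (nat_lit 376) (nat_lit 363) (nat_lit 161)) (XT.lf (nat_lit 0) (nat_lit 546455903943) (nat_lit 304) (nat_lit 96243074842) (nat_lit 380) (nat_lit 302749195922) (nat_lit 68) (nat_lit 5) (nat_lit 72) (nat_lit 5) (nat_lit 73) (nat_lit 5) (nat_lit 377) (nat_lit 363) (nat_lit 160)))) (XT.nd (nat_lit 45708) (nat_lit 0) (nat_lit 2736) (XT.lf (nat_lit 0) (nat_lit 147415096442) (nat_lit 380) (nat_lit 805170934281) (nat_lit 76) (nat_lit 86649659335) (nat_lit 60) (nat_lit 5) (nat_lit 65) (nat_lit 5) (nat_lit 61) (nat_lit 5) (nat_lit 379) (nat_lit 363) (nat_lit 158)) (XT.nd (nat_lit 78) (nat_lit 0) (nat_lit 76) (XT.lf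 (nat_lit 0) (nat_lit 13002624628) (nat_lit 836) (nat_lit 133956546824) (nat_lit 836) (nat_lit 133956546824) (nat_lit 96) (nat_lit 3) (nat_lit 107) (nat_lit 3) (nat_lit 107) (nat_lit 5) (nat_lit 364) (nat_lit 364) (nat_lit 172)) (XT.lf (nat_lit 0) (nat_lit 31525551928) (nat_lit 760) (nat_lit 427967678948) (nat_lit 836) (nat_lit 124587458114) (nat_lit 97) (nat_lit 5) (nat_lit 107) (nat_lit 5) (nat_lit 108) (nat_lit 5) (nat_lit 365) (nat_lit 364) (nat_lit 171)))))) (XT.nd (nat_lit 390) (nat_lit 1596) (nat_lit 0) (XT.nd (nat_lit 156) (nat_lit 0) (nat_lit 152) (XT.nd (nat_lit 78) (nat_lit 0) (nat_lit 76) (XT.lf (nat_lit 76) (nat_lit 11073655165) (nat_lit 0) (nat_lit 36286062533) (nat_lit 836) (nat_lit 560256552017) (nat_lit 98) (nat_lit 5) (nat_lit 97) (nat_lit 5) (nat_lit 108) (nat_lit 5) (nat_lit 366) (nat_lit 364) (nat_lit 170)) (XT.lf (nat_lit 0) (nat_lit 78607239003) (nat_lit 760) (nat_lit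 138832817463) (nat_lit 836) (nat_lit 414887309356) (nat_lit 98) (nat_lit 5) (nat_lit 108) (nat_lit 5) (nat_lit 109) (nat_lit 5) (nat_lit 367) (nat_lit 364) (nat_lit 169))) (XT.nd (nat_lit 78) (nat_lit 0) (nat_lit 76) (XT.lf (nat_lit 0) (nat_lit 122561099366) (nat_lit 760) (nat_lit 295953483048) (nat_lit 836) (nat_lit 239990440369) (nat_lit 99) (nat_lit 5) (nat_lit 109) (nat_lit 5) (nat_lit 110) (nat_lit 5) (nat_lit 368) (nat_lit 364) (nat_lit 168)) (XT.nd (nat_lit 78) (nat_lit 0) (nat_lit 0) (XT.lf (nat_lit 0) (nat_lit 180403336688) (nat_lit 760) (nat_lit 461143945155) (nat_lit 836) (nat_lit 44711007082) (nat_lit 100) (nat_lit 5) (nat_lit 110) (nat_lit 5) (nat_lit 111) (nat_lit 5) (nat_lit 369) (nat_lit 364) (nat_lit 167)) (XT.lf (nat_lit 76) (nat_lit 77810932324) (nat_lit 0) (nat_lit 178573596386) (nat_lit 836) (nat_lit 459171708892) (nat_lit 101) (nat_lit 5) (nat_lit 100) (nat_lit 5)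 (nat_lit 111) (nat_lit 5) (nat_lit 370) (nat_lit 364) (nat_lit 166))))) (XT.nd (nat_lit 234) (nat_lit 760) (nat_lit 0) (XT.nd (nat_lit 78) (nat_lit 1140) (nat_lit 0) (XT.lf (nat_lit 0) (nat_lit 351627257589) (nat_lit 760) (nat_lit 75597132372) (nat_lit 76) (nat_lit 319314480163) (nat_lit 101) (nat_lit 5) (nat_lit 111) (nat_lit 5) (nat_lit 102) (nat_lit 5) (nat_lit 371) (nat_lit 364) (nat_lit 165)) (XT.nd (nat_lit 78) (nat_lit 380) (nat_lit 0) (XT.lf (nat_lit 0) (nat_lit 467273275272) (nat_lit 836) (nat_lit 234684985272) (nat_lit 76) (nat_lit 77402659204) (nat_lit 91) (nat_lit 5) (nat_lit 102) (nat_lit 5) (nat_lit 92) (nat_lit 5) (nat_lit 372) (nat_lit 364) (nat_lit 164)) (XT.lf (nat_lit 0) (nat_lit 408372588508) (nat_lit 380) (nat_lit 198716431969) (nat_lit 456) (nat_lit 206973810584) (nat_lit 86) (nat_lit 5) (nat_lit 91) (nat_lit 5) (nat_lit 92) (nat_lit 5) (nat_lit 373) (nat_lit 364)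 (nat_lit 163)))) (XT.nd (nat_lit 78) (nat_lit 456) (nat_lit 0) (XT.lf (nat_lit 0) (nat_lit 262882593722) (nat_lit 304) (nat_lit 508849882140) (nat_lit 380) (nat_lit 79126296909) (nat_lit 82) (nat_lit 5) (nat_lit 86) (nat_lit 5) (nat_lit 87) (nat_lit 5) (nat_lit 374) (nat_lit 364) (nat_lit 162)) (XT.nd (nat_lit 78) (nat_lit 0) (nat_lit 0) (XT.lf (nat_lit 0) (nat_lit 69894477124) (nat_lit 456) (nat_lit 782288335382) (nat_lit 76) (nat_lit 37727949562) (nat_lit 76) (nat_lit 5) (nat_lit 82) (nat_lit 5) (nat_lit 77) (nat_lit 5) (nat_lit 375) (nat_lit 364) (nat_lit 161)) (XT.lf (nat_lit 0) (nat_lit 247091966918) (nat_lit 456) (nat_lit 61791716840) (nat_lit 76) (nat_lit 622187006456) (nat_lit 76) (nat_lit 5) (nat_lit 82) (nat_lit 5) (nat_lit 77) (nat_lit 5) (nat_lit 376) (nat_lit 364) (nat_lit 160))))))) (XT.nd (nat_lit 46566) (nat_lit 0) (nat_lit 532) (XT.nd (nat_lit 46098) (nat_lit 0) (nat_lit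 1596) (XT.nd (nat_lit 45864) (nat_lit 0) (nat_lit 2432) (XT.nd (nat_lit 45786) (nat_lit 0) (nat_lit 2356) (XT.lf (nat_lit 0) (nat_lit 429098212215) (nat_lit 228) (nat_lit 543015716882) (nat_lit 304) (nat_lit 98080693364) (nat_lit 65) (nat_lit 5) (nat_lit 68) (nat_lit 5) (nat_lit 69) (nat_lit 5) (nat_lit 379) (nat_lit 364) (nat_lit 157)) (XT.lf (nat_lit 0) (nat_lit 14043140814) (nat_lit 836) (nat_lit 144672909616) (nat_lit 836) (nat_lit 144672909616) (nat_lit 96) (nat_lit 3) (nat_lit 107) (nat_lit 3) (nat_lit 107) (nat_lit 5) (nat_lit 365) (nat_lit 365) (nat_lit 170))) (XT.nd (nat_lit 78) (nat_lit 0) (nat_lit 0) (XT.lf (nat_lit 0) (nat_lit 34048163834) (nat_lit 760) (nat_lit 462204751924) (nat_lit 836) (nat_lit 134554199256) (nat_lit 97) (nat_lit 5) (nat_lit 107) (nat_lit 5) (nat_lit 108) (nat_lit 5) (nat_lit 366) (nat_lit 365) (nat_lit 169)) (XT.nd (nat_lit 78) (nat_lit 0) (nat_lit 76)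 (XT.lf (nat_lit 76) (nat_lit 11959874084) (nat_lit 0) (nat_lit 39189151824) (nat_lit 836) (nat_lit 605076518190) (nat_lit 98) (nat_lit 5) (nat_lit 97) (nat_lit 5) (nat_lit 108) (nat_lit 5) (nat_lit 367) (nat_lit 365) (nat_lit 168)) (XT.lf (nat_lit 0) (nat_lit 84896306646) (nat_lit 760) (nat_lit 149939112407) (nat_lit 836) (nat_lit 448078111002) (nat_lit 98) (nat_lit 5) (nat_lit 108) (nat_lit 5) (nat_lit 109) (nat_lit 5) (nat_lit 368) (nat_lit 365) (nat_lit 167))))) (XT.nd (nat_lit 234) (nat_lit 988) (nat_lit 0) (XT.nd (nat_lit 78) (nat_lit 0) (nat_lit 76) (XT.lf (nat_lit 0) (nat_lit 132366442382) (nat_lit 760) (nat_lit 319629419971) (nat_lit 836) (nat_lit 259189538938) (nat_lit 99) (nat_lit 5) (nat_lit 109) (nat_lit 5) (nat_lit 110) (nat_lit 5) (nat_lit 369) (nat_lit 365) (nat_lit 166)) (XT.nd (nat_lit 78) (nat_lit 0) (nat_lit 0) (XT.lf (nat_lit 0) (nat_lit 194836028530) (nat_lit 760) (nat_lit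 498035110500) (nat_lit 836) (nat_lit 48287791244) (nat_lit 100) (nat_lit 5) (nat_lit 110) (nat_lit 5) (nat_lit 111) (nat_lit 5) (nat_lit 370) (nat_lit 365) (nat_lit 165)) (XT.lf (nat_lit 76) (nat_lit 84036141955) (nat_lit 0) (nat_lit 192859547714) (nat_lit 836) (nat_lit 495905026526) (nat_lit 101) (nat_lit 5) (nat_lit 100) (nat_lit 5) (nat_lit 111) (nat_lit 5) (nat_lit 371) (nat_lit 365) (nat_lit 164)))) (XT.nd (nat_lit 78) (nat_lit 1140) (nat_lit 0) (XT.lf (nat_lit 0) (nat_lit 379757806409) (nat_lit 760) (nat_lit 81644572913) (nat_lit 76) (nat_lit 344859581556) (nat_lit 101) (nat_lit 5) (nat_lit 111) (nat_lit 5) (nat_lit 102) (nat_lit 5) (nat_lit 372) (nat_lit 365) (nat_lit 163)) (XT.nd (nat_lit 78) (nat_lit 380) (nat_lit 0) (XT.lf (nat_lit 0) (nat_lit 504655482690) (nat_lit 836) (nat_lit 253459450212) (nat_lit 76) (nat_lit 83594842744) (nat_lit 91) (nat_lit 5) (nat_lit 102) (nat_lit 5)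 (nat_lit 92) (nat_lit 5) (nat_lit 373) (nat_lit 365) (nat_lit 162)) (XT.lf (nat_lit 0) (nat_lit 441042714960) (nat_lit 380) (nat_lit 214613751952) (nat_lit 456) (nat_lit 223531374012) (nat_lit 86) (nat_lit 5) (nat_lit 91) (nat_lit 5) (nat_lit 92) (nat_lit 5) (nat_lit 374) (nat_lit 365) (nat_lit 161)))))) (XT.nd (nat_lit 46332) (nat_lit 0) (nat_lit 1900) (XT.nd (nat_lit 234) (nat_lit 304) (nat_lit 0) (XT.nd (nat_lit 78) (nat_lit 456) (nat_lit 0) (XT.lf (nat_lit 0) (nat_lit 283913522693) (nat_lit 304) (nat_lit 549557856917) (nat_lit 380) (nat_lit 85456079345) (nat_lit 82) (nat_lit 5) (nat_lit 86) (nat_lit 5) (nat_lit 87) (nat_lit 5) (nat_lit 375) (nat_lit 365) (nat_lit 160)) (XT.lf (nat_lit 0) (nat_lit 75486328632) (nat_lit 456) (nat_lit 844871069977) (nat_lit 76) (nat_lit 40746209445) (nat_lit 76) (nat_lit 5) (nat_lit 82) (nat_lit 5) (nat_lit 77) (nat_lit 5) (nat_lit 376) (nat_lit 365) (nat_lit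 159))) (XT.nd (nat_lit 45942) (nat_lit 0) (nat_lit 1824) (XT.lf (nat_lit 0) (nat_lit 490911093322) (nat_lit 380) (nat_lit 258598563779) (nat_lit 76) (nat_lit 303187197422) (nat_lit 72) (nat_lit 5) (nat_lit 77) (nat_lit 5) (nat_lit 73) (nat_lit 5) (nat_lit 378) (nat_lit 365) (nat_lit 157)) (XT.nd (nat_lit 78) (nat_lit 0) (nat_lit 76) (XT.lf (nat_lit 0) (nat_lit 15166854610) (nat_lit 836) (nat_lit 156246604393) (nat_lit 836) (nat_lit 156246604393) (nat_lit 96) (nat_lit 3) (nat_lit 107) (nat_lit 3) (nat_lit 107) (nat_lit 5) (nat_lit 366) (nat_lit 366) (nat_lit 168)) (XT.lf (nat_lit 0) (nat_lit 36772503697) (nat_lit 760) (nat_lit 499180839434) (nat_lit 836) (nat_lit 145318316141) (nat_lit 97) (nat_lit 5) (nat_lit 107) (nat_lit 5) (nat_lit 108) (nat_lit 5) (nat_lit 367) (nat_lit 366) (nat_lit 167))))) (XT.nd (nat_lit 234) (nat_lit 0) (nat_lit 228) (XT.nd (nat_lit 78) (nat_lit 0) (nat_lit 76)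 (XT.lf (nat_lit 76) (nat_lit 12916943937) (nat_lit 0) (nat_lit 42324459115) (nat_lit 836) (nat_lit 653482161260) (nat_lit 98) (nat_lit 5) (nat_lit 97) (nat_lit 5) (nat_lit 108) (nat_lit 5) (nat_lit 368) (nat_lit 366) (nat_lit 166)) (XT.nd (nat_lit 78) (nat_lit 0) (nat_lit 76) (XT.lf (nat_lit 0) (nat_lit 91688430008) (nat_lit 760) (nat_lit 161933958089) (nat_lit 836) (nat_lit 483924202902) (nat_lit 98) (nat_lit 5) (nat_lit 108) (nat_lit 5) (nat_lit 109) (nat_lit 5) (nat_lit 369) (nat_lit 366) (nat_lit 165)) (XT.lf (nat_lit 0) (nat_lit 142956147920) (nat_lit 760) (nat_lit 345199480598) (nat_lit 836) (nat_lit 279924584888) (nat_lit 99) (nat_lit 5) (nat_lit 109) (nat_lit 5) (nat_lit 110) (nat_lit 5) (nat_lit 370) (nat_lit 366) (nat_lit 164)))) (XT.nd (nat_lit 78) (nat_lit 0) (nat_lit 0) (XT.lf (nat_lit 0) (nat_lit 210423275101) (nat_lit 760) (nat_lit 537877619042) (nat_lit 836) (nat_lit 52150731893)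 (nat_lit 100) (nat_lit 5) (nat_lit 110) (nat_lit 5) (nat_lit 111) (nat_lit 5) (nat_lit 371) (nat_lit 366) (nat_lit 163)) (XT.nd (nat_lit 78) (nat_lit 0) (nat_lit 76) (XT.lf (nat_lit 76) (nat_lit 90759320559) (nat_lit 0) (nat_lit 208288366073) (nat_lit 836) (nat_lit 535577069357) (nat_lit 101) (nat_lit 5) (nat_lit 100) (nat_lit 5) (nat_lit 111) (nat_lit 5) (nat_lit 372) (nat_lit 366) (nat_lit 162)) (XT.lf (nat_lit 0) (nat_lit 410138746605) (nat_lit 760) (nat_lit 88175855783) (nat_lit 76) (nat_lit 372448299196) (nat_lit 101) (nat_lit 5) (nat_lit 111) (nat_lit 5) (nat_lit 102) (nat_lit 5) (nat_lit 373) (nat_lit 366) (nat_lit 161))))))))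
noncomputable def xc127 : XT := (XT.nd (nat_lit 93990) (nat_lit 0) (nat_lit 760) (XT.nd (nat_lit 46878) (nat_lit 0) (nat_lit 0) (XT.nd (nat_lit 46410) (nat_lit 0) (nat_lit 1596) (XT.nd (nat_lit 156) (nat_lit 760) (nat_lit 0) (XT.nd (nat_lit 78) (nat_lit 380) (nat_lit 0) (XT.lf (nat_lit 0) (nat_lit 545028217427) (nat_lit 836) (nat_lit 273735919979) (nat_lit 76) (nat_lit 90282405133) (nat_lit 91) (nat_lit 5) (nat_lit 102) (nat_lit 5) (nat_lit 92) (nat_lit 5) (nat_lit 374) (nat_lit 366) (nat_lit 160)) (XT.lf (nat_lit 0) (nat_lit 476326405967) (nat_lit 380) (nat_lit 231782856760) (nat_lit 456) (nat_lit 241413591221) (nat_lit 86) (nat_lit 5) (nat_lit 91) (nat_lit 5) (nat_lit 92) (nat_lit 5) (nat_lit 375) (nat_lit 366) (nat_lit 159))) (XT.nd (nat_lit 156) (nat_lit 456) (nat_lit 0) (XT.lf (nat_lit 0) (nat_lit 306626880119) (nat_lit 304) (nat_lit 593522471930) (nat_lit 380) (nat_lit 92292290216)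 (nat_lit 82) (nat_lit 5) (nat_lit 86) (nat_lit 5) (nat_lit 87) (nat_lit 5) (nat_lit 376) (nat_lit 366) (nat_lit 158)) (XT.nd (nat_lit 46020) (nat_lit 0) (nat_lit 1520) (XT.lf (nat_lit 0) (nat_lit 288208596413) (nat_lit 456) (nat_lit 72073262548) (nat_lit 76) (nat_lit 725718967236) (nat_lit 76) (nat_lit 5) (nat_lit 82) (nat_lit 5) (nat_lit 77) (nat_lit 5) (nat_lit 378) (nat_lit 366) (nat_lit 156)) (XT.lf (nat_lit 0) (nat_lit 16380428056) (nat_lit 836) (nat_lit 168746214439) (nat_lit 836) (nat_lit 168746214439) (nat_lit 96) (nat_lit 3) (nat_lit 107) (nat_lit 3) (nat_lit 107) (nat_lit 5) (nat_lit 367) (nat_lit 367) (nat_lit 166))))) (XT.nd (nat_lit 234) (nat_lit 0) (nat_lit 152) (XT.nd (nat_lit 78) (nat_lit 0) (nat_lit 0) (XT.lf (nat_lit 0) (nat_lit 39714721308) (nat_lit 760) (nat_lit 539115055694) (nat_lit 836) (nat_lit 156943593627) (nat_lit 97) (nat_lit 5) (nat_lit 107) (nat_lit 5) (nat_lit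 108) (nat_lit 5) (nat_lit 368) (nat_lit 367) (nat_lit 165)) (XT.nd (nat_lit 78) (nat_lit 0) (nat_lit 76) (XT.lf (nat_lit 76) (nat_lit 13950539443) (nat_lit 0) (nat_lit 45710566002) (nat_lit 836) (nat_lit 705760324023) (nat_lit 98) (nat_lit 5) (nat_lit 97) (nat_lit 5) (nat_lit 108) (nat_lit 5) (nat_lit 369) (nat_lit 367) (nat_lit 164)) (XT.lf (nat_lit 0) (nat_lit 99023863487) (nat_lit 760) (nat_lit 174888431844) (nat_lit 836) (nat_lit 522638004549) (nat_lit 98) (nat_lit 5) (nat_lit 108) (nat_lit 5) (nat_lit 109) (nat_lit 5) (nat_lit 370) (nat_lit 367) (nat_lit 163)))) (XT.nd (nat_lit 78) (nat_lit 0) (nat_lit 76) (XT.lf (nat_lit 0) (nat_lit 154392974241) (nat_lit 760) (nat_lit 372815187871) (nat_lit 836) (nat_lit 302318451230) (nat_lit 99) (nat_lit 5) (nat_lit 109) (nat_lit 5) (nat_lit 110) (nat_lit 5) (nat_lit 371) (nat_lit 367) (nat_lit 162)) (XT.nd (nat_lit 78) (nat_lit 0) (nat_lit 0)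 (XT.lf (nat_lit 0) (nat_lit 227257449428) (nat_lit 760) (nat_lit 580907571109) (nat_lit 836) (nat_lit 56322719585) (nat_lit 100) (nat_lit 5) (nat_lit 110) (nat_lit 5) (nat_lit 111) (nat_lit 5) (nat_lit 372) (nat_lit 367) (nat_lit 161)) (XT.lf (nat_lit 76) (nat_lit 98020312472) (nat_lit 0) (nat_lit 224951482120) (nat_lit 836) (nat_lit 578422926871) (nat_lit 101) (nat_lit 5) (nat_lit 100) (nat_lit 5) (nat_lit 111) (nat_lit 5) (nat_lit 373) (nat_lit 367) (nat_lit 160)))))) (XT.nd (nat_lit 46566) (nat_lit 0) (nat_lit 1596) (XT.nd (nat_lit 312) (nat_lit 1140) (nat_lit 0) (XT.nd (nat_lit 78) (nat_lit 760) (nat_lit 0) (XT.lf (nat_lit 0) (nat_lit 442950116980) (nat_lit 760) (nat_lit 95229681649) (nat_lit 76) (nat_lit 402244121220) (nat_lit 101) (nat_lit 5) (nat_lit 111) (nat_lit 5) (nat_lit 102) (nat_lit 5) (nat_lit 374) (nat_lit 367) (nat_lit 159)) (XT.lf (nat_lit 0) (nat_lit 588630728697) (nat_lit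 836) (nat_lit 295634548164) (nat_lit 76) (nat_lit 97504976084) (nat_lit 91) (nat_lit 5) (nat_lit 102) (nat_lit 5) (nat_lit 92) (nat_lit 5) (nat_lit 375) (nat_lit 367) (nat_lit 158))) (XT.nd (nat_lit 46098) (nat_lit 0) (nat_lit 1520) (XT.lf (nat_lit 0) (nat_lit 88047740939) (nat_lit 456) (nat_lit 985457064194) (nat_lit 76) (nat_lit 47526418424) (nat_lit 76) (nat_lit 5) (nat_lit 82) (nat_lit 5) (nat_lit 77) (nat_lit 5) (nat_lit 378) (nat_lit 367) (nat_lit 155)) (XT.nd (nat_lit 78) (nat_lit 0) (nat_lit 76) (XT.lf (nat_lit 0) (nat_lit 17691055268) (nat_lit 836) (nat_lit 182245810165) (nat_lit 836) (nat_lit 182245810165) (nat_lit 96) (nat_lit 3) (nat_lit 107) (nat_lit 3) (nat_lit 107) (nat_lit 5) (nat_lit 368) (nat_lit 368) (nat_lit 164)) (XT.lf (nat_lit 0) (nat_lit 42892256793) (nat_lit 760) (nat_lit 582244045048) (nat_lit 836) (nat_lit 169498920104) (nat_lit 97) (nat_lit 5) (nat_lit 107) (nat_lit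 5) (nat_lit 108) (nat_lit 5) (nat_lit 369) (nat_lit 368) (nat_lit 163))))) (XT.nd (nat_lit 234) (nat_lit 0) (nat_lit 228) (XT.nd (nat_lit 78) (nat_lit 0) (nat_lit 76) (XT.lf (nat_lit 76) (nat_lit 15066788353) (nat_lit 0) (nat_lit 49367540019) (nat_lit 836) (nat_lit 762220798318) (nat_lit 98) (nat_lit 5) (nat_lit 97) (nat_lit 5) (nat_lit 108) (nat_lit 5) (nat_lit 370) (nat_lit 368) (nat_lit 162)) (XT.nd (nat_lit 78) (nat_lit 0) (nat_lit 76) (XT.lf (nat_lit 0) (nat_lit 106946080419) (nat_lit 760) (nat_lit 188879298150) (nat_lit 836) (nat_lit 564448929528) (nat_lit 98) (nat_lit 5) (nat_lit 108) (nat_lit 5) (nat_lit 109) (nat_lit 5) (nat_lit 371) (nat_lit 368) (nat_lit 161)) (XT.lf (nat_lit 0) (nat_lit 166744698950) (nat_lit 760) (nat_lit 402640187558) (nat_lit 836) (nat_lit 326503841209) (nat_lit 99) (nat_lit 5) (nat_lit 109) (nat_lit 5) (nat_lit 110) (nat_lit 5) (nat_lit 372) (nat_lit 368)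 (nat_lit 160)))) (XT.nd (nat_lit 78) (nat_lit 0) (nat_lit 0) (XT.lf (nat_lit 0) (nat_lit 245438313146) (nat_lit 760) (nat_lit 627379956069) (nat_lit 836) (nat_lit 60828476401) (nat_lit 100) (nat_lit 5) (nat_lit 110) (nat_lit 5) (nat_lit 111) (nat_lit 5) (nat_lit 373) (nat_lit 368) (nat_lit 159)) (XT.nd (nat_lit 78) (nat_lit 0) (nat_lit 76) (XT.lf (nat_lit 76) (nat_lit 105862148606) (nat_lit 0) (nat_lit 242947640780) (nat_lit 836) (nat_lit 624696496931) (nat_lit 101) (nat_lit 5) (nat_lit 100) (nat_lit 5) (nat_lit 111) (nat_lit 5) (nat_lit 374) (nat_lit 368) (nat_lit 158)) (XT.lf (nat_lit 0) (nat_lit 478386358375) (nat_lit 760) (nat_lit 102847848195) (nat_lit 76) (nat_lit 434423614985) (nat_lit 101) (nat_lit 5) (nat_lit 111) (nat_lit 5) (nat_lit 102) (nat_lit 5) (nat_lit 375) (nat_lit 368) (nat_lit 157))))))) (XT.nd (nat_lit 93444) (nat_lit 0) (nat_lit 760) (XT.nd (nat_lit 46566) (nat_lit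 0) (nat_lit 380) (XT.nd (nat_lit 46332) (nat_lit 0) (nat_lit 836) (XT.nd (nat_lit 46254) (nat_lit 0) (nat_lit 760) (XT.lf (nat_lit 0) (nat_lit 555587574706) (nat_lit 380) (nat_lit 270351531850) (nat_lit 456) (nat_lit 281584326619) (nat_lit 86) (nat_lit 5) (nat_lit 91) (nat_lit 5) (nat_lit 92) (nat_lit 5) (nat_lit 377) (nat_lit 368) (nat_lit 155)) (XT.lf (nat_lit 0) (nat_lit 19106505128) (nat_lit 836) (nat_lit 196825388020) (nat_lit 836) (nat_lit 196825388020) (nat_lit 96) (nat_lit 3) (nat_lit 107) (nat_lit 3) (nat_lit 107) (nat_lit 5) (nat_lit 369) (nat_lit 369) (nat_lit 162))) (XT.nd (nat_lit 78) (nat_lit 0) (nat_lit 0) (XT.lf (nat_lit 0) (nat_lit 46323944075) (nat_lit 760) (nat_lit 628823384236) (nat_lit 836) (nat_lit 183058695670) (nat_lit 97) (nat_lit 5) (nat_lit 107) (nat_lit 5) (nat_lit 108) (nat_lit 5) (nat_lit 370) (nat_lit 369) (nat_lit 161)) (XT.nd (nat_lit 78) (nat_lit 0) (nat_lit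 76) (XT.lf (nat_lit 76) (nat_lit 16272307822) (nat_lit 0) (nat_lit 53317053591) (nat_lit 836) (nat_lit 823198160719) (nat_lit 98) (nat_lit 5) (nat_lit 97) (nat_lit 5) (nat_lit 108) (nat_lit 5) (nat_lit 371) (nat_lit 369) (nat_lit 160)) (XT.lf (nat_lit 0) (nat_lit 115502030786) (nat_lit 760) (nat_lit 203989463468) (nat_lit 836) (nat_lit 609604744966) (nat_lit 98) (nat_lit 5) (nat_lit 108) (nat_lit 5) (nat_lit 109) (nat_lit 5) (nat_lit 372) (nat_lit 369) (nat_lit 159))))) (XT.nd (nat_lit 46644) (nat_lit 0) (nat_lit 380) (XT.nd (nat_lit 78) (nat_lit 608) (nat_lit 0) (XT.lf (nat_lit 0) (nat_lit 180084520724) (nat_lit 760) (nat_lit 434851217942) (nat_lit 836) (nat_lit 352624074673) (nat_lit 99) (nat_lit 5) (nat_lit 109) (nat_lit 5) (nat_lit 110) (nat_lit 5) (nat_lit 373) (nat_lit 369) (nat_lit 158)) (XT.nd (nat_lit 234) (nat_lit 684) (nat_lit 0) (XT.lf (nat_lit 0) (nat_lit 265073607761) (nat_lit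 760) (nat_lit 677570163316) (nat_lit 836) (nat_lit 65694702429) (nat_lit 100) (nat_lit 5) (nat_lit 110) (nat_lit 5) (nat_lit 111) (nat_lit 5) (nat_lit 374) (nat_lit 369) (nat_lit 157)) (XT.lf (nat_lit 0) (nat_lit 686579303630) (nat_lit 836) (nat_lit 344827729358) (nat_lit 76) (nat_lit 113729768460) (nat_lit 91) (nat_lit 5) (nat_lit 102) (nat_lit 5) (nat_lit 92) (nat_lit 5) (nat_lit 377) (nat_lit 369) (nat_lit 154)))) (XT.nd (nat_lit 78) (nat_lit 0) (nat_lit 76) (XT.lf (nat_lit 0) (nat_lit 20635167376) (nat_lit 836) (nat_lit 212571344509) (nat_lit 836) (nat_lit 212571344509) (nat_lit 96) (nat_lit 3) (nat_lit 107) (nat_lit 3) (nat_lit 107) (nat_lit 5) (nat_lit 370) (nat_lit 370) (nat_lit 160)) (XT.nd (nat_lit 78) (nat_lit 0) (nat_lit 0) (XT.lf (nat_lit 0) (nat_lit 50030122580) (nat_lit 760) (nat_lit 679129096869) (nat_lit 836) (nat_lit 197703272975) (nat_lit 97) (nat_lit 5) (nat_lit 107)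 (nat_lit 5) (nat_lit 108) (nat_lit 5) (nat_lit 371) (nat_lit 370) (nat_lit 159)) (XT.lf (nat_lit 76) (nat_lit 17574243683) (nat_lit 0) (nat_lit 57582512504) (nat_lit 836) (nat_lit 889053755120) (nat_lit 98) (nat_lit 5) (nat_lit 97) (nat_lit 5) (nat_lit 108) (nat_lit 5) (nat_lit 372) (nat_lit 370) (nat_lit 158)))))) (XT.nd (nat_lit 47034) (nat_lit 0) (nat_lit 76) (XT.nd (nat_lit 46722) (nat_lit 152) (nat_lit 0) (XT.nd (nat_lit 78) (nat_lit 0) (nat_lit 76) (XT.lf (nat_lit 0) (nat_lit 124742419529) (nat_lit 760) (nat_lit 220308467482) (nat_lit 836) (nat_lit 658373039751) (nat_lit 98) (nat_lit 5) (nat_lit 108) (nat_lit 5) (nat_lit 109) (nat_lit 5) (nat_lit 373) (nat_lit 370) (nat_lit 157)) (XT.nd (nat_lit 156) (nat_lit 0) (nat_lit 76) (XT.lf (nat_lit 0) (nat_lit 194491493166) (nat_lit 760) (nat_lit 469639157095) (nat_lit 836) (nat_lit 380833937346) (nat_lit 99) (nat_lit 5) (nat_lit 109) (nat_lit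 5) (nat_lit 110) (nat_lit 5) (nat_lit 374) (nat_lit 370) (nat_lit 156)) (XT.lf (nat_lit 76) (nat_lit 123477960820) (nat_lit 0) (nat_lit 283374194793) (nat_lit 836) (nat_lit 728645555379) (nat_lit 101) (nat_lit 5) (nat_lit 100) (nat_lit 5) (nat_lit 111) (nat_lit 5) (nat_lit 376) (nat_lit 370) (nat_lit 154)))) (XT.nd (nat_lit 78) (nat_lit 0) (nat_lit 76) (XT.lf (nat_lit 0) (nat_lit 22286102368) (nat_lit 836) (nat_lit 229576988153) (nat_lit 836) (nat_lit 229576988153) (nat_lit 96) (nat_lit 3) (nat_lit 107) (nat_lit 3) (nat_lit 107) (nat_lit 5) (nat_lit 371) (nat_lit 371) (nat_lit 158)) (XT.nd (nat_lit 78) (nat_lit 0) (nat_lit 0) (XT.lf (nat_lit 0) (nat_lit 54032757849) (nat_lit 760) (nat_lit 733459289068) (nat_lit 836) (nat_lit 213519433347) (nat_lit 97) (nat_lit 5) (nat_lit 107) (nat_lit 5) (nat_lit 108) (nat_lit 5) (nat_lit 372) (nat_lit 371) (nat_lit 157)) (XT.lf (nat_lit 76) (nat_lit 18980312837)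 (nat_lit 0) (nat_lit 62189194630) (nat_lit 836) (nat_lit 960177833945) (nat_lit 98) (nat_lit 5) (nat_lit 97) (nat_lit 5) (nat_lit 108) (nat_lit 5) (nat_lit 373) (nat_lit 371) (nat_lit 156))))) (XT.nd (nat_lit 46878) (nat_lit 0) (nat_lit 0) (XT.nd (nat_lit 78) (nat_lit 152) (nat_lit 0) (XT.lf (nat_lit 0) (nat_lit 210050993333) (nat_lit 760) (nat_lit 507210153960) (nat_lit 836) (nat_lit 411300598064) (nat_lit 99) (nat_lit 5) (nat_lit 109) (nat_lit 5) (nat_lit 110) (nat_lit 5) (nat_lit 375) (nat_lit 371) (nat_lit 154)) (XT.nd (nat_lit 46722) (nat_lit 228) (nat_lit 0) (XT.lf (nat_lit 0) (nat_lit 309182237388) (nat_lit 760) (nat_lit 790317524175) (nat_lit 836) (nat_lit 76626214404) (nat_lit 100) (nat_lit 5) (nat_lit 110) (nat_lit 5) (nat_lit 111) (nat_lit 5) (nat_lit 376) (nat_lit 371) (nat_lit 153)) (XT.lf (nat_lit 76) (nat_lit 20498849027) (nat_lit 0) (nat_lit 67164399753) (nat_lit 836) (nat_lit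 1036991870687) (nat_lit 98) (nat_lit 5) (nat_lit 97) (nat_lit 5) (nat_lit 108) (nat_lit 5) (nat_lit 374) (nat_lit 372) (nat_lit 154)))) (XT.nd (nat_lit 46800) (nat_lit 76) (nat_lit 0) (XT.lf (nat_lit 0) (nat_lit 145499933981) (nat_lit 760) (nat_lit 256967542239) (nat_lit 836) (nat_lit 767926172698) (nat_lit 98) (nat_lit 5) (nat_lit 108) (nat_lit 5) (nat_lit 109) (nat_lit 5) (nat_lit 375) (nat_lit 372) (nat_lit 153)) (XT.nd (nat_lit 78) (nat_lit 0) (nat_lit 0) (XT.lf (nat_lit 0) (nat_lit 63024183238) (nat_lit 760) (nat_lit 855506689625) (nat_lit 836) (nat_lit 249048898527) (nat_lit 97) (nat_lit 5) (nat_lit 107) (nat_lit 5) (nat_lit 108) (nat_lit 5) (nat_lit 374) (nat_lit 373) (nat_lit 153)) (XT.lf (nat_lit 76) (nat_lit 22138852253) (nat_lit 0) (nat_lit 72537611363) (nat_lit 836) (nat_lit 1119951057471) (nat_lit 98) (nat_lit 5) (nat_lit 97) (nat_lit 5) (nat_lit 108) (nat_lit 5) (nat_lit 375)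 (nat_lit 373) (nat_lit 152))))))))

set_option maxRecDepth 10000000 in
noncomputable def Tp : PT := (PT.nd (nat_lit 7183332) (PT.nd (nat_lit 6809088) (PT.nd (nat_lit 6434454) pc0 pc1) (PT.nd (nat_lit 233844) pc2 pc3)) (PT.nd (nat_lit 187668) (PT.nd (nat_lit 94146) pc4 pc5) (PT.nd (nat_lit 141804) pc6 pc7)))

set_option maxRecDepth 10000000 in
noncomputable def Tx : XT := (XT.nd (nat_lit 11937588) (nat_lit 0) (nat_lit 76) XT.nil (XT.nd (nat_lit 5577234) (nat_lit 0) (nat_lit 0) (XT.nd (nat_lit 2529696) (nat_lit 0) (nat_lit 76) (XT.nd (nat_lit 1734252) (nat_lit 0) (nat_lit 76) (XT.nd (nat_lit 1218204) (nat_lit 0) (nat_lit 0) (XT.nd (nat_lit 843648) (nat_lit 0) (nat_lit 0) (XT.nd (nat_lit 607932) (nat_lit 0) (nat_lit 0) (XT.nd (nat_lit 421044) (nat_lit 0) (nat_lit 0) (XT.nd (nat_lit 280956) (nat_lit 0) (nat_lit 0) xc0 xc1) (XT.nd (nat_lit 93756) (nat_lit 0) (nat_lit 0) xc2 xc3)) (XT.nd (nat_lit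 140478) (nat_lit 0) (nat_lit 0) (XT.nd (nat_lit 48126) (nat_lit 0) (nat_lit 0) xc4 xc5) (XT.nd (nat_lit 47658) (nat_lit 0) (nat_lit 0) xc6 xc7))) (XT.nd (nat_lit 231816) (nat_lit 0) (nat_lit 0) (XT.nd (nat_lit 138138) (nat_lit 0) (nat_lit 0) (XT.nd (nat_lit 91104) (nat_lit 0) (nat_lit 0) xc8 xc9) (XT.nd (nat_lit 46878) (nat_lit 0) (nat_lit 0) xc10 xc11)) (XT.nd (nat_lit 92976) (nat_lit 0) (nat_lit 0) (XT.nd (nat_lit 46566) (nat_lit 0) (nat_lit 0) xc12 xc13) (XT.nd (nat_lit 3432) (nat_lit 0) (nat_lit 0) xc14 xc15)))) (XT.nd (nat_lit 281268) (nat_lit 0) (nat_lit 76) (XT.nd (nat_lit 183534) (nat_lit 0) (nat_lit 76) (XT.nd (nat_lit 92040) (nat_lit 0) (nat_lit 0) (XT.nd (nat_lit 46098) (nat_lit 0) (nat_lit 0) xc16 xc17) (XT.nd (nat_lit 45786) (nat_lit 0) (nat_lit 76) xc18 xc19)) (XT.nd (nat_lit 48906) (nat_lit 0) (nat_lit 0) (XT.nd (nat_lit 3432) (nat_lit 0) (nat_lit 0) xc20 xc21) (XT.nd (nat_lit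 45318) (nat_lit 0) (nat_lit 0) xc22 xc23))) (XT.nd (nat_lit 138528) (nat_lit 0) (nat_lit 0) (XT.nd (nat_lit 90168) (nat_lit 0) (nat_lit 0) (XT.nd (nat_lit 45162) (nat_lit 0) (nat_lit 0) xc24 xc25) (XT.nd (nat_lit 3432) (nat_lit 0) (nat_lit 0) xc26 xc27)) (XT.nd (nat_lit 48126) (nat_lit 0) (nat_lit 0) (XT.nd (nat_lit 44694) (nat_lit 0) (nat_lit 0) xc28 xc29) (XT.nd (nat_lit 44616) (nat_lit 0) (nat_lit 0) xc30 xc31))))) (XT.nd (nat_lit 418782) (nat_lit 0) (nat_lit 0) (XT.nd (nat_lit 231114) (nat_lit 0) (nat_lit 0) (XT.nd (nat_lit 136344) (nat_lit 0) (nat_lit 0) (XT.nd (nat_lit 88764) (nat_lit 0) (nat_lit 0) (XT.nd (nat_lit 44460) (nat_lit 0) (nat_lit 0) xc32 xc33) (XT.nd (nat_lit 3432) (nat_lit 152) (nat_lit 0) xc34 xc35)) (XT.nd (nat_lit 47424) (nat_lit 0) (nat_lit 0) (XT.nd (nat_lit 3432) (nat_lit 0) (nat_lit 0) xc36 xc37) (XT.nd (nat_lit 3432) (nat_lit 0) (nat_lit 0) xc38 xc39))) (XT.nd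 (nat_lit 94146) (nat_lit 0) (nat_lit 0) (XT.nd (nat_lit 47112) (nat_lit 0) (nat_lit 0) (XT.nd (nat_lit 43680) (nat_lit 0) (nat_lit 684) xc40 xc41) (XT.nd (nat_lit 43524) (nat_lit 0) (nat_lit 608) xc42 xc43)) (XT.nd (nat_lit 46800) (nat_lit 0) (nat_lit 0) (XT.nd (nat_lit 43368) (nat_lit 0) (nat_lit 684) xc44 xc45) (XT.nd (nat_lit 43212) (nat_lit 0) (nat_lit 836) xc46 xc47)))) (XT.nd (nat_lit 187590) (nat_lit 0) (nat_lit 0) (XT.nd (nat_lit 93600) (nat_lit 0) (nat_lit 0) (XT.nd (nat_lit 46722) (nat_lit 0) (nat_lit 0) (XT.nd (nat_lit 43290) (nat_lit 0) (nat_lit 988) xc48 xc49) (XT.nd (nat_lit 43368) (nat_lit 0) (nat_lit 1064) xc50 xc51)) (XT.nd (nat_lit 46878) (nat_lit 0) (nat_lit 0) (XT.nd (nat_lit 43446) (nat_lit 0) (nat_lit 1140) xc52 xc53) (XT.nd (nat_lit 43602) (nat_lit 0) (nat_lit 988) xc54 xc55))) (XT.nd (nat_lit 94380) (nat_lit 0) (nat_lit 0) (XT.nd (nat_lit 47112) (nat_lit 0) (nat_lit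 0) (XT.nd (nat_lit 43680) (nat_lit 0) (nat_lit 912) xc56 xc57) (XT.nd (nat_lit 43758) (nat_lit 0) (nat_lit 684) xc58 xc59)) (XT.nd (nat_lit 47268) (nat_lit 0) (nat_lit 0) (XT.nd (nat_lit 43836) (nat_lit 0) (nat_lit 456) xc60 xc61) (XT.nd (nat_lit 43914) (nat_lit 0) (nat_lit 380) xc62 xc63)))))) (XT.nd (nat_lit 937950) (nat_lit 0) (nat_lit 380) (XT.nd (nat_lit 423228) (nat_lit 0) (nat_lit 152) (XT.nd (nat_lit 231114) (nat_lit 0) (nat_lit 152) (XT.nd (nat_lit 94926) (nat_lit 0) (nat_lit 0) (XT.nd (nat_lit 47424) (nat_lit 0) (nat_lit 0) (XT.nd (nat_lit 43992) (nat_lit 0) (nat_lit 228) xc64 xc65) (XT.nd (nat_lit 44070) (nat_lit 0) (nat_lit 152) xc66 xc67)) (XT.nd (nat_lit 88374) (nat_lit 0) (nat_lit 0) (XT.nd (nat_lit 44148) (nat_lit 0) (nat_lit 0) xc68 xc69) (XT.nd (nat_lit 3432) (nat_lit 912) (nat_lit 0) xc70 xc71))) (XT.nd (nat_lit 95862) (nat_lit 0) (nat_lit 0) (XT.nd (nat_lit 47814) (nat_lit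 0) (nat_lit 0) (XT.nd (nat_lit 3432) (nat_lit 304) (nat_lit 0) xc72 xc73) (XT.nd (nat_lit 3432) (nat_lit 0) (nat_lit 0) xc74 xc75)) (XT.nd (nat_lit 48048) (nat_lit 0) (nat_lit 0) (XT.nd (nat_lit 44616) (nat_lit 0) (nat_lit 456) xc76 xc77) (XT.nd (nat_lit 44694) (nat_lit 0) (nat_lit 0) xc78 xc79)))) (XT.nd (nat_lit 276900) (nat_lit 0) (nat_lit 76) (XT.nd (nat_lit 138060) (nat_lit 0) (nat_lit 0) (XT.nd (nat_lit 89622) (nat_lit 0) (nat_lit 0) (XT.nd (nat_lit 44772) (nat_lit 0) (nat_lit 0) xc80 xc81) (XT.nd (nat_lit 3432) (nat_lit 304) (nat_lit 0) xc82 xc83)) (XT.nd (nat_lit 48438) (nat_lit 0) (nat_lit 76) (XT.nd (nat_lit 45006) (nat_lit 0) (nat_lit 456) xc84 xc85) (XT.nd (nat_lit 45084) (nat_lit 0) (nat_lit 0) xc86 xc87))) (XT.nd (nat_lit 97656) (nat_lit 0) (nat_lit 76) (XT.nd (nat_lit 48750) (nat_lit 0) (nat_lit 0) (XT.nd (nat_lit 3432) (nat_lit 456) (nat_lit 0) xc88 xc89) (XT.nd (nat_lit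 45396) (nat_lit 0) (nat_lit 228) xc90 xc91)) (XT.nd (nat_lit 91026) (nat_lit 0) (nat_lit 76) (XT.nd (nat_lit 45474) (nat_lit 0) (nat_lit 76) xc92 xc93) (XT.nd (nat_lit 45630) (nat_lit 0) (nat_lit 532) xc94 xc95))))) (XT.nd (nat_lit 655746) (nat_lit 0) (nat_lit 760) (XT.nd (nat_lit 325572) (nat_lit 0) (nat_lit 304) (XT.nd (nat_lit 140946) (nat_lit 0) (nat_lit 76) (XT.nd (nat_lit 91572) (nat_lit 0) (nat_lit 76) (XT.nd (nat_lit 45708) (nat_lit 0) (nat_lit 76) xc96 xc97) (XT.nd (nat_lit 45942) (nat_lit 0) (nat_lit 456) xc98 xc99)) (XT.nd (nat_lit 92118) (nat_lit 0) (nat_lit 152) (XT.nd (nat_lit 46020) (nat_lit 0) (nat_lit 76) xc100 xc101) (XT.nd (nat_lit 46176) (nat_lit 0) (nat_lit 0) xc102 xc103))) (XT.nd (nat_lit 142974) (nat_lit 0) (nat_lit 228) (XT.nd (nat_lit 49842) (nat_lit 0) (nat_lit 76) (XT.nd (nat_lit 46410) (nat_lit 0) (nat_lit 456) xc104 xc105) (XT.nd (nat_lit 46488) (nat_lit 0)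 (nat_lit 76) xc106 xc107)) (XT.nd (nat_lit 93366) (nat_lit 0) (nat_lit 76) (XT.nd (nat_lit 46644) (nat_lit 0) (nat_lit 0) xc108 xc109) (XT.nd (nat_lit 46800) (nat_lit 0) (nat_lit 152) xc110 xc111)))) (XT.nd (nat_lit 467766) (nat_lit 0) (nat_lit 1064) (XT.nd (nat_lit 188682) (nat_lit 0) (nat_lit 304) (XT.nd (nat_lit 94146) (nat_lit 0) (nat_lit 76) (XT.nd (nat_lit 47034) (nat_lit 0) (nat_lit 76) xc112 xc113) (XT.nd (nat_lit 47190) (nat_lit 0) (nat_lit 152) xc114 xc115)) (XT.nd (nat_lit 139074) (nat_lit 0) (nat_lit 304) (XT.nd (nat_lit 91494) (nat_lit 0) (nat_lit 304) xc116 xc117) (XT.nd (nat_lit 47658) (nat_lit 0) (nat_lit 304) xc118 xc119))) (XT.nd (nat_lit 282828) (nat_lit 0) (nat_lit 1140) (XT.nd (nat_lit 140868) (nat_lit 0) (nat_lit 532) (XT.nd (nat_lit 47970) (nat_lit 0) (nat_lit 152) xc120 xc121) (XT.nd (nat_lit 48360) (nat_lit 0) (nat_lit 152) xc122 xc123)) (XT.nd (nat_lit 234000)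 (nat_lit 0) (nat_lit 1064) (XT.nd (nat_lit 93990) (nat_lit 0) (nat_lit 380) xc124 xc125) (XT.nd (nat_lit 140946) (nat_lit 0) (nat_lit 1216) xc126 xc127))))))) XT.nil))

set_option maxRecDepth 10000000 in
noncomputable def Te : XT := XT.nil

set_option maxRecDepth 10000000 in
noncomputable def Tz : ZL := (ZL.cons (nat_lit 76) (nat_lit 3) (nat_lit 118865571836556902079) (ZL.cons (nat_lit 152) (nat_lit 6) (nat_lit 229355388335299677578) (ZL.cons (nat_lit 228) (nat_lit 6) (nat_lit 221645250803227873292) (ZL.cons (nat_lit 304) (nat_lit 3) (nat_lit 110501548903352529814) (ZL.cons (nat_lit 380) (nat_lit 6) (nat_lit 213318302268590324664) (ZL.cons (nat_lit 456) (nat_lit 6) (nat_lit 206255462191840718698) (ZL.cons (nat_lit 532) (nat_lit 3) (nat_lit 102830438041974612283) (ZL.cons (nat_lit 608) (nat_lit 6) (nat_lit 198627594908951144256) (ZL.cons (nat_lit 684) (nat_lit 6) (nat_lit 192176780040336835856)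 (ZL.cons (nat_lit 760) (nat_lit 3) (nat_lit 95813118673922355828) (ZL.cons (nat_lit 836) (nat_lit 6) (nat_lit 185209899982233382782) (ZL.cons (nat_lit 912) (nat_lit 6) (nat_lit 179340560072172794198) (ZL.cons (nat_lit 988) (nat_lit 3) (nat_lit 89415399159932635897) (ZL.cons (nat_lit 1064) (nat_lit 6) (nat_lit 173001672969307358530) (ZL.cons (nat_lit 1140) (nat_lit 6) (nat_lit 167687980965519299798) (ZL.cons (nat_lit 1216) (nat_lit 3) (nat_lit 83607989671506167304) (ZL.cons (nat_lit 1292) (nat_lit 6) (nat_lit 161949193601428196370) (ZL.cons (nat_lit 1368) (nat_lit 6) (nat_lit 157170105162382593364) (ZL.cons (nat_lit 1444) (nat_lit 3) (nat_lit 78366533311512146131) (ZL.cons (nat_lit 1520) (nat_lit 6) (nat_lit 152850393501792292390) (ZL.cons (nat_lit 1596) (nat_lit 6) (nat_lit 152008689648213342118) (ZL.cons (nat_lit 1672) (nat_lit 6) (nat_lit 147748066368996466234) (ZL.cons (nat_lit 1748)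 (nat_lit 3) (nat_lit 73671700527387908532) (ZL.cons (nat_lit 1824) (nat_lit 6) (nat_lit 143925948647422749786) (ZL.cons (nat_lit 1900) (nat_lit 6) (nat_lit 143146593227442240276) (ZL.cons (nat_lit 1976) (nat_lit 6) (nat_lit 140519686896993978162) (ZL.cons (nat_lit 2052) (nat_lit 6) (nat_lit 139393396193902486856) (ZL.cons (nat_lit 2128) (nat_lit 3) (nat_lit 69509353044071313258) (ZL.cons (nat_lit 2204) (nat_lit 6) (nat_lit 136061568786550395298) (ZL.cons (nat_lit 2280) (nat_lit 6) (nat_lit 135339943397679553162) (ZL.cons (nat_lit 2356) (nat_lit 6) (nat_lit 133131366842972027286) (ZL.cons (nat_lit 2432) (nat_lit 6) (nat_lit 132088505080850276076) (ZL.cons (nat_lit 2508) (nat_lit 3) (nat_lit 65870784898869647140) (ZL.cons (nat_lit 2584) (nat_lit 6) (nat_lit 130585426203501733230) (ZL.cons (nat_lit 2660) (nat_lit 6) (nat_lit 129245123355036547696) (ZL.cons (nat_lit 2736) (nat_lit 6) (nat_lit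 128576951698674656826) (ZL.cons (nat_lit 2812) (nat_lit 6) (nat_lit 126792948550752064442) (ZL.cons (nat_lit 2888) (nat_lit 6) (nat_lit 125827335808046739248) (ZL.cons (nat_lit 2964) (nat_lit 3) (nat_lit 62753049717397915087) (ZL.cons (nat_lit 3040) (nat_lit 6) (nat_lit 124717449261749214560) (ZL.cons (nat_lit 3116) (nat_lit 6) (nat_lit 123476428105762931658) (ZL.cons (nat_lit 3192) (nat_lit 6) (nat_lit 122857750646168588260) (ZL.cons (nat_lit 3268) (nat_lit 6) (nat_lit 123006326232982055240) (ZL.cons (nat_lit 3344) (nat_lit 6) (nat_lit 121510297286920811494) (ZL.cons (nat_lit 3420) (nat_lit 6) (nat_lit 120616211414045510388) (ZL.cons (nat_lit 3496) (nat_lit 3) (nat_lit 60159385163851038032) (ZL.cons (nat_lit 3572) (nat_lit 6) (nat_lit 121649439476131966276) (ZL.cons (nat_lit 3648) (nat_lit 6) (nat_lit 119917292205927240270) (ZL.cons (nat_lit 3724) (nat_lit 6) (nat_lit 118768198542976978320)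 (ZL.cons (nat_lit 3800) (nat_lit 6) (nat_lit 118195349043352586288) (ZL.cons (nat_lit 3876) (nat_lit 3) (nat_lit 58559904887605864442) (ZL.cons (nat_lit 3952) (nat_lit 6) (nat_lit 117293363792249457920) (ZL.cons (nat_lit 4028) (nat_lit 6) (nat_lit 117815054311611757506) (ZL.cons (nat_lit 4104) (nat_lit 6) (nat_lit 118687972832672626450) (ZL.cons (nat_lit 4180) (nat_lit 6) (nat_lit 117302760845578882240) (ZL.cons (nat_lit 4256) (nat_lit 6) (nat_lit 116474903555879529364) (ZL.cons (nat_lit 4332) (nat_lit 3) (nat_lit 58099747571299285828) (ZL.cons (nat_lit 4408) (nat_lit 6) (nat_lit 115126097966333798438) (ZL.cons (nat_lit 4484) (nat_lit 6) (nat_lit 115487090321772274838) (ZL.cons (nat_lit 4560) (nat_lit 6) (nat_lit 116211214246607381574) (ZL.cons (nat_lit 4636) (nat_lit 6) (nat_lit 115147238632764546438) (ZL.cons (nat_lit 4712) (nat_lit 6) (nat_lit 114616822429408627886) (ZL.cons (nat_lit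 4788) (nat_lit 3) (nat_lit 56726811265353388533) (ZL.cons (nat_lit 4864) (nat_lit 6) (nat_lit 113641060869107524430) (ZL.cons (nat_lit 4940) (nat_lit 6) (nat_lit 114204486630018807980) (ZL.cons (nat_lit 5016) (nat_lit 6) (nat_lit 113437952102519407168) (ZL.cons (nat_lit 5092) (nat_lit 3) (nat_lit 56591472156222223162) (ZL.cons (nat_lit 5168) (nat_lit 6) (nat_lit 112266026519823937382) (ZL.cons (nat_lit 5244) (nat_lit 6) (nat_lit 112655898263697491896) (ZL.cons (nat_lit 5320) (nat_lit 6) (nat_lit 112164772149479048792) (ZL.cons (nat_lit 5396) (nat_lit 3) (nat_lit 55676919461111027703) (ZL.cons (nat_lit 5472) (nat_lit 6) (nat_lit 111556272327694862556) (ZL.cons (nat_lit 5548) (nat_lit 3) (nat_lit 55660077001775690148) (ZL.cons (nat_lit 5624) (nat_lit 6) (nat_lit 110899092520167941424) (ZL.cons (nat_lit 5700) (nat_lit 1) (nat_lit 18446744073709551617) ZL.nil)))))))))))))))))))))))))))))))))))))))))))))))))))))))))))))))))))))))))))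

noncomputable def vl : XL := ⟨(nat_lit 0), (nat_lit 76), (nat_lit 50710670), (nat_lit 152), (nat_lit 225808765), (nat_lit 152), (nat_lit 225808765), (nat_lit 1), (nat_lit 4), (nat_lit 2), (nat_lit 5), (nat_lit 2), (nat_lit 4), (nat_lit 0), (nat_lit 0), (nat_lit 0)⟩

noncomputable def cp0 : Nat := (nat_lit 33640326928664826614378491377268173980434467765179841028732550870787140862476675013814778078963446541015478868186797161788956676274566247394892469890446670882718837617538909790360322005306590829003734399878534401386327323863193631945618367746987095511060258432506734374618147186736943864237298532166101437287871565008285019885814506278175218198018273172522545045136304472261621754292466339484404272520527052833109931985319667892538254866281883195547624952296207307535985480167038372009321641475444075014516753624320411114864148167824297460481967838429349893577291022428293620571263795273244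00889092491717538468064026231283279264388534711962327645074948033403223852121729265498942850693955902133594701725369234238564522906094606848955204095781276758996813121018732404762918525821060073863745924553548605410241222582269804640223588474855900791240815010060389232516807599083960009574782516393998722599861229222819376690091606464102456909984232800750028075053066122822611241231758121770159962437798032553842128514065063576876893787997645370053965584084934511782824611895232117956405092851574329096412837305543261667269153553904212828240198940411012638507887222486570034705941501899950763916291988344574904103155837635611916568168913174697659117393079596586088871677854381050138759036902560949003411166924392115464050752377281642398410240325044881164310040788378831471009988620679668063769953594425015002606450950114311798921943303528206548734174212337480783060257290150466770648123891025627670852769391514508789831272940169014697062009091991198352890817589189246100818413860028686535017452373351194753820543140712214742529249458680813561101670488701475339630768176217328638096774005963219144642807628619807141862649645163403551918409121792)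

noncomputable def cp1 : Nat := (nat_lit 43279876773902121181753927628569174162273580931867594428716600178939770042437224733671068926181823805119660863813023176963822565202140958543036078653418440220906712219731654101368432532453220990469699022475996028918440928976340331399992837967343785608192008569216229043548739640236609445726574679011665560116675777908786844620887603863948959133742818290593621147862565607462621679140013163797472313410614483288105723029891502585778264130153181936114417422832456953118222357526511546053540887341241718853248215270841214045225856928211538152582702461968812024314154603879541380731165489986528784391449286184942337038991827464712576318909837859062886853046258631816388786775189398628118952410619764087537298617017602248569790218766722281378210340519807430781443381186478052183146743224231660574183327512864319831389757915478368929356429058577490105046650495562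46193417982533969478638038280497887835985772959490978908012509109305620169917395479808526173221829191248377913762407504031016438396342969778085131701812030279360482286605034368704618805455694632859748759398046076525222940007508980005203464672634397421292580789051707232773322298941625116161753667526873842802001784941066795444990341682414332994844050314253738284629069645035774424744354781907922656051528724554242329202303185661290411142754657747881914887698665132014278060714911744046665957546347307136520485472127396638141753760537697177510878877622814704589940635295486770118836894939520354527264634979774675102137891386586638105488510562252960935783474889601611354044081707772220965938817554881543864759686578113949829459222212702179995691632244092182504361441037604484598051475177981782881513414611130909636761767993397602962953451603279943240229670267982584248646815953950125104286971258432057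24095625410409982086383091216495714131389586524779434900109798770890528874137184714185910283963874925746943257713006436918271167223792604170396689234733242366094713878925921583133470582561379774289208918271314710596120520772350578056451426527143041234519788797706852873622020624445258429436035817794592414583381616328714767553435606172226340847341475636971924466782543627927125330863678088525875486427199659378016907254556754630088924161596179061720053832770314799519152299444071518580477280800056766847687756690573652566999529220809454971856472049209292151794347549463301138035623386329264739061466622436476444568169481355498457551861946321663005200993957168273235652564508213433845689936699576300075222835549407981229348282989053031784039509234275401532939216943520303394217254556244845207414358242767624447480675575820128406201996720878457403734761615451297160430456071513819439906360073545220204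532578491879813403917819466095966389886917604075513383687313986899113528438487181163704812547047336637594967515467421228028192618770890944459547546921603270995659183418765454005402200778175987626854501438513419947375322011210594238545837028592070589969379097146474862527230155295543662927355619211497557485275457857361630574920442635388113655793703477147782262794558722163143127456232282826597267022164156409802836453694799765167097388956227283081712254944764006024098310785515621748475244608226981698729663416161191379224632615975469716866965959016669343099696815737207244154729031201971921615307116974723350359127451321553348806338294255448059155907670507702322606970571146091044922392708716908918671920187030012020793330898392139339121974886468811240337332857031596533404103552712973792642530392230263521147293562283586067282266590239722524262413387384350037561711468707544468755738075400863528190375404024931799158006671233515520)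

noncomputable def rc0 : Nat := (nat_lit 43279876773902121181753927628569174162273580931867594428716600178939770042437224733671068926181823805119660863813023176963822565202140958543036078653418440220906712219731654101368432532453220990469699022475996028918440928976340331399992837967343785608192008569216229043548739640236609445726574679011665560116675777908786844620887603863948959133742818290593621147862565607462621679140013163797472313410614483288105723029891502585778264130153181936114417422832456953118222357526511546053540887341241718853248215270841214045225856928211538152582702461968812024314154603879541380731165489986528784391449286184942337038991827464712576318909837859062886853046258631816388786775189398628118952410619764087537298617017602248569790218766722281378210340519807430781443381186478052183146743224231660574183327512864319831389757915478368929356429058577490105046650495562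46193417982533969478638038280497887835985772959490978908012509109305620169917395479808526173221829191248377913762407504031016438396342969778085131701812030279360482286605034368704618805455694632859748759398046076525222940007508980005203464672634397421292580789051707232773322298941625116161753667526873842802001784941066795444990341682414332994844050314253738284629069645035774424744354781907922656051528724554242329202303185661290411142754657747881914887698665132014278060714911744046665957546347307136520485472127396638141753760537697177510878877622814704589940635295486770118836894939520354527264634979774675102137891386586638105488510562252960935783474889601611354044081707772220965938817554881543864759686578113949829459222212702179995691632244092182504361441037604484598051475177981782881513414611130909636761767993397602962953451603279943240229670267982584248646815953950125104286971258432057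24095625410409982086383091216495714131389586524779434900109798770890528874137184714185910283963874925746943257713006436918271167223792604170396689234733242366094713878925921583133470582561379774289208918271314710596120520772350578056451426527143041234519788797706852873622020624445258429436035817794592414583381616328714767553435606172226340847341475636971924466782543627927125330863678088525875486427199659378016907254556754630088924161596179061720053832770314799519152299444071518580477280800056766847687756690573652566999529220809454971856472049209292151794347549463301138035623386329264739061466622436476444568169481355498457551861946321663005200993957168273235652564508213433845689936699576300075222835549407981229348282989053031784039509234275401532939216943520303394217254556244845207414358242767624447480675575820128406201996720878457403734761615451297160430456071513819439906360073545220204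532578491879813403917819466095966389886917604075513383687313986899113528438487181163704812547047336637594967515467421228028192618770890944459547546921603270995659183418765454005402200778175987626854501438513419947375322011210594238545837028592070589969379097146474862527230155295543662927355619211497557485275457857361630574920442635388113655793703477147782262794558722163143127456232282826597267022164156409802836453694799765167097388956227283081712254944764006024098310785515621748475244608226981698729663416161191379224632615975469716866965959016669343099696815737207244154729031201971921615307116974723350359127451321553348806338294255448059155907670507702322606970571146091044922392708716908918671920187030012020793330898392139339121974886468811240337332857031596533404103552712973792642530392230263521147293562283586067282266590239722524262413387384350037561711468707544468755738075400863528190375404024931799158006671233515520)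

end Vale.Agent.Lib.P154.PChain.BJ.S3
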